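import Crest.Agent.R235.Tube_153
import Crest.Agent.R235.FamDefs_153
import Crest.Agent.R235.TorFamDefs_384
import Crest.Agent.R235.NoZeroT_504

/-!
# Row 235, TOR / FIB-B1 (helper153): from the mean version of the family to the immersed version

`famT_of` : `FamIn r x z → FamOut r x z d a → ∃ δ a', FamT r x z δ a'`
(`NOZERO` of helper504 gives that the `c`-derivative of the family is injective).
-/

set_option autoImplicit false
set_option maxSynthPendingDepth 3

open Set Function Filter MeasureTheory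
open scoped ContDiff Topology

namespace Crest.Agent.R235.LocFolA_153

open Crest.Agent.R281.Mc673 Crest.Agent.R235.Fam_153 Crest.Agent.R235.TorFam_384
open Crest.Agent.R235.Pull_153 (pl pl_apply pl_contDiffAt pl_closed)
open Crest.Agent.R240.Ch (dd)

noncomputable section

/-- the graph map -/
def gm (a : W 2 → V 2) (p : W 2) : W 2 := (p.1, a p)

theorem hasFDerivAt_gm {a : W 2 → V 2} {p : W 2} (ha : DifferentiableAt ℝ a p) :
    HasFDerivAt (gm a) ((ContinuousLinearMap.fst ℝ (V 2) (V 2)).prod (fderiv ℝ a p)) p :=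
  hasFDerivAt_fst.prodMk ha.hasFDerivAt

theorem fderiv_gm {a : W 2 → V 2} {p : W 2} (ha : DifferentiableAt ℝ a p) (u : W 2) :
    fderiv ℝ (gm a) p u = (u.1, fderiv ℝ a p u) := by
  rw [(hasFDerivAt_gm ha).fderiv]
  rfl

theorem contDiffAt_gm {a : W 2 → V 2} {p : W 2} (ha : ContDiffAt ℝ ∞ a p) :
    ContDiffAt ℝ ∞ (gm a) p := contDiffAt_fst.prodMk ha

theorem zero_mem_tube {d : ℝ} (hd : 0 < d) (y : V 2) : ((y, 0) : W 2) ∈ tube 2 d := by
  show ‖(0 : V 2)‖ < d
  rwa [norm_zero]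

theorem tube_nhds {d : ℝ} {p : W 2} (hp : p ∈ tube 2 d) : tube 2 d ∈ 𝓝 p :=
  (isOpen_tube d).mem_nhds hp

/-- the derivative along the base of a map vanishing on the zero section -/
theorem fderiv_base {a : W 2 → V 2} {y : V 2} (ha : DifferentiableAt ℝ a (y, 0))
    (h0 : ∀ y : V 2, a (y, 0) = 0) (u : V 2) : fderiv ℝ a (y, 0) (u, 0) = 0 := by
  have hg : HasFDerivAt (fun z : V 2 => ((z, 0) : W 2)) (ContinuousLinearMap.inl ℝ (V 2) (V 2)) y :=
    (hasFDerivAt_id y).prodMk (hasFDerivAt_const 0 y)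
  have h1 : HasFDerivAt (fun z : V 2 => a (z, 0))
      ((fderiv ℝ a (y, 0)).comp (ContinuousLinearMap.inl ℝ (V 2) (V 2))) y :=
    HasFDerivAt.comp y (g := a) (f := fun z : V 2 => ((z, 0) : W 2)) ha.hasFDerivAt hg
  have h2 : (fun z : V 2 => a (z, 0)) = fun _ => 0 := funext h0
  rw [h2] at h1
  have h3 := h1.unique (hasFDerivAt_const (0 : V 2) y)
  exact congrArg (fun L : V 2 →L[ℝ] V 2 => L u) h3

/-- **linearised isotropy is closedness** -/
theorem curl {r d : ℝ} (hr : 0 < r) (hd : 0 < d) {κ : Fo 2} (hκ : ClF r κ) {a : W 2 → V 2}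
    (ha : ContDiffOn ℝ ∞ a (tube 2 d)) (h0 : ∀ y : V 2, a (y, 0) = 0)
    (hiso : ∀ p ∈ tube 2 d, ∀ u v : V 2,
      κ (p.1, a p) (u, fderiv ℝ a p (u, 0)) (v, fderiv ℝ a p (v, 0)) = 0) (c y u v : V 2) :
    fderiv ℝ (fun y : V 2 => κ (y, 0) (0, fderiv ℝ a (y, 0) (0, c)) (v, 0)) y u =
      fderiv ℝ (fun y : V 2 => κ (y, 0) (0, fderiv ℝ a (y, 0) (0, c)) (u, 0)) y v := by
  have haa : ∀ p ∈ tube 2 d, ContDiffAt ℝ ∞ a p := fun p hp => ha.contDiffAt (tube_nhds hp)
  have had : ∀ p ∈ tube 2 d, DifferentiableAt ℝ a p := fun p hp =>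
    (haa p hp).differentiableAt (by simp)
  have hκa : ∀ p ∈ tube 2 r, ContDiffAt ℝ ∞ κ p := fun p hp => hκ.sm.contDiffAt (tube_nhds hp)
  have hg0 : ∀ y : V 2, gm a (y, 0) = (y, 0) := fun y => by
    show (y, a (y, 0)) = (y, 0)
    rw [h0]
  have hκg : ∀ y : V 2, ContDiffAt ℝ ∞ κ (gm a (y, 0)) := fun y => by
    rw [hg0]; exact hκa _ (zero_mem_tube hr y)
  have hΩs : ∀ y : V 2, ContDiffAt ℝ ∞ (pl κ (gm a)) (y, 0) := fun y =>
    pl_contDiffAt (hκg y) (contDiffAt_gm (haa _ (zero_mem_tube hd y)))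
  have hΩd : ∀ y : V 2, DifferentiableAt ℝ (pl κ (gm a)) (y, 0) := fun y =>
    (hΩs y).differentiableAt (by simp)
  -- vanishing on horizontal vectors
  have hz : ∀ p ∈ tube 2 d, ∀ u v : V 2, pl κ (gm a) p (u, 0) (v, 0) = 0 := by
    intro p hp u v
    rw [pl_apply, fderiv_gm (had p hp), fderiv_gm (had p hp)]
    exact hiso p hp u v
  have hz' : ∀ (y u v : V 2) (t : W 2), fderiv ℝ (pl κ (gm a)) (y, 0) t (u, 0) (v, 0) = 0 := by
    intro y u v t
    have h1 : fderiv ℝ (fun p => pl κ (gm a) p (u, 0) (v, 0)) (y, 0) t =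
        fderiv ℝ (pl κ (gm a)) (y, 0) t (u, 0) (v, 0) := by
      have h5 : DifferentiableAt ℝ (fun z => pl κ (gm a) z (u, 0)) (y, 0) :=
        (hΩd y).clm_apply (differentiableAt_const _)
      rw [fderiv_clm_apply h5 (differentiableAt_const _),
        fderiv_clm_apply (hΩd y) (differentiableAt_const _)]
      simp
    rw [← h1]
    have h2 : (fun p => pl κ (gm a) p (u, 0) (v, 0)) =ᶠ[𝓝 ((y, 0) : W 2)] fun _ => (0 : ℝ) := by
      filter_upwards [tube_nhds (zero_mem_tube hd y)] with p hp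
      exact hz p hp u v
    rw [h2.fderiv_eq]
    simp
  -- antisymmetry
  have hκalt : ∀ p ∈ tube 2 r, ∀ t u v, fderiv ℝ κ p t u v = - fderiv ℝ κ p t v u := by
    intro p hp t u v
    have hκd : DifferentiableAt ℝ κ p := (hκa p hp).differentiableAt (by simp)
    have e : ∀ s q : W 2, fderiv ℝ κ p t s q = fderiv ℝ (fun z => κ z s q) p t := by
      intro s q
      have h5 : DifferentiableAt ℝ (fun z => κ z s) p := hκd.clm_apply (differentiableAt_const _)
      rw [fderiv_clm_apply h5 (differentiableAt_const _),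
        fderiv_clm_apply hκd (differentiableAt_const _)]
      simp
    rw [e, e]
    have : (fun z => κ z u v) =ᶠ[𝓝 p] fun z => - κ z v u := by
      filter_upwards [tube_nhds hp] with z hz
      exact hκ.alt z hz u v
    rw [this.fderiv_eq, fderiv_fun_neg]
    rfl
  have hcl := pl_closed (b := κ) (φ := gm a) (y := ((y, 0) : W 2))
    ((hκg y).differentiableAt (by simp)) (contDiffAt_gm (haa _ (zero_mem_tube hd y)))
    (fun u v => by rw [hg0]; exact hκ.alt _ (zero_mem_tube hr y) u v)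
    (fun t u v => by rw [hg0]; exact hκalt _ (zero_mem_tube hr y) t u v)
    (fun u v w => by
      rw [hg0]
      have h1 := hκ.cl _ (zero_mem_tube hr y) u v w
      have h2 := hκalt _ (zero_mem_tube hr y) v u w
      unfold dd
      linarith) (u, 0) (v, 0) (0, c)
  rw [hz'] at hcl
  have hΩalt : fderiv ℝ (pl κ (gm a)) (y, 0) (v, 0) (0, c) (u, 0) =
      - fderiv ℝ (pl κ (gm a)) (y, 0) (v, 0) (u, 0) (0, c) := by
    have e : ∀ s q : W 2, fderiv ℝ (pl κ (gm a)) (y, 0) (v, 0) s q =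
        fderiv ℝ (fun z => pl κ (gm a) z s q) (y, 0) (v, 0) := by
      intro s q
      have h5 : DifferentiableAt ℝ (fun z => pl κ (gm a) z s) (y, 0) :=
        (hΩd y).clm_apply (differentiableAt_const _)
      rw [fderiv_clm_apply h5 (differentiableAt_const _),
        fderiv_clm_apply (hΩd y) (differentiableAt_const _)]
      simp
    rw [e, e]
    have hev : ∀ᶠ z in 𝓝 ((y, 0) : W 2), gm a z ∈ tube 2 r := by
      have hc : ContinuousAt (gm a) (y, 0) := (contDiffAt_gm (haa _ (zero_mem_tube hd y))).continuousAt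
      refine hc.preimage_mem_nhds ?_
      rw [hg0]
      exact tube_nhds (zero_mem_tube hr y)
    have : (fun z => pl κ (gm a) z (0, c) (u, 0)) =ᶠ[𝓝 ((y, 0) : W 2)]
        fun z => - pl κ (gm a) z (u, 0) (0, c) := by
      filter_upwards [hev] with z hz
      rw [pl_apply, pl_apply]
      exact hκ.alt _ hz _ _
    rw [this.fderiv_eq, fderiv_fun_neg]
    rfl
  -- the functions
  have key : ∀ u v : V 2,
      fderiv ℝ (fun y : V 2 => κ (y, 0) (0, fderiv ℝ a (y, 0) (0, c)) (v, 0)) y u =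
        - fderiv ℝ (pl κ (gm a)) (y, 0) (u, 0) (v, 0) (0, c) := by
    intro u v
    have h1 : (fun y : V 2 => κ (y, 0) (0, fderiv ℝ a (y, 0) (0, c)) (v, 0)) =
        fun y : V 2 => - pl κ (gm a) (y, 0) (v, 0) (0, c) := by
      funext y
      rw [pl_apply, fderiv_gm (had _ (zero_mem_tube hd y)), fderiv_gm (had _ (zero_mem_tube hd y)),
        hg0, fderiv_base (had _ (zero_mem_tube hd y)) h0]
      exact hκ.alt _ (zero_mem_tube hr y) _ _
    have hg : HasFDerivAt (fun z : V 2 => ((z, 0) : W 2))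
        (ContinuousLinearMap.inl ℝ (V 2) (V 2)) y :=
      (hasFDerivAt_id y).prodMk (hasFDerivAt_const 0 y)
    have h2 : HasFDerivAt (fun z : V 2 => pl κ (gm a) (z, 0))
        ((fderiv ℝ (pl κ (gm a)) (y, 0)).comp (ContinuousLinearMap.inl ℝ (V 2) (V 2))) y :=
      HasFDerivAt.comp y (g := pl κ (gm a)) (f := fun z : V 2 => ((z, 0) : W 2))
        (hΩd y).hasFDerivAt hg
    have h5 : DifferentiableAt ℝ (fun z : V 2 => pl κ (gm a) (z, 0) (v, 0)) y :=
      h2.differentiableAt.clm_apply (differentiableAt_const _)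
    rw [h1, fderiv_fun_neg, fderiv_clm_apply h5 (differentiableAt_const _),
      fderiv_clm_apply h2.differentiableAt (differentiableAt_const _), h2.fderiv]
    simp
  rw [key, key]
  linarith

/-! ### algebra -/

/-- a definite binary quadratic form has the sign of its first coefficient -/
theorem quad_sign {α β γ : ℝ}
    (h : ∀ s t : ℝ, (s ≠ 0 ∨ t ≠ 0) → α * s ^ 2 + β * s * t + γ * t ^ 2 ≠ 0) (hα : 0 < α)
    {s t : ℝ} (hst : s ≠ 0 ∨ t ≠ 0) : 0 < α * s ^ 2 + β * s * t + γ * t ^ 2 := by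
  have hD : β ^ 2 - 4 * α * γ < 0 := by
    by_contra hD
    push Not at hD
    refine h (-β + √(β ^ 2 - 4 * α * γ)) (2 * α) (Or.inr (by positivity)) ?_
    have h1 := Real.mul_self_sqrt hD
    linear_combination α * h1
  have h4 : 4 * α * (α * s ^ 2 + β * s * t + γ * t ^ 2) =
      (2 * α * s + β * t) ^ 2 + (-(β ^ 2 - 4 * α * γ)) * t ^ 2 := by ring
  have h5 : 0 < 4 * α * (α * s ^ 2 + β * s * t + γ * t ^ 2) := by
    rw [h4]
    by_cases ht : t = 0
    · have hs : s ≠ 0 := by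
        rcases hst with h | h
        · exact h
        · exact absurd ht h
      rw [ht]
      have : 0 < (2 * α * s) ^ 2 := by positivity
      nlinarith
    · have : 0 < t ^ 2 := by positivity
      have h6 : 0 < (-(β ^ 2 - 4 * α * γ)) * t ^ 2 := mul_pos (by linarith) this
      nlinarith [sq_nonneg (2 * α * s + β * t)]
  have h6 : 0 < 4 * α := by positivity
  exact (mul_pos_iff_of_pos_left h6).1 h5

/-- unit vectors of the plane -/
def eu (i : Fin 2) : V 2 := Crest.Agent.R238.Sch.ee i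

theorem eu_apply (i j : Fin 2) : (eu i) j = if i = j then 1 else 0 := by
  simp [eu, Crest.Agent.R238.Sch.ee, eq_comm]

theorem vec_eq (v : V 2) : v = v 0 • eu 0 + v 1 • eu 1 := by
  ext i
  fin_cases i <;> simp [eu_apply]

theorem inner_eu (v : V 2) (i : Fin 2) : inner ℝ v (eu i) = v i := by
  rw [PiLp.inner_apply]
  fin_cases i <;> simp [eu_apply]

/-- the matrix of the pair -/
def mat (z : Fo 2) (y : V 2) : Matrix (Fin 2) (Fin 2) ℝ :=
  Matrix.of fun i j => z (y, 0) (0, eu j) (eu i, 0)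

theorem mat_mulVec (z : Fo 2) (y v : V 2) (i : Fin 2) :
    (mat z y).mulVec v.ofLp i = z (y, 0) (0, v) (eu i, 0) := by
  have h1 : ((0, v) : W 2) = v 0 • (0, eu 0) + v 1 • (0, eu 1) := by
    ext1
    · simp
    · simpa using vec_eq v
  rw [h1]
  simp only [map_add, map_smul, _root_.add_apply, _root_.smul_apply, smul_eq_mul]
  simp [mat, Matrix.mulVec, dotProduct, Fin.sum_univ_two]
  ring

theorem mat_vecMul (z : Fo 2) (y u : V 2) (j : Fin 2) :
    Matrix.vecMul u.ofLp (mat z y) j = z (y, 0) (0, eu j) (u, 0) := by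
  have h1 : ((u, 0) : W 2) = u 0 • (eu 0, 0) + u 1 • (eu 1, 0) := by
    ext1
    · simpa using vec_eq u
    · simp
  rw [h1]
  simp only [map_add, map_smul, smul_eq_mul]
  simp [mat, Matrix.vecMul, dotProduct, Fin.sum_univ_two]

theorem det_ne {r : ℝ} {x z : Fo 2} (h : FamIn r x z) (y : V 2) (v : Fin 2 → ℝ) (hv : v ≠ 0) :
    v 0 * (mat z y).mulVec v 1 - v 1 * (mat z y).mulVec v 0 ≠ 0 := by
  intro h0
  obtain ⟨l, hl⟩ : ∃ l : ℝ, ∀ i, (mat z y).mulVec v i = l * v i := by
    by_cases h1 : v 0 = 0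
    · have h2 : v 1 ≠ 0 := by
        intro h2
        apply hv
        funext i
        fin_cases i
        · exact h1
        · exact h2
      refine ⟨(mat z y).mulVec v 1 / v 1, fun i => ?_⟩
      fin_cases i
      · simp only [Fin.zero_eta, Fin.isValue, h1, mul_zero]
        rw [h1, zero_mul, zero_sub, neg_eq_zero] at h0
        exact (mul_eq_zero.1 h0).resolve_left h2
      · simp only [Fin.mk_one, Fin.isValue]
        field_simp
    · refine ⟨(mat z y).mulVec v 0 / v 0, fun i => ?_⟩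
      fin_cases i
      · simp only [Fin.zero_eta, Fin.isValue]
        field_simp
      · simp only [Fin.mk_one, Fin.isValue]
        field_simp
        linarith
  set Mt : Matrix (Fin 2) (Fin 2) ℝ := mat z y - l • (1 : Matrix (Fin 2) (Fin 2) ℝ) with hM
  have hMv : Mt.mulVec v = 0 := by
    funext i
    rw [hM, Matrix.sub_mulVec, Matrix.smul_mulVec, Matrix.one_mulVec]
    simp only [Pi.sub_apply, Pi.smul_apply, smul_eq_mul, Pi.zero_apply]
    rw [hl i]; ring
  have hdet : Mt.det = 0 := Matrix.exists_mulVec_eq_zero_iff.1 ⟨v, hv, hMv⟩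
  obtain ⟨u, hu, huM⟩ := Matrix.exists_vecMul_eq_zero_iff.2 hdet
  have huM' : ∀ j, Matrix.vecMul u (mat z y) j = l * u j := by
    intro j
    have := congrFun huM j
    rw [hM, Matrix.vecMul_sub, Matrix.vecMul_smul, Matrix.vecMul_one] at this
    simp only [Pi.sub_apply, Pi.smul_apply, smul_eq_mul, Pi.zero_apply] at this
    linarith
  have hez := h.ell y (-l) 1 (Or.inr one_ne_zero) (WithLp.toLp 2 u, 0) (fun q => by
    have hq : q = (q.1, 0) + (q.2 0 • (0, eu 0) + q.2 1 • (0, eu 1)) := by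
      ext1
      · simp
      · simpa using vec_eq q.2
    have hal : ∀ p ∈ tube 2 r, ∀ u v, x p u v = - x p v u := h.cx.alt
    have haz : ∀ p ∈ tube 2 r, ∀ u v, z p u v = - z p v u := h.cz.alt
    have hy : ((y, 0) : W 2) ∈ tube 2 r := zero_mem_tube h.pos y
    rw [hal _ hy, haz _ hy, hq]
    simp only [map_add, map_smul, _root_.add_apply, _root_.smul_apply, smul_eq_mul]
    rw [h.hx, h.hz, h.nx, h.nx, ← mat_vecMul z y (WithLp.toLp 2 u) 0,
      ← mat_vecMul z y (WithLp.toLp 2 u) 1, real_inner_comm, inner_eu, real_inner_comm, inner_eu]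
    show -l * -(0 + (q.2 0 * u 0 + q.2 1 * u 1)) + 1 * -(0 + (q.2 0 * Matrix.vecMul u (mat z y) 0 +
      q.2 1 * Matrix.vecMul u (mat z y) 1)) = 0
    rw [huM', huM']
    ring)
  apply hu
  have h1 := congrArg Prod.fst hez
  simp only [Prod.fst_zero] at h1
  have h2 := congrArg WithLp.ofLp h1
  simpa using h2

/-- constant sign -/
theorem det_sign {r : ℝ} {x z : Fo 2} (h : FamIn r x z) (hc : Continuous fun y => mat z y 1 0) :
    (∀ y : V 2, ∀ v : Fin 2 → ℝ, v ≠ 0 →
      0 < v 0 * (mat z y).mulVec v 1 - v 1 * (mat z y).mulVec v 0) ∨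
    (∀ y : V 2, ∀ v : Fin 2 → ℝ, v ≠ 0 →
      0 < v 0 * (-mat z y).mulVec v 1 - v 1 * (-mat z y).mulVec v 0) := by
  have hq : ∀ (A : Matrix (Fin 2) (Fin 2) ℝ) (v : Fin 2 → ℝ),
      v 0 * A.mulVec v 1 - v 1 * A.mulVec v 0 =
        A 1 0 * v 0 ^ 2 + (A 1 1 - A 0 0) * v 0 * v 1 + (-A 0 1) * v 1 ^ 2 := by
    intro A v
    simp only [Matrix.mulVec, dotProduct, Fin.sum_univ_two]
    ring
  have hvec : ∀ s t : ℝ, (s ≠ 0 ∨ t ≠ 0) → (![s, t] : Fin 2 → ℝ) ≠ 0 := by
    intro s t hst h0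
    have h1 := congrFun h0 0
    have h2 := congrFun h0 1
    simp at h1 h2
    rcases hst with h | h
    · exact h h1
    · exact h h2
  have hvec' : ∀ v : Fin 2 → ℝ, v ≠ 0 → v 0 ≠ 0 ∨ v 1 ≠ 0 := by
    intro v hv
    by_contra hcon
    push Not at hcon
    apply hv
    funext i
    fin_cases i
    · exact hcon.1
    · exact hcon.2
  have hne : ∀ y : V 2, mat z y 1 0 ≠ 0 := by
    intro y
    have := det_ne h y ![1, 0] (hvec 1 0 (Or.inl one_ne_zero))
    rw [hq] at this
    simpa using this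
  have hall : ∀ y : V 2, ∀ s t : ℝ, (s ≠ 0 ∨ t ≠ 0) → mat z y 1 0 * s ^ 2 +
      (mat z y 1 1 - mat z y 0 0) * s * t + (- mat z y 0 1) * t ^ 2 ≠ 0 := by
    intro y s t hst
    have := det_ne h y ![s, t] (hvec s t hst)
    rw [hq] at this
    simpa using this
  have hsgn : (∀ y : V 2, 0 < mat z y 1 0) ∨ (∀ y : V 2, mat z y 1 0 < 0) := by
    by_contra hcon
    push Not at hcon
    obtain ⟨⟨y1, h1⟩, y2, h2⟩ := hcon
    obtain ⟨y, hy⟩ := mem_range_of_exists_le_of_exists_ge hc ⟨y1, h1⟩ ⟨y2, h2⟩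
    exact hne y hy
  rcases hsgn with hs | hs
  · left
    intro y v hv
    rw [hq]
    exact quad_sign (hall y) (hs y) (hvec' v hv)
  · right
    intro y v hv
    rw [hq]
    refine quad_sign (fun s t hst => ?_) (by simpa using hs y) (hvec' v hv)
    have := hall y s t hst
    simp only [Matrix.neg_apply]
    intro h0
    apply this
    linear_combination -h0

/-! ### the mean -/

theorem box_cube {x : Fin 2 → ℝ} (hx : x ∈ Crest.Agent.R275.Tor812.box (0 : Fin 2 → ℝ)) :
    (WithLp.toLp 2 x : V 2) ∈ cube 2 := by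
  intro i
  have := hx i
  simp only [Pi.zero_apply, zero_add] at this
  exact ⟨this.1.le, this.2⟩

theorem mn_le {f : V 2 → ℝ} {C : ℝ} (h : ∀ y ∈ cube 2, |f y| ≤ C) : |mn f| ≤ C := by
  have h1 : ‖∫ x in Crest.Agent.R275.Tor812.box (0 : Fin 2 → ℝ), f (WithLp.toLp 2 x)‖ ≤
      C * (volume (Crest.Agent.R275.Tor812.box (0 : Fin 2 → ℝ))).toReal := by
    refine norm_setIntegral_le_of_norm_le_const ?_ fun x hx => ?_
    · rw [Crest.Agent.R275.Tor812.volume_box]; exact ENNReal.one_lt_top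
    · exact h _ (box_cube hx)
  rw [Crest.Agent.R275.Tor812.volume_box] at h1
  simpa [mn] using h1

/-- if the `c`-derivative vanishes identically along the zero section then `c = 0` -/
theorem mean_zero {d : ℝ} (hd : 0 < d) {a : W 2 → V 2}
    (ha : ContDiffOn ℝ ∞ a (tube 2 d)) (h0 : ∀ y : V 2, a (y, 0) = 0)
    (hm : ∀ c : V 2, ‖c‖ < d → ∀ i : Fin 2, mn (fun y => a (y, c) i) = c i) {c : V 2}
    (hp : ∀ y : V 2, fderiv ℝ a (y, 0) (0, c) = 0) : c = 0 := by
  by_contra hc
  obtain ⟨i, hi⟩ : ∃ i, c i ≠ 0 := by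
    by_contra hcon
    push Not at hcon
    exact hc (by ext i; exact hcon i)
  have haa : ∀ p ∈ tube 2 d, ContDiffAt ℝ ∞ a p := fun p hp => ha.contDiffAt (tube_nhds hp)
  have had : ∀ p ∈ tube 2 d, DifferentiableAt ℝ a p := fun p hp =>
    (haa p hp).differentiableAt (by simp)
  have hε : 0 < |c i| / 2 := by positivity
  have h1 : ∀ᶠ s in 𝓝 (0 : ℝ), ∀ y ∈ cube 2, (y, s • c) ∈ tube 2 d ∧
      ‖fderiv ℝ a (y, s • c) (0, c)‖ < |c i| / 2 := by
    refine isCompact_cube.eventually_forall_of_forall_eventually fun y _ => ?_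
    have hg : Tendsto (fun z : ℝ × V 2 => ((z.2, z.1 • c) : W 2)) (𝓝 (0, y)) (𝓝 (y, 0)) := by
      have : Continuous fun z : ℝ × V 2 => ((z.2, z.1 • c) : W 2) := by fun_prop
      refine this.tendsto' _ _ ?_
      simp
    have hf : ContinuousAt (fun p => fderiv ℝ a p (0, c)) (y, 0) := by
      have h2 : ContDiffAt ℝ ∞ (fderiv ℝ a) (y, 0) :=
        (haa _ (zero_mem_tube hd y)).fderiv_right (by simp)
      exact h2.continuousAt.clm_apply continuousAt_const
    have h3 : ∀ᶠ p in 𝓝 ((y, 0) : W 2), p ∈ tube 2 d ∧ ‖fderiv ℝ a p (0, c)‖ < |c i| / 2 := by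
      refine Filter.Eventually.and (tube_nhds (zero_mem_tube hd y)) ?_
      have h4 := hf.norm
      refine h4.eventually (gt_mem_nhds ?_)
      show ‖fderiv ℝ a (y, 0) (0, c)‖ < |c i| / 2
      rw [hp, norm_zero]
      exact hε
    exact hg.eventually h3
  obtain ⟨δ, hδ, hδ'⟩ := Metric.eventually_nhds_iff.1 h1
  have ht : 0 < δ / 2 := by positivity
  have hin : ∀ s ∈ Icc 0 (δ / 2), ∀ y ∈ cube 2, (y, s • c) ∈ tube 2 d ∧
      ‖fderiv ℝ a (y, s • c) (0, c)‖ < |c i| / 2 := by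
    intro s hs
    refine hδ' ?_
    rw [Real.dist_eq, sub_zero, abs_of_nonneg hs.1]
    linarith [hs.2]
  have hbd : ∀ y ∈ cube 2, ‖a (y, (δ / 2) • c)‖ ≤ |c i| / 2 * (δ / 2) := by
    intro y hy
    have hder : ∀ s ∈ Icc 0 (δ / 2), HasDerivWithinAt (fun s : ℝ => a (y, s • c))
        (fderiv ℝ a (y, s • c) (0, c)) (Icc 0 (δ / 2)) s := by
      intro s hs
      have hg : HasDerivAt (fun s : ℝ => ((y, s • c) : W 2)) ((0, c) : W 2) s := by
        have e1 : HasDerivAt (fun s : ℝ => s • c) c s := by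
          simpa using (hasDerivAt_id s).smul_const c
        exact (hasDerivAt_const s y).prodMk e1
      exact ((had _ (hin s hs y hy).1).hasFDerivAt.comp_hasDerivAt s hg).hasDerivWithinAt
    have h2 := Convex.norm_image_sub_le_of_norm_hasDerivWithin_le hder
      (fun s hs => (hin s hs y hy).2.le) (convex_Icc 0 (δ / 2))
      (left_mem_Icc.2 ht.le) (right_mem_Icc.2 ht.le)
    rw [zero_smul, h0, sub_zero, sub_zero, Real.norm_of_nonneg ht.le] at h2
    exact h2
  have hnorm : ‖(δ / 2) • c‖ < d := (hin (δ / 2) (right_mem_Icc.2 ht.le) 0 (by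
    intro i; simp)).1
  have h3 := hm ((δ / 2) • c) hnorm i
  have h4 : |mn (fun y => a (y, (δ / 2) • c) i)| ≤ |c i| / 2 * (δ / 2) :=
    mn_le fun y hy => (PiLp.norm_apply_le (a (y, (δ / 2) • c)) i).trans (hbd y hy)
  rw [h3] at h4
  have h5 : |((δ / 2) • c) i| = (δ / 2) * |c i| := by
    simp [abs_mul, abs_of_pos ht]
  rw [h5] at h4
  have h6 : 0 < |c i| := by positivity
  nlinarith

/-! ### no zeros -/

theorem fderiv_per {d : ℝ} {a : W 2 → V 2}
    (hper : ∀ (n : Fin 2 → ℤ), ∀ p ∈ tube 2 d, a (p.1 + kv n, p.2) = a p) (n : Fin 2 → ℤ)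
    {p : W 2} (hp : p ∈ tube 2 d) : fderiv ℝ a (p.1 + kv n, p.2) = fderiv ℝ a p := by
  have h1 : (fun q : W 2 => a (q + (kv n, 0))) =ᶠ[𝓝 p] a := by
    filter_upwards [tube_nhds hp] with q hq
    have := hper n q hq
    rw [← this]
    congr 1
    ext1 <;> simp
  have h2 := fderiv_comp_add_right (𝕜 := ℝ) (f := a) (x := p) ((kv n, 0) : W 2)
  rw [h1.fderiv_eq] at h2
  rw [h2]
  congr 1
  ext1 <;> simp

/-- **the `c`-derivative of the family has no zeros** -/
theorem fderiv_ne {r d : ℝ} {x z : Fo 2} {a : W 2 → V 2} (h : FamIn r x z)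
    (ho : FamOut r x z d a) {c : V 2} (hc : c ≠ 0) (y : V 2) :
    fderiv ℝ a (y, 0) (0, c) ≠ 0 := by
  intro hy0
  apply hc
  have haa : ∀ p ∈ tube 2 d, ContDiffAt ℝ ∞ a p := fun p hp => ho.sm.contDiffAt (tube_nhds hp)
  refine mean_zero ho.pos ho.sm ho.zero ho.mean fun y1 => ?_
  -- the field
  set p : V 2 → V 2 := fun y => fderiv ℝ a (y, 0) (0, c) with hpd
  have hps : ContDiff ℝ ∞ p := by
    refine contDiff_iff_contDiffAt.2 fun y => ?_
    have h2 : ContDiffAt ℝ ∞ (fderiv ℝ a) (y, 0) :=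
      (haa _ (zero_mem_tube ho.pos y)).fderiv_right (by simp)
    have h3 : ContDiffAt ℝ ∞ (fun y : V 2 => fderiv ℝ a (y, 0)) y :=
      ContDiffAt.comp y (g := fderiv ℝ a) (f := fun y : V 2 => ((y, 0) : W 2)) h2
        (contDiffAt_id.prodMk contDiffAt_const)
    exact h3.clm_apply contDiffAt_const
  have hpp : ∀ (n : Fin 2 → ℤ) (y : V 2), p (y + kv n) = p y := by
    intro n y
    show fderiv ℝ a (y + kv n, 0) (0, c) = fderiv ℝ a (y, 0) (0, c)
    rw [fderiv_per ho.per n (zero_mem_tube ho.pos y)]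
  have hpi : ∀ i, SP fun y => p y i := fun i =>
    ⟨(EuclideanSpace.proj (𝕜 := ℝ) i).contDiff.comp hps, fun n y => by
      show (p (y + kv n)) i = (p y) i
      rw [hpp]⟩
  have hzs : ∀ i j, SP fun y => mat z y i j := by
    intro i j
    refine ⟨?_, fun n y => ?_⟩
    · refine contDiff_iff_contDiffAt.2 fun y => ?_
      have h2 : ContDiffAt ℝ ∞ z (y, 0) :=
        h.cz.sm.contDiffAt (tube_nhds (zero_mem_tube h.pos y))
      have h3 : ContDiffAt ℝ ∞ (fun y : V 2 => z (y, 0)) y :=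
        ContDiffAt.comp y (g := z) (f := fun y : V 2 => ((y, 0) : W 2)) h2
          (contDiffAt_id.prodMk contDiffAt_const)
      exact (h3.clm_apply contDiffAt_const).clm_apply contDiffAt_const
    · show z (y + kv n, 0) _ _ = z (y, 0) _ _
      have := h.cz.per n (y, 0) (zero_mem_tube h.pos y)
      simp only at this
      rw [this]
  have hcx : ∀ i, (fun y : V 2 => x (y, 0) (0, fderiv ℝ a (y, 0) (0, c)) (eu i, 0)) =
      fun y => p y i := by
    intro i
    funext y
    rw [h.nx, inner_eu]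
  have hcz : ∀ i, (fun y : V 2 => z (y, 0) (0, fderiv ℝ a (y, 0) (0, c)) (eu i, 0)) =
      fun y => (mat z y).mulVec (p y).ofLp i := by
    intro i
    funext y
    rw [mat_mulVec]
  have h1 : ∀ y, dr 0 (fun y => p y 1) y = dr 1 (fun y => p y 0) y := by
    intro y
    have := curl h.pos ho.pos h.cx ho.sm ho.zero ho.ix c y (eu 0) (eu 1)
    rw [hcx, hcx] at this
    exact this
  have h2 : ∀ y, dr 0 (fun y => (mat z y).mulVec (p y).ofLp 1) y =
      dr 1 (fun y => (mat z y).mulVec (p y).ofLp 0) y := by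
    intro y
    have := curl h.pos ho.pos h.cz ho.sm ho.zero ho.iz c y (eu 0) (eu 1)
    rw [hcz, hcz] at this
    exact this
  have hy0' : (p y).ofLp = 0 := by
    rw [show p y = 0 from hy0]; rfl
  have hfin : (p y1).ofLp = 0 := by
    rcases det_sign h (hzs 1 0).cont with hs | hs
    · exact Crest.Agent.R235.NoZeroT_504.nozero (mat z) hzs hs (fun y => (p y).ofLp) hpi h1 h2 y
        hy0' y1
    · refine Crest.Agent.R235.NoZeroT_504.nozero (fun y => - mat z y) (fun i j => (hzs i j).neg) hs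
        (fun y => (p y).ofLp) hpi h1 (fun y => ?_) y hy0' y1
      have e : ∀ i, (fun y => (-mat z y).mulVec (p y).ofLp i) =
          fun y => - (mat z y).mulVec (p y).ofLp i := by
        intro i; funext y
        rw [Matrix.neg_mulVec]; rfl
      rw [e, e, dr_neg, dr_neg, h2]
  have := congrArg (WithLp.toLp 2) hfin
  simpa using this

/-- **from the mean version to the immersed version** -/
theorem famT_of {r d : ℝ} {x z : Fo 2} {a : W 2 → V 2} (h : FamIn r x z)
    (ho : FamOut r x z d a) : ∃ (δ : ℝ) (a' : W 2 → V 2), FamT r x z δ a' := by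
  have haa : ∀ p ∈ tube 2 d, ContDiffAt ℝ ∞ a p := fun p hp => ho.sm.contDiffAt (tube_nhds hp)
  have hex : ∃ δ : ℝ, 0 < δ ∧ ∀ p ∈ tube 2 δ, p ∈ tube 2 d ∧
      Injective ((fderiv ℝ a p).comp (ContinuousLinearMap.inr ℝ (V 2) (V 2))) := by
    refine Crest.Agent.R235.Tube_153.tube_of_nhds
      (P := fun p => p ∈ tube 2 d ∧
        Injective ((fderiv ℝ a p).comp (ContinuousLinearMap.inr ℝ (V 2) (V 2)))) ?_ ?_
    · intro n p hp
      refine ⟨hp.1, ?_⟩
      rw [fderiv_per ho.per n hp.1]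
      exact hp.2
    · intro y
      refine Filter.Eventually.and (tube_nhds (zero_mem_tube ho.pos y)) ?_
      have h2 : ContDiffAt ℝ ∞ (fderiv ℝ a) (y, 0) :=
        (haa _ (zero_mem_tube ho.pos y)).fderiv_right (by simp)
      have h3 : ContinuousAt (fun p => (fderiv ℝ a p).comp
          (ContinuousLinearMap.inr ℝ (V 2) (V 2))) ((y, 0) : W 2) :=
        h2.continuousAt.clm_comp continuousAt_const
      refine h3.eventually (ContinuousLinearMap.isOpen_injective.mem_nhds ?_)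
      show Injective ((fderiv ℝ a (y, 0)).comp (ContinuousLinearMap.inr ℝ (V 2) (V 2)))
      rw [injective_iff_map_eq_zero]
      intro c hc
      by_contra hne
      exact fderiv_ne h ho hne y hc
  obtain ⟨δ, hδ, hδ'⟩ := hex
  let a' : W 2 → V 2 := fun p => if ‖p.2‖ < δ then a p else 0
  have hev : ∀ p ∈ tube 2 δ, a' =ᶠ[𝓝 p] a := by
    intro p hp
    filter_upwards [tube_nhds hp] with q hq
    exact if_pos hq
  have hfd : ∀ p ∈ tube 2 δ, fderiv ℝ a' p = fderiv ℝ a p := fun p hp => (hev p hp).fderiv_eq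
  have hpt : ∀ p ∈ tube 2 δ, a' p = a p := fun p hp => if_pos hp
  refine ⟨δ, a', hδ, ?_, ?_, ?_, ?_, ?_, ?_, ?_⟩
  · intro p hp
    exact ((haa p (hδ' p hp).1).congr_of_eventuallyEq (hev p hp)).contDiffWithinAt
  · intro n p
    by_cases hp : ‖p.2‖ < δ
    · show (if ‖p.2‖ < δ then a (p.1 + kv n, p.2) else 0) = if ‖p.2‖ < δ then a p else 0
      rw [if_pos hp, if_pos hp]
      exact ho.per n p (hδ' p hp).1
    · show (if ‖p.2‖ < δ then a (p.1 + kv n, p.2) else 0) = if ‖p.2‖ < δ then a p else 0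
      rw [if_neg hp, if_neg hp]
  · intro y
    show (if ‖(0 : V 2)‖ < δ then a (y, 0) else 0) = 0
    rw [ho.zero]
    simp
  · intro p hp
    rw [hpt p hp]
    exact ho.bd p (hδ' p hp).1
  · intro p hp u v
    rw [hpt p hp, hfd p hp]
    exact ho.ix p (hδ' p hp).1 u v
  · intro p hp u v
    rw [hpt p hp, hfd p hp]
    exact ho.iz p (hδ' p hp).1 u v
  · intro p hp u hu
    rw [hfd p hp] at hu
    have h2 := (hδ' p hp).2
    rw [injective_iff_map_eq_zero] at h2
    exact h2 u hu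

theorem famIn_of {r : ℝ} {x z : Fo 2} (h : FamH r x z) : FamIn r x z :=
  ⟨h.pos, h.clx, h.cly, h.horx, h.hory, h.norm, fun y a b hab u hu =>
    h.nondeg _ (zero_mem_tube h.pos y) a b hab u hu⟩

/-- the mean version of FAM implies FAM -/
theorem fam_of (h : Fam_153.FAM) : TorFam_384.FAM := by
  intro r x z hx
  obtain ⟨d, a, ha⟩ := h r x z (famIn_of hx)
  exact famT_of (famIn_of hx) ha

end

end Crest.Agent.R235.LocFolA_153
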