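import Crest.Agent.R235.TorDefs_225

/-!
Row 235 (S0364), PACKAGE TOR, B1: the node `LOCFOL` (local foliation near a `J`-torus, ball
version; text of helper384's post 1592).  Consumer: `TorLT_348` (`LOCFOL ⇒ LOCTUBE`).
-/

set_option autoImplicit false
set_option maxSynthPendingDepth 3

open Set Function Filter MeasureTheory
open scoped Manifold ContDiff Topology

universe u

namespace Crest.Agent.R235.TorLF_348

open Crest.Agent.R235 Crest.Agent.R240 Crest.Agent.R240.Ch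

noncomputable section

/-- the integer vector `n` in the plane. -/
def iv (n : Fin 2 → ℤ) : Ep := WithLp.toLp 2 fun i => (n i : ℝ)

/-- a product neighbourhood `T² × ball 0 r` of the torus `σ`, all of whose slices are isotropic
for `w 1` and `w 2`.  Coordinates `(y, c)`: `y` on the torus, `c` transversal. -/
structure LFol {M : Type u} [TopologicalSpace M] [ChartedSpace E4 M] [IsManifold 𝓘(ℝ, E4) ∞ M]
    (w : Trip M) (σ : Ep → M) (r : ℝ) (Ψ : Ep × Ep → M) : Prop where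
  rpos : 0 < r
  smooth : ContMDiffOn 𝓘(ℝ, Ep × Ep) 𝓘(ℝ, E4) ∞ Ψ (univ ×ˢ Metric.ball 0 r)
  zero : ∀ y : Ep, Ψ (y, 0) = σ y
  per : ∀ (y c : Ep) (n : Fin 2 → ℤ), c ∈ Metric.ball (0 : Ep) r → Ψ (y + iv n, c) = Ψ (y, c)
  inj : ∀ y c y' c' : Ep, c ∈ Metric.ball (0 : Ep) r → c' ∈ Metric.ball (0 : Ep) r →
    Ψ (y, c) = Ψ (y', c') → c = c' ∧ ∃ n : Fin 2 → ℤ, y' = y + iv n
  imm : ∀ (y c : Ep) (v : Ep × Ep), c ∈ Metric.ball (0 : Ep) r → dmap Ψ (y, c) v = 0 → v = 0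
  lag1 : ∀ y c u v : Ep, c ∈ Metric.ball (0 : Ep) r →
    val (w 1) (Ψ (y, c)) (dmap Ψ (y, c) (u, 0)) (dmap Ψ (y, c) (v, 0)) = 0
  lag2 : ∀ y c u v : Ep, c ∈ Metric.ball (0 : Ep) r →
    val (w 2) (Ψ (y, c)) (dmap Ψ (y, c) (u, 0)) (dmap Ψ (y, c) (v, 0)) = 0

/-- LOCFOL (helper384, helper153): an embedded torus which is isotropic for `w 1`, `w 2` has a
product neighbourhood foliated by such tori. -/
def LOCFOL : Prop :=
  ∀ (M : Type u) [TopologicalSpace M] [T2Space M] [CompactSpace M] [ConnectedSpace M]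
    [ChartedSpace E4 M] [IsManifold 𝓘(ℝ, E4) ∞ M] (w : Trip M), Pos3 w →
    ∀ σ : Ep → M, EmbT σ →
    (∀ y u v : Ep, val (w 1) (σ y) (dmap σ y u) (dmap σ y v) = 0) →
    (∀ y u v : Ep, val (w 2) (σ y) (dmap σ y u) (dmap σ y v) = 0) →
    ∃ (r : ℝ) (Ψ : Ep × Ep → M), LFol w σ r Ψ

end

end Crest.Agent.R235.TorLF_348
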