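import Crest.Agent.R235.Tube_153
import Crest.Agent.R235.LocFolA_153
import Crest.Agent.R235.TorLF_348

/-!
# Row 235, TOR / FIB-B1d (helper153): `FAM ⇒ LOCFOL`

`Ψ (y, c) = T (y, a (y, c))` with the tube `T` of `Tube_153` and the family `a` of `FAM`.
-/

set_option autoImplicit false
set_option maxSynthPendingDepth 3

open Set Function Filter MeasureTheory
open scoped Manifold ContDiff Topology

universe u

namespace Crest.Agent.R235.LocFol_153

open Crest.Agent.R240 Crest.Agent.R240.Ch Crest.Agent.R235.Pull_153 Crest.Agent.R235.Tube_153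
open Crest.Agent.R281.Mc673 (kv tube cube ClF isOpen_tube)
open Crest.Agent.R235.LocFolA_153 (gm fderiv_gm contDiffAt_gm zero_mem_tube tube_nhds)
open Crest.Agent.R235.TorFam_384 (FamH FamT FAM)
open Crest.Agent.R235.TorLF_348 (LFol LOCFOL iv)

noncomputable section

variable {M : Type u} [TopologicalSpace M] [ChartedSpace E4 M] [IsManifold 𝓘(ℝ, E4) ∞ M]

/-- the tube gives the input of FAM -/
theorem famH_of {w : Trip M} {s : Ep → M} {r : ℝ} {T : Ep × Ep → M} (h : TubeT w s r T) :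
    FamH r (pbF T (w 1).1.1) (pbF T (w 2).1.1) where
  pos := h.pos
  clx := h.clF (w 1)
  cly := h.clF (w 2)
  horx := h.hor1
  hory := h.hor2
  norm := h.norm
  nondeg := fun p hp c d hcd u hu => by
    refine h.nondeg p hp ![0, c, d] (fun h0 => ?_) u fun v => ?_
    · have h1 := congrFun h0 1
      have h2 := congrFun h0 2
      simp at h1 h2
      rcases hcd with h | h
      · exact h h1
      · exact h h2
    · rw [Fin.sum_univ_three]
      simpa using hu v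

/-- the family of graphs gives the foliation -/
theorem lfol_of [T2Space M] {w : Trip M} {s : Ep → M} (hs : EmbT s) {r : ℝ} {T : Ep × Ep → M}
    (h : TubeT w s r T) {δ : ℝ} {a : Ep × Ep → Ep}
    (ha : FamT r (pbF T (w 1).1.1) (pbF T (w 2).1.1) δ a) :
    ∃ (r' : ℝ) (Ψ : Ep × Ep → M), LFol w s r' Ψ := by
  have haa : ∀ p ∈ tube 2 δ, ContDiffAt ℝ ∞ a p := fun p hp => ha.smooth.contDiffAt (tube_nhds hp)
  have had : ∀ p ∈ tube 2 δ, DifferentiableAt ℝ a p := fun p hp =>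
    (haa p hp).differentiableAt (by simp)
  have hgt : ∀ p ∈ tube 2 δ, gm a p ∈ tube 2 r := fun p hp => ha.small p hp
  let Ψ : Ep × Ep → M := T ∘ gm a
  have hΨs : ∀ p ∈ tube 2 δ, ContMDiffAt 𝓘(ℝ, Ep × Ep) 𝓘(ℝ, E4) ∞ Ψ p := fun p hp =>
    ContMDiffAt.comp p (h.smooth _ (hgt p hp)) (contDiffAt_gm (haa p hp)).contMDiffAt
  have hgd : ∀ p ∈ tube 2 δ, DifferentiableAt ℝ (gm a) p := fun p hp =>
    (contDiffAt_gm (haa p hp)).differentiableAt (by simp)
  have hD : ∀ p ∈ tube 2 δ, ∀ u, Dm Ψ p u = Dm T (gm a p) (u.1, fderiv ℝ a p u) := by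
    intro p hp u
    have h1 := Dm_comp (σ := T) (g := gm a) (y := p) ((h.smooth _ (hgt p hp)).of_le (by simp))
      (hgd p hp)
    have h2 : Dm Ψ p u = Dm T (gm a p) (fderiv ℝ (gm a) p u) := congrArg (fun L => L u) h1
    rw [h2, fderiv_gm (had p hp)]
  have hinj : ∀ p ∈ tube 2 δ, Injective (Dm Ψ p) := by
    intro p hp
    rw [injective_iff_map_eq_zero]
    intro u hu
    rw [hD p hp] at hu
    have h1 := (h.bij _ (hgt p hp)).1 (hu.trans (map_zero _).symm)
    have h2 : u.1 = 0 := congrArg Prod.fst h1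
    have h3 : fderiv ℝ a p u = 0 := congrArg Prod.snd h1
    have h4 : u = (0, u.2) := by
      ext1
      · exact h2
      · rfl
    rw [h4] at h3
    have h5 := ha.inj p hp u.2 h3
    rw [h4, h5]
    rfl
  have hbij : ∀ p ∈ tube 2 δ, Bijective (Dm Ψ p) := fun p hp => dim_bij _ (hinj p hp)
  have hper : ∀ (n : Fin 2 → ℤ) (p : Ep × Ep), Ψ (p.1 + kv n, p.2) = Ψ p := by
    intro n p
    show T (p.1 + kv n, a (p.1 + kv n, p.2)) = T (p.1, a p)
    rw [ha.per n p]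
    exact h.per n (p.1, a p)
  have hz : ∀ y, Ψ (y, 0) = s y := by
    intro y
    show T (y, a (y, 0)) = s y
    rw [ha.zero]
    exact h.zero y
  obtain ⟨ρ, hρ, hρ'⟩ := tube_inj hs hper hz (fun y => hΨs _ (zero_mem_tube ha.pos y))
    (fun y => hbij _ (zero_mem_tube ha.pos y))
  have hm1 : ∀ c : Ep, c ∈ Metric.ball (0 : Ep) (min δ ρ) → ∀ y : Ep, (y, c) ∈ tube 2 δ := by
    intro c hc y
    rw [mem_ball_zero_iff] at hc
    exact lt_of_lt_of_le hc (min_le_left _ _)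
  have hm2 : ∀ c : Ep, c ∈ Metric.ball (0 : Ep) (min δ ρ) → ∀ y : Ep, (y, c) ∈ tube 2 ρ := by
    intro c hc y
    rw [mem_ball_zero_iff] at hc
    exact lt_of_lt_of_le hc (min_le_right _ _)
  refine ⟨min δ ρ, Ψ, lt_min ha.pos hρ, ?_, hz, ?_, ?_, ?_, ?_, ?_⟩
  · rintro ⟨y, c⟩ ⟨-, hc⟩
    exact (hΨs _ (hm1 c hc y)).contMDiffWithinAt
  · intro y c n _
    exact hper n (y, c)
  · intro y c y' c' hc hc' hyc
    obtain ⟨h1, n, h2⟩ := hρ' _ (hm2 c hc y) _ (hm2 c' hc' y') hyc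
    exact ⟨h1.symm, n, h2⟩
  · intro y c v hc hv
    have h1 := hinj _ (hm1 c hc y)
    rw [injective_iff_map_eq_zero] at h1
    exact h1 v hv
  · intro y c u v hc
    have h1 := ha.lagx _ (hm1 c hc y) u v
    show at2 ((w 1).1.1 : F2 E4 M) (Ψ (y, c)) (Dm Ψ (y, c) (u, 0)) (Dm Ψ (y, c) (v, 0)) = 0
    rw [hD _ (hm1 c hc y), hD _ (hm1 c hc y)]
    exact h1
  · intro y c u v hc
    have h1 := ha.lagy _ (hm1 c hc y) u v
    show at2 ((w 2).1.1 : F2 E4 M) (Ψ (y, c)) (Dm Ψ (y, c) (u, 0)) (Dm Ψ (y, c) (v, 0)) = 0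
    rw [hD _ (hm1 c hc y), hD _ (hm1 c hc y)]
    exact h1

/-- **B1d**: `FAM ⇒ LOCFOL` -/
theorem locfol_of (hF : FAM) : LOCFOL.{u} := by
  intro M _ _ _ _ _ _ w hw s hs l1 l2
  obtain ⟨r, T, hT⟩ := exists_tube w hw s hs l1 l2
  obtain ⟨δ, a, ha⟩ := hF r _ _ (famH_of hT)
  exact lfol_of hs hT ha

/-- the same from the mean version of FAM -/
theorem locfol_of_mean (hF : Fam_153.FAM) : LOCFOL.{u} := locfol_of (LocFolA_153.fam_of hF)

end

end Crest.Agent.R235.LocFol_153
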