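import Crest.Agent.R235.LocDef_607

/-!
Row 235, REG-LOC 11 (NONZ), part A: pointwise tools.

* `psum` algebra, the truncation `Phi`
* the linear forms `x dy - y dx` around the centre, the pointwise identity
-/

set_option autoImplicit false

open MeasureTheory Metric Set Filter Complex
open scoped ContDiff Topology

namespace Crest.Agent.R235.LocNonzA_774

open Crest.Agent.R235.Loc

noncomputable section

/-! ### `psum` -/

section psum

variable {S : ℂ → Multiset ℂ} {G H : ℂ → ℂ → ℂ → (ℂ →L[ℝ] ℂ) → (ℂ →L[ℝ] ℂ) → ℝ} {z : ℂ}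

open Classical in
theorem psum_of (hz : (S z).Nodup) : psum S G z =
    ∑ q ∈ (S z).toFinset.offDiag, G z q.1 q.2 (slope S z q.1) (slope S z q.2) := by
  rw [psum, if_pos hz]

theorem psum_not (hz : ¬ (S z).Nodup) : psum S G z = 0 := by
  rw [psum, if_neg hz]

theorem psum_le (h : (S z).Nodup → ∀ a ∈ S z, ∀ b ∈ S z, a ≠ b →
      G z a b (slope S z a) (slope S z b) ≤ H z a b (slope S z a) (slope S z b)) :
    psum S G z ≤ psum S H z := by
  classical
  by_cases hz : (S z).Nodup
  · rw [psum_of hz, psum_of hz]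
    apply Finset.sum_le_sum
    intro q hq
    rw [Finset.mem_offDiag, Multiset.mem_toFinset, Multiset.mem_toFinset] at hq
    exact h hz _ hq.1 _ hq.2.1 hq.2.2
  · rw [psum_not hz, psum_not hz]

theorem psum_congr (h : (S z).Nodup → ∀ a ∈ S z, ∀ b ∈ S z, a ≠ b →
      G z a b (slope S z a) (slope S z b) = H z a b (slope S z a) (slope S z b)) :
    psum S G z = psum S H z :=
  le_antisymm (psum_le fun hz a ha b hb hab => (h hz a ha b hb hab).le)
    (psum_le fun hz a ha b hb hab => (h hz a ha b hb hab).ge)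

theorem psum_nonneg (h : (S z).Nodup → ∀ a ∈ S z, ∀ b ∈ S z, a ≠ b →
      0 ≤ G z a b (slope S z a) (slope S z b)) : 0 ≤ psum S G z := by
  classical
  by_cases hz : (S z).Nodup
  · rw [psum_of hz]
    apply Finset.sum_nonneg
    intro q hq
    rw [Finset.mem_offDiag, Multiset.mem_toFinset, Multiset.mem_toFinset] at hq
    exact h hz _ hq.1 _ hq.2.1 hq.2.2
  · rw [psum_not hz]

theorem psum_add : psum S (fun z a b A B => G z a b A B + H z a b A B) z =
    psum S G z + psum S H z := by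
  classical
  by_cases hz : (S z).Nodup
  · rw [psum_of hz, psum_of hz, psum_of hz, Finset.sum_add_distrib]
  · rw [psum_not hz, psum_not hz, psum_not hz, add_zero]

theorem psum_sub : psum S (fun z a b A B => G z a b A B - H z a b A B) z =
    psum S G z - psum S H z := by
  classical
  by_cases hz : (S z).Nodup
  · rw [psum_of hz, psum_of hz, psum_of hz, Finset.sum_sub_distrib]
  · rw [psum_not hz, psum_not hz, psum_not hz, sub_zero]

theorem psum_mul (t : ℂ → ℝ) : psum S (fun z a b A B => t z * G z a b A B) z =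
    t z * psum S G z := by
  classical
  by_cases hz : (S z).Nodup
  · rw [psum_of hz, psum_of hz, Finset.mul_sum]
  · rw [psum_not hz, psum_not hz, mul_zero]

theorem abs_psum_le_psum : |psum S G z| ≤ psum S (fun z a b A B => |G z a b A B|) z := by
  classical
  by_cases hz : (S z).Nodup
  · rw [psum_of hz, psum_of hz]
    exact Finset.abs_sum_le_sum_abs _ _
  · rw [psum_not hz, psum_not hz, abs_zero]

theorem psum_le_const {k : ℕ} (hk : (S z).card = k) {C : ℝ} (hC : 0 ≤ C)
    (h : (S z).Nodup → ∀ a ∈ S z, ∀ b ∈ S z, a ≠ b →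
      G z a b (slope S z a) (slope S z b) ≤ C) : psum S G z ≤ (k : ℝ) ^ 2 * C := by
  classical
  by_cases hz : (S z).Nodup
  · rw [psum_of hz]
    have h1 : ∑ q ∈ (S z).toFinset.offDiag, G z q.1 q.2 (slope S z q.1) (slope S z q.2) ≤
        ∑ q ∈ (S z).toFinset.offDiag, C := by
      apply Finset.sum_le_sum
      intro q hq
      rw [Finset.mem_offDiag, Multiset.mem_toFinset, Multiset.mem_toFinset] at hq
      exact h hz _ hq.1 _ hq.2.1 hq.2.2
    refine h1.trans ?_
    rw [Finset.sum_const, nsmul_eq_mul]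
    apply mul_le_mul_of_nonneg_right _ hC
    have h2 : (S z).toFinset.offDiag.card ≤ k ^ 2 := by
      rw [Finset.offDiag_card, Multiset.toFinset_card_of_nodup hz, hk, sq]
      exact Nat.sub_le _ _
    exact_mod_cast h2
  · rw [psum_not hz]; positivity

theorem le_psum_const {k : ℕ} (hk : (S z).card = k) (h2 : 2 ≤ k) (hz : (S z).Nodup) {C : ℝ}
    (hC : 0 ≤ C) (h : ∀ a ∈ S z, ∀ b ∈ S z, a ≠ b →
      C ≤ G z a b (slope S z a) (slope S z b)) : C ≤ psum S G z := by
  classical
  rw [psum_of hz]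
  have h1 : ∑ q ∈ (S z).toFinset.offDiag, C ≤
      ∑ q ∈ (S z).toFinset.offDiag, G z q.1 q.2 (slope S z q.1) (slope S z q.2) := by
    apply Finset.sum_le_sum
    intro q hq
    rw [Finset.mem_offDiag, Multiset.mem_toFinset, Multiset.mem_toFinset] at hq
    exact h _ hq.1 _ hq.2.1 hq.2.2
  refine le_trans ?_ h1
  rw [Finset.sum_const, nsmul_eq_mul]
  have h3 : 1 ≤ (S z).toFinset.offDiag.card := by
    rw [Finset.offDiag_card, Multiset.toFinset_card_of_nodup hz, hk]
    have : k + 1 ≤ k * k := by nlinarith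
    omega
  have h4 : (1 : ℝ) ≤ ((S z).toFinset.offDiag.card : ℝ) := by exact_mod_cast h3
  nlinarith

theorem psum_const_eq {k : ℕ} (hk : (S z).card = k) (hz : (S z).Nodup) {C : ℝ}
    (h : ∀ a ∈ S z, ∀ b ∈ S z, a ≠ b → G z a b (slope S z a) (slope S z b) = C) :
    psum S G z = ((k * k - k : ℕ) : ℝ) * C := by
  classical
  rw [psum_of hz]
  have h1 : ∑ q ∈ (S z).toFinset.offDiag, G z q.1 q.2 (slope S z q.1) (slope S z q.2) =
      ∑ q ∈ (S z).toFinset.offDiag, C := by
    apply Finset.sum_congr rfl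
    intro q hq
    rw [Finset.mem_offDiag, Multiset.mem_toFinset, Multiset.mem_toFinset] at hq
    exact h _ hq.1 _ hq.2.1 hq.2.2
  rw [h1, Finset.sum_const, nsmul_eq_mul, Finset.offDiag_card,
    Multiset.toFinset_card_of_nodup hz, hk]

/-- local representation -/
theorem psum_rep {k : ℕ} {w : Fin k → ℂ → ℂ} (hinj : Function.Injective (fun i => w i z))
    (hS : S z = Multiset.map (fun i => w i z) Finset.univ.val)
    (hsl : ∀ i, slope S z (w i z) = fderiv ℝ (w i) z) :
    psum S G z = ∑ p ∈ (Finset.univ : Finset (Fin k)).offDiag,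
      G z (w p.1 z) (w p.2 z) (fderiv ℝ (w p.1) z) (fderiv ℝ (w p.2) z) := by
  classical
  have hnd : (S z).Nodup := by
    rw [hS]
    exact Multiset.Nodup.map hinj Finset.univ.nodup
  rw [psum_of hnd]
  symm
  have hmem : ∀ x, x ∈ S z ↔ ∃ i, w i z = x := by
    intro x
    rw [hS]; simp
  refine Finset.sum_nbij (fun p => (w p.1 z, w p.2 z)) ?_ ?_ ?_ ?_
  · rintro ⟨i, j⟩ hp
    rw [Finset.mem_offDiag] at hp ⊢
    rw [Multiset.mem_toFinset, Multiset.mem_toFinset, hmem, hmem]
    exact ⟨⟨i, rfl⟩, ⟨j, rfl⟩, fun h => hp.2.2 (hinj h)⟩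
  · rintro ⟨i, j⟩ _ ⟨i', j'⟩ _ h
    rw [Prod.mk.injEq] at h
    exact Prod.ext (hinj h.1) (hinj h.2)
  · rintro ⟨x, y⟩ hq
    rw [Finset.mem_coe, Finset.mem_offDiag, Multiset.mem_toFinset, Multiset.mem_toFinset, hmem,
      hmem] at hq
    obtain ⟨⟨i, hi⟩, ⟨j, hj⟩, hne⟩ := hq
    refine ⟨(i, j), ?_, ?_⟩
    · rw [Finset.mem_coe, Finset.mem_offDiag]
      refine ⟨Finset.mem_univ _, Finset.mem_univ _, fun h => hne ?_⟩
      simp only at h
      rw [← hi, ← hj, h]
    · simp only [Prod.mk.injEq]; exact ⟨hi, hj⟩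
  · rintro ⟨i, j⟩ _
    rw [hsl, hsl]

end psum

/-! ### `χ` and its primitive -/

theorem exists_chi : ∃ χ : ℝ → ℝ, Chi χ := by
  refine ⟨fun t => Real.smoothTransition (2 - t), ⟨?_, ?_, ?_, ?_⟩⟩
  · exact Real.smoothTransition.contDiff.comp (contDiff_const.sub contDiff_id)
  · intro t ht
    exact Real.smoothTransition.one_of_one_le (by linarith)
  · intro t ht
    exact Real.smoothTransition.zero_of_nonpos (by linarith)
  · intro s t hst
    exact Real.smoothTransition.monotone (by linarith)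

section chi

variable {χ : ℝ → ℝ} (hχ : Chi χ)

include hχ

theorem chi_nonneg (t : ℝ) : 0 ≤ χ t := by
  rw [← hχ.zero (max t 2) (le_max_right _ _)]
  exact hχ.anti (le_max_left _ _)

theorem chi_le_one (t : ℝ) : χ t ≤ 1 := by
  rw [← hχ.one (min t 1) (min_le_right _ _)]
  exact hχ.anti (min_le_left _ _)

theorem chi_cont : Continuous χ := hχ.smooth.continuous

theorem chi_deriv_bdd : ∃ C : ℝ, 0 ≤ C ∧ ∀ t, |deriv χ t| ≤ C := by
  have hc : Continuous (deriv χ) := hχ.smooth.continuous_deriv (by simp)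
  obtain ⟨C, hC⟩ := (isCompact_Icc (a := (1:ℝ)) (b := 2)).exists_bound_of_continuousOn
    hc.continuousOn
  have hC0 : 0 ≤ C := (norm_nonneg _).trans (hC 1 ⟨le_rfl, by norm_num⟩)
  refine ⟨C, hC0, fun t => ?_⟩
  rcases lt_or_ge t 1 with h | h
  · have : χ =ᶠ[𝓝 t] fun _ => 1 := by
      filter_upwards [Iio_mem_nhds h] with s hs
      exact hχ.one s (le_of_lt hs)
    rw [this.deriv_eq]; simpa using hC0
  · rcases le_or_gt t 2 with h' | h'
    · exact hC t ⟨h, h'⟩
    · have : χ =ᶠ[𝓝 t] fun _ => 0 := by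
        filter_upwards [Ioi_mem_nhds h'] with s hs
        exact hχ.zero s (le_of_lt hs)
      rw [this.deriv_eq]; simpa using hC0

omit hχ in
/-- `Φ_n(t) = ∫_0^t χ(s/n) ds` -/
def Phi (χ : ℝ → ℝ) (n t : ℝ) : ℝ := ∫ s in (0:ℝ)..t, χ (s / n)

theorem hasDerivAt_Phi (n t : ℝ) : HasDerivAt (Phi χ n) (χ (t / n)) t := by
  have hc : Continuous fun s => χ (s / n) := (chi_cont hχ).comp (continuous_id.div_const n)
  exact intervalIntegral.integral_hasDerivAt_right (hc.intervalIntegrable _ _)
    (hc.stronglyMeasurableAtFilter _ _) hc.continuousAt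

theorem contDiff_Phi (n : ℝ) : ContDiff ℝ 1 (Phi χ n) := by
  rw [contDiff_one_iff_deriv]
  refine ⟨fun t => (hasDerivAt_Phi hχ n t).differentiableAt, ?_⟩
  have : deriv (Phi χ n) = fun t => χ (t / n) := by
    ext t; exact (hasDerivAt_Phi hχ n t).deriv
  rw [this]
  exact (chi_cont hχ).comp (continuous_id.div_const n)

theorem Phi_mono (n : ℝ) : Monotone (Phi χ n) := by
  apply monotone_of_deriv_nonneg
  · exact fun t => (hasDerivAt_Phi hχ n t).differentiableAt
  · intro t
    rw [(hasDerivAt_Phi hχ n t).deriv]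
    exact chi_nonneg hχ _

omit hχ in
theorem Phi_zero (n : ℝ) : Phi χ n 0 = 0 := by simp [Phi]

theorem Phi_eq {n : ℝ} (hn : 0 < n) {t : ℝ} (ht : t ≤ n) : Phi χ n t = t := by
  unfold Phi
  rw [intervalIntegral.integral_congr (g := fun _ => 1)]
  · simp
  · intro s hs
    have : s ≤ n := by
      rcases hs with ⟨_, h2⟩
      exact h2.trans (max_le hn.le ht)
    exact hχ.one _ (by rw [div_le_one hn]; exact this)

theorem Phi_const {n : ℝ} (hn : 0 < n) {t : ℝ} (ht : 2 * n ≤ t) :
    Phi χ n t = Phi χ n (2 * n) := by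
  have hc : Continuous fun s => χ (s / n) := (chi_cont hχ).comp (continuous_id.div_const n)
  have h := intervalIntegral.integral_add_adjacent_intervals (hc.intervalIntegrable (μ := volume) 0
    (2 * n)) (hc.intervalIntegrable (2 * n) t)
  unfold Phi
  rw [← h]
  have h2 : ∫ s in (2 * n)..t, χ (s / n) = 0 := by
    rw [intervalIntegral.integral_congr (g := fun _ => 0)]
    · simp
    · intro s hs
      rw [uIcc_of_le ht] at hs
      exact hχ.zero _ (by rw [le_div_iff₀ hn]; exact hs.1)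
  rw [h2, add_zero]

theorem abs_Phi_le (n t : ℝ) : |Phi χ n t| ≤ |t| := by
  have h := intervalIntegral.norm_integral_le_of_norm_le_const (a := 0) (b := t) (C := 1)
    (f := fun s => χ (s / n)) (by
      intro s _
      rw [Real.norm_eq_abs, abs_of_nonneg (chi_nonneg hχ _)]
      exact chi_le_one hχ _)
  simpa [Phi] using h

end chi

end

end Crest.Agent.R235.LocNonzA_774
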