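import Crest.Agent.R235.LocNonzA_774

/-!
Row 235, REG-LOC 11 (NONZ), part B: the forms `γ = (x dy - y dx)/N`, `l = log N / 2` where
`x + i y = (z - c) + m conj (z - c)`, `N = x² + y² + ε²`.
-/

set_option autoImplicit false

open MeasureTheory Metric Set Filter Complex
open scoped ContDiff Topology

namespace Crest.Agent.R235.LocNonzB_774

open Crest.Agent.R235.Loc

noncomputable section

/-- `u ↦ u + m conj u` -/
def AL (m : ℂ) : ℂ →L[ℝ] ℂ :=
  ContinuousLinearMap.id ℝ ℂ + m • (conjCLE : ℂ →L[ℝ] ℂ)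

theorem AL_apply (m u : ℂ) : AL m u = u + m * (starRingEnd ℂ) u := by
  simp [AL]

theorem norm_AL_le (m u : ℂ) : ‖AL m u‖ ≤ (1 + ‖m‖) * ‖u‖ := by
  rw [AL_apply]
  refine (norm_add_le _ _).trans ?_
  rw [norm_mul, Complex.norm_conj]; linarith

theorem le_norm_AL (m u : ℂ) : (1 - ‖m‖) * ‖u‖ ≤ ‖AL m u‖ := by
  rw [AL_apply]
  have h := norm_sub_norm_le u (-(m * (starRingEnd ℂ) u))
  rw [norm_neg, norm_mul, Complex.norm_conj, sub_neg_eq_add] at h
  linarith

/-- first coordinate -/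
def dx (m : ℂ) : ℂ →L[ℝ] ℝ := reCLM.comp (AL m)

/-- second coordinate -/
def dy (m : ℂ) : ℂ →L[ℝ] ℝ := imCLM.comp (AL m)

theorem dx_apply (m u : ℂ) : dx m u = (AL m u).re := rfl
theorem dy_apply (m u : ℂ) : dy m u = (AL m u).im := rfl

/-- determinant -/
theorem det_eq (m : ℂ) : dx m 1 * dy m I - dx m I * dy m 1 = 1 - ‖m‖ ^ 2 := by
  rw [dx_apply, dx_apply, dy_apply, dy_apply, AL_apply, AL_apply, ← Complex.normSq_eq_norm_sq,
    Complex.normSq_apply]
  simp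
  ring

section
variable (m c : ℂ) (ε : ℝ)

/-- `x² + y² + ε²` -/
def NN (z : ℂ) : ℝ := (dx m (z - c)) ^ 2 + (dy m (z - c)) ^ 2 + ε ^ 2

theorem NN_eq (z : ℂ) : NN m c ε z = ‖AL m (z - c)‖ ^ 2 + ε ^ 2 := by
  rw [NN, dx_apply, dy_apply, ← Complex.normSq_eq_norm_sq, Complex.normSq_apply]; ring

theorem NN_pos (hε : 0 < ε) (z : ℂ) : 0 < NN m c ε z := by
  rw [NN_eq]; positivity

theorem contDiff_NN : ContDiff ℝ ∞ (NN m c ε) := by
  unfold NN; fun_prop

/-- `l = log N / 2` -/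
def ll (z : ℂ) : ℝ := Real.log (NN m c ε z) / 2

theorem contDiff_ll (hε : 0 < ε) : ContDiff ℝ ∞ (ll m c ε) := by
  unfold ll
  exact ((contDiff_NN m c ε).log fun z => (NN_pos m c ε hε z).ne').div_const _

/-- `γ = (x dy - y dx) / N` -/
def gam (z : ℂ) : ℂ →L[ℝ] ℝ :=
  (NN m c ε z)⁻¹ • (dx m (z - c) • dy m - dy m (z - c) • dx m)

theorem gam_apply (z u : ℂ) : gam m c ε z u =
    (NN m c ε z)⁻¹ * (dx m (z - c) * dy m u - dy m (z - c) * dx m u) := by
  simp [gam]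

theorem contDiff_gam (hε : 0 < ε) : ContDiff ℝ ∞ (gam m c ε) := by
  have h1 : ContDiff ℝ ∞ fun z => (NN m c ε z)⁻¹ :=
    (contDiff_NN m c ε).inv fun z => (NN_pos m c ε hε z).ne'
  have h2 : ContDiff ℝ ∞ fun z => (dx m (z - c) • dy m - dy m (z - c) • dx m) := by
    fun_prop
  exact h1.smul h2

theorem hasFDerivAt_dx (z : ℂ) : HasFDerivAt (fun z : ℂ => dx m (z - c)) (dx m) z := by
  have h0 : HasFDerivAt (fun z : ℂ => z - c) (ContinuousLinearMap.id ℝ ℂ) z :=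
    (hasFDerivAt_id z).sub_const c
  have := (dx m).hasFDerivAt.comp z h0
  rw [ContinuousLinearMap.comp_id] at this
  exact this

theorem hasFDerivAt_dy (z : ℂ) : HasFDerivAt (fun z : ℂ => dy m (z - c)) (dy m) z := by
  have h0 : HasFDerivAt (fun z : ℂ => z - c) (ContinuousLinearMap.id ℝ ℂ) z :=
    (hasFDerivAt_id z).sub_const c
  have := (dy m).hasFDerivAt.comp z h0
  rw [ContinuousLinearMap.comp_id] at this
  exact this

theorem hasFDerivAt_NN (z : ℂ) : HasFDerivAt (NN m c ε)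
    ((2 * dx m (z - c)) • dx m + (2 * dy m (z - c)) • dy m) z := by
  have h1 := hasFDerivAt_dx m c z
  have h2 := hasFDerivAt_dy m c z
  have h3 := ((h1.pow 2).add (h2.pow 2)).add_const (ε ^ 2)
  refine h3.congr_fderiv ?_
  ext u; simp

theorem fderiv_ll (hε : 0 < ε) (z u : ℂ) : fderiv ℝ (ll m c ε) z u =
    (NN m c ε z)⁻¹ * (dx m (z - c) * dx m u + dy m (z - c) * dy m u) := by
  have h := ((hasFDerivAt_NN m c ε z).log (NN_pos m c ε hε z).ne').mul_const (2⁻¹ : ℝ)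
  have h' : HasFDerivAt (ll m c ε) _ z := h
  rw [h'.fderiv]
  simp
  ring

/-- `curl γ = 2 D ε² / N²` -/
theorem curl_gam (hε : 0 < ε) (z : ℂ) :
    fderiv ℝ (gam m c ε) z 1 I - fderiv ℝ (gam m c ε) z I 1 =
      2 * (1 - ‖m‖ ^ 2) * ε ^ 2 / (NN m c ε z) ^ 2 := by
  have h1 := hasFDerivAt_dx m c z
  have h2 := hasFDerivAt_dy m c z
  have hN := (NN_pos m c ε hε z).ne'
  have key : ∀ h u : ℂ, fderiv ℝ (gam m c ε) z h u =
      (NN m c ε z)⁻¹ * (dx m h * dy m u - dy m h * dx m u)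
      - (NN m c ε z ^ 2)⁻¹ * (2 * dx m (z - c) * dx m h + 2 * dy m (z - c) * dy m h)
        * (dx m (z - c) * dy m u - dy m (z - c) * dx m u) := by
    intro h u
    have h3 : HasFDerivAt (fun z => gam m c ε z u)
        ((gam m c ε z).comp (0 : ℂ →L[ℝ] ℂ) + (fderiv ℝ (gam m c ε) z).flip u) z :=
      (((contDiff_gam m c ε hε).differentiable (by simp) z).hasFDerivAt.clm_apply
        (hasFDerivAt_const u z))
    have h5 := ((hasDerivAt_inv hN).comp_hasFDerivAt z (hasFDerivAt_NN m c ε z)).mul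
        ((h1.mul_const (dy m u)).sub (h2.mul_const (dx m u)))
    have h4 := h5.congr_of_eventuallyEq (f₁ := fun z => gam m c ε z u)
      (Filter.Eventually.of_forall fun z => gam_apply m c ε z u)
    have h7 := congrArg (fun T : ℂ →L[ℝ] ℝ => T h) (h3.unique h4)
    simp at h7
    rw [h7]
    simp only [map_sub]
    ring
  rw [key, key, ← det_eq m, NN_eq] at *
  have hN' : ‖AL m (z - c)‖ ^ 2 + ε ^ 2 ≠ 0 := hN
  have hn : ‖AL m (z - c)‖ ^ 2 = dx m (z - c) ^ 2 + dy m (z - c) ^ 2 := by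
    rw [dx_apply, dy_apply, ← Complex.normSq_eq_norm_sq, Complex.normSq_apply]; ring
  rw [hn] at hN' ⊢
  field_simp
  ring

/-- the pointwise identity: `-Re T ∧ γ = - dl ∧ Im T - 2 Re (k g)` -/
theorem ident (hε : 0 < ε) (z : ℂ) (T : ℂ →L[ℝ] ℂ) :
    |(-(T 1).re * gam m c ε z I + (T I).re * gam m c ε z 1)
      + (fderiv ℝ (ll m c ε) z 1 * (T I).im - fderiv ℝ (ll m c ε) z I * (T 1).im)| ≤
      2 * ‖lzb T - m * lz T‖ * (‖AL m (z - c)‖ / NN m c ε z) := by
  set k : ℂ := (starRingEnd ℂ) (AL m (z - c)) * ((NN m c ε z)⁻¹ : ℝ) with hk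
  have h1 : (-(T 1).re * gam m c ε z I + (T I).re * gam m c ε z 1)
      + (fderiv ℝ (ll m c ε) z 1 * (T I).im - fderiv ℝ (ll m c ε) z I * (T 1).im) =
      -2 * (k * (lzb T - m * lz T)).re := by
    rw [fderiv_ll m c ε hε, fderiv_ll m c ε hε, gam_apply, gam_apply, hk]
    simp only [lz, lzb, dx_apply, dy_apply, AL_apply]
    generalize (NN m c ε z)⁻¹ = t
    generalize z - c = v
    simp only [mul_re, mul_im, add_re, add_im, sub_re, sub_im, conj_re, conj_im, ofReal_re,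
      ofReal_im, I_re, I_im, one_re, one_im, div_ofNat_re, div_ofNat_im, map_one, conj_I, neg_re,
      neg_im]
    ring
  rw [h1, abs_mul]
  have h2 : |(k * (lzb T - m * lz T)).re| ≤ ‖k‖ * ‖lzb T - m * lz T‖ := by
    rw [← norm_mul]; exact Complex.abs_re_le_norm _
  have h3 : ‖k‖ = ‖AL m (z - c)‖ / NN m c ε z := by
    rw [hk, norm_mul, Complex.norm_conj, Complex.norm_real, Real.norm_eq_abs,
      abs_of_pos (inv_pos.2 (NN_pos m c ε hε z))]
    rfl
  rw [h3] at h2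
  have : |(-2:ℝ)| = 2 := by norm_num
  rw [this]
  nlinarith

end

end

end Crest.Agent.R235.LocNonzB_774
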