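import Crest.Agent.R235.LocNonzB_774

/-!
Row 235, REG-LOC 11 (NONZ), part C: measurability and integrability of pair sums.
-/

set_option autoImplicit false

open MeasureTheory Metric Set Filter Complex
open scoped ContDiff Topology

namespace Crest.Agent.R235.LocNonzC_774

open Crest.Agent.R235.Loc Crest.Agent.R235.LocNonzA_774

noncomputable section

variable {μ β : ℂ × ℂ → ℂ} {κ L : ℝ} {c : ℂ} {R : ℝ} {k : ℕ} {S : ℂ → Multiset ℂ} {e : ℂ → ℝ}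

theorem slope_props (h1 : SEL) (hB : BoxD μ β κ L) (hK : KG μ β c R k S e) {z : ℂ}
    (hz : z ∈ Usimp c R S) {a : ℂ} (ha : a ∈ S z) :
    lzb (slope S z a) = μ (z, a) * lz (slope S z a) - β (z, a) ∧ ‖slope S z a‖ ^ 2 ≤ e z := by
  obtain ⟨r, w, hr, hsub, hsh, hsm, hinj, hS, hsl⟩ := (h1 μ β κ L hB c R k S e hK).2 z hz
  have hzz : z ∈ ball z r := mem_ball_self hr
  have : ∃ i, w i z = a := by
    rw [hS z hzz] at ha; simpa using ha
  obtain ⟨i, rfl⟩ := this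
  rw [hsl z hzz i]
  have hV : ball z r ⊆ ball c R := hsub.trans fun y hy => hy.1
  exact ⟨hK.pde _ _ hV (hsh i) z hzz, hK.ebd _ _ hV (hsh i) z hzz⟩

theorem usimp_ae (hK : KG μ β c R k S e) :
    (Usimp c R S : Set ℂ) =ᵐ[volume] (ball c R : Set ℂ) := by
  rw [ae_eq_set]
  constructor
  · have : Usimp c R S \ ball c R = ∅ := by
      ext z; simp [Usimp]
      intro h _; exact h
    rw [this]; simp
  · refine measure_mono_null ?_ hK.null
    rintro z ⟨hz, hz'⟩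
    exact ⟨hz, fun h => hz' ⟨hz, h⟩⟩

/-- domain of the coefficient functions -/
def DD (c : ℂ) (R : ℝ) : Set (ℂ × ℂ × ℂ × (ℂ →L[ℝ] ℂ) × (ℂ →L[ℝ] ℂ)) :=
  {q | q.1 ∈ ball c R ∧ q.2.1 ≠ q.2.2.1}

/-- continuity of a coefficient function -/
def CG (c : ℂ) (R : ℝ) (G : ℂ → ℂ → ℂ → (ℂ →L[ℝ] ℂ) → (ℂ →L[ℝ] ℂ) → ℝ) : Prop :=
  ContinuousOn (fun q : ℂ × ℂ × ℂ × (ℂ →L[ℝ] ℂ) × (ℂ →L[ℝ] ℂ) =>
      G q.1 q.2.1 q.2.2.1 q.2.2.2.1 q.2.2.2.2) (DD c R)

theorem aesm (h1 : SEL) (h6 : PSC) (hB : BoxD μ β κ L) (hK : KG μ β c R k S e)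
    {G : ℂ → ℂ → ℂ → (ℂ →L[ℝ] ℂ) → (ℂ →L[ℝ] ℂ) → ℝ} (hG : CG c R G) :
    AEStronglyMeasurable (psum S G) (volume.restrict (ball c R)) := by
  rw [← Measure.restrict_congr_set (usimp_ae hK)]
  exact (h6 μ β κ L hB c R k S e hK G hG).aestronglyMeasurable
    (h1 μ β κ L hB c R k S e hK).1.measurableSet

theorem ae_simple (hK : KG μ β c R k S e) :
    ∀ᵐ z ∂(volume.restrict (ball c R)), z ∈ Usimp c R S := by
  rw [ae_restrict_iff' measurableSet_ball, ae_iff]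
  refine measure_mono_null ?_ hK.null
  intro z hz
  simp only [mem_ofPred_eq, Classical.not_imp] at hz
  exact ⟨hz.1, fun h => hz.2 ⟨hz.1, h⟩⟩

/-! ### continuity of the basic coefficient functions -/

theorem cA : Continuous (fun q : ℂ × ℂ × ℂ × (ℂ →L[ℝ] ℂ) × (ℂ →L[ℝ] ℂ) => q.2.2.2.1) := by
  fun_prop

theorem cPv (c : ℂ) (R : ℝ) : ContinuousOn
    (fun q : ℂ × ℂ × ℂ × (ℂ →L[ℝ] ℂ) × (ℂ →L[ℝ] ℂ) => pv q.2.1 q.2.2.1) (DD c R) := by
  unfold pv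
  apply ContinuousOn.neg
  apply ContinuousOn.log
  · fun_prop
  · intro q hq
    exact norm_ne_zero_iff.2 (sub_ne_zero.2 hq.2)

theorem cPdL (c : ℂ) (R : ℝ) : ContinuousOn
    (fun q : ℂ × ℂ × ℂ × (ℂ →L[ℝ] ℂ) × (ℂ →L[ℝ] ℂ) =>
      pdL q.2.1 q.2.2.1 q.2.2.2.1 q.2.2.2.2) (DD c R) := by
  unfold pdL
  have h1 : ContinuousOn (fun q : ℂ × ℂ × ℂ × (ℂ →L[ℝ] ℂ) × (ℂ →L[ℝ] ℂ) =>
      (q.2.1 - q.2.2.1)⁻¹) (DD c R) := by
    apply ContinuousOn.inv₀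
    · fun_prop
    · intro q hq
      exact sub_ne_zero.2 hq.2
  have h2 : ContinuousOn (fun q : ℂ × ℂ × ℂ × (ℂ →L[ℝ] ℂ) × (ℂ →L[ℝ] ℂ) =>
      (q.2.2.2.1 - q.2.2.2.2)) (DD c R) := by
    fun_prop
  exact h1.smul h2

theorem cPdLu (c : ℂ) (R : ℝ) (u : ℂ) : ContinuousOn
    (fun q : ℂ × ℂ × ℂ × (ℂ →L[ℝ] ℂ) × (ℂ →L[ℝ] ℂ) =>
      pdL q.2.1 q.2.2.1 q.2.2.2.1 q.2.2.2.2 u) (DD c R) :=
  (cPdL c R).clm_apply continuousOn_const

theorem cPJ (c : ℂ) (R : ℝ) : CG c R (fun _ a b A B => pJ a b A B) := by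
  unfold CG pJ lz lzb
  have h1 := cPdLu c R 1
  have h2 := cPdLu c R I
  fun_prop

theorem cWth (c : ℂ) (R : ℝ) {α : ℂ → (ℂ →L[ℝ] ℝ)} (hα : ContinuousOn α (ball c R)) :
    CG c R (fun z a b A B => wth (α z) a b A B) := by
  unfold CG wth
  have h1 := cPdLu c R 1
  have h2 := cPdLu c R I
  have h3 : ContinuousOn (fun q : ℂ × ℂ × ℂ × (ℂ →L[ℝ] ℂ) × (ℂ →L[ℝ] ℂ) => α q.1) (DD c R) :=
    hα.comp continuousOn_fst fun q hq => hq.1
  have h4 := h3.clm_apply (g := fun _ => (1:ℂ)) continuousOn_const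
  have h5 := h3.clm_apply (g := fun _ => I) continuousOn_const
  exact (h4.mul (Complex.continuous_im.comp_continuousOn h2)).sub
    (h5.mul (Complex.continuous_im.comp_continuousOn h1))

theorem CG.mul {G H : ℂ → ℂ → ℂ → (ℂ →L[ℝ] ℂ) → (ℂ →L[ℝ] ℂ) → ℝ} (hG : CG c R G)
    (hH : CG c R H) : CG c R (fun z a b A B => G z a b A B * H z a b A B) :=
  ContinuousOn.mul hG hH

theorem CG.add {G H : ℂ → ℂ → ℂ → (ℂ →L[ℝ] ℂ) → (ℂ →L[ℝ] ℂ) → ℝ} (hG : CG c R G)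
    (hH : CG c R H) : CG c R (fun z a b A B => G z a b A B + H z a b A B) :=
  ContinuousOn.add hG hH

theorem CG.sub {G H : ℂ → ℂ → ℂ → (ℂ →L[ℝ] ℂ) → (ℂ →L[ℝ] ℂ) → ℝ} (hG : CG c R G)
    (hH : CG c R H) : CG c R (fun z a b A B => G z a b A B - H z a b A B) :=
  ContinuousOn.sub hG hH

theorem CG.abs {G : ℂ → ℂ → ℂ → (ℂ →L[ℝ] ℂ) → (ℂ →L[ℝ] ℂ) → ℝ} (hG : CG c R G) :
    CG c R (fun z a b A B => |G z a b A B|) :=
  ContinuousOn.abs hG

theorem cFn {f : ℂ → ℝ} (hf : ContinuousOn f (ball c R)) : CG c R (fun z _ _ _ _ => f z) :=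
  hf.comp continuousOn_fst fun _ hq => hq.1

theorem cPvf {f : ℝ → ℝ} (hf : Continuous f) : CG c R (fun _ a b _ _ => f (pv a b)) :=
  hf.comp_continuousOn (cPv c R)

theorem cNorm : CG c R (fun _ a b A B => ‖pdL a b A B‖) := (cPdL c R).norm

/-! ### integrability -/

theorem int_one_add (hK : KG μ β c R k S e) : IntegrableOn (fun z => 1 + e z) (ball c R) := by
  apply Integrable.add
  · exact integrableOn_const measure_ball_lt_top.ne
  · exact hK.eint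

theorem intOn (h1 : SEL) (h6 : PSC) (hB : BoxD μ β κ L) (hK : KG μ β c R k S e)
    {G : ℂ → ℂ → ℂ → (ℂ →L[ℝ] ℂ) → (ℂ →L[ℝ] ℂ) → ℝ} (hG : CG c R G) {C : ℝ}
    (hb : ∀ z ∈ Usimp c R S, ∀ a ∈ S z, ∀ b ∈ S z, a ≠ b →
      |G z a b (slope S z a) (slope S z b)| ≤ C * (1 + e z)) :
    IntegrableOn (psum S G) (ball c R) := by
  have hi := ((int_one_add hK).const_mul ((k:ℝ) ^ 2 * |C|))
  refine Integrable.mono' hi (aesm h1 h6 hB hK hG) ?_
  filter_upwards [ae_simple hK] with z hz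
  have he : 0 ≤ 1 + e z := by linarith [hK.e0 z]
  rw [Real.norm_eq_abs]
  refine abs_psum_le_psum.trans ?_
  have h := psum_le_const (S := S) (z := z) (G := fun z a b A B => |G z a b A B|)
    (hK.card z hz.1) (C := |C| * (1 + e z)) (by positivity) (by
      intro _ a ha b hb' hab
      exact (hb z hz a ha b hb' hab).trans
        (mul_le_mul_of_nonneg_right (le_abs_self _) he))
  refine h.trans (le_of_eq (by ring))

theorem int_of_ball {F : ℂ → ℝ} (hF : IntegrableOn F (ball c R)) (h0 : ∀ z ∉ ball c R, F z = 0) :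
    Integrable F := by
  rw [← integrableOn_univ]
  have h2 : IntegrableOn F (ball c R)ᶜ := by
    have h3 : IntegrableOn (fun _ : ℂ => (0:ℝ)) (ball c R)ᶜ := integrableOn_zero
    exact h3.congr_fun (fun z hz => (h0 z hz).symm) measurableSet_ball.compl
  have := hF.union h2
  rwa [union_compl_self] at this

theorem int_mul {η : ℂ → ℝ} (hη : Continuous η) {C : ℝ} (hb : ∀ z, |η z| ≤ C)
    (h0 : ∀ z ∉ ball c R, η z = 0) {F : ℂ → ℝ} (hF : IntegrableOn F (ball c R)) :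
    Integrable (fun z => η z * F z) := by
  apply int_of_ball (c := c) (R := R)
  · exact hF.bdd_mul hη.aestronglyMeasurable (Eventually.of_forall fun z => by
      simpa using hb z)
  · intro z hz
    rw [h0 z hz, zero_mul]

/-- bound of `dL` where `v ≤ N` -/
theorem pdL_le (h1 : SEL) (hB : BoxD μ β κ L) (hK : KG μ β c R k S e) {z : ℂ}
    (hz : z ∈ Usimp c R S) {a b : ℂ} (ha : a ∈ S z) (hb : b ∈ S z) (hab : a ≠ b) {N : ℝ}
    (hN : pv a b ≤ N) : ‖pdL a b (slope S z a) (slope S z b)‖ ^ 2 ≤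
      4 * Real.exp (2 * N) * e z := by
  have hpos : 0 < ‖a - b‖ := norm_pos_iff.2 (sub_ne_zero.2 hab)
  have h2 : Real.exp (-N) ≤ ‖a - b‖ := by
    rw [← Real.le_log_iff_exp_le hpos]
    unfold pv at hN; linarith
  have h3 := (slope_props h1 hB hK hz ha).2
  have h4 := (slope_props h1 hB hK hz hb).2
  set A := slope S z a
  set B := slope S z b
  have h5 : ‖pdL a b A B‖ = ‖A - B‖ / ‖a - b‖ := by
    unfold pdL
    rw [norm_smul, norm_inv]; field_simp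
  have h6 : ‖A - B‖ ^ 2 ≤ 4 * e z := by
    have h7 : ‖A - B‖ ≤ ‖A‖ + ‖B‖ := norm_sub_le _ _
    have h8 : ‖A - B‖ ^ 2 ≤ (‖A‖ + ‖B‖) ^ 2 := by
      apply pow_le_pow_left₀ (norm_nonneg _) h7
    nlinarith [sq_nonneg (‖A‖ - ‖B‖)]
  rw [h5, div_pow, div_le_iff₀ (by positivity)]
  have h9 : 1 ≤ Real.exp (2 * N) * ‖a - b‖ ^ 2 := by
    have h10 : Real.exp (2 * N) * Real.exp (-N) ^ 2 = 1 := by
      rw [← Real.exp_nat_mul, ← Real.exp_add]
      norm_num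
    rw [← h10]
    apply mul_le_mul_of_nonneg_left _ (Real.exp_pos _).le
    exact pow_le_pow_left₀ (Real.exp_pos _).le h2 2
  have he := hK.e0 z
  nlinarith [mul_le_mul_of_nonneg_left h9 (by positivity : 0 ≤ 4 * e z)]

end

end Crest.Agent.R235.LocNonzC_774
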