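import Crest.Agent.R235.LocNonzC_774

/-!
Row 235, REG-LOC 11 (NONZ), part D: Stokes for `V η γ`.
-/

set_option autoImplicit false

open MeasureTheory Metric Set Filter Complex
open scoped ContDiff Topology

namespace Crest.Agent.R235.LocNonzD_774

open Crest.Agent.R235.Loc Crest.Agent.R235.LocNonzA_774 Crest.Agent.R235.LocNonzB_774
  Crest.Agent.R235.LocNonzC_774

noncomputable section

variable {μ β : ℂ × ℂ → ℂ} {κ L : ℝ} {c : ℂ} {R : ℝ} {k : ℕ} {S : ℂ → Multiset ℂ} {e : ℂ → ℝ}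

theorem near_right {ε : ℝ} {s t : Multiset ℂ} (h : Near ε s t) {b : ℂ} (hb : b ∈ t) :
    ∃ a ∈ s, dist a b < ε :=
  Multiset.exists_mem_of_rel_of_mem (Multiset.rel_flip.2 h) hb

theorem bdd_sheets (hK : KG μ β c R k S e) {K : Set ℂ} (hKc : IsCompact K)
    (hKs : K ⊆ ball c R) : ∃ B : ℝ, 0 < B ∧ ∀ z ∈ K, ∀ a ∈ S z, ‖a‖ ≤ B := by
  classical
  refine hKc.induction_on (p := fun s => ∃ B : ℝ, 0 < B ∧ ∀ z ∈ s, ∀ a ∈ S z, ‖a‖ ≤ B)
    ⟨1, one_pos, by simp⟩ ?_ ?_ ?_
  · rintro s t hst ⟨B, hB, h⟩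
    exact ⟨B, hB, fun z hz => h z (hst hz)⟩
  · rintro s t ⟨B, hB, h⟩ ⟨B', hB', h'⟩
    refine ⟨max B B', lt_max_of_lt_left hB, ?_⟩
    rintro z (hz | hz) a ha
    · exact (h z hz a ha).trans (le_max_left _ _)
    · exact (h' z hz a ha).trans (le_max_right _ _)
  · intro z hz
    have h := hK.cont z (hKs hz) 1 one_pos
    refine ⟨{z' | Near 1 (S z) (S z')}, mem_nhdsWithin_of_mem_nhds h,
      (∑ a ∈ (S z).toFinset, ‖a‖) + 1, ?_, ?_⟩
    · have : 0 ≤ ∑ a ∈ (S z).toFinset, ‖a‖ := Finset.sum_nonneg fun _ _ => norm_nonneg _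
      linarith
    · intro z' hz' a ha
      obtain ⟨b, hb, hba⟩ := near_right hz' ha
      have h1 : ‖b‖ ≤ ∑ a ∈ (S z).toFinset, ‖a‖ :=
        Finset.single_le_sum (f := fun a => ‖a‖) (fun _ _ => norm_nonneg _)
          (Multiset.mem_toFinset.2 hb)
      have h2 : ‖a‖ ≤ ‖b‖ + dist b a := by
        rw [dist_eq_norm]
        have := norm_sub_norm_le a b
        rw [norm_sub_rev] at this
        linarith
      linarith

/-- all sheets `exp (-2n)`-close -/
def OO (n : ℝ) (S : ℂ → Multiset ℂ) (z : ℂ) : Prop :=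
  ∀ a ∈ S z, ∀ b ∈ S z, ‖a - b‖ < Real.exp (-(2 * n))

theorem OO_open (hK : KG μ β c R k S e) {n : ℝ} {z : ℂ} (hz : z ∈ ball c R) (h : OO n S z) :
    ∀ᶠ z' in 𝓝 z, OO n S z' := by
  classical
  have h1 : ∀ᶠ ε in 𝓝[>] (0:ℝ), ∀ p ∈ (S z).toFinset ×ˢ (S z).toFinset,
      ‖p.1 - p.2‖ + 2 * ε < Real.exp (-(2 * n)) := by
    rw [Finset.eventually_all]
    intro p hp
    rw [Finset.mem_product, Multiset.mem_toFinset, Multiset.mem_toFinset] at hp
    have h2 : Tendsto (fun ε : ℝ => ‖p.1 - p.2‖ + 2 * ε) (𝓝[>] 0) (𝓝 (‖p.1 - p.2‖ + 2 * 0)) := by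
      apply Tendsto.mono_left _ nhdsWithin_le_nhds
      exact (continuous_const.add (continuous_const.mul continuous_id)).tendsto 0
    apply h2.eventually_lt_const
    rw [mul_zero, add_zero]
    exact h _ hp.1 _ hp.2
  obtain ⟨ε, hε, hε0⟩ := (h1.and self_mem_nhdsWithin).exists
  filter_upwards [hK.cont z hz ε hε0] with z' hz' a ha b hb
  obtain ⟨a', ha', h3⟩ := near_right hz' ha
  obtain ⟨b', hb', h4⟩ := near_right hz' hb
  have h5 := hε (a', b') (by
    rw [Finset.mem_product, Multiset.mem_toFinset, Multiset.mem_toFinset]; exact ⟨ha', hb'⟩)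
  simp only at h5
  have h6 : ‖a - b‖ ≤ dist a' a + ‖a' - b'‖ + dist b' b := by
    rw [dist_eq_norm, dist_eq_norm]
    calc ‖a - b‖ = ‖-(a' - a) + (a' - b') + (b' - b)‖ := by congr 1; ring
      _ ≤ ‖-(a' - a) + (a' - b')‖ + ‖b' - b‖ := norm_add_le _ _
      _ ≤ ‖-(a' - a)‖ + ‖a' - b'‖ + ‖b' - b‖ := by gcongr; exact norm_add_le _ _
      _ = _ := by rw [norm_neg]
  linarith

theorem finite_F (hK : KG μ β c R k S e) (hD : DiscOff c R S) {K : Set ℂ} (hKc : IsCompact K)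
    (hKs : K ⊆ ball c R) (n : ℝ) : {z ∈ K | ¬ OO n S z ∧ ¬ (S z).Nodup}.Finite := by
  have hU : IsOpen {z ∈ ball c R | OO n S z} := by
    rw [isOpen_iff_mem_nhds]
    rintro z ⟨hz, hz'⟩
    filter_upwards [isOpen_ball.mem_nhds hz, OO_open hK hz hz'] with y h1 h2
    exact ⟨h1, h2⟩
  have h1 : {z ∈ K \ {z ∈ ball c R | OO n S z} | ¬ (S z).Nodup}.Finite := by
    refine (hKc.diff hU).induction_on (p := fun s => {z ∈ s | ¬ (S z).Nodup}.Finite) ?_ ?_ ?_ ?_
    · simp
    · intro s t hst h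
      exact h.subset fun z hz => ⟨hst hz.1, hz.2⟩
    · intro s t hs ht
      refine (hs.union ht).subset ?_
      rintro z ⟨hz | hz, hz'⟩
      · exact Or.inl ⟨hz, hz'⟩
      · exact Or.inr ⟨hz, hz'⟩
    · rintro p ⟨hp, hp'⟩
      have hA : ¬ AllEq S p := by
        intro hA
        apply hp'
        refine ⟨hKs hp, fun a ha b hb => ?_⟩
        rw [hA a ha b hb, sub_self, norm_zero]
        exact Real.exp_pos _
      have h2 := hD p (hKs hp) hA
      rw [eventually_nhdsWithin_iff] at h2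
      refine ⟨_, mem_nhdsWithin_of_mem_nhds h2, (finite_singleton p).subset ?_⟩
      rintro z ⟨hz, hz'⟩
      by_contra hne
      exact hz' (hz hne)
  refine h1.subset ?_
  rintro z ⟨hz, hz', hz''⟩
  exact ⟨⟨hz, fun h => hz' h.2⟩, hz''⟩

/-! ### the function `V` -/

open Classical in
/-- `K + Σ Φ(v)`, extended -/
def VV (χ : ℝ → ℝ) (n K : ℝ) (k : ℕ) (S : ℂ → Multiset ℂ) (z : ℂ) : ℝ :=
  K + if OO n S z then ((k * k - k : ℕ) : ℝ) * Phi χ n (2 * n)
    else psum S (fun _ a b _ _ => Phi χ n (pv a b)) z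

theorem pv_ge_of {a b : ℂ} (hab : a ≠ b) {t : ℝ} (h : ‖a - b‖ ≤ Real.exp (-t)) : t ≤ pv a b := by
  have hpos : 0 < ‖a - b‖ := norm_pos_iff.2 (sub_ne_zero.2 hab)
  unfold pv
  have := Real.log_le_log hpos h
  rw [Real.log_exp] at this
  linarith

section

variable {χ : ℝ → ℝ} (hχ : Chi χ) {n : ℝ} (hn : 0 < n) (K : ℝ)

include hχ hn

theorem VV_simple (hK : KG μ β c R k S e) {z : ℂ} (hz : z ∈ Usimp c R S) :
    VV χ n K k S z = K + psum S (fun _ a b _ _ => Phi χ n (pv a b)) z := by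
  unfold VV
  split_ifs with h
  · rw [psum_const_eq (hK.card z hz.1) hz.2 (C := Phi χ n (2 * n))]
    intro a ha b hb hab
    exact Phi_const hχ hn (pv_ge_of hab (h a ha b hb).le)
  · rfl

omit hχ hn in
theorem hasFDerivAt_pv {f g : ℂ → ℂ} {z : ℂ} {f' g' : ℂ →L[ℝ] ℂ} (hf : HasFDerivAt f f' z)
    (hg : HasFDerivAt g g' z) (h : f z ≠ g z) :
    HasFDerivAt (fun y => pv (f y) (g y)) (-(reCLM.comp (pdL (f z) (g z) f' g'))) z := by
  have h1 := ((hf.sub hg).norm_sq)
  have hne : ‖f z - g z‖ ^ 2 ≠ 0 := pow_ne_zero _ (norm_ne_zero_iff.2 (sub_ne_zero.2 h))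
  have h2 := ((h1.log (by simpa using hne)).mul_const (2⁻¹ : ℝ)).neg
  have h3 : (fun y => pv (f y) (g y)) =
      fun y => -(Real.log (‖f y - g y‖ ^ 2) * 2⁻¹) := by
    ext y
    rw [Real.log_pow]; unfold pv; push_cast; ring
  rw [h3]
  refine HasFDerivAt.congr_fderiv h2 ?_
  ext u
  have hne' : f z - g z ≠ 0 := sub_ne_zero.2 h
  simp only [pdL, neg_apply, smul_apply,
    ContinuousLinearMap.comp_apply, sub_apply, reCLM_apply, smul_eq_mul,
    Pi.sub_apply, innerSL_apply_apply, Complex.inner]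
  rw [Complex.inv_def, ← Complex.normSq_eq_norm_sq]
  have h4 : normSq (f z - g z) ≠ 0 := by simpa using hne'
  simp only [mul_re, mul_im, conj_re, conj_im, ofReal_re, ofReal_im, sub_re, sub_im]
  field_simp
  simp
  ring

theorem VV_deriv (h1 : SEL) (hB : BoxD μ β κ L) (hK : KG μ β c R k S e) {z : ℂ}
    (hz : z ∈ Usimp c R S) : ContDiffAt ℝ 1 (VV χ n K k S) z ∧
      ∀ u, fderiv ℝ (VV χ n K k S) z u =
        psum S (fun _ a b A B => χ (pv a b / n) * (-(pdL a b A B u).re)) z := by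
  obtain ⟨r, w, hr, hsub, hsh, hsm, hinj, hS, hsl⟩ := (h1 μ β κ L hB c R k S e hK).2 z hz
  have hzz : z ∈ ball z r := mem_ball_self hr
  have hev : VV χ n K k S =ᶠ[𝓝 z] fun y => K +
      ∑ p ∈ (Finset.univ : Finset (Fin k)).offDiag, Phi χ n (pv (w p.1 y) (w p.2 y)) := by
    filter_upwards [isOpen_ball.mem_nhds hzz] with y hy
    rw [VV_simple hχ hn K hK (hsub hy), psum_rep (hinj y hy) (hS y hy) (hsl y hy)]
  have hc : ∀ i, ContDiffAt ℝ ∞ (w i) z := fun i =>
    (hsm i).contDiffAt (isOpen_ball.mem_nhds hzz)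
  have hd : ∀ i, HasFDerivAt (w i) (fderiv ℝ (w i) z) z := fun i =>
    ((hc i).differentiableAt (by simp)).hasFDerivAt
  have hne : ∀ p ∈ (Finset.univ : Finset (Fin k)).offDiag, w p.1 z ≠ w p.2 z := by
    intro p hp h
    rw [Finset.mem_offDiag] at hp
    exact hp.2.2 (hinj z hzz h)
  constructor
  · refine ContDiffAt.congr_of_eventuallyEq ?_ hev
    apply contDiffAt_const.add
    apply ContDiffAt.sum
    intro p hp
    have h2 : ContDiffAt ℝ 1 (fun y => pv (w p.1 y) (w p.2 y)) z := by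
      unfold pv
      have h3 : ContDiffAt ℝ 1 (fun y => w p.1 y - w p.2 y) z :=
        ((hc p.1).sub (hc p.2)).of_le (by simp)
      exact ((h3.norm ℝ (sub_ne_zero.2 (hne p hp))).log
        (norm_ne_zero_iff.2 (sub_ne_zero.2 (hne p hp)))).neg
    exact (contDiff_Phi hχ n).contDiffAt.comp z h2
  · intro u
    have h2 : HasFDerivAt (fun y => K + ∑ p ∈ (Finset.univ : Finset (Fin k)).offDiag,
        Phi χ n (pv (w p.1 y) (w p.2 y)))
        (∑ p ∈ (Finset.univ : Finset (Fin k)).offDiag, χ (pv (w p.1 z) (w p.2 z) / n) •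
          (-(reCLM.comp (pdL (w p.1 z) (w p.2 z) (fderiv ℝ (w p.1) z)
            (fderiv ℝ (w p.2) z))))) z := by
      apply HasFDerivAt.const_add
      apply HasFDerivAt.fun_sum
      intro p hp
      exact (hasDerivAt_Phi hχ n _).comp_hasFDerivAt z
        (hasFDerivAt_pv (hd p.1) (hd p.2) (hne p hp))
    rw [hev.fderiv_eq, h2.fderiv, psum_rep (hinj z hzz) (hS z hzz) (hsl z hzz)]
    simp

omit hχ hn in
theorem VV_OO (hK : KG μ β c R k S e) {z : ℂ} (hz : z ∈ ball c R) (h : OO n S z) :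
    VV χ n K k S =ᶠ[𝓝 z] fun _ => K + ((k * k - k : ℕ) : ℝ) * Phi χ n (2 * n) := by
  filter_upwards [OO_open hK hz h] with y hy
  unfold VV
  rw [if_pos hy]

theorem VV_deriv' (h1 : SEL) (hB : BoxD μ β κ L) (hK : KG μ β c R k S e) {z : ℂ}
    (hz : z ∈ ball c R) (h : OO n S z ∨ (S z).Nodup) : ContDiffAt ℝ 1 (VV χ n K k S) z ∧
      ∀ u, fderiv ℝ (VV χ n K k S) z u =
        psum S (fun _ a b A B => χ (pv a b / n) * (-(pdL a b A B u).re)) z := by
  by_cases hnd : (S z).Nodup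
  · exact VV_deriv hχ hn K h1 hB hK ⟨hz, hnd⟩
  · have hO : OO n S z := h.resolve_right hnd
    have hev := VV_OO (χ := χ) K hK hz hO
    refine ⟨contDiffAt_const.congr_of_eventuallyEq hev, fun u => ?_⟩
    rw [hev.fderiv_eq, psum_not hnd]
    simp

theorem abs_Phi_pv_le {B : ℝ} {a b : ℂ} (hab : a ≠ b) (h : ‖a - b‖ ≤ B) :
    |Phi χ n (pv a b)| ≤ |Real.log B| + 2 * n := by
  have hpos : 0 < ‖a - b‖ := norm_pos_iff.2 (sub_ne_zero.2 hab)
  have h1 : -|Real.log B| ≤ pv a b := by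
    unfold pv
    have := Real.log_le_log hpos h
    linarith [le_abs_self (Real.log B)]
  rcases le_or_gt (pv a b) (2 * n) with h2 | h2
  · refine (abs_Phi_le hχ n _).trans ?_
    rw [abs_le]
    constructor
    · linarith
    · linarith [abs_nonneg (Real.log B)]
  · rw [Phi_const hχ hn h2.le]
    refine (abs_Phi_le hχ n _).trans ?_
    rw [abs_of_pos (by linarith)]
    linarith [abs_nonneg (Real.log B)]

theorem VV_bdd (hK : KG μ β c R k S e) {Z : Set ℂ} (hZc : IsCompact Z) (hZs : Z ⊆ ball c R) :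
    ∃ C : ℝ, 0 ≤ C ∧ ∀ z ∈ Z, |VV χ n K k S z| ≤ C := by
  obtain ⟨B, hB0, hB⟩ := bdd_sheets hK hZc hZs
  refine ⟨|K| + (|((k * k - k : ℕ) : ℝ) * Phi χ n (2 * n)| +
    (k : ℝ) ^ 2 * (|Real.log (2 * B)| + 2 * n)), by positivity, fun z hz => ?_⟩
  have h2 : ∀ a ∈ S z, ∀ b ∈ S z, ‖a - b‖ ≤ 2 * B := fun a ha b hb => by
    have := norm_sub_le a b
    linarith [hB z hz a ha, hB z hz b hb]
  have h3 : |psum S (fun _ a b _ _ => Phi χ n (pv a b)) z| ≤
      (k : ℝ) ^ 2 * (|Real.log (2 * B)| + 2 * n) := by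
    refine abs_psum_le_psum.trans (psum_le_const (hK.card z (hZs hz)) (by positivity) ?_)
    intro _ a ha b hb hab
    exact abs_Phi_pv_le hχ hn hab (h2 a ha b hb)
  unfold VV
  refine (abs_add_le _ _).trans ?_
  gcongr
  split_ifs
  · have : 0 ≤ (k : ℝ) ^ 2 * (|Real.log (2 * B)| + 2 * n) := by positivity
    linarith
  · have := abs_nonneg (((k * k - k : ℕ) : ℝ) * Phi χ n (2 * n))
    linarith

theorem VV_meas (h1 : SEL) (h6 : PSC) (hB : BoxD μ β κ L) (hK : KG μ β c R k S e) :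
    AEStronglyMeasurable (VV χ n K k S) (volume.restrict (ball c R)) := by
  have hm := aesm h1 h6 hB hK (G := fun _ a b _ _ => Phi χ n (pv a b))
    (cPvf (contDiff_Phi hχ n).continuous)
  refine (hm.const_add K).congr ?_
  filter_upwards [ae_simple hK] with z hz
  exact (VV_simple hχ hn K hK hz).symm

theorem VV_int (h1 : SEL) (h6 : PSC) (hB : BoxD μ β κ L) (hK : KG μ β c R k S e)
    {R₂ : ℝ} (hR : R₂ < R) {q : ℂ → ℝ} (hq : Continuous q)
    (h0 : ∀ z ∉ closedBall c R₂, q z = 0) :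
    Integrable (fun z => VV χ n K k S z * q z) := by
  have hsub : closedBall c R₂ ⊆ ball c R := closedBall_subset_ball hR
  obtain ⟨C, hC0, hC⟩ := VV_bdd hχ hn K hK (isCompact_closedBall c R₂) hsub
  obtain ⟨Cq, hCq⟩ := (isCompact_closedBall c R₂).exists_bound_of_continuousOn hq.continuousOn
  apply int_of_ball (c := c) (R := R)
  · have hi : IntegrableOn (fun _ : ℂ => C * |Cq|) (ball c R) :=
      integrableOn_const measure_ball_lt_top.ne
    refine Integrable.mono' hi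
      ((VV_meas hχ hn K h1 h6 hB hK).mul hq.aestronglyMeasurable) ?_
    refine Eventually.of_forall fun z => ?_
    by_cases hz : z ∈ closedBall c R₂
    · rw [norm_mul]
      exact mul_le_mul (hC z hz) ((hCq z hz).trans (le_abs_self _)) (norm_nonneg _) hC0
    · rw [h0 z hz, mul_zero, norm_zero]; positivity
  · intro z hz
    rw [h0 z (fun h => hz (hsub h)), mul_zero]


/-- the coefficient of `dV ∧ γ` -/
def G1 (χ : ℝ → ℝ) (n : ℝ) (m c : ℂ) (ε : ℝ) :
    ℂ → ℂ → ℂ → (ℂ →L[ℝ] ℂ) → (ℂ →L[ℝ] ℂ) → ℝ := fun z a b A B =>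
  χ (pv a b / n) * (-(pdL a b A B 1).re * gam m c ε z I + (pdL a b A B I).re * gam m c ε z 1)

/-- `curl (V η γ)` -/
def gg (χ : ℝ → ℝ) (n K : ℝ) (k : ℕ) (S : ℂ → Multiset ℂ) (η : ℂ → ℝ) (m c : ℂ) (ε : ℝ)
    (z : ℂ) : ℝ :=
  η z * psum S (G1 χ n m c ε) z +
    VV χ n K k S z * (fderiv ℝ η z 1 * gam m c ε z I - fderiv ℝ η z I * gam m c ε z 1) +
    VV χ n K k S z * (η z * (2 * (1 - ‖m‖ ^ 2) * ε ^ 2 / (NN m c ε z) ^ 2))

/-- `V η γ` -/
def bb (χ : ℝ → ℝ) (n K : ℝ) (k : ℕ) (S : ℂ → Multiset ℂ) (η : ℂ → ℝ) (m c : ℂ) (ε : ℝ)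
    (z : ℂ) : ℂ →L[ℝ] ℝ := (VV χ n K k S z * η z) • gam m c ε z

omit hχ hn in
theorem curl_bb {η : ℂ → ℝ} (m : ℂ) {ε : ℝ} (hε : 0 < ε) {z : ℂ}
    (hV : DifferentiableAt ℝ (VV χ n K k S) z) (hη : DifferentiableAt ℝ η z)
    (hd : ∀ u, fderiv ℝ (VV χ n K k S) z u =
        psum S (fun _ a b A B => χ (pv a b / n) * (-(pdL a b A B u).re)) z) :
    gg χ n K k S η m c ε z =
      fderiv ℝ (bb χ n K k S η m c ε) z 1 I - fderiv ℝ (bb χ n K k S η m c ε) z I 1 := by
  have h1 : HasFDerivAt (bb χ n K k S η m c ε) _ z :=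
    (hV.hasFDerivAt.mul hη.hasFDerivAt).smul
      (((contDiff_gam m c ε hε).differentiable (by simp) z).hasFDerivAt)
  have h2 := curl_gam m c ε hε z
  have h3 : psum S (G1 χ n m c ε) z =
      fderiv ℝ (VV χ n K k S) z 1 * gam m c ε z I
        - fderiv ℝ (VV χ n K k S) z I * gam m c ε z 1 := by
    rw [hd, hd, mul_comm _ (gam m c ε z I), mul_comm _ (gam m c ε z 1),
      ← psum_mul (fun z => gam m c ε z I), ← psum_mul (fun z => gam m c ε z 1), ← psum_sub]
    apply psum_congr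
    intro _ a _ b _ _
    unfold G1
    ring
  rw [h1.fderiv]
  unfold gg
  rw [h3, ← h2]
  simp
  ring

theorem stokes_VV (h1 : SEL) (h3 : STOKES) (h6 : PSC) (hB : BoxD μ β κ L)
    (hK : KG μ β c R k S e) (hD : DiscOff c R S) {η : ℂ → ℝ} (hη : ContDiff ℝ 1 η) {R₂ : ℝ}
    (hR : R₂ < R) (h0 : ∀ z ∉ closedBall c R₂, η z = 0) (m : ℂ) {ε : ℝ} (hε : 0 < ε)
    (hg : Integrable (gg χ n K k S η m c ε)) :
    ∫ z, gg χ n K k S η m c ε z = 0 := by
  have hsub : closedBall c R₂ ⊆ ball c R := closedBall_subset_ball hR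
  have hts : tsupport η ⊆ closedBall c R₂ := by
    apply closure_minimal _ isClosed_closedBall
    intro z hz
    by_contra h
    exact hz (h0 z h)
  have hF := finite_F hK hD (isCompact_closedBall c R₂) hsub n
  have key : ∀ z ∉ hF.toFinset, z ∈ tsupport η → ContDiffAt ℝ 1 (VV χ n K k S) z ∧
      ∀ u, fderiv ℝ (VV χ n K k S) z u =
        psum S (fun _ a b A B => χ (pv a b / n) * (-(pdL a b A B u).re)) z := by
    intro z hz hzt
    apply VV_deriv' hχ hn K h1 hB hK (hsub (hts hzt))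
    by_contra h
    rw [not_or] at h
    apply hz
    rw [Set.Finite.mem_toFinset]
    exact ⟨hts hzt, h.1, h.2⟩
  have hbz : ∀ z, z ∉ tsupport η → bb χ n K k S η m c ε =ᶠ[𝓝 z] fun _ => 0 := by
    intro z hz
    have : η =ᶠ[𝓝 z] 0 := notMem_tsupport_iff_eventuallyEq.1 hz
    filter_upwards [this] with y hy
    unfold bb
    rw [hy]; simp
  obtain ⟨C, hC0, hC⟩ := VV_bdd hχ hn K hK (isCompact_closedBall c R₂) hsub
  refine h3 (bb χ n K k S η m c ε) hF.toFinset (gg χ n K k S η m c ε) ?_ ?_ ?_ hg ?_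
  · apply HasCompactSupport.intro (isCompact_closedBall c R₂)
    intro z hz
    unfold bb
    rw [h0 z hz]; simp
  · intro z hz
    apply ContDiffAt.contDiffWithinAt
    by_cases hzt : z ∈ tsupport η
    · unfold bb
      exact ((key z (by simpa using hz) hzt).1.mul hη.contDiffAt).smul
        ((contDiff_gam m c ε hε).of_le (by simp)).contDiffAt
    · exact contDiffAt_const.congr_of_eventuallyEq (hbz z hzt)
  · have hcont : Continuous fun z => ‖η z • gam m c ε z‖ :=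
      (hη.continuous.smul (contDiff_gam m c ε hε).continuous).norm
    obtain ⟨Cq, hCq⟩ := (isCompact_closedBall c R₂).exists_bound_of_continuousOn hcont.continuousOn
    have hind : bb χ n K k S η m c ε = indicator (ball c R) (bb χ n K k S η m c ε) := by
      ext1 z
      by_cases hz : z ∈ ball c R
      · rw [indicator_of_mem hz]
      · rw [indicator_of_notMem hz]
        unfold bb
        rw [h0 z (fun h => hz (hsub h))]; simp
    have hb0 : MeasurableSet (ball c R) := measurableSet_ball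
    suffices hm : MemLp (bb χ n K k S η m c ε) 2 (volume.restrict (ball c R)) by
      have h9 := (memLp_indicator_iff_restrict (f := bb χ n K k S η m c ε) (p := 2) hb0).2 hm
      rw [hind]
      exact h9
    have : IsFiniteMeasure (volume.restrict (ball c R)) :=
      ⟨by rw [Measure.restrict_apply_univ]; exact measure_ball_lt_top⟩
    refine MemLp.of_bound ?_ (C * |Cq|) ?_
    · unfold bb
      exact ((VV_meas hχ hn K h1 h6 hB hK).mul hη.continuous.aestronglyMeasurable).smul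
        (contDiff_gam m c ε hε).continuous.aestronglyMeasurable
    · refine Eventually.of_forall fun z => ?_
      by_cases hz : z ∈ closedBall c R₂
      · unfold bb
        rw [mul_smul, norm_smul]
        refine mul_le_mul (hC z hz) ?_ (norm_nonneg _) hC0
        have := hCq z hz
        rw [norm_norm] at this
        exact this.trans (le_abs_self _)
      · unfold bb
        rw [h0 z hz]; simp; positivity
  · intro z hz
    by_cases hzt : z ∈ tsupport η
    · obtain ⟨k1, k2⟩ := key z hz hzt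
      exact curl_bb K m hε (k1.differentiableAt (by simp)) (hη.differentiable (by simp) z) k2
    · rw [(hbz z hzt).fderiv_eq]
      unfold gg
      rw [image_eq_zero_of_notMem_tsupport hzt, fderiv_of_notMem_tsupport ℝ hzt]
      simp

end

end

end Crest.Agent.R235.LocNonzD_774
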