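import Crest.Agent.R235.LocNonzD_774

/-!
Row 235, REG-LOC 11 (NONZ), part E: the energy bound and singular integrals.
-/

set_option autoImplicit false

open MeasureTheory Metric Set Filter Complex
open scoped ContDiff Topology

namespace Crest.Agent.R235.LocNonzE_774

open Crest.Agent.R235.Loc Crest.Agent.R235.LocNonzA_774 Crest.Agent.R235.LocNonzB_774
  Crest.Agent.R235.LocNonzC_774 Crest.Agent.R235.LocNonzD_774

noncomputable section

variable {μ β : ℂ × ℂ → ℂ} {κ L : ℝ} {c : ℂ} {R : ℝ} {k : ℕ} {S : ℂ → Multiset ℂ} {e : ℂ → ℝ}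

/-- the energy of the pairs -/
def EE (S : ℂ → Multiset ℂ) (z : ℂ) : ℝ := psum S (fun _ a b A B => ‖pdL a b A B‖ ^ 2) z

theorem chi_pdL_sq {χ : ℝ → ℝ} (hχ : Chi χ) {n : ℝ} (hn : 0 < n) (h1 : SEL)
    (hB : BoxD μ β κ L) (hK : KG μ β c R k S e) {z : ℂ}
    (hz : z ∈ Usimp c R S) {a b : ℂ} (ha : a ∈ S z) (hb : b ∈ S z) (hab : a ≠ b) :
    χ (pv a b / n) * ‖pdL a b (slope S z a) (slope S z b)‖ ^ 2 ≤
      4 * Real.exp (4 * n) * e z := by
  have he := hK.e0 z
  rcases le_or_gt (pv a b) (2 * n) with h | h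
  · have h2 := pdL_le h1 hB hK hz ha hb hab h
    have h3 : 2 * (2 * n) = 4 * n := by ring
    rw [h3] at h2
    calc _ ≤ 1 * ‖pdL a b (slope S z a) (slope S z b)‖ ^ 2 := by
          apply mul_le_mul_of_nonneg_right (chi_le_one hχ _) (by positivity)
      _ ≤ _ := by rw [one_mul]; exact h2
  · rw [hχ.zero _ (by rw [le_div_iff₀ hn]; exact h.le), zero_mul]
    positivity

theorem cut_ball {R₁ R₂ : ℝ} {η : ℂ → ℝ} (hη : Cut c R S R₁ R₂ η) {z : ℂ} (hz : z ∉ ball c R) :
    η z = 0 :=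
  hη.zero z fun h => hz (ball_subset_ball hη.lt'.le h)

theorem cut_abs {R₁ R₂ : ℝ} {η : ℂ → ℝ} (hη : Cut c R S R₁ R₂ η) (z : ℂ) : |η z| ≤ 1 := by
  rw [abs_of_nonneg (hη.nonneg z)]; exact hη.le_one z

theorem energy (h1 : SEL) (h4 : JALG) (h6 : PSC) (hF : FLUX) (hB : BoxD μ β κ L)
    (hK : KG μ β c R k S e) (hD : DiscOff c R S) {R₁ R₂ : ℝ} {η : ℂ → ℝ}
    (hη : Cut c R S R₁ R₂ η) (h0 : flux S η = 0) :
    Integrable (fun z => η z * EE S z) := by
  obtain ⟨χ, hχ⟩ := exists_chi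
  obtain ⟨c₀, C₀, hc₀, hC₀, hJ⟩ := h4 κ L hB.κ0 hB.κ1 hB.L0
  obtain ⟨n₀, C₁, hC₁⟩ := (hF χ hχ μ β κ L hB c R k S e hK hD R₁ R₂ η hη).2.1
  have hηc : Continuous η := hη.smooth.continuous
  set ν : Measure ℂ := volume.restrict (ball c R) with hν
  -- the approximations
  let hn : ℕ → ℂ → ℝ := fun n z =>
    η z * psum S (fun _ a b A B => χ (pv a b / ((n:ℝ) + 1)) * ‖pdL a b A B‖ ^ 2) z
  have hG : ∀ n : ℕ, CG c R (fun _ a b A B => χ (pv a b / ((n:ℝ) + 1)) * ‖pdL a b A B‖ ^ 2) :=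
    fun n => (cPvf (f := fun t => χ (t / ((n:ℝ) + 1)))
      ((chi_cont hχ).comp (continuous_id.div_const _))).mul ((cPdL c R).norm.pow 2)
  have hGJ : ∀ n : ℕ, CG c R (fun _ a b A B => χ (pv a b / ((n:ℝ) + 1)) * pJ a b A B) :=
    fun n => (cPvf (f := fun t => χ (t / ((n:ℝ) + 1)))
      ((chi_cont hχ).comp (continuous_id.div_const _))).mul (cPJ c R)
  have hnpos : ∀ n : ℕ, (0:ℝ) < (n:ℝ) + 1 := fun n => by positivity
  have hint : ∀ n : ℕ, Integrable (hn n) := by
    intro n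
    apply int_mul hηc (cut_abs hη) (fun z hz => cut_ball hη hz)
    refine intOn h1 h6 hB hK (hG n) (C := 4 * Real.exp (4 * ((n:ℝ) + 1))) ?_
    intro z hz a ha b hb hab
    rw [abs_of_nonneg (mul_nonneg (chi_nonneg hχ _) (by positivity))]
    refine (chi_pdL_sq hχ (hnpos n) h1 hB hK hz ha hb hab).trans ?_
    have := Real.exp_pos (4 * ((n:ℝ) + 1))
    nlinarith
  have hJ3 : ∀ z ∈ Usimp c R S, ∀ a ∈ S z, ∀ b ∈ S z, a ≠ b →
      c₀ * ‖pdL a b (slope S z a) (slope S z b)‖ ^ 2 - C₀ * (1 + e z) ≤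
        pJ a b (slope S z a) (slope S z b) ∧
      |pJ a b (slope S z a) (slope S z b)| ≤
        C₀ * ‖pdL a b (slope S z a) (slope S z b)‖ ^ 2 := by
    intro z hz a ha b hb hab
    have hpa := slope_props h1 hB hK hz ha
    have hpb := slope_props h1 hB hK hz hb
    obtain ⟨j1, j2, _⟩ := hJ μ β hB z a b _ _ hab hpa.1 hpb.1
    refine ⟨?_, j2⟩
    have : C₀ * (1 + ‖slope S z b‖ ^ 2) ≤ C₀ * (1 + e z) := by
      apply mul_le_mul_of_nonneg_left _ hC₀
      linarith [hpb.2]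
    linarith
  have hintJ : ∀ n : ℕ, Integrable (fun z => η z *
      psum S (fun _ a b A B => χ (pv a b / ((n:ℝ) + 1)) * pJ a b A B) z) := by
    intro n
    apply int_mul hηc (cut_abs hη) (fun z hz => cut_ball hη hz)
    refine intOn h1 h6 hB hK (hGJ n) (C := C₀ * (4 * Real.exp (4 * ((n:ℝ) + 1)))) ?_
    intro z hz a ha b hb hab
    rw [abs_mul, abs_of_nonneg (chi_nonneg hχ _)]
    have h2 := chi_pdL_sq hχ (hnpos n) h1 hB hK hz ha hb hab
    have h3 := (hJ3 z hz a ha b hb hab).2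
    have h4 := mul_le_mul_of_nonneg_left h3 (chi_nonneg hχ (pv a b / ((n:ℝ) + 1)))
    have h5 := mul_le_mul_of_nonneg_left h2 hC₀
    have he := Real.exp_pos (4 * ((n:ℝ) + 1))
    have h6 : 0 ≤ C₀ * (4 * Real.exp (4 * ((n:ℝ) + 1))) := by positivity
    nlinarith
  have hi1 : Integrable (fun z => η z * (1 + e z)) :=
    int_mul hηc (cut_abs hη) (fun z hz => cut_ball hη hz) (int_one_add hK)
  -- the bound
  have hpt : ∀ n : ℕ, ∀ᵐ z, c₀ * hn n z ≤ η z *
      psum S (fun _ a b A B => χ (pv a b / ((n:ℝ) + 1)) * pJ a b A B) z +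
      (k:ℝ) ^ 2 * C₀ * (η z * (1 + e z)) := by
    intro n
    have h2 := ae_simple hK
    rw [ae_restrict_iff' measurableSet_ball] at h2
    filter_upwards [h2] with z hz
    by_cases hzb : z ∈ ball c R
    · have hz' := hz hzb
      have h3 : psum S (fun _ a b A B => c₀ * (χ (pv a b / ((n:ℝ) + 1)) *
          ‖pdL a b A B‖ ^ 2)) z ≤ psum S (fun z a b A B =>
            χ (pv a b / ((n:ℝ) + 1)) * pJ a b A B + C₀ * (1 + e z)) z := by
        apply psum_le
        intro _ a ha b hb hab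
        have h4 := (hJ3 z hz' a ha b hb hab).1
        have h5 := mul_le_mul_of_nonneg_left h4 (chi_nonneg hχ (pv a b / ((n:ℝ) + 1)))
        have h6 : χ (pv a b / ((n:ℝ) + 1)) * (C₀ * (1 + e z)) ≤ 1 * (C₀ * (1 + e z)) := by
          apply mul_le_mul_of_nonneg_right (chi_le_one hχ _)
          have := hK.e0 z
          positivity
        linarith
      rw [psum_mul (fun _ => c₀), psum_add] at h3
      have h4 : psum S (fun z _ _ _ _ => C₀ * (1 + e z)) z ≤ (k:ℝ) ^ 2 * (C₀ * (1 + e z)) := by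
        have := hK.e0 z
        exact psum_le_const (hK.card z hzb) (by positivity) fun _ a _ b _ _ => le_rfl
      have h5 := mul_le_mul_of_nonneg_left (h3.trans (add_le_add_right h4 _)) (hη.nonneg z)
      simp only [hn]
      linarith
    · simp only [hn]
      rw [cut_ball hη hzb]; simp
  have hbd : ∀ n : ℕ, n₀ ≤ (n:ℝ) + 1 → ∫ z, hn n z ≤
      (C₁ + (k:ℝ) ^ 2 * C₀ * ∫ z, η z * (1 + e z)) / c₀ := by
    intro n hnn
    rw [le_div_iff₀ hc₀, mul_comm, ← integral_const_mul]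
    refine (integral_mono_ae ((hint n).const_mul _)
      ((hintJ n).add (hi1.const_mul _)) (hpt n)).trans ?_
    rw [integral_add' (hintJ n) (hi1.const_mul _), integral_const_mul]
    have h2 := hC₁ _ hnn
    simp only [h0, mul_zero, sub_zero] at h2
    exact add_le_add_left ((le_abs_self _).trans h2) _
  have hn0 : ∀ n z, 0 ≤ hn n z := fun n z => mul_nonneg (hη.nonneg z)
    (psum_nonneg fun _ a _ b _ _ => mul_nonneg (chi_nonneg hχ _) (by positivity))
  have hlim : ∀ z, Tendsto (fun n : ℕ => hn n z) atTop (𝓝 (η z * EE S z)) := by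
    intro z
    apply Tendsto.const_mul
    apply tendsto_const_nhds.congr'
    by_cases hz : (S z).Nodup
    · classical
      have h2 : ∀ᶠ n : ℕ in atTop, ∀ q ∈ (S z).toFinset.offDiag, pv q.1 q.2 ≤ (n:ℝ) + 1 := by
        rw [Finset.eventually_all]
        intro q _
        filter_upwards [eventually_ge_atTop ⌈pv q.1 q.2⌉₊] with n hnq
        have := Nat.le_of_ceil_le hnq
        linarith
      filter_upwards [h2] with n h3
      unfold EE
      rw [psum_of hz, psum_of hz]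
      apply Finset.sum_congr rfl
      intro q hq
      rw [hχ.one _ (by rw [div_le_one (hnpos n)]; exact h3 q hq), one_mul]
    · filter_upwards with n
      unfold EE
      rw [psum_not hz, psum_not hz]
  set C₂ := (C₁ + (k:ℝ) ^ 2 * C₀ * ∫ z, η z * (1 + e z)) / c₀
  have hmeas : AEStronglyMeasurable (fun z => η z * EE S z) volume :=
    aestronglyMeasurable_of_tendsto_ae atTop (fun n => (hint n).aestronglyMeasurable)
      (Eventually.of_forall hlim)
  rw [← memLp_one_iff_integrable]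
  refine ⟨hmeas, ?_⟩
  refine lt_of_le_of_lt (Lp.eLpNorm_lim_le_liminf_eLpNorm
    (fun n => (hint n).aestronglyMeasurable) _ (Eventually.of_forall hlim)) ?_
  refine lt_of_le_of_lt (b := ENNReal.ofReal C₂) ?_ ENNReal.ofReal_lt_top
  apply liminf_le_of_frequently_le'
  apply Eventually.frequently
  filter_upwards [eventually_ge_atTop ⌈n₀⌉₊] with n hnn
  have h2 : n₀ ≤ (n:ℝ) + 1 := by
    have := Nat.le_of_ceil_le hnn
    linarith
  rw [eLpNorm_one_eq_lintegral_enorm, ← ofReal_integral_norm_eq_lintegral_enorm (hint n)]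
  apply ENNReal.ofReal_le_ofReal
  refine le_trans (le_of_eq ?_) (hbd n h2)
  apply integral_congr_ae
  filter_upwards with z
  rw [Real.norm_eq_abs, abs_of_nonneg (hn0 n z)]

/-! ### singular integrals -/

theorem int_rpow (c : ℂ) (R : ℝ) {p : ℝ} (hp : -2 < p) :
    IntegrableOn (fun z : ℂ => ‖z - c‖ ^ p) (ball c R) := by
  have h0 : IntegrableOn (fun z : ℂ => ‖z‖ ^ p) (ball 0 R) := by
    rw [integrableOn_fun_norm_addHaar (volume : Measure ℂ) (f := fun y : ℝ => y ^ p) (r := R),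
      Complex.finrank_real_complex]
    rcases le_or_gt R 0 with hR | hR
    · rw [Ioo_eq_empty (by linarith)]; exact integrableOn_empty
    · have h1 : IntegrableOn (fun y : ℝ => y ^ (p + 1)) (Ioo 0 R) := by
        have := (intervalIntegral.intervalIntegrable_rpow' (a := 0) (b := R) (r := p + 1)
          (by linarith))
        rw [intervalIntegrable_iff_integrableOn_Ioo_of_le hR.le] at this
        exact this
      refine h1.congr_fun ?_ measurableSet_Ioo
      intro y hy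
      simp only [Nat.add_one_sub_one, pow_one, smul_eq_mul]
      rw [Real.rpow_add hy.1, Real.rpow_one, mul_comm]
  have hpre : (fun z : ℂ => z - c) ⁻¹' (ball 0 R) = ball c R := by
    ext z; simp [dist_eq_norm]
  have h2 := (measurePreserving_sub_right (volume : Measure ℂ) c).integrableOn_comp_preimage
    (MeasurableEquiv.subRight c).measurableEmbedding (s := ball 0 R)
    (f := fun z : ℂ => ‖z‖ ^ p)
  rw [hpre] at h2
  exact h2.2 h0

/-- Morrey: `e |z - c|^{-s}` is integrable. -/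
theorem int_morrey {c : ℂ} {R : ℝ} {e : ℂ → ℝ} (he0 : ∀ z, 0 ≤ e z)
    (he : IntegrableOn e (ball c R)) {C s r₀ : ℝ} (hs : 0 < s) (hr₀ : 0 < r₀)
    (hsub : ball c r₀ ⊆ ball c R)
    (hM : ∀ r : ℝ, 0 < r → r ≤ r₀ → ∫ z in ball c r, e z ≤ C * r ^ (2 * s)) :
    IntegrableOn (fun z => e z * ‖z - c‖ ^ (-s)) (ball c R) := by
  have hmeas : Measurable fun z : ℂ => ‖z - c‖ ^ (-s) := by fun_prop
  -- a general piece
  have piece : ∀ (A : Set ℂ) (ρ : ℝ), MeasurableSet A → 0 < ρ → A ⊆ ball c R →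
      (∀ z ∈ A, ρ ≤ ‖z - c‖) → IntegrableOn (fun z => e z * ‖z - c‖ ^ (-s)) A ∧
        ∫ z in A, ‖e z * ‖z - c‖ ^ (-s)‖ ≤ ρ ^ (-s) * ∫ z in A, e z := by
    intro A ρ hA hρ hAs hAρ
    have hb : ∀ z ∈ A, ‖z - c‖ ^ (-s) ≤ ρ ^ (-s) := fun z hz =>
      Real.rpow_le_rpow_of_nonpos hρ (hAρ z hz) (by linarith)
    have hi : IntegrableOn (fun z => e z * ‖z - c‖ ^ (-s)) A := by
      have h1 := (he.mono_set hAs)
      refine Integrable.mono' (h1.const_mul (ρ ^ (-s)))
        (h1.aestronglyMeasurable.mul hmeas.aestronglyMeasurable) ?_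
      rw [ae_restrict_iff' hA]
      refine Eventually.of_forall fun z hz => ?_
      rw [Real.norm_eq_abs, abs_of_nonneg (mul_nonneg (he0 z) (by positivity)), mul_comm]
      exact mul_le_mul_of_nonneg_right (hb z hz) (he0 z)
    refine ⟨hi, ?_⟩
    rw [← integral_const_mul]
    apply setIntegral_mono_on hi.norm ((he.mono_set hAs).const_mul _) hA
    intro z hz
    rw [Real.norm_eq_abs, abs_of_nonneg (mul_nonneg (he0 z) (by positivity)), mul_comm]
    exact mul_le_mul_of_nonneg_right (hb z hz) (he0 z)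
  -- the dyadic annuli
  let ρ : ℕ → ℝ := fun j => r₀ * (1 / 2) ^ j
  have hρ0 : ∀ j, 0 < ρ j := fun j => by positivity
  let A : ℕ → Set ℂ := fun j => ball c (ρ j) \ ball c (ρ (j + 1))
  have hAm : ∀ j, MeasurableSet (A j) := fun j => measurableSet_ball.diff measurableSet_ball
  have hρr : ∀ j, ρ j ≤ r₀ := fun j => by
    have : (1 / 2 : ℝ) ^ j ≤ 1 := pow_le_one₀ (by norm_num) (by norm_num)
    simp only [ρ]; nlinarith
  have hAs : ∀ j, A j ⊆ ball c R := fun j z hz =>
    hsub (ball_subset_ball (hρr j) hz.1)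
  have hAp : ∀ j, IntegrableOn (fun z => e z * ‖z - c‖ ^ (-s)) (A j) ∧
      ∫ z in A j, ‖e z * ‖z - c‖ ^ (-s)‖ ≤ ρ (j + 1) ^ (-s) * ∫ z in A j, e z := by
    intro j
    apply piece (A j) (ρ (j + 1)) (hAm j) (hρ0 _) (hAs j)
    intro z hz
    have := hz.2
    rw [mem_ball, not_lt, dist_eq_norm] at this
    exact this
  have hgeo : ∀ j, ∫ z in A j, ‖e z * ‖z - c‖ ^ (-s)‖ ≤
      (|C| * r₀ ^ s * 2 ^ s) * ((1 / 2 : ℝ) ^ s) ^ j := by
    intro j
    refine (hAp j).2.trans ?_
    have h1 : ∫ z in A j, e z ≤ |C| * ρ j ^ (2 * s) := by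
      refine (setIntegral_mono_set (he.mono_set ((ball_subset_ball (hρr j)).trans hsub))
        (Eventually.of_forall he0) (Eventually.of_forall fun z hz => hz.1)).trans ?_
      refine (hM _ (hρ0 j) (hρr j)).trans ?_
      exact mul_le_mul_of_nonneg_right (le_abs_self _) (Real.rpow_nonneg (hρ0 j).le _)
    refine (mul_le_mul_of_nonneg_left h1 (Real.rpow_nonneg (hρ0 _).le _)).trans (le_of_eq ?_)
    have h2 : ρ (j + 1) = ρ j * 2⁻¹ := by simp only [ρ]; ring
    have h3 : ρ j ^ (2 * s) = ρ j ^ s * ρ j ^ s := by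
      rw [← Real.rpow_add (hρ0 j)]; congr 1; ring
    have h4 : ρ (j + 1) ^ (-s) = (ρ j ^ s)⁻¹ * 2 ^ s := by
      rw [h2, Real.mul_rpow (hρ0 j).le (by norm_num), Real.rpow_neg (hρ0 j).le,
        Real.inv_rpow (by norm_num), Real.rpow_neg (by norm_num), inv_inv]
    have h5 : ρ j ^ s = r₀ ^ s * ((1 / 2 : ℝ) ^ s) ^ j := by
      simp only [ρ]
      rw [Real.mul_rpow hr₀.le (by positivity), ← Real.rpow_natCast, ← Real.rpow_mul (by norm_num),
        ← Real.rpow_natCast ((1 / 2 : ℝ) ^ s), ← Real.rpow_mul (by norm_num), mul_comm (j:ℝ) s]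
    have h6 : ρ j ^ s ≠ 0 := (Real.rpow_pos_of_pos (hρ0 j) _).ne'
    rw [h3, h4]
    have h7 : (ρ j ^ s)⁻¹ * 2 ^ s * (|C| * (ρ j ^ s * ρ j ^ s)) = |C| * 2 ^ s * ρ j ^ s := by
      field_simp
    rw [h7, h5]; ring
  have hsum : Summable fun j => ∫ z in A j, ‖e z * ‖z - c‖ ^ (-s)‖ := by
    refine Summable.of_nonneg_of_le (fun j => integral_nonneg fun z => norm_nonneg _) hgeo ?_
    apply Summable.mul_left
    apply summable_geometric_of_lt_one (by positivity)
    exact Real.rpow_lt_one (by norm_num) (by norm_num) hs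
  have hU := integrableOn_iUnion_of_summable_integral_norm (fun j => (hAp j).1) hsum
  have hout := (piece (ball c R \ ball c r₀) r₀ (measurableSet_ball.diff measurableSet_ball) hr₀
    sdiff_subset (fun z hz => by
      have := hz.2
      rw [mem_ball, not_lt, dist_eq_norm] at this
      exact this)).1
  have hsing : IntegrableOn (fun z => e z * ‖z - c‖ ^ (-s)) {c} := by
    rw [IntegrableOn, Measure.restrict_eq_zero.2 (measure_singleton c)]
    exact integrable_zero_measure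
  refine ((hU.union hout).union hsing).mono_set ?_
  intro z hz
  by_cases hzc : z = c
  · right; exact hzc
  left
  by_cases hz0 : z ∈ ball c r₀
  · left
    have hpos : 0 < ‖z - c‖ := norm_pos_iff.2 (sub_ne_zero.2 hzc)
    -- the first `j` with `ρ (j+1) ≤ |z - c|`
    have hex : ∃ j, ρ (j + 1) ≤ ‖z - c‖ := by
      obtain ⟨N, hN⟩ := exists_pow_lt_of_lt_one (y := (1/2:ℝ)) (div_pos hpos hr₀) (by norm_num)
      refine ⟨N, ?_⟩
      rw [lt_div_iff₀ hr₀] at hN
      have h1 : ρ (N + 1) ≤ ρ N := by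
        simp only [ρ]
        have : (0:ℝ) < (1/2) ^ N := by positivity
        rw [pow_succ]; nlinarith
      have h2 : ρ N = (1 / 2) ^ N * r₀ := by simp only [ρ]; ring
      linarith
    classical
    let j := Nat.find hex
    have hj : ρ (j + 1) ≤ ‖z - c‖ := Nat.find_spec hex
    rw [mem_iUnion]
    refine ⟨j, ?_, ?_⟩
    · rw [mem_ball, dist_eq_norm]
      rcases Nat.eq_zero_or_pos j with h | h
      · rw [h]
        simp only [ρ, pow_zero, mul_one]
        rw [mem_ball, dist_eq_norm] at hz0; exact hz0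
      · have h2 := Nat.find_min hex (m := j - 1) (by omega)
        rw [not_le, Nat.sub_add_cancel h] at h2
        exact h2
    · rw [mem_ball, not_lt, dist_eq_norm]; exact hj
  · right; exact ⟨hz, hz0⟩

end

end Crest.Agent.R235.LocNonzE_774
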