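import Crest.Agent.R235.LocNonzE_774

/-!
Row 235, REG-LOC 11 (NONZ), part F: pointwise estimates.
-/

set_option autoImplicit false

open MeasureTheory Metric Set Filter Complex
open scoped ContDiff Topology

namespace Crest.Agent.R235.LocNonzF_774

open Crest.Agent.R235.Loc Crest.Agent.R235.LocNonzA_774 Crest.Agent.R235.LocNonzB_774
  Crest.Agent.R235.LocNonzC_774 Crest.Agent.R235.LocNonzD_774 Crest.Agent.R235.LocNonzE_774

noncomputable section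

variable {μ β : ℂ × ℂ → ℂ} {κ L : ℝ} {c : ℂ} {R : ℝ} {k : ℕ} {S : ℂ → Multiset ℂ} {e : ℂ → ℝ}

theorem c_not_simple (hK : KG μ β c R k S e) (hA : AllEq S c) (hk : 2 ≤ k) {z : ℂ}
    (hz : z ∈ Usimp c R S) : z ≠ c := by
  classical
  rintro rfl
  have h1 : 1 < (S z).toFinset.card := by
    rw [Multiset.toFinset_card_of_nodup hz.2, hK.card z hz.1]; omega
  obtain ⟨a, ha, b, hb, hab⟩ := Finset.one_lt_card.1 h1
  exact hab (hA a (Multiset.mem_toFinset.1 ha) b (Multiset.mem_toFinset.1 hb))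

theorem lz_le (T : ℂ →L[ℝ] ℂ) : ‖lz T‖ ≤ ‖T‖ := by
  unfold lz
  rw [norm_div]
  have h1 : ‖T 1‖ ≤ ‖T‖ := by simpa using T.le_opNorm 1
  have h2 : ‖T I‖ ≤ ‖T‖ := by simpa using T.le_opNorm I
  have h3 : ‖T 1 - I * T I‖ ≤ ‖T 1‖ + ‖T I‖ := by
    refine (norm_sub_le _ _).trans ?_
    rw [norm_mul, Complex.norm_I, one_mul]
  have h4 : ‖(2:ℂ)‖ = 2 := by simp
  rw [h4]
  linarith

theorem data (hB : BoxD μ β κ L) (hK : KG μ β c R k S e) (hR : 0 < R) (hA : AllEq S c)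
    (hk : 2 ≤ k) : ∃ (m : ℂ) (s C₈ : ℝ), ‖m‖ ≤ κ ∧ 0 < s ∧ s ≤ 1 ∧ 0 ≤ C₈ ∧
      (∀ z ∈ ball c R, ∀ a ∈ S z, ‖μ (z, a) - m‖ ≤ C₈ * ‖z - c‖ ^ s) ∧
      IntegrableOn (fun z => e z * ‖z - c‖ ^ (-s)) (ball c R) := by
  have hc : c ∈ ball c R := mem_ball_self hR
  obtain ⟨CM, aM, rM, hCM, haM, hrM, hsM, hM⟩ := hK.morrey c hc
  obtain ⟨CH, aH, rH, hCH, haH, hrH, hsH, hH⟩ := hK.hold c hc
  obtain ⟨a₀, ha₀⟩ : ∃ a₀, a₀ ∈ S c := by
    apply Multiset.card_pos_iff_exists_mem.1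
    rw [hK.card c hc]; omega
  set s : ℝ := min (min aM aH) 1 with hs
  have hs0 : 0 < s := by rw [hs]; positivity
  have hs1 : s ≤ 1 := min_le_right _ _
  have hsa : s ≤ aM := (min_le_left _ _).trans (min_le_left _ _)
  have hsb : s ≤ aH := (min_le_left _ _).trans (min_le_right _ _)
  set r₁ : ℝ := min rH 1 with hr₁
  have hr₁0 : 0 < r₁ := by rw [hr₁]; positivity
  refine ⟨μ (c, a₀), s, L * (1 + CH) + 2 / r₁ ^ s, hB.bμ _, hs0, hs1, ?_, ?_, ?_⟩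
  · have := hB.L0
    positivity
  · intro z hz a ha
    have hL := hB.L0
    rcases lt_or_ge ‖z - c‖ r₁ with h | h
    · have h1 : z ∈ ball c rH := by
        rw [mem_ball, dist_eq_norm]; exact h.trans_le (min_le_left _ _)
      obtain ⟨a', ha', h2⟩ := Multiset.exists_mem_of_rel_of_mem (Multiset.rel_flip.2 (hH z h1)) ha
      rw [hA a' ha' a₀ ha₀] at h2
      have hz1 : ‖z - c‖ ≤ 1 := h.le.trans (min_le_right _ _)
      have h3 : ‖z - c‖ ≤ ‖z - c‖ ^ s := by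
        have := Real.rpow_le_rpow_of_exponent_ge' (norm_nonneg (z - c)) hz1 hs0.le hs1
        rwa [Real.rpow_one] at this
      have h4 : ‖z - c‖ ^ aH ≤ ‖z - c‖ ^ s :=
        Real.rpow_le_rpow_of_exponent_ge' (norm_nonneg (z - c)) hz1 hs0.le hsb
      have h5 : ‖((z, a) : ℂ × ℂ) - (c, a₀)‖ ≤ (1 + CH) * ‖z - c‖ ^ s := by
        rw [Prod.mk_sub_mk, Prod.norm_mk]
        apply max_le
        · have : 0 ≤ CH * ‖z - c‖ ^ s := by positivity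
          linarith
        · have h6 : ‖a - a₀‖ ≤ CH * ‖z - c‖ ^ aH := by
            have h2' : dist a₀ a ≤ CH * dist z c ^ aH := h2
            rw [← dist_eq_norm, dist_comm, ← dist_eq_norm]
            exact h2'
          have h7 := mul_le_mul_of_nonneg_left h4 hCH
          have h8 : 0 ≤ ‖z - c‖ ^ s := by positivity
          linarith
      have h6 := hB.lipμ (z, a) (c, a₀)
      have h7 := mul_le_mul_of_nonneg_left h5 hL
      have h8 : 0 ≤ 2 / r₁ ^ s * ‖z - c‖ ^ s := by positivity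
      linarith
    · have h1 : ‖μ (z, a) - μ (c, a₀)‖ ≤ 2 := by
        have := norm_sub_le (μ (z, a)) (μ (c, a₀))
        have h2 := hB.bμ (z, a)
        have h3 := hB.bμ (c, a₀)
        linarith [hB.κ1]
      have h2 : r₁ ^ s ≤ ‖z - c‖ ^ s := Real.rpow_le_rpow hr₁0.le h hs0.le
      have h3 : 0 < r₁ ^ s := Real.rpow_pos_of_pos hr₁0 _
      have h4 : 2 ≤ 2 / r₁ ^ s * ‖z - c‖ ^ s := by
        rw [div_mul_eq_mul_div, le_div_iff₀ h3]
        linarith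
      have h5 : 0 ≤ L * (1 + CH) * ‖z - c‖ ^ s := by positivity
      linarith
  · refine int_morrey hK.e0 hK.eint (C := CM) (s := s) (r₀ := min rM 1) hs0 (by positivity)
      ((ball_subset_ball (min_le_left _ _)).trans hsM) ?_
    intro r hr hr'
    refine (hM r hr (hr'.trans (min_le_left _ _))).trans ?_
    apply mul_le_mul_of_nonneg_left _ hCM
    exact Real.rpow_le_rpow_of_exponent_ge' hr.le (hr'.trans (min_le_right _ _)) (by positivity)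
      (by linarith)

/-- the majorant density -/
def HH (κ C₀ C₈ s : ℝ) (c z : ℂ) (ez t : ℝ) : ℝ :=
  2 / (1 - κ) * (C₀ * (‖z - c‖ ^ (-1:ℝ) + (ez * ‖z - c‖ ^ (-s) + ‖z - c‖ ^ (s - 2)) / 2) +
    C₈ * ((t + ‖z - c‖ ^ (2 * s - 2)) / 2))

theorem ptwise {κ C₀ C₈ s : ℝ} {c z m : ℂ} {ez : ℝ} (hκ : κ < 1) (hm : ‖m‖ ≤ κ)
    (hC₀ : 0 ≤ C₀) (hC₈ : 0 ≤ C₈) (hz : z ≠ c) {x : ℝ} (hx0 : 0 ≤ x) (hx1 : x ≤ 1)
    {η : ℂ → ℝ} (hη0 : 0 ≤ η z) (hηd : DifferentiableAt ℝ η z) {ε : ℝ} (hε : 0 < ε)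
    {a b : ℂ} {A B : ℂ →L[ℝ] ℂ} {mu : ℂ}
    (h1 : ‖lzb (pdL a b A B) - mu * lz (pdL a b A B)‖ ≤ C₀ * (1 + ‖B‖))
    (h2 : ‖mu - m‖ ≤ C₈ * ‖z - c‖ ^ s) (h3 : ‖B‖ ^ 2 ≤ ez) :
    |η z * (x * (-(pdL a b A B 1).re * gam m c ε z I + (pdL a b A B I).re * gam m c ε z 1))
      + x * wth (fderiv ℝ (fun y => η y * ll m c ε y) z) a b A B
      - ll m c ε z * (x * wth (fderiv ℝ η z) a b A B)| ≤
      η z * HH κ C₀ C₈ s c z ez (‖pdL a b A B‖ ^ 2) := by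
  set T := pdL a b A B with hT
  have hρ : 0 < ‖z - c‖ := norm_pos_iff.2 (sub_ne_zero.2 hz)
  have hid := ident m c ε hε z T
  have hfd : ∀ u, fderiv ℝ (fun y => η y * ll m c ε y) z u =
      η z * fderiv ℝ (ll m c ε) z u + ll m c ε z * fderiv ℝ η z u := by
    intro u
    rw [fderiv_fun_mul hηd ((contDiff_ll m c ε hε).differentiable (by simp) z)]
    simp
  have heq : η z * (x * (-(T 1).re * gam m c ε z I + (T I).re * gam m c ε z 1))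
      + x * wth (fderiv ℝ (fun y => η y * ll m c ε y) z) a b A B
      - ll m c ε z * (x * wth (fderiv ℝ η z) a b A B) =
      η z * (x * ((-(T 1).re * gam m c ε z I + (T I).re * gam m c ε z 1)
      + (fderiv ℝ (ll m c ε) z 1 * (T I).im - fderiv ℝ (ll m c ε) z I * (T 1).im))) := by
    unfold wth
    rw [hfd, hfd, ← hT]
    ring
  rw [heq, abs_mul, abs_mul, abs_of_nonneg hη0, abs_of_nonneg hx0]
  apply mul_le_mul_of_nonneg_left _ hη0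
  refine (mul_le_mul hx1 hid (abs_nonneg _) zero_le_one).trans ?_
  rw [one_mul]
  -- the factor
  have hA1 : (1 - κ) * ‖z - c‖ ≤ ‖AL m (z - c)‖ := by
    refine le_trans ?_ (le_norm_AL m (z - c))
    apply mul_le_mul_of_nonneg_right _ hρ.le
    linarith
  have hκ' : 0 < 1 - κ := by linarith
  have hA0 : 0 < ‖AL m (z - c)‖ := lt_of_lt_of_le (by positivity) hA1
  have hfac : ‖AL m (z - c)‖ / NN m c ε z ≤ 1 / ((1 - κ) * ‖z - c‖) := by
    rw [NN_eq, div_le_div_iff₀ (by positivity) (by positivity)]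
    nlinarith [sq_nonneg ε]
  have hg : ‖lzb T - m * lz T‖ ≤ C₀ * (1 + ‖B‖) + C₈ * ‖z - c‖ ^ s * ‖T‖ := by
    have h4 : lzb T - m * lz T = (lzb T - mu * lz T) + (mu - m) * lz T := by ring
    rw [h4]
    refine (norm_add_le _ _).trans (add_le_add h1 ?_)
    rw [norm_mul]
    exact mul_le_mul h2 (lz_le T) (norm_nonneg _) (by positivity)
  have hg0 : 0 ≤ C₀ * (1 + ‖B‖) + C₈ * ‖z - c‖ ^ s * ‖T‖ := by positivity
  have h5 : 2 * ‖lzb T - m * lz T‖ * (‖AL m (z - c)‖ / NN m c ε z) ≤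
      2 * (C₀ * (1 + ‖B‖) + C₈ * ‖z - c‖ ^ s * ‖T‖) * (1 / ((1 - κ) * ‖z - c‖)) := by
    apply mul_le_mul _ hfac
    · exact div_nonneg (norm_nonneg _) (NN_pos m c ε hε z).le
    · positivity
    · linarith
  refine h5.trans ?_
  -- powers
  set ρ := ‖z - c‖ with hρd
  have p1 : ρ ^ (-1:ℝ) = 1 / ρ := by rw [Real.rpow_neg_one, one_div]
  have p2 : ‖B‖ / ρ ≤ (ez * ρ ^ (-s) + ρ ^ (s - 2)) / 2 := by
    have q1 : (ρ ^ (-s / 2)) ^ 2 = ρ ^ (-s) := by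
      rw [← Real.rpow_natCast, ← Real.rpow_mul hρ.le]; congr 1; push_cast; ring
    have q2 : (ρ ^ (s / 2 - 1)) ^ 2 = ρ ^ (s - 2) := by
      rw [← Real.rpow_natCast, ← Real.rpow_mul hρ.le]; congr 1; push_cast; ring
    have q3 : ρ ^ (-s / 2) * ρ ^ (s / 2 - 1) = 1 / ρ := by
      rw [← Real.rpow_add hρ, ← p1]; congr 1; ring
    have q4 := sq_nonneg (‖B‖ * ρ ^ (-s / 2) - ρ ^ (s / 2 - 1))
    have q5 : ‖B‖ / ρ = ‖B‖ * (ρ ^ (-s / 2) * ρ ^ (s / 2 - 1)) := by rw [q3]; ring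
    have q6 : ‖B‖ ^ 2 * ρ ^ (-s) ≤ ez * ρ ^ (-s) :=
      mul_le_mul_of_nonneg_right h3 (by positivity)
    rw [q5]
    nlinarith
  have p3 : ρ ^ s * ‖T‖ / ρ ≤ (‖T‖ ^ 2 + ρ ^ (2 * s - 2)) / 2 := by
    have q1 : (ρ ^ (s - 1)) ^ 2 = ρ ^ (2 * s - 2) := by
      rw [← Real.rpow_natCast, ← Real.rpow_mul hρ.le]; congr 1; push_cast; ring
    have q2 : ρ ^ s / ρ = ρ ^ (s - 1) := by rw [Real.rpow_sub hρ, Real.rpow_one]
    have q3 : ρ ^ s * ‖T‖ / ρ = ρ ^ (s - 1) * ‖T‖ := by rw [← q2]; ring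
    rw [q3]
    nlinarith [sq_nonneg (‖T‖ - ρ ^ (s - 1))]
  have p4 : 2 * (C₀ * (1 + ‖B‖) + C₈ * ρ ^ s * ‖T‖) * (1 / ((1 - κ) * ρ)) =
      2 / (1 - κ) * (C₀ * (1 / ρ + ‖B‖ / ρ) + C₈ * (ρ ^ s * ‖T‖ / ρ)) := by
    field_simp
  rw [p4]
  unfold HH
  rw [← hρd, p1]
  apply mul_le_mul_of_nonneg_left _ (by positivity)
  apply add_le_add
  · apply mul_le_mul_of_nonneg_left _ hC₀
    linarith
  · exact mul_le_mul_of_nonneg_left p3 hC₈

end

end Crest.Agent.R235.LocNonzF_774
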