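import Crest.Agent.R235.LocTube_153
import Crest.Agent.R235.TorFamT_384

/-!
# Row 235 (S0364), TOR / B1 (helper153, helper384, helper348): **LOCTUBE**
-/

set_option autoImplicit false

universe u

namespace Crest.Agent.R235.LocTubeF_153

/-- every `J`-torus has a foliation chart around it (one sheet) -/
theorem locfol : TorLF_348.LOCFOL.{u} := LocFol_153.locfol_of TorFam_384.fam

/-- around every `J`-torus there is a product chart -/
theorem loctube : LOCTUBE.{u} := LocTube_153.loctube_of TorFam_384.fam

end Crest.Agent.R235.LocTubeF_153
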