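import Crest.Agent.R235.RiemQ_399
import Crest.Agent.R235.IndPair_167
import Crest.Agent.R249.Idx6_789

/-!
Row 235, package SW, MODEL-3 (helper399), part 1: pointwise formulas for 167's HODGE pair `pairH q s`
(`A (f0, f) = grad f0 + ...`, `B a = (- div X, ...)`) of a quaternionic structure.

* `opB_zero` : `(B w)_0 = - div X`, `X = ∑ w_A s_A`;
* `opB_succ` : `(B w)_{b+1} = ∑_A ⟨∇_{I_b s_A} X, s_A⟩`;
* `opB_tri`  : for a positive triple, `(B w)_{b+1} = - 2 q(w_0; e_b, d(flat X))`;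
* `opA_cons` : `A (f0, f) = ⟨grad f0, s_x⟩ - ∑_b ⟨β_b, I_b s_x⟩`, `β_b = df_b + f_{b+2} η_{b+1} - f_{b+1} η_{b+2}`;
* `opA_one`  : constants are in the kernel of `A`;
* `dd_comb`  : `d(∑ f_b e_b) = ∑ β_b ∧ e_b`;
* `opA_closed` : `A (0, f) = 0` if `∑ f_b e_b` is closed.
-/

set_option autoImplicit false
set_option maxSynthPendingDepth 3
set_option linter.unusedSectionVars false
set_option linter.unusedSimpArgs false

open Set Function Filter Bundle Manifold
open scoped Manifold ContDiff Topology ENNReal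
open Crest.GeometryTopology.CoordMetric Crest.GeometryTopology.ChartCurvature
open Crest.Agent.R240 Crest.Agent.R240.Ch
open Crest.Agent.R202.Tens
open Crest.Agent.R247.Bo84 hiding trans dM
open Crest.Agent.R249.Vf281 Crest.Agent.R249.Tz2_805 Crest.Agent.R249.Tz1_805
open Crest.Agent.R249.Tz805 Crest.Agent.R249.Idx789
open Crest.Agent.R235.RiemB_399 Crest.Agent.R235.QLin_399 Crest.Agent.R235.RiemD_399
open Crest.Agent.R235.RiemQ_399 Crest.Agent.R235.Ind167
open Crest.Agent.R235.IndVol_57 (WF q_frame WF_abs)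

universe u

noncomputable section

namespace Crest.Agent.R235.Mdl3_399

local notation "E4" => EuclideanSpace ℝ (Fin 4)

variable {M : Type u} [TopologicalSpace M] [ChartedSpace E4 M] [IsManifold 𝓘(ℝ, E4) ∞ M]
  [RiemannianBundle (fun x : M => TangentSpace 𝓘(ℝ, E4) x)]
  [IsContMDiffRiemannianBundle 𝓘(ℝ, E4) ∞ E4 (fun x : M => TangentSpace 𝓘(ℝ, E4) x)]

/-! ### the operator `B` -/

section B

variable (q : QS M) {κ : Type} [Fintype κ] (s : PF 4 M κ) {w : κ → M → ℝ}

theorem opB_zero (hw : SmU (n := 4) w) (hs : ∀ a z, ∑ b, tanP s a b z * w b z = w a z) (z : M) :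
    opB (pairH q s).D1 (pairH q s).cc w 0 z = - mDiv 4 (fieldOf s w) z := by
  obtain ⟨e, he⟩ := exists_onb (M := M) z
  have hY := VSm_fieldOf s hw
  rw [mDiv_frame ((hY z).of_le (by simp)) he, opB]
  congr 1
  have h1 := sum_pars s z he (mCovL (fieldOf s w) z)
  simp only [mCovL_apply] at h1
  rw [← h1]
  refine Finset.sum_congr rfl fun A _ => ?_
  exact inner_cv s (bunQ1_W_eta q s (sm_etaV q s)) hw hs A z _

theorem opB_succ (hw : SmU (n := 4) w) (hs : ∀ a z, ∑ b, tanP s a b z * w b z = w a z)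
    (b : Fin 3) (z : M) :
    opB (pairH q s).D1 (pairH q s).cc w b.succ z =
      ∑ A, inner ℝ (mCov 4 (fieldOf s w) z (q.op b z (s.s A z))) (s.s A z) := by
  rw [opB, ← Finset.sum_neg_distrib]
  refine Finset.sum_congr rfl fun A _ => ?_
  have h1 : (pairH q s).cc A b.succ z = - q.op b z (s.s A z) := rfl
  rw [h1, inner_neg_right, neg_neg]
  exact inner_cv s (bunQ1_W_eta q s (sm_etaV q s)) hw hs A z _

/-- `I_b` as a linear map. -/
def opL (b : Fin 3) (z : M) : TangentSpace 𝓘(ℝ, E4) z →ₗ[ℝ] TangentSpace 𝓘(ℝ, E4) z where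
  toFun := q.op b z
  map_add' u v := q.op_add b z u v
  map_smul' c u := q.op_smul b z c u

/-- the positive frame `x, I_0 x, I_1 x, I_2 x`. -/
def pf (z : M) (x : TangentSpace 𝓘(ℝ, E4) z) : Fin 4 → TangentSpace 𝓘(ℝ, E4) z :=
  ![x, q.op 0 z x, q.op 1 z x, q.op 2 z x]

/-- products in the frame. -/
theorem tab (z : M) {x : TangentSpace 𝓘(ℝ, E4) z} (b c : Fin 3) :
    (inner ℝ x (q.op b z x) : ℝ) = 0 ∧ (inner ℝ (q.op b z x) x : ℝ) = 0 ∧
    (inner ℝ (q.op b z x) (q.op c z x) : ℝ) = if b = c then inner ℝ x x else 0 := by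
  have h0 : (inner ℝ x (q.op b z x) : ℝ) = 0 := q.inner_self_op b z x
  refine ⟨h0, (real_inner_comm _ _).trans h0, ?_⟩
  split_ifs with h
  · rw [h]; exact q.inner_op c z x x
  · rw [q.op_skew]
    have a0 := q.inner_self_op 0 z x
    have a1 := q.inner_self_op 1 z x
    have a2 := q.inner_self_op 2 z x
    fin_cases b <;> fin_cases c
    · exact absurd rfl h
    · show - (inner ℝ x (q.op 0 z (q.op 1 z x)) : ℝ) = 0
      rw [q.op01, a2, neg_zero]
    · show - (inner ℝ x (q.op 0 z (q.op 2 z x)) : ℝ) = 0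
      rw [q.op02, inner_neg_right, a1, neg_zero, neg_zero]
    · show - (inner ℝ x (q.op 1 z (q.op 0 z x)) : ℝ) = 0
      rw [q.op10, inner_neg_right, a2, neg_zero, neg_zero]
    · exact absurd rfl h
    · show - (inner ℝ x (q.op 1 z (q.op 2 z x)) : ℝ) = 0
      rw [q.op12, a0, neg_zero]
    · show - (inner ℝ x (q.op 2 z (q.op 0 z x)) : ℝ) = 0
      rw [q.op20, a1, neg_zero]
    · show - (inner ℝ x (q.op 2 z (q.op 1 z x)) : ℝ) = 0
      rw [q.op21, inner_neg_right, a0, neg_zero, neg_zero]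
    · exact absurd rfl h

theorem pf_orth (z : M) {x : TangentSpace 𝓘(ℝ, E4) z} (hx : (inner ℝ x x : ℝ) = 1) (i j : Fin 4) :
    (inner ℝ (pf q z x i) (pf q z x j) : ℝ) = if i = j then 1 else 0 := by
  have h := fun b c => tab q z (x := x) b c
  refine Fin.cases ?_ (fun b => ?_) i
  · refine Fin.cases ?_ (fun c => ?_) j
    · rw [if_pos rfl]; exact hx
    · rw [if_neg (Fin.succ_ne_zero c).symm]
      have : pf q z x c.succ = q.op c z x := by fin_cases c <;> rfl
      rw [this]; exact (h c c).1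
  · have hb : pf q z x b.succ = q.op b z x := by fin_cases b <;> rfl
    refine Fin.cases ?_ (fun c => ?_) j
    · rw [if_neg (Fin.succ_ne_zero b), hb]; exact (h b b).2.1
    · have hc : pf q z x c.succ = q.op c z x := by fin_cases c <;> rfl
      rw [hb, hc, (h b c).2.2, hx]
      simp only [Fin.succ_inj]

/-- **`(B w)_{b+1}` in the frame `x, I_0 x, I_1 x, I_2 x`.** -/
theorem opB_frame (hw : SmU (n := 4) w) (hs : ∀ a z, ∑ b, tanP s a b z * w b z = w a z)
    (b : Fin 3) (z : M) {x : TangentSpace 𝓘(ℝ, E4) z} (hx : (inner ℝ x x : ℝ) = 1) :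
    opB (pairH q s).D1 (pairH q s).cc w b.succ z =
      ∑ k, inner ℝ (mCov 4 (fieldOf s w) z (q.op b z (pf q z x k))) (pf q z x k) := by
  rw [opB_succ q s hw hs]
  exact sum_pars s z (pf_orth q z hx) ((R249.Idx789.mCovL (fieldOf s w) z).comp (opL q b z))

theorem exists_unit (z : M) : ∃ x : TangentSpace 𝓘(ℝ, E4) z, (inner ℝ x x : ℝ) = 1 := by
  obtain ⟨e, he⟩ := exists_onb (M := M) z
  exact ⟨e 0, by rw [he]; rfl⟩

end B

/-! ### triples -/

section tri

variable {g : F2 E4 M} {I : Fin 3 → EndF E4 M}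
  (hin : ∀ (x : M) (u v : TangentSpace 𝓘(ℝ, E4) x), inner ℝ u v = at2 g x u v)
  (h : QT g I)

include hin h in
/-- the multiplication table. -/
theorem mtab (z : M) (u : E4) :
    atJ (I 0) z (atJ (I 1) z u) = atJ (I 2) z u ∧ atJ (I 1) z (atJ (I 2) z u) = atJ (I 0) z u ∧
    atJ (I 2) z (atJ (I 0) z u) = atJ (I 1) z u ∧ atJ (I 1) z (atJ (I 0) z u) = - atJ (I 2) z u ∧
    atJ (I 2) z (atJ (I 1) z u) = - atJ (I 0) z u ∧ atJ (I 0) z (atJ (I 2) z u) = - atJ (I 1) z u :=
  ⟨h.mul 0 z u, h.mul 1 z u, h.mul 2 z u, (ql hin h z).mul' 0 u, (ql hin h z).mul' 1 u,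
    (ql hin h z).mul' 2 u⟩

include hin h in
/-- the products. -/
theorem ptab (z : M) (x : E4) :
    (∀ b, at2 g z (atJ (I b) z x) x = 0) ∧ (∀ b, at2 g z x (atJ (I b) z x) = 0) ∧
    ∀ b c, at2 g z (atJ (I b) z x) (atJ (I c) z x) = if b = c then at2 g z x x else 0 := by
  have hs := symm_of hin
  have a1 : ∀ b, at2 g z (atJ (I b) z x) x = 0 := fun b => h.self hs b z x
  have a2 : ∀ b, at2 g z x (atJ (I b) z x) = 0 := fun b => by rw [hs]; exact a1 b
  refine ⟨a1, a2, fun b c => ?_⟩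
  obtain ⟨m01, m12, m20, m10, m21, m02⟩ := mtab hin h z x
  split_ifs with hbc
  · subst hbc
    rw [h.skew, h.sq, map_neg, neg_neg]
  · rw [h.skew]
    fin_cases b <;> fin_cases c
    · exact absurd rfl hbc
    · show - at2 g z x (atJ (I 0) z (atJ (I 1) z x)) = 0
      rw [m01, a2, neg_zero]
    · show - at2 g z x (atJ (I 0) z (atJ (I 2) z x)) = 0
      rw [m02, map_neg, a2, neg_zero, neg_zero]
    · show - at2 g z x (atJ (I 1) z (atJ (I 0) z x)) = 0
      rw [m10, map_neg, a2, neg_zero, neg_zero]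
    · exact absurd rfl hbc
    · show - at2 g z x (atJ (I 1) z (atJ (I 2) z x)) = 0
      rw [m12, a2, neg_zero]
    · show - at2 g z x (atJ (I 2) z (atJ (I 0) z x)) = 0
      rw [m20, a2, neg_zero]
    · show - at2 g z x (atJ (I 2) z (atJ (I 1) z x)) = 0
      rw [m21, map_neg, a2, neg_zero, neg_zero]
    · exact absurd rfl hbc

/-- the frame `x, I_0 x, I_1 x, I_2 x`. -/
def pe (I : Fin 3 → EndF E4 M) (z : M) (x : E4) : Fin 4 → E4 :=
  ![x, atJ (I 0) z x, atJ (I 1) z x, atJ (I 2) z x]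

include hin h in
theorem pe_orth (z : M) {x : E4} (hx : at2 g z x x = 1) (i j : Fin 4) :
    at2 g z (pe I z x i) (pe I z x j) = if i = j then 1 else 0 := by
  obtain ⟨a1, a2, a3⟩ := ptab hin h z x
  have hs : ∀ c : Fin 3, pe I z x c.succ = atJ (I c) z x := by intro c; fin_cases c <;> rfl
  have h0 : pe I z x 0 = x := rfl
  refine Fin.cases ?_ (fun b => ?_) i
  · refine Fin.cases ?_ (fun c => ?_) j
    · rw [if_pos rfl]; exact hx
    · rw [if_neg (Fin.succ_ne_zero c).symm, hs, h0, a2]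
  · refine Fin.cases ?_ (fun c => ?_) j
    · rw [if_neg (Fin.succ_ne_zero b), hs, h0, a1]
    · rw [hs, hs, a3, hx]
      simp only [Fin.succ_inj]

include hin h in
theorem WF_pe {e : Fin 3 → F2 E4 M} (he : ∀ b x u v, at2 (e b) x u v = at2 g x (atJ (I b) x u) v)
    (z : M) {x : E4} (hx : at2 g z x x = 1) (b : Fin 3) {β : Bil} (hβ : Alt β) :
    WF (at2 (e b) z) β (pe I z x) =
      β x (atJ (I b) z x) + β (atJ (I (b + 1)) z x) (atJ (I (b + 2)) z x) := by
  obtain ⟨a1, a2, a3⟩ := ptab hin h z x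
  obtain ⟨m01, m12, m20, m10, m21, m02⟩ := mtab hin h z x
  have p0 : pe I z x 0 = x := rfl
  have p1 : pe I z x 1 = atJ (I 0) z x := rfl
  have p2 : pe I z x 2 = atJ (I 1) z x := rfl
  have p3 : pe I z x 3 = atJ (I 2) z x := rfl
  have e1 : ∀ c u v, at2 (e c) z u v = at2 g z (atJ (I c) z u) v := fun c u v => he c z u v
  have d01 : ((0 : Fin 3) = 1) = False := eq_false (by decide)
  have d02 : ((0 : Fin 3) = 2) = False := eq_false (by decide)
  have d10 : ((1 : Fin 3) = 0) = False := eq_false (by decide)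
  have d12 : ((1 : Fin 3) = 2) = False := eq_false (by decide)
  have d20 : ((2 : Fin 3) = 0) = False := eq_false (by decide)
  have d21 : ((2 : Fin 3) = 1) = False := eq_false (by decide)
  unfold WF
  simp only [e1, p0, p1, p2, p3]
  fin_cases b
  · show at2 g z (atJ (I 0) z x) _ * _ - at2 g z (atJ (I 0) z x) _ * _ +
      at2 g z (atJ (I 0) z x) _ * _ + at2 g z (atJ (I 0) z _) _ * _ -
      at2 g z (atJ (I 0) z _) _ * _ + at2 g z (atJ (I 0) z _) _ * _ =
      β x (atJ (I 0) z x) + β (atJ (I 1) z x) (atJ (I 2) z x)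
    simp only [h.sq, m01, m12, m20, m10, m21, m02, map_neg, neg_apply, a1, a2, a3, hx, d01, d02,
      d10, d12, d20, d21, if_true, if_false]
    ring
  · show at2 g z (atJ (I 1) z x) _ * _ - at2 g z (atJ (I 1) z x) _ * _ +
      at2 g z (atJ (I 1) z x) _ * _ + at2 g z (atJ (I 1) z _) _ * _ -
      at2 g z (atJ (I 1) z _) _ * _ + at2 g z (atJ (I 1) z _) _ * _ =
      β x (atJ (I 1) z x) + β (atJ (I 2) z x) (atJ (I 0) z x)
    rw [hβ.swap (atJ (I 2) z x) (atJ (I 0) z x)]
    simp only [h.sq, m01, m12, m20, m10, m21, m02, map_neg, neg_apply, a1, a2, a3, hx, d01, d02,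
      d10, d12, d20, d21, if_true, if_false]
    ring
  · show at2 g z (atJ (I 2) z x) _ * _ - at2 g z (atJ (I 2) z x) _ * _ +
      at2 g z (atJ (I 2) z x) _ * _ + at2 g z (atJ (I 2) z _) _ * _ -
      at2 g z (atJ (I 2) z _) _ * _ + at2 g z (atJ (I 2) z _) _ * _ =
      β x (atJ (I 2) z x) + β (atJ (I 0) z x) (atJ (I 1) z x)
    simp only [h.sq, m01, m12, m20, m10, m21, m02, map_neg, neg_apply, a1, a2, a3, hx, d01, d02,
      d10, d12, d20, d21, if_true, if_false]
    ring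

include hin h in
/-- `2 q(e_0; e_b, β)` in the frame. -/
theorem q_pe {e : Fin 3 → F2 E4 M} (halt : ∀ b x, Alt (at2 (e b) x))
    (he : ∀ b x u v, at2 (e b) x u v = at2 g x (atJ (I b) x u) v)
    (z : M) (h0 : W (at2 (e 0) z) (at2 (e 0) z) ≠ 0) {x : E4} (hx : at2 g z x x = 1) (b : Fin 3)
    {β : F2 E4 M} (hβ : Alt (at2 β z)) :
    2 * qG (e 0) (e b) β z =
      at2 β z x (atJ (I b) z x) + at2 β z (atJ (I (b + 1)) z x) (atJ (I (b + 2)) z x) := by
  obtain ⟨a1, a2, a3⟩ := ptab hin h z x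
  have hp : WF (at2 (e 0) z) (at2 (e 0) z) (pe I z x) = 2 := by
    rw [WF_pe hin h he z hx 0 (halt 0 z), he, he]
    obtain ⟨m01, m12, m20, m10, m21, m02⟩ := mtab hin h z x
    have e1 : at2 g z (atJ (I 0) z (atJ (I (0 + 1)) z x)) (atJ (I (0 + 2)) z x) =
        at2 g z (atJ (I 0) z (atJ (I 1) z x)) (atJ (I 2) z x) := rfl
    rw [e1, m01, a3, a3, if_pos rfl, if_pos rfl, hx]
    norm_num
  have hA : ∀ i j, at2 (e 0) z (pe I z x i) (atJ (I 0) z (pe I z x j)) = if i = j then 1 else 0 := by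
    intro i j
    rw [he, h.skew, h.sq, map_neg, neg_neg]
    exact pe_orth hin h z hx i j
  have key := q_frame (halt 0 z) (halt b z) hβ h0 (fun v => h.sq 0 z v) hA (by rw [hp]; norm_num)
  rw [← WF_pe hin h he z hx b hβ]
  exact key

variable {κ : Type} [Fintype κ] (s : PF 4 M κ) {a : κ → M → ℝ}

theorem alt_dG (α : F1 E4 M) (x : M) : Alt (at2 (dG α) x) := by
  intro v
  exact sub_self _

/-- **`(B a)_{b+1} = - 2 q(e_0; e_b, dα)`**, `α` the one-form of `X = ∑ a_A s_A`. -/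
theorem opB_q (hg : Riem_399.Met g) {e : Fin 3 → F2 E4 M} (halt : ∀ b x, Alt (at2 (e b) x))
    (he : ∀ b x u v, at2 (e b) x u v = at2 g x (atJ (I b) x u) v)
    (ha : SmU (n := 4) a) (hs : ∀ i z, ∑ b, tanP s i b z * a b z = a i z) (b : Fin 3)
    (z : M) (h0 : W (at2 (e 0) z) (at2 (e 0) z) ≠ 0) :
    opB (pairH (qsOf hin h) s).D1 (pairH (qsOf hin h) s).cc a b.succ z =
      - (2 * qG (e 0) (e b) (dG (flG g (fieldOf s a))) z) := by
  obtain ⟨x, hx⟩ := exists_unit (M := M) z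
  have hx' : at2 g z x x = 1 := (hin z x x).symm.trans hx
  rw [q_pe hin h halt he z h0 hx' b (alt_dG _ z), opB_frame _ s ha hs b z hx, Fin.sum_univ_four]
  have hX := VSm_fieldOf s ha
  have hd : ∀ u v : TangentSpace 𝓘(ℝ, E4) z, at2 (dG (flG g (fieldOf s a))) z u v =
      inner ℝ (mCov 4 (fieldOf s a) z u) v - inner ℝ (mCov 4 (fieldOf s a) z v) u :=
    fun u v => dG_mCov hin hg (hX z) u v
  set q := qsOf hin h with hq
  have hd0 := hd x (q.op b z x)
  have hd1 := hd (q.op (b + 1) z x) (q.op (b + 2) z x)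
  have hn : ∀ u : TangentSpace 𝓘(ℝ, E4) z, mCov 4 (fieldOf s a) z (-u) =
      - mCov 4 (fieldOf s a) z u := fun u => map_neg (R249.Idx789.mCovL (fieldOf s a) z) u
  have goal : inner ℝ (mCov 4 (fieldOf s a) z (q.op b z (pf q z x 0))) (pf q z x 0) +
      inner ℝ (mCov 4 (fieldOf s a) z (q.op b z (pf q z x 1))) (pf q z x 1) +
      inner ℝ (mCov 4 (fieldOf s a) z (q.op b z (pf q z x 2))) (pf q z x 2) +
      inner ℝ (mCov 4 (fieldOf s a) z (q.op b z (pf q z x 3))) (pf q z x 3) =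
      -((inner ℝ (mCov 4 (fieldOf s a) z x) (q.op b z x) -
        inner ℝ (mCov 4 (fieldOf s a) z (q.op b z x)) x) +
       (inner ℝ (mCov 4 (fieldOf s a) z (q.op (b + 1) z x)) (q.op (b + 2) z x) -
        inner ℝ (mCov 4 (fieldOf s a) z (q.op (b + 2) z x)) (q.op (b + 1) z x))) := by
    have p0 : pf q z x 0 = x := rfl
    have p1 : pf q z x 1 = q.op 0 z x := rfl
    have p2 : pf q z x 2 = q.op 1 z x := rfl
    have p3 : pf q z x 3 = q.op 2 z x := rfl
    rw [p0, p1, p2, p3]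
    fin_cases b
    · show inner ℝ (mCov 4 (fieldOf s a) z (q.op 0 z x)) x +
        inner ℝ (mCov 4 (fieldOf s a) z (q.op 0 z (q.op 0 z x))) (q.op 0 z x) +
        inner ℝ (mCov 4 (fieldOf s a) z (q.op 0 z (q.op 1 z x))) (q.op 1 z x) +
        inner ℝ (mCov 4 (fieldOf s a) z (q.op 0 z (q.op 2 z x))) (q.op 2 z x) =
        -((inner ℝ (mCov 4 (fieldOf s a) z x) (q.op 0 z x) -
          inner ℝ (mCov 4 (fieldOf s a) z (q.op 0 z x)) x) +
         (inner ℝ (mCov 4 (fieldOf s a) z (q.op 1 z x)) (q.op 2 z x) -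
          inner ℝ (mCov 4 (fieldOf s a) z (q.op 2 z x)) (q.op 1 z x)))
      rw [q.op_op, q.op01, q.op02, hn, hn, inner_neg_left, inner_neg_left]
      ring
    · show inner ℝ (mCov 4 (fieldOf s a) z (q.op 1 z x)) x +
        inner ℝ (mCov 4 (fieldOf s a) z (q.op 1 z (q.op 0 z x))) (q.op 0 z x) +
        inner ℝ (mCov 4 (fieldOf s a) z (q.op 1 z (q.op 1 z x))) (q.op 1 z x) +
        inner ℝ (mCov 4 (fieldOf s a) z (q.op 1 z (q.op 2 z x))) (q.op 2 z x) =
        -((inner ℝ (mCov 4 (fieldOf s a) z x) (q.op 1 z x) -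
          inner ℝ (mCov 4 (fieldOf s a) z (q.op 1 z x)) x) +
         (inner ℝ (mCov 4 (fieldOf s a) z (q.op 2 z x)) (q.op 0 z x) -
          inner ℝ (mCov 4 (fieldOf s a) z (q.op 0 z x)) (q.op 2 z x)))
      rw [q.op_op, q.op10, q.op12, hn, hn, inner_neg_left, inner_neg_left]
      ring
    · show inner ℝ (mCov 4 (fieldOf s a) z (q.op 2 z x)) x +
        inner ℝ (mCov 4 (fieldOf s a) z (q.op 2 z (q.op 0 z x))) (q.op 0 z x) +
        inner ℝ (mCov 4 (fieldOf s a) z (q.op 2 z (q.op 1 z x))) (q.op 1 z x) +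
        inner ℝ (mCov 4 (fieldOf s a) z (q.op 2 z (q.op 2 z x))) (q.op 2 z x) =
        -((inner ℝ (mCov 4 (fieldOf s a) z x) (q.op 2 z x) -
          inner ℝ (mCov 4 (fieldOf s a) z (q.op 2 z x)) x) +
         (inner ℝ (mCov 4 (fieldOf s a) z (q.op 0 z x)) (q.op 1 z x) -
          inner ℝ (mCov 4 (fieldOf s a) z (q.op 1 z x)) (q.op 0 z x)))
      rw [q.op_op, q.op20, q.op21, hn, hn, inner_neg_left, inner_neg_left]
      ring
  rw [goal]
  exact congrArg Neg.neg (congrArg₂ (· + ·) hd0.symm hd1.symm)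

end tri

/-! ### the operator `A` -/

section A

variable (q : QS M) {κ : Type} [Fintype κ] (s : PF 4 M κ)

/-- `β_b = grad f_b + f_{b+2} η_{b+1} - f_{b+1} η_{b+2}`. -/
def bet (f : Fin 3 → M → ℝ) (b : Fin 3) (z : M) : TangentSpace 𝓘(ℝ, E4) z :=
  mgrad 4 (f b) z + f (b + 2) z • etaV q s (b + 1) z - f (b + 1) z • etaV q s (b + 2) z

theorem W_zero_left (y : Fin 4) (z : M) : bW0 q s (etaV q s) 0 y z = 0 := by
  rw [bW0, Fin.sum_univ_three]
  fin_cases y <;> simp [R249.C2_198.K, R249.C2_198.J]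

theorem W_zero_right (y : Fin 4) (z : M) : bW0 q s (etaV q s) y 0 z = 0 := by
  rw [bW0, Fin.sum_univ_three]
  fin_cases y <;> simp [R249.C2_198.K, R249.C2_198.J]

theorem cv_zero (f0 : M → ℝ) (f : Fin 3 → M → ℝ) (z : M) :
    (pairH q s).D0.cv (Fin.cons f0 f) 0 z = mgrad 4 f0 z := by
  show mgrad 4 f0 z + ∑ b, (Fin.cons f0 f : Fin 4 → M → ℝ) b z • bW0 q s (etaV q s) 0 b z = _
  simp only [W_zero_left, smul_zero, Finset.sum_const_zero, add_zero]

theorem cv_succ (f0 : M → ℝ) (f : Fin 3 → M → ℝ) (b : Fin 3) (z : M) :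
    (pairH q s).D0.cv (Fin.cons f0 f) b.succ z = bet q s f b z := by
  show mgrad 4 (f b) z + ∑ c, (Fin.cons f0 f : Fin 4 → M → ℝ) c z • bW0 q s (etaV q s) b.succ c z = _
  rw [Fin.sum_univ_succ, W_zero_right, smul_zero, zero_add, Fin.sum_univ_three]
  simp only [Fin.cons_succ, bW0, Fin.sum_univ_three, bet]
  fin_cases b <;> simp [R249.C2_198.K, R249.C2_198.J] <;> module

/-- **the operator `A`.** -/
theorem opA_cons (f0 : M → ℝ) (f : Fin 3 → M → ℝ) (x : κ) (z : M) :
    opA (pairH q s).D0 (pairH q s).cc (Fin.cons f0 f) x z =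
      inner ℝ (mgrad 4 f0 z) (s.s x z) - ∑ b, inner ℝ (bet q s f b z) (q.op b z (s.s x z)) := by
  rw [opA, Fin.sum_univ_succ, cv_zero, sub_eq_add_neg, ← Finset.sum_neg_distrib]
  congr 1
  refine Finset.sum_congr rfl fun b _ => ?_
  rw [cv_succ]
  exact inner_neg_right _ _

/-- constants. -/
theorem opA_one (x : κ) (z : M) :
    opA (pairH q s).D0 (pairH q s).cc (Fin.cons (fun _ => 1) fun _ _ => 0) x z = 0 := by
  have h1 : ∀ b, bet q s (fun _ _ => 0) b z = 0 := by
    intro b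
    have : mgrad 4 (fun _ : M => (0 : ℝ)) z = 0 := mgrad_const _
    simp only [bet, this, zero_smul, add_zero, sub_zero]
  have h2 : mgrad 4 (fun _ : M => (1 : ℝ)) z = 0 := mgrad_const _
  rw [opA_cons, h2, inner_zero_left]
  simp only [h1, inner_zero_left, Finset.sum_const_zero, sub_zero]

end A

/-! ### the exterior derivative of `∑ f_b e_b` -/

section ext

variable {g : F2 E4 M} {I : Fin 3 → EndF E4 M}
  (hin : ∀ (x : M) (u v : TangentSpace 𝓘(ℝ, E4) x), inner ℝ u v = at2 g x u v)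
  (h : QT g I)

/-- the Christoffel term. -/
def Gm (z : M) (v u : E4) : E4 := Gam (chartMetric 4 M z) (chartCentre 4 M z) v u

theorem Gm_symm (z : M) (v u : E4) : Gm z v u = Gm z u v :=
  Gam_symm (isRiemannianOn_chartMetric (n := 4) (M := M) z) (centre_mem (n := 4) z) v u

theorem mC_cst (z : M) (u v : E4) : mC (cst z u) z v = Gm z v u := by
  have h1 : repV z (cst z u) =ᶠ[𝓝 (chartCentre 4 M z)] fun _ => u := by
    filter_upwards [(chartAt E4 z).open_target.mem_nhds (centre_mem (n := 4) z)] with y hy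
    exact (vCh_repV z hy (fld z (fun _ => u))).symm.trans (vCh_fld (n := 4) z (fun _ => u) hy)
  unfold mC
  rw [h1.fderiv_eq, cst_self]
  simp [Gm]

include hin in
/-- the derivative of the form `g(J·, ·)` in a chart. -/
theorem fderiv_rep_J {J : EndF E4 M} (hJ : SmoothJ J) {b : F2 E4 M} (hb2 : Smooth2 b)
    (hb : ∀ x u v, at2 b x u v = at2 g x (atJ J x u) v) (z : M) (a u v : E4) :
    fderiv ℝ (rep z b) (chartCentre 4 M z) a u v =
      at2 g z (nab J z a u) v + at2 b z (Gm z a u) v + at2 b z u (Gm z a v) := by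
  have hX := vs_cst z u
  have hY := vs_cst z v
  have h1 := leib hin (hX.JX hJ) hY a
  have hc := centre_mem (n := 4) (M := M) z
  have h2 : at1 (dF fun q => at2 g q (JX J (cst z u) q) (cst z v q)) z a =
      fderiv ℝ (rep z b) (chartCentre 4 M z) a u v := by
    rw [dF_apply]
    have hd : DifferentiableAt ℝ (rep z b) (chartCentre 4 M z) :=
      ((hb2.2 z).contDiffAt ((chartAt E4 z).open_target.mem_nhds hc)).differentiableAt (by simp)
    have e1 : repF (E := E4) z (fun q => at2 g q (JX J (cst z u) q) (cst z v q))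
        =ᶠ[𝓝 (chartCentre 4 M z)] fun y => rep z b y u v := by
      filter_upwards [(chartAt E4 z).open_target.mem_nhds hc] with y hy
      have e2 : ∀ w : E4, repV z (cst z w) y = w := fun w =>
        (vCh_repV z hy (fld z (fun _ => w))).symm.trans (vCh_fld (n := 4) z (fun _ => w) hy)
      have e3 := rep_repV hy b (cst z u) (cst z v)
      rw [e2, e2] at e3
      rw [e3]
      exact (hb _ _ _).symm
    rw [e1.fderiv_eq]
    have e4 : (fun y => rep z b y u v) = fun y => (rep z b y u) v := rfl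
    rw [fderiv_clm_apply (hd.clm_apply (differentiableAt_const u)) (differentiableAt_const v),
      fderiv_clm_apply hd (differentiableAt_const u)]
    simp
  rw [← h2, h1, mC_endo hJ hX, mC_cst, mC_cst, cst_self, cst_self]
  have h6 : JX J (cst z u) z = atJ J z u := congrArg (atJ J z) (cst_self z u)
  rw [h6, map_add, add_apply, ← hb, ← hb]
  ring

include hin in
/-- the exterior derivative of `g(J·, ·)`. -/
theorem dd_rep_J {J : EndF E4 M} (hJ : SmoothJ J) {b : F2 E4 M} (hb2 : Smooth2 b)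
    (hb : ∀ x u v, at2 b x u v = at2 g x (atJ J x u) v) (z : M) (u v w : E4) :
    dd (rep z b) (chartCentre 4 M z) u v w =
      at2 g z (nab J z u v) w - at2 g z (nab J z v u) w + at2 g z (nab J z w u) v := by
  unfold dd
  rw [fderiv_rep_J hin hJ hb2 hb, fderiv_rep_J hin hJ hb2 hb, fderiv_rep_J hin hJ hb2 hb,
    Gm_symm z v u, Gm_symm z w u, Gm_symm z w v, Alt.swap (hb2.1 z) v (Gm z u w)]
  ring

variable {κ : Type} [Fintype κ] (P : PF 4 M κ)

/-- `etaV = theta`. -/
theorem etaV_eq (i : Fin 3) (z : M) : etaV (qsOf hin h) P i z = theta P g I i z := by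
  have h1 : ∀ b b' C, etaT (qsOf hin h) P b b' C z =
      ∑ B, at2 g z (nab (I b) z (sP P C z) (sP P B z)) (atJ (I b') z (sP P B z)) := by
    intro b b' C
    refine Finset.sum_congr rfl fun B _ => ?_
    refine (hin z _ _).trans ?_
    have e1 := mC_endo (h.smooth b) (vs_sP P B z) (sP P C z)
    have e2 := mC_eq (fun x => (atJ (I b) x (P.s B x) : TangentSpace 𝓘(ℝ, E4) x)) z (sP P C z)
    have e3 := mC_eq (P.s B) z (sP P C z)
    have e4 : (mCov 4 ((qsOf hin h).ap b (P.s B)) z (P.s C z) -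
        (qsOf hin h).ap b (fun p => mCov 4 (P.s B) p (P.s C p)) z : E4) =
        nab (I b) z (sP P C z) (sP P B z) := by
      refine (congrArg₂ (fun a b : E4 => a - b) (e2.trans e1) (congrArg (atJ (I b) z) e3)).trans ?_
      exact add_sub_cancel_left _ _
    exact congrArg (fun v : E4 => at2 g z v (atJ (I b') z (P.s B z))) e4
  show (1 / 4 : ℝ) • ∑ C, etaT (qsOf hin h) P (i + 1) (i + 2) C z • P.s C z = _
  rw [Finset.smul_sum, theta]
  refine Finset.sum_congr rfl fun C _ => ?_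
  rw [smul_smul, h1]
  rfl

/-- the one-form of `bet`. -/
def Bt (P : PF 4 M κ) (g : F2 E4 M) (I : Fin 3 → EndF E4 M) (f : Fin 3 → M → ℝ) (b : Fin 3) (z : M)
    (u : E4) : ℝ :=
  at1 (dF (f b)) z u + f (b + 2) z * thv P g I (b + 1) z u - f (b + 1) z * thv P g I (b + 2) z u

theorem inner_bet (f : Fin 3 → M → ℝ) (b : Fin 3) (z : M) (u : TangentSpace 𝓘(ℝ, E4) z) :
    (inner ℝ (bet (qsOf hin h) P f b z) u : ℝ) = Bt P g I f b z u := by
  rw [bet, inner_sub_left, inner_add_left, real_inner_smul_left, real_inner_smul_left, etaV_eq,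
    etaV_eq, inner_theta P hin, inner_theta P hin, mgrad_eq, inner_shp]
  rfl

include hin h in
/-- **`d(∑ f_b e_b) = ∑ β_b ∧ e_b`.** -/
theorem dd_comb {e : Fin 3 → F2 E4 M} (he2 : ∀ b, Smooth2 (e b))
    (he : ∀ b x u v, at2 (e b) x u v = at2 g x (atJ (I b) x u) v) {f : Fin 3 → M → ℝ}
    (hf : ∀ b, SmoothF E4 (f b)) {F : F2 E4 M} (hF : ∀ x, at2 F x = ∑ b, f b x • at2 (e b) x)
    (z : M) (u v w : E4) :
    dd (rep z F) (chartCentre 4 M z) u v w = ∑ b, (Bt P g I f b z u * at2 (e b) z v w -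
      Bt P g I f b z v * at2 (e b) z u w + Bt P g I f b z w * at2 (e b) z u v) := by
  have hc := centre_mem (n := 4) (M := M) z
  have hcn := (chartAt E4 z).open_target.mem_nhds hc
  have hR : ∀ b, DifferentiableAt ℝ (rep z (e b)) (chartCentre 4 M z) := fun b =>
    (((he2 b).2 z).contDiffAt hcn).differentiableAt (by simp)
  have hfd : ∀ b, DifferentiableAt ℝ (repF (E := E4) z (f b)) (chartCentre 4 M z) := fun b =>
    (((hf b) z).contDiffAt hcn).differentiableAt (by simp)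
  have e1 : rep z F = fun y => ∑ b, repF (E := E4) z (f b) y • rep z (e b) y := by
    funext y
    ext a c
    rw [rep_apply, hF, sum_apply, sum_apply, sum_apply, sum_apply]
    refine Finset.sum_congr rfl fun b _ => ?_
    rw [smul_apply, smul_apply, smul_apply, smul_apply, rep_apply]
    rfl
  have e2 : fderiv ℝ (rep z F) (chartCentre 4 M z) = ∑ b, (f b z • fderiv ℝ (rep z (e b))
      (chartCentre 4 M z) + (fderiv ℝ (repF (E := E4) z (f b)) (chartCentre 4 M z)).smulRight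
        (at2 (e b) z)) := by
    rw [e1, fderiv_fun_sum (A := fun b y => repF (E := E4) z (f b) y • rep z (e b) y)
      fun b _ => (hfd b).fun_smul (hR b)]
    refine Finset.sum_congr rfl fun b _ => ?_
    rw [fderiv_fun_smul (hfd b) (hR b)]
    have h2 : repF (E := E4) z (f b) (chartCentre 4 M z) = f b z := congrArg (f b) (RiemD_399.symm_centre z)
    have h3 : rep z (e b) (chartCentre 4 M z) = at2 (e b) z := by
      ext a c; exact rep_self z (e b) a c
    rw [h2, h3]
  have e3 : ∀ a b' c, fderiv ℝ (rep z F) (chartCentre 4 M z) a b' c = ∑ b, (f b z *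
      fderiv ℝ (rep z (e b)) (chartCentre 4 M z) a b' c + at1 (dF (f b)) z a * at2 (e b) z b' c) := by
    intro a b' c
    rw [e2, sum_apply, sum_apply, sum_apply]
    refine Finset.sum_congr rfl fun b _ => ?_
    rfl
  have e4 : ∀ b, dd (rep z (e b)) (chartCentre 4 M z) u v w =
      (thv P g I (b + 2) z u * at2 (e (b + 1)) z v w - thv P g I (b + 1) z u * at2 (e (b + 2)) z v w)
      - (thv P g I (b + 2) z v * at2 (e (b + 1)) z u w -
        thv P g I (b + 1) z v * at2 (e (b + 2)) z u w)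
      + (thv P g I (b + 2) z w * at2 (e (b + 1)) z u v -
        thv P g I (b + 1) z w * at2 (e (b + 2)) z u v) := by
    intro b
    rw [dd_rep_J hin (h.smooth b) (he2 b) (he b)]
    simp only [nab_I P hin h, map_sub, sub_apply, map_smul, smul_apply, smul_eq_mul, ← he]
  have e5 : dd (rep z F) (chartCentre 4 M z) u v w = ∑ b, (f b z *
      dd (rep z (e b)) (chartCentre 4 M z) u v w + (at1 (dF (f b)) z u * at2 (e b) z v w -
        at1 (dF (f b)) z v * at2 (e b) z u w + at1 (dF (f b)) z w * at2 (e b) z u v)) := by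
    unfold dd
    rw [e3, e3, e3, ← Finset.sum_sub_distrib, ← Finset.sum_add_distrib]
    exact Finset.sum_congr rfl fun b _ => by ring
  rw [e5]
  simp only [e4, Bt, Fin.sum_univ_three]
  have k1 : (1 : Fin 3) + 2 = 0 := rfl
  have k2 : (2 : Fin 3) + 2 = 1 := rfl
  have k3 : (2 : Fin 3) + 1 = 0 := rfl
  have k4 : (1 : Fin 3) + 1 = 2 := rfl
  have k5 : (0 : Fin 3) + 1 = 1 := rfl
  have k6 : (0 : Fin 3) + 2 = 2 := rfl
  rw [k1, k2, k3, k4, k5, k6]
  ring

include hin h in
/-- if `∑ f_b e_b` is closed, `∑_b β_b(I_b x) = 0`. -/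
theorem sum_Bt {e : Fin 3 → F2 E4 M} (he2 : ∀ b, Smooth2 (e b))
    (he : ∀ b x u v, at2 (e b) x u v = at2 g x (atJ (I b) x u) v) {f : Fin 3 → M → ℝ}
    (hf : ∀ b, SmoothF E4 (f b)) {F : F2 E4 M} (hF : ∀ x, at2 F x = ∑ b, f b x • at2 (e b) x)
    (hcl : Closed2 F) (z : M) (x : E4) : ∑ b, Bt P g I f b z (atJ (I b) z x) = 0 := by
  by_cases hx : x = 0
  · subst hx
    have : ∀ b, Bt P g I f b z (atJ (I b) z 0) = 0 := by
      intro b
      rw [map_zero]
      exact (inner_bet hin h P f b z (0 : TangentSpace 𝓘(ℝ, E4) z)).symm.trans (inner_zero_right _)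
    simp only [this, Finset.sum_const_zero]
  have h1 := hcl z (chartCentre 4 M z) (centre_mem (n := 4) z) (atJ (I 0) z x) (atJ (I 1) z x)
    (atJ (I 2) z x)
  obtain ⟨a1, a2, a3⟩ := ptab hin h z x
  obtain ⟨m01, m12, m20, m10, m21, m02⟩ := mtab hin h z x
  have d01 : ((0 : Fin 3) = 1) = False := eq_false (by decide)
  have d02 : ((0 : Fin 3) = 2) = False := eq_false (by decide)
  have d10 : ((1 : Fin 3) = 0) = False := eq_false (by decide)
  have d12 : ((1 : Fin 3) = 2) = False := eq_false (by decide)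
  have d20 : ((2 : Fin 3) = 0) = False := eq_false (by decide)
  have d21 : ((2 : Fin 3) = 1) = False := eq_false (by decide)
  rw [dd_comb hin h P he2 he hf hF, Fin.sum_univ_three] at h1
  simp only [he, h.sq, m01, m12, m20, m10, m21, m02, map_neg, neg_apply, a1, a2, a3, d01, d02,
      d10, d12, d20, d21, if_true, if_false] at h1
  have h2 : 0 < at2 g z x x := pos_of hin z hx
  rw [Fin.sum_univ_three]
  have h3 : (Bt P g I f 0 z (atJ (I 0) z x) + Bt P g I f 1 z (atJ (I 1) z x) +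
      Bt P g I f 2 z (atJ (I 2) z x)) * at2 g z x x = 0 := by
    linear_combination h1
  exact (mul_eq_zero.1 h3).resolve_right h2.ne'

include hin h in
/-- **`A (0, f) = 0` if `∑ f_b e_b` is closed.** -/
theorem opA_closed {e : Fin 3 → F2 E4 M} (he2 : ∀ b, Smooth2 (e b))
    (he : ∀ b x u v, at2 (e b) x u v = at2 g x (atJ (I b) x u) v) {f : Fin 3 → M → ℝ}
    (hf : ∀ b, SmoothF E4 (f b)) {F : F2 E4 M} (hF : ∀ x, at2 F x = ∑ b, f b x • at2 (e b) x)
    (hcl : Closed2 F) (x : κ) (z : M) :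
    opA (pairH (qsOf hin h) P).D0 (pairH (qsOf hin h) P).cc (Fin.cons (fun _ => 0) f) x z = 0 := by
  have h0 : mgrad 4 (fun _ : M => (0 : ℝ)) z = 0 := mgrad_const _
  have h1 := sum_Bt hin h P he2 he hf hF hcl z (P.s x z)
  rw [opA_cons, h0, inner_zero_left, zero_sub, neg_eq_zero, ← h1]
  exact Finset.sum_congr rfl fun b _ => inner_bet hin h P f b z _

end ext

end Crest.Agent.R235.Mdl3_399

end
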