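import Crest.Agent.R235.AddJ2_344
import Crest.Agent.R235.SymQ_755

/-!
Row 235, PACKAGE SW, block MODEL (task 337), part 3 (helper344): the additional potential of
`∇ + v ⊗ J` in terms of the Hodge operator of 167's `pairH`:

`potE = ∑_k (B v)_{k+1} ρ_k`.
-/

set_option autoImplicit false
set_option maxSynthPendingDepth 3
set_option linter.unusedSectionVars false

open Filter Topology Set Bundle Manifold
open Matrix hiding J
open scoped ContDiff
open Crest.GeometryTopology.CoordMetric Crest.GeometryTopology.ChartCurvature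
  Crest.GeometryTopology.PointedLimit
open Crest.Agent.R202.Tens Crest.Agent.R247.Bo84 Crest.Agent.R249.FrmB_285 Crest.Agent.R249.Vf281
  Crest.Agent.R249.Tz1_805 Crest.Agent.R249.Tz2_805
open Crest.Agent.R249.Fr129
open Crest.Agent.R249.C2_198 hiding cp half_two
open Crest.Agent.R249.Sg129 (SG germ ev ONF)
open Crest.Agent.R249.Tz805
open Crest.Agent.R235.IndAlg_167 Crest.Agent.R235.Ind167 Crest.Agent.R235.Mdl2_755
open Crest.Agent.R235.SymQ_755 Crest.Agent.R249.Idx789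

noncomputable section

namespace Crest.Agent.R235.AddJ_344

variable {M : Type*} [TopologicalSpace M] [ChartedSpace (EuclideanSpace ℝ (Fin 4)) M]
  [IsManifold 𝓘(ℝ, EuclideanSpace ℝ (Fin 4)) ∞ M]
  [RiemannianBundle (fun x : M => TangentSpace 𝓘(ℝ, EuclideanSpace ℝ (Fin 4)) x)]
  [IsContMDiffRiemannianBundle 𝓘(ℝ, EuclideanSpace ℝ (Fin 4)) ∞ (EuclideanSpace ℝ (Fin 4))
      (fun x : M => TangentSpace 𝓘(ℝ, EuclideanSpace ℝ (Fin 4)) x)]

local notation "𝔼" => EuclideanSpace ℝ (Fin 4)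
local notation "𝓘E" => 𝓘(ℝ, EuclideanSpace ℝ (Fin 4))

variable {κ κ0 κ1 : Type} [Fintype κ] [Fintype κ0] [Fintype κ1]

section trace

variable (q : QS M) (s : PF 4 M κ)
  (v : (p : M) → TangentSpace 𝓘(ℝ, EuclideanSpace ℝ (Fin 4)) p)

lemma mCov_pars (z : M) (X : TangentSpace 𝓘(ℝ, EuclideanSpace ℝ (Fin 4)) z) :
    mCov 4 v z X = ∑ C, (inner ℝ (s.s C z) X : ℝ) • mCov 4 v z (s.s C z) := by
  conv_lhs => rw [← s.pars z X]
  exact mCov_lin v z Finset.univ _ _

lemma sum_mCov_op (k : Fin 3) (z : M) :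
    ∑ C, (inner ℝ (mCov 4 v z (s.s C z)) (q.op k z (s.s C z)) : ℝ)
      = - ∑ C, inner ℝ (mCov 4 v z (q.op k z (s.s C z))) (s.s C z) := by
  have h1 : ∀ C, (inner ℝ (mCov 4 v z (s.s C z)) (q.op k z (s.s C z)) : ℝ)
      = ∑ D, (inner ℝ (s.s D z) (q.op k z (s.s C z)) : ℝ)
        * inner ℝ (mCov 4 v z (s.s C z)) (s.s D z) := by
    intro C
    conv_lhs => rw [← s.pars z (q.op k z (s.s C z)), inner_sum]
    exact Finset.sum_congr rfl fun D _ => real_inner_smul_right _ _ _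
  have h2 : ∀ D, (inner ℝ (mCov 4 v z (q.op k z (s.s D z))) (s.s D z) : ℝ)
      = ∑ C, (inner ℝ (s.s C z) (q.op k z (s.s D z)) : ℝ)
        * inner ℝ (mCov 4 v z (s.s C z)) (s.s D z) := by
    intro D
    rw [mCov_pars s v z (q.op k z (s.s D z)), sum_inner]
    exact Finset.sum_congr rfl fun C _ => real_inner_smul_left _ _ _
  simp only [h1, h2]
  rw [Finset.sum_comm, ← Finset.sum_neg_distrib]
  refine Finset.sum_congr rfl fun D _ => ?_
  rw [← Finset.sum_neg_distrib]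
  refine Finset.sum_congr rfl fun C _ => ?_
  have h3 : (inner ℝ (s.s D z) (q.op k z (s.s C z)) : ℝ)
      = - inner ℝ (s.s C z) (q.op k z (s.s D z)) := by
    rw [real_inner_comm, q.op_skew]
  rw [h3, neg_mul]

/-- `∑ dv(s_C, s_D) ⟨I_k s_C, s_D⟩ = - 2 ∑ ⟨∇_{I_k s_C} v, s_C⟩` -/
lemma sum_dd_op (k : Fin 3) (z : M) :
    ∑ C, ∑ D, dd v z (s.s C z) (s.s D z) * inner ℝ (q.op k z (s.s C z)) (s.s D z)
      = - 2 * ∑ C, inner ℝ (mCov 4 v z (q.op k z (s.s C z))) (s.s C z) := by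
  have h1 : ∀ C, ∑ D, dd v z (s.s C z) (s.s D z) * inner ℝ (q.op k z (s.s C z)) (s.s D z)
      = inner ℝ (mCov 4 v z (s.s C z)) (q.op k z (s.s C z))
        - inner ℝ (mCov 4 v z (q.op k z (s.s C z))) (s.s C z) := by
    intro C
    have e1 : (inner ℝ (mCov 4 v z (s.s C z)) (q.op k z (s.s C z)) : ℝ)
        = ∑ D, (inner ℝ (s.s D z) (q.op k z (s.s C z)) : ℝ)
          * inner ℝ (mCov 4 v z (s.s C z)) (s.s D z) := by
      conv_lhs => rw [← s.pars z (q.op k z (s.s C z)), inner_sum]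
      exact Finset.sum_congr rfl fun D _ => real_inner_smul_right _ _ _
    have e2 : (inner ℝ (mCov 4 v z (q.op k z (s.s C z))) (s.s C z) : ℝ)
        = ∑ D, (inner ℝ (s.s D z) (q.op k z (s.s C z)) : ℝ)
          * inner ℝ (mCov 4 v z (s.s D z)) (s.s C z) := by
      rw [mCov_pars s v z (q.op k z (s.s C z)), sum_inner]
      exact Finset.sum_congr rfl fun D _ => real_inner_smul_left _ _ _
    rw [e1, e2, ← Finset.sum_sub_distrib]
    refine Finset.sum_congr rfl fun D _ => ?_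
    rw [dd, real_inner_comm (q.op k z (s.s C z))]
    ring
  rw [Finset.sum_congr rfl fun C _ => h1 C, Finset.sum_sub_distrib, sum_mCov_op]
  ring

/-- the components `k+1` of the adjoint Hodge operator of `pairH`. -/
lemma opB_pairH {a : κ → M → ℝ} (ha : SmU (n := 4) a)
    (hs : ∀ A z, ∑ B, tanP s A B z * a B z = a A z) (k : Fin 3) (z : M) :
    opB (pairH q s).D1 (pairH q s).cc a k.succ z
      = ∑ C, inner ℝ (mCov 4 (fieldOf s a) z (q.op k z (s.s C z))) (s.s C z) := by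
  rw [opB, ← Finset.sum_neg_distrib]
  refine Finset.sum_congr rfl fun C _ => ?_
  have e1 : (pairH q s).cc C k.succ z = - q.op k z (s.s C z) := rfl
  rw [e1, inner_neg_right, neg_neg]
  exact inner_cv s (fun A B z => bunQ1_W_eta q s (sm_etaV q s) A B z) ha hs C z _

end trace

/-- **the additional potential** -/
theorem potE_eq {q : QS M} {P : CPair 4 M κ κ0 κ1} {Jf : κ0 → κ0 → M → ℝ}
    {Kt : Fin 3 → κ0 → κ0 → M → ℝ} (h : Twf q P Jf Kt)
    (v : (p : M) → TangentSpace 𝓘(ℝ, EuclideanSpace ℝ (Fin 4)) p) (z : M) :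
    potE P.s P.cc Jf v z = ∑ k, (∑ C, (inner ℝ (mCov 4 v z (q.op k z (P.s.s C z))) (P.s.s C z) : ℝ)) •
      (Matrix.of fun y y' => rho Jf Kt k y y' z) := by
  obtain ⟨j0, j1, b, hp⟩ := h.pt z
  have e0 : (Matrix.of fun y y' => Jf y y' z) = Jz Jf z := rfl
  have h1 := curv_rho P z (ek := fun k X Y => - inner ℝ (q.op k z X) Y)
    (I := fun k => Matrix.of fun y y' => Kt k y y' z)
    (fun X Y => by
      rw [hp.clfM X Y, sub_eq_add_neg, ← Finset.sum_neg_distrib]
      simp only [neg_smul])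
    (fun X Y => dd v z X Y) (fun X Y => dd_anti v z X Y) (fun C => P.s.s C z)
  have h2 : ∀ k, (Matrix.of fun y y' => Kt k y y' z) * Jz Jf z
      = - Matrix.of fun y y' => rho Jf Kt k y y' z := by
    intro k
    rw [hp.rhoM, ← e0, hp.hJ, hp.hK, hp.mul0, hp.neg0, neg_neg, J0_K]
  have h3 : potE P.s P.cc Jf v z
      = -(1 / 2 : ℝ) • ((∑ C, ∑ D, dd v z (P.s.s C z) (P.s.s D z) •
        ((ccX P.cc z (P.s.s C z))ᵀ * ccX P.cc z (P.s.s D z))) * Jz Jf z) := by
    rw [potE]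
    congr 1
    simp only [Finset.sum_mul, Matrix.smul_mul]
  rw [h3, h1, Finset.sum_mul, Finset.smul_sum]
  refine Finset.sum_congr rfl fun k _ => ?_
  have h4 : ∑ C, ∑ D, dd v z (P.s.s C z) (P.s.s D z) * (- inner ℝ (q.op k z (P.s.s C z)) (P.s.s D z))
      = 2 * ∑ C, (inner ℝ (mCov 4 v z (q.op k z (P.s.s C z))) (P.s.s C z) : ℝ) := by
    have := sum_dd_op q P.s v k z
    simp only [mul_neg, Finset.sum_neg_distrib]
    linarith
  rw [h4, Matrix.smul_mul, h2, smul_smul, smul_neg, ← neg_smul]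
  congr 1
  ring

end Crest.Agent.R235.AddJ_344
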