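import Crest.Agent.R235.MdlL_453
import Crest.Agent.R235.MdlA_489

/-!
Row 235, helper453, leaf (X2) of helper489's #2818, part 1: algebra of the Hopf map
`hf s k = ⟨jj s, ρ_k jj s⟩`, `jj : C² ≃ ℝ⁴`, and `piD D s k = - D_k hf s k`.
-/

set_option autoImplicit false
set_option maxSynthPendingDepth 3
set_option linter.unusedSectionVars false

open Matrix
open scoped ContDiff Topology

namespace Crest.Agent.R235.MdlH_453

open Crest.Agent.R235.VIso_470 (Q4 PP)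
open Crest.Agent.R235.MdlL_453 (Jc rhoc q4)

noncomputable section

abbrev E3 := EuclideanSpace ℝ (Fin 3)
abbrev C2 := EuclideanSpace ℂ (Fin 2)

theorem Jc_eq : Jc = !![0, -1, 0, 0; 1, 0, 0, 0; 0, 0, 0, -1; 0, 0, 1, 0] := rfl

theorem rhoc0 : rhoc 0 = !![-1, 0, 0, 0; 0, -1, 0, 0; 0, 0, 1, 0; 0, 0, 0, 1] := by
  ext i j
  rw [rhoc, Matrix.neg_apply, Matrix.mul_apply, Fin.sum_univ_four, Jc_eq]
  fin_cases i <;> fin_cases j <;> simp [Crest.Agent.R249.C2_198.K]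

theorem rhoc1 : rhoc 1 = !![0, 0, 0, 1; 0, 0, -1, 0; 0, -1, 0, 0; 1, 0, 0, 0] := by
  ext i j
  rw [rhoc, Matrix.neg_apply, Matrix.mul_apply, Fin.sum_univ_four, Jc_eq]
  fin_cases i <;> fin_cases j <;> simp [Crest.Agent.R249.C2_198.K]

theorem rhoc2 : rhoc 2 = !![0, 0, -1, 0; 0, 0, 0, -1; -1, 0, 0, 0; 0, -1, 0, 0] := by
  ext i j
  rw [rhoc, Matrix.neg_apply, Matrix.mul_apply, Fin.sum_univ_four, Jc_eq]
  fin_cases i <;> fin_cases j <;> simp [Crest.Agent.R249.C2_198.K]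

/-- `C² → ℝ⁴` -/
def jj (s : C2) : Fin 4 → ℝ := ![(s 0).re, (s 0).im, (s 1).re, (s 1).im]

theorem Jc_mulVec (v : Fin 4 → ℝ) : Jc *ᵥ v = ![-v 1, v 0, -v 3, v 2] := by
  ext i
  rw [Matrix.mulVec, dotProduct, Fin.sum_univ_four, Jc_eq]
  fin_cases i <;> simp

theorem rho0_mulVec (v : Fin 4 → ℝ) : rhoc 0 *ᵥ v = ![-v 0, -v 1, v 2, v 3] := by
  ext i
  rw [Matrix.mulVec, dotProduct, Fin.sum_univ_four, rhoc0]
  fin_cases i <;> simp

theorem rho1_mulVec (v : Fin 4 → ℝ) : rhoc 1 *ᵥ v = ![v 3, -v 2, -v 1, v 0] := by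
  ext i
  rw [Matrix.mulVec, dotProduct, Fin.sum_univ_four, rhoc1]
  fin_cases i <;> simp

theorem rho2_mulVec (v : Fin 4 → ℝ) : rhoc 2 *ᵥ v = ![-v 2, -v 3, -v 0, -v 1] := by
  ext i
  rw [Matrix.mulVec, dotProduct, Fin.sum_univ_four, rhoc2]
  fin_cases i <;> simp

/-- `⟨v, ρ_k v⟩` -/
def hv (v : Fin 4 → ℝ) (k : Fin 3) : ℝ := v ⬝ᵥ (rhoc k *ᵥ v)

theorem hv0 (v : Fin 4 → ℝ) : hv v 0 = -v 0 ^ 2 - v 1 ^ 2 + v 2 ^ 2 + v 3 ^ 2 := by
  rw [hv, rho0_mulVec, dotProduct, Fin.sum_univ_four]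
  simp
  ring

theorem hv1 (v : Fin 4 → ℝ) : hv v 1 = 2 * (v 0 * v 3 - v 1 * v 2) := by
  rw [hv, rho1_mulVec, dotProduct, Fin.sum_univ_four]
  simp
  ring

theorem hv2 (v : Fin 4 → ℝ) : hv v 2 = -2 * (v 0 * v 2 + v 1 * v 3) := by
  rw [hv, rho2_mulVec, dotProduct, Fin.sum_univ_four]
  simp
  ring

theorem dot4 (v : Fin 4 → ℝ) : v ⬝ᵥ v = v 0 ^ 2 + v 1 ^ 2 + v 2 ^ 2 + v 3 ^ 2 := by
  rw [dotProduct, Fin.sum_univ_four]
  ring

theorem sum_hv (v : Fin 4 → ℝ) : ∑ k, hv v k ^ 2 = (v ⬝ᵥ v) ^ 2 := by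
  rw [Fin.sum_univ_three, hv0, hv1, hv2, dot4]
  ring

theorem hv_rho (v : Fin 4 → ℝ) : (∑ k, hv v k • rhoc k) *ᵥ v = (v ⬝ᵥ v) • v := by
  rw [Fin.sum_univ_three, Matrix.add_mulVec, Matrix.add_mulVec, Matrix.smul_mulVec,
    Matrix.smul_mulVec, Matrix.smul_mulVec, rho0_mulVec, rho1_mulVec, rho2_mulVec, hv0, hv1, hv2,
    dot4]
  ext i
  fin_cases i <;> simp <;> ring

/-- a unit vector lies in its own eigenline. -/
theorem PP_hv {v : Fin 4 → ℝ} (h1 : v ⬝ᵥ v = 1) : PP rhoc (hv v) *ᵥ v = v := by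
  unfold VIso_470.PP
  rw [Matrix.smul_mulVec, Matrix.add_mulVec, Matrix.one_mulVec, hv_rho, h1, one_smul, ← two_smul ℝ v,
    smul_smul]
  norm_num

theorem jj_dot (s : C2) : jj s ⬝ᵥ jj s = ‖s‖ ^ 2 := by
  rw [dot4, EuclideanSpace.norm_sq_eq, Fin.sum_univ_two, Complex.sq_norm, Complex.sq_norm,
    Complex.normSq_apply, Complex.normSq_apply]
  simp [jj]
  ring

theorem jj_smul (z : ℂ) (s : C2) : jj (z • s) = z.re • jj s + z.im • (Jc *ᵥ jj s) := by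
  rw [Jc_mulVec]
  ext i
  fin_cases i <;> simp [jj] <;> ring

theorem jj_inj {s s' : C2} (h : jj s = jj s') : s = s' := by
  have h0 := congrFun h 0
  have h1 := congrFun h 1
  have h2 := congrFun h 2
  have h3 := congrFun h 3
  simp [jj] at h0 h1 h2 h3
  ext i
  fin_cases i
  · exact Complex.ext h0 h1
  · exact Complex.ext h2 h3

theorem jj_surj (v : Fin 4 → ℝ) : ∃ s : C2, jj s = v := by
  refine ⟨WithLp.toLp 2 ![⟨v 0, v 1⟩, ⟨v 2, v 3⟩], ?_⟩
  ext i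
  fin_cases i <;> simp [jj]

theorem continuous_jj : Continuous jj := by
  refine continuous_pi fun i => ?_
  have h0 : Continuous fun s : C2 => s 0 := by fun_prop
  have h1 : Continuous fun s : C2 => s 1 := by fun_prop
  fin_cases i
  · exact Complex.continuous_re.comp h0
  · exact Complex.continuous_im.comp h0
  · exact Complex.continuous_re.comp h1
  · exact Complex.continuous_im.comp h1

theorem hv_smul (z : ℂ) (s : C2) (k : Fin 3) :
    hv (jj (z • s)) k = ‖z‖ ^ 2 * hv (jj s) k := by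
  rw [jj_smul, Jc_mulVec, Complex.sq_norm, Complex.normSq_apply]
  fin_cases k
  · simp only [Fin.zero_eta, Fin.isValue, hv0]
    simp
    ring
  · simp only [Fin.mk_one, Fin.isValue, hv1]
    simp
    ring
  · simp only [Fin.reduceFinMk, Fin.isValue, hv2]
    simp
    ring

/-- the map `C² → ℝ³`. -/
def piD (D : Fin 3 → ℝ) (s : C2) : E3 := WithLp.toLp 2 fun k => -(D k * hv (jj s) k)

theorem piD_apply (D : Fin 3 → ℝ) (s : C2) (k : Fin 3) : piD D s k = -(D k * hv (jj s) k) := rfl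

theorem continuous_hv (k : Fin 3) : Continuous fun v : Fin 4 → ℝ => hv v k := by
  fin_cases k
  · simp only [Fin.zero_eta, Fin.isValue, hv0]; fun_prop
  · simp only [Fin.mk_one, Fin.isValue, hv1]; fun_prop
  · simp only [Fin.reduceFinMk, Fin.isValue, hv2]; fun_prop

theorem continuous_piD (D : Fin 3 → ℝ) : Continuous (piD D) := by
  refine (PiLp.continuous_toLp 2 _).comp (continuous_pi fun k => ?_)
  exact (continuous_const.mul ((continuous_hv k).comp continuous_jj)).neg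

variable {D : Fin 3 → ℝ}

theorem norm_piD (hD : ∀ k, D k ^ 2 = 1) (s : C2) : ‖piD D s‖ = ‖s‖ ^ 2 := by
  have h1 : ‖piD D s‖ ^ 2 = (‖s‖ ^ 2) ^ 2 := by
    rw [EuclideanSpace.norm_sq_eq]
    have h2 : ∀ k, ‖piD D s k‖ ^ 2 = hv (jj s) k ^ 2 := by
      intro k
      rw [Real.norm_eq_abs, sq_abs, piD_apply, neg_sq, mul_pow, hD, one_mul]
    simp only [h2]
    rw [sum_hv, jj_dot]
  exact (pow_left_inj₀ (norm_nonneg _) (by positivity) two_ne_zero).1 h1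

theorem piD_hv (hD : ∀ k, D k ^ 2 = 1) (s : C2) (k : Fin 3) : -(D k * piD D s k) = hv (jj s) k := by
  rw [piD_apply]
  have := hD k
  linear_combination hv (jj s) k * this

theorem hv_of_piD (hD : ∀ k, D k ^ 2 = 1) {s s' : C2} (h : piD D s = piD D s') :
    hv (jj s) = hv (jj s') := by
  funext k
  rw [← piD_hv hD s k, ← piD_hv hD s' k, h]

/-- the fibres are the circles. -/
theorem fpiD (hD : ∀ k, D k ^ 2 = 1) (s s' : C2) (hs : ‖s‖ = 1) (hs' : ‖s'‖ = 1) :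
    piD D s = piD D s' ↔ ∃ z : ℂ, ‖z‖ = 1 ∧ s' = z • s := by
  constructor
  · intro h
    have h0 := hv_of_piD hD h
    have d1 : jj s ⬝ᵥ jj s = 1 := by rw [jj_dot, hs, one_pow]
    have d2 : jj s' ⬝ᵥ jj s' = 1 := by rw [jj_dot, hs', one_pow]
    have hn : ∑ k, hv (jj s) k ^ 2 = 1 := by rw [sum_hv, d1, one_pow]
    have hP := q4.PP_eq hn (PP_hv d1) d1
    have h2 : PP rhoc (hv (jj s)) *ᵥ jj s' = jj s' := by rw [h0]; exact PP_hv d2
    rw [hP, Matrix.add_mulVec] at h2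
    have e1 : ∀ u : Fin 4 → ℝ, vecMulVec u u *ᵥ jj s' = (u ⬝ᵥ jj s') • u := by
      intro u
      ext i
      rw [Matrix.mulVec, dotProduct, Pi.smul_apply, smul_eq_mul, dotProduct, Finset.sum_mul]
      exact Finset.sum_congr rfl fun j _ => by rw [vecMulVec_apply]; ring
    rw [e1, e1] at h2
    set z : ℂ := ⟨jj s ⬝ᵥ jj s', (Jc *ᵥ jj s) ⬝ᵥ jj s'⟩ with hz
    have h3 : s' = z • s := jj_inj (by rw [jj_smul]; exact h2.symm)
    refine ⟨z, ?_, h3⟩
    have h4 := congrArg norm h3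
    rw [norm_smul, hs, hs', mul_one] at h4
    exact h4.symm
  · rintro ⟨z, hz, rfl⟩
    ext k
    rw [piD_apply, piD_apply, hv_smul, hz]
    ring

end

end Crest.Agent.R235.MdlH_453
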