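import Crest.Agent.R235.Mdl3B_399
import Crest.Agent.R235.HodgePr_194
import Crest.Agent.R235.SWJDefs_53
import Crest.Agent.R235.DichProps_723

/-!
Row 235, package SW, MODEL-9 (helper399): the Jacobian data `JD.OK` from an integral basis of `H¹`.

* `jd_ok` : for a system `S` whose `DT` is the tangent bundle (`S.s A = T.toF (s_A)`,
  `S.DT.p A B = ⟨s_A, s_B⟩`) and whose `B` is `(- div X, - 2 q(w_0; e_k, dα))` : every `H1Bas` gives
  `j : JD M κ b` with `j.OK S`;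
* `Hp_grd` : `H.A (f, 0) = grad f` for `Hp`.
-/

set_option autoImplicit false
set_option maxSynthPendingDepth 3
set_option linter.unusedSectionVars false

open Set Function Filter Bundle Manifold MeasureTheory
open scoped Manifold ContDiff Topology ENNReal RealInnerProductSpace
open Crest.Agent.R240 Crest.Agent.R240.Ch Crest.Agent.R240.Int
open Crest.Agent.R249.Vf281 Crest.Agent.R249.Tz2_805 Crest.Agent.R249.Tz1_805
open Crest.Agent.R249.Tz805 Crest.Agent.R249.Idx789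
open Crest.Agent.R249.Tv57 (Dat OpPair SmV ofD)
open Crest.Agent.R247.Ms322 (Gr)
open Crest.Agent.R249.Wk352 (dat0 dpair swapP)
open Crest.Agent.R235.RiemB_399 (flG)
open Crest.Agent.R235.Ind167 Crest.Agent.R235.IndTri_451
open Crest.Agent.R235.Mdl3_399 Crest.Agent.R235.SWDefs_53
open Crest.Agent.R235.DichProps_723 (H1Bas IsInt1)
open Crest.Agent.R235.HodgeAbs_194
open Crest.Agent.R235.Hodge_194

noncomputable section

namespace Crest.Agent.R235.MdlJ_399

local notation "E4" => EuclideanSpace ℝ (Fin 4)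

/-! ### complex valued functions in charts -/

section cplx

variable {M : Type} [TopologicalSpace M] [ChartedSpace E4 M] [IsManifold 𝓘(ℝ, E4) ∞ M]

/-- `g` has the logarithmic derivative `2π i β`. -/
def LogD (g : M → ℂ) (β : F1 E4 M) : Prop :=
  ∀ (x : M) (v : E4), fderiv ℝ (fun y : E4 => g ((chartAt E4 x).symm y)) (chartAt E4 x x) v =
      2 * Real.pi * Complex.I * ((at1 β x v : ℝ) : ℂ) * g x

theorem smC_chart {g : M → ℂ} (hg : ContMDiff 𝓘(ℝ, E4) 𝓘(ℝ, ℂ) ∞ g) (x : M) :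
    DifferentiableAt ℝ (fun y : E4 => g ((chartAt E4 x).symm y)) (chartAt E4 x x) := by
  have h1 : ContMDiffAt 𝓘(ℝ, E4) 𝓘(ℝ, E4) ∞ (chartAt E4 x).symm (chartAt E4 x x) :=
    (contMDiffOn_chart_symm (I := 𝓘(ℝ, E4)) (n := ∞) (x := x)).contMDiffAt
      ((chartAt E4 x).open_target.mem_nhds (mem_chart_target E4 x))
  have h2 : ContMDiffAt 𝓘(ℝ, E4) 𝓘(ℝ, ℂ) ∞ (g ∘ (chartAt E4 x).symm) (chartAt E4 x x) :=
    (hg _).comp _ h1
  exact (contMDiffAt_iff_contDiffAt.1 h2).differentiableAt (by simp)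

theorem re_smooth {g : M → ℂ} (hg : ContMDiff 𝓘(ℝ, E4) 𝓘(ℝ, ℂ) ∞ g) :
    ContMDiff 𝓘(ℝ, E4) 𝓘(ℝ, ℝ) ∞ fun x => (g x).re :=
  Complex.reCLM.contDiff.contMDiff.comp hg

theorem im_smooth {g : M → ℂ} (hg : ContMDiff 𝓘(ℝ, E4) 𝓘(ℝ, ℂ) ∞ g) :
    ContMDiff 𝓘(ℝ, E4) 𝓘(ℝ, ℝ) ∞ fun x => (g x).im :=
  Complex.imCLM.contDiff.contMDiff.comp hg

theorem dF_re {g : M → ℂ} (hg : ContMDiff 𝓘(ℝ, E4) 𝓘(ℝ, ℂ) ∞ g) (x : M) (v : E4) :
    at1 (dF (E := E4) fun x => (g x).re) x v =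
      (fderiv ℝ (fun y : E4 => g ((chartAt E4 x).symm y)) (chartAt E4 x x) v).re := by
  have h := (Complex.reCLM.hasFDerivAt.comp _ (smC_chart hg x).hasFDerivAt).fderiv
  exact congrArg (fun L : E4 →L[ℝ] ℝ => L v) h

theorem dF_im {g : M → ℂ} (hg : ContMDiff 𝓘(ℝ, E4) 𝓘(ℝ, ℂ) ∞ g) (x : M) (v : E4) :
    at1 (dF (E := E4) fun x => (g x).im) x v =
      (fderiv ℝ (fun y : E4 => g ((chartAt E4 x).symm y)) (chartAt E4 x x) v).im := by
  have h := (Complex.imCLM.hasFDerivAt.comp _ (smC_chart hg x).hasFDerivAt).fderiv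
  exact congrArg (fun L : E4 →L[ℝ] ℝ => L v) h

/-- real and imaginary parts. -/
theorem LogD.re {g : M → ℂ} (hg : ContMDiff 𝓘(ℝ, E4) 𝓘(ℝ, ℂ) ∞ g) {β : F1 E4 M} (h : LogD g β)
    (x : M) (v : E4) : at1 (dF (E := E4) fun x => (g x).re) x v =
      -(2 * Real.pi * (g x).im) * at1 β x v := by
  rw [dF_re hg, h x v]
  simp [Complex.mul_re, Complex.mul_im]
  ring

theorem LogD.im {g : M → ℂ} (hg : ContMDiff 𝓘(ℝ, E4) 𝓘(ℝ, ℂ) ∞ g) {β : F1 E4 M} (h : LogD g β)
    (x : M) (v : E4) : at1 (dF (E := E4) fun x => (g x).im) x v =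
      (2 * Real.pi * (g x).re) * at1 β x v := by
  rw [dF_im hg, h x v]
  simp [Complex.mul_re, Complex.mul_im]
  ring

/-- the function `c + i s`. -/
theorem logD_of {c s : M → ℝ} (hc : ContMDiff 𝓘(ℝ, E4) 𝓘(ℝ, ℝ) ∞ c)
    (hs : ContMDiff 𝓘(ℝ, E4) 𝓘(ℝ, ℝ) ∞ s) {β : F1 E4 M}
    (h1 : ∀ x v, at1 (dF (E := E4) c) x v = -(2 * Real.pi * s x) * at1 β x v)
    (h2 : ∀ x v, at1 (dF (E := E4) s) x v = (2 * Real.pi * c x) * at1 β x v) :
    ContMDiff 𝓘(ℝ, E4) 𝓘(ℝ, ℂ) ∞ (fun x => (c x : ℂ) + (s x : ℂ) * Complex.I) ∧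
      LogD (fun x => (c x : ℂ) + (s x : ℂ) * Complex.I) β := by
  have hsm : ContMDiff 𝓘(ℝ, E4) 𝓘(ℝ, ℂ) ∞ (fun x => (c x : ℂ) + (s x : ℂ) * Complex.I) := by
    have a1 : ContMDiff 𝓘(ℝ, E4) 𝓘(ℝ, ℂ) ∞ (fun x => (c x : ℂ)) :=
      Complex.ofRealCLM.contDiff.contMDiff.comp hc
    have a2 : ContMDiff 𝓘(ℝ, E4) 𝓘(ℝ, ℂ) ∞ (fun x => (s x : ℂ) * Complex.I) := by
      have : ContMDiff 𝓘(ℝ, ℝ) 𝓘(ℝ, ℂ) ∞ (fun r : ℝ => (r : ℂ) * Complex.I) :=
        (Complex.ofRealCLM.contDiff.mul contDiff_const).contMDiff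
      exact this.comp hs
    have a3 : ContMDiff 𝓘(ℝ, E4) 𝓘(ℝ, ℂ × ℂ) ∞ (fun x => ((c x : ℂ), (s x : ℂ) * Complex.I)) :=
      a1.prodMk_space a2
    have a4 : ContDiff ℝ ∞ (fun p : ℂ × ℂ => p.1 + p.2) := contDiff_fst.add contDiff_snd
    exact a4.contMDiff.comp a3
  refine ⟨hsm, fun x v => ?_⟩
  have e1 := dF_re hsm x v
  have e2 := dF_im hsm x v
  have e3 : (fun x => ((c x : ℂ) + (s x : ℂ) * Complex.I).re) = c := by funext x; simp
  have e4 : (fun x => ((c x : ℂ) + (s x : ℂ) * Complex.I).im) = s := by funext x; simp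
  rw [e3, h1] at e1
  rw [e4, h2] at e2
  apply Complex.ext
  · rw [← e1]
    simp [Complex.mul_re, Complex.mul_im]
    ring
  · rw [← e2]
    simp [Complex.mul_re, Complex.mul_im]
    ring

/-- the product with `exp(- 2π i f)`. -/
theorem logD_exp {u : M → ℂ} (hu : ContMDiff 𝓘(ℝ, E4) 𝓘(ℝ, ℂ) ∞ u) (hn : ∀ x, ‖u x‖ = 1)
    {r : F1 E4 M} (h : LogD u r) {f : M → ℝ} (hf : SmoothF E4 f) :
    ∃ g : M → ℂ, ContMDiff 𝓘(ℝ, E4) 𝓘(ℝ, ℂ) ∞ g ∧ (∀ x, ‖g x‖ = 1) ∧ LogD g (r - dF f) := by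
  have hf' : ContMDiff 𝓘(ℝ, E4) 𝓘(ℝ, ℝ) ∞ f := (Ch.smoothF_iff f).2 hf
  set E : M → ℂ := fun x => Complex.exp (-(2 * Real.pi * f x : ℝ) * Complex.I) with hE
  have hexp : ContDiff ℝ ∞ (fun r : ℝ => Complex.exp (-(2 * Real.pi * r : ℝ) * Complex.I)) := by
    have h1 : ContDiff ℝ ∞ (fun r : ℝ => (-(2 * Real.pi * r : ℝ) * Complex.I : ℂ)) := by
      have : ContDiff ℝ ∞ (fun r : ℝ => ((2 * Real.pi * r : ℝ) : ℂ)) :=
        Complex.ofRealCLM.contDiff.comp (contDiff_const.mul contDiff_id)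
      exact this.neg.mul contDiff_const
    exact h1.cexp
  have hEs : ContMDiff 𝓘(ℝ, E4) 𝓘(ℝ, ℂ) ∞ E := hexp.contMDiff.comp hf'
  have hEn : ∀ x, ‖E x‖ = 1 := by
    intro x
    have : E x = Complex.exp (((-(2 * Real.pi * f x) : ℝ) : ℂ) * Complex.I) := by
      rw [hE]; push_cast; rfl
    rw [this]
    exact Complex.norm_exp_ofReal_mul_I _
  refine ⟨fun x => u x * E x, ?_, fun x => ?_, fun x v => ?_⟩
  · have a3 : ContMDiff 𝓘(ℝ, E4) 𝓘(ℝ, ℂ × ℂ) ∞ (fun x => (u x, E x)) := hu.prodMk_space hEs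
    have a4 : ContDiff ℝ ∞ (fun p : ℂ × ℂ => p.1 * p.2) := contDiff_fst.mul contDiff_snd
    exact a4.contMDiff.comp a3
  · rw [norm_mul, hn, hEn, mul_one]
  · have d1 := (smC_chart hu x).hasFDerivAt
    have dfx : HasFDerivAt (fun y : E4 => f ((chartAt E4 x).symm y)) (at1 (dF (E := E4) f) x)
        (chartAt E4 x x) :=
      (SmoothF.diffAt hf (mem_chart_target E4 x)).hasFDerivAt
    have h2 : HasDerivAt (fun r : ℝ => Complex.exp (-(2 * Real.pi * r : ℝ) * Complex.I))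
        (Complex.exp (-(2 * Real.pi * f ((chartAt E4 x).symm (chartAt E4 x x)) : ℝ) * Complex.I) *
          (-(2 * Real.pi) * Complex.I)) (f ((chartAt E4 x).symm (chartAt E4 x x))) := by
      have a1 : HasDerivAt (fun r : ℝ => (-(2 * Real.pi * r : ℝ) * Complex.I : ℂ))
          (-(2 * Real.pi) * Complex.I) (f ((chartAt E4 x).symm (chartAt E4 x x))) := by
        have b1 : HasDerivAt (fun r : ℝ => ((2 * Real.pi * r : ℝ) : ℂ)) ((2 * Real.pi : ℝ) : ℂ)
            (f ((chartAt E4 x).symm (chartAt E4 x x))) := by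
          have := ((hasDerivAt_id (f ((chartAt E4 x).symm (chartAt E4 x x)))).const_mul
            (2 * Real.pi)).ofReal_comp
          simpa using this
        have b2 := (b1.neg).mul_const Complex.I
        simpa using b2
      exact a1.cexp
    have d2 := h2.hasFDerivAt.comp (chartAt E4 x x) dfx
    have hx : (chartAt E4 x).symm (chartAt E4 x x) = x :=
      (chartAt E4 x).left_inv (mem_chart_source E4 x)
    have d3 := (d1.mul d2).fderiv
    have d4 := congrArg (fun L : E4 →L[ℝ] ℂ => L v) d3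
    refine (show _ = _ from d4).trans ?_
    have hu' := h x v
    simp only [add_apply, smul_apply, smul_eq_mul, ContinuousLinearMap.comp_apply,
      Function.comp_apply, hx, ContinuousLinearMap.toSpanSingleton_apply, Complex.real_smul]
    rw [hu']
    have e5 : at1 (r - dF (E := E4) f) x v = at1 r x v - at1 (dF (E := E4) f) x v := rfl
    rw [e5]
    simp only [hE]
    push_cast
    ring

end cplx

/-! ### the Jacobian data -/

section jd

variable {M : Type} [MetricSpace M] [CompactSpace M] [ConnectedSpace M] [ChartedSpace E4 M]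
  [IsManifold (𝓡 4) ∞ M]
  [RiemannianBundle (fun p : M => TangentSpace (𝓡 4) p)]
  [IsContMDiffRiemannianBundle (𝓡 4) ∞ E4 (fun p : M => TangentSpace (𝓡 4) p)]
  [IsRiemannianManifold (𝓡 4) M] [MeasurableSpace M] [BorelSpace M]
  [SecondCountableTopology M] [Nonempty M]
  {κ0 κ1 κ : Type} [Fintype κ0] [Fintype κ1] [Fintype κ]

variable (T : ToF 4 M) (s : PF 4 M κ) {w e : Fin 3 → F2 E4 M}

/-- the facts about `H` and `DT` which are used. -/
structure HT (S : SWS M κ0 κ1 κ) (T : ToF 4 M) (s : PF 4 M κ) (w e : Fin 3 → F2 E4 M) : Prop where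
  pT : ∀ A B z, S.DT.p A B z = inner ℝ (s.s A z) (s.s B z)
  s_eq : ∀ A z, S.s A z = T.toF z (s.s A z)
  B0 : ∀ a, SmV (n := 4) a → S.DT.Sec a → ∀ z, S.H.B a 0 z = - mDiv 4 (fieldOf s a) z
  HB : ∀ a, SmV (n := 4) a → S.DT.Sec a → ∀ (k : Fin 3) z,
    S.H.B a k.succ z = 2 * (-1) * qG (w 0) (e k) (dG (flG (gg e) (fieldOf s a))) z

variable {S : SWS M κ0 κ1 κ} (hS : HT S T s w e) (h : IsTri w e)
  (hin : ∀ (x : M) (u v : TangentSpace (𝓡 4) x), inner ℝ u v = at2 (gg e) x u v)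

include hin in
theorem flG_eq (X : (p : M) → TangentSpace (𝓡 4) p) : flG (gg e) X = flat X := by
  funext z
  apply ContinuousLinearMap.ext
  intro v
  exact (hin z (X z) v).symm

theorem fr_of (h : IsTri w e) (hw : Smooth2 (w 0)) : Fr (w 0) e where
  smF := hw
  ne := h.W_ne
  sm := h.smooth
  orth i j x := h.W_e i j x

include hS in
/-- the section of a one-form. -/
theorem sec_cof' (α : F1 E4 M) : S.DT.Sec (cof s α) := by
  intro A z
  rw [← sec_cof s α A z]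
  exact Finset.sum_congr rfl fun B _ => by rw [hS.pT]; rfl

include hS hin in
/-- closed and coclosed forms are harmonic. -/
theorem harm_of {α : X1 M} (hd : dL α = 0) (hδ : δL s α = 0) (k : Fin 4) (z : M) :
    S.H.B (cof s α.1) k z = 0 := by
  have hsm : SmV (n := 4) (cof s α.1) := smU_cof s α.2
  have hsec := sec_cof' T s hS α.1
  refine Fin.cases ?_ (fun k => ?_) k
  · rw [hS.B0 _ hsm hsec]
    have : mDiv 4 (fieldOf s (cof s α.1)) z = 0 := congrArg (fun f : CFn M => f.1 z) hδ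
    rw [this, neg_zero]
  · rw [hS.HB _ hsm hsec]
    have e1 : flG (gg e) (fieldOf s (cof s α.1)) = α.1 := (flG_eq hin _).trans (flat_shp s α.1)
    have e2 : dG α.1 = 0 := congrArg Subtype.val hd
    rw [e1, e2]
    have : qG (w 0) (e k) 0 z = 0 := by
      unfold qG q
      have : at2 (0 : F2 E4 M) z = 0 := rfl
      rw [this]
      simp [W, ent_zero]
    rw [this, mul_zero]

include hS h hin in
/-- harmonic sections are closed and coclosed. -/
theorem of_harm (hw : Smooth2 (w 0)) {a : κ → M → ℝ} (ha : SmV (n := 4) a) (hs : S.DT.Sec a)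
    (hB : ∀ k z, S.H.B a k z = 0) :
    ∃ α : X1 M, cof s α.1 = a ∧ dL α = 0 ∧ δL s α = 0 := by
  have hs' : ∀ i z, ∑ b, tanP s i b z * a b z = a i z := by
    intro i z
    rw [← hs i z]
    exact Finset.sum_congr rfl fun B _ => by rw [hS.pT]; rfl
  have hX := VSm_fieldOf s ha
  set α : X1 M := ⟨flat (fieldOf s a), smooth1_flat hX⟩ with hα
  have hc : cof s α.1 = a := cof_flat s hs'
  have hfr := fr_of h hw
  have hm : dL α ∈ SDm (w 0) e := by
    intro i x
    have h1 := hB i.succ x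
    rw [hS.HB a ha hs, flG_eq hin] at h1
    have h2 : qG (w 0) (e i) (dG (flat (fieldOf s a))) x = 0 := by linarith
    show q _ _ _ = 0
    have h3 : q (at2 (w 0) x) (at2 (e i) x) (at2 (dG (flat (fieldOf s a))) x) = 0 := h2
    unfold q at h3 ⊢
    rw [W_comm]
    exact h3
  have hd : dL α = 0 := hfr.spl.def2 _ hm (IL_stokes hfr.vol α (dL_closed α))
  refine ⟨α, hc, hd, ?_⟩
  apply Subtype.ext
  funext z
  show mDiv 4 (shp s (flat (fieldOf s a))) z = 0
  rw [shp_flat]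
  have h1 := hB 0 z
  rw [hS.B0 a ha hs] at h1
  linarith

/-- `cof` is linear. -/
theorem cof_sum {b : ℕ} (c : Fin b → ℝ) (α : Fin b → X1 M) :
    cof s (∑ i, c i • α i : X1 M).1 = ∑ i, c i • cof s (α i).1 := by
  funext A z
  have h1 : ((∑ i, c i • α i : X1 M) : F1 E4 M) = ∑ i, c i • (α i).1 := by
    rw [Submodule.coe_sum]
    rfl
  rw [h1, Finset.sum_apply, Finset.sum_apply]
  show (∑ i, c i • (α i).1 : F1 E4 M) z (s.s A z) = _
  rw [Finset.sum_apply]
  exact sum_apply _ _ _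

theorem cof_inj {α β : X1 M} (h : cof s α.1 = cof s β.1) : α = β := by
  apply Subtype.ext
  rw [← flat_shp s α.1, ← flat_shp s β.1]
  unfold shp
  rw [h]

include T in
theorem gr_inner {f : M → ℝ} (hf : ContMDiff 𝓘(ℝ, E4) 𝓘(ℝ, ℝ) ∞ f) (z : M)
    (v : TangentSpace (𝓡 4) z) : (inner ℝ (Gr (n := 4) f z) (T.toF z v) : ℝ) =
      at1 (dF (E := E4) f) z v := by
  rw [← T.grad f z hf, T.inner_toF, dF_eq_flat]
  rfl

/-- an equation of gradients. -/
theorem gr_eq {f k : M → ℝ} (hf : ContMDiff 𝓘(ℝ, E4) 𝓘(ℝ, ℝ) ∞ f) {β : F1 E4 M}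
    (h1 : ∀ (z : M) (v : E4), at1 (dF (E := E4) f) z v = k z * at1 β z v) (z : M) :
    Gr (n := 4) f z = k z • T.toF z (shp s β z) := by
  rw [← T.grad f z hf, ← map_smul]
  congr 1
  refine ext_inner_right ℝ fun v => ?_
  rw [real_inner_smul_left, inner_shp, ← h1 z v, dF_eq_flat]
  rfl

include hS in
theorem vf_eq (α : F1 E4 M) (z : M) : S.vf (cof s α) z = T.toF z (shp s α z) := by
  rw [shp, fieldOf, map_sum]
  refine Finset.sum_congr rfl fun A _ => ?_
  rw [map_smul, hS.s_eq]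

include hS h hin in
/-- **the Jacobian data.** -/
theorem jd_ok (hw : Smooth2 (w 0)) {b : ℕ} {r : Fin b → F1 E4 M} (hr : H1Bas r) :
    ∃ j : JD M κ b, j.OK S := by
  -- coclosed representatives
  have h1 : ∀ i, ∃ f : CFn M, δL s (DL f) = δL s ⟨r i, (hr.closed i).1⟩ := fun i => poissonL s _
  choose f hf using h1
  set α : Fin b → X1 M := fun i => (⟨r i, (hr.closed i).1⟩ : X1 M) - DL (f i) with hα
  have hd : ∀ i, dL (α i) = 0 := by
    intro i
    show dL ((⟨r i, (hr.closed i).1⟩ : X1 M) - DL (f i)) = 0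
    rw [map_sub, (closed1_iff _).1 (hr.closed i), dL_DL, sub_zero]
  have hδ : ∀ i, δL s (α i) = 0 := by
    intro i
    show δL s ((⟨r i, (hr.closed i).1⟩ : X1 M) - DL (f i)) = 0
    rw [map_sub, hf, sub_self]
  have hu : ∀ i, ∃ g : M → ℂ, ContMDiff 𝓘(ℝ, E4) 𝓘(ℝ, ℂ) ∞ g ∧ (∀ x, ‖g x‖ = 1) ∧
      LogD g (α i).1 := by
    intro i
    obtain ⟨u, hu1, hu2, hu3⟩ := hr.int i
    exact logD_exp hu1 hu2 hu3 (f i).2
  choose g hg1 hg2 hg3 using hu
  -- the classes of combinations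
  have hcomb : ∀ c : Fin b → ℝ, ((∑ i, c i • α i : X1 M) : F1 E4 M) =
      (∑ i, c i • r i) - dF (E := E4) (∑ i, c i • f i : CFn M).1 := by
    intro c
    have e1 : (∑ i, c i • α i : X1 M) = (∑ i, c i • (⟨r i, (hr.closed i).1⟩ : X1 M)) -
        DL (∑ i, c i • f i) := by
      rw [map_sum, ← Finset.sum_sub_distrib]
      refine Finset.sum_congr rfl fun i _ => ?_
      rw [map_smul, ← smul_sub]
    rw [e1]
    show ((∑ i, c i • (⟨r i, (hr.closed i).1⟩ : X1 M) : X1 M) : F1 E4 M) - _ = _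
    rw [Submodule.coe_sum]
    rfl
  have hindep : ∀ c : Fin b → ℝ, ∀ k : CFn M, (∑ i, c i • α i : X1 M) = DL k → c = 0 := by
    intro c k hk
    refine hr.indep c (∑ i, c i • f i + k : CFn M).1 (∑ i, c i • f i + k : CFn M).2 ?_
    have e1 := hcomb c
    rw [hk] at e1
    have e2 : dF (E := E4) (∑ i, c i • f i + k : CFn M).1 =
        dF (E := E4) (∑ i, c i • f i : CFn M).1 + dF (E := E4) k.1 :=
      dF_add (∑ i, c i • f i : CFn M).2 k.2
    rw [e2]
    have e3 : dF (E := E4) k.1 = (∑ i, c i • r i) - dF (E := E4) (∑ i, c i • f i : CFn M).1 := e1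
    rw [e3]
    abel
  refine ⟨⟨fun i => cof s (α i).1, fun i x => (g i x).re, fun i x => (g i x).im⟩, ?_⟩
  refine
    { sm := fun i => smU_cof s (α i).2
      sec := fun i => sec_cof' T s hS (α i).1
      harm := fun i k z => harm_of T s hS hin (hd i) (hδ i) k z
      li := ?_
      span := ?_
      smc := fun i => re_smooth (hg1 i)
      sms := fun i => im_smooth (hg1 i)
      unit := fun i z => ?_
      dgc := fun i z => ?_
      dgs := fun i z => ?_
      int := ?_ }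
  · rw [Fintype.linearIndependent_iff]
    intro c hc
    have e1 : cof s (∑ i, c i • α i : X1 M).1 = cof s (DL (0 : CFn M)).1 := by
      rw [cof_sum]
      refine Eq.trans hc ?_
      rw [map_zero]
      rfl
    exact fun i => congrFun (hindep c 0 (cof_inj s e1)) i
  · intro a ha hs hB
    obtain ⟨β, hβ, hdβ, hδβ⟩ := of_harm T s hS h hin hw ha hs hB
    obtain ⟨x, ⟨k, hk, hrk⟩, -⟩ := hr.span β.1 ((closed1_iff β).2 hdβ)
    -- `β - ∑ x_i α_i` is exact and coclosed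
    have e1 : β - ∑ i, x i • α i = DL (⟨k, hk⟩ + ∑ i, x i • f i) := by
      apply Subtype.ext
      show β.1 - ((∑ i, x i • α i : X1 M) : F1 E4 M) = dF (E := E4) (⟨k, hk⟩ + ∑ i, x i • f i : CFn M).1
      rw [hcomb, hrk]
      have e2 : dF (E := E4) (⟨k, hk⟩ + ∑ i, x i • f i : CFn M).1 =
          dF (E := E4) k + dF (E := E4) (∑ i, x i • f i : CFn M).1 :=
        dF_add hk (∑ i, x i • f i : CFn M).2
      rw [e2]
      abel
    have e2 : δL s (DL (⟨k, hk⟩ + ∑ i, x i • f i)) = 0 := by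
      rw [← e1, map_sub, hδβ, map_sum, zero_sub, neg_eq_zero]
      exact Finset.sum_eq_zero fun i _ => by rw [map_smul, hδ, smul_zero]
    have e3 : DL (⟨k, hk⟩ + ∑ i, x i • f i : CFn M) = 0 := by
      refine (Hs s (fr_of h hw).vol).Gdef _ ?_
      have e4 := (Hs s (fr_of h hw).vol).adj (⟨k, hk⟩ + ∑ i, x i • f i)
        (DL (⟨k, hk⟩ + ∑ i, x i • f i))
      have e5 : (Hs s (fr_of h hw).vol).δ (DL (⟨k, hk⟩ + ∑ i, x i • f i)) = 0 := e2
      rw [e5, map_zero] at e4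
      exact (neg_eq_zero.1 e4.symm)
    rw [e3, sub_eq_zero] at e1
    refine ⟨x, ?_⟩
    rw [← hβ, e1, cof_sum]
  · have h2 := hg2 i z
    have h3 : (g i z).re * (g i z).re + (g i z).im * (g i z).im = ‖g i z‖ ^ 2 := by
      rw [← Complex.normSq_apply, Complex.normSq_eq_norm_sq]
    show (g i z).re ^ 2 + (g i z).im ^ 2 = 1
    rw [h2] at h3
    nlinarith
  · rw [vf_eq T s hS]
    exact gr_eq T s (re_smooth (hg1 i)) (k := fun z => -(2 * Real.pi * (g i z).im))
      (LogD.re (hg1 i) (hg3 i)) z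
  · rw [vf_eq T s hS]
    exact gr_eq T s (im_smooth (hg1 i)) (k := fun z => 2 * Real.pi * (g i z).re)
      (LogD.im (hg1 i) (hg3 i)) z
  · intro c p q hp hq hpq hgp hgq
    have hvf : ∀ z, ∑ i, c i • S.vf (cof s (α i).1) z =
        T.toF z (shp s (∑ i, c i • α i : X1 M).1 z) := by
      intro z
      rw [← vf_eq T s hS, cof_sum]
      unfold SWS.vf
      simp only [Finset.smul_sum, Finset.sum_apply, Pi.smul_apply, smul_eq_mul, Finset.sum_smul,
        smul_smul]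
      exact Finset.sum_comm
    have hd1 : ∀ (k m : M → ℝ), ContMDiff 𝓘(ℝ, E4) 𝓘(ℝ, ℝ) ∞ k →
        (∀ z, Gr (n := 4) k z = m z • ∑ i, c i • S.vf (cof s (α i).1) z) →
        ∀ z (v : E4), at1 (dF (E := E4) k) z v = m z * at1 (∑ i, c i • α i : X1 M).1 z v := by
      intro k m hk h2 z
      have h4 : ∀ v : TangentSpace (𝓡 4) z, at1 (dF (E := E4) k) z v =
          m z * at1 (∑ i, c i • α i : X1 M).1 z v := by
        intro v
        have h3 := gr_inner T hk z v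
        rw [← h3, h2 z, hvf z, real_inner_smul_left, T.inner_toF, inner_shp]
      exact h4
    have hl := logD_of hp hq (β := (∑ i, c i • α i : X1 M).1)
      (fun z v => hd1 p (fun z => -(2 * Real.pi * q z)) hp hgp z v)
      (fun z v => hd1 q (fun z => 2 * Real.pi * p z) hq hgq z v)
    have hint : IsInt1 (∑ i, c i • α i : X1 M).1 := by
      refine ⟨_, hl.1, fun z => ?_, hl.2⟩
      have h2 : ‖(p z : ℂ) + (q z : ℂ) * Complex.I‖ ^ 2 = 1 := by
        rw [← Complex.normSq_eq_norm_sq, Complex.normSq_add_mul_I]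
        exact hpq z
      have h3 := norm_nonneg ((p z : ℂ) + (q z : ℂ) * Complex.I)
      nlinarith
    have hdc : dL (∑ i, c i • α i : X1 M) = 0 := by
      rw [map_sum]
      exact Finset.sum_eq_zero fun i _ => by rw [map_smul, hd, smul_zero]
    obtain ⟨x, ⟨k, hk, hrk⟩, hiff⟩ := hr.span _ ((closed1_iff _).2 hdc)
    have hx : c - x = 0 := by
      let k' : CFn M := ⟨k, hk⟩
      refine hr.indep _ (k' + ∑ i, c i • f i : CFn M).1 (k' + ∑ i, c i • f i : CFn M).2 ?_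
      have e2 : dF (E := E4) (k' + ∑ i, c i • f i : CFn M).1 =
          dF (E := E4) k + dF (E := E4) (∑ i, c i • f i : CFn M).1 :=
        dF_add hk (∑ i, c i • f i : CFn M).2
      have e3 := hcomb c
      rw [hrk] at e3
      have e4 : dF (E := E4) k = (∑ i, c i • r i) - dF (E := E4) (∑ i, c i • f i : CFn M).1 -
          ∑ i, x i • r i := by
        rw [← e3]; abel
      rw [e2, e4]
      have e5 : (∑ i, (c - x) i • r i) = (∑ i, c i • r i) - ∑ i, x i • r i := by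
        rw [← Finset.sum_sub_distrib]
        exact Finset.sum_congr rfl fun i _ => by rw [Pi.sub_apply, sub_smul]
      rw [e5]
      abel
    have hcx : c = x := sub_eq_zero.1 hx
    intro i
    obtain ⟨m, hm⟩ := hiff.1 hint i
    exact ⟨m, by rw [hcx, hm]⟩

end jd

end Crest.Agent.R235.MdlJ_399

end
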