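import Crest.Agent.R235.MdlD_489
import Crest.Agent.R235.ModRE_692
import Crest.Agent.R235.MdlL2_453

/-!
Row 235 (S0364), PACKAGE SW (helper344): 489's hypotheses `Mh` for the concrete model `SL` of a line
bundle, and the flat family `FFam` for a bundle of real class zero.

* `mh_SL`   : `∃ C D, Mh (SL ..) .. (tauF ..) (cEg ..) C`;
* `ffam_SL` : `FFam` for `2π c_L = d a0`.
-/

set_option autoImplicit false
set_option maxSynthPendingDepth 3
set_option linter.unusedSectionVars false

open scoped ContDiff ENNReal NNReal Topology Manifold Bundle RealInnerProductSpace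
open MeasureTheory Set Filter Metric Bundle Matrix

namespace Crest.Agent.R235.MdlM_344

open Crest.Agent.R240 Crest.Agent.R240.Ch Crest.Agent.R240.Int Crest.Agent.R235.SWDefs_53
open Crest.Agent.R235.IndTri_451 Crest.Agent.R235.Tau483
open Crest.Agent.R235.SWData_451 Crest.Agent.R235.SWTn_451
open Crest.Agent.R249.Tz805 (ToF)
open Crest.Agent.R249.Tz2_805 (PF)
open Crest.Agent.R235.Ind167
open Crest.Agent.R235.SwsL_755 Crest.Agent.R235.TwfL_755
open Crest.Agent.R235.LTwLd_774 (ldOf)
open Crest.Agent.R235.QSTri_451 (qs)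
open Crest.Agent.R235.ModR_692 Crest.Agent.R235.FamR_692
open Crest.Agent.R235.MdlD_489

noncomputable section

variable {M : Type} [MetricSpace M] [CompactSpace M] [ConnectedSpace M]
  [ChartedSpace (EuclideanSpace ℝ (Fin 4)) M] [IsManifold (𝓡 4) ∞ M]
  [RiemannianBundle (fun p : M => TangentSpace (𝓡 4) p)]
  [IsContMDiffRiemannianBundle (𝓡 4) ∞ (EuclideanSpace ℝ (Fin 4))
    (fun p : M => TangentSpace (𝓡 4) p)]
  [IsRiemannianManifold (𝓡 4) M] [MeasurableSpace M] [BorelSpace M]
  [SecondCountableTopology M] [Nonempty M] [IsFiniteMeasureOnCompacts (μHE[4] : Measure M)]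
  {w : Trip M} {e : Fin 3 → F2 E4 M} (he : IsTri (und w) e)
  (hin : ∀ (x : M) (u v : TangentSpace 𝓘(ℝ, E4) x), inner ℝ u v = at2 (gg e) x u v)
  {N : ℕ} {p : M → Matrix (Fin N) (Fin N) ℂ} {a : Z2 M} (hp : IsLine p) (hc : IsChern p a)
  {κ : Type} [Fintype κ] (T : ToF 4 M) (s : PF 4 M κ)

/-- the family of Taubes data of the model. -/
abbrev tauL (t : E3) : TD M κ :=
  tauF (SL T (qs he hin) s (ldOf p hp)) T (twL (qs he hin) s (ldOf p hp)).cc
    (twL (qs he hin) s (ldOf p hp)).D0.W s.s w e (-1) (wwf (und w) e)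
    (SWGen_53.cEg T s he hin (ldOf p hp)) t

include hc in
/-- 489's hypotheses. -/
theorem mh_SL : ∃ (C : ℝ) (D : Fin 3 → ℝ),
    Mh (SL T (qs he hin) s (ldOf p hp)) T (twL (qs he hin) s (ldOf p hp)).cc
      (twL (qs he hin) s (ldOf p hp)).D0.W s.s w e (-1) (wwf (und w) e) D p
      (tauL he hin hp T s) (SWGen_53.cEg T s he hin (ldOf p hp)) C := by
  have H := hyp_g he hin hp hc T s
  have hS := okL T (qs he hin) s (ldOf p hp)
  have harm := fun i x z => harmL T s (ldOf p hp) he hin i x z
  have cl : ∀ t : E3, ‖t‖ = 1 → cls (SWGen_53.cEg T s he hin (ldOf p hp) t) = cls a :=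
    fun t ht => cls_g he hin hp hc T s (Hyp.ne_of ht)
  obtain ⟨C, hC⟩ := tau_ok H hS harm cl (t2_hyp hS H)
  obtain ⟨D, hD1, hD⟩ := exists_D H.lt fun i => (H.smw i i).continuous
  exact ⟨C, D,
    { ok := hS
      sym := H.sym
      tg := H.tg
      tws := MdlL_453.tws_ldOf T (qs he hin) s hp
      line := hp
      lt := H.lt
      smw := H.smw
      harm := harm
      D1 := hD1
      Dp := hD
      n_eq := fun _ _ _ => rfl
      rr_eq := fun _ _ => rfl
      jsh := H.jf_sh
      tau := hC
      fE := fun t ht k x => by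
        have h4 := (H.tc ht).fE k x
        rw [h4]
        unfold qG
        rw [at2_PhiF]
        ring
      ch := H.ch
      ti := fun z X => s.pars z X
      pT := fun _ _ _ => rfl
      HB := ⟨_, (pairH (qs he hin) s).cc, fun x y z => (pairH (qs he hin) s).smc x y z,
        fun _ => rfl⟩ }⟩

end

end Crest.Agent.R235.MdlM_344
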