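import Crest.Agent.R235.SwcProd_215
import Crest.Agent.R235.SWLnkB_451
import Crest.Agent.R235.SWTn_451
import Crest.Agent.R235.TauH_483
import Crest.Agent.R235.TauIso_470
import Crest.Agent.R235.Mdl3B_399

/-!
Row 235 (S0364), MODX (helper399): the geometry half `SwcData` of `MODX`, from the properties of the
generic model.
-/

set_option autoImplicit false
set_option maxSynthPendingDepth 3
set_option linter.unusedSectionVars false

open scoped ContDiff ENNReal NNReal Topology Manifold Bundle RealInnerProductSpace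
open MeasureTheory Set Filter Metric Bundle Matrix

universe v

namespace Crest.Agent.R235.MdlX_399

open Crest.Agent.R240 Crest.Agent.R240.Ch Crest.Agent.R235 Crest.Agent.R235.SWDefs_53
open Crest.Agent.R235.IndTri_451 Crest.Agent.R235.Tau483
open Crest.Agent.R249.Tv57 (Dat OpPair SmF SmV KerD)
open Crest.Agent.R249.Tz805 (ToF)
open Crest.Agent.R235.SwcProd_215 Crest.Agent.R235.SWTn_451

noncomputable section

variable {M : Type v} [MetricSpace M] [CompactSpace M] [ConnectedSpace M]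
  [ChartedSpace (EuclideanSpace ℝ (Fin 4)) M] [IsManifold (𝓡 4) ∞ M]
  [RiemannianBundle (fun p : M => TangentSpace (𝓡 4) p)]
  [IsContMDiffRiemannianBundle (𝓡 4) ∞ (EuclideanSpace ℝ (Fin 4))
    (fun p : M => TangentSpace (𝓡 4) p)]
  [IsRiemannianManifold (𝓡 4) M] [MeasurableSpace M] [BorelSpace M]
  [SecondCountableTopology M] [Nonempty M]
  {κ0 κ1 κT : Type} [Fintype κ0] [Fintype κ1] [Fintype κT]

/-- the curvature function of `E`: `fE_k = 2 q(e_k, 2π c_E - dβ)` (`β = bF`, does not depend on the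
third field of `τ`). -/
def fEof (S : SWS M κ0 κ1 κT) (W : κ0 → κ0 → (z : M) → TangentSpace (𝓡 4) z)
    (sT : κT → (z : M) → TangentSpace (𝓡 4) z) (w : Trip M) (e : Fin 3 → F2 E4 M)
    (τ : TD M κT) (cE : Z2 M) (k : Fin 3) (z : M) : ℝ :=
  2 * qG (w 0).1.1 (e k) (PhiF cE (bF τ S W sT e)) z

variable {S : SWS M κ0 κ1 κT} {T : ToF 4 M}
    {cc : κ1 → κ0 → (z : M) → TangentSpace (𝓡 4) z}
    {W : κ0 → κ0 → (z : M) → TangentSpace (𝓡 4) z}
    {sT : κT → (z : M) → TangentSpace (𝓡 4) z} {w : Trip M} {e : Fin 3 → F2 E4 M}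
    {ι : ℝ}

/-- **`SwcData`** from the properties of the family `τ`. -/
theorem swcData [IsFiniteMeasureOnCompacts (μHE[4] : Measure M)]
    (hS : S.OK) (h : TG S T cc W sT w e (-1) ι)
    (hharm : ∀ i x z, S.H.A (Fin.cons (fun _ => 0) (wwf (fun i => (w i).1.1) e i)) x z = 0)
    {τ : E3 → TD M κT} (hrr : ∀ t, ‖t‖ = 1 → (τ t).rr = rrt (wwf (fun i => (w i).1.1) e) t)
    (hn : ∀ t, ‖t‖ = 1 → (τ t).n = nt (wwf (fun i => (w i).1.1) e) t)
    (hE : ∀ t, ‖t‖ = 1 → ∃ Z, TE (τ t) S T cc Z)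
    {cE : E3 → Z2 M} (hc : ∀ t, ‖t‖ = 1 → Ch0 (PEf (τ t) S) (cE t))
    (hfE : ∀ t, ‖t‖ = 1 → ∀ k x, (τ t).fE k x = fEof S W sT w e (τ t) (cE t) k x)
    {c : H2 M} (hcls : ∀ t, ‖t‖ = 1 → cls (cE t) = c)
    {C K K1 K2 : ℝ} (hOK : ∀ t, ‖t‖ = 1 → (τ t).OK S C)
    (hbE : ∀ (t : E3) k z, ‖t‖ = 1 → |(τ t).fE k z| ≤ K)
    (hβ : ∀ t, ‖t‖ = 1 → ∀ x v, (at1 (bF (τ t) S W sT e) x v) ^ 2 ≤ K1 * at2 (gg e) x v v)
    (ha : ∀ t, ‖t‖ = 1 → ∀ x u v,
      (val (cE t) x u v) ^ 2 ≤ K2 * (at2 (gg e) x u u * at2 (gg e) x v v)) :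
    SwcData S T cc W sT w e ι (wwf (fun i => (w i).1.1) e) τ C (max (max 2 K) (max K1 K2)) c where
  tg := h
  ok := hS
  smw i k := cm_wwf (fun i => ⟨(w i).1.2.1, (w i).1.2.2⟩) h.tri i k
  ww_eq i x := wwf_eq h.tri i x
  harm := hharm
  rr t z ht := by rw [hrr t ht]; rfl
  nn t k z ht := by
    rw [hrr t ht, hn t ht]
    exact (lt_wwf h.tri).mul_nt (by rintro rfl; simp at ht) k z
  tau := hOK
  te := hE
  bdE t k z ht := (hbE t k z ht).trans ((le_max_right _ _).trans (le_max_left _ _))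
  lnk t ht := by
    have gnn : ∀ (x : M) (v : E4), 0 ≤ at2 (gg e) x v v := fun x v => by
      rw [← h.met x v v]
      exact real_inner_self_nonneg
    obtain ⟨Z, hZ⟩ := hE t ht
    refine ⟨cE t, bF (τ t) S W sT e, SWLnkB_451.lnk hS h hZ (hc t ht) (hfE t ht)
      ((le_max_left _ _).trans (le_max_left _ _)) (fun x v => ?_) (fun x u v => ?_), hcls t ht⟩
    · exact (hβ t ht x v).trans (mul_le_mul_of_nonneg_right
        ((le_max_left _ _).trans (le_max_right _ _)) (gnn x v))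
    · exact (ha t ht x u v).trans (mul_le_mul_of_nonneg_right
        ((le_max_right _ _).trans (le_max_right _ _)) (mul_nonneg (gnn x u) (gnn x v)))

end

end Crest.Agent.R235.MdlX_399
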