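import Crest.Agent.R235.SWJF_451
import Crest.Agent.R235.TauH_483
import Crest.Agent.R235.MdlX_399

/-!
Row 235 (S0364), MODX (helper399), part U: the uniform bounds (`|t| = 1`) of the family
`tauT S cc ww fE`, with `fE` = the curvature of the eigenline.
-/

set_option autoImplicit false
set_option maxSynthPendingDepth 3
set_option linter.unusedSectionVars false

open scoped ContDiff ENNReal NNReal Topology Manifold Bundle RealInnerProductSpace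
open MeasureTheory Set Filter Metric Bundle Matrix

universe v

namespace Crest.Agent.R235.MdlXu_399

open Crest.Agent.R240 Crest.Agent.R240.Ch Crest.Agent.R235 Crest.Agent.R235.SWDefs_53
open Crest.Agent.R235.IndTri_451 Crest.Agent.R235.Tau483 Crest.Agent.R235.TauJ
open Crest.Agent.R235.SWJF_451 Crest.Agent.R235.MdlX_399
open Crest.Agent.R249.Tv57 (Dat OpPair SmF SmV KerD)
open Crest.Agent.R249.Tz805 (ToF)
open Crest.Agent.R249.Vf281 (VSm)
open Crest.Agent.R235.SWTn_451 Crest.Agent.R235.SWTf_451 Crest.Agent.R235.SWTe_451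

noncomputable section

variable {M : Type v} [MetricSpace M] [CompactSpace M] [ConnectedSpace M]
  [ChartedSpace (EuclideanSpace ℝ (Fin 4)) M] [IsManifold (𝓡 4) ∞ M]
  [RiemannianBundle (fun p : M => TangentSpace (𝓡 4) p)]
  [IsContMDiffRiemannianBundle (𝓡 4) ∞ (EuclideanSpace ℝ (Fin 4))
    (fun p : M => TangentSpace (𝓡 4) p)]
  [IsRiemannianManifold (𝓡 4) M] [MeasurableSpace M] [BorelSpace M]
  [SecondCountableTopology M] [Nonempty M]
  {κ0 κ1 κT : Type} [Fintype κ0] [Fintype κ1] [Fintype κT]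

variable {S : SWS M κ0 κ1 κT} {T : ToF 4 M}
    {c : κ1 → κ0 → (z : M) → TangentSpace (𝓡 4) z}
    {W : κ0 → κ0 → (z : M) → TangentSpace (𝓡 4) z}
    {sT : κT → (z : M) → TangentSpace (𝓡 4) z} {w : Trip M} {e : Fin 3 → F2 E4 M}
    {ι : ℝ} {ww : Fin 3 → Fin 3 → M → ℝ} {cE : E3 → Z2 M}

variable (S T c ww) in
/-- the family without curvature. -/
def tau0 (t : E3) : TD M κT := tauT S (fun x y z => T.toF z (c x y z)) ww (fun _ _ _ => 0) t

variable (S T c W sT w e ww cE) in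
/-- **the family of Taubes data**, `fE` = curvature of the eigenline. -/
def tauX (t : E3) : TD M κT :=
  tauT S (fun x y z => T.toF z (c x y z)) ww
    (fun t => fEof S W sT w e (tau0 S T c ww t) (cE t)) t

theorem PEf_tauX (t : E3) : PEf (tauX S T c W sT w e ww cE t) S = PEf (tau0 S T c ww t) S := rfl

theorem bF_tauX (t : E3) :
    bF (tauX S T c W sT w e ww cE t) S W sT e = bF (tau0 S T c ww t) S W sT e := rfl

theorem fE_tauX (t : E3) (k : Fin 3) (x : M) : (tauX S T c W sT w e ww cE t).fE k x =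
    fEof S W sT w e (tauX S T c W sT w e ww cE t) (cE t) k x := rfl

theorem jf_sh (H : SWSym_451.Sym S fun x y z => T.toF z (c x y z))
    (h : TG S T c W sT w e (-1) ι) (hc : ∀ x y z, VSm 4 ∞ (c x y) z) (hL : LT ww)
    (hs : ∀ i k, ContMDiff (𝓡 4) 𝓘(ℝ, ℝ) ∞ (ww i k)) (A : κT) :
    JF fun t => (tau0 S T c ww t).sh A :=
  jf_shf H h hc (jf_rrt hL hs) (fun _ ht z => hL.pos ht z)
    (fun a b => jf_Pr H (m := fun t k z => - nt ww t k z) (fun k => (jf_nt hL hs k).neg) a b) A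

theorem j1_bF0 (H : SWSym_451.Sym S fun x y z => T.toF z (c x y z))
    (h : TG S T c W sT w e (-1) ι) (hc : ∀ x y z, VSm 4 ∞ (c x y) z) (hL : LT ww)
    (hs : ∀ i k, ContMDiff (𝓡 4) 𝓘(ℝ, ℝ) ∞ (ww i k)) :
    J1 fun t => bF (tau0 S T c ww t) S W sT e :=
  j1_bF H h (τ := tau0 S T c ww) (fun A => jf_sh H h hc hL hs A) fun k => jf_nt hL hs k

theorem jf_P0 (H : SWSym_451.Sym S fun x y z => T.toF z (c x y z)) (hL : LT ww)
    (hs : ∀ i k, ContMDiff (𝓡 4) 𝓘(ℝ, ℝ) ∞ (ww i k)) (y y' : κ0) :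
    JF fun t z => P0f (tau0 S T c ww t) S z y y' := by
  simp only [P0f_apply]
  exact JF.cmul _ ((jf_of (S.D0.smp y y')).sub
    (JF.sum' fun k => (jf_nt hL hs k).mul (jf_of (H.smrho k y y'))))

theorem jf_re (H : SWSym_451.Sym S fun x y z => T.toF z (c x y z)) (hL : LT ww)
    (hs : ∀ i k, ContMDiff (𝓡 4) 𝓘(ℝ, ℝ) ∞ (ww i k)) (y y' : κ0) :
    JF fun t z => (PEf (tau0 S T c ww t) S z y y').re := by
  refine ((jf_P0 H hL hs y y').cmul (1 / 2)).congr fun t _ z => ?_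
  have h1 : PEf (tau0 S T c ww t) S z y y' = (1 / 2 : ℂ) * ((P0f (tau0 S T c ww t) S z y y' : ℂ) -
      Complex.I * (((Jm S z * P0f (tau0 S T c ww t) S z) y y' : ℝ) : ℂ)) := rfl
  rw [h1]
  simp

theorem jf_im (H : SWSym_451.Sym S fun x y z => T.toF z (c x y z)) (hL : LT ww)
    (hs : ∀ i k, ContMDiff (𝓡 4) 𝓘(ℝ, ℝ) ∞ (ww i k)) (y y' : κ0) :
    JF fun t z => (PEf (tau0 S T c ww t) S z y y').im := by
  have h0 : JF fun t z => (Jm S z * P0f (tau0 S T c ww t) S z) y y' := by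
    simp only [Matrix.mul_apply]
    exact JF.sum' fun d => (jf_of (H.smJ y d)).mul (jf_P0 H hL hs d y')
  refine (h0.cmul (-(1 / 2))).congr fun t _ z => ?_
  have h1 : PEf (tau0 S T c ww t) S z y y' = (1 / 2 : ℂ) * ((P0f (tau0 S T c ww t) S z y y' : ℂ) -
      Complex.I * (((Jm S z * P0f (tau0 S T c ww t) S z) y y' : ℝ) : ℂ)) := rfl
  rw [h1]
  simp

theorem j2_cE (H : SWSym_451.Sym S fun x y z => T.toF z (c x y z)) (hL : LT ww)
    (hs : ∀ i k, ContMDiff (𝓡 4) 𝓘(ℝ, ℝ) ∞ (ww i k))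
    (hch : ∀ t, t ≠ 0 → Ch0 (PEf (tau0 S T c ww t) S) (cE t)) :
    J2 fun t => ((cE t).1.1 : F2 E4 M) :=
  J2.chern (jf_re H hL hs) (jf_im H hL hs) hch

theorem j2_PhiF (H : SWSym_451.Sym S fun x y z => T.toF z (c x y z))
    (h : TG S T c W sT w e (-1) ι) (hc : ∀ x y z, VSm 4 ∞ (c x y) z) (hL : LT ww)
    (hs : ∀ i k, ContMDiff (𝓡 4) 𝓘(ℝ, ℝ) ∞ (ww i k))
    (hch : ∀ t, t ≠ 0 → Ch0 (PEf (tau0 S T c ww t) S) (cE t)) :
    J2 fun t => PhiF (cE t) (bF (tau0 S T c ww t) S W sT e) := by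
  unfold PhiF
  exact ((j2_cE H hL hs hch).smul _).add ((J2.dG (j1_bF0 H h hc hL hs)).smul _)

theorem jf_fE (H : SWSym_451.Sym S fun x y z => T.toF z (c x y z))
    (h : TG S T c W sT w e (-1) ι) (hc : ∀ x y z, VSm 4 ∞ (c x y) z) (hL : LT ww)
    (hs : ∀ i k, ContMDiff (𝓡 4) 𝓘(ℝ, ℝ) ∞ (ww i k))
    (hch : ∀ t, t ≠ 0 → Ch0 (PEf (tau0 S T c ww t) S) (cE t)) (k : Fin 3) :
    JF fun t => (tauX S T c W sT w e ww cE t).fE k := by
  have hw0 : Smooth2 ((w 0).1.1 : F2 E4 M) := ⟨(w 0).1.2.1, (w 0).1.2.2⟩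
  exact (JF.qG' hw0 (fun x => h.tri.W_ne x) (J2.of (h.tri.smooth k))
    (j2_PhiF H h hc hL hs hch)).cmul 2

/-! ### the bounds -/

theorem nrm2 (h : TG S T c W sT w e (-1) ι) {x : M} (v : TangentSpace (𝓡 4) x) :
    ‖v‖ ^ 2 = at2 (gg e) x v v := by
  rw [← h.met x v v]; exact (real_inner_self_eq_norm_sq v).symm

theorem sq_le1 (h : TG S T c W sT w e (-1) ι) {x : M} (v : TangentSpace (𝓡 4) x) {r C : ℝ}
    (hr : |r| ≤ C * ‖v‖) : r ^ 2 ≤ C ^ 2 * at2 (gg e) x v v := by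
  rw [← nrm2 h, ← sq_abs, ← mul_pow]
  exact pow_le_pow_left₀ (abs_nonneg _) hr 2

theorem sq_le2 (h : TG S T c W sT w e (-1) ι) {x : M} (u v : TangentSpace (𝓡 4) x) {r C : ℝ}
    (hr : |r| ≤ C * ‖u‖ * ‖v‖) :
    r ^ 2 ≤ C ^ 2 * (at2 (gg e) x u u * at2 (gg e) x v v) := by
  rw [← nrm2 h, ← nrm2 h, ← sq_abs, ← mul_pow, ← mul_pow, ← mul_assoc]
  exact pow_le_pow_left₀ (abs_nonneg _) hr 2

/-- **all bounds, uniform over `|t| = 1`.** -/
theorem exists_bounds (H : SWSym_451.Sym S fun x y z => T.toF z (c x y z))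
    (h : TG S T c W sT w e (-1) ι) (hc : ∀ x y z, VSm 4 ∞ (c x y) z) (hL : LT ww)
    (hs : ∀ i k, ContMDiff (𝓡 4) 𝓘(ℝ, ℝ) ∞ (ww i k))
    (hch : ∀ t, t ≠ 0 → Ch0 (PEf (tau0 S T c ww t) S) (cE t)) :
    ∃ K : ℝ, 0 ≤ K ∧ (∀ (t : E3) k z, ‖t‖ = 1 → |(tauX S T c W sT w e ww cE t).fE k z| ≤ K) ∧
      (∀ t, ‖t‖ = 1 → ∀ x v,
        (at1 (bF (tauX S T c W sT w e ww cE t) S W sT e) x v) ^ 2 ≤ K * at2 (gg e) x v v) ∧
      (∀ t, ‖t‖ = 1 → ∀ x u v,
        (val (cE t) x u v) ^ 2 ≤ K * (at2 (gg e) x u u * at2 (gg e) x v v)) ∧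
      (∀ t, ‖t‖ = 1 → ∀ (z : M) (u v : TangentSpace (𝓡 4) z),
        |Phi (cE t) (bF (tauX S T c W sT w e ww cE t) S W sT e) z u v| ≤ K * ‖u‖ * ‖v‖) := by
  choose C0 hC0 hC using fun k => (jf_fE H h hc hL hs hch k).bound
  obtain ⟨C1, hC1, h1⟩ := (j1_bF0 H h hc hL hs).bound
  obtain ⟨C2, hC2, h2⟩ := (j2_cE H hL hs hch).bound
  obtain ⟨C3, hC3, h3⟩ := (j2_PhiF H h hc hL hs hch).bound
  have hsum : ∀ k, C0 k ≤ ∑ k, C0 k := fun k =>
    Finset.single_le_sum (f := C0) (fun k _ => hC0 k) (Finset.mem_univ k)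
  have hs0 : 0 ≤ ∑ k, C0 k := Finset.sum_nonneg fun k _ => hC0 k
  refine ⟨(∑ k, C0 k) + C1 ^ 2 + C2 ^ 2 + C3, by positivity, fun t k z ht => ?_,
    fun t ht x v => ?_, fun t ht x u v => ?_, fun t ht z u v => ?_⟩
  · have := hC k t ht z
    have := hsum k
    nlinarith [sq_nonneg C1, sq_nonneg C2]
  · refine (sq_le1 h v (h1 t ht x v)).trans (mul_le_mul_of_nonneg_right ?_
      (nrm2 h (v : TangentSpace (𝓡 4) x) ▸ sq_nonneg _))
    nlinarith [sq_nonneg C2]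
  · refine (sq_le2 h u v (h2 t ht x u v)).trans (mul_le_mul_of_nonneg_right ?_
      (mul_nonneg (nrm2 h (u : TangentSpace (𝓡 4) x) ▸ sq_nonneg _)
        (nrm2 h (v : TangentSpace (𝓡 4) x) ▸ sq_nonneg _)))
    nlinarith [sq_nonneg C1]
  · have a1 := h3 t ht z u v
    rw [at2_PhiF] at a1
    have a2 : 0 ≤ ‖u‖ * ‖v‖ := by positivity
    refine a1.trans ?_
    rw [mul_assoc, mul_assoc]
    refine mul_le_mul_of_nonneg_right ?_ a2
    nlinarith [sq_nonneg C1, sq_nonneg C2]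

/-! ### `TC`, `WT`, continuity of the curvature, `TD.OK` -/

theorem tc_tauX {t : E3} (hch : Ch0 (PEf (tau0 S T c ww t) S) (cE t)) :
    TC (tauX S T c W sT w e ww cE t) S W sT w e (-1) (cE t) where
  ch := hch
  fE k z := by
    rw [fE_tauX]
    unfold fEof
    have h1 : qG ((w 0).1.1 : F2 E4 M) (e k)
        (PhiF (cE t) (bF (tauX S T c W sT w e ww cE t) S W sT e)) z =
      q (at2 ((w 0).1.1 : F2 E4 M) z) (at2 (e k) z)
        (Phi (cE t) (bF (tauX S T c W sT w e ww cE t) S W sT e) z) := by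
      unfold qG
      rw [at2_PhiF]
    rw [h1]
    ring

theorem cf_tauX (H : SWSym_451.Sym S fun x y z => T.toF z (c x y z))
    (h : TG S T c W sT w e (-1) ι) (hc : ∀ x y z, VSm 4 ∞ (c x y) z) (hL : LT ww)
    (hs : ∀ i k, ContMDiff (𝓡 4) 𝓘(ℝ, ℝ) ∞ (ww i k))
    (hch : ∀ t, t ≠ 0 → Ch0 (PEf (tau0 S T c ww t) S) (cE t)) (k : Fin 3) :
    ContinuousOn (fun q : E3 × M => (tauX S T c W sT w e ww cE q.1).fE k q.2)
      {q | ‖q.1‖ = 1} :=
  (jf_fE H h hc hL hs hch k).contS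

theorem wt_tauX (hL : LT ww) (hww : ∀ i x, val (w i) x = ∑ k, ww i k x • at2 (e k) x) {t : E3}
    (ht : t ≠ 0) : WT (tauX S T c W sT w e ww cE t) e (Uu_291.wt w fun i => t i) := by
  intro x
  rw [Uu_291.val_wt]
  have h2 : ∀ k, (tauX S T c W sT w e ww cE t).rr x * (tauX S T c W sT w e ww cE t).n k x =
      ∑ i, t i * ww i k x := fun k => hL.mul_nt ht k x
  simp only [h2, hww, Finset.smul_sum, Finset.sum_smul, smul_smul]
  rw [Finset.sum_comm]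

variable [IsFiniteMeasureOnCompacts (μHE[4] : Measure M)]

/-- `TD.OK` from the pieces. -/
theorem td_ok {τ : TD M κT} {σ : ℝ} (hS : S.OK) (h : TG S T c W sT w e σ ι)
    {Z : κ1 → κ0 → M → ℝ} (ht : TE τ S T c Z) {wt cE : Z2 M} (hwt : WT τ e wt)
    (hc : TC τ S W sT w e σ cE)
    (hharm : ∀ x z, S.H.A (Fin.cons (fun _ => 0) fun k z => τ.rr z * τ.n k z) x z = 0) {C : ℝ}
    (T2 : ∀ (a : κT → M → ℝ) (s s' : κ0 → M → ℝ), SmV (n := 4) a → S.DT.Sec a → SmV (n := 4) s →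
    SmV (n := 4) s' → τ.SecE S s → τ.SecE' S s' →
    |∫ z, (τ.rr z ^ (-(1 / 2) : ℝ) *
        (∑ x, (S.P.A (τ.sc (3 / 4) s) + S.cm a (τ.sc (3 / 4) s)) x z *
          (S.P.A (τ.sc (3 / 4) s') + S.cm a (τ.sc (3 / 4) s')) x z) -
        τ.rr z * ∑ k, (S.H.B a k.succ z + τ.fE k z) * ∑ y, ∑ y', S.rho k y y' z * s y z * s' y' z)
      ∂(μHE[4] : Measure M)| ≤
    C * ∫ z, √(∑ y, ‖τ.nE S a s y z‖ ^ 2) * √(∑ y, s' y z ^ 2) ∂(μHE[4] : Measure M)) :
    τ.OK S C where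
  smrr := ht.smrr
  pos := ht.pos
  smn := ht.smn
  smsh := ht.smsh
  secsh := ht.secsh
  smfE k := by
    have hw0 : Smooth2 ((w 0).1.1 : F2 E4 M) := ⟨(w 0).1.2.1, (w 0).1.2.2⟩
    have h1 : SmoothF E4 fun z => -2 * σ *
        qG ((w 0).1.1 : F2 E4 M) (e k) (PhiF cE (bF τ S W sT e)) z :=
      (SmoothF.mul (En4.sF_const _) (En4.smoothF_qG hw0 h.tri.W_ne (h.tri.smooth k)
        (smooth_PhiF cE (smooth_bF hS h ht))))
    have h2 : τ.fE k = fun z => -2 * σ *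
        qG ((w 0).1.1 : F2 E4 M) (e k) (PhiF cE (bF τ S W sT e)) z := by
      funext z
      rw [hc.fE k z]
      unfold qG
      rw [at2_PhiF]
    rw [h2]
    exact (smoothF_iff _).2 h1
  norm := ht.norm
  rsec := h.prho
  invol y y'' z := by
    have A := al_of hS h z (ht.norm z)
    have h1 := congrFun (congrFun A.R_sq y) y''
    rw [Matrix.mul_apply] at h1
    refine Eq.trans ?_ h1
    refine Finset.sum_congr rfl fun y' _ => ?_
    rw [← RR_apply τ S z y y', ← RR_apply τ S z y' y'']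
    rfl
  harm := hharm
  T1 a s ha hsa hsm hs := t1 hS h ht hwt hc ha hsa hsm hs
  T2 := T2

end

end Crest.Agent.R235.MdlXu_399
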