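import Crest.Agent.R235.SWData_451
import Crest.Agent.R235.MdlL2_453
import Crest.Agent.R235.MdlS_344
import Crest.Agent.R235.TauIso_470
import Crest.Agent.R235.MdlXu_399
import Crest.Agent.R235.MdlJ2_399

/-!
Row 235 (S0364), MODX / generic model (helper399): THE CONCRETE INSTANCE of 451's `Hyp` : the system
of the triple twisted by a line bundle `p`, with the Chern forms `cE t` of the eigenlines, `t ≠ 0`.
-/

set_option autoImplicit false
set_option maxSynthPendingDepth 3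
set_option linter.unusedSectionVars false

open scoped ContDiff ENNReal NNReal Topology Manifold Bundle RealInnerProductSpace
open MeasureTheory Set Filter Metric Bundle Matrix

universe v

namespace Crest.Agent.R235.MdlXs_399

open Crest.Agent.R240 Crest.Agent.R240.Ch Crest.Agent.R235 Crest.Agent.R235.SWDefs_53
open Crest.Agent.R235.IndTri_451 Crest.Agent.R235.Tau483 Crest.Agent.R235.TauJ
open Crest.Agent.R249.Tv57 (Dat OpPair SmF SmV KerD)
open Crest.Agent.R249.Tz805 (ToF CPair)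
open Crest.Agent.R249.Tz2_805 (PF)
open Crest.Agent.R249.Vf281 (VSm)
open Crest.Agent.R249.Wk352 (dat0 dpair swapP)
open Crest.Agent.R235.SWTn_451 Crest.Agent.R235.SWTf_451 Crest.Agent.R235.SWTe_451
open Crest.Agent.R235.Ind167 (QS)
open Crest.Agent.R235.LTw_453 Crest.Agent.R235.Mdl3_399 Crest.Agent.R235.SWData_451
open Crest.Agent.R235.SwsQ_755

noncomputable section

variable {M : Type v} [MetricSpace M] [CompactSpace M] [ConnectedSpace M]
  [ChartedSpace (EuclideanSpace ℝ (Fin 4)) M] [IsManifold (𝓡 4) ∞ M]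
  [RiemannianBundle (fun p : M => TangentSpace (𝓡 4) p)]
  [IsContMDiffRiemannianBundle (𝓡 4) ∞ (EuclideanSpace ℝ (Fin 4))
    (fun p : M => TangentSpace (𝓡 4) p)]
  [IsRiemannianManifold (𝓡 4) M] [MeasurableSpace M] [BorelSpace M]
  [SecondCountableTopology M] [Nonempty M]
  {κ : Type} [Fintype κ] {N : ℕ}

variable (T : ToF 4 M) (s : PF 4 M κ) {w : Trip M} {e : Fin 3 → F2 E4 M}
  (tri : IsTri (fun i => (w i).1.1) e)
  (hin : ∀ (x : M) (u v : TangentSpace (𝓡 4) x), inner ℝ u v = at2 (gg e) x u v)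
  {p : M → Matrix (Fin N) (Fin N) ℂ} (hp : IsLine p)

/-- the quaternionic structure. -/
abbrev qX : QS M := QSTri_451.qs tri hin

/-- the Clifford pair of `W⁺ ⊗ L → W⁻ ⊗ L`. -/
abbrev pX : CPair 4 M κ (Fin 4 × Fin N) (κ × Fin N) := twZ (qX tri hin) s (LTwLd_774.ldOf p hp)

/-- **THE SYSTEM** of the triple and the line bundle. -/
def SX : SWS M (Fin 4 × Fin N) (κ × Fin N) κ :=
  swsQ T (pX s tri hin hp) (J0Z (qX tri hin) s (LTwLd_774.ldOf p hp)) (KtZ M (LTwLd_774.ldOf p hp))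
    (Hp T (qX tri hin) s)

theorem ok : (SX T s tri hin hp).OK := MdlS_344.okZ T (qX tri hin) s (LTwLd_774.ldOf p hp)

theorem tws : MdlL_453.Tws (SX T s tri hin hp) p := MdlL_453.tws_ldOf T (qX tri hin) s hp

theorem sym : SWSym_451.Sym (SX T s tri hin hp) (fun x y z => T.toF z ((pX s tri hin hp).cc x y z)) :=
  SwsL_755.sym_L T (qX tri hin) s (LTwLd_774.ldOf p hp)

theorem tg : TG (SX T s tri hin hp) T (pX s tri hin hp).cc (pX s tri hin hp).D0.W s.s w e (-1) (-1) :=
  SwsL_755.tg_L T s (LTwLd_774.ldOf p hp) tri hin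

theorem harm (i : Fin 3) (x : κ) (z : M) :
    (SX T s tri hin hp).H.A (Fin.cons (fun _ => 0) (wwf (fun i => (w i).1.1) e i)) x z = 0 := by
  have h1 : wwf (fun i => ((w i).1.1 : F2 E4 M)) e i = ww (fun i => ((w i).1.1 : F2 E4 M)) e i := by
    funext k z
    unfold wwf ww qG q
    rw [W_comm]
  rw [h1]
  exact Hp_harm T s tri hin (fun i => (w i).2) i x z

/-- `n_t`, `ρ_t` without the curvature. -/
abbrev t0 (t : E3) : TD M κ :=
  tau0 (SX T s tri hin hp) T (pX s tri hin hp).cc (wwf (fun i => (w i).1.1) e) t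

theorem ch_ldOf {a : Z2 M} (ha : IsChern p a) : Ch0 p a := ha

/-- **the isometry `V_t : L → E_t`, `t ≠ 0`**. -/
theorem exists_VI {t : E3} (ht : t ≠ 0) :
    ∃ V : M → Matrix (Fin 4 × Fin N) (Fin N) ℂ,
      MdlB_489.VI p (PEf (t0 T s tri hin hp t) (SX T s tri hin hp)) V := by
  have hL : LT (wwf (fun i => ((w i).1.1 : F2 E4 M)) e) := lt_wwf tri
  have hsm : ∀ i k, ContMDiff (𝓡 4) 𝓘(ℝ, ℝ) ∞ (wwf (fun i => ((w i).1.1 : F2 E4 M)) e i k) :=
    fun i k => cm_wwf (fun i => ⟨(w i).1.2.1, (w i).1.2.2⟩) tri i k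
  have ht' : (fun i => t i) ≠ 0 := fun h0 => ht (by ext i; exact congrFun h0 i)
  obtain ⟨k0, r, hr, hpos⟩ := VIso_470.exists_sign (ww := wwf (fun i => ((w i).1.1 : F2 E4 M)) e)
    (fun i => (hsm i i).continuous) (fun i z => hL.diag i z) (fun i j z hij => hL.lt i j z hij)
    ht' (rr := (t0 T s tri hin hp t).rr) (fun z => hL.pos ht z)
    (n := (t0 T s tri hin hp t).n) (fun k z => hL.mul_nt ht k z)
  exact (tws T s tri hin hp).exists_VI hp (τ := t0 T s tri hin hp t)
    (fun k => smooth_nt hL hsm ht k) (fun z => hL.norm_nt ht z) k0 (s := -r)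
    (by rw [neg_sq, hr]) fun z => by
      have := hpos z
      rw [neg_mul]
      linarith

variable [IsFiniteMeasureOnCompacts (μHE[4] : Measure M)]

theorem exists_cE {a : Z2 M} (ha : IsChern p a) {t : E3} (ht : t ≠ 0) :
    ∃ c : Z2 M, Ch0 (PEf (t0 T s tri hin hp t) (SX T s tri hin hp)) c ∧ cls c = cls a := by
  obtain ⟨V, hV⟩ := exists_VI T s tri hin hp ht
  have hL : LT (wwf (fun i => ((w i).1.1 : F2 E4 M)) e) := lt_wwf tri
  have hsm : ∀ i k, ContMDiff (𝓡 4) 𝓘(ℝ, ℝ) ∞ (wwf (fun i => ((w i).1.1 : F2 E4 M)) e i k) :=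
    fun i k => cm_wwf (fun i => ⟨(w i).1.2.1, (w i).1.2.2⟩) tri i k
  have hln := ln_PEf (T := T) (cc := (pX s tri hin hp).cc) (ok T s tri hin hp)
    (tg T s tri hin hp) (τ := t0 T s tri hin hp t) (fun k => smooth_nt hL hsm ht k)
    (fun z => hL.norm_nt ht z)
  exact TauIso.iso_chern ⟨hp.smooth, hp.idem, hp.herm, hp.rank⟩ hln ha hV.sm hV.vv hV.vv'

/-- the Chern forms. -/
def cX {a : Z2 M} (ha : IsChern p a) (t : E3) : Z2 M :=
  if ht : t ≠ 0 then (exists_cE T s tri hin hp ha ht).choose else 0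

theorem cX_ch {a : Z2 M} (ha : IsChern p a) {t : E3} (ht : t ≠ 0) :
    Ch0 (PEf (t0 T s tri hin hp t) (SX T s tri hin hp)) (cX T s tri hin hp ha t) := by
  unfold cX
  rw [dif_pos ht]
  exact (exists_cE T s tri hin hp ha ht).choose_spec.1

theorem cX_cls {a : Z2 M} (ha : IsChern p a) {t : E3} (ht : t ≠ 0) :
    cls (cX T s tri hin hp ha t) = cls a := by
  unfold cX
  rw [dif_pos ht]
  exact (exists_cE T s tri hin hp ha ht).choose_spec.2

/-- **451's `Hyp`** for the system of the triple and the line bundle. -/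
theorem hyp {a : Z2 M} (ha : IsChern p a) :
    Hyp (SX T s tri hin hp) T (pX s tri hin hp).cc (pX s tri hin hp).D0.W s.s w e (-1) (-1)
      (wwf (fun i => (w i).1.1) e) (cX T s tri hin hp ha) where
  tg := tg T s tri hin hp
  sym := sym T s tri hin hp
  smc := (pX s tri hin hp).smc
  lt := lt_wwf tri
  smw i k := cm_wwf (fun i => ⟨(w i).1.2.1, (w i).1.2.2⟩) tri i k
  ch _ ht := cX_ch T s tri hin hp ha ht

/-- **THE FAMILY OF TAUBES DATA.** -/
abbrev tX {a : Z2 M} (ha : IsChern p a) (t : E3) : TD M κ :=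
  tauF (SX T s tri hin hp) T (pX s tri hin hp).cc (pX s tri hin hp).D0.W s.s w e (-1)
    (wwf (fun i => (w i).1.1) e) (cX T s tri hin hp ha) t

theorem wt_tX {a : Z2 M} (ha : IsChern p a) {t : E3} (ht : t ≠ 0) :
    WT (tX T s tri hin hp ha t) e (Uu_291.wt w fun i => t i) := by
  intro x
  rw [Uu_291.val_wt]
  have h2 : ∀ k, (tX T s tri hin hp ha t).rr x * (tX T s tri hin hp ha t).n k x =
      ∑ i, t i * wwf (fun i => ((w i).1.1 : F2 E4 M)) e i k x :=
    fun k => (lt_wwf tri).mul_nt ht k x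
  have h3 : ∀ i, val (w i) x = ∑ k, wwf (fun i => ((w i).1.1 : F2 E4 M)) e i k x • at2 (e k) x :=
    fun i => wwf_eq tri i x
  simp only [h2, h3, Finset.smul_sum, Finset.sum_smul, smul_smul]
  rw [Finset.sum_comm]

theorem harm_tX {a : Z2 M} (ha : IsChern p a) {t : E3} (ht : t ≠ 0) (x : κ) (z : M) :
    (SX T s tri hin hp).H.A (Fin.cons (fun _ => 0) fun k z =>
      (tX T s tri hin hp ha t).rr z * (tX T s tri hin hp ha t).n k z) x z = 0 := by
  have h1 := opA_closed hin (RiemD_399.QT.of_tri tri) s (fun b => tri.smooth b)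
    (fun b x u v => tri.e_eq b x u v)
    (f := fun k z => (tX T s tri hin hp ha t).rr z * (tX T s tri hin hp ha t).n k z)
    (fun k => (smoothF_iff _).1 ((smooth_rrt (lt_wwf tri)
      (fun i k => cm_wwf (fun i => ⟨(w i).1.2.1, (w i).1.2.2⟩) tri i k) ht).mul
      (smooth_nt (lt_wwf tri)
      (fun i k => cm_wwf (fun i => ⟨(w i).1.2.1, (w i).1.2.2⟩) tri i k) ht k)))
    (fun y => wt_tX T s tri hin hp ha ht y) (Uu_291.wt w fun i => t i).2 x z
  exact h1

end

end Crest.Agent.R235.MdlXs_399
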