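import Crest.Agent.R235.K3Num_723
import Crest.Agent.R235.IndTW_692
import Crest.Agent.R235.SwsL_755
import Crest.Agent.R235.LTwLd_774

/-!
Row 235 (S0364), packages SW / FAM (helper692): THE NUMBERS of 755's system `SL` of a line bundle whose Chern
form has square zero (MODXG, MODT, MODB; no condition on the type of the manifold).

* `numC`  : twist with curvature `-2π a`, `∫ a ∧ a = 0`: `d0 + b = d1 + 1 + bp`, with `P`, `N`;
* `numsL` : the same for `S = SL T (qs he hin) s (ldOf p hp)`;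
* `numsLq` : general: `d0 + b = d1 + 1 + bp + a·a` (in `ℝ`).
-/

set_option autoImplicit false
set_option maxSynthPendingDepth 3
set_option linter.unusedSectionVars false
set_option linter.unusedVariables false
set_option maxHeartbeats 1000000

open Filter Topology Set Bundle Manifold MeasureTheory
open scoped ContDiff ENNReal NNReal
open Crest.Agent.R240 Crest.Agent.R240.Ch
open Crest.Agent.R249.Tz2_805 Crest.Agent.R249.Tz805 Crest.Agent.R249.Vf281
open Crest.Agent.R249.Tv57 hiding GG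
open Crest.Agent.R235.DichProps_723 Crest.Agent.R235.Ind167
open Crest.Agent.R235.QSTri_451
open Crest.Agent.R235.IndEven_692
open Crest.Agent.R235.SwsL_755 Crest.Agent.R235.LTwLd_774

noncomputable section

namespace Crest.Agent.R235.NumC_692

variable {M : Type} [MetricSpace M] [CompactSpace M] [ConnectedSpace M]
    [ChartedSpace (EuclideanSpace ℝ (Fin 4)) M] [IsManifold (𝓡 4) ∞ M]
    [RiemannianBundle (fun p : M => TangentSpace (𝓡 4) p)]
    [IsContMDiffRiemannianBundle (𝓡 4) ∞ (EuclideanSpace ℝ (Fin 4))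
      (fun p : M => TangentSpace (𝓡 4) p)]
    [IsRiemannianManifold (𝓡 4) M] [MeasurableSpace M] [BorelSpace M]
    [SecondCountableTopology M] [Nonempty M]
  {w : Trip M} {e : Fin 3 → F2 E4 M} (hw : Pos3 w) (he : IndTri_451.IsTri (IndTri_451.und w) e)
  (hin : ∀ (x : M) (u v : TangentSpace 𝓘(ℝ, E4) x), inner ℝ u v = at2 (IndTri_451.gg e) x u v)
  {κ : Type} [Fintype κ] (T : ToF 4 M) (s : PF 4 M κ)

/-- the numbers `bp = b⁺`, `b = b₁` of the Hodge pair and the splitting. -/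
def HNum (w : Trip M) (bp : ℕ) : Prop :=
  ∃ P N : Submodule ℝ (H2 M), FiniteDimensional ℝ (H2 M) ∧ P ⊔ N = ⊤ ∧
    Module.finrank ℝ P = bp ∧
    (∀ x ∈ P, x ≠ 0 → 0 < ip (w 0) x x) ∧ (∀ x ∈ N, x ≠ 0 → ip (w 0) x x < 0) ∧
    (∀ x ∈ P, ∀ y ∈ N, ip (w 0) x y = 0)

variable {κ' κ0 κ1 : Type} [Fintype κ'] [Fintype κ0] [Fintype κ1]
  {P : CPair 4 M κ' κ0 κ1} {d0 d1 : ℕ}
  (K0 : Nonempty (KerD (R249.Wk352.dat0 T P) (R249.Wk352.dpair T P).A d0))
  (K1 : Nonempty (KerD (R249.Wk352.dat0 T (R249.Wk352.swapP P)) (R249.Wk352.dpair T P).B d1))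

include hw K0 K1 in
/-- **the numbers of a twist**: `d0 + b = d1 + 1 + bp + a·a`. -/
theorem numQ {a : Z2 M} (L : LocTw (qs he hin) P ((-(2 * Real.pi)) • (a.1.1 : F2 E4 M))) :
    ∃ (b bp : ℕ),
    Nonempty (KerD (R249.Wk352.dat0 T (pairH (qs he hin) s))
      (R249.Wk352.dpair T (pairH (qs he hin) s)).A (1 + bp)) ∧
    Nonempty (KerD (R249.Wk352.dat0 T (R249.Wk352.swapP (pairH (qs he hin) s)))
      (R249.Wk352.dpair T (pairH (qs he hin) s)).B b) ∧
    HasB1 M b ∧ (d0 : ℝ) + b = d1 + 1 + bp + pI (w 0) a a ∧ HNum w bp := by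
  obtain ⟨c0, c1, k0, k1⟩ := exists_H (q := qs he hin) s T
  obtain ⟨P', N', hb, hf, hs, hp, h1, h2, h3, e1, e2⟩ := K3Num_723.numbers hw he hin T s k0 k1
  have h := num_chern s T K0 K1 k0 k1 (comp_w he hin).cpt (K3Num_723.hq0 he hin) L
  have h6 : c0 = 1 + Module.finrank ℝ P' := by omega
  subst h6
  refine ⟨c1, _, k0, k1, hb, ?_, P', N', hf, hs, rfl, h1, h2, h3⟩
  push_cast at h
  linarith

include hw K0 K1 in
/-- **square zero**: `d0 + b = d1 + 1 + bp`. -/
theorem numC {a : Z2 M} (L : LocTw (qs he hin) P ((-(2 * Real.pi)) • (a.1.1 : F2 E4 M)))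
    (ha : pI (w 0) a a = 0) :
    ∃ (b bp : ℕ),
    Nonempty (KerD (R249.Wk352.dat0 T (pairH (qs he hin) s))
      (R249.Wk352.dpair T (pairH (qs he hin) s)).A (1 + bp)) ∧
    Nonempty (KerD (R249.Wk352.dat0 T (R249.Wk352.swapP (pairH (qs he hin) s)))
      (R249.Wk352.dpair T (pairH (qs he hin) s)).B b) ∧
    HasB1 M b ∧ d0 + b = d1 + 1 + bp ∧ HNum w bp := by
  obtain ⟨b, bp, k0, k1, hb, h, hn⟩ := numQ hw he hin T s K0 K1 L
  refine ⟨b, bp, k0, k1, hb, ?_, hn⟩
  rw [ha, add_zero] at h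
  exact_mod_cast h

include hw in
/-- **the numbers of 755's system**, class of square zero. -/
theorem numsL {N : ℕ} {p : M → Matrix (Fin N) (Fin N) ℂ} {a : Z2 M} (hp : IsLine p)
    (hc : IsChern p a) (ha : pI (w 0) a a = 0) :
    ∃ d0 d1 b bp : ℕ, Nonempty (KerD (SL T (qs he hin) s (ldOf p hp)).D0
        (SL T (qs he hin) s (ldOf p hp)).P.A d0) ∧
      Nonempty (KerD (SL T (qs he hin) s (ldOf p hp)).D1
        (SL T (qs he hin) s (ldOf p hp)).P.B d1) ∧
      Nonempty (KerD (SL T (qs he hin) s (ldOf p hp)).DL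
        (SL T (qs he hin) s (ldOf p hp)).H.A (1 + bp)) ∧
      Nonempty (KerD (SL T (qs he hin) s (ldOf p hp)).DT
        (SL T (qs he hin) s (ldOf p hp)).H.B b) ∧
      HasB1 M b ∧ d0 + b = d1 + 1 + bp ∧ HNum w bp := by
  have L := locTw_twQ (qs he hin) s hp hc (L := ldOf p hp) (fun _ _ => rfl) (fun _ _ => rfl)
  obtain ⟨d0, d1, K0, K1⟩ := exists_tw T L
  obtain ⟨b, bp, k0, k1, hb, h, hn⟩ := numC hw he hin T s K0 K1 L ha
  exact ⟨d0, d1, b, bp, K0, K1, k0, k1, hb, h, hn⟩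

end Crest.Agent.R235.NumC_692
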