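import Mathlib

/-!
# Row 235, REG-END (E1): monodromy of a simple `k`-valued continuous function

A `k`-valued function on a punctured disc which is continuous (up to permutations) and has `k`
distinct values everywhere is a finite union of cyclic covers.  Pure topology.
-/

namespace Crest.Agent.R235.Mono1_659

open Complex Metric Set Filter Topology Function

variable {k : ℕ}

/-- distinct values are uniformly separated -/
theorem exists_sep (c : Fin k → ℂ) (hc : Injective c) :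
    ∃ ε > 0, ∀ i j, i ≠ j → 4 * ε ≤ ‖c i - c j‖ := by
  have h : ∀ᶠ ε : ℝ in 𝓝[>] 0, ∀ i j, i ≠ j → 4 * ε ≤ ‖c i - c j‖ := by
    rw [eventually_all]
    intro i
    rw [eventually_all]
    intro j
    by_cases hij : i = j
    · exact Eventually.of_forall fun ε h => absurd hij h
    · have hpos : 0 < ‖c i - c j‖ := norm_pos_iff.2 (sub_ne_zero.2 fun h => hij (hc h))
      filter_upwards [Ioo_mem_nhdsGT (show (0:ℝ) < ‖c i - c j‖ / 4 by positivity)] with ε hε _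
      linarith [hε.2]
  obtain ⟨ε, h1, h2⟩ := (h.and self_mem_nhdsWithin).exists
  exact ⟨ε, h2, h1⟩

/-- local sheets -/
theorem sheets (s : ℂ → Fin k → ℂ) (B : Set ℂ) (hB : IsOpen B)
    (cont : ∀ z ∈ B, ∀ ε > 0, ∀ᶠ z' in 𝓝 z, ∃ τ : Equiv.Perm (Fin k),
      ∀ i, ‖s z' (τ i) - s z i‖ < ε)
    (inj : ∀ z ∈ B, Injective (s z)) {z0 : ℂ} (hz0 : z0 ∈ B) :
    ∃ U : Set ℂ, IsOpen U ∧ z0 ∈ U ∧ U ⊆ B ∧ ∃ (f : Fin k → ℂ → ℂ) (ε : ℝ),
      0 < ε ∧ (∀ i j, i ≠ j → 4 * ε ≤ ‖s z0 i - s z0 j‖) ∧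
      (∀ i, ContinuousOn (f i) U) ∧
      (∀ z ∈ U, ∃ τ : Equiv.Perm (Fin k), ∀ i, s z (τ i) = f i z) ∧
      (∀ z ∈ U, ∀ i, ‖f i z - s z0 i‖ < ε) := by
  classical
  obtain ⟨ε, hε, hsep⟩ := exists_sep (s z0) (inj z0 hz0)
  obtain ⟨U, hU1, hU2, hU3⟩ := _root_.eventually_nhds_iff.1 ((cont z0 hz0 ε hε).and (hB.mem_nhds hz0))
  have hUB : U ⊆ B := fun z hz => (hU1 z hz).2
  have hτ : ∀ z, ∃ τ : Equiv.Perm (Fin k), z ∈ U → ∀ i, ‖s z (τ i) - s z0 i‖ < ε := by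
    intro z
    by_cases hz : z ∈ U
    · obtain ⟨τ, h⟩ := (hU1 z hz).1
      exact ⟨τ, fun _ => h⟩
    · exact ⟨1, fun h => absurd h hz⟩
  choose τ hτ using hτ
  refine ⟨U, hU2, hU3, hUB, fun i z => s z (τ z i), ε, hε, hsep, ?_,
    fun z hz => ⟨τ z, fun i => rfl⟩, fun z hz i => hτ z hz i⟩
  -- uniqueness of the index
  have huniq : ∀ z ∈ U, ∀ i j, ‖s z j - s z0 i‖ < 2 * ε → τ z i = j := by
    intro z hz i j hj
    obtain ⟨i', rfl⟩ := (τ z).surjective j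
    by_contra hne
    have hii : i ≠ i' := fun h => hne (by rw [h])
    have h1 := hτ z hz i'
    have h2 := hsep i i' hii
    have h3 : ‖s z0 i - s z0 i'‖ ≤ ‖s z (τ z i') - s z0 i‖ + ‖s z (τ z i') - s z0 i'‖ := by
      have : s z0 i - s z0 i' = (s z (τ z i') - s z0 i') - (s z (τ z i') - s z0 i) := by ring
      rw [this]
      linarith [norm_sub_le (s z (τ z i') - s z0 i') (s z (τ z i') - s z0 i)]
    linarith
  intro i z1 hz1
  rw [Metric.continuousWithinAt_iff']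
  intro δ hδ
  have h1 := cont z1 (hUB hz1) (min δ ε) (lt_min hδ hε)
  filter_upwards [mem_nhdsWithin_of_mem_nhds h1, self_mem_nhdsWithin] with z ⟨τ', h2⟩ hz
  have h3 := h2 (τ z1 i)
  have h4 : τ z i = τ' (τ z1 i) := by
    apply huniq z hz
    have h5 := hτ z1 hz1 i
    have h6 : s z (τ' (τ z1 i)) - s z0 i
        = (s z (τ' (τ z1 i)) - s z1 (τ z1 i)) + (s z1 (τ z1 i) - s z0 i) := by ring
    rw [h6]
    have h7 := norm_add_le (s z (τ' (τ z1 i)) - s z1 (τ z1 i)) (s z1 (τ z1 i) - s z0 i)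
    have h8 := lt_of_lt_of_le h3 (min_le_right _ _)
    linarith
  rw [dist_eq_norm]
  change ‖s z (τ z i) - s z1 (τ z1 i)‖ < δ
  rw [h4]
  exact lt_of_lt_of_le h3 (min_le_left _ _)

/-- total space of the multigraph -/
abbrev E (s : ℂ → Fin k → ℂ) (B : Set ℂ) : Type := {q : ℂ × ℂ // q.1 ∈ B ∧ ∃ i, s q.1 i = q.2}

/-- projection -/
def pr (s : ℂ → Fin k → ℂ) (B : Set ℂ) (e : E s B) : ℂ := e.1.1

theorem pr_continuous (s : ℂ → Fin k → ℂ) (B : Set ℂ) : Continuous (pr s B) :=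
  continuous_fst.comp continuous_subtype_val

theorem isCov (s : ℂ → Fin k → ℂ) (B : Set ℂ) (hB : IsOpen B)
    (cont : ∀ z ∈ B, ∀ ε > 0, ∀ᶠ z' in 𝓝 z, ∃ τ : Equiv.Perm (Fin k),
      ∀ i, ‖s z' (τ i) - s z i‖ < ε)
    (inj : ∀ z ∈ B, Injective (s z)) : IsCoveringMapOn (pr s B) B := by
  classical
  intro z0 hz0
  obtain ⟨U, hU, hz0U, hUB, f, ε, hε, hsep, hfc, hfs, hfn⟩ := sheets s B hB cont inj hz0
  refine IsEvenlyCovered.to_isEvenlyCovered_preimage (I := Fin k) ?_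
  -- index
  have hidx : ∀ e : (pr s B) ⁻¹' U, ∃ i, f i e.1.1.1 = e.1.1.2 := by
    rintro ⟨⟨⟨z, y⟩, hz, j, hj⟩, he⟩
    obtain ⟨τ, hτ⟩ := hfs z he
    refine ⟨τ.symm j, ?_⟩
    change f (τ.symm j) z = y
    rw [← hτ, Equiv.apply_symm_apply]
    exact hj
  choose idx hidx using hidx
  have hidx' : ∀ (e : (pr s B) ⁻¹' U) i, ‖e.1.1.2 - s z0 i‖ < 2 * ε → idx e = i := by
    intro e i h
    by_contra hne
    have h1 := hfn e.1.1.1 e.2 (idx e)
    rw [hidx e] at h1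
    have h2 := hsep _ _ hne
    have h3 : ‖s z0 (idx e) - s z0 i‖ ≤ ‖e.1.1.2 - s z0 i‖ + ‖e.1.1.2 - s z0 (idx e)‖ := by
      have : s z0 (idx e) - s z0 i = (e.1.1.2 - s z0 i) - (e.1.1.2 - s z0 (idx e)) := by ring
      rw [this]
      exact norm_sub_le _ _
    linarith
  have hidxn : ∀ (e : (pr s B) ⁻¹' U), ‖e.1.1.2 - s z0 (idx e)‖ < ε := by
    intro e
    have h1 := hfn e.1.1.1 e.2 (idx e)
    rwa [hidx e] at h1
  have hidxc : Continuous idx := by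
    rw [continuous_iff_continuousAt]
    intro e
    have h1 : ContinuousAt (fun e' : (pr s B) ⁻¹' U => ‖e'.1.1.2 - s z0 (idx e)‖) e := by
      fun_prop
    have h2 : ∀ᶠ e' in 𝓝 e, ‖e'.1.1.2 - s z0 (idx e)‖ < 2 * ε :=
      h1.eventually_lt continuousAt_const (by linarith [hidxn e])
    exact (continuousAt_const (y := idx e)).congr
      (h2.mono fun e' he' => (hidx' e' _ he').symm)
  refine ⟨inferInstance, U, hz0U, hU, hU.preimage (pr_continuous s B), ?_⟩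
  have hmem : ∀ (x : U × Fin k), ((x.1 : ℂ), f x.2 x.1) ∈
      {q : ℂ × ℂ | q.1 ∈ B ∧ ∃ i, s q.1 i = q.2} := by
    intro x
    obtain ⟨τ, hτ⟩ := hfs x.1 x.1.2
    exact ⟨hUB x.1.2, τ x.2, hτ x.2⟩
  have hfc' : Continuous fun x : U × Fin k => f x.2 x.1 := by
    rw [continuous_prod_of_discrete_right]
    intro i
    exact (hfc i).domRestrict
  refine ⟨{ toFun := fun e => (⟨e.1.1.1, e.2⟩, idx e)
            invFun := fun x => ⟨⟨((x.1 : ℂ), f x.2 x.1), hmem x⟩, x.1.2⟩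
            left_inv := ?_
            right_inv := ?_
            continuous_toFun := ?_
            continuous_invFun := ?_ }, ?_⟩
  · intro e
    apply Subtype.ext
    apply Subtype.ext
    exact Prod.ext rfl (hidx e)
  · intro x
    refine Prod.ext rfl ?_
    apply hidx'
    have := hfn x.1 x.1.2 x.2
    change ‖f x.2 x.1 - s z0 x.2‖ < 2 * ε
    linarith
  · refine Continuous.prodMk ?_ hidxc
    exact Continuous.subtype_mk (by fun_prop) _
  · refine Continuous.subtype_mk (Continuous.subtype_mk ?_ _) _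
    exact Continuous.prodMk (by fun_prop) hfc'
  · intro e
    rfl

/-- the half plane `Re w < log R` -/
def HP (R : ℝ) : Set ℂ := {w | w.re < Real.log R}

theorem HP_open (R : ℝ) : IsOpen (HP R) := isOpen_lt Complex.continuous_re continuous_const

theorem HP_convex (R : ℝ) : Convex ℝ (HP R) := convex_halfSpace_re_lt _

theorem mem_HP_iff {R : ℝ} (hR : 0 < R) {w : ℂ} : w ∈ HP R ↔ ‖exp w‖ < R := by
  rw [Complex.norm_exp]
  exact Real.lt_log_iff_exp_lt hR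

theorem base_mem (R : ℝ) : ((Real.log R - 1 : ℝ) : ℂ) ∈ HP R := by
  change ((Real.log R - 1 : ℝ) : ℂ).re < Real.log R
  rw [Complex.ofReal_re]
  linarith

theorem pexp_mem {p : ℂ} {R : ℝ} (hR : 0 < R) {w : ℂ} (hw : w ∈ HP R) :
    p + exp w ∈ ball p R \ {p} := by
  refine ⟨?_, ?_⟩
  · rw [mem_ball, dist_eq_norm, add_sub_cancel_left]
    exact (mem_HP_iff hR).1 hw
  · simp [Complex.exp_ne_zero]

/-- existence and uniqueness of lifts -/
theorem lift_exu (s : ℂ → Fin k → ℂ) (p : ℂ) (R : ℝ) (hR : 0 < R)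
    (cont : ∀ z ∈ ball p R \ {p}, ∀ ε > 0, ∀ᶠ z' in 𝓝 z, ∃ τ : Equiv.Perm (Fin k),
      ∀ i, ‖s z' (τ i) - s z i‖ < ε)
    (inj : ∀ z ∈ ball p R \ {p}, Injective (s z)) {w0 : ℂ} (hw0 : w0 ∈ HP R) (i : Fin k) :
    ∃ g : ℂ → ℂ, (ContinuousOn g (HP R) ∧ (∀ w ∈ HP R, ∃ j, s (p + exp w) j = g w) ∧
      g w0 = s (p + exp w0) i) ∧ ∀ g' : ℂ → ℂ, (ContinuousOn g' (HP R) ∧
      (∀ w ∈ HP R, ∃ j, s (p + exp w) j = g' w) ∧ g' w0 = s (p + exp w0) i) →
        EqOn g' g (HP R) := by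
  classical
  have hB : IsOpen (ball p R \ {p}) := isOpen_ball.sdiff isClosed_singleton
  have hcov := isCov s _ hB cont inj
  have : ContractibleSpace (HP R) := (HP_convex R).contractibleSpace ⟨_, base_mem R⟩
  have : LocallyPathConnectedSpace (HP R) := (HP_open R).locallyPathConnectedSpace
  let f : C(HP R, ℂ) := ⟨fun w => p + exp (w : ℂ), by fun_prop⟩
  let e0 : E s (ball p R \ {p}) := ⟨(p + exp w0, s (p + exp w0) i), pexp_mem hR hw0, i, rfl⟩
  obtain ⟨F, ⟨hF1, hF2⟩, hF3⟩ := hcov.existsUnique_continuousMap_lifts f (a₀ := ⟨w0, hw0⟩)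
    (e₀ := e0) rfl (fun a => pexp_mem hR a.2)
  have hFp : ∀ w, (F w).1.1 = p + exp (w : ℂ) := fun w => congrFun hF2 w
  refine ⟨fun w => if h : w ∈ HP R then (F ⟨w, h⟩).1.2 else 0, ⟨?_, ?_, ?_⟩, ?_⟩
  · rw [continuousOn_iff_continuous_domRestrict]
    have h1 : Continuous fun w : HP R => (F w).1.2 :=
      (continuous_snd.comp continuous_subtype_val).comp F.continuous
    refine h1.congr fun w => ?_
    simp [Set.domRestrict_apply]
  · intro w hw
    obtain ⟨h1, j, hj⟩ := (F ⟨w, hw⟩).2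
    rw [hFp] at hj
    refine ⟨j, ?_⟩
    beta_reduce
    rw [dif_pos hw]
    exact hj
  · beta_reduce
    rw [dif_pos hw0, hF1]
  · rintro g' ⟨h1, h2, h3⟩ w hw
    beta_reduce
    rw [dif_pos hw]
    let G : C(HP R, E s (ball p R \ {p})) :=
      ⟨fun w => ⟨(p + exp (w : ℂ), g' w), pexp_mem hR w.2, h2 w w.2⟩, by
        refine Continuous.subtype_mk (Continuous.prodMk (by fun_prop) ?_) _
        exact continuousOn_iff_continuous_domRestrict.1 h1⟩
    have h4 : G = F := by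
      apply hF3
      refine ⟨?_, rfl⟩
      apply Subtype.ext
      exact Prod.ext rfl h3
    rw [← h4]
    rfl

/-- two continuous choices which agree at one point agree -/
theorem lift_unique (s : ℂ → Fin k → ℂ) (p : ℂ) (R : ℝ) (hR : 0 < R)
    (cont : ∀ z ∈ ball p R \ {p}, ∀ ε > 0, ∀ᶠ z' in 𝓝 z, ∃ τ : Equiv.Perm (Fin k),
      ∀ i, ‖s z' (τ i) - s z i‖ < ε)
    (inj : ∀ z ∈ ball p R \ {p}, Injective (s z)) {g g' : ℂ → ℂ}
    (hg : ContinuousOn g (HP R)) (hgs : ∀ w ∈ HP R, ∃ j, s (p + exp w) j = g w)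
    (hg' : ContinuousOn g' (HP R)) (hgs' : ∀ w ∈ HP R, ∃ j, s (p + exp w) j = g' w)
    {w0 : ℂ} (hw0 : w0 ∈ HP R) (h : g w0 = g' w0) : EqOn g g' (HP R) := by
  obtain ⟨i, hi⟩ := hgs w0 hw0
  obtain ⟨G, -, hG⟩ := lift_exu s p R hR cont inj hw0 i
  have h1 := hG g ⟨hg, hgs, hi.symm⟩
  have h2 := hG g' ⟨hg', hgs', by rw [← h, hi]⟩
  exact h1.trans h2.symm

/-- all the lifts -/
theorem lifts (s : ℂ → Fin k → ℂ) (p : ℂ) (R : ℝ) (hR : 0 < R)
    (cont : ∀ z ∈ ball p R \ {p}, ∀ ε > 0, ∀ᶠ z' in 𝓝 z, ∃ τ : Equiv.Perm (Fin k),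
      ∀ i, ‖s z' (τ i) - s z i‖ < ε)
    (inj : ∀ z ∈ ball p R \ {p}, Injective (s z)) :
    ∃ h : Fin k → ℂ → ℂ, (∀ i, ContinuousOn (h i) (HP R)) ∧
      (∀ w ∈ HP R, ∃ τ : Equiv.Perm (Fin k), ∀ i, s (p + exp w) (τ i) = h i w) ∧
      (∀ i j, ∀ w ∈ HP R, h i w = h j w → i = j) ∧
      (∀ g : ℂ → ℂ, ContinuousOn g (HP R) → (∀ w ∈ HP R, ∃ j, s (p + exp w) j = g w) →
        ∃ i, EqOn g (h i) (HP R)) := by
  classical
  have hw0 := base_mem R
  set w0 : ℂ := ((Real.log R - 1 : ℝ) : ℂ) with hw0d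
  choose h h1 h2 using fun i => lift_exu s p R hR cont inj hw0 i
  have hinj : ∀ i j, ∀ w ∈ HP R, h i w = h j w → i = j := by
    intro i j w hw hij
    have h3 := lift_unique s p R hR cont inj (h1 i).1 (h1 i).2.1 (h1 j).1 (h1 j).2.1 hw hij hw0
    rw [(h1 i).2.2, (h1 j).2.2] at h3
    exact inj _ (pexp_mem hR hw0) h3
  refine ⟨h, fun i => (h1 i).1, ?_, hinj, ?_⟩
  · intro w hw
    choose τ hτ using fun i => (h1 i).2.1 w hw
    have hτi : Injective τ := by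
      intro i j hij
      apply hinj i j w hw
      rw [← hτ i, ← hτ j, hij]
    exact ⟨Equiv.ofBijective τ (Finite.injective_iff_bijective.1 hτi), hτ⟩
  · intro g hg hgs
    obtain ⟨i, hi⟩ := hgs w0 hw0
    exact ⟨i, h2 i g ⟨hg, hgs, hi.symm⟩⟩

end Crest.Agent.R235.Mono1_659
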