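import Crest.Agent.R235.KT_604

/-!
# Row 235, KUM-KTW (a), part 1: MONO

Systems of germs (`congr`, `opn`, `uniq`, `sep`, `ext`) have global sections on star-shaped open
sets and on the punctured ball of `E4`.
-/

set_option autoImplicit false

open Set Filter Topology

namespace Crest.Agent.R235.Mono_387

variable {X Y : Type*}

/-- a system of germs over `O`: `Par z f` = "the germ of `f` at `z` belongs to the system";
germs are determined by their value, and extend to a neighbourhood of uniform size. -/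
structure Sys [TopologicalSpace X] (O : Set X) (Par : X → (X → Y) → Prop) : Prop where
  congr : ∀ z f g, Par z f → f =ᶠ[𝓝 z] g → Par z g
  opn : ∀ z f, Par z f → ∀ᶠ y in 𝓝 z, Par y f
  uniq : ∀ z f g, Par z f → Par z g → f z = g z → f =ᶠ[𝓝 z] g
  sep : ∀ z f g, Par z f → Par z g → f z ≠ g z → ∀ᶠ y in 𝓝 z, f y ≠ g y
  ext : ∀ z ∈ O, ∃ U ∈ 𝓝 z, ∀ y ∈ U, ∀ g, Par y g → ∃ f, (∀ x ∈ U, Par x f) ∧ f y = g y

section Top

variable [TopologicalSpace X] {O : Set X} {Par : X → (X → Y) → Prop}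

/-- two sections over a preconnected set which agree at a point agree -/
theorem Sys.eqOn (S : Sys O Par) {s : Set X} (hs : IsPreconnected s) {f g : X → Y}
    (hf : ∀ x ∈ s, Par x f) (hg : ∀ x ∈ s, Par x g) {a : X} (ha : a ∈ s) (h : f a = g a) :
    ∀ x ∈ s, f =ᶠ[𝓝 x] g := by
  have hsub : s ⊆ {x | ∀ᶠ y in 𝓝 x, f y = g y} := by
    refine hs.subset_left_of_subset_union (v := {x | ∀ᶠ y in 𝓝 x, f y ≠ g y})
      isOpen_setOfPred_eventually_nhds isOpen_setOfPred_eventually_nhds ?_ ?_ ?_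
    · rw [Set.disjoint_left]
      intro x h1 h2
      have h3 : ∀ᶠ y in 𝓝 x, f y = g y := h1
      have h4 : ∀ᶠ y in 𝓝 x, f y ≠ g y := h2
      exact h4.self_of_nhds h3.self_of_nhds
    · intro x hx
      by_cases he : f x = g x
      · exact Or.inl (S.uniq x f g (hf x hx) (hg x hx) he)
      · exact Or.inr (S.sep x f g (hf x hx) (hg x hx) he)
    · exact ⟨a, ha, S.uniq a f g (hf a ha) (hg a ha) h⟩
  exact fun x hx => hsub hx

theorem Sys.eqOn' (S : Sys O Par) {s : Set X} (hs : IsPreconnected s) {f g : X → Y}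
    (hf : ∀ x ∈ s, Par x f) (hg : ∀ x ∈ s, Par x g) {a : X} (ha : a ∈ s) (h : f a = g a) :
    ∀ x ∈ s, f x = g x :=
  fun x hx => (S.eqOn hs hf hg ha h x hx).self_of_nhds

/-- gluing of two sections -/
theorem Sys.union (S : Sys O Par) {A B : Set X} (hA : IsOpen A) (hB : IsOpen B)
    (hAB : IsPreconnected (A ∩ B)) {f g : X → Y} (hf : ∀ x ∈ A, Par x f) (hg : ∀ x ∈ B, Par x g)
    {q : X} (hq : q ∈ A ∩ B) (h : f q = g q) :
    ∃ F : X → Y, (∀ x ∈ A ∪ B, Par x F) ∧ (∀ x ∈ A, F x = f x) ∧ ∀ x ∈ B, F x = g x := by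
  classical
  have he := S.eqOn' hAB (fun x hx => hf x hx.1) (fun x hx => hg x hx.2) hq h
  have h1 : ∀ x ∈ A, (if x ∈ A then f x else g x) = f x := fun x hx => if_pos hx
  have h2 : ∀ x ∈ B, (if x ∈ A then f x else g x) = g x := by
    intro x hx
    by_cases hxA : x ∈ A
    · rw [if_pos hxA]; exact he x ⟨hxA, hx⟩
    · rw [if_neg hxA]
  refine ⟨fun x => if x ∈ A then f x else g x, ?_, h1, h2⟩
  rintro x (hx | hx)
  · refine S.congr x f _ (hf x hx) ?_
    filter_upwards [hA.mem_nhds hx] with y hy using (h1 y hy).symm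
  · refine S.congr x g _ (hg x hx) ?_
    filter_upwards [hB.mem_nhds hx] with y hy using (h2 y hy).symm

end Top

section Seg

variable [NormedAddCommGroup X] [InnerProductSpace ℝ X] {O : Set X} {Par : X → (X → Y) → Prop}

/-- continuation along a segment -/
theorem Sys.seg (S : Sys O Par) {a b : X} (hab : segment ℝ a b ⊆ O) {g : X → Y} (hg : Par a g) :
    ∃ f : X → Y, f a = g a ∧ ∀ y ∈ segment ℝ a b, Par y f := by
  classical
  rcases eq_or_ne a b with rfl | hne
  · refine ⟨g, rfl, ?_⟩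
    intro y hy
    rw [segment_same] at hy
    rw [mem_singleton_iff.1 hy]; exact hg
  have hd : 0 < ‖b - a‖ ^ 2 := by
    have : 0 < ‖b - a‖ := norm_pos_iff.2 (sub_ne_zero.2 hne.symm)
    positivity
  let γ : ℝ → X := fun t => a + t • (b - a)
  have hγ : Continuous γ := by fun_prop
  let φ : X → ℝ := fun x => inner ℝ (x - a) (b - a) / ‖b - a‖ ^ 2
  have hφ : Continuous φ := by fun_prop
  have hφγ : ∀ t, φ (γ t) = t := by
    intro t
    simp only [φ, γ, add_sub_cancel_left, real_inner_smul_left, real_inner_self_eq_norm_sq]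
    exact mul_div_cancel_right₀ t hd.ne'
  have hγO : ∀ t ∈ Icc (0 : ℝ) 1, γ t ∈ O := by
    intro t ht
    refine hab ?_
    rw [segment_eq_image']
    exact ⟨t, ht, rfl⟩
  let A : ℝ → Prop := fun t => ∃ f : X → Y, f a = g a ∧ ∀ s ∈ Icc 0 t, Par (γ s) f
  have hγ0 : γ 0 = a := by simp [γ]
  have step : ∀ (t₁ t₂ : ℝ) (U : Set X), 0 ≤ t₁ → (∀ s ∈ uIcc t₁ t₂, γ s ∈ U) →
      (∀ y ∈ U, ∀ g, Par y g → ∃ f, (∀ x ∈ U, Par x f) ∧ f y = g y) → A t₁ → A t₂ := by
    intro t₁ t₂ U h0 hU hext ⟨f, hfa, hf⟩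
    rcases le_or_gt t₂ t₁ with hle | hlt
    · exact ⟨f, hfa, fun s hs => hf s ⟨hs.1, hs.2.trans hle⟩⟩
    · rw [uIcc_of_le hlt.le] at hU
      obtain ⟨f', hf', he⟩ := hext (γ t₁) (hU t₁ ⟨le_rfl, hlt.le⟩) f (hf t₁ ⟨h0, le_rfl⟩)
      have hγ1 : φ (γ t₁) = t₁ := hφγ t₁
      have hmid : f =ᶠ[𝓝 (γ t₁)] f' :=
        S.uniq _ _ _ (hf t₁ ⟨h0, le_rfl⟩) (hf' _ (hU t₁ ⟨le_rfl, hlt.le⟩)) he.symm
      refine ⟨fun x => if φ x < t₁ then f x else f' x, ?_, ?_⟩
      · by_cases h : φ a < t₁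
        · simp only [if_pos h]; exact hfa
        · simp only [if_neg h]
          have h1 : t₁ = 0 := by
            have h2 : φ a = 0 := by rw [← hγ0, hφγ]
            rw [h2] at h
            linarith [not_lt.1 h]
          have h3 : γ t₁ = a := by rw [h1, hγ0]
          rw [h3] at he
          rw [he, hfa]
      · intro s hs
        rcases lt_trichotomy s t₁ with h | h | h
        · refine S.congr _ f _ (hf s ⟨hs.1, h.le⟩) ?_
          have : ∀ᶠ x in 𝓝 (γ s), φ x < t₁ :=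
            hφ.continuousAt.eventually_lt continuousAt_const (by rw [hφγ]; exact h)
          filter_upwards [this] with x hx
          simp only [if_pos hx]
        · subst h
          refine S.congr _ f _ (hf s ⟨h0, le_rfl⟩) ?_
          filter_upwards [hmid] with x hx
          split_ifs
          · rfl
          · exact hx
        · refine S.congr _ f' _ (hf' _ (hU s ⟨h.le, hs.2⟩)) ?_
          have : ∀ᶠ x in 𝓝 (γ s), t₁ < φ x :=
            continuousAt_const.eventually_lt hφ.continuousAt (by rw [hφγ]; exact h)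
          filter_upwards [this] with x hx
          simp only [if_neg (not_lt.2 hx.le)]
  have key : ∀ s t : Icc (0 : ℝ) 1, (A s → A t) := by
    intro s t
    refine PreconnectedSpace.induction₂' (fun s t : Icc (0 : ℝ) 1 => (A s → A t)) ?_
      ⟨fun _ _ _ h1 h2 h => h2 (h1 h)⟩ s t
    intro s
    obtain ⟨U, hU, hext⟩ := S.ext (γ s) (hγO s s.2)
    have h1 : γ ⁻¹' U ∈ 𝓝 (s : ℝ) := hγ.continuousAt hU
    obtain ⟨ε, hε, hball⟩ := Metric.mem_nhds_iff.1 h1
    have h2 : ∀ᶠ t : Icc (0 : ℝ) 1 in 𝓝 s, (t : ℝ) ∈ Metric.ball (s : ℝ) ε :=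
      (continuous_subtype_val.continuousAt).preimage_mem_nhds (Metric.ball_mem_nhds _ hε)
    filter_upwards [h2] with t ht
    have hs : (s : ℝ) ∈ Metric.ball (s : ℝ) ε := Metric.mem_ball_self hε
    have hconv := (convex_ball (s : ℝ) ε).ordConnected
    constructor
    · exact step s t U s.2.1 (fun r hr => hball (hconv.uIcc_subset hs ht hr)) hext
    · exact step t s U t.2.1 (fun r hr => hball (hconv.uIcc_subset ht hs hr)) hext
  have hA0 : A 0 := by
    refine ⟨g, rfl, fun s hs => ?_⟩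
    have : s = 0 := le_antisymm hs.2 hs.1
    rw [this, hγ0]; exact hg
  obtain ⟨f, hfa, hf⟩ := key ⟨0, by simp⟩ ⟨1, by simp⟩ hA0
  refine ⟨f, hfa, fun y hy => ?_⟩
  rw [segment_eq_image'] at hy
  obtain ⟨t, ht, rfl⟩ := hy
  exact hf t ht

/-- global section on a star-shaped open set -/
theorem Sys.star (S : Sys O Par) (hO : IsOpen O) {a : X} (ha : a ∈ O)
    (hst : ∀ x ∈ O, segment ℝ a x ⊆ O) {g : X → Y} (hg : Par a g) :
    ∃ F : X → Y, F a = g a ∧ ∀ x ∈ O, Par x F := by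
  classical
  choose f hfa hf using fun (x : X) (hx : x ∈ O) => S.seg (hst x hx) hg
  refine ⟨fun x => if h : x ∈ O then f x h x else g x, ?_, ?_⟩
  · simp only [dif_pos ha, hfa]
  · intro x hx
    refine S.congr x (f x hx) _ (hf x hx x (right_mem_segment ℝ a x)) ?_
    have h1 : ∀ᶠ y in 𝓝 x, ∀ t ∈ Icc (0 : ℝ) 1, Par (a + t • (y - a)) (f x hx) := by
      refine isCompact_Icc.eventually_forall_of_forall_eventually ?_
      intro t ht
      have hc : Continuous (fun p : X × ℝ => a + p.2 • (p.1 - a)) := by fun_prop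
      have h2 : Par (a + t • (x - a)) (f x hx) := by
        refine hf x hx _ ?_
        rw [segment_eq_image']
        exact ⟨t, ht, rfl⟩
      exact hc.continuousAt.eventually (S.opn _ _ h2)
    filter_upwards [h1, hO.mem_nhds hx] with y hy hyO
    simp only [dif_pos hyO]
    have hpre : IsPreconnected (segment ℝ a y) := (convex_segment a y).isPreconnected
    refine S.eqOn' hpre (fun z hz => ?_) (hf y hyO) (left_mem_segment ℝ a y)
      ((hfa x hx).trans (hfa y hyO).symm) y (right_mem_segment ℝ a y)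
    rw [segment_eq_image'] at hz
    obtain ⟨t, ht, rfl⟩ := hz
    exact hy t ht

/-- global section with a prescribed germ at any point -/
theorem Sys.star' (S : Sys O Par) (hO : IsOpen O) {a b : X} (ha : a ∈ O) (hb : b ∈ O)
    (hst : ∀ x ∈ O, segment ℝ a x ⊆ O) {g : X → Y} (hg : Par b g) :
    ∃ F : X → Y, F b = g b ∧ ∀ x ∈ O, Par x F := by
  have h1 : segment ℝ b a ⊆ O := by rw [segment_symm]; exact hst b hb
  obtain ⟨f, hfb, hf⟩ := S.seg h1 hg
  obtain ⟨F, hFa, hF⟩ := S.star hO ha hst (hf a (right_mem_segment ℝ b a))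
  refine ⟨F, ?_, hF⟩
  rw [← hfb]
  exact S.eqOn' (convex_segment b a).isPreconnected (fun z hz => hF z (h1 hz)) hf
    (right_mem_segment ℝ b a) hFa b (left_mem_segment ℝ b a)

omit [InnerProductSpace ℝ X] in
theorem Sys.mono {O O' : Set X} {Par : X → (X → Y) → Prop} (S : Sys O Par) (h : O' ⊆ O) :
    Sys O' Par := ⟨S.congr, S.opn, S.uniq, S.sep, fun z hz => S.ext z (h hz)⟩

end Seg

section Ball

open Crest.Agent.R240 Crest.Agent.R235.KT_604

/-- half balls -/
def hp (r : ℝ) (i : Fin 4) : Set E4 := {z | ‖z‖ < r ∧ 0 < z i}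
def hm (r : ℝ) (i : Fin 4) : Set E4 := {z | ‖z‖ < r ∧ z i < 0}

theorem convex_hp (r : ℝ) (i : Fin 4) : Convex ℝ (hp r i) := by
  have h1 : Convex ℝ {z : E4 | ‖z‖ < r} := by
    rw [← ball_zero_eq]; exact convex_ball (0 : E4) r
  have h2 : Convex ℝ {z : E4 | 0 < z i} := by
    intro x hx y hy a b ha hb hab
    simp only [mem_ofPred_eq, PiLp.add_apply, PiLp.smul_apply, smul_eq_mul] at *
    rcases ha.eq_or_lt with rfl | ha'
    · have : b = 1 := by linarith
      subst this; simpa using hy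
    · have := mul_pos ha' hx
      have := mul_nonneg hb hy.le
      linarith
  exact h1.inter h2

theorem convex_hm (r : ℝ) (i : Fin 4) : Convex ℝ (hm r i) := by
  have h1 : Convex ℝ {z : E4 | ‖z‖ < r} := by
    rw [← ball_zero_eq]; exact convex_ball (0 : E4) r
  have h2 : Convex ℝ {z : E4 | z i < 0} := by
    intro x hx y hy a b ha hb hab
    simp only [mem_ofPred_eq, PiLp.add_apply, PiLp.smul_apply, smul_eq_mul] at *
    rcases ha.eq_or_lt with rfl | ha'
    · have : b = 1 := by linarith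
      subst this; simpa using hy
    · have := mul_neg_of_pos_of_neg ha' hx
      have := mul_nonpos_of_nonneg_of_nonpos hb hy.le
      linarith
  exact h1.inter h2

/-- a point with two prescribed small coordinates -/
noncomputable def pt (i j : Fin 4) (s t : ℝ) : E4 :=
  s • EuclideanSpace.single i (1 : ℝ) + t • EuclideanSpace.single j (1 : ℝ)

theorem norm_pt {r : ℝ} (hr : 0 < r) (i j : Fin 4) {s t : ℝ} (hs : |s| ≤ r / 4)
    (ht : |t| ≤ r / 4) : ‖pt i j s t‖ < r := by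
  unfold pt
  refine (norm_add_le _ _).trans_lt ?_
  rw [norm_smul, norm_smul]
  simp only [PiLp.norm_single, norm_one, mul_one, Real.norm_eq_abs]
  linarith

theorem pt_left {i j : Fin 4} (h : i ≠ j) (s t : ℝ) : pt i j s t i = s := by
  simp [pt, h]

theorem pt_right {i j : Fin 4} (h : i ≠ j) (s t : ℝ) : pt i j s t j = t := by
  simp [pt, h.symm]

/-- the union of the `2 |s|` half balls is connected -/
def cyl (r : ℝ) (s : Finset (Fin 4)) : Set E4 := {z | ‖z‖ < r ∧ ∃ i ∈ s, z i ≠ 0}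

theorem cyl_eq (r : ℝ) (s : Finset (Fin 4)) : cyl r s = ⋃ i ∈ s, (hp r i ∪ hm r i) := by
  ext z
  simp only [cyl, mem_ofPred_eq, mem_iUnion, mem_union, hp, hm, exists_prop]
  constructor
  · rintro ⟨h, i, hi, hz⟩
    refine ⟨i, hi, ?_⟩
    rcases lt_or_gt_of_ne hz with h' | h'
    · exact Or.inr ⟨h, h'⟩
    · exact Or.inl ⟨h, h'⟩
  · rintro ⟨i, hi, (⟨h, h'⟩ | ⟨h, h'⟩)⟩
    · exact ⟨h, i, hi, h'.ne'⟩
    · exact ⟨h, i, hi, h'.ne⟩

theorem pre_pair {r : ℝ} (hr : 0 < r) {i j : Fin 4} (h : i ≠ j) :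
    IsPreconnected (hp r i ∪ hm r i ∪ (hp r j ∪ hm r j)) := by
  have m : ∀ (s t : ℝ), |s| ≤ r / 4 → |t| ≤ r / 4 → ‖pt i j s t‖ < r :=
    fun s t hs ht => norm_pt hr i j hs ht
  have a1 : |r / 4| ≤ r / 4 := by rw [abs_of_pos (by positivity)]
  have a2 : |-(r / 4)| ≤ r / 4 := by rw [abs_neg, abs_of_pos (by positivity)]
  have c1 : IsPreconnected (hp r i ∪ hp r j) :=
    IsPreconnected.union (pt i j (r / 4) (r / 4))
      ⟨m _ _ a1 a1, by rw [pt_left h]; positivity⟩
      ⟨m _ _ a1 a1, by rw [pt_right h]; positivity⟩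
      (convex_hp r i).isPreconnected (convex_hp r j).isPreconnected
  have c2 : IsPreconnected (hp r i ∪ hp r j ∪ hm r i) :=
    IsPreconnected.union (pt i j (-(r / 4)) (r / 4))
      (Or.inr ⟨m _ _ a2 a1, by rw [pt_right h]; positivity⟩)
      ⟨m _ _ a2 a1, by rw [pt_left h]; linarith⟩
      c1 (convex_hm r i).isPreconnected
  have c3 : IsPreconnected (hp r i ∪ hp r j ∪ hm r i ∪ hm r j) :=
    IsPreconnected.union (pt i j (r / 4) (-(r / 4)))
      (Or.inl (Or.inl ⟨m _ _ a1 a2, by rw [pt_left h]; positivity⟩))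
      ⟨m _ _ a1 a2, by rw [pt_right h]; linarith⟩
      c2 (convex_hm r j).isPreconnected
  convert c3 using 1
  ext z
  simp only [mem_union]
  tauto

/-- `ball` minus a coordinate subspace of codimension `≥ 2` is preconnected -/
theorem pre_cyl {r : ℝ} (hr : 0 < r) {s : Finset (Fin 4)} (hs : 2 ≤ s.card) :
    IsPreconnected (cyl r s) := by
  rw [cyl_eq]
  obtain ⟨i₀, hi₀, j₀, hj₀, hij⟩ := Finset.one_lt_card.1 (show 1 < s.card by omega)
  have hp0 : ∀ i ∈ s, (pt i₀ j₀ (r / 4) (r / 4)) ∈ (⋃ i ∈ s, (hp r i ∪ hm r i)) := by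
    intro i _
    refine mem_biUnion hi₀ (Or.inl ⟨norm_pt hr _ _ ?_ ?_, ?_⟩)
    · rw [abs_of_pos (by positivity)]
    · rw [abs_of_pos (by positivity)]
    · rw [pt_left hij]; positivity
  refine isPreconnected_of_forall (pt i₀ j₀ (r / 4) (r / 4)) ?_
  intro z hz
  simp only [mem_iUnion] at hz
  obtain ⟨i, hi, hz⟩ := hz
  by_cases h : i = i₀
  · subst h
    refine ⟨_, ?_, ?_, ?_, pre_pair hr hij⟩
    · exact union_subset (subset_biUnion_of_mem (u := fun i => hp r i ∪ hm r i) hi₀)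
        (subset_biUnion_of_mem (u := fun i => hp r i ∪ hm r i) hj₀)
    · refine Or.inl (Or.inl ⟨norm_pt hr _ _ ?_ ?_, ?_⟩)
      · rw [abs_of_pos (by positivity)]
      · rw [abs_of_pos (by positivity)]
      · rw [pt_left hij]; positivity
    · exact Or.inl hz
  · refine ⟨_, ?_, ?_, ?_, pre_pair hr (Ne.symm h)⟩
    · exact union_subset (subset_biUnion_of_mem (u := fun i => hp r i ∪ hm r i) hi₀)
        (subset_biUnion_of_mem (u := fun i => hp r i ∪ hm r i) hi)
    · refine Or.inl (Or.inl ⟨norm_pt hr _ _ ?_ ?_, ?_⟩)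
      · rw [abs_of_pos (by positivity)]
      · rw [abs_of_pos (by positivity)]
      · rw [pt_left hij]; positivity
    · exact Or.inr hz

theorem PB_eq_cyl (r : ℝ) : PB r = cyl r Finset.univ := by
  ext z
  simp only [PB, cyl, mem_ofPred_eq, Finset.mem_univ, true_and]
  constructor
  · rintro ⟨h1, h2⟩
    refine ⟨h2, ?_⟩
    by_contra h
    push Not at h
    exact h1 (by ext i; simpa using h i)
  · rintro ⟨h1, i, hi⟩
    refine ⟨?_, h1⟩
    rintro rfl
    simp at hi

theorem isOpen_PB (r : ℝ) : IsOpen (PB r) := by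
  have : PB r = {z : E4 | z ≠ 0} ∩ {z : E4 | ‖z‖ < r} := by ext z; simp [PB]
  rw [this]
  exact isOpen_ne.inter (isOpen_lt continuous_norm continuous_const)

theorem isPreconnected_PB {r : ℝ} (hr : 0 < r) : IsPreconnected (PB r) := by
  rw [PB_eq_cyl]
  exact pre_cyl hr (by decide)

/-- slit balls: `σ = 1`: minus the half line `z 0 ≤ 0`; `σ = -1`: minus `z 0 ≥ 0` -/
def slit (r σ : ℝ) : Set E4 := {z | ‖z‖ < r ∧ ((∃ i ∈ ({1, 2, 3} : Finset (Fin 4)), z i ≠ 0) ∨
  0 < σ * z 0)}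

theorem isOpen_slit (r σ : ℝ) : IsOpen (slit r σ) := by
  have : slit r σ = {z : E4 | ‖z‖ < r} ∩ ((⋃ i ∈ ({1, 2, 3} : Finset (Fin 4)),
      {z : E4 | z i ≠ 0}) ∪ {z : E4 | 0 < σ * z 0}) := by
    ext z; simp [slit]
  rw [this]
  refine (isOpen_lt continuous_norm continuous_const).inter (IsOpen.union ?_ ?_)
  · refine isOpen_biUnion fun i _ => ?_
    exact isOpen_ne_fun (by fun_prop) continuous_const
  · exact isOpen_lt continuous_const (by fun_prop)

theorem slit_union (r : ℝ) : slit r 1 ∪ slit r (-1) = PB r := by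
  rw [PB_eq_cyl]
  ext z
  simp only [mem_union, slit, cyl, mem_ofPred_eq, Finset.mem_univ, true_and, one_mul, neg_mul,
    Left.neg_pos_iff]
  constructor
  · rintro (⟨h, (⟨i, _, hi⟩ | hz)⟩ | ⟨h, (⟨i, _, hi⟩ | hz)⟩)
    · exact ⟨h, i, hi⟩
    · exact ⟨h, 0, hz.ne'⟩
    · exact ⟨h, i, hi⟩
    · exact ⟨h, 0, hz.ne⟩
  · rintro ⟨h, i, hi⟩
    by_cases h0 : i = 0
    · subst h0
      rcases lt_or_gt_of_ne hi with h' | h'
      · exact Or.inr ⟨h, Or.inr h'⟩
      · exact Or.inl ⟨h, Or.inr h'⟩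
    · refine Or.inl ⟨h, Or.inl ⟨i, ?_, hi⟩⟩
      fin_cases i <;> simp_all

theorem slit_inter (r : ℝ) : slit r 1 ∩ slit r (-1) = cyl r {1, 2, 3} := by
  ext z
  simp only [mem_inter_iff, slit, cyl, mem_ofPred_eq, one_mul, neg_mul, Left.neg_pos_iff]
  constructor
  · rintro ⟨⟨h, (h1 | h1)⟩, ⟨_, (h2 | h2)⟩⟩
    · exact ⟨h, h1⟩
    · exact ⟨h, h1⟩
    · exact ⟨h, h2⟩
    · exact absurd h1 (not_lt.2 h2.le)
  · rintro ⟨h, h1⟩
    exact ⟨⟨h, Or.inl h1⟩, ⟨h, Or.inl h1⟩⟩

theorem slit_center {r : ℝ} (hr : 0 < r) {σ : ℝ} (hσ : σ ^ 2 = 1) :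
    (σ * (r / 2)) • EuclideanSpace.single 0 (1 : ℝ) ∈ slit r σ := by
  have h1 : |σ| = 1 := by
    rcases mul_self_eq_one_iff.1 ((pow_two σ).symm.trans hσ) with h | h <;> simp [h]
  refine ⟨?_, Or.inr ?_⟩
  · rw [norm_smul]
    simp only [PiLp.norm_single, norm_one, mul_one, Real.norm_eq_abs, abs_mul, h1,
      one_mul, abs_of_pos (half_pos hr)]
    linarith
  · simp only [PiLp.smul_apply, PiLp.single_apply, if_true, smul_eq_mul, mul_one]
    have : σ * (σ * (r / 2)) = σ ^ 2 * (r / 2) := by ring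
    rw [this, hσ]; linarith

theorem slit_star {r : ℝ} (hr : 0 < r) {σ : ℝ} (hσ : σ ^ 2 = 1) {z : E4} (hz : z ∈ slit r σ) :
    segment ℝ ((σ * (r / 2)) • EuclideanSpace.single 0 (1 : ℝ)) z ⊆ slit r σ := by
  rintro w ⟨a, b, ha, hb, hab, rfl⟩
  have h0 := slit_center hr hσ
  have hball : Convex ℝ {z : E4 | ‖z‖ < r} := by
    rw [← ball_zero_eq]; exact convex_ball (0 : E4) r
  refine ⟨hball h0.1 hz.1 ha hb hab, ?_⟩
  rcases hb.eq_or_lt with rfl | hb'
  · have : a = 1 := by linarith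
    subst this
    simpa using h0.2
  · rcases hz.2 with ⟨i, hi, hzi⟩ | hz0
    · left
      refine ⟨i, hi, ?_⟩
      have h0i : (EuclideanSpace.single 0 (1 : ℝ) : E4) i = 0 := by
        simp only [Finset.mem_insert, Finset.mem_singleton] at hi
        rcases hi with rfl | rfl | rfl <;> simp
      simp only [PiLp.add_apply, PiLp.smul_apply, smul_eq_mul, h0i, mul_zero, zero_add]
      exact mul_ne_zero hb'.ne' hzi
    · right
      simp only [PiLp.add_apply, PiLp.smul_apply, PiLp.single_apply, if_true,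
        smul_eq_mul, mul_one]
      have e : σ * (a * (σ * (r / 2)) + b * z 0) = a * (σ ^ 2 * (r / 2)) + b * (σ * z 0) := by ring
      rw [e, hσ]
      have := mul_nonneg ha (by linarith : (0 : ℝ) ≤ 1 * (r / 2))
      have := mul_pos hb' hz0
      linarith

/-- **MONO**: a system of germs on the punctured ball has a global section through every germ. -/
theorem Sys.punctured {Par : E4 → (E4 → Y) → Prop} {r : ℝ} (hr : 0 < r) (S : Sys (PB r) Par)
    {q : E4} (hq : q ∈ PB r) {g : E4 → Y} (hg : Par q g) :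
    ∃ F : E4 → Y, F q = g q ∧ ∀ z ∈ PB r, Par z F := by
  have h1 : slit r 1 ⊆ PB r := by rw [← slit_union]; exact subset_union_left
  have h2 : slit r (-1) ⊆ PB r := by rw [← slit_union]; exact subset_union_right
  have key : ∀ σ : ℝ, σ ^ 2 = 1 → slit r σ ⊆ PB r → ∀ (p : E4) (f : E4 → Y), p ∈ slit r σ →
      Par p f → ∃ F : E4 → Y, F p = f p ∧ ∀ z ∈ slit r σ, Par z F := by
    intro σ hσ hsub p f hp hf
    exact (S.mono hsub).star' (isOpen_slit r σ) (slit_center hr hσ) hp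
      (fun x hx => slit_star hr hσ hx) hf
  have hmid : pt 1 2 (r / 4) (r / 4) ∈ slit r 1 ∩ slit r (-1) := by
    rw [slit_inter]
    refine ⟨norm_pt hr _ _ ?_ ?_, 1, by simp, ?_⟩
    · rw [abs_of_pos (by positivity)]
    · rw [abs_of_pos (by positivity)]
    · rw [pt_left (by decide)]; positivity
  have hpre : IsPreconnected (slit r 1 ∩ slit r (-1)) := by
    rw [slit_inter]; exact pre_cyl hr (by decide)
  rw [← slit_union] at hq
  rcases hq with hq | hq
  · obtain ⟨F₁, e₁, hF₁⟩ := key 1 (by norm_num) h1 q g hq hg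
    obtain ⟨F₂, e₂, hF₂⟩ := key (-1) (by norm_num) h2 _ F₁ hmid.2 (hF₁ _ hmid.1)
    obtain ⟨F, hF, hFA, _⟩ := S.union (isOpen_slit r 1) (isOpen_slit r (-1)) hpre hF₁ hF₂ hmid
      e₂.symm
    refine ⟨F, (hFA q hq).trans e₁, ?_⟩
    rw [← slit_union]; exact hF
  · obtain ⟨F₂, e₂, hF₂⟩ := key (-1) (by norm_num) h2 q g hq hg
    obtain ⟨F₁, e₁, hF₁⟩ := key 1 (by norm_num) h1 _ F₂ hmid.1 (hF₂ _ hmid.2)
    obtain ⟨F, hF, _, hFB⟩ := S.union (isOpen_slit r 1) (isOpen_slit r (-1)) hpre hF₁ hF₂ hmid e₁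
    refine ⟨F, (hFB q hq).trans e₂, ?_⟩
    rw [← slit_union]; exact hF

end Ball

end Crest.Agent.R235.Mono_387
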