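import Mathlib

/-!
Row 235 (S0364), helper844, package MOVE: the abstract class-moving argument.

`X` = closed two-forms, `P` = positive triples, `cl : X → H` = de Rham class, `B` = intersection
form, `R` = roots (classes of square `-2`; empty if `b₁ = 4`), `Hy` = hyperkaehler triples.
-/

set_option autoImplicit false

open Set Function

namespace Crest.Agent.R235.Mv

section Basic

variable {X : Type*} [AddCommGroup X] [Module ℝ X]

/-- affine interpolation of triples. -/
def lin (w w' : Fin 3 → X) (t : ℝ) : Fin 3 → X := fun i => (1 - t) • w i + t • w' i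

/-- interpolation with three different parameters. -/
def mix (w w' : Fin 3 → X) (a : Fin 3 → ℝ) : Fin 3 → X := fun i => (1 - a i) • w i + a i • w' i

/-- action of matrices on triples. -/
def act (g : Matrix (Fin 3) (Fin 3) ℝ) (c : Fin 3 → X) : Fin 3 → X := fun i => ∑ j, g i j • c j

/-- the segment from `w` to `w'` lies in `P`. -/
def Seg (P : Set (Fin 3 → X)) (w w' : Fin 3 → X) : Prop := ∀ t ∈ Icc (0 : ℝ) 1, lin w w' t ∈ P

/-- the forms on the same side as `w k` (= forms which tame the almost complex structure of the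
other two). -/
def Tm (P : Set (Fin 3 → X)) (w : Fin 3 → X) (k : Fin 3) : Set X :=
  {x | Seg P w (update w k x)}

@[simp] theorem lin_zero (w w' : Fin 3 → X) : lin w w' 0 = w := by
  funext i; simp [lin]

@[simp] theorem lin_one (w w' : Fin 3 → X) : lin w w' 1 = w' := by
  funext i; simp [lin]

theorem lin_self (w : Fin 3 → X) (t : ℝ) : lin w w t = w := by
  funext i
  rw [lin, ← add_smul]
  simp

theorem lin_update (w : Fin 3 → X) (k : Fin 3) (x y : X) (t : ℝ) :
    lin (update w k x) (update w k y) t = update w k ((1 - t) • x + t • y) := by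
  funext i
  by_cases h : i = k
  · subst h; simp [lin]
  · simp only [lin, update_of_ne h]
    rw [← add_smul]; simp

theorem lin_update' (w : Fin 3 → X) (k : Fin 3) (y : X) (t : ℝ) :
    lin w (update w k y) t = update w k ((1 - t) • w k + t • y) := by
  conv_lhs => rw [← update_eq_self k w]
  rw [update_idem, lin_update]

theorem lin_update_both (w w' : Fin 3 → X) (k : Fin 3) (x : X) (t : ℝ) :
    lin (update w k x) (update w' k x) t = update (lin w w' t) k x := by
  funext i
  by_cases h : i = k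
  · subst h
    simp only [lin, update_self]
    rw [← add_smul]; simp
  · simp [lin, update_of_ne h]

theorem lin_lin (w w' : Fin 3 → X) (a b t : ℝ) :
    lin (lin w w' a) (lin w w' b) t = lin w w' ((1 - t) * a + t * b) := by
  funext i
  simp only [lin]
  module

theorem mix_const (w w' : Fin 3 → X) (t : ℝ) : mix w w' (fun _ => t) = lin w w' t := rfl

theorem mix_update (w w' : Fin 3 → X) (a : Fin 3 → ℝ) (k : Fin 3) (s : ℝ) :
    mix w w' (update a k s) = update (mix w w' a) k ((1 - s) • w k + s • w' k) := by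
  funext i
  by_cases h : i = k
  · subst h; simp [mix]
  · simp [mix, update_of_ne h]

theorem Seg.left {P : Set (Fin 3 → X)} {w w' : Fin 3 → X} (h : Seg P w w') : w ∈ P := by
  have := h 0 (by simp)
  simpa using this

theorem Seg.right {P : Set (Fin 3 → X)} {w w' : Fin 3 → X} (h : Seg P w w') : w' ∈ P := by
  have := h 1 (by simp)
  simpa using this

theorem Seg.symm {P : Set (Fin 3 → X)} {w w' : Fin 3 → X} (h : Seg P w w') : Seg P w' w := by
  intro t ht
  have h1 := h (1 - t) ⟨by linarith [ht.2], by linarith [ht.1]⟩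
  have h2 : lin w' w t = lin w w' (1 - t) := by
    funext i; simp only [lin]; module
  rw [h2]; exact h1

theorem Seg.refl {P : Set (Fin 3 → X)} {w : Fin 3 → X} (h : w ∈ P) : Seg P w w := fun t _ => by
  rw [lin_self]; exact h

theorem Seg.sub {P : Set (Fin 3 → X)} {w w' : Fin 3 → X} (h : Seg P w w') {a b : ℝ}
    (ha : a ∈ Icc (0 : ℝ) 1) (hb : b ∈ Icc (0 : ℝ) 1) : Seg P (lin w w' a) (lin w w' b) := by
  intro t ht
  rw [lin_lin]
  refine h _ ⟨?_, ?_⟩
  · have := mul_nonneg (by linarith [ht.2] : (0 : ℝ) ≤ 1 - t) ha.1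
    have := mul_nonneg ht.1 hb.1
    linarith
  · have h1 := mul_le_mul_of_nonneg_left ha.2 (by linarith [ht.2] : (0 : ℝ) ≤ 1 - t)
    have h2 := mul_le_mul_of_nonneg_left hb.2 ht.1
    linarith

theorem act_one (c : Fin 3 → X) : act 1 c = c := by
  funext i
  simp [act, Matrix.one_apply]

theorem act_mul (g h : Matrix (Fin 3) (Fin 3) ℝ) (c : Fin 3 → X) :
    act (g * h) c = act g (act h c) := by
  funext i
  simp only [act, Matrix.mul_apply, Finset.sum_smul, Finset.smul_sum]
  rw [Finset.sum_comm]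
  refine Finset.sum_congr rfl fun j _ => Finset.sum_congr rfl fun k _ => ?_
  rw [smul_smul]

theorem act_lin (g : Matrix (Fin 3) (Fin 3) ℝ) (c c' : Fin 3 → X) (t : ℝ) :
    act g (lin c c' t) = lin (act g c) (act g c') t := by
  funext i
  simp only [act, lin, smul_add, Finset.sum_add_distrib, Finset.smul_sum]
  congr 1 <;> exact Finset.sum_congr rfl fun j _ => smul_comm _ _ _

theorem sum_act (g : Matrix (Fin 3) (Fin 3) ℝ) (c : Fin 3 → X) (a : Fin 3 → ℝ) :
    ∑ i, a i • act g c i = ∑ j, (Matrix.vecMul a g) j • c j := by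
  simp only [act, Matrix.vecMul, dotProduct, Finset.sum_smul, Finset.smul_sum, smul_smul]
  rw [Finset.sum_comm]

theorem self_mem_Tm {P : Set (Fin 3 → X)} {w : Fin 3 → X} (h : w ∈ P) (k : Fin 3) :
    w k ∈ Tm P w k := by
  show Seg P w _
  rw [update_eq_self]; exact Seg.refl h

end Basic

/-- a frame of classes is positive. -/
def PosF {H : Type*} [AddCommGroup H] [Module ℝ H] (B : H →ₗ[ℝ] H →ₗ[ℝ] ℝ) (c : Fin 3 → H) :
    Prop := ∀ a : Fin 3 → ℝ, a ≠ 0 → 0 < B (∑ i, a i • c i) (∑ i, a i • c i)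

/-- no class of `R` is orthogonal to the pair `(c i, i ≠ k)`. -/
def NCp {H : Type*} [AddCommGroup H] [Module ℝ H] (B : H →ₗ[ℝ] H →ₗ[ℝ] ℝ) (R : Set H)
    (c : Fin 3 → H) (k : Fin 3) : Prop := ∀ d ∈ R, ∃ i, i ≠ k ∧ B d (c i) ≠ 0

/-- the class condition for replacing the `k`-th class of the frame `c` by `x`. -/
def CC {H : Type*} [AddCommGroup H] [Module ℝ H] (B : H →ₗ[ℝ] H →ₗ[ℝ] ℝ) (R : Set H)
    (c : Fin 3 → H) (k : Fin 3) (x : H) : Prop :=
  Seg {c | PosF B c} c (update c k x) ∧ NCp B R c k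

theorem PosF.act {H : Type*} [AddCommGroup H] [Module ℝ H] {B : H →ₗ[ℝ] H →ₗ[ℝ] ℝ} {c : Fin 3 → H}
    (hc : PosF B c) {g : Matrix (Fin 3) (Fin 3) ℝ} (hg : g.det ≠ 0) : PosF B (act g c) := by
  intro a ha
  rw [sum_act]
  refine hc _ fun h => ha ?_
  exact Matrix.eq_zero_of_vecMul_eq_zero hg h

/-! ### density of generic vectors -/

theorem dense_ne {V : Type*} [NormedAddCommGroup V] [NormedSpace ℝ V] (l : V →ₗ[ℝ] ℝ)
    (hl : ∃ y, l y ≠ 0) : Dense {x | l x ≠ 0} := by
  obtain ⟨y, hy⟩ := hl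
  intro x
  by_cases hx : l x = 0
  · have ht : Filter.Tendsto (fun n : ℕ => x + (1 / ((n : ℝ) + 1)) • y) Filter.atTop (nhds x) := by
      have h1 : Filter.Tendsto (fun n : ℕ => (1 / ((n : ℝ) + 1)) • y) Filter.atTop
          (nhds ((0 : ℝ) • y)) :=
        (tendsto_one_div_add_atTop_nhds_zero_nat).smul_const y
      rw [zero_smul] at h1
      simpa using h1.const_add x
    refine mem_closure_of_tendsto ht (Filter.Eventually.of_forall fun n => ?_)
    show l _ ≠ 0
    rw [map_add, hx, zero_add, map_smul, smul_eq_mul]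
    exact mul_ne_zero (by positivity) hy
  · exact subset_closure hx

theorem dense_gen {V ι : Type*} [NormedAddCommGroup V] [NormedSpace ℝ V] [FiniteDimensional ℝ V]
    (R : Set ι) (hR : R.Countable) (l : ι → V →ₗ[ℝ] ℝ) (hl : ∀ d ∈ R, ∃ y, l d y ≠ 0) :
    Dense {x : V | ∀ d ∈ R, l d x ≠ 0} := by
  have : CompleteSpace V := FiniteDimensional.complete ℝ V
  have := dense_biInter_of_isOpen (S := R) (f := fun d => {x : V | l d x ≠ 0})
    (fun d _ => isOpen_ne_fun (LinearMap.continuous_of_finiteDimensional (l d)) continuous_const)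
    hR (fun d hd => dense_ne (l d) (hl d hd))
  convert this using 1
  ext x
  simp

/-- near every matrix there are generic ones. -/
theorem dense_mat {ι H : Type*} [AddCommGroup H] [Module ℝ H] (B : ι → H →ₗ[ℝ] ℝ) (R : Set ι)
    (hR : R.Countable) (c : ι → Fin 3 → H) (hroot : ∀ d ∈ R, ∃ i, B d (c d i) ≠ 0) :
    Dense {g : Fin 3 → Fin 3 → ℝ | ∀ i, ∀ d ∈ R, B d (act (Matrix.of g) (c d) i) ≠ 0} := by
  have h1 : Dense {x : Fin 3 → ℝ | ∀ d ∈ R, ∑ j, x j * B d (c d j) ≠ 0} := by
    refine dense_gen R hR (fun d => ∑ j, (B d (c d j)) • LinearMap.proj (R := ℝ) j)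
      (fun d hd => ?_) |>.mono ?_
    · obtain ⟨i, hi⟩ := hroot d hd
      refine ⟨Pi.single i 1, ?_⟩
      simpa [Pi.single_apply] using hi
    · intro x hx d hd
      have := hx d hd
      simpa [mul_comm] using this
  have h2 := dense_pi (univ : Set (Fin 3))
    (s := fun _ => {x : Fin 3 → ℝ | ∀ d ∈ R, ∑ j, x j * B d (c d j) ≠ 0}) (fun _ _ => h1)
  convert h2 using 1
  ext f
  simp [act]

/-- the data and nodes used by the class-moving argument. -/
structure Sys (X H : Type*) [AddCommGroup X] [Module ℝ X] [NormedAddCommGroup H]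
    [NormedSpace ℝ H] [FiniteDimensional ℝ H] where
  /-- positive triples of closed forms -/
  P : Set (Fin 3 → X)
  P_act : ∀ (g : Matrix (Fin 3) (Fin 3) ℝ) (w : Fin 3 → X), g.det ≠ 0 → w ∈ P → act g w ∈ P
  /-- de Rham class -/
  cl : X →ₗ[ℝ] H
  /-- intersection form -/
  B : H →ₗ[ℝ] H →ₗ[ℝ] ℝ
  B_symm : ∀ a b, B a b = B b a
  /-- dangerous classes -/
  R : Set H
  R_cnt : R.Countable
  /-- hyperkaehler triples -/
  Hy : Set (Fin 3 → X)
  Hy_sub : Hy ⊆ P
  Hy_act : ∀ (g : Matrix (Fin 3) (Fin 3) ℝ) (w : Fin 3 → X), g.det ≠ 0 → w ∈ Hy → act g w ∈ Hy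
  /-- convexity of the set of taming forms -/
  cvx : ∀ w ∈ P, ∀ k, Convex ℝ (Tm P w k)
  /-- openness in finite-dimensional subspaces -/
  opn : ∀ (m : ℕ) (b : Fin m → X),
    IsOpen {a : Fin 3 → Fin m → ℝ | (fun i => ∑ j, a i j • b j) ∈ P}
  /-- classes of a positive triple span a positive 3-space -/
  pos : ∀ w ∈ P, PosF B (fun i => cl (w i))
  /-- no positive triple is orthogonal to a dangerous class (SWB, b⁺ = 3) -/
  swb : ∀ w ∈ P, ∀ d ∈ R, ∃ i, B d (cl (w i)) ≠ 0
  /-- CONE -/
  cone : ∀ w ∈ P, ∀ k, ∀ c : H, CC B R (fun i => cl (w i)) k c → ∃ x ∈ Tm P w k, cl x = c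
  /-- HKCONE -/
  hkcone : ∀ w ∈ Hy, ∀ k, ∀ c : H, CC B R (fun i => cl (w i)) k c →
    ∃ x ∈ Tm P w k, cl x = c ∧ update w k x ∈ Hy

namespace Sys

variable {X H : Type*} [AddCommGroup X] [Module ℝ X] [NormedAddCommGroup H]
    [NormedSpace ℝ H] [FiniteDimensional ℝ H] (S : Sys X H)

/-- same classes. -/
def Same (w w' : Fin 3 → X) : Prop := ∀ i, S.cl (w i) = S.cl (w' i)

/-- positive segment inside the classes. -/
def SegC (w w' : Fin 3 → X) : Prop := Seg S.P w w' ∧ S.Same w w'

/-- joined inside the classes to a hyperkaehler triple. -/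
def Hn (w : Fin 3 → X) : Prop := ∃ w', Relation.ReflTransGen S.SegC w w' ∧ w' ∈ S.Hy

theorem SegC.symm {w w' : Fin 3 → X} (h : S.SegC w w') : S.SegC w' w :=
  ⟨h.1.symm, fun i => (h.2 i).symm⟩

theorem chain_symm {w w' : Fin 3 → X} (h : Relation.ReflTransGen S.SegC w w') :
    Relation.ReflTransGen S.SegC w' w := by
  induction h with
  | refl => exact Relation.ReflTransGen.refl
  | tail _ h2 ih => exact Relation.ReflTransGen.head (SegC.symm S h2) ih

theorem chain_same {w w' : Fin 3 → X} (h : Relation.ReflTransGen S.SegC w w') : S.Same w w' := by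
  induction h with
  | refl => exact fun _ => rfl
  | tail _ h2 ih => exact fun i => (ih i).trans (h2.2 i)

/-- the parameters of a fixed form stay taming nearby. -/
theorem isOpen_Tm (w w' : Fin 3 → X) (k : Fin 3) (x : X) :
    IsOpen {s : ℝ | x ∈ Tm S.P (lin w w' s) k} := by
  -- the seven vectors
  let b : Fin 7 → X := ![w 0, w 1, w 2, w' 0, w' 1, w' 2, x]
  let f : ℝ × ℝ → Fin 3 → Fin 7 → ℝ := fun p i =>
    (fun j => if i = k then
        (if (j : ℕ) = i then (1 - p.2) * (1 - p.1) else 0) +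
        (if (j : ℕ) = i + 3 then (1 - p.2) * p.1 else 0) + (if (j : ℕ) = 6 then p.2 else 0)
      else (if (j : ℕ) = i then (1 - p.1) else 0) + (if (j : ℕ) = i + 3 then p.1 else 0))
  have hf : Continuous f := by
    refine continuous_pi fun i => continuous_pi fun j => ?_
    by_cases h : i = k
    · simp only [f, if_pos h]
      refine ((Continuous.add ?_ ?_).add ?_) <;> split_ifs <;> fun_prop
    · simp only [f, if_neg h]
      refine (Continuous.add ?_ ?_) <;> split_ifs <;> fun_prop
  have hfb : ∀ p : ℝ × ℝ, (fun i => ∑ j, f p i j • b j) =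
      lin (lin w w' p.1) (update (lin w w' p.1) k x) p.2 := by
    intro p
    rw [lin_update']
    funext i
    by_cases h : i = k
    · subst h
      simp only [f, if_true, update_self]
      fin_cases i <;> simp [b, Fin.sum_univ_succ, lin] <;> module
    · simp only [f, if_neg h, update_of_ne h]
      fin_cases i <;> simp [b, Fin.sum_univ_succ, lin]
  have hO : IsOpen {p : ℝ × ℝ | lin (lin w w' p.1) (update (lin w w' p.1) k x) p.2 ∈ S.P} := by
    have := (S.opn 7 b).preimage hf
    convert this using 1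
    ext p
    simp only [mem_setOf_eq, mem_preimage]
    rw [hfb p]
  -- tube lemma
  rw [isOpen_iff_mem_nhds]
  intro s hs
  have hK : IsCompact (Icc (0 : ℝ) 1) := isCompact_Icc
  have hsub : ({s} : Set ℝ) ×ˢ Icc (0 : ℝ) 1 ⊆
      {p : ℝ × ℝ | lin (lin w w' p.1) (update (lin w w' p.1) k x) p.2 ∈ S.P} := by
    rintro ⟨a, t⟩ ⟨ha, ht⟩
    rw [mem_singleton_iff] at ha
    subst ha
    exact hs t ht
  obtain ⟨u, v, hu, hv, hsu, hIv, huv⟩ := generalized_tube_lemma isCompact_singleton hK hO hsub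
  refine Filter.mem_of_superset (hu.mem_nhds (hsu (mem_singleton s))) ?_
  intro a ha t ht
  exact @huv (a, t) ⟨ha, hIv ht⟩

/-- a chain of intervals: if `A s s'` holds for nearby parameters, it propagates. -/
theorem interval_induct (A : ℝ → ℝ → Prop)
    (ht : ∀ a ∈ Icc (0 : ℝ) 1, ∀ b ∈ Icc (0 : ℝ) 1, ∀ c ∈ Icc (0 : ℝ) 1, A a b → A b c → A a c)
    (hl : ∀ s ∈ Icc (0 : ℝ) 1, ∃ U ∈ nhds s, ∀ a ∈ U ∩ Icc (0 : ℝ) 1, ∀ b ∈ U ∩ Icc (0 : ℝ) 1,
      A a b) : A 0 1 := by
  refine (isPreconnected_Icc (a := (0 : ℝ)) (b := 1)).induction₂' A ?_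
    (fun a b c ha hb hc => ht a ha b hb c hc) (by simp) (by simp)
  intro x hx
  obtain ⟨U, hU, h⟩ := hl x hx
  have h1 : ∀ᶠ y in nhdsWithin x (Icc (0 : ℝ) 1), y ∈ U ∩ Icc (0 : ℝ) 1 :=
    Filter.inter_mem (mem_nhdsWithin_of_mem_nhds hU) self_mem_nhdsWithin
  have hxU : x ∈ U ∩ Icc (0 : ℝ) 1 := ⟨mem_of_mem_nhds hU, hx⟩
  exact h1.mono fun y hy => ⟨h x hxU y hy, h y hy x hxU⟩

/-! ### Lemma 1: elementary moves -/

theorem cl_lin (w w' : Fin 3 → X) (t : ℝ) :
    (fun i => S.cl (lin w w' t i)) = lin (fun i => S.cl (w i)) (fun i => S.cl (w' i)) t := by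
  funext i; simp [lin]

theorem cl_update (w : Fin 3 → X) (k : Fin 3) (x : X) :
    (fun i => S.cl (update w k x i)) = update (fun i => S.cl (w i)) k (S.cl x) := by
  funext i
  by_cases h : i = k
  · subst h; simp
  · simp [update_of_ne h]

theorem cl_act (g : Matrix (Fin 3) (Fin 3) ℝ) (w : Fin 3 → X) :
    (fun i => S.cl (act g w i)) = act g (fun i => S.cl (w i)) := by
  funext i; simp [act]

/-- an elementary move satisfies the class condition. -/
theorem cc_of_tm {w : Fin 3 → X} {k : Fin 3} {x : X} (hx : x ∈ Tm S.P w k)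
    (hnc : NCp S.B S.R (fun i => S.cl (w i)) k) :
    CC S.B S.R (fun i => S.cl (w i)) k (S.cl x) := by
  refine ⟨fun t ht => ?_, hnc⟩
  have := S.pos _ (hx t ht)
  rw [← S.cl_update, ← S.cl_lin]
  exact this

theorem sameSeg {w : Fin 3 → X} (hw : w ∈ S.P) {k : Fin 3} {x y : X} (hx : x ∈ Tm S.P w k)
    (hy : y ∈ Tm S.P w k) (hxy : S.cl x = S.cl y) :
    S.SegC (update w k x) (update w k y) := by
  refine ⟨fun t ht => ?_, fun i => ?_⟩
  · have h1 : (1 - t) • x + t • y ∈ Tm S.P w k :=
      S.cvx w hw k hx hy (by linarith [ht.2]) ht.1 (by ring)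
    rw [lin_update]
    exact Seg.right h1
  · by_cases h : i = k
    · subst h; simpa using hxy
    · simp [update_of_ne h]

/-- one step of the propagation. -/
theorem step {u u' : Fin 3 → X} (h : S.SegC u u') {k : Fin 3} {c : H}
    (hc : CC S.B S.R (fun i => S.cl (u i)) k c) {v v' : X} (hv : v ∈ Tm S.P u k)
    (hvc : S.cl v = c) (hv' : v' ∈ Tm S.P u' k) (hvc' : S.cl v' = c) :
    Relation.ReflTransGen S.SegC (update u k v) (update u' k v') := by
  let A : ℝ → ℝ → Prop := fun s s' => ∀ v ∈ Tm S.P (lin u u' s) k, S.cl v = c →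
    ∀ v' ∈ Tm S.P (lin u u' s') k, S.cl v' = c →
    Relation.ReflTransGen S.SegC (update (lin u u' s) k v) (update (lin u u' s') k v')
  have hcl : ∀ s, (fun i => S.cl (lin u u' s i)) = fun i => S.cl (u i) := by
    intro s
    funext i
    have := h.2 i
    simp only [lin, map_add, map_smul, ← this]
    module
  have hex : ∀ s ∈ Icc (0 : ℝ) 1, ∃ v ∈ Tm S.P (lin u u' s) k, S.cl v = c := by
    intro s hs
    refine S.cone _ (h.1 s hs) k c ?_
    rw [hcl s]; exact hc
  have hA : A 0 1 := by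
    refine interval_induct A ?_ ?_
    · intro a _ b hb e _ hab hbe v hv hvc v' hv' hvc'
      obtain ⟨m, hm, hmc⟩ := hex b hb
      exact (hab v hv hvc m hm hmc).trans (hbe m hm hmc v' hv' hvc')
    · intro s hs
      obtain ⟨m, hm, hmc⟩ := hex s hs
      obtain ⟨r, hr, hball⟩ := Metric.isOpen_iff.1 (S.isOpen_Tm u u' k m) s hm
      refine ⟨Metric.ball s r, Metric.ball_mem_nhds s hr, ?_⟩
      rintro a ⟨ha, haI⟩ b ⟨hb, hbI⟩ v hv hvc v' hv' hvc'
      have h1 := S.sameSeg (h.1 a haI) hv (hball ha) (hvc.trans hmc.symm)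
      have h3 := S.sameSeg (h.1 b hbI) (hball hb) hv' (hmc.trans hvc'.symm)
      have h2 : S.SegC (update (lin u u' a) k m) (update (lin u u' b) k m) := by
        refine ⟨fun t ht => ?_, fun i => ?_⟩
        · rw [lin_update_both, lin_lin]
          have : (1 - t) * a + t * b ∈ Metric.ball s r := by
            have := (convex_ball s r) ha hb (by linarith [ht.2] : (0 : ℝ) ≤ 1 - t) ht.1 (by ring)
            simpa [smul_eq_mul] using this
          exact Seg.right (hball this)
        · by_cases hik : i = k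
          · subst hik; simp
          · simp only [update_of_ne hik]
            have e1 := congrFun (hcl a) i
            have e2 := congrFun (hcl b) i
            exact e1.trans e2.symm
      exact (Relation.ReflTransGen.single h1).trans
        ((Relation.ReflTransGen.single h2).trans (Relation.ReflTransGen.single h3))
  have := hA v (by rw [lin_zero]; exact hv) hvc v' (by rw [lin_one]; exact hv') hvc'
  rwa [lin_zero, lin_one] at this

/-- Lemma 1. -/
theorem Hn_update {w : Fin 3 → X} {k : Fin 3} {x : X} (hx : x ∈ Tm S.P w k)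
    (hnc : NCp S.B S.R (fun i => S.cl (w i)) k) (hn : S.Hn w) :
    S.Hn (update w k x) := by
  obtain ⟨z, hz, hzH⟩ := hn
  have hcc := S.cc_of_tm hx hnc
  -- along the chain
  have key : ∃ v ∈ Tm S.P z k, S.cl v = S.cl x ∧
      Relation.ReflTransGen S.SegC (update w k x) (update z k v) := by
    clear hzH
    induction hz with
    | refl => exact ⟨x, hx, rfl, Relation.ReflTransGen.refl⟩
    | tail h1 h2 ih =>
      rename_i b e
      obtain ⟨v, hv, hvc, hch⟩ := ih
      have hb : (fun i => S.cl (b i)) = fun i => S.cl (w i) :=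
        funext fun i => (S.chain_same h1 i).symm
      have he : (fun i => S.cl (e i)) = fun i => S.cl (w i) := by
        rw [← hb]; exact funext fun i => (h2.2 i).symm
      obtain ⟨v', hv', hvc'⟩ := S.cone e h2.1.right k (S.cl x) (by rw [he]; exact hcc)
      exact ⟨v', hv', hvc', hch.trans (S.step h2 (by rw [hb]; exact hcc) hv hvc hv' hvc')⟩
  obtain ⟨v, hv, hvc, hch⟩ := key
  have hzc : (fun i => S.cl (z i)) = fun i => S.cl (w i) :=
    funext fun i => (S.chain_same hz i).symm
  obtain ⟨v', hv', hvc', hH⟩ := S.hkcone z hzH k (S.cl x) (by rw [hzc]; exact hcc)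
  refine ⟨update z k v', hch.trans (Relation.ReflTransGen.single ?_), hH⟩
  exact S.sameSeg (S.Hy_sub hzH) hv hv' (hvc.trans hvc'.symm)

/-! ### Lemma 2: invariance under deformations with varying classes -/

theorem Hn_act {w : Fin 3 → X} {g : Matrix (Fin 3) (Fin 3) ℝ} (hg : g.det ≠ 0) (hn : S.Hn w) :
    S.Hn (act g w) := by
  obtain ⟨z, hz, hzH⟩ := hn
  refine ⟨act g z, ?_, S.Hy_act g z hg hzH⟩
  have key : ∀ a b : Fin 3 → X, S.SegC a b → S.SegC (act g a) (act g b) := by
    intro a b hab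
    refine ⟨fun t ht => ?_, fun i => ?_⟩
    · rw [← act_lin]
      exact S.P_act g _ hg (hab.1 t ht)
    · show S.cl (act g a i) = S.cl (act g b i)
      simp only [act, map_sum, map_smul]
      exact Finset.sum_congr rfl fun j _ => by rw [hab.2 j]
  clear hzH
  induction hz with
  | refl => exact Relation.ReflTransGen.refl
  | tail _ h2 ih => exact ih.tail (key _ _ h2)

theorem Hn_act_iff {w : Fin 3 → X} {g : Matrix (Fin 3) (Fin 3) ℝ} (hg : g.det ≠ 0) :
    S.Hn (act g w) ↔ S.Hn w := by
  refine ⟨fun h => ?_, S.Hn_act hg⟩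
  have h1 : (g⁻¹).det ≠ 0 := by
    rw [Matrix.det_nonsing_inv, Ring.inverse_eq_inv']
    exact inv_ne_zero hg
  have := S.Hn_act h1 h
  rwa [← act_mul, Matrix.nonsing_inv_mul _ hg.isUnit, act_one] at this

theorem isOpen_mix (w w' : Fin 3 → X) : IsOpen {p : (Fin 3 → Fin 3 → ℝ) × (Fin 3 → ℝ) |
    mix (act (Matrix.of p.1) w) (act (Matrix.of p.1) w') p.2 ∈ S.P} := by
  let b : Fin 6 → X := ![w 0, w 1, w 2, w' 0, w' 1, w' 2]
  let f : (Fin 3 → Fin 3 → ℝ) × (Fin 3 → ℝ) → Fin 3 → Fin 6 → ℝ := fun p i =>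
    ![(1 - p.2 i) * p.1 i 0, (1 - p.2 i) * p.1 i 1, (1 - p.2 i) * p.1 i 2,
      p.2 i * p.1 i 0, p.2 i * p.1 i 1, p.2 i * p.1 i 2]
  have hf : Continuous f := by
    refine continuous_pi fun i => continuous_pi fun j => ?_
    fin_cases j <;> simp only [f] <;> simp <;> fun_prop
  have hfb : ∀ p, (fun i => ∑ j, f p i j • b j) =
      mix (act (Matrix.of p.1) w) (act (Matrix.of p.1) w') p.2 := by
    intro p
    funext i
    simp [f, b, Fin.sum_univ_succ, mix, act]
    module
  have := (S.opn 6 b).preimage hf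
  convert this using 1
  ext p
  rw [Set.mem_preimage, Set.mem_setOf_eq, Set.mem_setOf_eq, hfb p]

theorem Hn_seg {w w' : Fin 3 → X} (h : Seg S.P w w') (hn : S.Hn w) : S.Hn w' := by
  have hA : (S.Hn (lin w w' 0) → S.Hn (lin w w' 1)) := by
    refine interval_induct (fun s s' => S.Hn (lin w w' s) → S.Hn (lin w w' s'))
      (fun _ _ _ _ _ _ h1 h2 h3 => h2 (h1 h3)) ?_
    intro s hs
    have hm : ((fun i j => (1 : Matrix (Fin 3) (Fin 3) ℝ) i j), fun _ => s) ∈
        {p : (Fin 3 → Fin 3 → ℝ) × (Fin 3 → ℝ) |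
          mix (act (Matrix.of p.1) w) (act (Matrix.of p.1) w') p.2 ∈ S.P} := by
      show mix (act 1 w) (act 1 w') (fun _ => s) ∈ S.P
      rw [act_one, act_one]
      exact h s hs
    obtain ⟨r, hr, hball⟩ := Metric.isOpen_iff.1 (S.isOpen_mix w w') _ hm
    refine ⟨Metric.ball s r, Metric.ball_mem_nhds s hr, ?_⟩
    rintro a ⟨ha, haI⟩ b ⟨hb, hbI⟩ hna
    -- a generic matrix near `1`
    obtain ⟨g, hg1, hg2, hg3⟩ : ∃ g : Fin 3 → Fin 3 → ℝ,
        (∀ i, ∀ d ∈ (S.R ×ˢ (univ : Set Bool)), S.B d.1 (act (Matrix.of g)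
          (fun j => S.cl (lin w w' (if d.2 then a else b) j)) i) ≠ 0) ∧
        g ∈ Metric.ball (fun i j => (1 : Matrix (Fin 3) (Fin 3) ℝ) i j) r ∧
        (Matrix.of g).det ≠ 0 := by
      have hd := dense_mat (fun d : H × Bool => S.B d.1) (S.R ×ˢ (univ : Set Bool))
        (S.R_cnt.prod (Set.to_countable _))
        (fun d j => S.cl (lin w w' (if d.2 then a else b) j)) (by
          rintro ⟨d, β⟩ ⟨hd, -⟩
          cases β
          · exact S.swb _ (h b hbI) d hd
          · exact S.swb _ (h a haI) d hd)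
      have hdetc : Continuous fun g : Fin 3 → Fin 3 → ℝ => (Matrix.of g).det := by
        have : Continuous fun g : Matrix (Fin 3) (Fin 3) ℝ => g.det := continuous_id.matrix_det
        exact this
      have hN : {g : Fin 3 → Fin 3 → ℝ |
          g ∈ Metric.ball (fun i j => (1 : Matrix (Fin 3) (Fin 3) ℝ) i j) r ∧
          0 < (Matrix.of g).det} ∈ nhds (fun i j => (1 : Matrix (Fin 3) (Fin 3) ℝ) i j) := by
        refine Filter.inter_mem (Metric.ball_mem_nhds _ hr) ?_
        refine (hdetc.tendsto _) (lt_mem_nhds ?_)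
        show 0 < (1 : Matrix (Fin 3) (Fin 3) ℝ).det
        simp
      obtain ⟨g, hg1, hg2⟩ := hd.inter_nhds_nonempty hN
      exact ⟨g, hg1, hg2.1, hg2.2.ne'⟩
    have hga : ∀ i, ∀ d ∈ S.R, S.B d (act (Matrix.of g) (fun j => S.cl (lin w w' a j)) i) ≠ 0 :=
      fun i d hd => by simpa using hg1 i (d, true) ⟨hd, mem_univ _⟩
    have hgb : ∀ i, ∀ d ∈ S.R, S.B d (act (Matrix.of g) (fun j => S.cl (lin w w' b j)) i) ≠ 0 :=
      fun i d hd => by simpa using hg1 i (d, false) ⟨hd, mem_univ _⟩
    -- boxes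
    have hbox : ∀ p : Fin 3 → ℝ, (∀ i, p i ∈ Metric.ball s r) →
        mix (act (Matrix.of g) w) (act (Matrix.of g) w') p ∈ S.P := by
      intro p hp
      refine @hball (g, p) ?_
      rw [Metric.mem_ball, Prod.dist_eq, max_lt_iff]
      refine ⟨hg2, ?_⟩
      rw [dist_pi_lt_iff hr]
      exact fun i => hp i
    have hcom : ∀ (p : Fin 3 → ℝ) (i : Fin 3), S.cl (mix (act (Matrix.of g) w) (act (Matrix.of g) w') p i) =
        act (Matrix.of g) (fun j => S.cl (lin w w' (p i) j)) i := by
      intro p i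
      have e := congrFun (act_lin (Matrix.of g) w w' (p i)) i
      have e2 : mix (act (Matrix.of g) w) (act (Matrix.of g) w') p i = lin (act (Matrix.of g) w) (act (Matrix.of g) w') (p i) i := rfl
      rw [e2, ← e]
      simp [act]
    have hstep : ∀ (p : Fin 3 → ℝ) (k m : Fin 3), (∀ i, p i ∈ Metric.ball s r) → m ≠ k →
        (p m = a ∨ p m = b) →
        S.Hn (mix (act (Matrix.of g) w) (act (Matrix.of g) w') p) → S.Hn (mix (act (Matrix.of g) w) (act (Matrix.of g) w') (update p k b)) := by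
      intro p k m hp hmk hpm hnp
      rw [mix_update]
      refine S.Hn_update ?_ (fun d hd => ⟨m, hmk, ?_⟩) hnp
      · intro t ht
        rw [lin_update']
        have e : update (mix (act (Matrix.of g) w) (act (Matrix.of g) w') p) k ((1 - t) • mix (act (Matrix.of g) w) (act (Matrix.of g) w') p k +
            t • ((1 - b) • act (Matrix.of g) w k + b • act (Matrix.of g) w' k)) =
            mix (act (Matrix.of g) w) (act (Matrix.of g) w') (update p k ((1 - t) * p k + t * b)) := by
          rw [mix_update]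
          congr 1
          simp only [mix]
          module
        rw [e]
        refine hbox _ fun i => ?_
        by_cases hik : i = k
        · subst hik
          rw [update_self]
          have := (convex_ball s r) (hp i) hb (by linarith [ht.2] : (0 : ℝ) ≤ 1 - t) ht.1
            (by ring)
          simpa [smul_eq_mul] using this
        · rw [update_of_ne hik]; exact hp i
      · show S.B d (S.cl (mix (act (Matrix.of g) w) (act (Matrix.of g) w') p m)) ≠ 0
        rw [hcom]
        rcases hpm with h | h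
        · rw [h]; exact hga m d hd
        · rw [h]; exact hgb m d hd
    have hupd : ∀ (p : Fin 3 → ℝ) (k : Fin 3), (∀ i, p i ∈ Metric.ball s r) →
        ∀ i, update p k b i ∈ Metric.ball s r := by
      intro p k hp i
      by_cases hik : i = k
      · subst hik; rw [update_self]; exact hb
      · rw [update_of_ne hik]; exact hp i
    have p0 : ∀ i : Fin 3, (fun _ => a : Fin 3 → ℝ) i ∈ Metric.ball s r := fun _ => ha
    have hna' : S.Hn (mix (act (Matrix.of g) w) (act (Matrix.of g) w') (fun _ => a)) := by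
      show S.Hn (lin (act (Matrix.of g) w) (act (Matrix.of g) w') a)
      rw [← act_lin]
      exact S.Hn_act hg3 hna
    have s1 := hstep (fun _ => a) 0 1 p0 (by decide) (Or.inl rfl) hna'
    have s2 := hstep _ 1 0 (hupd _ 0 p0) (by decide) (Or.inr (by simp)) s1
    have s3 := hstep _ 2 0 (hupd _ 1 (hupd _ 0 p0)) (by decide) (Or.inr (by simp [update])) s2
    have e : update (update (update (fun _ => a : Fin 3 → ℝ) 0 b) 1 b) 2 b = fun _ => b := by
      funext i
      fin_cases i <;> simp [update]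
    rw [e] at s3
    have s4 : S.Hn (act (Matrix.of g) (lin w w' b)) := by rw [act_lin]; exact s3
    exact (S.Hn_act_iff hg3).1 s4
  rw [lin_zero, lin_one] at hA
  exact hA hn

/-- Lemma 2 (GLOBAL). -/
theorem Hn_path {w w' : Fin 3 → X} (h : Relation.ReflTransGen (Seg S.P) w w') (hn : S.Hn w') :
    S.Hn w := by
  induction h with
  | refl => exact hn
  | tail _ h2 ih => exact ih (S.Hn_seg h2.symm hn)

end Sys

end Crest.Agent.R235.Mv
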