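import Crest.Agent.R235.STFProps_861
import Crest.Agent.R240.N5
import Crest.Agent.R240.TopFin
import Crest.Agent.R240.N8
import Crest.Agent.R240.MonoN9
import Crest.Agent.R240.Fund
import Crest.Agent.R240.NrCm

/-!
Row 235, package STF (leader helper861), leaf N5E (helper127): R240's N5 for a functional `L` which
is `b ↦ ∫ a ∧ b` on the closed forms.

The only change in the energy inequality: `I(η,η)` (`η = T + B` = the smoothed functional) is no
longer `0` but `= I(a_e, a_e)`, `a_e` = the smoothing of `a`, and `‖a_e‖₂` is bounded uniformly.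
-/

set_option autoImplicit false
set_option maxSynthPendingDepth 3

open Set Function Filter MeasureTheory Metric
open scoped Manifold ContDiff Topology ENNReal

universe u

namespace Crest.Agent.R235.N5E_127

open Crest.Agent.R240 Crest.Agent.R240.Ch Crest.Agent.R240.En4 Crest.Agent.R240.N5
  Crest.Agent.R235.STF_861

noncomputable section

variable {M : Type u} [MetricSpace M] [CompactSpace M] [ChartedSpace E4 M]
    [IsManifold 𝓘(ℝ, E4) ∞ M] [MeasurableSpace M] [BorelSpace M] (D : Dat M)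

omit [ChartedSpace E4 M] [IsManifold 𝓘(ℝ, E4) ∞ M] [MeasurableSpace M] [BorelSpace M] in
theorem exists_bound (f : M → ℝ) (hf : Continuous f) : ∃ C : ℝ, 0 ≤ C ∧ ∀ x, |f x| ≤ C := by
  obtain ⟨C, hC⟩ := isCompact_univ.exists_bound_of_continuousOn hf.continuousOn
  exact ⟨|C|, abs_nonneg _, fun x => (hC x (mem_univ x)).trans (le_abs_self C)⟩

/-- `∫ |A b| dμ ≤ K (‖b‖₂² / t + t)`. -/
theorem int_nr_A {𝒰 : Cover M} (S : SmPack D 𝒰) : ∃ K : ℝ, 0 ≤ K ∧ ∀ e p, 0 < e → e ≤ S.e0 →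
    p ∈ S.clp 0 → ∀ (b : X2 M) (t : ℝ), 0 < t →
    ∫ x, D.nr (S.A e p b : F2 E4 M) x ∂D.μ ≤ K * (D.n2 (b : F2 E4 M) ^ 2 / t + t) := by
  obtain ⟨C1, h1⟩ := S.bd
  obtain ⟨C2, hC2, h2⟩ := S.repm
  obtain ⟨C3, h3⟩ := Dat.vg_int D
  have hfin := D.fin
  have hm0 : 0 ≤ D.μ.real univ := measureReal_nonneg
  set G : ℝ := C2 * |C3| * C2 ^ 4 with hG
  have hC20 : 0 < C2 := by linarith
  have hG0 : 0 ≤ G := by positivity
  refine ⟨|C1| * (G * (1 + D.μ.real univ)), by positivity, ?_⟩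
  intro e p he he0 hp b t ht
  obtain ⟨g, hgs, hg0, hgi, hgu, -⟩ := h2 D.μ hfin e he he0
  have hgle : ∀ x, g x ≤ G := by
    intro x
    have h4 := h3 x (C2 * e) (by positivity)
    calc g x ≤ C2 / e ^ 4 * D.μ.real (ball x (C2 * e)) := hgu x
      _ ≤ C2 / e ^ 4 * (|C3| * (C2 * e) ^ 4) := by
          gcongr
          exact h4.trans (mul_le_mul_of_nonneg_right (le_abs_self _) (by positivity))
      _ = G := by rw [hG]; field_simp
  set h : M → ℝ := fun x => (1 / t) * nsqG D.J D.F (b : F2 E4 M) x + t with hh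
  have hhs : SmoothF E4 h := sF_add (sF_const_mul _ (sF_nsqG D b.2)) (sF_const t)
  have hns0 : ∀ x, 0 ≤ nsqG D.J D.F (b : F2 E4 M) x := nsqG_nonneg D b.2.1
  have hh0 : ∀ x, 0 ≤ h x := by
    intro x
    have := hns0 x
    simp only [hh]
    positivity
  have hbh : ∀ x, D.nr (b : F2 E4 M) x ≤ h x := by
    intro x
    have e1 := nr_sq D b.2.1 x
    have e2 := nr_nonneg D (b : F2 E4 M) x
    simp only [hh]
    rw [← e1]
    set y := D.nr (b : F2 E4 M) x with hy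
    have : y ≤ (y ^ 2 + t ^ 2) / t := by
      rw [le_div_iff₀ ht]
      nlinarith [sq_nonneg (y - t)]
    calc y ≤ (y ^ 2 + t ^ 2) / t := this
      _ = 1 / t * y ^ 2 + t := by field_simp
  have hA := h1 e p he he0 hp b h hhs hbh
  have hac : Continuous (S.a e h) := sF_continuous (S.a_smooth e he he0 h hhs)
  have ha0 : ∀ x, 0 ≤ S.a e h x := S.a_nonneg e he he0 h hhs hh0
  have hI : ∫ x, h x ∂D.μ = 1 / t * D.n2 (b : F2 E4 M) ^ 2 + D.μ.real univ * t := by
    simp only [hh]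
    rw [integral_add ((integrable_cont D (sF_continuous (sF_nsqG D b.2))).const_mul _)
      (integrable_const _), integral_const_mul, n2_sq, integral_const, smul_eq_mul]
  have hh1 : ∫ x, h x * g x ∂D.μ ≤ G * ∫ x, h x ∂D.μ := by
    rw [← integral_const_mul]
    apply integral_mono
      (integrable_cont D ((sF_continuous hhs).mul (sF_continuous hgs)))
      ((integrable_cont D (sF_continuous hhs)).const_mul G)
    intro x
    have := mul_le_mul_of_nonneg_left (hgle x) (hh0 x)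
    show h x * g x ≤ G * h x
    linarith
  have hI0 : 0 ≤ ∫ x, h x * g x ∂D.μ := integral_nonneg fun x => mul_nonneg (hh0 x) (hg0 x)
  have hn0 := n2_nonneg D (b : F2 E4 M)
  calc ∫ x, D.nr (S.A e p b : F2 E4 M) x ∂D.μ ≤ ∫ x, |C1| * S.a e h x ∂D.μ := by
        apply integral_mono (integrable_cont D (cont_nr D (S.A e p b).2))
          ((integrable_cont D hac).const_mul _)
        intro x
        exact (hA x).trans (mul_le_mul_of_nonneg_right (le_abs_self _) (ha0 x))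
    _ = |C1| * ∫ x, h x * g x ∂D.μ := by
        rw [integral_const_mul, hgi h hhs]
    _ ≤ |C1| * (G * (1 / t * D.n2 (b : F2 E4 M) ^ 2 + D.μ.real univ * t)) := by
        rw [← hI]; gcongr
    _ ≤ |C1| * (G * ((1 + D.μ.real univ) * (D.n2 (b : F2 E4 M) ^ 2 / t + t))) := by
        gcongr
        have h5 : 0 ≤ D.n2 (b : F2 E4 M) ^ 2 / t := by positivity
        have h6 : 1 / t * D.n2 (b : F2 E4 M) ^ 2 = D.n2 (b : F2 E4 M) ^ 2 / t := by ring
        rw [h6]
        nlinarith [mul_nonneg hm0 h5]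
    _ = _ := by ring

/-- the smoothings of a fixed form `a` are bounded in `L²`. -/
theorem rep_bound {𝒰 : Cover M} (S : SmPack D 𝒰) (a : X2 M) : ∃ K : ℝ, 0 ≤ K ∧
    ∀ e p, 0 < e → e ≤ S.e0 → p ∈ S.clp 0 → ∀ η : X2 M,
    (∀ b : X2 M, D.I (a : F2 E4 M) (S.A e p b : F2 E4 M) = D.I (η : F2 E4 M) (b : F2 E4 M)) →
    D.n2 (η : F2 E4 M) ≤ K := by
  obtain ⟨K, hK0, hK⟩ := int_nr_A D S
  obtain ⟨Ca, hCa0, hCa⟩ := exists_bound (D.nr (a : F2 E4 M)) (cont_nr D a.2)
  refine ⟨2 * (Ca * K), by positivity, ?_⟩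
  intro e p he he0 hp η hη
  have hfin := D.fin
  have key : ∀ b : X2 M, ∀ t : ℝ, 0 < t → |D.I (η : F2 E4 M) (b : F2 E4 M)| ≤
      Ca * (K * (D.n2 (b : F2 E4 M) ^ 2 / t + t)) := by
    intro b t ht
    rw [← hη b]
    calc |D.I (a : F2 E4 M) (S.A e p b : F2 E4 M)|
        ≤ ∫ x, |qG D.F (a : F2 E4 M) (S.A e p b : F2 E4 M) x| ∂D.μ :=
          abs_integral_le_integral_abs
      _ ≤ ∫ x, Ca * D.nr (S.A e p b : F2 E4 M) x ∂D.μ := by
          apply integral_mono (integrable_qG D a.2 (S.A e p b).2).abs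
            ((integrable_cont D (cont_nr D (S.A e p b).2)).const_mul _)
          intro x
          refine (abs_qG_le D a (S.A e p b) x).trans ?_
          apply mul_le_mul_of_nonneg_right _ (nr_nonneg D _ _)
          exact (le_abs_self _).trans (hCa x)
      _ = Ca * ∫ x, D.nr (S.A e p b : F2 E4 M) x ∂D.μ := integral_const_mul _ _
      _ ≤ _ := by
          gcongr
          exact hK e p he he0 hp b t ht
  apply n2_le_of_dual D (by positivity)
  intro b
  have hn0 := n2_nonneg D (b : F2 E4 M)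
  rcases hn0.eq_or_lt with h0 | h0
  · have h1 := I_le D η b
    rw [← h0, mul_zero] at h1
    rw [← h0, mul_zero]
    exact h1
  · have h1 := key b _ h0
    calc |D.I (η : F2 E4 M) (b : F2 E4 M)|
        ≤ Ca * (K * (D.n2 (b : F2 E4 M) ^ 2 / D.n2 (b : F2 E4 M) + D.n2 (b : F2 E4 M))) := h1
      _ = _ := by field_simp; ring

/-- the functional `I(a, ·)` has finite order. -/
theorem fOrd_IX (𝒰 : Cover M) (a : X2 M) : FOrd 𝒰 (St1.IX D a) := by
  obtain ⟨C, hC0, hC⟩ := NrCm.nr_le_cm D 𝒰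
  obtain ⟨Ca, hCa0, hCa⟩ := exists_bound (D.nr (a : F2 E4 M)) (cont_nr D a.2)
  have hfin := D.fin
  refine ⟨0, Ca * C * D.μ.real univ, fun b => ?_⟩
  calc |St1.IX D a b| = |D.I (a : F2 E4 M) (b : F2 E4 M)| := rfl
    _ ≤ ∫ x, |qG D.F (a : F2 E4 M) (b : F2 E4 M) x| ∂D.μ := abs_integral_le_integral_abs
    _ ≤ ∫ _x, Ca * (C * 𝒰.cm 0 (b : F2 E4 M)) ∂D.μ := by
        apply integral_mono (integrable_qG D a.2 b.2).abs (integrable_const _)
        intro x
        refine (abs_qG_le D a b x).trans ?_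
        have h1 : D.nr (a : F2 E4 M) x ≤ Ca := (le_abs_self _).trans (hCa x)
        exact mul_le_mul h1 (hC b x) (nr_nonneg D _ _) hCa0
    _ = _ := by rw [integral_const, smul_eq_mul]; ring

/-- the energy of the smoothed functional. -/
theorem energy_a (hfund : D.FUND) {𝒰 : Cover M} (S : SmPack D 𝒰) (a : X2 M) (ha : a ∈ Z2 M) :
    ∃ K : ℝ, 0 ≤ K ∧ ∀ L : X2 M →ₗ[ℝ] ℝ,
    (∀ b ∈ Z2 M, L b = D.I (a : F2 E4 M) ((b : X2 M) : F2 E4 M)) →
    ∀ e p, 0 < e → e ≤ S.e0 → p ∈ S.clp 0 → ∀ η : X2 M,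
    (∀ b : X2 M, L (S.A e p b) = D.I (η : F2 E4 M) (b : F2 E4 M)) →
    η ∈ Z2 M ∧ D.I (η : F2 E4 M) (η : F2 E4 M) ≤ K := by
  obtain ⟨K, hK0, hK⟩ := rep_bound D S a
  refine ⟨K ^ 2, sq_nonneg _, ?_⟩
  intro L hL e p he he0 hp η hη
  have hst := St1.stokes D
  have hZ : η ∈ Z2 M := by
    apply hfund
    intro b hb
    have h1 := S.exact e p he he0 b hb
    rw [← hη, hL _ (closed_of_isEx h1), hst a ha _ h1]
  refine ⟨hZ, ?_⟩
  obtain ⟨ζ, hζ⟩ := S.rep (St1.IX D a) (fOrd_IX D 𝒰 a) e p he he0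
  have hζ' : ∀ b : X2 M, D.I (a : F2 E4 M) (S.A e p b : F2 E4 M) =
      D.I (ζ : F2 E4 M) (b : F2 E4 M) := hζ
  have hζZ : ζ ∈ Z2 M := by
    apply hfund
    intro b hb
    rw [← hζ', hst a ha _ (S.exact e p he he0 b hb)]
  have h1 : D.I (η : F2 E4 M) (η : F2 E4 M) = D.I (ζ : F2 E4 M) (ζ : F2 E4 M) := by
    rw [← hη, hL _ (S.closed e p he he0 _ hZ), hζ', I_comm, ← hη,
      hL _ (S.closed e p he he0 _ hζZ), hζ']
  rw [h1]
  have h2 := hK e p he he0 hp ζ hζ'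
  have h3 := n2_nonneg D (ζ : F2 E4 M)
  calc D.I (ζ : F2 E4 M) (ζ : F2 E4 M) ≤ |D.I (ζ : F2 E4 M) (ζ : F2 E4 M)| := le_abs_self _
    _ ≤ D.n2 (ζ : F2 E4 M) * D.n2 (ζ : F2 E4 M) := I_le D ζ ζ
    _ ≤ K ^ 2 := by rw [sq]; gcongr

set_option maxHeartbeats 1000000 in
/-- **Energy inequality** (En4H `bpart`, with the term `K`). -/
theorem bpartE {𝒰 : Cover M} (S : SmPack D 𝒰) (hn : NRCM D 𝒰) (hfund : D.FUND) (a : X2 M)
    (ha : a ∈ Z2 M) :
    ∃ C K : ℝ, 1 ≤ C ∧ 0 ≤ K ∧ ∀ (L : X2 M →ₗ[ℝ] ℝ) (s : Measure M), D.IsRM L s →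
      (∀ b ∈ Z2 M, L b = D.I (a : F2 E4 M) ((b : X2 M) : F2 E4 M)) → FOrd 𝒰 (L.comp D.pi'') →
      ∀ e, 0 < e → e ≤ S.e0 → ∀ g : M → ℝ, SmoothF E4 g → (∀ x, 0 ≤ g x) →
      (∀ f, SmoothF E4 f → ∫ x, S.a e f x ∂s = ∫ x, f x * g x ∂D.μ) → ∀ p ∈ S.clp 0,
      ∃ T B : X2 M, (∀ b : X2 M, L (D.pi' (S.A e p b)) = D.I (T : F2 E4 M) (b : F2 E4 M)) ∧
        (∀ b : X2 M, L (D.pi'' (S.A e p b)) = D.I (B : F2 E4 M) (b : F2 E4 M)) ∧
        T + B ∈ Z2 M ∧
        (∀ x, D.nr (T : F2 E4 M) x ≤ C * g x) ∧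
        GeF D.J D.F (T : F2 E4 M) (fun x => - (C * e ^ 2 * g x)) ∧
        (∀ x, D.nr (D.pi'' T : F2 E4 M) x ≤ C * e * g x) ∧
        (p = S.one → ∀ x, (1 - C * e) * g x ≤ qG D.F (T : F2 E4 M) D.F x) ∧
        D.n2 (D.pi'' B : F2 E4 M) ^ 2 ≤ C * (K + e ^ 2 * ∫ x, g x ^ 2 ∂D.μ
          + √(∫ x, g x ^ 2 ∂D.μ) * D.n2 (D.pi' B : F2 E4 M)
          + D.n2 (D.pi' B : F2 E4 M) ^ 2) := by
  obtain ⟨C, hC1, hC⟩ := tpart D S hn
  obtain ⟨K, hK0, hK⟩ := energy_a D hfund S a ha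
  refine ⟨8 * C ^ 2, K, by nlinarith, hK0, ?_⟩
  intro L s hR hkill hfo e he he0 g hg hg0 hgs p hp
  have he1 : e ≤ 1 := he0.trans S.e0_le
  obtain ⟨T, hT, hT1, hT2, hT3, hT4, hT5, hT6⟩ := hC L s hR e he he0 g hg hg0 hgs p hp
  obtain ⟨B, hB⟩ := S.rep (L.comp D.pi'') hfo e p he he0
  have hB' : ∀ b : X2 M, L (D.pi'' (S.A e p b)) = D.I (B : F2 E4 M) (b : F2 E4 M) := hB
  have hCC : C ≤ 8 * C ^ 2 := by nlinarith
  have hC0 : 0 ≤ C := by linarith
  have hgc := sF_continuous hg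
  have hsum : ∀ b : X2 M, L (S.A e p b) = D.I ((T + B : X2 M) : F2 E4 M) (b : F2 E4 M) := by
    intro b
    rw [I_add_left, ← hT, ← hB', ← map_add, pi_add]
  obtain ⟨hZ, hII⟩ := hK L hkill e p he he0 hp (T + B) hsum
  refine ⟨T, B, hT, hB', hZ, ?_, ?_, ?_, ?_, ?_⟩
  · intro x
    have := hg0 x
    exact (hT1 x).trans (by gcongr)
  · apply GeF.mono D hT3
    intro x
    have := hg0 x
    have h : C * e ^ 2 * g x ≤ 8 * C ^ 2 * e ^ 2 * g x := by gcongr
    linarith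
  · intro x
    have := hg0 x
    exact (hT4 x).trans (by gcongr)
  · intro hp1 x
    have := hg0 x
    have h : C * e * g x ≤ 8 * C ^ 2 * e * g x := by gcongr
    have := hT6 hp1 x
    linarith
  · -- energy
    set β := D.n2 (D.pi' B : F2 E4 M) with hβ
    have hβ0 : 0 ≤ β := n2_nonneg D _
    set G := ∫ x, g x ^ 2 ∂D.μ with hG
    have hG0 : 0 ≤ G := integral_nonneg fun x => sq_nonneg _
    have hnB : Continuous (D.nr (D.pi' B : F2 E4 M)) := cont_nr D (D.pi' B).2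
    have hβ2 : ∫ x, D.nr (D.pi' B : F2 E4 M) x ^ 2 ∂D.μ = β ^ 2 := by
      rw [hβ, n2_sq]
      congr 1
      funext x
      exact nr_sq D (D.pi' B).2.1 x
    have hi1 : Integrable (fun x => g x ^ 2) D.μ := integrable_cont D (hgc.pow 2)
    have hi2 : Integrable (fun x => g x * D.nr (D.pi' B : F2 E4 M) x) D.μ :=
      integrable_cont D (hgc.mul hnB)
    have hi3 : Integrable (fun x => D.nr (D.pi' B : F2 E4 M) x ^ 2) D.μ :=
      integrable_cont D (hnB.pow 2)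
    -- the invariant part
    have hi4 : Integrable (fun x => 3 * C ^ 2 * e ^ 2 * g x ^ 2
        + 2 * C * (g x * D.nr (D.pi' B : F2 E4 M) x)) D.μ := (hi1.const_mul _).add (hi2.const_mul _)
    have h1 : - (3 * C ^ 2 * e ^ 2 * G + 2 * C * ∫ x, g x * D.nr (D.pi' B : F2 E4 M) x ∂D.μ
        + β ^ 2) ≤ D.I (D.pi' (T + B) : F2 E4 M) (D.pi' (T + B) : F2 E4 M) := by
      have e1 : - (3 * C ^ 2 * e ^ 2 * G + 2 * C * ∫ x, g x * D.nr (D.pi' B : F2 E4 M) x ∂D.μ
        + β ^ 2) = ∫ x, - (3 * C ^ 2 * e ^ 2 * g x ^ 2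
          + 2 * C * (g x * D.nr (D.pi' B : F2 E4 M) x) + D.nr (D.pi' B : F2 E4 M) x ^ 2) ∂D.μ := by
        rw [integral_neg, integral_add hi4 hi3,
          integral_add (hi1.const_mul _) (hi2.const_mul _), integral_const_mul,
          integral_const_mul, hβ2]
      rw [e1]
      apply integral_mono
      · exact (hi4.add hi3).neg
      · exact integrable_qG D (D.pi' (T + B)).2 (D.pi' (T + B)).2
      · intro x
        exact pt_energy D hC1 he.le he1 (hg0 x) (hT2 x) (fun v => hT3 x v) (hT5 x)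
    have hcs : ∫ x, g x * D.nr (D.pi' B : F2 E4 M) x ∂D.μ ≤ √G * β := by
      have := cs_int D hgc hnB hg0 (nr_nonneg D _)
      rw [hβ2, Real.sqrt_sq hβ0] at this
      exact this
    -- the anti-invariant part
    have h2 : D.n2 (D.pi'' (T + B) : F2 E4 M) ^ 2 ≤
        K + 3 * C ^ 2 * e ^ 2 * G + 2 * C * (√G * β) + β ^ 2 := by
      rw [n2_sq_pi'']
      have h3 := I_split D (T + B) (T + B)
      have h4 : 2 * C * ∫ x, g x * D.nr (D.pi' B : F2 E4 M) x ∂D.μ ≤ 2 * C * (√G * β) := by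
        gcongr
      linarith
    -- remove T''
    have h5 : D.n2 (D.pi'' B : F2 E4 M) ^ 2 ≤
        2 * D.n2 (D.pi'' (T + B) : F2 E4 M) ^ 2 + 2 * (C ^ 2 * e ^ 2 * G) := by
      have e1 : D.pi'' B = D.pi'' (T + B) - D.pi'' T := by rw [map_add]; abel
      have hT'' : ∫ x, nsqG D.J D.F (D.pi'' T : F2 E4 M) x ∂D.μ ≤ C ^ 2 * e ^ 2 * G := by
        rw [hG, ← integral_const_mul]
        apply integral_mono (integrable_cont D (sF_continuous (sF_nsqG D (D.pi'' T).2)))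
          (hi1.const_mul _)
        intro x
        have h6 := hT4 x
        have h7 := nr_nonneg D (D.pi'' T : F2 E4 M) x
        have h8 := nr_sq D (D.pi'' T).2.1 x
        have h9 : D.nr (D.pi'' T : F2 E4 M) x ^ 2 ≤ (C * e * g x) ^ 2 := by gcongr
        rw [h8] at h9
        calc _ ≤ _ := h9
          _ = C ^ 2 * e ^ 2 * g x ^ 2 := by ring
      have hpt : ∫ x, nsqG D.J D.F (D.pi'' B : F2 E4 M) x ∂D.μ ≤
          2 * ∫ x, nsqG D.J D.F (D.pi'' (T + B) : F2 E4 M) x ∂D.μ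
            + 2 * ∫ x, nsqG D.J D.F (D.pi'' T : F2 E4 M) x ∂D.μ := by
        have hiA := integrable_cont D (sF_continuous (sF_nsqG D (D.pi'' (T + B)).2))
        have hiB := integrable_cont D (sF_continuous (sF_nsqG D (D.pi'' T).2))
        rw [← integral_const_mul, ← integral_const_mul,
          ← integral_add (hiA.const_mul 2) (hiB.const_mul 2)]
        apply integral_mono (integrable_cont D (sF_continuous (sF_nsqG D (D.pi'' B).2)))
          ((hiA.const_mul 2).add (hiB.const_mul 2))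
        intro x
        rw [e1]
        exact nsqG_sub_le D _ _ x
      rw [n2_sq, n2_sq]
      linarith
    have hGs : 0 ≤ √G * β := by positivity
    have hC2 : C ≤ C ^ 2 := by nlinarith
    have h10 : 0 ≤ e ^ 2 * G := by positivity
    calc D.n2 (D.pi'' B : F2 E4 M) ^ 2
        ≤ 2 * (K + 3 * C ^ 2 * e ^ 2 * G + 2 * C * (√G * β) + β ^ 2)
          + 2 * (C ^ 2 * e ^ 2 * G) := by
          linarith
      _ = 2 * K + 8 * C ^ 2 * (e ^ 2 * G) + 4 * C * (√G * β) + 2 * β ^ 2 := by ring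
      _ ≤ 8 * C ^ 2 * K + 8 * C ^ 2 * (e ^ 2 * G) + 8 * C ^ 2 * (√G * β)
          + 8 * C ^ 2 * β ^ 2 := by
          have a0 : 2 * K ≤ 8 * C ^ 2 * K := by
            apply mul_le_mul_of_nonneg_right _ hK0; nlinarith
          have a1 : 4 * C * (√G * β) ≤ 8 * C ^ 2 * (√G * β) := by
            apply mul_le_mul_of_nonneg_right _ hGs; nlinarith
          have a2 : 2 * β ^ 2 ≤ 8 * C ^ 2 * β ^ 2 := by
            apply mul_le_mul_of_nonneg_right _ (sq_nonneg _); nlinarith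
          linarith
      _ = _ := by ring

set_option maxHeartbeats 2000000 in
/-- **N5E** for the data `D`. -/
theorem n5e_at (D : Dat M) (h8 : D.N8) (h9 : D.N9) (hF : D.FUND) (L : X2 M →ₗ[ℝ] ℝ)
    (s : Measure M) (a : X2 M) (ha : a ∈ Z2 M)
    (hcl : ∀ b ∈ Z2 M, L b = D.I (a : F2 E4 M) ((b : X2 M) : F2 E4 M))
    (hLF : 0 < L D.FX) (hfo : D.FinOrd L) (hrm : D.IsRM L s) :
    Dat.Growth2 s ∧ ∃ C : ℝ, ∀ b : X2 M,
      |L (D.pi'' b)| ≤ C * D.n2 ((D.pi'' b : X2 M) : F2 E4 M) := by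
  have hfin := hrm.fin
  rcases isEmpty_or_nonempty M with hM | ⟨⟨x₀⟩⟩
  · refine ⟨⟨0, fun x => (hM.false x).elim⟩, 0, fun b => ?_⟩
    have h0 : D.pi'' b = 0 := Subtype.ext (funext fun x => (hM.false x).elim)
    rw [h0, map_zero]; simp
  obtain ⟨𝒰, m, K, hK⟩ := hfo
  have hFO := fOrd_pi'' D 𝒰 L hK
  obtain ⟨S⟩ := h8 𝒰
  obtain ⟨C₁, Ka, hC₁, hKa, hE⟩ := bpartE D S (N5P.nrcm D 𝒰) hF a ha
  obtain ⟨C₂, hC₂, hrepm⟩ := S.repm
  have hC₁0 : 0 < C₁ := by linarith
  have hC₂0 : 0 < C₂ := by linarith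
  obtain ⟨m', K', hK'⟩ := hFO
  obtain ⟨k, n, C₄, hcrude⟩ := S.crude m'
  obtain ⟨C₅, hleak⟩ := S.leak k
  obtain ⟨C₆, hsign⟩ := S.sign k
  obtain ⟨C₇, happ⟩ := S.approx m'
  set A : ℝ := max 2 C₁ with hA
  have hA2 : 2 ≤ A := le_max_left _ _
  have hAC : C₁ ≤ A := le_max_right _ _
  obtain ⟨C₃, r₀, hC₃, hr₀, h9⟩ := h9 A (by linarith)
  set e0 : ℝ := min S.e0 (1 / (2 * C₁)) with he0
  have he0pos : 0 < e0 := lt_min S.e0_pos (by positivity)
  have he0S : e0 ≤ S.e0 := min_le_left _ _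
  have hs0 : 0 ≤ s.real univ := measureReal_nonneg
  have hs1 : 0 < s.real univ := by
    have h1 := hrm.trace (fun _ => 1) (En4.sF_const 1) D.FX (by
      apply funext
      intro x
      show _ = (1 : ℝ) • _
      rw [one_smul]
      rfl)
    rw [integral_const, smul_eq_mul, mul_one] at h1
    rw [← h1]
    exact hLF
  set Rd : ℝ := Metric.diam (univ : Set M) + 1 with hRdd
  have hRd1 : 1 ≤ Rd := by
    have : 0 ≤ Metric.diam (univ : Set M) := Metric.diam_nonneg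
    linarith
  have hRd : ∀ x : M, ball x Rd = univ := by
    intro x
    apply eq_univ_of_forall
    intro y
    rw [mem_ball]
    have := Metric.dist_le_diam_of_mem (isCompact_univ (X := M)).isBounded (mem_univ y)
      (mem_univ x)
    linarith
  set L' : X2 M →ₗ[ℝ] ℝ := L ∘ₗ D.pi'' with hL'
  have hL'' : ∀ b, L' b = L' (D.pi'' b) := by
    intro b
    show L (D.pi'' b) = L (D.pi'' (D.pi'' b))
    rw [En4.pi''_pi'']
  have hFO : FOrd 𝒰 L' := ⟨m', K', hK'⟩
  -- the smoothed functionals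
  have hB : ∀ (e : ℝ) (p : S.κ), ∃ η : X2 M, 0 < e → e ≤ S.e0 →
      ∀ b : X2 M, L' (S.A e p b) = D.I (η : F2 E4 M) (b : F2 E4 M) := by
    intro e p
    by_cases h : 0 < e ∧ e ≤ S.e0
    · obtain ⟨η, hη⟩ := S.rep L' hFO e p h.1 h.2
      exact ⟨η, fun _ _ => hη⟩
    · exact ⟨0, fun h1 h2 => (h ⟨h1, h2⟩).elim⟩
  choose B hB using hB
  have hG : ∀ e : ℝ, ∃ g : M → ℝ, 0 < e → e ≤ S.e0 → IsDen D S s e g ∧
      (∀ x, g x ≤ C₂ / e ^ 4 * s.real (ball x (C₂ * e))) ∧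
      (∀ x r, e ≤ r → s.real (ball x r) ≤ C₂ * ∫ y in ball x (C₂ * r), g y ∂D.μ) := by
    intro e
    by_cases h : 0 < e ∧ e ≤ S.e0
    · obtain ⟨g, h1, h2, h3, h4, h5⟩ := hrepm s hfin e h.1 h.2
      exact ⟨g, fun _ _ => ⟨⟨h1, h2, h3⟩, h4, h5⟩⟩
    · exact ⟨0, fun h1 h2 => (h ⟨h1, h2⟩).elim⟩
  choose G hG using hG
  let ι : Type := {p : S.κ // p ∈ S.cl k}
  let one' : ι := ⟨S.one, S.clp_sub k (S.one_mem k)⟩
  have : Nonempty ι := ⟨one'⟩
  set pos : Set ι := {q | q.1 ∈ S.clp k} with hpos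
  have hone : one' ∈ pos := S.one_mem k
  set f : ℝ → ι → ℝ := fun e q => D.n2 (B e q.1 : F2 E4 M) with hf
  set g : ℝ → ι → ℝ := fun e q => D.n2 (D.pi' (B e q.1) : F2 E4 M) with hg
  set h : ℝ → ι → ℝ := fun e q => D.n2 (D.pi'' (B e q.1) : F2 E4 M) with hh
  set t : ℝ → ℝ := fun e => √((∫ x, G e x ^ 2 ∂D.μ) + Ka / e ^ 2) with ht
  have hG2 : ∀ e, 0 ≤ ∫ x, G e x ^ 2 ∂D.μ := fun e => integral_nonneg fun x => sq_nonneg _
  have htsq : ∀ e, t e ^ 2 = (∫ x, G e x ^ 2 ∂D.μ) + Ka / e ^ 2 := fun e =>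
    Real.sq_sqrt (add_nonneg (hG2 e) (by positivity))
  have htle : ∀ e, √(∫ x, G e x ^ 2 ∂D.μ) ≤ t e := fun e =>
    Real.sqrt_le_sqrt (le_add_of_nonneg_right (by positivity))
  have hf0 : ∀ e q, 0 ≤ f e q := fun e q => En4.n2_nonneg D _
  have hg0 : ∀ e q, 0 ≤ g e q := fun e q => En4.n2_nonneg D _
  have hIB : ∀ e, 0 < e → e ≤ e0 → ∀ q : ι, ∀ b : X2 M,
      |L' (S.A e q.1 b)| ≤ f e q * D.n2 (b : F2 E4 M) := by
    intro e he hee q b
    rw [hB e q.1 he (hee.trans he0S)]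
    exact En4.I_le D _ _
  have hfle : ∀ e, 0 < e → e ≤ e0 → ∀ q : ι, ∀ N : ℝ, 0 ≤ N →
      (∀ b : X2 M, |L' (S.A e q.1 b)| ≤ N * D.n2 (b : F2 E4 M)) → f e q ≤ N := by
    intro e he hee q N hN h
    apply En4.n2_le_of_dual D hN
    intro b
    rw [← hB e q.1 he (hee.trans he0S)]
    exact h b
  -- crude bound
  have hbdd : ∀ e, 0 < e → e ≤ e0 → BddAbove (Set.range (f e)) := by
    intro e he hee
    refine ⟨|K'| * (|C₄| / e ^ n), ?_⟩
    rintro _ ⟨q, rfl⟩
    apply hfle e he hee q _ (by positivity)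
    intro b
    calc |L' (S.A e q.1 b)| ≤ K' * 𝒰.cm m' (S.A e q.1 b : F2 E4 M) := hK' _
      _ ≤ |K'| * 𝒰.cm m' (S.A e q.1 b : F2 E4 M) :=
          mul_le_mul_of_nonneg_right (le_abs_self _) (cm_nonneg _ _ _)
      _ ≤ |K'| * (C₄ / e ^ n * D.n2 (b : F2 E4 M)) :=
          mul_le_mul_of_nonneg_left (hcrude e q.1 he (hee.trans he0S) q.2 b) (abs_nonneg _)
      _ ≤ |K'| * (|C₄| / e ^ n * D.n2 (b : F2 E4 M)) := by
          have h0 := En4.n2_nonneg D (b : F2 E4 M)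
          gcongr
          exact le_abs_self _
      _ = _ := by ring
  -- leak
  have hleak' : ∀ e, 0 < e → e ≤ e0 → ∀ N : ℝ, (∀ q, f e q ≤ N) →
      ∀ q, g e q ≤ |C₅| * e * N := by
    intro e he hee N hN q
    have hN0 : 0 ≤ N := (hf0 e one').trans (hN one')
    apply En4.n2_inv_le_of_dual D (by positivity)
    intro b
    rw [← hB e q.1 he (hee.trans he0S)]
    refine (hleak e he (hee.trans he0S) L' hFO hL'' N hN0 ?_ q.1 q.2 b).trans ?_
    · intro p hp c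
      exact (hIB e he hee ⟨p, hp⟩ c).trans
        (mul_le_mul_of_nonneg_right (hN ⟨p, hp⟩) (En4.n2_nonneg D _))
    · have h0 := En4.n2_nonneg D (b : F2 E4 M)
      gcongr
      exact le_abs_self _
  -- the decomposition into positive kernels
  have hdec : ∀ e, 0 < e → e ≤ e0 → ∀ q, ∃ q₁ ∈ pos, ∃ q₂ ∈ pos,
      f e q ≤ (2 * |C₆|) * (f e q₁ + f e q₂) := by
    intro e he hee q
    set R : ℝ := sSup (f e '' pos) with hR
    have hbd : BddAbove (f e '' pos) := (hbdd e he hee).mono (image_subset_range _ _)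
    have hle : ∀ q' ∈ pos, f e q' ≤ R := fun q' hq' => le_csSup hbd ⟨q', hq', rfl⟩
    have hR0 : 0 ≤ R := (hf0 e one').trans (hle one' hone)
    have hq : f e q ≤ |C₆| * R := by
      apply hfle e he hee q _ (by positivity)
      intro b
      have h0 := En4.n2_nonneg D (b : F2 E4 M)
      have h1 := hsign e he (hee.trans he0S) L' b (R * D.n2 (b : F2 E4 M)) (by
        intro p hp
        exact (hIB e he hee ⟨p, S.clp_sub k hp⟩ b).trans
          (mul_le_mul_of_nonneg_right (hle ⟨p, S.clp_sub k hp⟩ hp) h0)) q.1 q.2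
      calc |L' (S.A e q.1 b)| ≤ C₆ * (R * D.n2 (b : F2 E4 M)) := h1
        _ ≤ |C₆| * (R * D.n2 (b : F2 E4 M)) := by gcongr; exact le_abs_self _
        _ = _ := by ring
    rcases hR0.eq_or_lt with hR1 | hR1
    · refine ⟨one', hone, one', hone, ?_⟩
      rw [← hR1, mul_zero] at hq
      have := hf0 e one'
      exact hq.trans (by positivity)
    · obtain ⟨_, ⟨q', hq', rfl⟩, hlt⟩ := exists_lt_of_lt_csSup
        (⟨_, one', hone, rfl⟩ : (f e '' pos).Nonempty) (half_lt_self hR1)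
      refine ⟨q', hq', q', hq', hq.trans ?_⟩
      have : R ≤ 2 * f e q' := by linarith
      have h6 := abs_nonneg C₆
      nlinarith [hf0 e q']
  -- energy
  have hpos' : ∀ e, 0 < e → e ≤ e0 → ∀ q ∈ pos,
      h e q ^ 2 ≤ C₁ * (e ^ 2 * t e ^ 2 + t e * g e q + g e q ^ 2) := by
    intro e he hee q hq
    obtain ⟨hden, -, -⟩ := hG e he (hee.trans he0S)
    obtain ⟨T, B', -, hB'0, -, -, -, -, -, hen⟩ := hE L s hrm hcl hFO e he (hee.trans he0S)
      (G e) hden.1 hden.2.1 hden.2.2 q.1 (S.clp_anti 0 k (Nat.zero_le k) hq)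
    have hB' : ∀ b : X2 M, D.I (B' : F2 E4 M) (b : F2 E4 M) = L (D.pi'' (S.A e q.1 b)) :=
      fun b => (hB'0 b).symm
    have hcong : ∀ b : X2 M, D.I (B' : F2 E4 M) (b : F2 E4 M) =
        D.I (B e q.1 : F2 E4 M) (b : F2 E4 M) := by
      intro b
      rw [hB', ← hB e q.1 he (hee.trans he0S)]
      rfl
    rw [n2_pi''_congr D hcong, n2_pi'_congr D hcong] at hen
    have h1 : e ^ 2 * t e ^ 2 = Ka + e ^ 2 * ∫ x, G e x ^ 2 ∂D.μ := by
      rw [htsq]
      field_simp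
      ring
    have h2 := mul_le_mul_of_nonneg_right (htle e) (hg0 e q)
    rw [h1]
    refine hen.trans ?_
    apply mul_le_mul_of_nonneg_left _ hC₁0.le
    have h3 : √(∫ x, G e x ^ 2 ∂D.μ) * D.n2 (D.pi' (B e q.1) : F2 E4 M) ≤ t e * g e q := h2
    have h4 : g e q ^ 2 = D.n2 (D.pi' (B e q.1) : F2 E4 M) ^ 2 := rfl
    rw [h4]
    linarith
  -- the density
  have htb : ∀ e, 0 < e → e ≤ e0 → ∀ Dn, Top.DenB s e Dn →
      e ^ 2 * t e ^ 2 ≤ (C₂ ^ 3 * s.real univ + Ka * (Rd ^ 2 / s.real univ)) * Dn := by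
    intro e he hee Dn hDn
    obtain ⟨hden, hup, -⟩ := hG e he (hee.trans he0S)
    have hDn0 : 0 ≤ Dn := by
      have h1 : 0 ≤ s.real (ball x₀ e) := measureReal_nonneg
      have h2 := hDn x₀ e le_rfl
      have h3 : 0 < e ^ 2 := by positivity
      by_contra hneg
      rw [not_le] at hneg
      nlinarith
    have hDn1 : 1 ≤ Rd ^ 2 / s.real univ * Dn := by
      have h1 := hDn x₀ Rd (((hee.trans he0S).trans S.e0_le).trans hRd1)
      rw [hRd x₀] at h1
      rw [div_mul_eq_mul_div, le_div_iff₀ hs1, one_mul]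
      linarith
    have hGc : Continuous (G e) := En4.sF_continuous hden.1
    have hGle : ∀ x, G e x ≤ C₂ ^ 3 * Dn / e ^ 2 := by
      intro x
      have h1 := hup x
      have h2 := hDn x (C₂ * e) (le_mul_of_one_le_left he.le hC₂)
      calc G e x ≤ C₂ / e ^ 4 * s.real (ball x (C₂ * e)) := h1
        _ ≤ C₂ / e ^ 4 * (Dn * (C₂ * e) ^ 2) := by gcongr
        _ = C₂ ^ 3 * Dn / e ^ 2 := by field_simp
    have hint : ∫ x, G e x ^ 2 ∂D.μ ≤ C₂ ^ 3 * Dn / e ^ 2 * s.real univ := by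
      calc ∫ x, G e x ^ 2 ∂D.μ ≤ ∫ x, C₂ ^ 3 * Dn / e ^ 2 * G e x ∂D.μ := by
            apply integral_mono (En4.integrable_cont D (hGc.pow 2))
              (En4.integrable_cont D (continuous_const.mul hGc))
            intro x
            show G e x ^ 2 ≤ C₂ ^ 3 * Dn / e ^ 2 * G e x
            have h1 := hGle x
            have h2 := hden.2.1 x
            rw [sq]
            exact mul_le_mul_of_nonneg_right h1 h2
        _ = C₂ ^ 3 * Dn / e ^ 2 * s.real univ := by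
            rw [integral_const_mul, int_den D S he (hee.trans he0S) hden]
    have h5 : e ^ 2 * t e ^ 2 = e ^ 2 * ∫ x, G e x ^ 2 ∂D.μ + Ka := by
      rw [htsq]
      field_simp
    rw [h5]
    have h6 : e ^ 2 * ∫ x, G e x ^ 2 ∂D.μ ≤ (C₂ ^ 3 * s.real univ) * Dn := by
      calc e ^ 2 * ∫ x, G e x ^ 2 ∂D.μ ≤ e ^ 2 * (C₂ ^ 3 * Dn / e ^ 2 * s.real univ) := by
            gcongr
        _ = _ := by field_simp
    have h7 : Ka ≤ Ka * (Rd ^ 2 / s.real univ * Dn) := le_mul_of_one_le_right hKa hDn1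
    calc _ ≤ (C₂ ^ 3 * s.real univ) * Dn + Ka * (Rd ^ 2 / s.real univ * Dn) := add_le_add h6 h7
      _ = _ := by ring
  -- monotonicity
  have hmono : ∀ e, 0 < e → e ≤ e0 → ∀ N, (∀ q, f e q ≤ N) →
      Top.DenB s e ((C₂ ^ 3 * (C₃ * (s.real univ + 1 + |C₅|)) +
        s.real univ * (C₂ / r₀) ^ 2) * (1 + N)) := by
    intro e he hee N hN
    have hN0 : 0 ≤ N := (hf0 e one').trans (hN one')
    obtain ⟨hden, -, hlo⟩ := hG e he (hee.trans he0S)
    obtain ⟨T, B', -, hB'0, hTB, hT2, hT3, hT4, hT5, -⟩ := hE L s hrm hcl hFO e he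
      (hee.trans he0S) (G e) hden.1 hden.2.1 hden.2.2 S.one (S.one_mem 0)
    have hB' : ∀ b : X2 M, D.I (B' : F2 E4 M) (b : F2 E4 M) = L (D.pi'' (S.A e S.one b)) :=
      fun b => (hB'0 b).symm
    have hcong : ∀ b : X2 M, D.I (B' : F2 E4 M) (b : F2 E4 M) =
        D.I (B e S.one : F2 E4 M) (b : F2 E4 M) := by
      intro b
      rw [hB', ← hB e S.one he (hee.trans he0S)]
      rfl
    have hn1 : D.n2 (B' : F2 E4 M) ≤ N := by
      rw [n2_congr D hcong]; exact hN one'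
    have hn2 : D.n2 (D.pi' B' : F2 E4 M) ≤ |C₅| * e * N := by
      rw [n2_pi'_congr D hcong]; exact hleak' e he hee N hN one'
    have hesm : C₁ * e ≤ 1 / 2 := by
      have h1 : e ≤ 1 / (2 * C₁) := hee.trans (min_le_right _ _)
      rw [le_div_iff₀ (by positivity)] at h1
      linarith
    have hgn := hden.2.1
    have hpg : ∀ x, G e x ≤ A * qG D.F (T : F2 E4 M) D.F x := by
      intro x
      exact dens_le hA2 (hgn x) hesm (hT5 rfl x)
    have hA1 : ∀ x, D.nr (T : F2 E4 M) x ≤ A * G e x := fun x =>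
      (hT2 x).trans (mul_le_mul_of_nonneg_right hAC (hgn x))
    have hA2 : GeF D.J D.F (T : F2 E4 M) (fun x => - (A * e ^ 2 * G e x)) := by
      intro x v
      refine le_trans ?_ (hT3 x v)
      apply mul_le_mul_of_nonneg_right
      · have := mul_le_mul_of_nonneg_right hAC (mul_nonneg (sq_nonneg e) (hgn x))
        simp only
        nlinarith
      · rcases eq_or_ne v 0 with rfl | hv
        · simp
        · exact ((En4.spos D x).pos v hv).le
    have hA3 : ∀ x, D.nr (D.pi'' T : F2 E4 M) x ≤ A * e * G e x := fun x =>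
      (hT4 x).trans (mul_le_mul_of_nonneg_right
        (mul_le_mul_of_nonneg_right hAC he.le) (hgn x))
    have hm := h9 e he ((hee.trans he0S).trans S.e0_le) T B' (G e) hden.1 hgn hTB hA1 hA2 hA3 hpg
    have hgr := den_growth D hC₂ he (Q := C₃ * (s.real univ + 1 + |C₅|) * (1 + N)) hr₀
      (by positivity) (by
        intro x r hr hrr
        have hr0 : 0 < r := he.trans_le hr
        have hm1 := hm x r hr hrr
        rw [int_den D S he (hee.trans he0S) hden] at hm1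
        have h5 : D.n2 (D.pi' B' : F2 E4 M) / r ≤ |C₅| * N := by
          rw [div_le_iff₀ hr0]
          calc D.n2 (D.pi' B' : F2 E4 M) ≤ |C₅| * e * N := hn2
            _ ≤ |C₅| * r * N := by gcongr
            _ = _ := by ring
        have h5' := abs_nonneg C₅
        calc ∫ y in ball x r, G e y ∂D.μ
            ≤ C₃ * r ^ 2 * (s.real univ + D.n2 (B' : F2 E4 M) +
              D.n2 (D.pi' B' : F2 E4 M) / r) := hm1
          _ ≤ C₃ * r ^ 2 * (s.real univ + N + |C₅| * N) := by gcongr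
          _ ≤ C₃ * r ^ 2 * ((s.real univ + 1 + |C₅|) * (1 + N)) := by
              gcongr
              nlinarith [mul_nonneg hs0 hN0]
          _ = _ := by ring) hlo
    intro x r hr
    refine (hgr x r hr).trans ?_
    have hr2 : 0 ≤ r ^ 2 := sq_nonneg r
    apply mul_le_mul_of_nonneg_right _ hr2
    have h7 : 0 ≤ s.real univ * (C₂ / r₀) ^ 2 := by positivity
    nlinarith [mul_nonneg h7 hN0]
  -- bootstrap
  set C : ℝ := 1 + C₁ + |C₅| + 2 * |C₆| + (C₂ ^ 3 * s.real univ + Ka * (Rd ^ 2 / s.real univ)) +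
    (C₂ ^ 3 * (C₃ * (s.real univ + 1 + |C₅|)) + s.real univ * (C₂ / r₀) ^ 2) with hC
  have a1 : 0 ≤ |C₅| := abs_nonneg _
  have a2 : 0 ≤ |C₆| := abs_nonneg _
  have a3 : 0 ≤ C₂ ^ 3 * s.real univ + Ka * (Rd ^ 2 / s.real univ) := by positivity
  have a4 : 0 ≤ C₂ ^ 3 * (C₃ * (s.real univ + 1 + |C₅|)) + s.real univ * (C₂ / r₀) ^ 2 := by
    positivity
  have hC1 : 1 ≤ C := by rw [hC]; linarith
  obtain ⟨e1, he1, N, Dn, hN, hDn⟩ := Top.step4_boot (pos := pos) (s := s) (e0 := e0) (C := C)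
    he0pos hC1 f g h t (fun e => Real.sqrt_nonneg _) hf0 hg0 hbdd
    (by
      intro e he hee q hq
      have h1 : f e q ^ 2 = g e q ^ 2 + h e q ^ 2 := En4.n2_split D (B e q.1)
      rw [h1]
      exact le_mul_of_one_le_left (by positivity) hC1)
    (by
      intro e he hee q hq
      refine (hpos' e he hee q hq).trans (mul_le_mul_of_nonneg_right ?_ ?_)
      · rw [hC]; linarith
      · have := hg0 e q
        have : 0 ≤ t e := Real.sqrt_nonneg _
        positivity)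
    (by
      intro e he hee N hN q
      have hN0 : 0 ≤ N := (hf0 e one').trans (hN one')
      calc g e q ≤ |C₅| * e * N := hleak' e he hee N hN q
        _ = |C₅| * (e * N) := by ring
        _ ≤ C * (e * N) := by
            apply mul_le_mul_of_nonneg_right _ (by positivity)
            rw [hC]; linarith
        _ ≤ C * (e * (N + 1)) := by
            have : 0 ≤ C := by linarith
            gcongr
            linarith)
    (by
      intro e he hee q
      obtain ⟨q₁, h1, q₂, h2, h3⟩ := hdec e he hee q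
      refine ⟨q₁, h1, q₂, h2, h3.trans ?_⟩
      apply mul_le_mul_of_nonneg_right _ (add_nonneg (hf0 _ _) (hf0 _ _))
      rw [hC]; linarith)
    (by
      intro e he hee Dn hDn
      refine (htb e he hee Dn hDn).trans ?_
      have hDn0 : 0 ≤ Dn := by
        have h1 : 0 ≤ s.real (ball x₀ e) := measureReal_nonneg
        have h2 := hDn x₀ e le_rfl
        have h3 : 0 < e ^ 2 := by positivity
        by_contra hneg
        rw [not_le] at hneg
        nlinarith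
      apply mul_le_mul_of_nonneg_right _ hDn0
      rw [hC]; linarith)
    (by
      intro e he hee N hN x r hr
      have hN0 : 0 ≤ N := (hf0 e one').trans (hN one')
      refine (hmono e he hee N hN x r hr).trans ?_
      apply mul_le_mul_of_nonneg_right _ (sq_nonneg r)
      apply mul_le_mul_of_nonneg_right _ (by linarith)
      rw [hC]; linarith)
  refine ⟨⟨Dn, hDn⟩, N, fun b => ?_⟩
  set c : X2 M := D.pi'' b with hc
  have hLc : L c = L' c := by
    show L c = L (D.pi'' c)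
    rw [hc, En4.pi''_pi'']
  rw [hLc]
  refine le_of_small (lt_min he1 he0pos)
    (c := |K'| * (|C₇| * 𝒰.cm (m' + 1) (c : F2 E4 M))) fun e he hee => ?_
  have hee1 : e ≤ e1 := hee.trans (min_le_left _ _)
  have hee0 : e ≤ e0 := hee.trans (min_le_right _ _)
  have h1 : |L' (S.A e S.one c)| ≤ N * D.n2 (c : F2 E4 M) :=
    (hIB e he hee0 one' c).trans
      (mul_le_mul_of_nonneg_right (hN e he hee1 one') (En4.n2_nonneg D _))
  have h2 : |L' (S.A e S.one c - c)| ≤ |K'| * (|C₇| * e * 𝒰.cm (m' + 1) (c : F2 E4 M)) := by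
    calc |L' (S.A e S.one c - c)|
        ≤ K' * 𝒰.cm m' ((S.A e S.one c - c : X2 M) : F2 E4 M) := hK' _
      _ ≤ |K'| * 𝒰.cm m' ((S.A e S.one c - c : X2 M) : F2 E4 M) :=
          mul_le_mul_of_nonneg_right (le_abs_self _) (cm_nonneg _ _ _)
      _ ≤ |K'| * (C₇ * e * 𝒰.cm (m' + 1) (c : F2 E4 M)) :=
          mul_le_mul_of_nonneg_left ((happ e he (hee0.trans he0S) c).2) (abs_nonneg _)
      _ ≤ _ := by
          have h0 := cm_nonneg 𝒰 (m' + 1) (c : F2 E4 M)
          gcongr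
          exact le_abs_self _
  have h3 : L' c = L' (S.A e S.one c) - L' (S.A e S.one c - c) := by
    rw [map_sub]; ring
  rw [h3]
  calc |L' (S.A e S.one c) - L' (S.A e S.one c - c)|
      ≤ |L' (S.A e S.one c)| + |L' (S.A e S.one c - c)| := abs_sub _ _
    _ ≤ N * D.n2 (c : F2 E4 M) + |K'| * (|C₇| * e * 𝒰.cm (m' + 1) (c : F2 E4 M)) :=
        add_le_add h1 h2
    _ = _ := by ring


/-- **N5E**. -/
theorem n5e : N5E.{u} := by
  intro M _ _ _ _ _ _ D L s a ha hL _ hLF hfo hrm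
  exact n5e_at D (Dat.n8 D) (node_N9 D) (Fund.fund D) L s a ha hL hLF hfo hrm

end

end Crest.Agent.R235.N5E_127
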