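import Crest.Agent.R235.STFProps_861
import Crest.Agent.R240.TopAll
import Crest.Agent.R240.N8

/-!
Row 235, package STF (helper861): N5E, part 1: the smoothings of a closed form are bounded in `L²`,
uniformly in the scale and in the kernel; consequence for functionals with a closed representative.
-/

set_option autoImplicit false
set_option maxSynthPendingDepth 3

open Set Function Filter MeasureTheory Metric
open scoped Manifold ContDiff Topology ENNReal

namespace Crest.Agent.R235.N5Ea_861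

open Crest.Agent.R240 Crest.Agent.R240.Ch Crest.Agent.R240.En4

noncomputable section

variable {M : Type*} [MetricSpace M] [CompactSpace M] [ChartedSpace E4 M]
    [IsManifold 𝓘(ℝ, E4) ∞ M] [MeasurableSpace M] [BorelSpace M] (D : Dat M)

theorem exists_sup (a : X2 M) : ∃ C : ℝ, 0 ≤ C ∧ ∀ x, D.nr (a : F2 E4 M) x ≤ C := by
  obtain ⟨C, h0, h⟩ := St1.exists_bound _ (cont_nr D a.2)
  exact ⟨C, h0, fun x => (le_abs_self _).trans (h x)⟩

/-- `|∫ a ∧ b| ≤ C ∫ |b|`. -/
theorem I_le_int (a b : X2 M) {C : ℝ} (hC : ∀ x, D.nr (a : F2 E4 M) x ≤ C) :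
    |D.I (a : F2 E4 M) (b : F2 E4 M)| ≤ C * ∫ x, D.nr (b : F2 E4 M) x ∂D.μ := by
  have hb := cont_nr D b.2
  calc |D.I (a : F2 E4 M) (b : F2 E4 M)| ≤ ∫ x, |qG D.F (a : F2 E4 M) (b : F2 E4 M) x| ∂D.μ :=
        abs_integral_le_integral_abs
    _ ≤ ∫ x, C * D.nr (b : F2 E4 M) x ∂D.μ := by
        apply integral_mono
        · exact (integrable_qG D a.2 b.2).abs
        · exact integrable_cont D (continuous_const.mul hb)
        · intro x
          refine (abs_qG_le D a b x).trans ?_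
          exact mul_le_mul_of_nonneg_right (hC x) (nr_nonneg D _ x)
    _ = _ := integral_const_mul _ _

theorem fOrd_I {𝒰 : Cover M} (a : X2 M) : FOrd 𝒰 (St1.IX D a) := by
  obtain ⟨C, h0, hC⟩ := exists_sup D a
  obtain ⟨K, hK⟩ := N5P.nrcm D 𝒰
  have := D.fin
  refine ⟨0, C * (D.μ.real univ * K), fun b => ?_⟩
  rw [St1.IX_apply]
  refine (I_le_int D a b hC).trans ?_
  rw [mul_assoc]
  refine mul_le_mul_of_nonneg_left ?_ h0
  calc ∫ x, D.nr (b : F2 E4 M) x ∂D.μ ≤ ∫ _, K * 𝒰.cm 0 (b : F2 E4 M) ∂D.μ := by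
        apply integral_mono (integrable_cont D (cont_nr D b.2)) (integrable_const _)
        intro x; exact hK b x
    _ = _ := by rw [integral_const, smul_eq_mul]; ring

/-- `∫ |A_{e,p} b| ≤ C ‖b‖₂`. -/
theorem int_A_le {𝒰 : Cover M} (S : SmPack D 𝒰) : ∃ C : ℝ, 0 ≤ C ∧ ∀ e p, 0 < e → e ≤ S.e0 →
    p ∈ S.clp 0 → ∀ b : X2 M,
    ∫ x, D.nr (S.A e p b : F2 E4 M) x ∂D.μ ≤ C * D.n2 (b : F2 E4 M) := by
  have hfin := D.fin
  obtain ⟨C1, h1⟩ := S.bd
  obtain ⟨C2, hC2, h2⟩ := S.repm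
  obtain ⟨C3, h3⟩ := D.vg_int
  set V := D.μ.real univ with hV
  have hV0 : 0 ≤ V := measureReal_nonneg
  -- the density of the smoothed volume
  have hdens : ∀ e, 0 < e → e ≤ S.e0 → ∀ h : M → ℝ, SmoothF E4 h → (∀ x, 0 ≤ h x) →
      ∫ x, S.a e h x ∂D.μ ≤ (C2 * (|C3| * C2 ^ 4)) * ∫ x, h x ∂D.μ := by
    intro e he hee h hh h0
    obtain ⟨g, hg, hg0, hgs, hgle, -⟩ := h2 D.μ D.fin e he hee
    rw [hgs h hh, ← integral_const_mul]
    apply integral_mono (integrable_cont D ((sF_continuous hh).mul (sF_continuous hg)))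
      (integrable_cont D (continuous_const.mul (sF_continuous hh)))
    intro x
    show h x * g x ≤ C2 * (|C3| * C2 ^ 4) * h x
    rw [mul_comm]
    refine mul_le_mul_of_nonneg_right ?_ (h0 x)
    calc g x ≤ C2 / e ^ 4 * D.μ.real (ball x (C2 * e)) := hgle x
      _ ≤ C2 / e ^ 4 * (C3 * (C2 * e) ^ 4) := by
          have := h3 x (C2 * e) (by positivity)
          gcongr
      _ ≤ C2 / e ^ 4 * (|C3| * (C2 * e) ^ 4) := by
          have := le_abs_self C3
          gcongr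
      _ = C2 * (|C3| * C2 ^ 4) := by field_simp
  have ha : ∀ e, 0 < e → e ≤ S.e0 → ∀ p ∈ S.clp 0, ∀ (b : X2 M) (t : ℝ), 0 < t →
      ∫ x, D.nr (S.A e p b : F2 E4 M) x ∂D.μ ≤
        |C1| * (C2 * (|C3| * C2 ^ 4)) * ((D.n2 (b : F2 E4 M) ^ 2 / t + t * V) / 2) := by
    intro e he hee p hp b t ht
    set h : M → ℝ := fun x => (1 / (2 * t)) * nsqG D.J D.F (b : F2 E4 M) x + t / 2 with hh
    have hsm : SmoothF E4 h := sF_add (sF_const_mul _ (sF_nsqG D b.2)) (sF_const _)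
    have hle : ∀ x, D.nr (b : F2 E4 M) x ≤ h x := by
      intro x
      have h4 := nr_sq D b.2.1 x
      show _ ≤ (1 / (2 * t)) * nsqG D.J D.F (b : F2 E4 M) x + t / 2
      rw [← h4]
      have h5 : (1 / (2 * t)) * D.nr (b : F2 E4 M) x ^ 2 + t / 2 - D.nr (b : F2 E4 M) x =
          (D.nr (b : F2 E4 M) x - t) ^ 2 / (2 * t) := by field_simp; ring
      have h6 : 0 ≤ (D.nr (b : F2 E4 M) x - t) ^ 2 / (2 * t) := by positivity
      linarith
    have h0 : ∀ x, 0 ≤ h x := fun x => (nr_nonneg D _ x).trans (hle x)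
    have hac : Continuous (S.a e h) := sF_continuous (S.a_smooth e he hee h hsm)
    have ha0 := S.a_nonneg e he hee h hsm h0
    calc ∫ x, D.nr (S.A e p b : F2 E4 M) x ∂D.μ ≤ ∫ x, |C1| * S.a e h x ∂D.μ := by
          apply integral_mono (integrable_cont D (cont_nr D (S.A e p b).2))
            (integrable_cont D (continuous_const.mul hac))
          intro x
          refine (h1 e p he hee hp b h hsm hle x).trans ?_
          exact mul_le_mul_of_nonneg_right (le_abs_self _) (ha0 x)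
      _ = |C1| * ∫ x, S.a e h x ∂D.μ := integral_const_mul _ _
      _ ≤ |C1| * ((C2 * (|C3| * C2 ^ 4)) * ∫ x, h x ∂D.μ) := by
          have := hdens e he hee h hsm h0
          gcongr
      _ = _ := by
          have e1 : ∫ x, h x ∂D.μ = (D.n2 (b : F2 E4 M) ^ 2 / t + t * V) / 2 := by
            rw [hh, integral_add ((integrable_cont D (sF_continuous (sF_nsqG D b.2))).const_mul _)
              (integrable_const _), integral_const_mul, integral_const, smul_eq_mul, ← n2_sq,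
              ← hV]
            field_simp
          rw [e1]; ring
  set K := |C1| * (C2 * (|C3| * C2 ^ 4)) with hK
  have hK0 : 0 ≤ K := by positivity
  refine ⟨K * (1 + V) / 2, by positivity, fun e p he hee hp b => ?_⟩
  have hn := n2_nonneg D (b : F2 E4 M)
  rcases hn.eq_or_lt with h0 | h0
  · rw [← h0, mul_zero]
    refine le_of_forall_pos_le_add fun ε hε => ?_
    have h5 := ha e he hee p hp b (ε / (K * V + 1)) (by positivity)
    rw [← h0] at h5
    refine h5.trans ?_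
    have h6 : K * ((0 ^ 2 / (ε / (K * V + 1)) + ε / (K * V + 1) * V) / 2) =
        (K * V) / (K * V + 1) * ε / 2 := by
      field_simp
      ring
    rw [h6]
    have h7 : (K * V) / (K * V + 1) ≤ 1 := by
      rw [div_le_one (by positivity)]; linarith
    have h8 : (K * V) / (K * V + 1) * ε ≤ 1 * ε := by gcongr
    linarith
  · have h5 := ha e he hee p hp b _ h0
    refine h5.trans (le_of_eq ?_)
    field_simp

/-- the form representing `b ↦ ∫ a ∧ A_{e,p} b`. -/
theorem exists_adj {𝒰 : Cover M} (S : SmPack D 𝒰) (a : X2 M) (ha : a ∈ Z2 M) :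
    ∃ K : ℝ, 0 ≤ K ∧ ∀ e p, 0 < e → e ≤ S.e0 → p ∈ S.clp 0 → ∃ c ∈ Z2 M,
      (∀ b : X2 M, D.I (a : F2 E4 M) (S.A e p b : F2 E4 M) =
        D.I ((c : X2 M) : F2 E4 M) (b : F2 E4 M)) ∧ D.n2 ((c : X2 M) : F2 E4 M) ≤ K := by
  obtain ⟨C, hC0, hC⟩ := exists_sup D a
  obtain ⟨K, hK0, hK⟩ := int_A_le D S
  refine ⟨C * K, by positivity, fun e p he hee hp => ?_⟩
  obtain ⟨c, hc⟩ := S.rep (St1.IX D a) (fOrd_I D a) e p he hee
  refine ⟨c, ?_, hc, ?_⟩
  · refine Fund.fund D c fun b hb => ?_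
    rw [← hc, St1.IX_apply]
    exact St1.stokes D a ha _ (S.exact e p he hee b hb)
  · refine n2_le_of_dual D (by positivity) fun b => ?_
    rw [← hc, St1.IX_apply]
    calc |D.I (a : F2 E4 M) (S.A e p b : F2 E4 M)|
        ≤ C * ∫ x, D.nr (S.A e p b : F2 E4 M) x ∂D.μ := I_le_int D a _ hC
      _ ≤ C * (K * D.n2 (b : F2 E4 M)) := by
          have := hK e p he hee hp b
          gcongr
      _ = _ := by ring

/-- **the square of the smoothing of `L` is bounded** if `L = ∫ a ∧ ·` on the closed forms. -/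
theorem II_bound {𝒰 : Cover M} (S : SmPack D 𝒰) (a : X2 M) (ha : a ∈ Z2 M) :
    ∃ K : ℝ, 0 ≤ K ∧ ∀ L : X2 M →ₗ[ℝ] ℝ,
      (∀ b ∈ Z2 M, L b = D.I (a : F2 E4 M) ((b : X2 M) : F2 E4 M)) →
      ∀ e p, 0 < e → e ≤ S.e0 → p ∈ S.clp 0 → ∀ η ∈ Z2 M,
      (∀ b : X2 M, D.I ((η : X2 M) : F2 E4 M) (b : F2 E4 M) = L (S.A e p b)) →
      |D.I ((η : X2 M) : F2 E4 M) ((η : X2 M) : F2 E4 M)| ≤ K := by
  obtain ⟨K, hK0, hK⟩ := exists_adj D S a ha
  refine ⟨K ^ 2, by positivity, fun L hL e p he hee hp η hη h => ?_⟩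
  obtain ⟨c, hcZ, hc, hcK⟩ := hK e p he hee hp
  have h1 : ∀ b ∈ Z2 M, D.I ((η : X2 M) : F2 E4 M) ((b : X2 M) : F2 E4 M) =
      D.I (c : F2 E4 M) ((b : X2 M) : F2 E4 M) := by
    intro b hb
    rw [h, hL _ (S.closed e p he hee b hb), hc]
  have h2 : D.I (η : F2 E4 M) (η : F2 E4 M) = D.I (c : F2 E4 M) (c : F2 E4 M) := by
    rw [h1 η hη, I_comm, h1 c hcZ]
  rw [h2]
  refine (I_le D c c).trans ?_
  have := n2_nonneg D (c : F2 E4 M)
  nlinarith

end

end Crest.Agent.R235.N5Ea_861
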