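import Crest.Agent.R235.NWFin_334

/-!
# Row 235, PACKAGE NW (helper334): general families of `J`-discs

`family` : every smooth family `H (s, z)` of holomorphic discs is `C¹`-approximated on compact sets
by families of `J(R·)`-holomorphic discs, for all small scales `R`.
-/

set_option autoImplicit false
set_option maxSynthPendingDepth 3

open Set Filter Metric Topology MeasureTheory
open scoped ContDiff Real

namespace Crest.Agent.R235.NWFam_334

open Crest.Agent.R235.NWDefs_334 Crest.Agent.R235.NWIface_334 Crest.Agent.R235.NWTool_334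
open Crest.Agent.R235.NWSet_334 Crest.Agent.R235.NWLoc_334 Crest.Agent.R235.NWSolve_334
open Crest.Agent.R235.NWFol_334 Crest.Agent.R235.NWFin_334

noncomputable section

/-- **families of discs** near a smooth family of holomorphic discs -/
theorem family {S E : Type} [NormedAddCommGroup S] [NormedSpace ℝ S] [FiniteDimensional ℝ S]
    [NormedAddCommGroup E] [NormedSpace ℂ E] [FiniteDimensional ℂ E] (H : S × ℂ → E)
    (hH : ContDiff ℝ ∞ H) (hol : ∀ s z, dbl (fderiv ℝ (fun y => H (s, y)) z) = 0)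
    (J : E → E →L[ℝ] E) (r : ℝ) (hJ : ACS J r) (k ρ B δ : ℝ) (hρ : 0 < ρ) (hδ : 0 < δ) :
    ∃ R0 : ℝ, 0 < R0 ∧ R0 * B < r ∧ ∀ R : ℝ, 0 < R → R ≤ R0 → ∃ F : S × ℂ → E,
      ContDiffOn ℝ ∞ F (ball 0 k ×ˢ ball 0 ρ) ∧
      (∀ s ∈ ball (0 : S) k, JHol (fun y => J (R • y)) (fun z => F (s, z)) (ball 0 ρ)) ∧
      (∀ s ∈ ball (0 : S) k, ∀ z ∈ ball (0 : ℂ) ρ, R • F (s, z) ∈ ball (0 : E) r ∧
        ‖F (s, z) - H (s, z)‖ ≤ δ ∧ ‖fderiv ℝ F (s, z) - fderiv ℝ H (s, z)‖ ≤ δ) ∧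
      ∀ s ∈ ball (0 : S) k, ∀ z ∈ ball (0 : ℂ) ρ, ∀ v : S,
        ‖fderiv ℝ (fun y => fderiv ℝ F (s, y) (v, 0) - fderiv ℝ H (s, y) (v, 0)) z‖ ≤
          δ * ‖v‖ := by
  haveI : FiniteDimensional ℝ E := FiniteDimensional.complexToReal E
  haveI : ProperSpace S := FiniteDimensional.proper ℝ S
  obtain ⟨N0, hsolve⟩ := solver E ρ 0 hρ le_rfl
  let ψ : ContDiffBump (0 : ℂ) := ⟨ρ, ρ + 1, hρ, by linarith⟩
  obtain ⟨c, hc, hcf, hcd, hcv⟩ := exists_family fam ψ H hH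
  -- bound of the family
  obtain ⟨C1, hC1⟩ : ∃ C1 : ℝ, ∀ s ∈ closedBall (0 : S) k, ‖c s‖ ≤ C1 := by
    obtain ⟨C, hC⟩ := (isCompact_closedBall (0 : S) k).exists_bound_of_continuousOn
      hc.continuous.continuousOn
    exact ⟨C, hC⟩
  obtain ⟨C2', hC2'⟩ : ∃ C2 : ℝ, ∀ s ∈ closedBall (0 : S) k, ‖fderiv ℝ c s‖ ≤ C2 := by
    have h1 : ContDiff ℝ 0 (fderiv ℝ c) := hc.fderiv_right (by simp)
    obtain ⟨C, hC⟩ := (isCompact_closedBall (0 : S) k).exists_bound_of_continuousOn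
      h1.continuous.continuousOn
    exact ⟨C, hC⟩
  set C2 := max C2' 0 with hC2
  have hC20 : 0 ≤ C2 := le_max_right _ _
  let N : ℝ := max (max (max N0 (C1 + 1)) B) 1
  have hNpos : 0 < N := lt_of_lt_of_le one_pos (le_max_right _ _)
  let ε : ℝ := δ / (C2 + 1)
  have hε : 0 < ε := by positivity
  have hεδ : ε ≤ δ := div_le_self hδ.le (by linarith)
  obtain ⟨R0, hR0, hR0r, hR⟩ := hsolve N
    (((le_max_left _ _).trans (le_max_left _ _)).trans (le_max_left _ _)) ε hε J r hJ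
  have hN1 : B ≤ N := (le_max_right _ _).trans (le_max_left _ _)
  have hN2 : C1 + 1 ≤ N := ((le_max_right _ _).trans (le_max_left _ _)).trans (le_max_left _ _)
  refine ⟨R0, hR0, ?_, fun R hRpos hRR0 => ?_⟩
  · have : R0 * B ≤ R0 * (N + ε + 1) := by
      refine mul_le_mul_of_nonneg_left ?_ hR0.le
      linarith
    linarith
  obtain ⟨Ψ, hΨ⟩ := hR R hRpos hRR0
  have hcN : ∀ s ∈ closedBall (0 : S) k, c s ∈ ball (0 : C1a (1/2) ℂ E) N := by
    intro s hs
    rw [mem_ball_zero_iff]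
    have := hC1 s hs
    linarith
  have hin : ∀ z ∈ ball (0 : ℂ) ρ, ∃ t > 0, ball z t ⊆ ball 0 ρ := by
    intro z hz
    exact Metric.isOpen_iff.1 isOpen_ball z hz
  have hHd : ∀ s z, HasFDerivAt (fun y => H (s, y))
      ((fderiv ℝ H (s, z)).comp (ContinuousLinearMap.inr ℝ S ℂ)) z := by
    intro s z
    exact HasFDerivAt.comp (f := fun y : ℂ => ((s, y) : S × ℂ)) z
      (hH.differentiable (by simp) (s, z)).hasFDerivAt (hasFDerivAt_prodMk_right s z)
  have hder : ∀ s : S, ∀ z ∈ ball (0 : ℂ) ρ,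
      C1d (c s) z = (fderiv ℝ H (s, z)).comp (ContinuousLinearMap.inr ℝ S ℂ) := by
    intro s z hz
    obtain ⟨t, ht, hsub⟩ := hin z hz
    exact hcd s z t ht hsub _ (hHd s z)
  have hdbl : ∀ s : S, ∀ z ∈ ball (0 : ℂ) ρ, dbl (C1d (c s) z) = 0 := by
    intro s z hz
    rw [hder s z hz, ← (hHd s z).fderiv]
    exact hol s z
  have hψ1 : ∀ z ∈ ball (0 : ℂ) ρ, ψ z = 1 := fun z hz =>
    ψ.one_of_mem_closedBall (ball_subset_closedBall hz)
  have hcH : ∀ s : S, ∀ z ∈ ball (0 : ℂ) ρ, C1f (c s) z = H (s, z) := fun s z hz => by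
    rw [hcf, hψ1 z hz, one_smul]
  have hcHv : ∀ s : S, ∀ z ∈ ball (0 : ℂ) ρ, ∀ v,
      C1f (fderiv ℝ c s v) z = fderiv ℝ H (s, z) (v, 0) := fun s z hz v => by
    rw [hcv, hψ1 z hz, one_smul]
  let F : S × ℂ → E := fun p => C1f (Ψ (c p.1)) p.2
  have hFat : ∀ s ∈ ball (0 : S) k, ∀ z ∈ ball (0 : ℂ) ρ, ContDiffAt ℝ ∞ F (s, z) := by
    intro s hs z hz
    obtain ⟨t, ht, hsub⟩ := hin z hz
    exact hΨ.joint S c s hc.contDiffAt (hcN _ (ball_subset_closedBall hs)) z hz t ht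
      (Eventually.of_forall fun s z hz => hdbl s z (hsub hz))
  -- derivative in `z`
  have e2 : ∀ s ∈ ball (0 : S) k, ∀ z ∈ ball (0 : ℂ) ρ, ∀ v : ℂ,
      fderiv ℝ F (s, z) (0, v) = C1d (Ψ (c s)) z v := by
    intro s hs z hz v
    have hFd : DifferentiableAt ℝ F (s, z) := (hFat s hs z hz).differentiableAt (by simp)
    have h1 : HasFDerivAt (fun y => F (s, y))
        ((fderiv ℝ F (s, z)).comp (ContinuousLinearMap.inr ℝ S ℂ)) z :=
      HasFDerivAt.comp (f := fun y : ℂ => ((s, y) : S × ℂ)) z hFd.hasFDerivAt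
        (hasFDerivAt_prodMk_right s z)
    have h2 := h1.unique (c1_fd (Ψ (c s)) z)
    exact congrArg (fun L : ℂ →L[ℝ] E => L v) h2
  -- derivative in `s`
  have e1 : ∀ s ∈ ball (0 : S) k, ∀ z ∈ ball (0 : ℂ) ρ, ∀ v : S,
      fderiv ℝ F (s, z) (v, 0) = C1f (fderiv ℝ Ψ (c s) (fderiv ℝ c s v)) z := by
    intro s hs z hz v
    have hFd : DifferentiableAt ℝ F (s, z) := (hFat s hs z hz).differentiableAt (by simp)
    have hmem := hcN _ (ball_subset_closedBall hs)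
    have h1 : HasFDerivAt (fun y => F (y, z))
        ((fderiv ℝ F (s, z)).comp (ContinuousLinearMap.inl ℝ S ℂ)) s :=
      HasFDerivAt.comp (f := fun y : S => ((y, z) : S × ℂ)) s hFd.hasFDerivAt
        (hasFDerivAt_prodMk_left s z)
    have h3 : HasFDerivAt Ψ (fderiv ℝ Ψ (c s)) (c s) :=
      ((hΨ.smooth.contDiffAt (isOpen_ball.mem_nhds hmem)).differentiableAt
        (by simp)).hasFDerivAt
    have h4 : HasFDerivAt c (fderiv ℝ c s) s :=
      (hc.differentiable (by simp) s).hasFDerivAt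
    have h5 : HasFDerivAt (fun y => F (y, z))
        ((ev0 (a := 1/2) (E := E) z).comp
          ((fderiv ℝ Ψ (c s)).comp (fderiv ℝ c s))) s :=
      (ev0 (a := 1/2) (E := E) z).hasFDerivAt.comp s (h3.comp s h4)
    have h6 := h1.unique h5
    exact congrArg (fun L : S →L[ℝ] E => L v) h6
  have nbd : ∀ s ∈ ball (0 : S) k, ∀ v : S,
      ‖fderiv ℝ Ψ (c s) (fderiv ℝ c s v) - fderiv ℝ c s v‖ ≤ ε * (C2 * ‖v‖) := by
    intro s hs v
    have hmem := hcN _ (ball_subset_closedBall hs)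
    refine (hΨ.deriv _ hmem _).trans ?_
    refine mul_le_mul_of_nonneg_left ?_ hε.le
    exact ((fderiv ℝ c s).le_opNorm v).trans (mul_le_mul_of_nonneg_right
      ((hC2' s (ball_subset_closedBall hs)).trans (le_max_left _ _)) (norm_nonneg _))
  have hεC : ε * (C2 + 1) = δ := by
    show δ / (C2 + 1) * (C2 + 1) = δ
    field_simp
  refine ⟨F, fun p hp => (hFat p.1 hp.1 p.2 hp.2).contDiffWithinAt, fun s hs z hz => ?_,
    fun s hs z hz => ?_, fun s hs z hz v => ?_⟩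
  · have hmem := hcN _ (ball_subset_closedBall hs)
    have hj := hΨ.jhol _ hmem z hz (hdbl s z hz)
    have e : fderiv ℝ (fun z => F (s, z)) z = C1d (Ψ (c s)) z := c1_fderiv (Ψ (c s)) z
    refine ⟨c1_diff (Ψ (c s)) z, fun v => ?_⟩
    rw [e]
    exact hj v
  · have hmem := hcN _ (ball_subset_closedBall hs)
    have hclose := hΨ.close _ hmem
    have hFn : ‖F (s, z)‖ < N + ε := by
      have h1 : ‖Ψ (c s)‖ ≤ ‖Ψ (c s) - c s‖ + ‖c s‖ := by
        calc ‖Ψ (c s)‖ = ‖(Ψ (c s) - c s) + c s‖ := by rw [sub_add_cancel]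
          _ ≤ _ := norm_add_le _ _
      have h2 : ‖c s‖ < N := mem_ball_zero_iff.1 hmem
      have h3 : ‖F (s, z)‖ ≤ ‖Ψ (c s)‖ := norm_f_le (by norm_num) _ _
      linarith
    refine ⟨?_, ?_, ?_⟩
    · rw [mem_ball_zero_iff, norm_smul, Real.norm_of_nonneg hRpos.le]
      calc R * ‖F (s, z)‖ ≤ R0 * (N + ε + 1) :=
            mul_le_mul hRR0 (by linarith) (norm_nonneg _) hR0.le
        _ < r := hR0r
    · have h1 : F (s, z) - H (s, z) = C1f (Ψ (c s) - c s) z := by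
        rw [f_sub, hcH s z hz]
      rw [h1]
      exact (norm_f_le (by norm_num) _ _).trans (hclose.trans hεδ)
    · refine ContinuousLinearMap.opNorm_le_bound _ hδ.le fun v => ?_
      have hv : v = (v.1, 0) + (0, v.2) := by simp
      have hdx : C1d (c s) z v.2 = fderiv ℝ H (s, z) (0, v.2) := by
        rw [hder s z hz]; rfl
      have e3 : (fderiv ℝ F (s, z) - fderiv ℝ H (s, z)) v =
          C1f (fderiv ℝ Ψ (c s) (fderiv ℝ c s v.1) - fderiv ℝ c s v.1) z +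
          C1d (Ψ (c s) - c s) z v.2 := by
        rw [f_sub, d_sub, hcHv s z hz, _root_.sub_apply, _root_.sub_apply, hdx,
          ← e1 s hs z hz, ← e2 s hs z hz]
        conv_lhs => rw [hv]
        rw [map_add, map_add]
        abel
      rw [e3]
      have n1 : ‖C1f (fderiv ℝ Ψ (c s) (fderiv ℝ c s v.1) - fderiv ℝ c s v.1) z‖ ≤
          ε * (C2 * ‖v‖) :=
        ((norm_f_le (by norm_num) _ _).trans (nbd s hs v.1)).trans
          (mul_le_mul_of_nonneg_left (mul_le_mul_of_nonneg_left (norm_fst_le v) hC20) hε.le)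
      have n2 : ‖C1d (Ψ (c s) - c s) z v.2‖ ≤ ε * ‖v‖ :=
        (ContinuousLinearMap.le_opNorm _ _).trans (mul_le_mul
          ((norm_d_le (by norm_num) _ _).trans hclose) (norm_snd_le v) (norm_nonneg _) hε.le)
      calc _ ≤ ε * (C2 * ‖v‖) + ε * ‖v‖ := (norm_add_le _ _).trans (add_le_add n1 n2)
        _ = (ε * (C2 + 1)) * ‖v‖ := by ring
        _ = δ * ‖v‖ := by rw [hεC]
  · -- the mixed derivative
    let e : C1a (1/2) ℂ E := fderiv ℝ Ψ (c s) (fderiv ℝ c s v) - fderiv ℝ c s v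
    have h1 : (fun y => fderiv ℝ F (s, y) (v, 0) - fderiv ℝ H (s, y) (v, 0)) =ᶠ[𝓝 z]
        C1f e := by
      filter_upwards [isOpen_ball.mem_nhds hz] with y hy
      rw [e1 s hs y hy, ← hcHv s y hy]
      rfl
    rw [h1.fderiv_eq, c1_fderiv]
    calc ‖C1d e z‖ ≤ ‖e‖ := norm_d_le (by norm_num) _ _
      _ ≤ ε * (C2 * ‖v‖) := nbd s hs v
      _ ≤ (ε * (C2 + 1)) * ‖v‖ := by
        have := norm_nonneg v
        nlinarith
      _ = δ * ‖v‖ := by rw [hεC]

end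

end Crest.Agent.R235.NWFam_334
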