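import Crest.Agent.R235.NWSolve_334

/-!
# Row 235, PACKAGE NW (helper334): local `J`-disc foliations (`FolStmt`)
-/

set_option autoImplicit false
set_option maxSynthPendingDepth 3

open Set Filter Metric Topology MeasureTheory
open scoped ContDiff Real

namespace Crest.Agent.R235.NWFol_334

open Crest.Agent.R235.NWDefs_334 Crest.Agent.R235.NWIface_334 Crest.Agent.R235.NWTool_334
open Crest.Agent.R235.NWSet_334 Crest.Agent.R235.NWLoc_334 Crest.Agent.R235.NWSolve_334

noncomputable section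

/-- families: smooth maps to `C1a` from smooth functions of two variables, with the derivative -/
theorem exists_family (hF : FamStmt) {S E : Type} [NormedAddCommGroup S] [NormedSpace ℝ S]
    [FiniteDimensional ℝ S] [NormedAddCommGroup E] [NormedSpace ℝ E] [FiniteDimensional ℝ E]
    (ψ : ContDiffBump (0 : ℂ)) (H : S × ℂ → E) (hH : ContDiff ℝ ∞ H) :
    ∃ c : S → C1a (1/2) ℂ E, ContDiff ℝ ∞ c ∧ (∀ s z, C1f (c s) z = ψ z • H (s, z)) ∧
      (∀ s z, ∀ t > 0, ball z t ⊆ ball 0 ψ.rIn → ∀ L : ℂ →L[ℝ] E,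
        HasFDerivAt (fun y => H (s, y)) L z → C1d (c s) z = L) ∧
      ∀ s v z, C1f (fderiv ℝ c s v) z = ψ z • fderiv ℝ H (s, z) (v, 0) := by
  obtain ⟨c, hc, hcf⟩ := hF S E (1/2) (by norm_num) (by norm_num)
    (fun p : S × ℂ => ψ p.2 • H p) ψ.rOut ((ψ.contDiff.comp contDiff_snd).smul hH)
    (fun s z hz => by
      show ψ z • H (s, z) = 0
      rw [ψ.zero_of_le_dist (by rw [dist_zero_right]; exact hz), zero_smul])
  refine ⟨c, hc, hcf, fun s z t ht hsub L hL => ?_, fun s v z => ?_⟩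
  · have h1 : C1f (c s) =ᶠ[𝓝 z] fun y => H (s, y) := by
      filter_upwards [isOpen_ball.mem_nhds (mem_ball_self ht)] with y hy
      rw [hcf]
      show ψ y • H (s, y) = H (s, y)
      rw [ψ.one_of_mem_closedBall (ball_subset_closedBall (hsub hy)), one_smul]
    exact (c1_fd (c s) z).unique (hL.congr_of_eventuallyEq h1)
  · have hd : HasFDerivAt c (fderiv ℝ c s) s := (hc.differentiable (by simp) s).hasFDerivAt
    have h1 : HasFDerivAt (fun s => C1f (c s) z)
        ((ev0 (a := 1/2) (E := E) z).comp (fderiv ℝ c s)) s :=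
      (ev0 (a := 1/2) (E := E) z).hasFDerivAt.comp s hd
    have h2 : HasFDerivAt (fun s => ψ z • H (s, z))
        (ψ z • (fderiv ℝ H (s, z)).comp (ContinuousLinearMap.inl ℝ S ℂ)) s := by
      have h3 : HasFDerivAt H (fderiv ℝ H (s, z)) (s, z) :=
        (hH.differentiable (by simp) (s, z)).hasFDerivAt
      exact (h3.comp s (hasFDerivAt_prodMk_left s z)).const_smul (ψ z)
    have h4 : (fun s => C1f (c s) z) = fun s => ψ z • H (s, z) := funext fun s => hcf s z
    rw [h4] at h1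
    have h5 := h1.unique h2
    have h6 := congrArg (fun L : S →L[ℝ] E => L v) h5
    exact h6

/-- **FOL** -/
theorem fol (hT : CauchyStmt) (hN : NStmt) (hF : FamStmt) : FolStmt := by
  intro J r hJ δ hδ
  obtain ⟨N0, hsolve⟩ := exists_solver hT hN hF (ℂ × ℂ) 5 0 (by norm_num) le_rfl
  let ψ : ContDiffBump (0 : ℂ) := ⟨5, 6, by norm_num, by norm_num⟩
  obtain ⟨c, hc, hcf, hcd, hcv⟩ := exists_family hF ψ (fun p : ℂ × ℂ => p) contDiff_id
  -- bound of the family
  obtain ⟨C1, hC1⟩ : ∃ C1 : ℝ, ∀ s ∈ closedBall (0 : ℂ) 4, ‖c s‖ ≤ C1 := by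
    obtain ⟨x, _, hx⟩ := (isCompact_closedBall (0 : ℂ) 4).exists_isMaxOn
      ⟨0, mem_closedBall_self (by norm_num)⟩ hc.continuous.norm.continuousOn
    exact ⟨‖c x‖, fun s hs => hx hs⟩
  -- the derivative of the family does not depend on `s`
  have hcst : ∀ s v, fderiv ℝ c s v = fderiv ℝ c 0 v := by
    intro s v
    refine c1_ext fun z => ?_
    rw [hcv, hcv]
    congr 1
    have e : ∀ p : ℂ × ℂ, fderiv ℝ (fun p : ℂ × ℂ => p) p = ContinuousLinearMap.id ℝ _ :=
      fun p => fderiv_id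
    rw [e, e]
  set C2 := ‖fderiv ℝ c 0‖ with hC2
  have hC20 : 0 ≤ C2 := norm_nonneg _
  let N : ℝ := max (max N0 (C1 + 1)) (4 * (1 + δ))
  let ε : ℝ := δ / (C2 + 1)
  have hε : 0 < ε := by positivity
  have hεδ : ε ≤ δ := div_le_self hδ.le (by linarith)
  obtain ⟨R0, hR0, hR0r, hR⟩ := hsolve N ((le_max_left _ _).trans (le_max_left _ _)) ε hε J r hJ
  have hN1 : 4 * (1 + δ) ≤ N := le_max_right _ _
  have hN2 : C1 + 1 ≤ N := (le_max_right _ _).trans (le_max_left _ _)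
  refine ⟨R0, hR0, ?_, fun R hRpos hRR0 => ?_⟩
  · have : R0 * (4 * (1 + δ)) ≤ R0 * (N + ε + 1) := by
      refine mul_le_mul_of_nonneg_left ?_ hR0.le
      linarith
    linarith
  obtain ⟨Ψ, hΨ⟩ := hR R hRpos hRR0
  have hcN : ∀ s ∈ closedBall (0 : ℂ) 4, c s ∈ ball (0 : C1a (1/2) ℂ (ℂ × ℂ)) N := by
    intro s hs
    rw [mem_ball_zero_iff]
    have := hC1 s hs
    linarith
  have hin : ∀ z ∈ ball (0 : ℂ) 5, ∃ t > 0, ball z t ⊆ ball 0 5 := by
    intro z hz
    refine ⟨5 - dist z 0, ?_, ?_⟩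
    · have : dist z 0 < 5 := hz
      linarith
    · refine ball_subset_ball' ?_
      linarith
  have hder : ∀ s : ℂ, ∀ z ∈ ball (0 : ℂ) 5, C1d (c s) z = ContinuousLinearMap.inr ℝ ℂ ℂ := by
    intro s z hz
    obtain ⟨t, ht, hsub⟩ := hin z hz
    exact hcd s z t ht hsub _ (hasFDerivAt_prodMk_right s z)
  have hdbl : ∀ s : ℂ, ∀ z ∈ ball (0 : ℂ) 5, dbl (C1d (c s) z) = 0 := by
    intro s z hz
    rw [hder s z hz, dbl_eq_zero_iff]
    ext <;> simp
  let F : ℂ × ℂ → ℂ × ℂ := fun p => C1f (Ψ (c p.1)) p.2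
  have h45 : ball (0 : ℂ) 4 ⊆ ball 0 5 := ball_subset_ball (by norm_num)
  have hFat : ∀ x ∈ ball (0 : ℂ × ℂ) 4, ContDiffAt ℝ ∞ F x := by
    intro x hx
    have hx1 : x.1 ∈ ball (0 : ℂ) 4 := by
      rw [mem_ball_zero_iff] at hx ⊢
      exact (norm_fst_le x).trans_lt hx
    have hx2 : x.2 ∈ ball (0 : ℂ) 4 := by
      rw [mem_ball_zero_iff] at hx ⊢
      exact (norm_snd_le x).trans_lt hx
    obtain ⟨t, ht, hsub⟩ := hin x.2 (h45 hx2)
    exact hΨ.joint ℂ c x.1 hc.contDiffAt (hcN _ (ball_subset_closedBall hx1)) x.2 (h45 hx2) t ht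
      (Eventually.of_forall fun s z hz => hdbl s z (hsub hz))
  refine ⟨F, fun x hx => (hFat x hx).contDiffWithinAt, fun x hx => ?_, fun s hs z hz => ?_⟩
  · have hx1 : x.1 ∈ ball (0 : ℂ) 4 := by
      rw [mem_ball_zero_iff] at hx ⊢
      exact (norm_fst_le x).trans_lt hx
    have hx2 : x.2 ∈ ball (0 : ℂ) 5 := by
      rw [mem_ball_zero_iff] at hx ⊢
      exact (norm_snd_le x).trans_lt (hx.trans (by norm_num))
    have hmem := hcN _ (ball_subset_closedBall hx1)
    have hcx : C1f (c x.1) x.2 = x := by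
      rw [hcf, ψ.one_of_mem_closedBall (ball_subset_closedBall hx2), one_smul]
    have hclose := hΨ.close _ hmem
    refine ⟨?_, ?_⟩
    · have h1 : F x - x = C1f (Ψ (c x.1) - c x.1) x.2 := by
        rw [f_sub, hcx]
      rw [h1]
      exact (norm_f_le (by norm_num) _ _).trans (hclose.trans hεδ)
    · -- the derivative
      have hFd : DifferentiableAt ℝ F x := (hFat x hx).differentiableAt (by simp)
      refine ContinuousLinearMap.opNorm_le_bound _ hδ.le fun v => ?_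
      have hv : v = (v.1, 0) + (0, v.2) := by simp
      -- derivative in `z`
      have e2 : fderiv ℝ F x (0, v.2) = C1d (Ψ (c x.1)) x.2 v.2 := by
        have h1 : HasFDerivAt (fun y => F (x.1, y))
            ((fderiv ℝ F x).comp (ContinuousLinearMap.inr ℝ ℂ ℂ)) x.2 :=
          HasFDerivAt.comp (f := fun y : ℂ => ((x.1, y) : ℂ × ℂ)) x.2 hFd.hasFDerivAt
            (hasFDerivAt_prodMk_right x.1 x.2)
        have h2 := h1.unique (c1_fd (Ψ (c x.1)) x.2)
        exact congrArg (fun L : ℂ →L[ℝ] ℂ × ℂ => L v.2) h2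
      -- derivative in `s`
      have e1 : fderiv ℝ F x (v.1, 0) = C1f (fderiv ℝ Ψ (c x.1) (fderiv ℝ c x.1 v.1)) x.2 := by
        have h1 : HasFDerivAt (fun y => F (y, x.2))
            ((fderiv ℝ F x).comp (ContinuousLinearMap.inl ℝ ℂ ℂ)) x.1 :=
          HasFDerivAt.comp (f := fun y : ℂ => ((y, x.2) : ℂ × ℂ)) x.1 hFd.hasFDerivAt
            (hasFDerivAt_prodMk_left x.1 x.2)
        have h3 : HasFDerivAt Ψ (fderiv ℝ Ψ (c x.1)) (c x.1) :=
          ((hΨ.smooth.contDiffAt (isOpen_ball.mem_nhds hmem)).differentiableAt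
            (by simp)).hasFDerivAt
        have h4 : HasFDerivAt c (fderiv ℝ c x.1) x.1 :=
          (hc.differentiable (by simp) x.1).hasFDerivAt
        have h5 : HasFDerivAt (fun y => F (y, x.2))
            ((ev0 (a := 1/2) (E := ℂ × ℂ) x.2).comp
              ((fderiv ℝ Ψ (c x.1)).comp (fderiv ℝ c x.1))) x.1 :=
          (ev0 (a := 1/2) (E := ℂ × ℂ) x.2).hasFDerivAt.comp x.1 (h3.comp x.1 h4)
        have h6 := h1.unique h5
        exact congrArg (fun L : ℂ →L[ℝ] ℂ × ℂ => L v.1) h6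
      have hcv' : C1f (fderiv ℝ c x.1 v.1) x.2 = (v.1, 0) := by
        rw [hcv, ψ.one_of_mem_closedBall (ball_subset_closedBall hx2), one_smul]
        have : fderiv ℝ (fun p : ℂ × ℂ => p) (x.1, x.2) = ContinuousLinearMap.id ℝ _ :=
          fderiv_id
        rw [this]; rfl
      have hdx : C1d (c x.1) x.2 v.2 = (0, v.2) := by
        rw [hder x.1 x.2 hx2]; rfl
      have e3 : (fderiv ℝ F x - ContinuousLinearMap.id ℝ (ℂ × ℂ)) v =
          C1f (fderiv ℝ Ψ (c x.1) (fderiv ℝ c x.1 v.1) - fderiv ℝ c x.1 v.1) x.2 +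
          C1d (Ψ (c x.1) - c x.1) x.2 v.2 := by
        rw [f_sub, d_sub, hcv', _root_.sub_apply, _root_.sub_apply, hdx, ← e1, ← e2]
        conv_lhs => rw [hv]
        rw [map_add]
        show _ + _ - ((v.1, (0:ℂ)) + ((0:ℂ), v.2)) = _
        abel
      rw [e3]
      have n1 : ‖C1f (fderiv ℝ Ψ (c x.1) (fderiv ℝ c x.1 v.1) - fderiv ℝ c x.1 v.1) x.2‖ ≤
          ε * (C2 * ‖v‖) := by
        refine (norm_f_le (by norm_num) _ _).trans ((hΨ.deriv _ hmem _).trans ?_)
        refine mul_le_mul_of_nonneg_left ?_ hε.le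
        rw [hcst]
        exact ((fderiv ℝ c 0).le_opNorm v.1).trans
          (mul_le_mul_of_nonneg_left (norm_fst_le v) hC20)
      have n2 : ‖C1d (Ψ (c x.1) - c x.1) x.2 v.2‖ ≤ ε * ‖v‖ :=
        (ContinuousLinearMap.le_opNorm _ _).trans (mul_le_mul
          ((norm_d_le (by norm_num) _ _).trans hclose) (norm_snd_le v) (norm_nonneg _) hε.le)
      calc _ ≤ ε * (C2 * ‖v‖) + ε * ‖v‖ := (norm_add_le _ _).trans (add_le_add n1 n2)
        _ = (ε * (C2 + 1)) * ‖v‖ := by ring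
        _ = δ * ‖v‖ := by
          congr 1
          show δ / (C2 + 1) * (C2 + 1) = δ
          field_simp
  · have hmem := hcN _ (ball_subset_closedBall hs)
    have hj := hΨ.jhol _ hmem z (h45 hz) (hdbl s z (h45 hz))
    have e : fderiv ℝ (fun z => F (s, z)) z = C1d (Ψ (c s)) z := c1_fderiv (Ψ (c s)) z
    refine ⟨c1_diff (Ψ (c s)) z, fun v => ?_⟩
    rw [e]
    exact hj v

end

end Crest.Agent.R235.NWFol_334
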