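import Crest.Agent.R235.NWJ2_130
import Crest.Agent.R235.NWIface_334

/-!
# Row 235 (S0364), PACKAGE NW, leaf J (helper130): `jstmt : JStmt`
-/

set_option autoImplicit false
set_option maxSynthPendingDepth 3

open Set Filter Metric Topology
open scoped ContDiff Real

namespace Crest.Agent.R235.NWJ3_130

open Crest.Agent.R235.NWDefs_334 Crest.Agent.R235.NWIface_334 Crest.Agent.R235.NWJ_130

/-- **leaf J of package NW** -/
theorem jstmt : JStmt := by
  intro E _ _ _ J r hJ B η _ hη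
  obtain ⟨R0, h0, hB, h⟩ := exists_A hJ B η hη
  refine ⟨R0, h0, hB, fun R hR hR0 => ?_⟩
  obtain ⟨A, h1, -, -, h2, h3, h4, -, h5⟩ := h R hR hR0
  exact ⟨A, h1, fun x => ⟨h2 x, h3 x, h4 x⟩, fun x hx L => (h5 x hx).2 L⟩

end Crest.Agent.R235.NWJ3_130
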