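import Crest.Agent.R235.NWDefs_334

/-!
# Row 235 (S0364), PACKAGE NW, leaf J (helper130)

* `dl_add_dbl`, ... : linear algebra of `ℂ →L[ℝ] E`
* `exists_A`        : at every small scale `R` the equation of `J(R·)`-holomorphic discs is
  `∂̄ w = A(w) ∂w` with `A` smooth, compactly supported, antilinear and `C²`-small.
-/

set_option autoImplicit false
set_option maxSynthPendingDepth 3
set_option linter.style.haveILetI false

open Set Filter Metric Topology
open scoped ContDiff Real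

namespace Crest.Agent.R235.NWJ_130

open Crest.Agent.R235.NWDefs_334

noncomputable section

section lin

variable {E : Type*} [NormedAddCommGroup E] [NormedSpace ℂ E]

theorem L_eq (L : ℂ →L[ℝ] E) (v : ℂ) : L v = v.re • L 1 + v.im • L Complex.I := by
  have h : v = v.re • (1 : ℂ) + v.im • Complex.I := by
    apply Complex.ext <;> simp
  conv_lhs => rw [h]
  rw [map_add, map_smul, map_smul]

theorem L_one (L : ℂ →L[ℝ] E) : L 1 = dl L + dbl L := by
  unfold dl dbl
  rw [← smul_add]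
  have : L 1 - Complex.I • L Complex.I + (L 1 + Complex.I • L Complex.I) = (2 : ℂ) • L 1 := by
    rw [two_smul]; abel
  rw [this, smul_smul, inv_mul_cancel₀ (by norm_num), one_smul]

theorem L_I (L : ℂ →L[ℝ] E) : L Complex.I = Complex.I • (dl L - dbl L) := by
  unfold dl dbl
  rw [← smul_sub]
  have : L 1 - Complex.I • L Complex.I - (L 1 + Complex.I • L Complex.I) =
      (-2 : ℂ) • (Complex.I • L Complex.I) := by
    rw [neg_smul, two_smul]; abel
  rw [this, smul_smul, smul_smul, smul_smul]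
  have : Complex.I * (2 : ℂ)⁻¹ * -2 * Complex.I = 1 := by
    have : Complex.I * (2 : ℂ)⁻¹ * -2 * Complex.I = - (Complex.I * Complex.I) := by ring
    rw [this, Complex.I_mul_I, neg_neg]
  rw [this, one_smul]

/-- `L v = v p + v̄ q` -/
theorem L_eq' (L : ℂ →L[ℝ] E) (v : ℂ) : L v = v • dl L + (starRingEnd ℂ v) • dbl L := by
  rw [L_eq L v, L_one, L_I]
  have h1 : ∀ (x : ℝ) (e : E), x • e = (x : ℂ) • e := fun x e => rfl
  rw [h1, h1, smul_add, smul_sub, smul_sub, smul_smul, smul_smul]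
  have h2 : v • dl L = (v.re : ℂ) • dl L + ((v.im : ℂ) * Complex.I) • dl L := by
    rw [← add_smul]; congr 1; exact (Complex.re_add_im v).symm
  have h3 : (starRingEnd ℂ v) • dbl L = (v.re : ℂ) • dbl L - ((v.im : ℂ) * Complex.I) • dbl L := by
    rw [← sub_smul]; congr 1
    apply Complex.ext <;> simp
  rw [h2, h3]; abel

/-- the equation at one vector. -/
theorem jhol_iff (j : E →L[ℝ] E) (hj : ∀ v, j (j v) = -v) (L : ℂ →L[ℝ] E) :
    (∀ v : ℂ, L (Complex.I * v) = j (L v)) ↔ L Complex.I = j (L 1) := by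
  constructor
  · intro h
    have := h 1
    rwa [mul_one] at this
  · intro h v
    have h1 : j (L Complex.I) = - L 1 := by rw [h, hj]
    rw [L_eq L (Complex.I * v), L_eq L v, map_add, map_smul, map_smul, ← h, h1]
    simp only [Complex.mul_re, Complex.I_re, zero_mul, Complex.I_im, one_mul, zero_sub,
      Complex.mul_im, zero_add]
    rw [neg_smul, smul_neg]; abel

/-- multiplication by `i` -/
def iC (E : Type*) [NormedAddCommGroup E] [NormedSpace ℂ E] : E →L[ℝ] E :=
  (Complex.I • ContinuousLinearMap.id ℂ E).restrictScalars ℝ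

@[simp] theorem iC_apply (v : E) : iC E v = Complex.I • v := rfl

/-- the equation in the form `(j + i) q = (i - j) p` -/
theorem jhol_iff' (j : E →L[ℝ] E) (hj : ∀ v, j (j v) = -v) (L : ℂ →L[ℝ] E) :
    (∀ v : ℂ, L (Complex.I * v) = j (L v)) ↔ (j + iC E) (dbl L) = (iC E - j) (dl L) := by
  rw [jhol_iff j hj, L_I, L_one]
  simp only [add_apply, sub_apply, iC_apply, map_add,
    smul_sub]
  constructor
  · intro h
    have : j (dbl L) = Complex.I • dl L - Complex.I • dbl L - j (dl L) := by rw [h]; abel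
    rw [this]; abel
  · intro h
    have : j (dbl L) = Complex.I • dl L - j (dl L) - Complex.I • dbl L := by rw [← h]; abel
    rw [this]; abel

end lin

section A0

variable {E : Type*} [NormedAddCommGroup E] [NormedSpace ℂ E]

/-- `A₀ = (j + i)⁻¹ (i - j)` -/
def A0 (j : E →L[ℝ] E) : E →L[ℝ] E := Ring.inverse (j + iC E) * (iC E - j)

theorem A0_eq_iff {j : E →L[ℝ] E} (hu : IsUnit (j + iC E)) (p q : E) :
    q = A0 j p ↔ (j + iC E) q = (iC E - j) p := by
  constructor
  · rintro rfl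
    change ((j + iC E) * (Ring.inverse (j + iC E) * (iC E - j))) p = _
    rw [← mul_assoc, Ring.mul_inverse_cancel _ hu, one_mul]
  · intro h
    change _ = (Ring.inverse (j + iC E)) ((iC E - j) p)
    rw [← h]
    change _ = (Ring.inverse (j + iC E) * (j + iC E)) q
    rw [Ring.inverse_mul_cancel _ hu]; rfl

theorem A0_anti {j : E →L[ℝ] E} (hj : ∀ v, j (j v) = -v) (hu : IsUnit (j + iC E)) (v : E) :
    A0 j (Complex.I • v) = - (Complex.I • A0 j v) := by
  symm
  rw [A0_eq_iff hu]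
  have h0 : (j + iC E) (A0 j v) = (iC E - j) v := (A0_eq_iff hu v _).1 rfl
  have h1 : ∀ w, (j + iC E) (Complex.I • w) = j ((j + iC E) w) := by
    intro w
    simp only [add_apply, iC_apply, map_add, hj, smul_smul, Complex.I_mul_I,
      neg_smul, one_smul]
    abel
  rw [map_neg, h1, h0]
  simp only [sub_apply, iC_apply, map_sub, hj, smul_smul, Complex.I_mul_I,
      neg_smul, one_smul]
  abel

theorem iC_mul_iC : iC E * iC E = -1 := by
  ext v
  change Complex.I • Complex.I • v = -v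
  rw [smul_smul, Complex.I_mul_I, neg_one_smul]

theorem isUnit_two_iC : IsUnit (iC E + iC E) := by
  refine ⟨⟨iC E + iC E, -((1/2 : ℝ) • (iC E)), ?_, ?_⟩, rfl⟩
  · rw [← two_smul ℝ (iC E), mul_neg, smul_mul_smul_comm, iC_mul_iC]; norm_num
  · rw [← two_smul ℝ (iC E), neg_mul, smul_mul_smul_comm, iC_mul_iC]; norm_num

theorem A0_iC : A0 (iC E) = 0 := by
  unfold A0; rw [sub_self, mul_zero]

end A0

section A

variable {E : Type*} [NormedAddCommGroup E] [NormedSpace ℂ E] [FiniteDimensional ℂ E]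

omit [FiniteDimensional ℂ E] in
theorem J_zero {J : E → E →L[ℝ] E} {r : ℝ} (hJ : ACS J r) : J 0 = iC E := by
  ext v; rw [hJ.zero]; rfl

/-- near `0` the operator `J + i` is invertible -/
theorem exists_unit {J : E → E →L[ℝ] E} {r : ℝ} (hJ : ACS J r) : ∃ ρ : ℝ, 0 < ρ ∧ ρ ≤ r ∧
    ∀ y ∈ ball (0 : E) ρ, IsUnit (J y + iC E) := by
  have hc : ContinuousAt (fun y => J y + iC E) 0 :=
    ((hJ.smooth.continuousOn.continuousAt (ball_mem_nhds _ hJ.pos))).add continuousAt_const
  have h0 : IsUnit (J 0 + iC E) := by rw [J_zero hJ]; exact isUnit_two_iC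
  haveI : CompleteSpace E := FiniteDimensional.complete ℂ E
  have ho : IsOpen {T : E →L[ℝ] E | IsUnit T} := Units.isOpen
  have := hc.preimage_mem_nhds (ho.mem_nhds h0)
  obtain ⟨ρ, hρ, hs⟩ := Metric.mem_nhds_iff.1 this
  refine ⟨min ρ r, lt_min hρ hJ.pos, min_le_right _ _, fun y hy => ?_⟩
  exact hs (ball_subset_ball (min_le_left _ _) hy)

theorem contDiffAt_A0 {J : E → E →L[ℝ] E} {r : ℝ} (hJ : ACS J r) {y : E} (hy : y ∈ ball (0 : E) r)
    (hu : IsUnit (J y + iC E)) : ContDiffAt ℝ ∞ (fun y => A0 (J y)) y := by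
  haveI : CompleteSpace E := FiniteDimensional.complete ℂ E
  have h1 : ContDiffAt ℝ ∞ J y := hJ.smooth.contDiffAt (isOpen_ball.mem_nhds hy)
  have h2 : ContDiffAt ℝ ∞ (fun y => J y + iC E) y := h1.add contDiffAt_const
  obtain ⟨u, hu'⟩ := hu
  have h3 : ContDiffAt ℝ ∞ (Ring.inverse : (E →L[ℝ] E) → (E →L[ℝ] E)) (J y + iC E) := by
    rw [← hu']; exact contDiffAt_ringInverse ℝ u
  have h4 : ContDiffAt ℝ ∞ (fun y => Ring.inverse (J y + iC E)) y :=
    ContDiffAt.comp (f := fun y => J y + iC E) y h3 h2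
  exact h4.mul (contDiffAt_const.sub h1)

/-- the cut off `A₀(J y)`, globally smooth -/
theorem exists_A1 {J : E → E →L[ℝ] E} {r : ℝ} (hJ : ACS J r) : ∃ (ρ : ℝ) (A1 : E → E →L[ℝ] E),
    0 < ρ ∧ ρ ≤ r ∧ ContDiff ℝ ∞ A1 ∧ A1 0 = 0 ∧
    (∀ y ∈ ball (0 : E) ρ, IsUnit (J y + iC E) ∧ A1 y = A0 (J y)) ∧
    ∀ y v, A1 y (Complex.I • v) = -(Complex.I • A1 y v) := by
  obtain ⟨ρ, hρ, hρr, hu⟩ := exists_unit hJ
  let φ : ContDiffBump (0 : E) := ⟨ρ / 3, ρ / 2, by positivity, by linarith⟩
  have hsm : ContDiff ℝ ∞ (fun y => φ y • A0 (J y)) := by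
    rw [contDiff_iff_contDiffAt]
    intro y
    by_cases hy : y ∈ ball (0 : E) ρ
    · exact φ.contDiff.contDiffAt.smul
        (contDiffAt_A0 hJ (ball_subset_ball hρr hy) (hu y hy))
    · have hy' : y ∈ (closedBall (0 : E) (ρ / 2))ᶜ := by
        rw [mem_compl_iff, mem_closedBall]
        rw [mem_ball] at hy
        intro h; exact hy (lt_of_le_of_lt h (by linarith))
      have : (fun y => φ y • A0 (J y)) =ᶠ[𝓝 y] fun _ => 0 := by
        filter_upwards [isClosed_closedBall.isOpen_compl.mem_nhds hy'] with z hz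
        rw [mem_compl_iff, mem_closedBall, not_le] at hz
        rw [φ.zero_of_le_dist hz.le, zero_smul]
      exact (contDiffAt_const (c := (0 : E →L[ℝ] E))).congr_of_eventuallyEq this
  refine ⟨ρ / 3, fun y => φ y • A0 (J y), by positivity, by linarith, hsm, ?_, ?_, ?_⟩
  · change φ 0 • A0 (J 0) = 0
    rw [J_zero hJ, A0_iC, smul_zero]
  · intro y hy
    refine ⟨hu y (ball_subset_ball (by linarith) hy), ?_⟩
    change φ y • A0 (J y) = _
    rw [φ.one_of_mem_closedBall (ball_subset_closedBall hy), one_smul]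
  · intro y v
    change φ y • A0 (J y) (Complex.I • v) = -(Complex.I • φ y • A0 (J y) v)
    by_cases hy : y ∈ ball (0 : E) ρ
    · rw [A0_anti (hJ.sq y (ball_subset_ball hρr hy)) (hu y hy), smul_neg, smul_comm]
    · rw [mem_ball, not_lt] at hy
      rw [φ.zero_of_le_dist (le_trans (show ρ / 2 ≤ ρ by linarith) hy)]
      simp

theorem bd_of_compact {F G : Type*} [NormedAddCommGroup F] [NormedSpace ℝ F]
    [NormedAddCommGroup G] [NormedSpace ℝ G] {f : F → G} (hf : ContDiff ℝ ∞ f)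
    (hs : HasCompactSupport f) : BD f := by
  refine ⟨hf, fun n => ?_⟩
  have h1 : HasCompactSupport (iteratedFDeriv ℝ n f) := hs.iteratedFDeriv n
  have h2 : Continuous (iteratedFDeriv ℝ n f) :=
    hf.continuous_iteratedFDeriv (m := n) (by exact_mod_cast le_top)
  exact h1.exists_bound_of_continuous h2

/-- **leaf J of package NW.** -/
theorem exists_A {J : E → E →L[ℝ] E} {r : ℝ} (hJ : ACS J r) (B η : ℝ) (hη : 0 < η) :
    ∃ R0 : ℝ, 0 < R0 ∧ R0 * B < r ∧ ∀ R : ℝ, 0 < R → R ≤ R0 → ∃ A : E → E →L[ℝ] E,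
      BD A ∧ HasCompactSupport A ∧ A 0 = 0 ∧
      (∀ x, ‖A x‖ ≤ η) ∧ (∀ x, ‖fderiv ℝ A x‖ ≤ η) ∧ (∀ x, ‖fderiv ℝ (fderiv ℝ A) x‖ ≤ η) ∧
      (∀ x v, A x (Complex.I • v) = -(Complex.I • A x v)) ∧
      ∀ x : E, ‖x‖ ≤ B → R • x ∈ ball (0 : E) r ∧ ∀ L : ℂ →L[ℝ] E,
        dbl L = A x (dl L) ↔ ∀ v : ℂ, L (Complex.I * v) = J (R • x) (L v) := by
  obtain ⟨ρ, A1, hρ, hρr, hA1, hA10, hA1J, hanti⟩ := exists_A1 hJ
  let B' : ℝ := max B 1
  have hB' : 0 < B' := lt_of_lt_of_le one_pos (le_max_right _ _)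
  let χ : ContDiffBump (0 : E) := ⟨B', B' + 1, hB', by linarith⟩
  let G : ℝ → E → E →L[ℝ] E := fun R x => χ x • A1 (R • x)
  have hG : ContDiff ℝ ∞ (Function.uncurry G) := by
    change ContDiff ℝ ∞ (fun p : ℝ × E => χ p.2 • A1 (p.1 • p.2))
    exact (χ.contDiff.comp contDiff_snd).smul (hA1.comp (contDiff_fst.smul contDiff_snd))
  have hG1 : ContDiff ℝ ∞ (fun p : ℝ × E => fderiv ℝ (G p.1) p.2) := by
    have h : ContDiff ℝ ∞ (Function.uncurry fun p : ℝ × E => G p.1) := by
      change ContDiff ℝ ∞ (fun q : (ℝ × E) × E => Function.uncurry G (q.1.1, q.2))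
      exact hG.comp ((contDiff_fst.comp contDiff_fst).prodMk contDiff_snd)
    exact h.fderiv contDiff_snd (by simp)
  have hG2 : ContDiff ℝ ∞ (fun p : ℝ × E => fderiv ℝ (fderiv ℝ (G p.1)) p.2) := by
    have h : ContDiff ℝ ∞ (Function.uncurry fun p : ℝ × E => fderiv ℝ (G p.1)) := by
      change ContDiff ℝ ∞ (fun q : (ℝ × E) × E =>
        (fun p : ℝ × E => fderiv ℝ (G p.1) p.2) (q.1.1, q.2))
      exact hG1.comp ((contDiff_fst.comp contDiff_fst).prodMk contDiff_snd)
    exact h.fderiv contDiff_snd (by simp)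
  have hz : G 0 = fun _ => 0 := by
    funext x
    change χ x • A1 ((0 : ℝ) • x) = 0
    rw [zero_smul, hA10, smul_zero]
  have hsupp : ∀ R x, x ∉ closedBall (0 : E) (B' + 1) → G R =ᶠ[𝓝 x] fun _ => 0 := by
    intro R x hx
    filter_upwards [isClosed_closedBall.isOpen_compl.mem_nhds hx] with z hz
    rw [mem_compl_iff, mem_closedBall, not_le] at hz
    change χ z • A1 (R • z) = 0
    rw [χ.zero_of_le_dist hz.le, zero_smul]
  haveI : ProperSpace E := FiniteDimensional.proper ℂ E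
  have hK : IsCompact (closedBall (0 : E) (B' + 1)) := isCompact_closedBall _ _
  have key : ∀ {F : Type _} [NormedAddCommGroup F] (g : ℝ × E → F), Continuous g →
      (∀ x, g (0, x) = 0) → ∀ᶠ R in 𝓝 (0 : ℝ), ∀ x ∈ closedBall (0 : E) (B' + 1),
        ‖g (R, x)‖ < η := by
    intro F _ g hg hg0
    refine hK.eventually_forall_of_forall_eventually (P := fun R x => ‖g (R, x)‖ < η) ?_
    intro y _
    have : Tendsto (fun p : ℝ × E => ‖g p‖) (𝓝 (0, y)) (𝓝 0) := by
      have h := (hg.norm).tendsto (0, y)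
      simpa [hg0] using h
    exact this.eventually (gt_mem_nhds hη)
  have e0 := key (fun p : ℝ × E => G p.1 p.2) hG.continuous (fun x => by
    change G 0 x = 0; rw [hz])
  have e1 := key (fun p : ℝ × E => fderiv ℝ (G p.1) p.2) hG1.continuous (fun x => by
    change fderiv ℝ (G 0) x = 0; rw [hz]; exact fderiv_const_apply _)
  have e2 := key (fun p : ℝ × E => fderiv ℝ (fderiv ℝ (G p.1)) p.2) hG2.continuous (fun x => by
    change fderiv ℝ (fderiv ℝ (G 0)) x = 0
    have : fderiv ℝ (G 0) = fun _ => 0 := by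
      rw [hz]; funext z; exact fderiv_const_apply _
    rw [this]; exact fderiv_const_apply _)
  obtain ⟨d, hd, hd'⟩ := Metric.mem_nhds_iff.1 (e0.and (e1.and e2))
  have hρB : 0 < ρ / (2 * (B' + 1)) := by positivity
  refine ⟨min (d / 2) (ρ / (2 * (B' + 1))), lt_min (by positivity) hρB, ?_, ?_⟩
  · have h1 : min (d / 2) (ρ / (2 * (B' + 1))) * B ≤ ρ / (2 * (B' + 1)) * B' := by
      have ha : min (d / 2) (ρ / (2 * (B' + 1))) ≤ ρ / (2 * (B' + 1)) := min_le_right _ _
      have hb : 0 ≤ min (d / 2) (ρ / (2 * (B' + 1))) := le_min (by positivity) hρB.le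
      calc min (d / 2) (ρ / (2 * (B' + 1))) * B ≤ min (d / 2) (ρ / (2 * (B' + 1))) * B' :=
            mul_le_mul_of_nonneg_left (le_max_left _ _) hb
        _ ≤ _ := mul_le_mul_of_nonneg_right ha hB'.le
    have h2 : ρ / (2 * (B' + 1)) * B' < ρ := by
      rw [div_mul_eq_mul_div, div_lt_iff₀ (by positivity)]
      nlinarith
    linarith
  · intro R hR hR0
    have hRd : R ∈ ball (0 : ℝ) d := by
      rw [mem_ball, Real.dist_eq, sub_zero, abs_of_pos hR]
      exact lt_of_le_of_lt (hR0.trans (min_le_left _ _)) (by linarith)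
    obtain ⟨f0, f1, f2⟩ := hd' hRd
    have hcs : HasCompactSupport (G R) := by
      refine HasCompactSupport.intro hK fun x hx => ?_
      exact (hsupp R x hx).self_of_nhds
    have hsm : ContDiff ℝ ∞ (G R) := hG.comp (contDiff_const.prodMk contDiff_id)
    refine ⟨G R, bd_of_compact hsm hcs, hcs, ?_, ?_, ?_, ?_, ?_, ?_⟩
    · change χ 0 • A1 (R • 0) = 0
      rw [smul_zero, hA10, smul_zero]
    · intro x
      by_cases hx : x ∈ closedBall (0 : E) (B' + 1)
      · exact (f0 x hx).le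
      · rw [(hsupp R x hx).self_of_nhds, norm_zero]; exact hη.le
    · intro x
      by_cases hx : x ∈ closedBall (0 : E) (B' + 1)
      · exact (f1 x hx).le
      · rw [(hsupp R x hx).fderiv_eq, fderiv_const_apply, norm_zero]; exact hη.le
    · intro x
      by_cases hx : x ∈ closedBall (0 : E) (B' + 1)
      · exact (f2 x hx).le
      · have : fderiv ℝ (G R) =ᶠ[𝓝 x] fun _ => 0 := by
          filter_upwards [(hsupp R x hx).fderiv (𝕜 := ℝ)] with z hz'
          rw [hz', fderiv_const_apply]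
        rw [this.fderiv_eq, fderiv_const_apply, norm_zero]; exact hη.le
    · intro x v
      change χ x • A1 (R • x) (Complex.I • v) = -(Complex.I • χ x • A1 (R • x) v)
      rw [hanti, smul_neg, smul_comm]
    · intro x hx
      have hRx : R • x ∈ ball (0 : E) ρ := by
        rw [mem_ball, dist_zero_right, norm_smul, Real.norm_eq_abs, abs_of_pos hR]
        have h1 : R * ‖x‖ ≤ ρ / (2 * (B' + 1)) * B' :=
          mul_le_mul (hR0.trans (min_le_right _ _)) (hx.trans (le_max_left _ _))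
            (norm_nonneg _) hρB.le
        have h2 : ρ / (2 * (B' + 1)) * B' < ρ := by
          rw [div_mul_eq_mul_div, div_lt_iff₀ (by positivity)]
          nlinarith
        linarith
      refine ⟨ball_subset_ball hρr hRx, fun L => ?_⟩
      obtain ⟨hu, hA⟩ := hA1J _ hRx
      have hG' : G R x = A0 (J (R • x)) := by
        change χ x • A1 (R • x) = _
        rw [χ.one_of_mem_closedBall (by
          rw [mem_closedBall, dist_zero_right]; exact hx.trans (le_max_left _ _)), one_smul, hA]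
      rw [hG', A0_eq_iff hu, jhol_iff' _ (hJ.sq _ (ball_subset_ball hρr hRx))]

end A

end

end Crest.Agent.R235.NWJ_130
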