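import Mathlib

/-!
# Row 235, PACKAGE NW (helper334): pinning lemma (quantitative implicit function theorem)
-/

set_option autoImplicit false
set_option maxSynthPendingDepth 3

open Set Filter Metric Topology
open scoped ContDiff

namespace Crest.Agent.R235.NWPin_334

noncomputable section

/-- `W (θ, σ)` close to `σ` has a unique smooth zero `σ = c θ` -/
theorem pin {Θ E : Type*} [NormedAddCommGroup Θ] [NormedSpace ℝ Θ] [FiniteDimensional ℝ Θ]
    [NormedAddCommGroup E] [NormedSpace ℝ E] [FiniteDimensional ℝ E] (W : Θ × E → E) {δ : ℝ}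
    (hδ0 : 0 ≤ δ) (hδ : δ ≤ 1/8) (hW : ContDiffOn ℝ ∞ W (ball 0 1))
    (h0 : ∀ p ∈ ball (0 : Θ × E) 1, ‖W p - p.2‖ ≤ δ)
    (h1 : ∀ p ∈ ball (0 : Θ × E) 1, ∀ v, ‖fderiv ℝ W p v - v.2‖ ≤ δ * ‖v‖) :
    ∃ c : Θ → E, ContDiffOn ℝ ∞ c (ball 0 (1/2)) ∧ ∀ θ ∈ ball (0 : Θ) (1/2),
      W (θ, c θ) = 0 ∧ ‖c θ‖ ≤ δ ∧ ∀ v, ‖fderiv ℝ c θ v‖ ≤ δ * ‖v‖ := by
  have hc1 : CompleteSpace Θ := FiniteDimensional.complete ℝ Θ
  have hc2 : CompleteSpace E := FiniteDimensional.complete ℝ E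
  have hWat : ∀ p ∈ ball (0 : Θ × E) 1, ContDiffAt ℝ ∞ W p := fun p hp =>
    hW.contDiffAt (isOpen_ball.mem_nhds hp)
  have hWd : ∀ p ∈ ball (0 : Θ × E) 1, HasFDerivAt W (fderiv ℝ W p) p := fun p hp =>
    ((hWat p hp).differentiableAt (by simp)).hasFDerivAt
  let G : Θ × E → Θ × E := fun p => (p.1, W p)
  let G' : Θ × E → Θ × E →L[ℝ] Θ × E := fun p =>
    (ContinuousLinearMap.fst ℝ Θ E).prod (fderiv ℝ W p)
  have hGd : ∀ p ∈ ball (0 : Θ × E) 1, HasFDerivAt G (G' p) p := fun p hp =>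
    hasFDerivAt_fst.prodMk (hWd p hp)
  have hGat : ∀ p ∈ ball (0 : Θ × E) 1, ContDiffAt ℝ ∞ G p := fun p hp =>
    contDiffAt_fst.prodMk (hWat p hp)
  have hG'1 : ∀ p ∈ ball (0 : Θ × E) 1, ‖G' p - 1‖ ≤ δ := by
    intro p hp
    refine ContinuousLinearMap.opNorm_le_bound _ hδ0 fun v => ?_
    have e : (G' p - 1) v = (0, fderiv ℝ W p v - v.2) := by
      show ((v.1, fderiv ℝ W p v) : Θ × E) - (v.1, v.2) = _
      rw [Prod.mk_sub_mk, sub_self]
    rw [e, Prod.norm_mk, norm_zero]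
    exact max_le (by positivity) (h1 p hp v)
  have happ : ApproximatesLinearOn G
      ((ContinuousLinearEquiv.refl ℝ (Θ × E) : (Θ × E) ≃L[ℝ] (Θ × E)) : Θ × E →L[ℝ] Θ × E)
      (ball 0 1) ⟨δ, hδ0⟩ := by
    rw [ApproximatesLinearOn.approximatesLinearOn_iff_lipschitzOnWith]
    refine (convex_ball 0 1).lipschitzOnWith_of_nnnorm_hasFDerivWithin_le
      (f' := fun p => G' p - 1) (fun p hp => ?_) (fun p hp => hG'1 p hp)
    exact ((hGd p hp).sub (ContinuousLinearMap.id ℝ (Θ × E)).hasFDerivAt).hasFDerivWithinAt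
  have hN : ‖((ContinuousLinearEquiv.refl ℝ (Θ × E)).symm : Θ × E →L[ℝ] Θ × E)‖ ≤ 1 :=
    ContinuousLinearMap.norm_id_le
  have hc : Subsingleton (Θ × E) ∨ (⟨δ, hδ0⟩ : NNReal) <
      ‖((ContinuousLinearEquiv.refl ℝ (Θ × E)).symm : Θ × E →L[ℝ] Θ × E)‖₊⁻¹ := by
    rcases subsingleton_or_nontrivial (Θ × E) with h | h
    · exact Or.inl h
    · right
      have e : ‖((ContinuousLinearEquiv.refl ℝ (Θ × E)).symm : Θ × E →L[ℝ] Θ × E)‖₊ = 1 := by
        apply NNReal.eq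
        show ‖ContinuousLinearMap.id ℝ (Θ × E)‖ = 1
        exact ContinuousLinearMap.norm_id
      rw [e, inv_one]
      show δ < 1
      linarith
  let e := happ.toOpenPartialHomeomorph G (ball 0 1) hc isOpen_ball
  have hes : e.source = ball 0 1 := rfl
  have heG : ∀ p, e p = G p := fun p => rfl
  have htgt : ∀ θ ∈ ball (0 : Θ) (1/2), ((θ, 0) : Θ × E) ∈ e.target := by
    intro θ hθ
    let fs : (((ContinuousLinearEquiv.refl ℝ (Θ × E) : (Θ × E) ≃L[ℝ] (Θ × E)) :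
        Θ × E →L[ℝ] Θ × E)).NonlinearRightInverse :=
      { toFun := id
        nnnorm := 1
        bound' := fun y => by simp
        right_inv' := fun y => rfl }
    have hs := happ.surjOn_closedBall_of_nonlinearRightInverse fs (ε := 9/10) (b := 0)
      (by norm_num) (closedBall_subset_ball (by norm_num))
    have hmem : ((θ, 0) : Θ × E) ∈ closedBall (G 0) ((((fs.nnnorm : ℝ))⁻¹ - δ) * (9/10)) := by
      show ((θ, 0) : Θ × E) ∈ closedBall (G 0) ((((1 : NNReal) : ℝ)⁻¹ - δ) * (9/10))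
      rw [mem_closedBall, dist_eq_norm]
      have e1 : ((θ, 0) : Θ × E) - G 0 = (θ, -W 0) := by
        show ((θ, 0) : Θ × E) - (0, W 0) = _
        rw [Prod.mk_sub_mk, sub_zero, zero_sub]
      rw [e1, Prod.norm_mk, norm_neg]
      have h2 : ‖W 0‖ ≤ δ := by
        have := h0 0 (mem_ball_self one_pos)
        simpa using this
      have h3 : ‖θ‖ < 1/2 := mem_ball_zero_iff.1 hθ
      refine max_le ?_ ?_
      · simp only [NNReal.coe_one, inv_one]; linarith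
      · simp only [NNReal.coe_one, inv_one]; linarith
    obtain ⟨p, hp, hpe⟩ := hs hmem
    exact ⟨p, closedBall_subset_ball (by norm_num) hp, hpe⟩
  have hsym : ∀ θ ∈ ball (0 : Θ) (1/2), e.symm (θ, 0) ∈ ball (0 : Θ × E) 1 ∧
      G (e.symm (θ, 0)) = (θ, 0) := by
    intro θ hθ
    have h2 := e.map_target (htgt θ hθ)
    rw [hes] at h2
    exact ⟨h2, e.right_inv (htgt θ hθ)⟩
  let c : Θ → E := fun θ => (e.symm (θ, 0)).2
  have hfst : ∀ θ ∈ ball (0 : Θ) (1/2), e.symm (θ, 0) = (θ, c θ) := by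
    intro θ hθ
    have h2 := (hsym θ hθ).2
    have h3 : (e.symm (θ, 0)).1 = θ := congrArg Prod.fst h2
    exact Prod.ext h3 rfl
  have hmem : ∀ θ ∈ ball (0 : Θ) (1/2), ((θ, c θ) : Θ × E) ∈ ball (0 : Θ × E) 1 := by
    intro θ hθ
    rw [← hfst θ hθ]; exact (hsym θ hθ).1
  have hzero : ∀ θ ∈ ball (0 : Θ) (1/2), W (θ, c θ) = 0 := by
    intro θ hθ
    have h2 := (hsym θ hθ).2
    rw [hfst θ hθ] at h2
    exact congrArg Prod.snd h2
  have hcat : ∀ θ ∈ ball (0 : Θ) (1/2), ContDiffAt ℝ ∞ c θ := by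
    intro θ hθ
    have hp := (hsym θ hθ).1
    have hu : IsUnit (G' (e.symm (θ, 0))) := by
      have h2 : ‖1 - G' (e.symm (θ, 0))‖ < 1 := by
        rw [norm_sub_rev]
        exact (hG'1 _ hp).trans_lt (by linarith)
      have h3 := isUnit_one_sub_of_norm_lt_one h2
      rwa [sub_sub_cancel] at h3
    obtain ⟨u, hu⟩ := hu
    have hd : HasFDerivAt e ((ContinuousLinearEquiv.ofUnit u : (Θ × E) ≃L[ℝ] (Θ × E)) :
        Θ × E →L[ℝ] Θ × E) (e.symm (θ, 0)) := by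
      have h4 : ((ContinuousLinearEquiv.ofUnit u : (Θ × E) ≃L[ℝ] (Θ × E)) :
        Θ × E →L[ℝ] Θ × E) = G' (e.symm (θ, 0)) := by rw [← hu]; rfl
      rw [h4]
      exact hGd _ hp
    have h5 : ContDiffAt ℝ ∞ e.symm (θ, 0) :=
      e.contDiffAt_symm (htgt θ hθ) hd (hGat _ hp)
    have h6 : ContDiffAt ℝ ∞ (fun θ : Θ => e.symm (θ, 0)) θ :=
      ContDiffAt.comp (f := fun θ : Θ => ((θ, 0) : Θ × E)) θ h5
        (contDiffAt_id.prodMk contDiffAt_const)
    exact contDiffAt_snd.comp θ h6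
  refine ⟨c, fun θ hθ => (hcat θ hθ).contDiffWithinAt, fun θ hθ => ⟨hzero θ hθ, ?_, ?_⟩⟩
  · have h2 := h0 _ (hmem θ hθ)
    rw [hzero θ hθ, zero_sub, norm_neg] at h2
    exact h2
  · intro v
    have hcd : HasFDerivAt c (fderiv ℝ c θ) θ :=
      ((hcat θ hθ).differentiableAt (by simp)).hasFDerivAt
    have h2 : HasFDerivAt (fun θ => W (θ, c θ))
        ((fderiv ℝ W (θ, c θ)).comp ((ContinuousLinearMap.id ℝ Θ).prod (fderiv ℝ c θ))) θ :=
      HasFDerivAt.comp (f := fun θ : Θ => ((θ, c θ) : Θ × E)) θ (hWd _ (hmem θ hθ))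
        ((hasFDerivAt_id θ).prodMk hcd)
    have h3 : (fun θ => W (θ, c θ)) =ᶠ[𝓝 θ] fun _ => 0 := by
      filter_upwards [isOpen_ball.mem_nhds hθ] with y hy
      exact hzero y hy
    have h4 := h2.unique ((hasFDerivAt_const (0 : E) θ).congr_of_eventuallyEq h3)
    have h5 : fderiv ℝ W (θ, c θ) (v, fderiv ℝ c θ v) = 0 :=
      congrArg (fun L : Θ →L[ℝ] E => L v) h4
    have h6 := h1 _ (hmem θ hθ) (v, fderiv ℝ c θ v)
    rw [h5, zero_sub, norm_neg, Prod.norm_mk] at h6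
    have hv := norm_nonneg v
    have hcv := norm_nonneg (fderiv ℝ c θ v)
    rcases le_total ‖fderiv ℝ c θ v‖ ‖v‖ with h7 | h7
    · rwa [max_eq_left h7] at h6
    · rw [max_eq_right h7] at h6
      have h8 : ‖fderiv ℝ c θ v‖ ≤ 0 := by
        have : δ * ‖fderiv ℝ c θ v‖ ≤ 1/8 * ‖fderiv ℝ c θ v‖ :=
          mul_le_mul_of_nonneg_right hδ hcv
        linarith
      exact h8.trans (by positivity)

end

end Crest.Agent.R235.NWPin_334
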