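import Crest.Agent.R235.NWFam_334
import Crest.Agent.R235.NWPin_334
import Crest.Agent.R235.CylDef2_522

/-!
# Row 235, PACKAGE NW (helper334): polar families (`Reg_522.POLFOL`)
-/

set_option autoImplicit false
set_option maxSynthPendingDepth 3

open Set Filter Metric Topology MeasureTheory
open scoped ContDiff Real

namespace Crest.Agent.R235.NWPol_334

open Crest.Agent.R235.NWDefs_334 Crest.Agent.R235.NWIface_334 Crest.Agent.R235.NWTool_334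
open Crest.Agent.R235.NWFam_334 Crest.Agent.R235.NWPin_334

noncomputable section

/-- the model family `(θ z, z) + σ` -/
def H : (ℂ × (ℂ × ℂ)) × ℂ → ℂ × ℂ := fun p => (p.1.1 * p.2 + p.1.2.1, p.2 + p.1.2.2)

theorem H_smooth : ContDiff ℝ ∞ H := by
  unfold H
  fun_prop

/-- derivative of the model -/
theorem H_fd (p : (ℂ × (ℂ × ℂ)) × ℂ) (v : (ℂ × (ℂ × ℂ)) × ℂ) :
    fderiv ℝ H p v = (p.1.1 * v.2 + v.1.1 * p.2 + v.1.2.1, v.2 + v.1.2.2) := by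
  have hf : ∀ q : (ℂ × (ℂ × ℂ)) × ℂ, HasFDerivAt (fun p : (ℂ × (ℂ × ℂ)) × ℂ => p) (ContinuousLinearMap.id ℝ _) q :=
    fun q => hasFDerivAt_id q
  have hθ : HasFDerivAt (fun p : (ℂ × (ℂ × ℂ)) × ℂ => p.1.1)
      ((ContinuousLinearMap.fst ℝ ℂ (ℂ × ℂ)).comp (ContinuousLinearMap.fst ℝ (ℂ × (ℂ × ℂ)) ℂ)) p :=
    ((ContinuousLinearMap.fst ℝ ℂ (ℂ × ℂ)).comp
      (ContinuousLinearMap.fst ℝ (ℂ × (ℂ × ℂ)) ℂ)).hasFDerivAt
  have hz : HasFDerivAt (fun p : (ℂ × (ℂ × ℂ)) × ℂ => p.2)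
      (ContinuousLinearMap.snd ℝ (ℂ × (ℂ × ℂ)) ℂ) p :=
    (ContinuousLinearMap.snd ℝ (ℂ × (ℂ × ℂ)) ℂ).hasFDerivAt
  have h1 : HasFDerivAt (fun p : (ℂ × (ℂ × ℂ)) × ℂ => p.1.2.1)
      (((ContinuousLinearMap.fst ℝ ℂ ℂ).comp (ContinuousLinearMap.snd ℝ ℂ (ℂ × ℂ))).comp
        (ContinuousLinearMap.fst ℝ (ℂ × (ℂ × ℂ)) ℂ)) p :=
    (((ContinuousLinearMap.fst ℝ ℂ ℂ).comp (ContinuousLinearMap.snd ℝ ℂ (ℂ × ℂ))).comp
        (ContinuousLinearMap.fst ℝ (ℂ × (ℂ × ℂ)) ℂ)).hasFDerivAt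
  have h2 : HasFDerivAt (fun p : (ℂ × (ℂ × ℂ)) × ℂ => p.1.2.2)
      (((ContinuousLinearMap.snd ℝ ℂ ℂ).comp (ContinuousLinearMap.snd ℝ ℂ (ℂ × ℂ))).comp
        (ContinuousLinearMap.fst ℝ (ℂ × (ℂ × ℂ)) ℂ)) p :=
    (((ContinuousLinearMap.snd ℝ ℂ ℂ).comp (ContinuousLinearMap.snd ℝ ℂ (ℂ × ℂ))).comp
        (ContinuousLinearMap.fst ℝ (ℂ × (ℂ × ℂ)) ℂ)).hasFDerivAt
  have h3 := ((hθ.mul hz).add h1).prodMk (hz.add h2)
  have h4 : HasFDerivAt H _ p := h3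
  rw [h4.fderiv]
  simp only [ContinuousLinearMap.prod_apply, _root_.add_apply, _root_.smul_apply,
    ContinuousLinearMap.comp_apply, ContinuousLinearMap.coe_fst', ContinuousLinearMap.coe_snd',
    smul_eq_mul, mul_comm]

theorem H_hol (s : ℂ × (ℂ × ℂ)) (z : ℂ) : dbl (fderiv ℝ (fun y => H (s, y)) z) = 0 := by
  have h1 : HasFDerivAt (fun y => H (s, y))
      ((fderiv ℝ H (s, z)).comp (ContinuousLinearMap.inr ℝ (ℂ × (ℂ × ℂ)) ℂ)) z :=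
    HasFDerivAt.comp (f := fun y : ℂ => ((s, y) : (ℂ × (ℂ × ℂ)) × ℂ)) z
      (H_smooth.differentiable (by simp) (s, z)).hasFDerivAt (hasFDerivAt_prodMk_right s z)
  rw [h1.fderiv, dbl_eq_zero_iff]
  show fderiv ℝ H (s, z) (0, Complex.I) = Complex.I • fderiv ℝ H (s, z) (0, 1)
  rw [H_fd, H_fd]
  ext <;> simp [mul_comm]

theorem polfol : Reg_522.POLFOL := by
  intro J r hJ δ hδ
  -- continuity of `J` at `0`
  obtain ⟨r1, hr1, hJ1⟩ : ∃ r1 : ℝ, 0 < r1 ∧ ∀ x : ℂ × ℂ, ‖x‖ < r1 →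
      ∀ v, ‖J x v - Complex.I • v‖ ≤ δ * ‖v‖ := by
    have hc : ContinuousAt J 0 :=
      (hJ.smooth.contDiffAt (isOpen_ball.mem_nhds (mem_ball_self hJ.pos))).continuousAt
    obtain ⟨r1, hr1, h⟩ := Metric.continuousAt_iff.1 hc δ hδ
    refine ⟨r1, hr1, fun x hx v => ?_⟩
    have h1 : dist (J x) (J 0) < δ := h (by rwa [dist_zero_right])
    rw [dist_eq_norm] at h1
    have h2 : J x v - Complex.I • v = (J x - J 0) v := by
      rw [_root_.sub_apply, hJ.zero]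
    rw [h2]
    exact (ContinuousLinearMap.le_opNorm _ _).trans
      (mul_le_mul_of_nonneg_right h1.le (norm_nonneg _))
  let δ' : ℝ := min (δ / 4) (1 / 16)
  have hδ' : 0 < δ' := lt_min (by positivity) (by norm_num)
  have hδ1 : δ' ≤ δ / 4 := min_le_left _ _
  have hδ2 : δ' ≤ 1 / 16 := min_le_right _ _
  obtain ⟨R0, hR0, _, hfam⟩ := family (S := ℂ × (ℂ × ℂ)) (E := ℂ × ℂ) H H_smooth H_hol J r hJ 1 1 0
    δ' one_pos hδ'
  let R : ℝ := min R0 (min δ (r1 / 4))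
  have hR : 0 < R := lt_min hR0 (lt_min hδ (by positivity))
  have hRδ : R ≤ δ := (min_le_right _ _).trans (min_le_left _ _)
  have hRr : R ≤ r1 / 4 := (min_le_right _ _).trans (min_le_right _ _)
  obtain ⟨F, hF, hFJ, hFc, _⟩ := hfam R hR (min_le_left _ _)
  have hopen : IsOpen (ball (0 : ℂ × (ℂ × ℂ)) 1 ×ˢ ball (0 : ℂ) 1) :=
    isOpen_ball.prod isOpen_ball
  have hFat : ∀ s ∈ ball (0 : ℂ × (ℂ × ℂ)) 1, ∀ z ∈ ball (0 : ℂ) 1, ContDiffAt ℝ ∞ F (s, z) :=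
    fun s hs z hz => hF.contDiffAt (hopen.mem_nhds ⟨hs, hz⟩)
  have hFd : ∀ s ∈ ball (0 : ℂ × (ℂ × ℂ)) 1, ∀ z ∈ ball (0 : ℂ) 1,
      HasFDerivAt F (fderiv ℝ F (s, z)) (s, z) :=
    fun s hs z hz => ((hFat s hs z hz).differentiableAt (by simp)).hasFDerivAt
  have h01 : (0 : ℂ) ∈ ball (0 : ℂ) 1 := mem_ball_self one_pos
  -- pinning
  obtain ⟨c, hc, hcz⟩ := pin (Θ := ℂ) (E := ℂ × ℂ) (fun p => F (p, 0)) (δ := δ') hδ'.le
    (hδ2.trans (by norm_num))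
    (fun p hp => by
      have h1 := hFat p hp 0 h01
      exact (ContDiffAt.comp (f := fun p : ℂ × (ℂ × ℂ) => ((p, 0) : (ℂ × (ℂ × ℂ)) × ℂ)) p h1
        (contDiffAt_id.prodMk contDiffAt_const)).contDiffWithinAt)
    (fun p hp => by
      have h1 := (hFc p hp 0 h01).2.1
      have h2 : H (p, 0) = p.2 := by simp [H]
      rwa [h2] at h1)
    (fun p hp v => by
      have h1 : HasFDerivAt (fun p : ℂ × (ℂ × ℂ) => F (p, 0))
          ((fderiv ℝ F (p, 0)).comp (ContinuousLinearMap.inl ℝ (ℂ × (ℂ × ℂ)) ℂ)) p :=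
        HasFDerivAt.comp (f := fun p : ℂ × (ℂ × ℂ) => ((p, 0) : (ℂ × (ℂ × ℂ)) × ℂ)) p
          (hFd p hp 0 h01) (hasFDerivAt_prodMk_left p 0)
      rw [h1.fderiv]
      have h2 := (hFc p hp 0 h01).2.2
      have h3 : fderiv ℝ H (p, 0) (v, 0) = v.2 := by
        rw [H_fd]; simp
      have h4 : (fderiv ℝ F (p, 0)).comp (ContinuousLinearMap.inl ℝ (ℂ × (ℂ × ℂ)) ℂ) v - v.2 =
          (fderiv ℝ F (p, 0) - fderiv ℝ H (p, 0)) (v, 0) := by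
        rw [_root_.sub_apply, h3]; rfl
      rw [h4]
      refine (ContinuousLinearMap.le_opNorm _ _).trans ?_
      have h5 : ‖((v, 0) : (ℂ × (ℂ × ℂ)) × ℂ)‖ = ‖v‖ := by
        rw [Prod.norm_mk, norm_zero, max_eq_left (norm_nonneg _)]
      rw [h5]
      exact mul_le_mul_of_nonneg_right h2 (norm_nonneg _))
  let Λ : ℂ × ℂ × ℂ → (ℂ × (ℂ × ℂ)) × ℂ := fun q => ((q.1, c q.1 + (q.2.1, 0)), q.2.2)
  have h14 : ball (0 : ℂ) (1/4) ⊆ ball 0 (1/2) := ball_subset_ball (by norm_num)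
  have hmem : ∀ θ ∈ ball (0 : ℂ) (1/4), ∀ s ∈ ball (0 : ℂ) (1/4),
      ((θ, c θ + (s, 0)) : ℂ × (ℂ × ℂ)) ∈ ball (0 : ℂ × (ℂ × ℂ)) 1 := by
    intro θ hθ s hs
    have h1 := (hcz θ (h14 hθ)).2.1
    rw [mem_ball_zero_iff] at hθ hs ⊢
    rw [Prod.norm_mk]
    refine max_lt (by linarith) ?_
    have h2 : ‖((s, 0) : ℂ × ℂ)‖ = ‖s‖ := by
      rw [Prod.norm_mk, norm_zero, max_eq_left (norm_nonneg _)]
    calc ‖c θ + (s, 0)‖ ≤ ‖c θ‖ + ‖((s, 0) : ℂ × ℂ)‖ := norm_add_le _ _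
      _ < 1 := by rw [h2]; linarith
  have hcat : ∀ θ ∈ ball (0 : ℂ) (1/4), ContDiffAt ℝ ∞ c θ := fun θ hθ =>
    hc.contDiffAt (isOpen_ball.mem_nhds (h14 hθ))
  have hΛat : ∀ q : ℂ × ℂ × ℂ, q.1 ∈ ball (0 : ℂ) (1/4) → ContDiffAt ℝ ∞ Λ q := by
    intro q hq
    have h1 : ContDiffAt ℝ ∞ (fun q : ℂ × ℂ × ℂ => c q.1) q :=
      ContDiffAt.comp (f := fun q : ℂ × ℂ × ℂ => q.1) q (hcat _ hq) contDiffAt_fst
    have h2 : ContDiff ℝ ∞ (fun q : ℂ × ℂ × ℂ => ((q.2.1, 0) : ℂ × ℂ)) := by fun_prop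
    have h3 : ContDiff ℝ ∞ (fun q : ℂ × ℂ × ℂ => q.2.2) := by fun_prop
    exact (contDiffAt_fst.prodMk (h1.add h2.contDiffAt)).prodMk h3.contDiffAt
  refine ⟨R, hR, hRδ, fun q => F (Λ q), ?_, ?_, ?_, ?_⟩
  · rintro ⟨θ, s, z⟩ ⟨hθ, hs, hz⟩
    have h1 := hFat _ (hmem θ hθ s hs) z hz
    exact (ContDiffAt.comp (f := Λ) (θ, s, z) h1 (hΛat _ hθ)).contDiffWithinAt
  · intro θ hθ
    show F ((θ, c θ + (0, 0)), 0) = 0
    have h1 := (hcz θ (h14 hθ)).1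
    have h2 : c θ + ((0, 0) : ℂ × ℂ) = c θ := add_zero _
    rw [h2]
    exact h1
  · intro θ hθ s hs
    exact hFJ _ (hmem θ hθ s hs)
  · intro θ hθ s hs z hz
    have hm := hmem θ hθ s hs
    obtain ⟨hb, hcl, hdcl⟩ := hFc _ hm z hz
    refine ⟨hb, hJ1 _ ?_, fun a => ?_⟩
    · -- norm of the point
      have hH : ‖H ((θ, c θ + (s, 0)), z)‖ ≤ 2 := by
        have h2 := mem_ball_zero_iff.1 hm
        rw [Prod.norm_mk] at h2
        have h3 : ‖c θ + (s, 0)‖ < 1 := (le_max_right _ _).trans_lt h2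
        have h4 : ‖θ‖ < 1 := (le_max_left _ _).trans_lt h2
        have h5 : ‖z‖ < 1 := mem_ball_zero_iff.1 hz
        show ‖((θ * z + (c θ + (s, 0)).1, z + (c θ + (s, 0)).2) : ℂ × ℂ)‖ ≤ 2
        rw [Prod.norm_mk]
        refine max_le ?_ ?_
        · calc _ ≤ ‖θ * z‖ + ‖(c θ + (s, 0)).1‖ := norm_add_le _ _
            _ ≤ 1 + 1 := by
              refine add_le_add ?_ ((norm_fst_le _).trans h3.le)
              rw [norm_mul]
              exact mul_le_one₀ h4.le (norm_nonneg _) h5.le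
            _ = 2 := by norm_num
        · calc _ ≤ ‖z‖ + ‖(c θ + (s, 0)).2‖ := norm_add_le _ _
            _ ≤ 1 + 1 := add_le_add h5.le ((norm_snd_le _).trans h3.le)
            _ = 2 := by norm_num
      have hFn : ‖F ((θ, c θ + (s, 0)), z)‖ ≤ 3 := by
        calc ‖F ((θ, c θ + (s, 0)), z)‖ = ‖(F ((θ, c θ + (s, 0)), z) -
              H ((θ, c θ + (s, 0)), z)) + H ((θ, c θ + (s, 0)), z)‖ := by rw [sub_add_cancel]
          _ ≤ δ' + 2 := (norm_add_le _ _).trans (add_le_add hcl hH)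
          _ ≤ 3 := by linarith
      show ‖R • F ((θ, c θ + (s, 0)), z)‖ < r1
      rw [norm_smul, Real.norm_of_nonneg hR.le]
      calc R * ‖F ((θ, c θ + (s, 0)), z)‖ ≤ r1 / 4 * 3 :=
            mul_le_mul hRr hFn (norm_nonneg _) (by positivity)
        _ < r1 := by linarith
    · -- the derivative
      have hcd : HasFDerivAt c (fderiv ℝ c θ) θ :=
        ((hcat θ hθ).differentiableAt (by simp)).hasFDerivAt
      let LΛ : ℂ × ℂ × ℂ →L[ℝ] (ℂ × (ℂ × ℂ)) × ℂ :=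
        ((ContinuousLinearMap.fst ℝ ℂ (ℂ × ℂ)).prod
          ((fderiv ℝ c θ).comp (ContinuousLinearMap.fst ℝ ℂ (ℂ × ℂ)) +
            (ContinuousLinearMap.inl ℝ ℂ ℂ).comp ((ContinuousLinearMap.fst ℝ ℂ ℂ).comp
              (ContinuousLinearMap.snd ℝ ℂ (ℂ × ℂ))))).prod
          ((ContinuousLinearMap.snd ℝ ℂ ℂ).comp (ContinuousLinearMap.snd ℝ ℂ (ℂ × ℂ)))
      have hΛd : HasFDerivAt Λ LΛ (θ, s, z) := by
        have h1 : HasFDerivAt (fun q : ℂ × ℂ × ℂ => c q.1)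
            ((fderiv ℝ c θ).comp (ContinuousLinearMap.fst ℝ ℂ (ℂ × ℂ))) (θ, s, z) :=
          HasFDerivAt.comp (f := fun q : ℂ × ℂ × ℂ => q.1) (θ, s, z) hcd hasFDerivAt_fst
        have h2 : HasFDerivAt (fun q : ℂ × ℂ × ℂ => ((q.2.1, 0) : ℂ × ℂ))
            ((ContinuousLinearMap.inl ℝ ℂ ℂ).comp ((ContinuousLinearMap.fst ℝ ℂ ℂ).comp
              (ContinuousLinearMap.snd ℝ ℂ (ℂ × ℂ)))) (θ, s, z) :=
          ((ContinuousLinearMap.inl ℝ ℂ ℂ).comp ((ContinuousLinearMap.fst ℝ ℂ ℂ).comp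
              (ContinuousLinearMap.snd ℝ ℂ (ℂ × ℂ)))).hasFDerivAt
        have h3 : HasFDerivAt (fun q : ℂ × ℂ × ℂ => q.2.2)
            ((ContinuousLinearMap.snd ℝ ℂ ℂ).comp (ContinuousLinearMap.snd ℝ ℂ (ℂ × ℂ)))
            (θ, s, z) :=
          ((ContinuousLinearMap.snd ℝ ℂ ℂ).comp
            (ContinuousLinearMap.snd ℝ ℂ (ℂ × ℂ))).hasFDerivAt
        exact (hasFDerivAt_fst.prodMk (h1.add h2)).prodMk h3
      have hcomp : HasFDerivAt (fun q => F (Λ q))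
          ((fderiv ℝ F ((θ, c θ + (s, 0)), z)).comp LΛ) (θ, s, z) :=
        HasFDerivAt.comp (f := Λ) (θ, s, z) (hFd _ hm z hz) hΛd
      rw [hcomp.fderiv]
      have hca := (hcz θ (h14 hθ)).2.2 a.1
      set v : (ℂ × (ℂ × ℂ)) × ℂ := LΛ a with hv
      have hv' : v = ((a.1, fderiv ℝ c θ a.1 + (a.2.1, 0)), a.2.2) := rfl
      have e1 : ((fderiv ℝ F ((θ, c θ + (s, 0)), z)).comp LΛ) a -
          (z * a.1 + a.2.1 + θ * a.2.2, a.2.2) =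
          (fderiv ℝ F ((θ, c θ + (s, 0)), z) - fderiv ℝ H ((θ, c θ + (s, 0)), z)) v +
            fderiv ℝ c θ a.1 := by
        rw [_root_.sub_apply, H_fd, hv']
        show fderiv ℝ F ((θ, c θ + (s, 0)), z) v - _ = fderiv ℝ F ((θ, c θ + (s, 0)), z) v - _ + _
        rw [sub_add, sub_right_inj]
        refine Prod.ext ?_ ?_
        · show z * a.1 + a.2.1 + θ * a.2.2 = θ * a.2.2 + a.1 * z +
            ((fderiv ℝ c θ a.1).1 + a.2.1) - (fderiv ℝ c θ a.1).1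
          ring
        · show a.2.2 = a.2.2 + ((fderiv ℝ c θ a.1).2 + 0) - (fderiv ℝ c θ a.1).2
          ring
      have ha0 := norm_nonneg a
      have ha1 : ‖a.1‖ ≤ ‖a‖ := norm_fst_le a
      have ha2 : ‖a.2‖ ≤ ‖a‖ := norm_snd_le a
      have ha3 : ‖a.2.1‖ ≤ ‖a‖ := (norm_fst_le a.2).trans ha2
      have ha4 : ‖a.2.2‖ ≤ ‖a‖ := (norm_snd_le a.2).trans ha2
      have hca' : ‖fderiv ℝ c θ a.1‖ ≤ δ' * ‖a‖ :=
        hca.trans (mul_le_mul_of_nonneg_left ha1 hδ'.le)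
      have hvn : ‖v‖ ≤ 2 * ‖a‖ := by
        rw [hv', Prod.norm_mk, Prod.norm_mk]
        have h2 : ‖((a.2.1, 0) : ℂ × ℂ)‖ = ‖a.2.1‖ := by
          rw [Prod.norm_mk, norm_zero, max_eq_left (norm_nonneg _)]
        have h3 : ‖fderiv ℝ c θ a.1 + (a.2.1, 0)‖ ≤ 2 * ‖a‖ := by
          refine (norm_add_le _ _).trans ?_
          rw [h2]
          have : δ' * ‖a‖ ≤ 1 * ‖a‖ :=
            mul_le_mul_of_nonneg_right (hδ2.trans (by norm_num)) ha0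
          linarith
        exact max_le (max_le (by linarith) h3) (by linarith)
      rw [e1]
      calc _ ≤ δ' * (2 * ‖a‖) + δ' * ‖a‖ := by
            refine (norm_add_le _ _).trans (add_le_add ?_ hca')
            exact (ContinuousLinearMap.le_opNorm _ _).trans
              (mul_le_mul hdcl hvn (norm_nonneg _) hδ'.le)
        _ = 3 * δ' * ‖a‖ := by ring
        _ ≤ δ * ‖a‖ := mul_le_mul_of_nonneg_right (by linarith) ha0

end

end Crest.Agent.R235.NWPol_334
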