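import Mathlib

/-!
# Row 235 (S0364), package NW, leaf N (helper930), abstract part

`exists_phi` : a `C^∞` map `N (k, w)` with `‖N‖ ≤ ε`, `‖D_w N‖ ≤ ε ≤ 1/2` on `U × ball 0 R`; the
equation `w - N (k, w) = h` has a unique small solution `w = Phi (k, h)`, smooth in `(k, h)`.
-/

set_option autoImplicit false

open Set Filter Metric Topology
open scoped ContDiff

namespace Crest.Agent.R235.NWPsiA_930

noncomputable section

variable {K X : Type*} [NormedAddCommGroup K] [NormedSpace ℝ K] [CompleteSpace K]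
  [NormedAddCommGroup X] [NormedSpace ℝ X] [CompleteSpace X]

/-- data of the fixed point problem -/
structure Small (N : K × X → X) (U : Set K) (R ε : ℝ) : Prop where
  isOpen : IsOpen U
  smooth : ContDiffOn ℝ ∞ N (U ×ˢ ball (0 : X) R)
  eps0 : 0 ≤ ε
  eps : ε ≤ 1 / 2
  bdd : ∀ k ∈ U, ∀ w ∈ ball (0 : X) R, ‖N (k, w)‖ ≤ ε
  der : ∀ k ∈ U, ∀ w ∈ ball (0 : X) R,
    ‖(fderiv ℝ N (k, w)).comp (ContinuousLinearMap.inr ℝ K X)‖ ≤ ε

variable {N : K × X → X} {U : Set K} {R R1 ε : ℝ}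

omit [CompleteSpace K] [CompleteSpace X] [NormedSpace ℝ K] [NormedSpace ℝ X] in
theorem isOpen_dom (hU : IsOpen U) (R : ℝ) : IsOpen (U ×ˢ ball (0 : X) R) :=
  hU.prod isOpen_ball

omit [CompleteSpace K] [CompleteSpace X] in
theorem Small.contDiffAt (H : Small N U R ε) {k : K} {w : X} (hk : k ∈ U)
    (hw : w ∈ ball (0 : X) R) : ContDiffAt ℝ ∞ N (k, w) :=
  H.smooth.contDiffAt ((isOpen_dom H.isOpen R).mem_nhds ⟨hk, hw⟩)

omit [CompleteSpace K] [CompleteSpace X] in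
theorem Small.hasFDerivAt (H : Small N U R ε) {k : K} {w : X} (hk : k ∈ U)
    (hw : w ∈ ball (0 : X) R) : HasFDerivAt N (fderiv ℝ N (k, w)) (k, w) :=
  ((H.contDiffAt hk hw).differentiableAt (by simp)).hasFDerivAt

omit [CompleteSpace K] [CompleteSpace X] in
theorem Small.lip (H : Small N U R ε) {k : K} (hk : k ∈ U) {w w' : X}
    (hw : w ∈ ball (0 : X) R) (hw' : w' ∈ ball (0 : X) R) :
    ‖N (k, w) - N (k, w')‖ ≤ ε * ‖w - w'‖ := by
  have h1 : ∀ x ∈ ball (0 : X) R, HasFDerivWithinAt (fun x => N (k, x))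
      ((fderiv ℝ N (k, x)).comp (ContinuousLinearMap.inr ℝ K X)) (ball (0 : X) R) x := by
    intro x hx
    have h2 : HasFDerivAt (fun x : X => (k, x)) (ContinuousLinearMap.inr ℝ K X) x :=
      (hasFDerivAt_const k x).prodMk (hasFDerivAt_id x)
    exact (HasFDerivAt.comp (g := N) x (H.hasFDerivAt hk hx) h2).hasFDerivWithinAt
  exact (convex_ball (0 : X) R).norm_image_sub_le_of_norm_hasFDerivWithin_le h1
    (fun x hx => H.der k hk x hx) hw' hw

omit [CompleteSpace K] [CompleteSpace X] in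
theorem Small.uniq (H : Small N U R ε) {k : K} (hk : k ∈ U) {w w' : X}
    (hw : w ∈ ball (0 : X) R) (hw' : w' ∈ ball (0 : X) R) (h : w - N (k, w) = w' - N (k, w')) :
    w = w' := by
  have h1 := H.lip hk hw hw'
  have h2 : w - w' = N (k, w) - N (k, w') := by
    have h3 : w - w' - (N (k, w) - N (k, w')) = 0 := by
      have h4 : w - w' - (N (k, w) - N (k, w')) = (w - N (k, w)) - (w' - N (k, w')) := by abel
      rw [h4, h, sub_self]
    exact sub_eq_zero.1 h3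
  rw [← h2] at h1
  have h5 : ‖w - w'‖ = 0 := by
    have := norm_nonneg (w - w')
    have := H.eps
    nlinarith
  exact sub_eq_zero.1 (norm_eq_zero.1 h5)

omit [CompleteSpace K] in
theorem Small.exists_sol (H : Small N U R ε) (hR : R1 + ε < R) {k h : _}
    (hk : k ∈ U) (hh : h ∈ ball (0 : X) R1) :
    ∃ w ∈ ball (0 : X) R, w - N (k, w) = h ∧ ‖w - h‖ ≤ ε := by
  have hε : 0 ≤ ε := H.eps0
  have hsub : closedBall h ε ⊆ ball (0 : X) R := by
    intro x hx
    have h1 : ‖h‖ < R1 := by simpa using hh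
    have h2 : ‖x - h‖ ≤ ε := by simpa [dist_eq_norm] using hx
    have h3 : ‖x‖ ≤ ‖x - h‖ + ‖h‖ := by
      calc ‖x‖ = ‖(x - h) + h‖ := by rw [sub_add_cancel]
        _ ≤ _ := norm_add_le _ _
    simp only [mem_ball, dist_zero_right]
    linarith
  have hmaps : MapsTo (fun w => h + N (k, w)) (closedBall h ε) (closedBall h ε) := by
    intro x hx
    simp only [mem_closedBall, dist_eq_norm, add_sub_cancel_left]
    exact H.bdd k hk x (hsub hx)
  have hc : IsComplete (closedBall h ε) := isClosed_closedBall.isComplete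
  have hcon : ContractingWith (1 / 2) (hmaps.restrict _ _ _) := by
    refine ⟨by rw [← NNReal.coe_lt_coe]; norm_num, LipschitzWith.of_dist_le_mul fun x y => ?_⟩
    rw [Subtype.dist_eq, Subtype.dist_eq, MapsTo.val_restrict_apply, MapsTo.val_restrict_apply,
      dist_eq_norm, dist_eq_norm, add_sub_add_left_eq_sub]
    refine (H.lip hk (hsub x.2) (hsub y.2)).trans ?_
    refine mul_le_mul_of_nonneg_right ?_ (norm_nonneg _)
    have := H.eps
    simpa using this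
  have hx0 : h ∈ closedBall h ε := mem_closedBall_self hε
  have hedist : edist h ((fun w => h + N (k, w)) h) ≠ ⊤ := edist_ne_top _ _
  obtain ⟨w, hw, hfix, -, -⟩ := hcon.exists_fixedPoint' hc hmaps hx0 hedist
  have hfix' : h + N (k, w) = w := hfix
  refine ⟨w, hsub hw, ?_, ?_⟩
  · nth_rewrite 1 [← hfix']
    abel
  · simpa [dist_eq_norm] using hw

/-- the solution map -/
def Phi (N : K × X → X) (R : ℝ) (p : K × X) : X :=
  haveI : Decidable (∃ w ∈ ball (0 : X) R, w - N (p.1, w) = p.2) := Classical.dec _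
  if H : ∃ w ∈ ball (0 : X) R, w - N (p.1, w) = p.2 then H.choose else 0

omit [CompleteSpace K] in
theorem Small.phi_spec (H : Small N U R ε) (hR : R1 + ε < R) {k : K} {h : X}
    (hk : k ∈ U) (hh : h ∈ ball (0 : X) R1) :
    Phi N R (k, h) ∈ ball (0 : X) R ∧ Phi N R (k, h) - N (k, Phi N R (k, h)) = h ∧
      ‖Phi N R (k, h) - h‖ ≤ ε := by
  obtain ⟨w, hw, h1, h2⟩ := H.exists_sol hR hk hh
  have hex : ∃ w ∈ ball (0 : X) R, w - N (((k, h) : K × X).1, w) = ((k, h) : K × X).2 :=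
    ⟨w, hw, h1⟩
  have h3 : Phi N R (k, h) = hex.choose := dif_pos hex
  have h4 := hex.choose_spec
  rw [← h3] at h4
  have h5 : Phi N R (k, h) = w := H.uniq hk h4.1 hw (by rw [h1]; exact h4.2)
  refine ⟨h4.1, h4.2, ?_⟩
  rw [h5]; exact h2

omit [CompleteSpace K] [CompleteSpace X] in
/-- the Lipschitz bound implies the bound of the derivative. -/
theorem Small.of_lip (hU : IsOpen U) (hN : ContDiffOn ℝ ∞ N (U ×ˢ ball (0 : X) R))
    (h0 : 0 ≤ ε) (h1 : ε ≤ 1 / 2) (hb : ∀ k ∈ U, ∀ w ∈ ball (0 : X) R, ‖N (k, w)‖ ≤ ε)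
    (hl : ∀ k ∈ U, ∀ w ∈ ball (0 : X) R, ∀ w' ∈ ball (0 : X) R,
      ‖N (k, w) - N (k, w')‖ ≤ ε * ‖w - w'‖) : Small N U R ε := by
  refine ⟨hU, hN, h0, h1, hb, fun k hk w hw => ?_⟩
  have h2 : HasFDerivAt N (fderiv ℝ N (k, w)) (k, w) :=
    ((hN.contDiffAt ((hU.prod isOpen_ball).mem_nhds ⟨hk, hw⟩)).differentiableAt
      (by simp)).hasFDerivAt
  have h3 : HasFDerivAt (fun x : X => (k, x)) (ContinuousLinearMap.inr ℝ K X) w :=
    (hasFDerivAt_const k w).prodMk (hasFDerivAt_id w)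
  have h4 : HasFDerivAt (fun x => N (k, x))
      ((fderiv ℝ N (k, w)).comp (ContinuousLinearMap.inr ℝ K X)) w :=
    HasFDerivAt.comp (g := N) w h2 h3
  refine h4.le_of_lip' h0 ?_
  filter_upwards [isOpen_ball.mem_nhds hw] with x hx
  exact hl k hk x hx w hw

/-- the graph map -/
def gr (N : K × X → X) (p : K × X) : K × X := (p.1, p.2 - N p)

omit [CompleteSpace K] in
/-- the derivative of the graph map is invertible. -/
theorem Small.gr_equiv (H : Small N U R ε) {k : K} {w : X} (hk : k ∈ U)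
    (hw : w ∈ ball (0 : X) R) :
    ∃ L : (K × X) ≃L[ℝ] (K × X), HasFDerivAt (gr N) (L : K × X →L[ℝ] K × X) (k, w) := by
  set D := fderiv ℝ N (k, w) with hD
  have hN : HasFDerivAt N D (k, w) := H.hasFDerivAt hk hw
  set D2 : X →L[ℝ] X := D.comp (ContinuousLinearMap.inr ℝ K X) with hD2
  set D1 : K →L[ℝ] X := D.comp (ContinuousLinearMap.inl ℝ K X) with hD1
  have hD2n : ‖D2‖ < 1 := lt_of_le_of_lt (H.der k hk w hw) (by have := H.eps; linarith)
  let V : (X →L[ℝ] X)ˣ := Units.oneSub D2 hD2n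
  have hV1 : ∀ x, (V.inv : X →L[ℝ] X) (x - D2 x) = x := by
    intro x
    have h1 : (V.inv * V.val : X →L[ℝ] X) x = x := by
      rw [V.inv_val]; rfl
    exact h1
  have hV2 : ∀ x, (V.inv : X →L[ℝ] X) x - D2 ((V.inv : X →L[ℝ] X) x) = x := by
    intro x
    have h1 : (V.val * V.inv : X →L[ℝ] X) x = x := by
      rw [V.val_inv]; rfl
    exact h1
  have hsplit : ∀ v : K × X, D v = D1 v.1 + D2 v.2 := by
    intro v
    have h1 : v = (v.1, 0) + (0, v.2) := by simp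
    conv_lhs => rw [h1, map_add]
    rfl
  let F : K × X →L[ℝ] K × X :=
    (ContinuousLinearMap.fst ℝ K X).prod (ContinuousLinearMap.snd ℝ K X - D)
  let G : K × X →L[ℝ] K × X :=
    (ContinuousLinearMap.fst ℝ K X).prod
      ((V.inv : X →L[ℝ] X).comp (ContinuousLinearMap.snd ℝ K X +
        D1.comp (ContinuousLinearMap.fst ℝ K X)))
  have hF : ∀ v, F v = (v.1, v.2 - D v) := fun v => rfl
  have hG : ∀ v, G v = (v.1, (V.inv : X →L[ℝ] X) (v.2 + D1 v.1)) := fun v => rfl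
  refine ⟨ContinuousLinearEquiv.equivOfInverse F G ?_ ?_, ?_⟩
  · intro v
    rw [hG, hF]
    refine Prod.ext rfl ?_
    show (V.inv : X →L[ℝ] X) (v.2 - D v + D1 v.1) = v.2
    rw [hsplit]
    have h1 : v.2 - (D1 v.1 + D2 v.2) + D1 v.1 = v.2 - D2 v.2 := by abel
    rw [h1, hV1]
  · intro v
    rw [hF, hG]
    refine Prod.ext rfl ?_
    show (V.inv : X →L[ℝ] X) (v.2 + D1 v.1) - D (v.1, (V.inv : X →L[ℝ] X) (v.2 + D1 v.1)) = v.2
    rw [hsplit]
    show (V.inv : X →L[ℝ] X) (v.2 + D1 v.1) - (D1 v.1 + D2 ((V.inv : X →L[ℝ] X) (v.2 + D1 v.1))) =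
      v.2
    have h1 := hV2 (v.2 + D1 v.1)
    have h2 : (V.inv : X →L[ℝ] X) (v.2 + D1 v.1) -
        (D1 v.1 + D2 ((V.inv : X →L[ℝ] X) (v.2 + D1 v.1))) =
        ((V.inv : X →L[ℝ] X) (v.2 + D1 v.1) - D2 ((V.inv : X →L[ℝ] X) (v.2 + D1 v.1))) -
          D1 v.1 := by abel
    rw [h2, h1]; abel
  · show HasFDerivAt (gr N) F (k, w)
    exact hasFDerivAt_fst.prodMk (hasFDerivAt_snd.sub hN)

omit [CompleteSpace K] [CompleteSpace X] in
theorem Small.contDiffAt_gr (H : Small N U R ε) {k : K} {w : X} (hk : k ∈ U)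
    (hw : w ∈ ball (0 : X) R) : ContDiffAt ℝ ∞ (gr N) (k, w) :=
  contDiffAt_fst.prodMk (contDiffAt_snd.sub (H.contDiffAt hk hw))

/-- the solution map is smooth. -/
theorem Small.phi_contDiffAt (H : Small N U R ε) (hR : R1 + ε < R) {k : K} {h : X}
    (hk : k ∈ U) (hh : h ∈ ball (0 : X) R1) :
    ContDiffAt ℝ ∞ (Phi N R) (k, h) := by
  obtain ⟨h1, h2, -⟩ := H.phi_spec hR hk hh
  obtain ⟨L, hL⟩ := H.gr_equiv hk h1
  have hgr := H.contDiffAt_gr hk h1
  have hval : gr N (k, Phi N R (k, h)) = (k, h) := Prod.ext rfl h2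
  have hinf : (∞ : WithTop ℕ∞) ≠ 0 := by simp
  set g := hgr.localInverse hL hinf with hg
  have hg1 : ContDiffAt ℝ ∞ g (k, h) := by
    have := hgr.to_localInverse hL hinf
    rwa [hval] at this
  have hg2 : g (k, h) = (k, Phi N R (k, h)) := by
    have := hgr.localInverse_apply_image hL hinf
    rwa [hval] at this
  -- the local inverse is a right inverse near the point
  have hg3 : ∀ᶠ p in 𝓝 ((k, h) : K × X), gr N (g p) = p := by
    have := (hgr.hasStrictFDerivAt' hL hinf).eventually_right_inverse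
    rwa [hval] at this
  have hg4 : ∀ᶠ p in 𝓝 ((k, h) : K × X), g p ∈ U ×ˢ ball (0 : X) R := by
    refine hg1.continuousAt.eventually_mem ?_
    rw [hg2]
    exact (isOpen_dom H.isOpen R).mem_nhds ⟨hk, h1⟩
  have hg5 : ∀ᶠ p in 𝓝 ((k, h) : K × X), p ∈ U ×ˢ ball (0 : X) R1 :=
    (isOpen_dom H.isOpen R1).mem_nhds ⟨hk, hh⟩
  have hev : Phi N R =ᶠ[𝓝 ((k, h) : K × X)] fun p => (g p).2 := by
    filter_upwards [hg3, hg4, hg5] with p h3 h4 h5
    obtain ⟨h6, h7, -⟩ := H.phi_spec hR h5.1 h5.2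
    have h8 : (g p).1 = p.1 := by
      have := congrArg Prod.fst h3
      exact this
    have h9 : (g p).2 - N (g p) = p.2 := by
      have := congrArg Prod.snd h3
      exact this
    have h10 : g p = (p.1, (g p).2) := Prod.ext h8 rfl
    refine H.uniq h5.1 h6 h4.2 ?_
    rw [h7]
    rw [h10] at h9
    exact h9.symm
  exact (contDiffAt_snd.comp (k, h) hg1).congr_of_eventuallyEq hev

theorem Small.phi_der (H : Small N U R ε) (hR : R1 + ε < R) {k : K} {h : X}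
    (hk : k ∈ U) (hh : h ∈ ball (0 : X) R1) :
    ‖(fderiv ℝ (Phi N R) (k, h)).comp (ContinuousLinearMap.inr ℝ K X) -
      ContinuousLinearMap.id ℝ X‖ ≤ 2 * ε := by
  obtain ⟨h1, h2, -⟩ := H.phi_spec hR hk hh
  have hP : HasFDerivAt (Phi N R) (fderiv ℝ (Phi N R) (k, h)) (k, h) :=
    ((H.phi_contDiffAt hR hk hh).differentiableAt (by simp)).hasFDerivAt
  have hi : HasFDerivAt (fun x : X => (k, x)) (ContinuousLinearMap.inr ℝ K X) h :=
    (hasFDerivAt_const k h).prodMk (hasFDerivAt_id h)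
  set P2 := (fderiv ℝ (Phi N R) (k, h)).comp (ContinuousLinearMap.inr ℝ K X) with hP2
  have hQ : HasFDerivAt (fun x : X => Phi N R (k, x)) P2 h := HasFDerivAt.comp (g := Phi N R) h hP hi
  set D2 := (fderiv ℝ N (k, Phi N R (k, h))).comp (ContinuousLinearMap.inr ℝ K X) with hD2
  have hN : HasFDerivAt (fun x : X => N (k, x)) D2 (Phi N R (k, h)) :=
    HasFDerivAt.comp (g := N) (Phi N R (k, h)) (H.hasFDerivAt hk h1)
      ((hasFDerivAt_const k (Phi N R (k, h))).prodMk (hasFDerivAt_id (Phi N R (k, h))))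
  have hS : HasFDerivAt (fun x : X => Phi N R (k, x) - N (k, Phi N R (k, x)))
      (P2 - D2.comp P2) h := hQ.sub (HasFDerivAt.comp (g := fun x : X => N (k, x)) h hN hQ)
  have hev : (fun x : X => Phi N R (k, x) - N (k, Phi N R (k, x))) =ᶠ[𝓝 h] fun x => x := by
    filter_upwards [isOpen_ball.mem_nhds hh] with x hx
    exact (H.phi_spec hR hk hx).2.1
  have hE : P2 - D2.comp P2 = ContinuousLinearMap.id ℝ X :=
    (hS.congr_of_eventuallyEq hev.symm).unique (hasFDerivAt_id h)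
  have hD2n : ‖D2‖ ≤ ε := H.der k hk _ h1
  have hε := H.eps
  have hε0 := H.eps0
  have hE2 : P2 - ContinuousLinearMap.id ℝ X = D2.comp P2 := by
    rw [← hE]; abel
  have hE3 : ‖D2.comp P2‖ ≤ ε * ‖P2‖ :=
    (D2.opNorm_comp_le P2).trans (mul_le_mul_of_nonneg_right hD2n (norm_nonneg _))
  have hid : ‖ContinuousLinearMap.id ℝ X‖ ≤ 1 := ContinuousLinearMap.norm_id_le
  have hP2n : ‖P2‖ ≤ 2 := by
    have h3 : P2 = ContinuousLinearMap.id ℝ X + D2.comp P2 := by
      rw [← hE2]; abel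
    have h4 : ‖P2‖ ≤ 1 + ε * ‖P2‖ := by
      calc ‖P2‖ = ‖ContinuousLinearMap.id ℝ X + D2.comp P2‖ := by rw [← h3]
        _ ≤ _ := (norm_add_le _ _).trans (add_le_add hid hE3)
    have h5 : ε * ‖P2‖ ≤ 1 / 2 * ‖P2‖ := mul_le_mul_of_nonneg_right hε (norm_nonneg _)
    linarith
  rw [hE2]
  calc ‖D2.comp P2‖ ≤ ε * ‖P2‖ := hE3
    _ ≤ ε * 2 := mul_le_mul_of_nonneg_left hP2n hε0
    _ = 2 * ε := by ring

/-- **abstract solution theorem** -/
theorem exists_phi (H : Small N U R ε) (hR : R1 + ε < R) :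
    ∃ Φ : K × X → X, ContDiffOn ℝ ∞ Φ (U ×ˢ ball (0 : X) R1) ∧
      (∀ k ∈ U, ∀ h ∈ ball (0 : X) R1,
        Φ (k, h) ∈ ball (0 : X) R ∧ Φ (k, h) - N (k, Φ (k, h)) = h ∧ ‖Φ (k, h) - h‖ ≤ ε ∧
        ‖(fderiv ℝ Φ (k, h)).comp (ContinuousLinearMap.inr ℝ K X) -
          ContinuousLinearMap.id ℝ X‖ ≤ 2 * ε) ∧
      ∀ k ∈ U, ∀ h ∈ ball (0 : X) R1, ∀ w ∈ ball (0 : X) R,
        w - N (k, w) = h → w = Φ (k, h) := by
  refine ⟨Phi N R, fun p hp => (H.phi_contDiffAt hR hp.1 hp.2).contDiffWithinAt, ?_, ?_⟩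
  · intro k hk h hh
    obtain ⟨h1, h2, h3⟩ := H.phi_spec hR hk hh
    exact ⟨h1, h2, h3, H.phi_der hR hk hh⟩
  · intro k hk h hh w hw h1
    obtain ⟨h2, h3, -⟩ := H.phi_spec hR hk hh
    exact H.uniq hk hw h2 (by rw [h1, h3])

end

end Crest.Agent.R235.NWPsiA_930
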