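import Crest.Agent.R096.BelB_205
import Crest.Agent.R235.NWTool_334

/-!
Row 235, PACKAGE NW (helper847), leaf R1, part A: weak derivatives `∂`, `∂̄` on `ℂ` of continuous
vector valued functions, the `L²` bound `‖∂U‖ ≤ K ‖∂̄U‖` for compactly supported `U`, and the
uniqueness of decaying solutions of `|∂̄V| ≤ ε |∂V|`.
-/

set_option autoImplicit false
set_option linter.unusedSectionVars false

namespace Crest.Agent.R235.NWRegA_847

open Set Metric MeasureTheory Filter Topology
open scoped ContDiff NNReal ENNReal Real ComplexConjugate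
open Crest.Agent.R235.NWDefs_334

noncomputable section

variable {E : Type*} [NormedAddCommGroup E] [NormedSpace ℂ E]

/-- weak derivatives on `ℂ`: `P = ∂U`, `Q = ∂̄U` -/
structure WC (U P Q : ℂ → E) : Prop where
  cont : Continuous U
  memP : ∀ R : ℝ, MemLp P 2 (volume.restrict (ball 0 R))
  memQ : ∀ R : ℝ, MemLp Q 2 (volume.restrict (ball 0 R))
  weak : ∀ φ : ℂ → ℂ, ContDiff ℝ ∞ φ → HasCompactSupport φ →
    (∫ z, dz φ z • U z = - ∫ z, φ z • P z) ∧ (∫ z, dzb φ z • U z = - ∫ z, φ z • Q z)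

/-! ### calculus of `dz`, `dzb` -/

lemma dz_apply (u : ℂ → E) (z : ℂ) :
    dz u z = (2 : ℂ)⁻¹ • (fderiv ℝ u z 1 - Complex.I • fderiv ℝ u z Complex.I) := rfl

lemma dzb_apply (u : ℂ → E) (z : ℂ) :
    dzb u z = (2 : ℂ)⁻¹ • (fderiv ℝ u z 1 + Complex.I • fderiv ℝ u z Complex.I) := rfl

lemma dz_eqB (u : ℂ → ℂ) (z : ℂ) : dz u z = R096.BelA_205.dz u z := by
  rw [dz_apply]
  unfold R096.BelA_205.dz R096.BelA_205.dd
  simp only [smul_eq_mul]
  ring

lemma dzb_eqB (u : ℂ → ℂ) (z : ℂ) : dzb u z = R096.BelA_205.dzb u z := by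
  rw [dzb_apply]
  unfold R096.BelA_205.dzb R096.BelA_205.dd
  simp only [smul_eq_mul]
  ring

lemma cont_dz {u : ℂ → E} (h : ContDiff ℝ 1 u) : Continuous (dz u) := by
  have h1 : Continuous (fderiv ℝ u) := h.continuous_fderiv (by norm_num)
  have h2 : Continuous fun z => fderiv ℝ u z 1 := h1.clm_apply continuous_const
  have h3 : Continuous fun z => fderiv ℝ u z Complex.I := h1.clm_apply continuous_const
  exact (h2.sub (h3.const_smul Complex.I)).const_smul (2 : ℂ)⁻¹

lemma cont_dzb {u : ℂ → E} (h : ContDiff ℝ 1 u) : Continuous (dzb u) := by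
  have h1 : Continuous (fderiv ℝ u) := h.continuous_fderiv (by norm_num)
  have h2 : Continuous fun z => fderiv ℝ u z 1 := h1.clm_apply continuous_const
  have h3 : Continuous fun z => fderiv ℝ u z Complex.I := h1.clm_apply continuous_const
  exact (h2.add (h3.const_smul Complex.I)).const_smul (2 : ℂ)⁻¹

lemma cd_dz {u : ℂ → ℂ} (h : ContDiff ℝ ∞ u) : ContDiff ℝ ∞ (dz u) := by
  have h1 : ContDiff ℝ ∞ (fderiv ℝ u) := h.fderiv_right (by simp)
  have h2 : ContDiff ℝ ∞ fun z => fderiv ℝ u z 1 := h1.clm_apply contDiff_const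
  have h3 : ContDiff ℝ ∞ fun z => fderiv ℝ u z Complex.I := h1.clm_apply contDiff_const
  exact (h2.sub (h3.const_smul Complex.I)).const_smul (2 : ℂ)⁻¹

lemma cd_dzb {u : ℂ → ℂ} (h : ContDiff ℝ ∞ u) : ContDiff ℝ ∞ (dzb u) := by
  have h1 : ContDiff ℝ ∞ (fderiv ℝ u) := h.fderiv_right (by simp)
  have h2 : ContDiff ℝ ∞ fun z => fderiv ℝ u z 1 := h1.clm_apply contDiff_const
  have h3 : ContDiff ℝ ∞ fun z => fderiv ℝ u z Complex.I := h1.clm_apply contDiff_const
  exact (h2.add (h3.const_smul Complex.I)).const_smul (2 : ℂ)⁻¹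

lemma hcs_dz {u : ℂ → ℂ} (h : HasCompactSupport u) : HasCompactSupport (dz u) := by
  refine HasCompactSupport.intro h.isCompact (fun z hz => ?_)
  rw [dz_apply, fderiv_of_notMem_tsupport ℝ hz]
  simp

lemma hcs_dzb {u : ℂ → ℂ} (h : HasCompactSupport u) : HasCompactSupport (dzb u) := by
  refine HasCompactSupport.intro h.isCompact (fun z hz => ?_)
  rw [dzb_apply, fderiv_of_notMem_tsupport ℝ hz]
  simp

lemma dz_mul {u v : ℂ → ℂ} {z : ℂ} (hu : DifferentiableAt ℝ u z) (hv : DifferentiableAt ℝ v z) :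
    dz (fun y => u y * v y) z = u z * dz v z + dz u z * v z := by
  simp only [dz_apply]
  rw [fderiv_fun_mul hu hv]
  simp only [smul_eq_mul, _root_.add_apply, _root_.smul_apply]
  ring

lemma dzb_mul {u v : ℂ → ℂ} {z : ℂ} (hu : DifferentiableAt ℝ u z) (hv : DifferentiableAt ℝ v z) :
    dzb (fun y => u y * v y) z = u z * dzb v z + dzb u z * v z := by
  simp only [dzb_apply]
  rw [fderiv_fun_mul hu hv]
  simp only [smul_eq_mul, _root_.add_apply, _root_.smul_apply]
  ring

/-! ### integrability -/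

lemma locInt {P : ℂ → E} (hP : ∀ R : ℝ, MemLp P 2 (volume.restrict (ball 0 R))) :
    LocallyIntegrable P := by
  intro x
  refine ⟨ball 0 (‖x‖ + 1), isOpen_ball.mem_nhds (by simp), ?_⟩
  have : IsFiniteMeasure (volume.restrict (ball (0:ℂ) (‖x‖ + 1))) :=
    ⟨by rw [Measure.restrict_apply_univ]; exact measure_ball_lt_top⟩
  exact (hP _).integrable (by norm_num)

lemma int_smul {φ : ℂ → ℂ} (h1 : Continuous φ) (h2 : HasCompactSupport φ) {P : ℂ → E}
    (hP : LocallyIntegrable P) : Integrable fun z => φ z • P z :=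
  hP.integrable_smul_left_of_hasCompactSupport h1 h2

lemma memLp_cont {U : ℂ → E} (hU : Continuous U) (R : ℝ) :
    MemLp U 2 (volume.restrict (ball 0 R)) := by
  have : IsFiniteMeasure (volume.restrict (ball (0:ℂ) R)) :=
    ⟨by rw [Measure.restrict_apply_univ]; exact measure_ball_lt_top⟩
  obtain ⟨C, hC⟩ := (isCompact_closedBall (0:ℂ) R).exists_bound_of_continuousOn hU.continuousOn
  refine MemLp.of_bound hU.aestronglyMeasurable C ?_
  filter_upwards [ae_restrict_mem isOpen_ball.measurableSet] with z hz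
  exact hC z (ball_subset_closedBall hz)

lemma memLp_smul {η : ℂ → ℂ} (hη : Continuous η) {P : ℂ → E} {R : ℝ}
    (hP : MemLp P 2 (volume.restrict (ball 0 R))) :
    MemLp (fun z => η z • P z) 2 (volume.restrict (ball 0 R)) := by
  obtain ⟨C, hC⟩ := (isCompact_closedBall (0:ℂ) R).exists_bound_of_continuousOn hη.continuousOn
  refine MemLp.of_le_mul (c := C) hP (hη.aestronglyMeasurable.smul hP.1) ?_
  filter_upwards [ae_restrict_mem isOpen_ball.measurableSet] with z hz
  rw [norm_smul]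
  exact mul_le_mul_of_nonneg_right (hC z (ball_subset_closedBall hz)) (norm_nonneg _)

/-! ### operations on `WC` -/

/-- multiplication by a smooth function -/
theorem WC.smul {U P Q : ℂ → E} (h : WC U P Q) {η : ℂ → ℂ} (hη : ContDiff ℝ ∞ η) :
    WC (fun z => η z • U z) (fun z => η z • P z + dz η z • U z)
      (fun z => η z • Q z + dzb η z • U z) := by
  have hη1 : ContDiff ℝ 1 η := hη.of_le (by exact_mod_cast le_top)
  have hd : Differentiable ℝ η := hη.differentiable (by simp)
  refine ⟨hη.continuous.smul h.cont, fun R => ?_, fun R => ?_, fun φ hφ hφc => ?_⟩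
  · exact (memLp_smul hη.continuous (h.memP R)).add
      (memLp_cont ((cont_dz hη1).smul h.cont) R)
  · exact (memLp_smul hη.continuous (h.memQ R)).add
      (memLp_cont ((cont_dzb hη1).smul h.cont) R)
  · have hφd : Differentiable ℝ φ := hφ.differentiable (by simp)
    have hφη : ContDiff ℝ ∞ fun y => φ y * η y := hφ.mul hη
    have hφηc : HasCompactSupport fun y => φ y * η y := hφc.mul_right
    obtain ⟨w1, w2⟩ := h.weak _ hφη hφηc
    have hUl : LocallyIntegrable U := h.cont.locallyIntegrable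
    have hPl := locInt h.memP
    have hQl := locInt h.memQ
    have hφ1 : ContDiff ℝ 1 φ := hφ.of_le (by exact_mod_cast le_top)
    constructor
    · have e1 : ∀ z, dz φ z • (η z • U z) =
          dz (fun y => φ y * η y) z • U z - φ z • (dz η z • U z) := by
        intro z
        rw [dz_mul (hφd z) (hd z), add_smul, mul_smul, mul_smul]
        abel
      have i1 : Integrable fun z => dz (fun y => φ y * η y) z • U z :=
        int_smul (cd_dz hφη).continuous (hcs_dz hφηc) hUl
      have i2 : Integrable fun z => φ z • (dz η z • U z) :=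
        int_smul hφ.continuous hφc ((cont_dz hη1).smul h.cont).locallyIntegrable
      have i3 : Integrable fun z => φ z • (η z • P z) := by
        have : (fun z => φ z • (η z • P z)) = fun z => (φ z * η z) • P z := by
          funext z; rw [mul_smul]
        rw [this]
        exact int_smul hφη.continuous hφηc hPl
      simp_rw [e1]
      rw [integral_sub i1 i2, w1]
      simp_rw [smul_add, mul_smul]
      rw [integral_add i3 i2]
      abel
    · have e1 : ∀ z, dzb φ z • (η z • U z) =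
          dzb (fun y => φ y * η y) z • U z - φ z • (dzb η z • U z) := by
        intro z
        rw [dzb_mul (hφd z) (hd z), add_smul, mul_smul, mul_smul]
        abel
      have i1 : Integrable fun z => dzb (fun y => φ y * η y) z • U z :=
        int_smul (cd_dzb hφη).continuous (hcs_dzb hφηc) hUl
      have i2 : Integrable fun z => φ z • (dzb η z • U z) :=
        int_smul hφ.continuous hφc ((cont_dzb hη1).smul h.cont).locallyIntegrable
      have i3 : Integrable fun z => φ z • (η z • Q z) := by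
        have : (fun z => φ z • (η z • Q z)) = fun z => (φ z * η z) • Q z := by
          funext z; rw [mul_smul]
        rw [this]
        exact int_smul hφη.continuous hφηc hQl
      simp_rw [e1]
      rw [integral_sub i1 i2, w2]
      simp_rw [smul_add, mul_smul]
      rw [integral_add i3 i2]
      abel

theorem WC.sub {U P Q U' P' Q' : ℂ → E} (h : WC U P Q) (h' : WC U' P' Q') :
    WC (fun z => U z - U' z) (fun z => P z - P' z) (fun z => Q z - Q' z) := by
  refine ⟨h.cont.sub h'.cont, fun R => (h.memP R).sub (h'.memP R),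
    fun R => (h.memQ R).sub (h'.memQ R), fun φ hφ hφc => ?_⟩
  obtain ⟨w1, w2⟩ := h.weak φ hφ hφc
  obtain ⟨w1', w2'⟩ := h'.weak φ hφ hφc
  have c1 := (cd_dz hφ).continuous
  have c2 := (cd_dzb hφ).continuous
  simp_rw [smul_sub]
  constructor
  · rw [integral_sub (int_smul c1 (hcs_dz hφc) h.cont.locallyIntegrable)
      (int_smul c1 (hcs_dz hφc) h'.cont.locallyIntegrable),
      integral_sub (int_smul hφ.continuous hφc (locInt h.memP))
      (int_smul hφ.continuous hφc (locInt h'.memP)), w1, w1']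
    abel
  · rw [integral_sub (int_smul c2 (hcs_dzb hφc) h.cont.locallyIntegrable)
      (int_smul c2 (hcs_dzb hφc) h'.cont.locallyIntegrable),
      integral_sub (int_smul hφ.continuous hφc (locInt h.memQ))
      (int_smul hφ.continuous hφc (locInt h'.memQ)), w2, w2']
    abel

/-- composition with a complex linear map -/
theorem WC.clm [CompleteSpace E] {F : Type*} [NormedAddCommGroup F] [NormedSpace ℂ F]
    [CompleteSpace F] {U P Q : ℂ → E} (h : WC U P Q) (ℓ : E →L[ℂ] F) :
    WC (fun z => ℓ (U z)) (fun z => ℓ (P z)) (fun z => ℓ (Q z)) := by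
  refine ⟨ℓ.continuous.comp h.cont, fun R => ℓ.comp_memLp' (h.memP R),
    fun R => ℓ.comp_memLp' (h.memQ R), fun φ hφ hφc => ?_⟩
  obtain ⟨w1, w2⟩ := h.weak φ hφ hφc
  have c1 := (cd_dz hφ).continuous
  have c2 := (cd_dzb hφ).continuous
  simp_rw [← map_smul ℓ]
  constructor
  · rw [ℓ.integral_comp_comm (int_smul c1 (hcs_dz hφc) h.cont.locallyIntegrable),
      ℓ.integral_comp_comm (int_smul hφ.continuous hφc (locInt h.memP)), w1, map_neg]
  · rw [ℓ.integral_comp_comm (int_smul c2 (hcs_dzb hφc) h.cont.locallyIntegrable),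
      ℓ.integral_comp_comm (int_smul hφ.continuous hφc (locInt h.memQ)), w2, map_neg]

/-- classical derivatives -/
theorem WC.of_c1 [CompleteSpace E] {w : ℂ → E} (hw : ContDiff ℝ 1 w) : WC w (dz w) (dzb w) := by
  refine ⟨hw.continuous, memLp_cont (cont_dz hw), memLp_cont (cont_dzb hw), fun φ hφ hφc => ?_⟩
  have hφ1 : ContDiff ℝ 1 φ := hφ.of_le (by exact_mod_cast le_top)
  have hφd : Differentiable ℝ φ := hφ.differentiable (by simp)
  have hwd : Differentiable ℝ w := hw.differentiable (by norm_num)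
  have hfw : ∀ v : ℂ, Continuous fun z => fderiv ℝ w z v := fun v =>
    (hw.continuous_fderiv (by norm_num)).clm_apply continuous_const
  have hfφ : ∀ v : ℂ, Continuous fun z => fderiv ℝ φ z v := fun v =>
    (hφ1.continuous_fderiv (by norm_num)).clm_apply continuous_const
  have hfφc : ∀ v : ℂ, HasCompactSupport fun z => fderiv ℝ φ z v := fun v => by
    refine HasCompactSupport.intro hφc.isCompact (fun z hz => ?_)
    rw [fderiv_of_notMem_tsupport ℝ hz]; simp
  have key : ∀ v : ℂ, ∫ z, φ z • fderiv ℝ w z v = - ∫ z, fderiv ℝ φ z v • w z := fun v =>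
    integral_smul_fderiv_eq_neg_fderiv_smul_of_integrable
      (int_smul (hfφ v) (hfφc v) hw.continuous.locallyIntegrable)
      (int_smul hφ.continuous hφc (hfw v).locallyIntegrable)
      (int_smul hφ.continuous hφc hw.continuous.locallyIntegrable)
      (fun x _ => hφd x) (fun x _ => hwd x)
  have i1 : ∀ v : ℂ, Integrable fun z => φ z • fderiv ℝ w z v := fun v =>
    int_smul hφ.continuous hφc (hfw v).locallyIntegrable
  have i2 : ∀ v : ℂ, Integrable fun z => fderiv ℝ φ z v • w z := fun v =>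
    int_smul (hfφ v) (hfφc v) hw.continuous.locallyIntegrable
  have i1' : ∀ v : ℂ, Integrable fun z => Complex.I • (φ z • fderiv ℝ w z v) := fun v =>
    (i1 v).smul Complex.I
  have i2' : ∀ v : ℂ, Integrable fun z => Complex.I • (fderiv ℝ φ z v • w z) := fun v =>
    (i2 v).smul Complex.I
  constructor
  · have e1 : ∀ z, dz φ z • w z = (2:ℂ)⁻¹ • (fderiv ℝ φ z 1 • w z -
        Complex.I • (fderiv ℝ φ z Complex.I • w z)) := by
      intro z
      rw [dz_apply]
      simp only [smul_eq_mul, smul_sub, smul_smul, mul_sub, sub_smul]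
    have e2 : ∀ z, φ z • dz w z = (2:ℂ)⁻¹ • (φ z • fderiv ℝ w z 1 -
        Complex.I • (φ z • fderiv ℝ w z Complex.I)) := by
      intro z
      rw [dz_apply, smul_comm, smul_sub, smul_comm (φ z) Complex.I]
    simp_rw [e1, e2]
    rw [integral_smul, integral_smul, integral_sub (i2 1) (i2' _),
      integral_sub (i1 1) (i1' _), integral_smul, integral_smul, key, key]
    module
  · have e1 : ∀ z, dzb φ z • w z = (2:ℂ)⁻¹ • (fderiv ℝ φ z 1 • w z +
        Complex.I • (fderiv ℝ φ z Complex.I • w z)) := by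
      intro z
      rw [dzb_apply]
      simp only [smul_eq_mul, smul_add, smul_smul, mul_add, add_smul]
    have e2 : ∀ z, φ z • dzb w z = (2:ℂ)⁻¹ • (φ z • fderiv ℝ w z 1 +
        Complex.I • (φ z • fderiv ℝ w z Complex.I)) := by
      intro z
      rw [dzb_apply, smul_comm, smul_add, smul_comm (φ z) Complex.I]
    simp_rw [e1, e2]
    rw [integral_smul, integral_smul, integral_add (i2 1) (i2' _),
      integral_add (i1 1) (i1' _), integral_smul, integral_smul, key, key]
    module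

/-! ### the `L²` bound, scalar case -/

section scalar

open Crest.Agent.R096.BelA_205 (Tst)

/-- the `L²` norm as a real number -/
def n2 {F : Type*} [NormedAddCommGroup F] (f : ℂ → F) : ℝ := (eLpNorm f 2 volume).toReal

lemma n2_nonneg {F : Type*} [NormedAddCommGroup F] (f : ℂ → F) : 0 ≤ n2 f := ENNReal.toReal_nonneg

/-- Cauchy–Schwarz -/
lemma cs {f g : ℂ → ℂ} (hf : MemLp f 2 volume) (hg : MemLp g 2 volume) :
    ‖∫ z, f z * g z‖ ≤ n2 f * n2 g := by
  have hf' : MemLp (fun z => conj (f z)) 2 volume := by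
    refine (memLp_congr_norm (Complex.continuous_conj.comp_aestronglyMeasurable hf.1) hf.1 ?_).2 hf
    exact Eventually.of_forall fun z => RCLike.norm_conj _
  have h1 : inner ℂ (hf'.toLp) (hg.toLp) = ∫ z, f z * g z := by
    rw [L2.inner_def]
    refine integral_congr_ae ?_
    filter_upwards [hf'.coeFn_toLp, hg.coeFn_toLp] with z h1 h2
    rw [h1, h2]
    simp [mul_comm]
  have h2 : n2 (fun z => conj (f z)) = n2 f := by
    unfold n2
    rw [eLpNorm_congr_norm_ae (g := f) (Eventually.of_forall fun z => RCLike.norm_conj _)]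
  calc ‖∫ z, f z * g z‖ = ‖inner ℂ (hf'.toLp) (hg.toLp)‖ := by rw [h1]
    _ ≤ ‖hf'.toLp‖ * ‖hg.toLp‖ := norm_inner_le_norm _ _
    _ = n2 f * n2 g := by rw [Lp.norm_toLp, Lp.norm_toLp, ← h2]; rfl

lemma n2_sq {F : Type*} [NormedAddCommGroup F] {f : ℂ → F} (hf : MemLp f 2 volume) :
    n2 f ^ 2 = ∫ z, ‖f z‖ ^ 2 := by
  have h := hf.eLpNorm_eq_integral_rpow_norm (by norm_num) (by norm_num)
  unfold n2
  rw [h, ENNReal.toReal_ofReal (by positivity)]
  simp only [ENNReal.toReal_ofNat]
  have h1 : ∀ z, ‖f z‖ ^ (2:ℝ) = ‖f z‖ ^ 2 := fun z => by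
    exact_mod_cast Real.rpow_natCast ‖f z‖ 2
  simp_rw [h1]
  have h0 : 0 ≤ ∫ z, ‖f z‖ ^ 2 := integral_nonneg fun z => sq_nonneg _
  rw [← Real.rpow_natCast, ← Real.rpow_mul h0]
  norm_num

lemma tst_of {φ : ℂ → ℂ} (hφ : ContDiff ℝ ∞ φ) (hφc : HasCompactSupport φ) : ∃ R : ℝ, Tst R φ := by
  obtain ⟨R, hR⟩ := hφc.isCompact.isBounded.subset_closedBall (0:ℂ)
  refine ⟨R, hφ, fun z hz => ?_⟩
  by_contra h
  have := hR (subset_tsupport φ h)
  rw [mem_closedBall_zero_iff] at this
  linarith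

/-- the dual estimate -/
theorem dual_bound {U P Q : ℂ → ℂ} (h : WC U P Q) {R : ℝ} (hU : ∀ z, R < ‖z‖ → U z = 0)
    (hQ : MemLp Q 2 volume) {φ : ℂ → ℂ} (hφ : ContDiff ℝ ∞ φ) (hφc : HasCompactSupport φ) :
    ‖∫ z, φ z * P z‖ ≤ n2 φ * n2 Q := by
  obtain ⟨R', hT⟩ := tst_of hφ hφc
  set Φ : ℂ → ℂ := R096.BelA_205.dz (R096.BelA_205.P φ) with hΦ
  have hΦ' : Φ = R096.BelA_205.P (R096.BelA_205.dz φ) := R096.BelA_205.dz_P hT
  have hΦs : ContDiff ℝ ∞ Φ := by rw [hΦ']; exact R096.BelA_205.P_smooth hT.dz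
  have hΦb : R096.BelA_205.dzb Φ = R096.BelA_205.dz φ := by rw [hΦ']; exact R096.BelA_205.dzb_P hT.dz
  have hΦm : MemLp Φ 2 volume :=
    (memLp_two_iff_integrable_sq_norm hΦs.continuous.aestronglyMeasurable).2
      (R096.BelB_205.integrable_sq_P hT)
  have hφm : MemLp φ 2 volume := hφ.continuous.memLp_of_hasCompactSupport hφc
  have hnΦ : n2 Φ = n2 φ := by
    have h1 : n2 Φ ^ 2 = n2 φ ^ 2 := by
      rw [n2_sq hΦm, n2_sq hφm]; exact R096.BelB_205.isometry hT
    exact (sq_eq_sq₀ (n2_nonneg _) (n2_nonneg _)).1 h1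
  -- cut-off
  let χ : ContDiffBump (0:ℂ) := ⟨|R| + 1, |R| + 2, by positivity, by linarith⟩
  set η : ℂ → ℂ := fun z => ((χ z : ℝ) : ℂ) with hη
  have hηs : ContDiff ℝ ∞ η := Complex.ofRealCLM.contDiff.comp χ.contDiff
  have hηc : HasCompactSupport η := χ.hasCompactSupport.comp_left (g := fun x : ℝ => (x : ℂ)) (by simp)
  have hη1 : ∀ z, ‖η z‖ ≤ 1 := fun z => by
    rw [hη]
    simp only
    rw [Complex.norm_real, Real.norm_of_nonneg χ.nonneg]
    exact χ.le_one
  have hηΦ : ContDiff ℝ ∞ fun z => η z * Φ z := hηs.mul hΦs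
  have hηΦc : HasCompactSupport fun z => η z * Φ z := hηc.mul_right
  have w1 := (h.weak _ hηΦ hηΦc).2
  have w2 := (h.weak _ hφ hφc).1
  have e1 : ∀ z, dzb (fun z => η z * Φ z) z • U z = dz φ z • U z := by
    intro z
    by_cases hz : R < ‖z‖
    · rw [hU z hz, smul_zero, smul_zero]
    · have hz' : ‖z‖ ≤ R := not_lt.1 hz
      have h2 : (fun y => η y * Φ y) =ᶠ[𝓝 z] Φ := by
        have h3 : ball (0:ℂ) (|R| + 1) ∈ 𝓝 z := isOpen_ball.mem_nhds (by
          rw [mem_ball_zero_iff]
          exact lt_of_le_of_lt (hz'.trans (le_abs_self R)) (by linarith))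
        filter_upwards [h3] with y hy
        have h4 : χ y = 1 := χ.one_of_mem_closedBall (ball_subset_closedBall hy)
        rw [hη]
        simp only
        rw [h4, Complex.ofReal_one, one_mul]
      have h5 : dzb (fun z => η z * Φ z) z = dzb Φ z := by
        rw [dzb_apply, dzb_apply, h2.fderiv_eq]
      rw [h5, dzb_eqB, dz_eqB, hΦb]
  simp_rw [e1] at w1
  rw [w1, neg_inj] at w2
  simp only [smul_eq_mul] at w2
  rw [← w2]
  have hm : MemLp (fun z => η z * Φ z) 2 volume :=
    hηΦ.continuous.memLp_of_hasCompactSupport hηΦc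
  have hn : n2 (fun z => η z * Φ z) ≤ n2 Φ := by
    unfold n2
    refine ENNReal.toReal_mono hΦm.2.ne (eLpNorm_mono fun z => ?_)
    rw [norm_mul]
    exact mul_le_of_le_one_left (norm_nonneg _) (hη1 z)
  calc ‖∫ z, η z * Φ z * Q z‖ ≤ n2 (fun z => η z * Φ z) * n2 Q := cs hm hQ
    _ ≤ n2 φ * n2 Q := by rw [← hnΦ]; exact mul_le_mul_of_nonneg_right hn (n2_nonneg _)

/-- the `L²` bound -/
theorem l2_scalar {U P Q : ℂ → ℂ} (h : WC U P Q) {R : ℝ} (hU : ∀ z, R < ‖z‖ → U z = 0)
    (hP : MemLp P 2 volume) (hQ : MemLp Q 2 volume) : eLpNorm P 2 volume ≤ eLpNorm Q 2 volume := by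
  set p : Lp ℂ 2 (volume : Measure ℂ) := hP.toLp with hp
  have hcl : IsClosed {f : Lp ℂ 2 (volume : Measure ℂ) | ‖inner ℂ f p‖ ≤ ‖f‖ * n2 Q} :=
    isClosed_le ((continuous_id.inner continuous_const).norm) (continuous_norm.mul continuous_const)
  have hall : ∀ f : Lp ℂ 2 (volume : Measure ℂ), ‖inner ℂ f p‖ ≤ ‖f‖ * n2 Q := by
    intro f
    have hd := Lp.dense_hasCompactSupport_contDiff (F := ℂ) (μ := (volume : Measure ℂ)) (p := 2)
      (by norm_num)
    refine hcl.closure_subset_iff.2 ?_ (hd f)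
    rintro f ⟨g, hfg, hgc, hgs⟩
    have hgs' : ContDiff ℝ ∞ fun z => conj (g z) := Complex.conjCLE.contDiff.comp hgs
    have hgc' : HasCompactSupport fun z => conj (g z) :=
      hgc.comp_left (g := fun x : ℂ => conj x) (by simp)
    have h1 := dual_bound h hU hQ hgs' hgc'
    have h2 : inner ℂ f p = ∫ z, conj (g z) * P z := by
      rw [L2.inner_def]
      refine integral_congr_ae ?_
      filter_upwards [hfg, hP.coeFn_toLp] with z h1 h2
      rw [h1, hp, h2]
      simp [mul_comm]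
    have h3 : n2 (fun z => conj (g z)) = ‖f‖ := by
      unfold n2
      rw [Lp.norm_def, eLpNorm_congr_ae hfg,
        eLpNorm_congr_norm_ae (g := g) (Eventually.of_forall fun z => RCLike.norm_conj _)]
    show ‖inner ℂ f p‖ ≤ ‖f‖ * n2 Q
    rw [h2, ← h3]
    exact h1
  have h1 := hall p
  rw [inner_self_eq_norm_sq_to_K] at h1
  have h2 : ‖p‖ ^ 2 ≤ ‖p‖ * n2 Q := by
    have h3 : ‖((‖p‖ : ℂ)) ^ 2‖ = ‖p‖ ^ 2 := by
      rw [norm_pow, Complex.norm_real, norm_norm]
    rw [← h3]; exact h1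
  have h3 : ‖p‖ ≤ n2 Q := by
    rcases eq_or_lt_of_le (norm_nonneg p) with h0 | h0
    · rw [← h0]; exact n2_nonneg _
    · rw [sq] at h2
      exact le_of_mul_le_mul_left h2 h0
  rw [hp, Lp.norm_toLp] at h3
  exact (ENNReal.toReal_le_toReal hP.2.ne hQ.2.ne).1 h3

end scalar

/-! ### the `L²` bound, vector case -/

theorem l2_vec (E : Type*) [NormedAddCommGroup E] [NormedSpace ℂ E] [FiniteDimensional ℂ E] :
    ∃ K : ℝ≥0, ∀ (U P Q : ℂ → E), WC U P Q → ∀ R : ℝ, (∀ z, R < ‖z‖ → U z = 0) →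
      MemLp P 2 volume → MemLp Q 2 volume → eLpNorm P 2 volume ≤ K * eLpNorm Q 2 volume := by
  have hcE : CompleteSpace E := FiniteDimensional.complete ℂ E
  let e : E ≃L[ℂ] (Fin (Module.finrank ℂ E) → ℂ) := ContinuousLinearEquiv.ofFinrankEq (by simp)
  let ℓ : Fin (Module.finrank ℂ E) → E →L[ℂ] ℂ := fun j =>
    (ContinuousLinearMap.proj j).comp (e : E →L[ℂ] (Fin (Module.finrank ℂ E) → ℂ))
  refine ⟨‖(e.symm : (Fin (Module.finrank ℂ E) → ℂ) →L[ℂ] E)‖₊ * ∑ j, ‖ℓ j‖₊,
    fun U P Q h R hU hP hQ => ?_⟩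
  have h1 : ∀ z, ‖P z‖₊ ≤ ‖(e.symm : (Fin (Module.finrank ℂ E) → ℂ) →L[ℂ] E)‖₊ *
      ‖∑ j, ‖ℓ j (P z)‖‖₊ := by
    intro z
    have h2 : P z = e.symm (e (P z)) := (e.symm_apply_apply _).symm
    have h3 : ‖e (P z)‖ ≤ ‖∑ j, ‖ℓ j (P z)‖‖ := by
      rw [Real.norm_of_nonneg (Finset.sum_nonneg fun j _ => norm_nonneg _)]
      refine (pi_norm_le_iff_of_nonneg (Finset.sum_nonneg fun j _ => norm_nonneg _)).2 fun j => ?_
      exact Finset.single_le_sum (f := fun j => ‖ℓ j (P z)‖) (fun j _ => norm_nonneg _)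
        (Finset.mem_univ j)
    rw [← NNReal.coe_le_coe]
    push_cast
    calc ‖P z‖ = ‖e.symm (e (P z))‖ := by rw [← h2]
      _ ≤ ‖(e.symm : (Fin (Module.finrank ℂ E) → ℂ) →L[ℂ] E)‖ * ‖e (P z)‖ :=
        (e.symm : (Fin (Module.finrank ℂ E) → ℂ) →L[ℂ] E).le_opNorm _
      _ ≤ _ := mul_le_mul_of_nonneg_left h3 (norm_nonneg _)
  have h2 : eLpNorm P 2 volume ≤
      ‖(e.symm : (Fin (Module.finrank ℂ E) → ℂ) →L[ℂ] E)‖₊ •
        eLpNorm (fun z => ∑ j, ‖ℓ j (P z)‖) 2 volume :=
    eLpNorm_le_nnreal_smul_eLpNorm_of_ae_le_mul (Eventually.of_forall h1) 2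
  have h3 : eLpNorm (fun z => ∑ j, ‖ℓ j (P z)‖) 2 volume ≤
      ∑ j, ‖ℓ j‖₊ * eLpNorm Q 2 volume := by
    have h4 : (fun z => ∑ j, ‖ℓ j (P z)‖) = ∑ j, fun z => ‖ℓ j (P z)‖ := by
      funext z; simp
    rw [h4]
    refine (eLpNorm_sum_le (fun j _ => ((ℓ j).continuous.comp_aestronglyMeasurable hP.1).norm)
      (by norm_num)).trans (Finset.sum_le_sum fun j _ => ?_)
    rw [eLpNorm_norm]
    have h5 := l2_scalar (h.clm (ℓ j)) (R := R) (fun z hz => by rw [hU z hz, map_zero])
      ((ℓ j).comp_memLp' hP) ((ℓ j).comp_memLp' hQ)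
    refine h5.trans ?_
    have h6 := eLpNorm_le_nnreal_smul_eLpNorm_of_ae_le_mul (μ := (volume : Measure ℂ))
      (f := fun z => ℓ j (Q z)) (g := Q) (c := ‖ℓ j‖₊)
      (Eventually.of_forall fun z => (ℓ j).le_opNNNorm _) 2
    exact h6
  refine h2.trans ?_
  rw [ENNReal.smul_def, smul_eq_mul]
  refine (mul_le_mul_right h3 _).trans (le_of_eq ?_)
  push_cast
  rw [← Finset.sum_mul, mul_assoc]

/-! ### cut-off functions -/

lemma norm_dz_le (u : ℂ → E) (z : ℂ) : ‖dz u z‖ ≤ ‖fderiv ℝ u z‖ := by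
  rw [dz_apply, norm_smul, norm_inv, Complex.norm_two]
  have h1 : ‖fderiv ℝ u z 1‖ ≤ ‖fderiv ℝ u z‖ := by
    simpa using (fderiv ℝ u z).le_opNorm 1
  have h2 : ‖Complex.I • fderiv ℝ u z Complex.I‖ ≤ ‖fderiv ℝ u z‖ := by
    rw [norm_smul, Complex.norm_I, one_mul]
    simpa using (fderiv ℝ u z).le_opNorm Complex.I
  have h3 := norm_sub_le (fderiv ℝ u z 1) (Complex.I • fderiv ℝ u z Complex.I)
  linarith

lemma norm_dzb_le (u : ℂ → E) (z : ℂ) : ‖dzb u z‖ ≤ ‖fderiv ℝ u z‖ := by
  rw [dzb_apply, norm_smul, norm_inv, Complex.norm_two]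
  have h1 : ‖fderiv ℝ u z 1‖ ≤ ‖fderiv ℝ u z‖ := by
    simpa using (fderiv ℝ u z).le_opNorm 1
  have h2 : ‖Complex.I • fderiv ℝ u z Complex.I‖ ≤ ‖fderiv ℝ u z‖ := by
    rw [norm_smul, Complex.norm_I, one_mul]
    simpa using (fderiv ℝ u z).le_opNorm Complex.I
  have h3 := norm_add_le (fderiv ℝ u z 1) (Complex.I • fderiv ℝ u z Complex.I)
  linarith

/-- the standard bump -/
def bmp : ContDiffBump (0:ℂ) := ⟨1, 2, one_pos, one_lt_two⟩

/-- cut-off at scale `n` -/
def et (n : ℝ) (z : ℂ) : ℂ := ((bmp (n⁻¹ • z) : ℝ) : ℂ)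

lemma et_smooth (n : ℝ) : ContDiff ℝ ∞ (et n) :=
  Complex.ofRealCLM.contDiff.comp (bmp.contDiff.comp (contDiff_const_smul _))

lemma et_zero {n : ℝ} (hn : 0 < n) {z : ℂ} (hz : 2 * n ≤ ‖z‖) : et n z = 0 := by
  have h1 : bmp (n⁻¹ • z) = 0 := by
    refine bmp.zero_of_le_dist ?_
    rw [dist_zero_right, norm_smul, Real.norm_of_nonneg (inv_pos.2 hn).le]
    show (2:ℝ) ≤ _
    rw [le_inv_mul_iff₀ hn]; linarith
  rw [et, h1, Complex.ofReal_zero]

lemma et_one {n : ℝ} (hn : 0 < n) {z : ℂ} (hz : ‖z‖ ≤ n) : et n z = 1 := by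
  have h1 : bmp (n⁻¹ • z) = 1 := by
    refine bmp.one_of_mem_closedBall ?_
    rw [mem_closedBall_zero_iff, norm_smul, Real.norm_of_nonneg (inv_pos.2 hn).le]
    show _ ≤ (1:ℝ)
    rw [inv_mul_le_iff₀ hn]; linarith
  rw [et, h1, Complex.ofReal_one]

lemma et_norm (n : ℝ) (z : ℂ) : ‖et n z‖ ≤ 1 := by
  rw [et, Complex.norm_real, Real.norm_of_nonneg bmp.nonneg]
  exact bmp.le_one

lemma et_hcs {n : ℝ} (hn : 0 < n) : HasCompactSupport (et n) := by
  refine HasCompactSupport.intro (isCompact_closedBall (0:ℂ) (2 * n)) (fun z hz => ?_)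
  rw [mem_closedBall_zero_iff, not_le] at hz
  exact et_zero hn hz.le

lemma et_fd0 {n : ℝ} (hn : 0 < n) {z : ℂ} (hz : ‖z‖ < n ∨ 2 * n < ‖z‖) : fderiv ℝ (et n) z = 0 := by
  rcases hz with hz | hz
  · have h1 : et n =ᶠ[𝓝 z] fun _ => (1:ℂ) := by
      filter_upwards [(isOpen_lt continuous_norm continuous_const).mem_nhds hz] with y hy
      exact et_one hn (le_of_lt hy)
    rw [h1.fderiv_eq, fderiv_const_apply]
  · have h1 : et n =ᶠ[𝓝 z] fun _ => (0:ℂ) := by
      filter_upwards [(isOpen_lt continuous_const continuous_norm).mem_nhds hz] with y hy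
      exact et_zero hn (le_of_lt hy)
    rw [h1.fderiv_eq, fderiv_const_apply]

lemma et_fd : ∃ C : ℝ, 0 < C ∧ ∀ n : ℝ, 0 < n → ∀ z, ‖fderiv ℝ (et n) z‖ ≤ C / n := by
  have h1 : ContDiff ℝ 1 (et 1) := (et_smooth 1).of_le (by exact_mod_cast le_top)
  have h2 : Continuous (fderiv ℝ (et 1)) := h1.continuous_fderiv (by norm_num)
  have h3 : HasCompactSupport (fderiv ℝ (et 1)) := (et_hcs one_pos).fderiv (𝕜 := ℝ)
  obtain ⟨C, hC⟩ := h3.exists_bound_of_continuous h2
  refine ⟨max C 1, by positivity, fun n hn z => ?_⟩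
  have h4 : et n = fun y => et 1 (n⁻¹ • y) := by
    funext y; simp only [et, inv_one, one_smul]
  have h5 : HasFDerivAt (et n) ((fderiv ℝ (et 1) (n⁻¹ • z)).comp
      (n⁻¹ • ContinuousLinearMap.id ℝ ℂ)) z := by
    rw [h4]
    exact ((h1.differentiable (by norm_num) _).hasFDerivAt).comp z
      ((n⁻¹ • ContinuousLinearMap.id ℝ ℂ).hasFDerivAt)
  rw [h5.fderiv]
  calc ‖(fderiv ℝ (et 1) (n⁻¹ • z)).comp (n⁻¹ • ContinuousLinearMap.id ℝ ℂ)‖
      ≤ ‖fderiv ℝ (et 1) (n⁻¹ • z)‖ * ‖n⁻¹ • ContinuousLinearMap.id ℝ ℂ‖ :=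
        ContinuousLinearMap.opNorm_comp_le _ _
    _ ≤ max C 1 * n⁻¹ := by
        refine mul_le_mul ((hC _).trans (le_max_left _ _)) ?_ (norm_nonneg _) (by positivity)
        rw [norm_smul, Real.norm_of_nonneg (inv_pos.2 hn).le]
        exact mul_le_of_le_one_right (inv_pos.2 hn).le ContinuousLinearMap.norm_id_le
    _ = max C 1 / n := (div_eq_mul_inv _ _).symm

/-! ### Liouville, weak form -/

lemma ev_coc {P : ℂ → Prop} (h : ∀ᶠ z in cocompact ℂ, P z) : ∃ r : ℝ, ∀ z, r < ‖z‖ → P z := by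
  rw [← Metric.cobounded_eq_cocompact] at h
  obtain ⟨r, _, hr⟩ := (Metric.hasBasis_cobounded_compl_closedBall (0:ℂ)).eventually_iff.1 h
  exact ⟨r, fun z hz => hr (by simpa using hz)⟩

theorem liou {V : ℂ → E} (hV : Continuous V) (h0 : Tendsto V (cocompact ℂ) (𝓝 0))
    (hw : ∀ φ : ℂ → ℂ, ContDiff ℝ ∞ φ → HasCompactSupport φ → ∫ z, dzb φ z • V z = 0)
    [CompleteSpace E] : ∀ z, V z = 0 := by
  have key : ∀ φ : ℂ → ℂ, ContDiff ℝ ∞ φ → HasCompactSupport φ → ∫ z, φ z • V z = 0 := by
    intro φ hφ hφc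
    obtain ⟨R0, hT0⟩ := tst_of hφ hφc
    set R := max R0 1 with hR
    have hT : R096.BelA_205.Tst R φ := hT0.mono (le_max_left _ _)
    have hRpos : 0 < R := lt_of_lt_of_le one_pos (le_max_right _ _)
    set Φ : ℂ → ℂ := R096.BelA_205.P φ with hΦ
    have hΦs : ContDiff ℝ ∞ Φ := R096.BelA_205.P_smooth hT
    have hΦd : Differentiable ℝ Φ := hΦs.differentiable (by simp)
    have hΦb : R096.BelA_205.dzb Φ = φ := R096.BelA_205.dzb_P hT
    set A : ℝ := 2 * π⁻¹ * (∫ ζ, ‖φ ζ‖) with hA
    have hA0 : 0 ≤ A := by positivity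
    obtain ⟨C, hC, hCn⟩ := et_fd
    -- the integral is small
    have small : ∀ δ : ℝ, 0 < δ → ‖∫ z, φ z • V z‖ ≤ C * A * δ * 16 := by
      intro δ hδ
      have h1 : ∀ᶠ z in cocompact ℂ, ‖V z‖ < δ := by
        have := h0.norm
        rw [norm_zero] at this
        exact this.eventually (gt_mem_nhds hδ)
      obtain ⟨r, hr⟩ := ev_coc h1
      set n : ℝ := max (2 * R) (max r 1) + 1 with hn
      have hn0 : 0 < n := by positivity
      have hnR : 2 * R < n := lt_of_le_of_lt (le_max_left _ _) (lt_add_one _)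
      have hnr : r < n :=
        lt_of_le_of_lt ((le_max_left _ _).trans (le_max_right (2 * R) _)) (lt_add_one _)
      have hVn : ∀ z, n ≤ ‖z‖ → ‖V z‖ ≤ δ := by
        intro z hz
        exact (hr z (by linarith)).le
      have hηΦ : ContDiff ℝ ∞ fun z => et n z * Φ z := (et_smooth n).mul hΦs
      have hηΦc : HasCompactSupport fun z => et n z * Φ z := (et_hcs hn0).mul_right
      have w := hw _ hηΦ hηΦc
      have e1 : ∀ z, dzb (fun z => et n z * Φ z) z • V z =
          φ z • V z + (dzb (et n) z * Φ z) • V z := by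
        intro z
        rw [dzb_mul ((et_smooth n).differentiable (by simp) z) (hΦd z), add_smul]
        congr 1
        rw [dzb_eqB, hΦb]
        by_cases hz : ‖z‖ ≤ n
        · rw [et_one hn0 hz, one_mul]
        · rw [hT.zero z (by linarith), mul_zero]
      have i1 : Integrable fun z => φ z • V z :=
        int_smul hφ.continuous hφc hV.locallyIntegrable
      have i2 : Integrable fun z => (dzb (et n) z * Φ z) • V z := by
        refine int_smul ((cd_dzb (et_smooth n)).continuous.mul hΦs.continuous) ?_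
          hV.locallyIntegrable
        exact (hcs_dzb (et_hcs hn0)).mul_right
      simp_rw [e1] at w
      rw [integral_add i1 i2] at w
      have e2 : ∫ z, φ z • V z = - ∫ z, (dzb (et n) z * Φ z) • V z := eq_neg_of_add_eq_zero_left w
      rw [e2, norm_neg]
      have e3 : ∫ z, (dzb (et n) z * Φ z) • V z =
          ∫ z in closedBall (0:ℂ) (2 * n), (dzb (et n) z * Φ z) • V z := by
        rw [setIntegral_eq_integral_of_forall_compl_eq_zero]
        intro z hz
        rw [mem_closedBall_zero_iff, not_le] at hz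
        rw [dzb_apply, et_fd0 hn0 (Or.inr hz)]
        simp
      rw [e3]
      have hbound : ∀ z ∈ closedBall (0:ℂ) (2 * n),
          ‖(dzb (et n) z * Φ z) • V z‖ ≤ C / n * (A / n) * δ := by
        intro z _
        by_cases hz : ‖z‖ < n
        · rw [dzb_apply, et_fd0 hn0 (Or.inl hz)]
          simp only [zero_apply, smul_zero, add_zero, zero_mul, zero_smul, norm_zero]
          positivity
        · rw [not_lt] at hz
          rw [norm_smul, norm_mul]
          have h3 : ‖Φ z‖ ≤ A / n := by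
            refine (R096.BelA_205.P_decay hT hRpos (by linarith)).trans ?_
            rw [div_eq_mul_inv]
            exact mul_le_mul_of_nonneg_left (inv_anti₀ hn0 hz) hA0
          have h4 : ‖dzb (et n) z‖ ≤ C / n := (norm_dzb_le _ _).trans (hCn n hn0 z)
          exact mul_le_mul (mul_le_mul h4 h3 (norm_nonneg _) (by positivity)) (hVn z hz)
            (norm_nonneg _) (by positivity)
      refine (norm_setIntegral_le_of_norm_le_const measure_closedBall_lt_top hbound).trans ?_
      have h5 : volume.real (closedBall (0:ℂ) (2 * n)) = (2 * n) ^ 2 * π := by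
        rw [Measure.real, Complex.volume_closedBall, ENNReal.toReal_mul, ENNReal.toReal_pow,
          ENNReal.toReal_ofReal (by positivity)]
        rfl
      rw [h5]
      have h6 : C / n * (A / n) * δ * ((2 * n) ^ 2 * π) = C * A * δ * (4 * π) := by
        field_simp
        ring
      rw [h6]
      exact mul_le_mul_of_nonneg_left (by linarith [Real.pi_le_four]) (by positivity)
    have h2 : ‖∫ z, φ z • V z‖ ≤ 0 := by
      refine le_of_forall_pos_le_add fun ε hε => ?_
      have h3 := small (ε / (C * A * 16 + 1)) (by positivity)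
      refine h3.trans ?_
      rw [zero_add]
      have h4 : 0 < C * A * 16 + 1 := by positivity
      rw [mul_div_assoc', div_mul_eq_mul_div, div_le_iff₀ h4]
      nlinarith
    exact norm_le_zero_iff.1 h2
  have h1 : ∀ᵐ z, V z = 0 := by
    refine ae_eq_zero_of_integral_contDiff_smul_eq_zero hV.locallyIntegrable fun g hg hgc => ?_
    have h2 := key (fun z => (g z : ℂ)) (Complex.ofRealCLM.contDiff.comp hg)
      (hgc.comp_left (g := fun x : ℝ => (x : ℂ)) (by simp))
    rw [← h2]
    refine integral_congr_ae (Eventually.of_forall fun z => ?_)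
    exact (Complex.coe_smul (g z) (V z)).symm
  have h2 : V = fun _ => (0:E) := by
    refine (Continuous.ae_eq_iff_eq volume hV continuous_const).1 ?_
    exact h1
  intro z
  rw [h2]

/-- `L²` norm of a function supported in the annulus with values `≤ c / n` -/
lemma n2_small {f : ℂ → E} {n c : ℝ} (hn : 0 < n) (_hc : 0 ≤ c) (h1 : ∀ z, ‖f z‖ ≤ c / n)
    (h2 : ∀ z, 2 * n < ‖z‖ → f z = 0) : eLpNorm f 2 volume ≤ ENNReal.ofReal (4 * c) := by
  have h3 : eLpNorm f 2 (volume.restrict (closedBall (0:ℂ) (2 * n))) = eLpNorm f 2 volume := by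
    refine eLpNorm_restrict_eq_of_support_subset fun z hz => ?_
    rw [mem_closedBall_zero_iff]
    by_contra h
    exact hz (h2 z (not_le.1 h))
  rw [← h3]
  refine (eLpNorm_le_of_ae_bound (C := c / n) (Eventually.of_forall h1)).trans ?_
  rw [Measure.restrict_apply_univ, Complex.volume_closedBall]
  have h4 : (ENNReal.ofReal (2 * n) ^ 2 * (NNReal.pi : ℝ≥0∞)) ≤ ENNReal.ofReal (4 * n) ^ 2 := by
    have h5 : (NNReal.pi : ℝ≥0∞) ≤ ENNReal.ofReal 2 ^ 2 := by
      rw [← ENNReal.ofReal_pow (by norm_num)]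
      have : (NNReal.pi : ℝ≥0∞) = ENNReal.ofReal π := by
        rw [← NNReal.coe_real_pi, ENNReal.ofReal_coe_nnreal]
      rw [this]
      refine ENNReal.ofReal_le_ofReal ?_
      linarith [Real.pi_le_four]
    calc (ENNReal.ofReal (2 * n) ^ 2 * (NNReal.pi : ℝ≥0∞))
        ≤ ENNReal.ofReal (2 * n) ^ 2 * ENNReal.ofReal 2 ^ 2 := mul_le_mul_right h5 _
      _ = ENNReal.ofReal (4 * n) ^ 2 := by
          rw [← mul_pow, ← ENNReal.ofReal_mul (by positivity)]
          congr 2
          ring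
  have h6 : (ENNReal.ofReal (2 * n) ^ 2 * (NNReal.pi : ℝ≥0∞)) ^ ((2 : ℝ≥0∞).toReal⁻¹) ≤
      ENNReal.ofReal (4 * n) := by
    refine (ENNReal.rpow_le_rpow h4 (by positivity)).trans (le_of_eq ?_)
    rw [← ENNReal.rpow_natCast, ← ENNReal.rpow_mul]
    norm_num
  calc _ ≤ ENNReal.ofReal (4 * n) * ENNReal.ofReal (c / n) := mul_le_mul_left h6 _
    _ = ENNReal.ofReal (4 * c) := by
        rw [← ENNReal.ofReal_mul (by positivity)]
        congr 1
        field_simp

/-- **uniqueness**: a decaying solution of `|∂̄V| ≤ ε |∂V|` vanishes -/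
theorem uniq (E : Type*) [NormedAddCommGroup E] [NormedSpace ℂ E] [FiniteDimensional ℂ E] :
    ∃ ε : ℝ, 0 < ε ∧ ∀ (V P Q : ℂ → E), WC V P Q → Tendsto V (cocompact ℂ) (𝓝 0) →
      (∀ᵐ z, ‖Q z‖ ≤ ε * ‖P z‖) → ∀ z, V z = 0 := by
  have hcE : CompleteSpace E := FiniteDimensional.complete ℂ E
  obtain ⟨K, hK⟩ := l2_vec E
  obtain ⟨C, hC, hCn⟩ := et_fd
  refine ⟨(2 * (K + 1))⁻¹, by positivity, fun V P Q h h0 hQP => ?_⟩
  -- bound of the cut-off energy
  have main : ∀ δ : ℝ, 0 < δ → ∀ m : ℝ, eLpNorm P 2 (volume.restrict (ball 0 m)) ≤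
      2 * (K + 1) * ENNReal.ofReal (4 * (C * δ)) := by
    intro δ hδ m
    have h1 : ∀ᶠ z in cocompact ℂ, ‖V z‖ < δ := by
      have := h0.norm
      rw [norm_zero] at this
      exact this.eventually (gt_mem_nhds hδ)
    obtain ⟨r, hr⟩ := ev_coc h1
    set n : ℝ := max m (max r 1) + 1 with hn
    have hn0 : 0 < n := by positivity
    have hnm : m < n := lt_of_le_of_lt (le_max_left _ _) (lt_add_one _)
    have hnr : r < n :=
      lt_of_le_of_lt ((le_max_left _ _).trans (le_max_right m _)) (lt_add_one _)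
    have hVn : ∀ z, n ≤ ‖z‖ → ‖V z‖ ≤ δ := by
      intro z hz
      exact (hr z (by linarith)).le
    have hW := h.smul (et_smooth n)
    -- global square integrability of compactly supported pieces
    have glob : ∀ f : ℂ → E, (∀ z, 2 * n < ‖z‖ → f z = 0) →
        MemLp f 2 (volume.restrict (ball 0 (2 * n + 1))) → MemLp f 2 volume := by
      intro f hf hm
      have h3 : (ball (0:ℂ) (2 * n + 1)).indicator f = f := by
        refine indicator_eq_self.2 fun z hz => ?_
        rw [mem_ball_zero_iff]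
        by_contra h
        exact hz (hf z (by linarith))
      rw [← h3]
      exact (memLp_indicator_iff_restrict isOpen_ball.measurableSet).2 hm
    have z1 : ∀ z, 2 * n < ‖z‖ → et n z = 0 := fun z hz => et_zero hn0 hz.le
    have z2 : ∀ z, 2 * n < ‖z‖ → dz (et n) z = 0 := fun z hz => by
      rw [dz_apply, et_fd0 hn0 (Or.inr hz)]; simp
    have z3 : ∀ z, 2 * n < ‖z‖ → dzb (et n) z = 0 := fun z hz => by
      rw [dzb_apply, et_fd0 hn0 (Or.inr hz)]; simp
    have m1 : MemLp (fun z => et n z • P z) 2 volume :=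
      glob _ (fun z hz => by rw [z1 z hz, zero_smul]) (memLp_smul (et_smooth n).continuous (h.memP _))
    have m2 : MemLp (fun z => et n z • Q z) 2 volume :=
      glob _ (fun z hz => by rw [z1 z hz, zero_smul]) (memLp_smul (et_smooth n).continuous (h.memQ _))
    have m3 : MemLp (fun z => dz (et n) z • V z) 2 volume :=
      glob _ (fun z hz => by rw [z2 z hz, zero_smul])
        (memLp_cont ((cd_dz (et_smooth n)).continuous.smul h.cont) _)
    have m4 : MemLp (fun z => dzb (et n) z • V z) 2 volume :=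
      glob _ (fun z hz => by rw [z3 z hz, zero_smul])
        (memLp_cont ((cd_dzb (et_smooth n)).continuous.smul h.cont) _)
    have h5 := hK _ _ _ hW (2 * n) (fun z hz => by rw [z1 z hz, zero_smul]) (m1.add m3) (m2.add m4)
    have b3 : eLpNorm (fun z => dz (et n) z • V z) 2 volume ≤ ENNReal.ofReal (4 * (C * δ)) := by
      refine n2_small hn0 (by positivity) (fun z => ?_) (fun z hz => by rw [z2 z hz, zero_smul])
      by_cases hz : ‖z‖ < n
      · rw [dz_apply, et_fd0 hn0 (Or.inl hz)]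
        simp only [zero_apply, smul_zero, sub_zero, zero_smul, norm_zero]
        positivity
      · rw [norm_smul]
        calc ‖dz (et n) z‖ * ‖V z‖ ≤ C / n * δ :=
              mul_le_mul ((norm_dz_le _ _).trans (hCn n hn0 z)) (hVn z (not_lt.1 hz))
                (norm_nonneg _) (by positivity)
          _ = C * δ / n := by ring
    have b4 : eLpNorm (fun z => dzb (et n) z • V z) 2 volume ≤ ENNReal.ofReal (4 * (C * δ)) := by
      refine n2_small hn0 (by positivity) (fun z => ?_) (fun z hz => by rw [z3 z hz, zero_smul])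
      by_cases hz : ‖z‖ < n
      · rw [dzb_apply, et_fd0 hn0 (Or.inl hz)]
        simp only [zero_apply, smul_zero, add_zero, zero_smul, norm_zero]
        positivity
      · rw [norm_smul]
        calc ‖dzb (et n) z‖ * ‖V z‖ ≤ C / n * δ :=
              mul_le_mul ((norm_dzb_le _ _).trans (hCn n hn0 z)) (hVn z (not_lt.1 hz))
                (norm_nonneg _) (by positivity)
          _ = C * δ / n := by ring
    set a := eLpNorm (fun z => et n z • P z) 2 volume with ha
    set D := ENNReal.ofReal (4 * (C * δ)) with hD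
    have hafin : a ≠ ⊤ := m1.2.ne
    have c1 : a ≤ eLpNorm (fun z => et n z • P z + dz (et n) z • V z) 2 volume + D := by
      have e1 : (fun z => et n z • P z) =
          (fun z => et n z • P z + dz (et n) z • V z) - fun z => dz (et n) z • V z := by
        funext z; simp
      rw [ha, e1]
      refine (eLpNorm_sub_le (m1.add m3).1 m3.1 (by norm_num)).trans ?_
      exact add_le_add le_rfl b3
    have c2 : eLpNorm (fun z => et n z • Q z + dzb (et n) z • V z) 2 volume ≤
        eLpNorm (fun z => et n z • Q z) 2 volume + D := by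
      refine (eLpNorm_add_le m2.1 m4.1 (by norm_num)).trans ?_
      exact add_le_add le_rfl b4
    have c3 : eLpNorm (fun z => et n z • Q z) 2 volume ≤
        ENNReal.ofReal ((2 * (K + 1))⁻¹) * a := by
      refine eLpNorm_le_mul_eLpNorm_of_ae_le_mul ?_ 2
      filter_upwards [hQP] with z hz
      rw [norm_smul, norm_smul]
      nlinarith [norm_nonneg (et n z)]
    have c4 : a ≤ K * (ENNReal.ofReal ((2 * (K + 1))⁻¹) * a + D) + D := by
      refine c1.trans (add_le_add (h5.trans ?_) le_rfl)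
      exact mul_le_mul_right (c2.trans (add_le_add c3 le_rfl)) _
    have c5 : a ≤ 2 * (K + 1) * D := by
      -- pass to real numbers
      have hDfin : D ≠ ⊤ := ENNReal.ofReal_ne_top
      have d1 : a.toReal ≤ K * ((2 * ((K:ℝ) + 1))⁻¹ * a.toReal + D.toReal) + D.toReal := by
        have := ENNReal.toReal_mono (by
          refine ENNReal.add_ne_top.2 ⟨ENNReal.mul_ne_top ENNReal.coe_ne_top
            (ENNReal.add_ne_top.2 ⟨ENNReal.mul_ne_top ENNReal.ofReal_ne_top hafin, hDfin⟩), hDfin⟩) c4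
        rw [ENNReal.toReal_add (ENNReal.mul_ne_top ENNReal.coe_ne_top
            (ENNReal.add_ne_top.2 ⟨ENNReal.mul_ne_top ENNReal.ofReal_ne_top hafin, hDfin⟩)) hDfin,
          ENNReal.toReal_mul, ENNReal.toReal_add (ENNReal.mul_ne_top ENNReal.ofReal_ne_top hafin)
            hDfin, ENNReal.toReal_mul, ENNReal.toReal_ofReal (by positivity),
          ENNReal.coe_toReal] at this
        exact this
      have hK0 : (0:ℝ) ≤ K := K.2
      have hD0 : 0 ≤ D.toReal := ENNReal.toReal_nonneg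
      have ha0 : 0 ≤ a.toReal := ENNReal.toReal_nonneg
      have d2 : (K:ℝ) * ((2 * ((K:ℝ) + 1))⁻¹ * a.toReal) ≤ a.toReal / 2 := by
        have d3 : (K:ℝ) * (2 * ((K:ℝ) + 1))⁻¹ ≤ 1 / 2 := by
          rw [← div_eq_mul_inv, div_le_div_iff₀ (by positivity) (by norm_num)]
          linarith
        nlinarith
      have d4 : a.toReal ≤ 2 * ((K:ℝ) + 1) * D.toReal := by nlinarith
      have d5 : (2 * (K + 1) * D : ℝ≥0∞).toReal = 2 * ((K:ℝ) + 1) * D.toReal := by
        rw [ENNReal.toReal_mul, ENNReal.toReal_mul,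
          ENNReal.toReal_add ENNReal.coe_ne_top ENNReal.one_ne_top, ENNReal.coe_toReal]
        simp
      rw [← ENNReal.toReal_le_toReal hafin, d5]
      · exact d4
      · exact ENNReal.mul_ne_top (ENNReal.mul_ne_top (by norm_num)
          (ENNReal.add_ne_top.2 ⟨ENNReal.coe_ne_top, ENNReal.one_ne_top⟩)) hDfin
    refine le_trans ?_ c5
    have e2 : eLpNorm P 2 (volume.restrict (ball 0 m)) =
        eLpNorm (fun z => et n z • P z) 2 (volume.restrict (ball 0 m)) := by
      refine eLpNorm_congr_ae ?_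
      filter_upwards [ae_restrict_mem isOpen_ball.measurableSet] with z hz
      rw [mem_ball_zero_iff] at hz
      rw [et_one hn0 (by linarith), one_smul]
    rw [e2]
    exact eLpNorm_mono_measure _ Measure.restrict_le_self
  -- `P = 0` almost everywhere
  have hP0 : ∀ᵐ z, P z = 0 := by
    have h1 : ∀ m : ℕ, ∀ᵐ z, z ∈ ball (0:ℂ) m → P z = 0 := by
      intro m
      have h2 : eLpNorm P 2 (volume.restrict (ball (0:ℂ) m)) = 0 := by
        refine le_antisymm ?_ zero_le
        refine ENNReal.le_of_forall_pos_le_add fun ε hε _ => ?_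
        refine (main (ε / (8 * (K + 1) * C)) (by positivity) m).trans ?_
        rw [zero_add]
        have h3 : (2 * (K + 1) : ℝ≥0∞) = ENNReal.ofReal (2 * (K + 1)) := by
          rw [ENNReal.ofReal_mul (by norm_num), ENNReal.ofReal_add K.coe_nonneg zero_le_one]
          simp
        rw [h3, ← ENNReal.ofReal_mul (by positivity), ← ENNReal.ofReal_coe_nnreal]
        refine ENNReal.ofReal_le_ofReal (le_of_eq ?_)
        have hK1 : (0:ℝ) < K + 1 := by positivity
        field_simp
        ring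
      rw [eLpNorm_eq_zero_iff (h.memP m).1 (by norm_num)] at h2
      exact (ae_restrict_iff' isOpen_ball.measurableSet).1 h2
    filter_upwards [ae_all_iff.2 h1] with z hz
    obtain ⟨m, hm⟩ := exists_nat_gt ‖z‖
    exact hz m (by rwa [mem_ball_zero_iff])
  have hQ0 : ∀ᵐ z, Q z = 0 := by
    filter_upwards [hP0, hQP] with z h1 h2
    rw [h1, norm_zero, mul_zero] at h2
    exact norm_le_zero_iff.1 h2
  refine liou h.cont h0 fun φ hφ hφc => ?_
  rw [(h.weak φ hφ hφc).2, neg_eq_zero]
  rw [← integral_zero ℂ E (μ := volume)]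
  refine integral_congr_ae ?_
  filter_upwards [hQ0] with z hz
  rw [hz, smul_zero]

end

end Crest.Agent.R235.NWRegA_847
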