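import Crest.Agent.R235.NWRegA_847

/-!
Row 235, PACKAGE NW (helper847), leaf R1, part B: scaling and localisation of the weak derivative
data `WD`.
-/

set_option autoImplicit false
set_option linter.unusedSectionVars false

namespace Crest.Agent.R235.NWRegB_847

open Set Metric MeasureTheory Filter Topology
open scoped ContDiff NNReal ENNReal Real ComplexConjugate
open Crest.Agent.R235.NWDefs_334 Crest.Agent.R235.NWIface_334 Crest.Agent.R235.NWRegA_847

noncomputable section

variable {E : Type} [NormedAddCommGroup E] [NormedSpace ℂ E]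

lemma preim_ball {ρ : ℝ} (hρ : 0 < ρ) (r : ℝ) :
    (fun z : ℂ => ρ • z) ⁻¹' ball 0 r = ball 0 (r / ρ) := by
  ext z
  rw [mem_preimage, mem_ball_zero_iff, mem_ball_zero_iff, norm_smul, Real.norm_of_nonneg hρ.le,
    lt_div_iff₀ hρ, mul_comm]

lemma map_restrict {ρ : ℝ} (hρ : 0 < ρ) (r : ℝ) :
    Measure.map (fun z : ℂ => ρ • z) (volume.restrict (ball 0 (r / ρ))) =
      ENNReal.ofReal |(ρ ^ Module.finrank ℝ ℂ)⁻¹| • volume.restrict (ball (0:ℂ) r) := by
  have hm : Measurable fun z : ℂ => ρ • z := measurable_const_smul ρ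
  rw [← preim_ball hρ r, ← Measure.restrict_map hm isOpen_ball.measurableSet,
    Measure.map_addHaar_smul (volume : Measure ℂ) hρ.ne', Measure.restrict_smul]

lemma memLp_scale {p : ℂ → E} {r : ℝ} (h : MemLp p 2 (volume.restrict (ball 0 r))) {ρ : ℝ}
    (hρ : 0 < ρ) : MemLp (fun z => ρ • p (ρ • z)) 2 (volume.restrict (ball 0 (r / ρ))) := by
  have hm : Measurable fun z : ℂ => ρ • z := measurable_const_smul ρ
  have h1 : MemLp p 2 (Measure.map (fun z : ℂ => ρ • z) (volume.restrict (ball 0 (r / ρ)))) := by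
    rw [map_restrict hρ]
    exact h.smul_measure ENNReal.ofReal_ne_top
  exact (h1.comp_of_map hm.aemeasurable).const_smul ρ

lemma fderiv_scale {φ : ℂ → ℂ} (hφ : Differentiable ℝ φ) (ρ : ℝ) (z v : ℂ) :
    fderiv ℝ (fun y => φ (ρ • y)) z v = (ρ : ℂ) * fderiv ℝ φ (ρ • z) v := by
  have h1 : HasFDerivAt (fun y : ℂ => φ (ρ • y)) ((fderiv ℝ φ (ρ • z)).comp
      (ρ • ContinuousLinearMap.id ℝ ℂ)) z :=
    ((hφ _).hasFDerivAt).comp z ((ρ • ContinuousLinearMap.id ℝ ℂ).hasFDerivAt)
  rw [h1.fderiv]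
  simp

lemma dz_scale {φ : ℂ → ℂ} (hφ : Differentiable ℝ φ) (ρ : ℝ) (z : ℂ) :
    dz (fun y => φ (ρ • y)) z = (ρ : ℂ) * dz φ (ρ • z) := by
  rw [dz_apply, dz_apply, fderiv_scale hφ, fderiv_scale hφ]
  simp only [smul_eq_mul]
  ring

lemma dzb_scale {φ : ℂ → ℂ} (hφ : Differentiable ℝ φ) (ρ : ℝ) (z : ℂ) :
    dzb (fun y => φ (ρ • y)) z = (ρ : ℂ) * dzb φ (ρ • z) := by
  rw [dzb_apply, dzb_apply, fderiv_scale hφ, fderiv_scale hφ]
  simp only [smul_eq_mul]
  ring

/-- scaling of `WD` -/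
theorem scale {f p q : ℂ → E} {r : ℝ} (h : WD f p q r) {ρ : ℝ} (hρ : 0 < ρ) :
    WD (fun z => f (ρ • z)) (fun z => ρ • p (ρ • z)) (fun z => ρ • q (ρ • z)) (r / ρ) := by
  refine ⟨?_, memLp_scale h.memp hρ, memLp_scale h.memq hρ, fun φ hφ hφc hφs => ?_⟩
  · refine h.cont.comp (continuous_const_smul ρ).continuousOn fun z hz => ?_
    rw [← preim_ball hρ r] at hz
    exact hz
  · set Ψ : ℂ → ℂ := fun y => φ (ρ⁻¹ • y) with hΨ
    have hφd : Differentiable ℝ φ := hφ.differentiable (by simp)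
    have hΨs : ContDiff ℝ ∞ Ψ := hφ.comp (contDiff_const_smul _)
    have hΨt : tsupport Ψ ⊆ ball 0 r := by
      have h1 : tsupport Ψ ⊆ (fun y : ℂ => ρ⁻¹ • y) ⁻¹' tsupport φ :=
        tsupport_comp_subset_preimage φ (continuous_const_smul ρ⁻¹)
      refine h1.trans fun y hy => ?_
      have h2 : ρ⁻¹ • y ∈ ball (0:ℂ) (r / ρ) := hφs hy
      rw [← preim_ball hρ r, mem_preimage, smul_smul, mul_inv_cancel₀ hρ.ne', one_smul] at h2
      exact h2
    have hΨc : HasCompactSupport Ψ :=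
      Metric.isCompact_of_isClosed_isBounded (isClosed_tsupport _) (isBounded_ball.subset hΨt)
    obtain ⟨w1, w2⟩ := h.weak Ψ hΨs hΨc hΨt
    have hρρ : ∀ z : ℂ, ρ⁻¹ • ρ • z = z := fun z => by
      rw [smul_smul, inv_mul_cancel₀ hρ.ne', one_smul]
    have hc : ((ρ⁻¹ : ℝ) : ℂ) * (ρ : ℂ) = 1 := by
      rw [← Complex.ofReal_mul, inv_mul_cancel₀ hρ.ne', Complex.ofReal_one]
    have s1 := Measure.integral_comp_smul (volume : Measure ℂ) (fun y => dz Ψ y • f y) ρ
    have s2 := Measure.integral_comp_smul (volume : Measure ℂ) (fun y => dzb Ψ y • f y) ρ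
    have s3 := Measure.integral_comp_smul (volume : Measure ℂ) (fun y => Ψ y • p y) ρ
    have s4 := Measure.integral_comp_smul (volume : Measure ℂ) (fun y => Ψ y • q y) ρ
    have t1 : ∀ z : ℂ, dz Ψ (ρ • z) = ((ρ⁻¹ : ℝ) : ℂ) * dz φ z := fun z => by
      rw [hΨ, dz_scale hφd, hρρ]
    have t2 : ∀ z : ℂ, dzb Ψ (ρ • z) = ((ρ⁻¹ : ℝ) : ℂ) * dzb φ z := fun z => by
      rw [hΨ, dzb_scale hφd, hρρ]
    have t3 : ∀ z : ℂ, Ψ (ρ • z) = φ z := fun z => by rw [hΨ]; simp only; rw [hρρ]
    have e1 : ∀ z : ℂ, dz φ z • f (ρ • z) = (ρ : ℂ) • (dz Ψ (ρ • z) • f (ρ • z)) := by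
      intro z
      rw [t1, smul_smul, ← mul_assoc, mul_comm (ρ : ℂ), hc, one_mul]
    have e2 : ∀ z : ℂ, dzb φ z • f (ρ • z) = (ρ : ℂ) • (dzb Ψ (ρ • z) • f (ρ • z)) := by
      intro z
      rw [t2, smul_smul, ← mul_assoc, mul_comm (ρ : ℂ), hc, one_mul]
    have e3 : ∀ z : ℂ, φ z • (ρ • p (ρ • z)) = (ρ : ℂ) • (Ψ (ρ • z) • p (ρ • z)) := by
      intro z
      rw [t3, smul_comm (ρ : ℂ), Complex.coe_smul]
    have e4 : ∀ z : ℂ, φ z • (ρ • q (ρ • z)) = (ρ : ℂ) • (Ψ (ρ • z) • q (ρ • z)) := by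
      intro z
      rw [t3, smul_comm (ρ : ℂ), Complex.coe_smul]
    simp_rw [e1, e2, e3, e4]
    rw [integral_smul, integral_smul, integral_smul, integral_smul, s1, s2, s3, s4, w1, w2]
    constructor <;> simp

/-- continuity of a product supported in the ball -/
lemma cont_smul_of {F : ℂ → E} {R : ℝ} (hF : ContinuousOn F (ball 0 R)) {ψ : ℂ → ℂ}
    (hψ : Continuous ψ) (hs : tsupport ψ ⊆ ball 0 R) : Continuous fun z => ψ z • F z := by
  rw [continuous_iff_continuousAt]
  intro z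
  by_cases hz : z ∈ ball (0:ℂ) R
  · exact hψ.continuousAt.smul (hF.continuousAt (isOpen_ball.mem_nhds hz))
  · have h1 : z ∉ tsupport ψ := fun h => hz (hs h)
    have h2 : (fun z => ψ z • F z) =ᶠ[𝓝 z] fun _ => (0:E) := by
      filter_upwards [(isClosed_tsupport ψ).isOpen_compl.mem_nhds h1] with y hy
      rw [image_eq_zero_of_notMem_tsupport hy, zero_smul]
    exact (continuousAt_const (y := (0:E))).congr h2.symm

lemma tsup_dz (χ : ℂ → ℂ) : tsupport (dz χ) ⊆ tsupport χ := by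
  refine closure_minimal (fun z hz => ?_) (isClosed_tsupport _)
  by_contra h
  refine hz ?_
  rw [dz_apply, fderiv_of_notMem_tsupport ℝ h]
  simp

lemma tsup_dzb (χ : ℂ → ℂ) : tsupport (dzb χ) ⊆ tsupport χ := by
  refine closure_minimal (fun z hz => ?_) (isClosed_tsupport _)
  by_contra h
  refine hz ?_
  rw [dzb_apply, fderiv_of_notMem_tsupport ℝ h]
  simp

lemma memLp_glob {p : ℂ → E} {R : ℝ} (hp : MemLp p 2 (volume.restrict (ball 0 R))) {χ : ℂ → ℂ}
    (hχ : Continuous χ) (hs : tsupport χ ⊆ ball 0 R) : MemLp (fun z => χ z • p z) 2 volume := by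
  have h3 : (ball (0:ℂ) R).indicator (fun z => χ z • p z) = fun z => χ z • p z := by
    refine indicator_eq_self.2 fun z hz => ?_
    refine hs (subset_tsupport χ fun h => hz ?_)
    simp only
    rw [h, zero_smul]
  rw [← h3]
  exact (memLp_indicator_iff_restrict isOpen_ball.measurableSet).2 (memLp_smul hχ hp)

/-- localisation -/
theorem loc {F p q : ℂ → E} {R : ℝ} (h : WD F p q R) {χ : ℂ → ℂ} (hχ : ContDiff ℝ ∞ χ)
    (hs : tsupport χ ⊆ ball 0 R) :
    WC (fun z => χ z • F z) (fun z => χ z • p z + dz χ z • F z)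
      (fun z => χ z • q z + dzb χ z • F z) := by
  have hχd : Differentiable ℝ χ := hχ.differentiable (by simp)
  have c0 : Continuous fun z => χ z • F z := cont_smul_of h.cont hχ.continuous hs
  have c1 : Continuous fun z => dz χ z • F z :=
    cont_smul_of h.cont (cd_dz hχ).continuous ((tsup_dz χ).trans hs)
  have c2 : Continuous fun z => dzb χ z • F z :=
    cont_smul_of h.cont (cd_dzb hχ).continuous ((tsup_dzb χ).trans hs)
  have gp := memLp_glob h.memp hχ.continuous hs
  have gq := memLp_glob h.memq hχ.continuous hs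
  refine ⟨c0, fun R' => (gp.restrict _).add (memLp_cont c1 R'),
    fun R' => (gq.restrict _).add (memLp_cont c2 R'), fun φ hφ hφc => ?_⟩
  have hφd : Differentiable ℝ φ := hφ.differentiable (by simp)
  have hφχ : ContDiff ℝ ∞ fun y => φ y * χ y := hφ.mul hχ
  have hφχc : HasCompactSupport fun y => φ y * χ y := hφc.mul_right
  have hφχs : tsupport (fun y => φ y * χ y) ⊆ ball 0 R :=
    (tsupport_mul_subset_right (f := φ) (g := χ)).trans hs
  obtain ⟨w1, w2⟩ := h.weak _ hφχ hφχc hφχs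
  have lp : LocallyIntegrable fun z => χ z • p z := locInt fun R' => gp.restrict _
  have lq : LocallyIntegrable fun z => χ z • q z := locInt fun R' => gq.restrict _
  constructor
  · have e1 : ∀ z, dz φ z • (χ z • F z) =
        dz (fun y => φ y * χ y) z • F z - φ z • (dz χ z • F z) := by
      intro z
      rw [dz_mul (hφd z) (hχd z), add_smul, mul_smul, mul_smul]
      abel
    have i1 : Integrable fun z => dz (fun y => φ y * χ y) z • F z :=
      (cont_smul_of h.cont (cd_dz hφχ).continuous ((tsup_dz _).trans hφχs)).integrable_of_hasCompactSupport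
        ((hcs_dz hφχc).smul_right)
    have i2 : Integrable fun z => φ z • (dz χ z • F z) :=
      int_smul hφ.continuous hφc c1.locallyIntegrable
    have i3 : Integrable fun z => φ z • (χ z • p z) := int_smul hφ.continuous hφc lp
    simp_rw [e1]
    rw [integral_sub i1 i2, w1]
    simp_rw [smul_add, mul_smul]
    rw [integral_add i3 i2]
    abel
  · have e1 : ∀ z, dzb φ z • (χ z • F z) =
        dzb (fun y => φ y * χ y) z • F z - φ z • (dzb χ z • F z) := by
      intro z
      rw [dzb_mul (hφd z) (hχd z), add_smul, mul_smul, mul_smul]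
      abel
    have i1 : Integrable fun z => dzb (fun y => φ y * χ y) z • F z :=
      (cont_smul_of h.cont (cd_dzb hφχ).continuous ((tsup_dzb _).trans hφχs)).integrable_of_hasCompactSupport
        ((hcs_dzb hφχc).smul_right)
    have i2 : Integrable fun z => φ z • (dzb χ z • F z) :=
      int_smul hφ.continuous hφc c2.locallyIntegrable
    have i3 : Integrable fun z => φ z • (χ z • q z) := int_smul hφ.continuous hφc lq
    simp_rw [e1]
    rw [integral_sub i1 i2, w2]
    simp_rw [smul_add, mul_smul]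
    rw [integral_add i3 i2]
    abel

end

end Crest.Agent.R235.NWRegB_847
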