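import Crest.Agent.R235.NWIface_334
import Crest.Agent.R235.NWJ2_130
import Crest.Agent.R235.NWRegA_847
import Crest.Agent.R235.NWTool_334

/-!
# Row 235 (S0364), PACKAGE NW (helper930, plan of helper334): `Reg1Stmt → Reg2Stmt → RegStmt`

A `C¹` disc which is `J`-holomorphic is smooth.  `core`: the normalized statement at the centre
(`J 0 = i`, `v 0 = 0`); `reg`: the general one by an affine change of coordinates.
-/

set_option autoImplicit false
set_option maxSynthPendingDepth 3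

open Set Filter Metric Topology MeasureTheory
open scoped ContDiff Real

namespace Crest.Agent.R235.NWReg_930

open Crest.Agent.R235.NWDefs_334 Crest.Agent.R235.NWIface_334

noncomputable section

/-- a `C¹` map near `0` agrees near `0` with a global `C¹` map. -/
theorem exists_cut {E : Type*} [NormedAddCommGroup E] [NormedSpace ℝ E] {w : ℂ → E} {ρ : ℝ}
    (hρ : 0 < ρ) (hw : ContDiffOn ℝ 1 w (ball 0 ρ)) :
    ∃ f : ℂ → E, ContDiff ℝ 1 f ∧ ∀ z ∈ ball (0 : ℂ) (ρ / 4), f z = w z := by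
  let θ : ContDiffBump (0 : ℂ) := ⟨ρ / 4, ρ / 2, by positivity, by linarith⟩
  refine ⟨fun z => θ z • w z, ?_, ?_⟩
  · rw [contDiff_iff_contDiffAt]
    intro z
    by_cases hz : z ∈ ball (0 : ℂ) ρ
    · exact θ.contDiff.contDiffAt.smul (hw.contDiffAt (isOpen_ball.mem_nhds hz))
    · have hz' : z ∈ (closedBall (0 : ℂ) (ρ / 2))ᶜ := by
        rw [mem_compl_iff, mem_closedBall]
        rw [mem_ball] at hz
        intro h; exact hz (lt_of_le_of_lt h (by linarith))
      have : (fun y => θ y • w y) =ᶠ[𝓝 z] fun _ => 0 := by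
        filter_upwards [isClosed_closedBall.isOpen_compl.mem_nhds hz'] with y hy
        rw [mem_compl_iff, mem_closedBall, not_le] at hy
        rw [θ.zero_of_le_dist hy.le, zero_smul]
      exact (contDiffAt_const (c := (0 : E))).congr_of_eventuallyEq this
  · intro z hz
    change θ z • w z = w z
    rw [θ.one_of_mem_closedBall (ball_subset_closedBall hz), one_smul]

/-- a `C¹` map is `1/2`-Hölder on a small ball. -/
theorem exists_hol {E : Type*} [NormedAddCommGroup E] [NormedSpace ℝ E] {f : ℂ → E}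
    (hf : ContDiff ℝ 1 f) : ∃ r : ℝ, 0 < r ∧ ∃ C : ℝ, ∀ x ∈ ball (0 : ℂ) r, ∀ y ∈ ball (0 : ℂ) r,
      ‖f x - f y‖ ≤ C * dist x y ^ (1 / 2 : ℝ) := by
  obtain ⟨K, t, ht, hK⟩ := (hf.contDiffAt (x := (0 : ℂ))).exists_lipschitzOnWith
  obtain ⟨ρ, hρ, hs⟩ := Metric.mem_nhds_iff.1 ht
  refine ⟨min ρ (1 / 2), by positivity, K, fun x hx y hy => ?_⟩
  have hx1 : x ∈ t := hs (ball_subset_ball (min_le_left _ _) hx)
  have hy1 : y ∈ t := hs (ball_subset_ball (min_le_left _ _) hy)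
  have hd : dist x y ≤ 1 := by
    have h1 : dist x 0 < 1 / 2 := lt_of_lt_of_le hx (min_le_right _ _)
    have h2 : dist y 0 < 1 / 2 := lt_of_lt_of_le hy (min_le_right _ _)
    have h3 := dist_triangle_right x y 0
    linarith
  have h1 : ‖f x - f y‖ ≤ K * dist x y := by
    rw [← dist_eq_norm]; exact hK.dist_le_mul x hx1 y hy1
  refine h1.trans (mul_le_mul_of_nonneg_left ?_ K.2)
  rcases eq_or_lt_of_le (dist_nonneg (x := x) (y := y)) with h0 | h0
  · rw [← h0, Real.zero_rpow (by norm_num)]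
  · calc dist x y = dist x y ^ (1 : ℝ) := (Real.rpow_one _).symm
      _ ≤ dist x y ^ (1 / 2 : ℝ) := Real.rpow_le_rpow_of_exponent_ge h0 hd (by norm_num)

/-- **core**: a `C¹` disc through `0`, `J`-holomorphic, `J 0 = i`, is smooth near the centre. -/
theorem core (h1 : Reg1Stmt) (h2 : Reg2Stmt) {E : Type} [NormedAddCommGroup E] [NormedSpace ℂ E]
    [FiniteDimensional ℂ E] {J : E → E →L[ℝ] E} {r : ℝ} (hJ : ACS J r) {v : ℂ → E} {O : Set ℂ}
    (hO : IsOpen O) (h0 : (0 : ℂ) ∈ O) (hv : ContDiffOn ℝ 1 v O) (hv0 : v 0 = 0)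
    (hvJ : JHol J v O) : ContDiffAt ℝ ∞ v 0 := by
  obtain ⟨R, hR, -, hA'⟩ := NWJ_130.exists_A hJ 1 1 one_pos
  obtain ⟨A, hBD, -, hA0, -, -, -, -, hA⟩ := hA' R hR le_rfl
  have hR' : R ≠ 0 := hR.ne'
  -- a small ball where everything is defined
  have hvc : ContinuousAt v 0 := hv.continuousOn.continuousAt (hO.mem_nhds h0)
  have hev : ∀ᶠ z in 𝓝 (0 : ℂ), z ∈ O ∧ ‖v z‖ ≤ R := by
    have h2' : ∀ᶠ z in 𝓝 (0 : ℂ), z ∈ O := hO.mem_nhds h0
    refine h2'.and ?_
    have h3 : Tendsto (fun z => ‖v z‖) (𝓝 0) (𝓝 0) := by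
      have := hvc.norm.tendsto
      rwa [hv0, norm_zero] at this
    exact h3.eventually_le_const hR
  obtain ⟨ρ, hρ, hρ'⟩ := Metric.mem_nhds_iff.1 hev
  have hw : ContDiffOn ℝ 1 (fun z => R⁻¹ • v z) (ball 0 ρ) :=
    (hv.mono fun z hz => (hρ' hz).1).const_smul R⁻¹
  obtain ⟨f, hf, hfw⟩ := exists_cut hρ hw
  have hfR : ∀ z ∈ ball (0 : ℂ) (ρ / 4), R • f z = v z := fun z hz => by
    rw [hfw z hz, smul_smul, mul_inv_cancel₀ hR', one_smul]
  have hsub : ball (0 : ℂ) (ρ / 4) ⊆ ball 0 ρ := ball_subset_ball (by linarith)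
  -- the derivative
  have hfd : ∀ z ∈ ball (0 : ℂ) (ρ / 4), fderiv ℝ f z = R⁻¹ • fderiv ℝ v z := by
    intro z hz
    have e1 : f =ᶠ[𝓝 z] fun z => R⁻¹ • v z := by
      filter_upwards [isOpen_ball.mem_nhds hz] with y hy using hfw y hy
    rw [e1.fderiv_eq]
    exact fderiv_fun_const_smul (hvJ z (hρ' (hsub hz)).1).1 R⁻¹
  -- the equation
  have heq : ∀ z ∈ ball (0 : ℂ) (ρ / 4), dbl (fderiv ℝ f z) = A (f z) (dl (fderiv ℝ f z)) := by
    intro z hz
    have hn : ‖f z‖ ≤ 1 := by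
      rw [hfw z hz, norm_smul, norm_inv, Real.norm_eq_abs, abs_of_pos hR]
      have h4 := (hρ' (hsub hz)).2
      rw [inv_mul_le_iff₀ hR, mul_one]; exact h4
    refine ((hA _ hn).2 _).2 fun y => ?_
    rw [hfR z hz, hfd z hz]
    change R⁻¹ • fderiv ℝ v z (Complex.I * y) = J (v z) (R⁻¹ • fderiv ℝ v z y)
    rw [map_smul, (hvJ z (hρ' (hsub hz)).1).2 y]
  obtain ⟨r1, hr1, C, hC⟩ := exists_hol hf
  let r2 : ℝ := min r1 (ρ / 4)
  have hr2 : 0 < r2 := lt_min hr1 (by positivity)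
  have hcomp : CompleteSpace E := FiniteDimensional.complete ℂ E
  have hWC := NWRegA_847.WC.of_c1 hf
  have hWD : WD f (dz f) (dzb f) r2 :=
    ⟨hf.continuous.continuousOn, hWC.memP r2, hWC.memQ r2, fun φ h3 h4 _ => hWC.weak φ h3 h4⟩
  have hBs : ContDiff ℝ ∞ (fun p : ℂ × E => A p.2) := hBD.smooth.comp contDiff_snd
  have hf0 : f 0 = 0 := by
    rw [hfw 0 (mem_ball_self (by positivity)), hv0, smul_zero]
  obtain ⟨r3, hr3, F, hF⟩ := h1 E (1 / 2) (by norm_num) (by norm_num) (fun p => A p.2)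
    (fun _ => 0) (hBs.of_le (by exact_mod_cast le_top)) contDiff_const f (dz f) (dzb f) r2 C hr2 hWD
    (fun x hx y hy => hC x (ball_subset_ball (min_le_left _ _) hx) y
      (ball_subset_ball (min_le_left _ _) hy))
    (Eventually.of_forall fun z hz => by
      rw [add_zero]
      exact heq z (ball_subset_ball (min_le_right _ _) hz))
    (by change A (f 0) = 0; rw [hf0, hA0])
  let r4 : ℝ := min r3 (ρ / 4)
  have hr4 : 0 < r4 := lt_min hr3 (by positivity)
  have hFf : ∀ z ∈ ball (0 : ℂ) r4, C1f F z = f z := fun z hz =>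
    hF z (ball_subset_ball (min_le_left _ _) hz)
  obtain ⟨r5, hr5, hs⟩ := h2 E (1 / 2) (by norm_num) (by norm_num) (fun p => A p.2)
    (fun _ => 0) hBs contDiff_const F r4 hr4 (fun z hz => by
      have e1 : C1f F =ᶠ[𝓝 z] f := by
        filter_upwards [isOpen_ball.mem_nhds hz] with y hy using hFf y hy
      have e2 : C1d F z = fderiv ℝ f z := by
        rw [← e1.fderiv_eq, NWTool_334.c1_fderiv]
      rw [e2, hFf z hz, add_zero]
      exact heq z (ball_subset_ball (min_le_right _ _) hz))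
    (by
      change A (C1f F 0) = 0
      rw [hFf 0 (mem_ball_self hr4), hf0, hA0])
  have h5 : ContDiffAt ℝ ∞ (fun z => R • C1f F z) 0 :=
    (hs.contDiffAt (isOpen_ball.mem_nhds (mem_ball_self hr5))).const_smul R
  refine h5.congr_of_eventuallyEq ?_
  filter_upwards [isOpen_ball.mem_nhds (mem_ball_self hr4)] with z hz
  rw [hFf z hz, hfR z (ball_subset_ball (min_le_right _ _) hz)]

/-- **REG0** from the two regularity leaves. -/
theorem reg (h1 : Reg1Stmt) (h2 : Reg2Stmt) : RegStmt := by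
  intro J U hU hJ hJ2 u O hO hu huU huJ z0 hz0
  refine ContDiffAt.contDiffWithinAt ?_
  set p : ℂ × ℂ := u z0 with hp
  have hpU : p ∈ U := huU z0 hz0
  obtain ⟨T, hT, -⟩ := NWJ2_130.exists_lin NWJ2_130.finrank_CC (hJ2 p hpU)
    (e := ((0 : ℂ), (1 : ℂ))) (by simp)
  -- the transported structure
  let Ts : (ℂ × ℂ) →L[ℝ] (ℂ × ℂ) := T.symm
  let Tc : (ℂ × ℂ) →L[ℝ] (ℂ × ℂ) := T
  let J' : ℂ × ℂ → ℂ × ℂ →L[ℝ] ℂ × ℂ := fun x => Tc.comp ((J (p + Ts x)).comp Ts)
  have hJ' : ∀ x y, J' x y = T (J (p + T.symm x) (T.symm y)) := fun _ _ => rfl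
  have hcont : ContinuousAt (fun x : ℂ × ℂ => p + Ts x) 0 := by fun_prop
  have hnh : ∀ᶠ x in 𝓝 (0 : ℂ × ℂ), p + Ts x ∈ U :=
    hcont.eventually_mem (hU.mem_nhds (by rw [map_zero, add_zero]; exact hpU))
  obtain ⟨r, hr, hrU⟩ := Metric.mem_nhds_iff.1 hnh
  have hA : ACS J' r := by
    refine ⟨hr, ?_, ?_, ?_⟩
    · intro x hx
      have e1 : ContDiffAt ℝ ∞ (fun x : ℂ × ℂ => p + Ts x) x :=
        contDiffAt_const.add Ts.contDiff.contDiffAt
      have e2 : ContDiffAt ℝ ∞ (fun x : ℂ × ℂ => J (p + Ts x)) x :=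
        ContDiffAt.comp (f := fun x : ℂ × ℂ => p + Ts x) x
          (hJ.contDiffAt (hU.mem_nhds (hrU hx))) e1
      exact (contDiffAt_const.clm_comp (e2.clm_comp contDiffAt_const)).contDiffWithinAt
    · intro x hx y
      have hxU : p + T.symm x ∈ U := hrU hx
      rw [hJ', hJ', T.symm_apply_apply, hJ2 _ hxU, map_neg, T.apply_symm_apply]
    · intro y
      rw [hJ', map_zero, add_zero, hT, T.apply_symm_apply]
  -- the transported disc
  let v : ℂ → ℂ × ℂ := fun z => Tc (u (z0 + z) - p)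
  have hadd : Continuous fun z : ℂ => z0 + z := by fun_prop
  have hO' : IsOpen ((fun z : ℂ => z0 + z) ⁻¹' O) := hO.preimage hadd
  have h0' : (0 : ℂ) ∈ (fun z : ℂ => z0 + z) ⁻¹' O := by
    rw [mem_preimage, add_zero]; exact hz0
  have hvC : ContDiffOn ℝ 1 v ((fun z : ℂ => z0 + z) ⁻¹' O) := by
    intro z hz
    have e1 : ContDiffAt ℝ 1 u (z0 + z) := hu.contDiffAt (hO.mem_nhds hz)
    have e2 : ContDiffAt ℝ 1 (fun z => u (z0 + z)) z :=
      ContDiffAt.comp (f := fun z : ℂ => z0 + z) z e1 (contDiffAt_const.add contDiffAt_id)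
    exact (Tc.contDiff.contDiffAt.comp z (e2.sub contDiffAt_const)).contDiffWithinAt
  have hv0 : v 0 = 0 := by
    change Tc (u (z0 + 0) - p) = 0
    rw [add_zero, hp, sub_self, map_zero]
  have hvd : ∀ z ∈ (fun z : ℂ => z0 + z) ⁻¹' O,
      HasFDerivAt v (Tc.comp (fderiv ℝ u (z0 + z))) z := by
    intro z hz
    have e1 : HasFDerivAt u (fderiv ℝ u (z0 + z)) (z0 + z) := (huJ _ hz).1.hasFDerivAt
    have e2 : HasFDerivAt (fun z => u (z0 + z)) (fderiv ℝ u (z0 + z)) z := by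
      have e3 : HasFDerivAt (fun z : ℂ => z0 + z) (ContinuousLinearMap.id ℝ ℂ) z :=
        (hasFDerivAt_id z).const_add z0
      exact HasFDerivAt.comp (f := fun z : ℂ => z0 + z) z e1 e3
    exact Tc.hasFDerivAt.comp z (e2.sub_const p)
  have hvJ : JHol J' v ((fun z : ℂ => z0 + z) ⁻¹' O) := by
    intro z hz
    refine ⟨(hvd z hz).differentiableAt, fun y => ?_⟩
    rw [(hvd z hz).fderiv]
    change T (fderiv ℝ u (z0 + z) (Complex.I * y)) =
      T (J (p + T.symm (T (u (z0 + z) - p))) (T.symm (T (fderiv ℝ u (z0 + z) y))))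
    rw [T.symm_apply_apply, T.symm_apply_apply, add_sub_cancel, (huJ _ hz).2 y]
  have hc := core h1 h2 hA hO' h0' hvC hv0 hvJ
  have hu' : u = fun z => p + Ts (v (z - z0)) := by
    funext z
    change u z = p + T.symm (T (u (z0 + (z - z0)) - p))
    rw [T.symm_apply_apply, add_sub_cancel, add_sub_cancel]
  have hc' : ContDiffAt ℝ ∞ v (z0 - z0) := by rw [sub_self]; exact hc
  have e3 : ContDiffAt ℝ ∞ (fun z => v (z - z0)) z0 :=
    ContDiffAt.comp (f := fun z : ℂ => z - z0) z0 hc' (contDiffAt_id.sub contDiffAt_const)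
  rw [hu']
  exact contDiffAt_const.add (Ts.contDiff.contDiffAt.comp z0 e3)

end

end Crest.Agent.R235.NWReg_930
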