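import Crest.Agent.R235.NWLoc_334
import Crest.Agent.R235.NWJ_130

/-!
# Row 235, PACKAGE NW (helper334): set-up tools for the applications FOL, VAR, REG2
-/

set_option autoImplicit false
set_option maxSynthPendingDepth 3
set_option linter.unusedSectionVars false

open Set Filter Metric Topology MeasureTheory
open scoped ContDiff Real

namespace Crest.Agent.R235.NWSet_334

open Crest.Agent.R235.NWDefs_334 Crest.Agent.R235.NWIface_334 Crest.Agent.R235.NWTool_334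

noncomputable section

open Crest.Agent.R235.NWHol_952 (HB.comp_lip HB.bilin HB.add HB.mono HB.const HB.clm)

/-- leaf J -/
theorem jstmt : JStmt := by
  intro E _ _ _ J r hJ B η _ hη
  obtain ⟨R0, h0, h1, h2⟩ := NWJ_130.exists_A hJ B η hη
  refine ⟨R0, h0, h1, fun R hR hR0 => ?_⟩
  obtain ⟨A, hA, _, _, ha0, ha1, ha2, _, h3⟩ := h2 R hR hR0
  exact ⟨A, hA, fun x => ⟨ha0 x, ha1 x, ha2 x⟩, fun x hx => (h3 x hx).2⟩

section lin

variable {E : Type*} [NormedAddCommGroup E] [NormedSpace ℂ E]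

/-- `dl` as a continuous linear map -/
def dlL (E : Type*) [NormedAddCommGroup E] [NormedSpace ℂ E] : (ℂ →L[ℝ] E) →L[ℝ] E :=
  LinearMap.mkContinuous
    { toFun := dl
      map_add' := fun L M => by
        simp only [dl, _root_.add_apply, smul_add, smul_sub]; abel
      map_smul' := fun c L => by
        simp only [dl, _root_.smul_apply, RingHom.id_apply]
        rw [smul_comm Complex.I c, ← smul_sub, smul_comm] } 1 (fun L => by
      show ‖(2 : ℂ)⁻¹ • (L 1 - Complex.I • L Complex.I)‖ ≤ 1 * ‖L‖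
      rw [norm_smul, norm_inv]
      have e1 : ‖L 1‖ ≤ ‖L‖ := by simpa using L.le_opNorm 1
      have e2 : ‖Complex.I • L Complex.I‖ ≤ ‖L‖ := by
        rw [norm_smul, Complex.norm_I, one_mul]; simpa using L.le_opNorm Complex.I
      have e3 : ‖L 1 - Complex.I • L Complex.I‖ ≤ ‖L‖ + ‖L‖ :=
        (norm_sub_le _ _).trans (add_le_add e1 e2)
      rw [Complex.norm_ofNat]
      linarith)

@[simp] theorem dlL_apply (L : ℂ →L[ℝ] E) : dlL E L = dl L := rfl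

theorem norm_dlL_le : ‖dlL E‖ ≤ 1 := LinearMap.mkContinuous_norm_le _ zero_le_one _

/-- `dbl` as a continuous linear map -/
def dblL (E : Type*) [NormedAddCommGroup E] [NormedSpace ℂ E] : (ℂ →L[ℝ] E) →L[ℝ] E :=
  LinearMap.mkContinuous
    { toFun := dbl
      map_add' := fun L M => by
        simp only [dbl, _root_.add_apply, smul_add]; abel
      map_smul' := fun c L => by
        simp only [dbl, _root_.smul_apply, RingHom.id_apply]
        rw [smul_comm Complex.I c, ← smul_add, smul_comm] } 1 (fun L => by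
      show ‖(2 : ℂ)⁻¹ • (L 1 + Complex.I • L Complex.I)‖ ≤ 1 * ‖L‖
      rw [norm_smul, norm_inv]
      have e1 : ‖L 1‖ ≤ ‖L‖ := by simpa using L.le_opNorm 1
      have e2 : ‖Complex.I • L Complex.I‖ ≤ ‖L‖ := by
        rw [norm_smul, Complex.norm_I, one_mul]; simpa using L.le_opNorm Complex.I
      have e3 : ‖L 1 + Complex.I • L Complex.I‖ ≤ ‖L‖ + ‖L‖ :=
        (norm_add_le _ _).trans (add_le_add e1 e2)
      rw [Complex.norm_ofNat]
      linarith)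

@[simp] theorem dblL_apply (L : ℂ →L[ℝ] E) : dblL E L = dbl L := rfl

end lin

section bd

variable {X Y X' Y' : Type*} [NormedAddCommGroup X] [NormedSpace ℝ X] [NormedAddCommGroup Y]
  [NormedSpace ℝ Y] [NormedAddCommGroup X'] [NormedSpace ℝ X'] [NormedAddCommGroup Y']
  [NormedSpace ℝ Y']

theorem norm_it_lin (L : Y →L[ℝ] Y') (L' : X' →L[ℝ] X) (hL : ‖L‖ ≤ 1) (hL' : ‖L'‖ ≤ 1)
    {f : X → Y} {n : ℕ} (hf : ContDiff ℝ n f) (x : X') :
    ‖iteratedFDeriv ℝ n (fun x => L (f (L' x))) x‖ ≤ ‖iteratedFDeriv ℝ n f (L' x)‖ := by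
  have h1 : iteratedFDeriv ℝ n (fun x => L (f (L' x))) x =
      L.compContinuousMultilinearMap (iteratedFDeriv ℝ n (f ∘ L') x) :=
    L.iteratedFDeriv_comp_left (hf.comp L'.contDiff).contDiffAt le_rfl
  rw [h1]
  refine (L.norm_compContinuousMultilinearMap_le _).trans ?_
  rw [L'.iteratedFDeriv_comp_right hf x le_rfl]
  have h2 := (iteratedFDeriv ℝ n f (L' x)).norm_compContinuousLinearMap_le (fun _ => L')
  have h3 : ∏ _i : Fin n, ‖L'‖ ≤ 1 := by
    rw [Finset.prod_const]; exact pow_le_one₀ (norm_nonneg _) hL'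
  calc _ ≤ 1 * (‖iteratedFDeriv ℝ n f (L' x)‖ * ∏ _i : Fin n, ‖L'‖) :=
        mul_le_mul hL h2 (norm_nonneg _) zero_le_one
    _ ≤ 1 * (‖iteratedFDeriv ℝ n f (L' x)‖ * 1) := by gcongr
    _ = _ := by ring

theorem bd_lin (L : Y →L[ℝ] Y') (L' : X' →L[ℝ] X) (hL : ‖L‖ ≤ 1) (hL' : ‖L'‖ ≤ 1)
    {f : X → Y} (hf : BD f) : BD (fun x => L (f (L' x))) := by
  refine ⟨L.contDiff.comp (hf.smooth.comp L'.contDiff), fun n => ?_⟩
  obtain ⟨C, hC⟩ := hf.bdd n
  exact ⟨C, fun x => (norm_it_lin L L' hL hL'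
    (hf.smooth.of_le (by exact_mod_cast le_top)) x).trans (hC _)⟩

theorem small_iff {η : ℝ} {f : X → Y} :
    Small η f ↔ ∀ x, ∀ n : ℕ, n ≤ 2 → ‖iteratedFDeriv ℝ n f x‖ ≤ η := by
  have e2 : ∀ x, ‖fderiv ℝ (fderiv ℝ f) x‖ = ‖iteratedFDeriv ℝ 2 f x‖ := by
    intro x
    rw [← norm_iteratedFDeriv_fderiv (n := 1), norm_iteratedFDeriv_one]
  constructor
  · intro h x n hn
    interval_cases n
    · rw [norm_iteratedFDeriv_zero]; exact (h x).1
    · rw [norm_iteratedFDeriv_one]; exact (h x).2.1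
    · rw [← e2]; exact (h x).2.2
  · intro h x
    refine ⟨?_, ?_, ?_⟩
    · rw [← norm_iteratedFDeriv_zero (𝕜 := ℝ)]; exact h x 0 (by norm_num)
    · rw [← norm_iteratedFDeriv_one]; exact h x 1 (by norm_num)
    · rw [e2]; exact h x 2 le_rfl

theorem small_lin (L : Y →L[ℝ] Y') (L' : X' →L[ℝ] X) (hL : ‖L‖ ≤ 1) (hL' : ‖L'‖ ≤ 1)
    {f : X → Y} (hf : ContDiff ℝ ∞ f) {η : ℝ} (h : Small η f) :
    Small η (fun x => L (f (L' x))) := by
  rw [small_iff] at h ⊢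
  intro x n hn
  exact (norm_it_lin L L' hL hL' (hf.of_le (by exact_mod_cast le_top)) x).trans (h _ n hn)

theorem bd_zero : BD (fun _ : X => (0 : Y)) :=
  ⟨contDiff_const, fun n => ⟨0, fun x => by
    rw [show (fun _ : X => (0 : Y)) = 0 from rfl, iteratedFDeriv_zero]; simp⟩⟩

theorem small_zero {η : ℝ} (hη : 0 ≤ η) : Small η (fun _ : X => (0 : Y)) := by
  rw [small_iff]
  intro x n _
  rw [show (fun _ : X => (0 : Y)) = 0 from rfl, iteratedFDeriv_zero]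
  simpa using hη

theorem Small.mono {η η' : ℝ} (h : η ≤ η') {f : X → Y} (hf : Small η f) : Small η' f :=
  fun x => ⟨(hf x).1.trans h, (hf x).2.1.trans h, (hf x).2.2.trans h⟩

theorem small_lip {η : ℝ} {f : X → Y} (hd : Differentiable ℝ f) (h : Small η f) (x y : X) :
    ‖f x - f y‖ ≤ η * ‖x - y‖ :=
  Convex.norm_image_sub_le_of_norm_fderiv_le (s := univ) (fun z _ => hd z)
    (fun z _ => (h z).2.1) convex_univ (mem_univ _) (mem_univ _)

end bd

section hat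

variable {E : Type*} [NormedAddCommGroup E] [NormedSpace ℂ E] {P : Type*} [NormedAddCommGroup P]
  [NormedSpace ℝ P]

/-- `(q, x) ↦ A x ∘ dl` -/
def hat (A : E → E →L[ℝ] E) : P × E → (ℂ →L[ℝ] E) →L[ℝ] E := fun p => (A p.2).comp (dlL E)

theorem hat_apply (A : E → E →L[ℝ] E) (p : P × E) (L : ℂ →L[ℝ] E) :
    hat A p L = A p.2 (dl L) := rfl

theorem norm_pre_le : ‖(ContinuousLinearMap.compL ℝ (ℂ →L[ℝ] E) E E).flip (dlL E)‖ ≤ 1 := by
  refine ContinuousLinearMap.opNorm_le_bound _ zero_le_one fun A => ?_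
  show ‖A.comp (dlL E)‖ ≤ _
  refine (ContinuousLinearMap.opNorm_comp_le _ _).trans ?_
  rw [one_mul]
  exact mul_le_of_le_one_right (norm_nonneg _) norm_dlL_le

theorem bd_hat {A : E → E →L[ℝ] E} (h : BD A) : BD (hat (P := P) A) :=
  bd_lin ((ContinuousLinearMap.compL ℝ (ℂ →L[ℝ] E) E E).flip (dlL E))
    (ContinuousLinearMap.snd ℝ P E) norm_pre_le (ContinuousLinearMap.norm_snd_le _ _ _) h

theorem small_hat {A : E → E →L[ℝ] E} (hA : ContDiff ℝ ∞ A) {η : ℝ} (h : Small η A) :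
    Small η (hat (P := P) A) :=
  small_lin ((ContinuousLinearMap.compL ℝ (ℂ →L[ℝ] E) E E).flip (dlL E))
    (ContinuousLinearMap.snd ℝ P E) norm_pre_le (ContinuousLinearMap.norm_snd_le _ _ _) hA h

end hat

section sol

variable {E P : Type} [NormedAddCommGroup E] [NormedSpace ℂ E]
  [NormedAddCommGroup P] [NormedSpace ℝ P]

theorem rhs_zero (A : P × E → (ℂ →L[ℝ] E) →L[ℝ] E) (b : P × E → E) (κ : ℝ) (q : P) (x : E)
    (L : ℂ →L[ℝ] E) : rhs A b κ q 0 x L = κ • (A (q, x) L + b (q, x)) := by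
  have : dbl (0 : ℂ →L[ℝ] E) = 0 := by simp [dbl]
  rw [rhs, add_zero, ContinuousLinearMap.comp_id, ContinuousLinearMap.comp_zero, this, sub_zero]

/-- the equation satisfied by a solution at one point -/
theorem sol_dbl {a : ℝ} {χ : ℂ → ℝ} {T : Hol a ℂ E →L[ℝ] C1a a ℂ E}
    (hT : ∀ g : Hol a ℂ E, (∀ z, dbl (C1d (T g) z) = χ z • Hol.fn g z) ∧
      Tendsto (C1f (T g)) (cocompact ℂ) (𝓝 0))
    {A : P × E → (ℂ →L[ℝ] E) →L[ℝ] E} {b : P × E → E} {κ : Hol a ℂ ℝ} {q : Hol a ℂ P}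
    {h w : C1a a ℂ E} (hs : Sol T A b (κ, q, 0) h w) (z : ℂ) :
    dbl (C1d w z) = dbl (C1d h z) + (χ z * Hol.fn κ z) •
      (A (Hol.fn q z, C1f w z) (C1d w z) + b (Hol.fn q z, C1f w z)) := by
  obtain ⟨g, hg, hw⟩ := hs
  have h1 : C1d w z = C1d h z + C1d (T g) z := by
    conv_lhs => rw [hw]
    rfl
  rw [h1, dbl_add, (hT g).1, ← h1, hg, mul_smul]
  congr 2
  exact rhs_zero A b _ _ _ _

/-- the right hand side is an element of `Hol`, with a bound -/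
theorem exists_rhs {a : ℝ} (ha : 0 < a) {A : P × E → (ℂ →L[ℝ] E) →L[ℝ] E} {b : P × E → E}
    (hA : ContDiff ℝ ∞ A) (hb : ContDiff ℝ ∞ b) (hA1 : Small 1 A) (hb1 : Small 1 b)
    (κ : Hol a ℂ ℝ) (q : Hol a ℂ P) (w : C1a a ℂ E) :
    ∃ g : Hol a ℂ E, (∀ z, Hol.fn g z = Hol.fn κ z •
      (A (Hol.fn q z, C1f w z) (C1d w z) + b (Hol.fn q z, C1f w z))) ∧
      ‖g‖ ≤ 2 * ‖κ‖ * (2 * (1 + ‖q‖ + ‖w‖) * ‖w‖ + (1 + ‖q‖ + ‖w‖)) := by
  have hq0 := norm_nonneg q
  have hw0 := norm_nonneg w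
  have hκ0 := norm_nonneg κ
  set N := 1 + ‖q‖ + ‖w‖ with hN
  have hN0 : 0 ≤ N := by positivity
  have hp : HB a (‖q‖ + ‖w‖) (fun z => (Hol.fn q z, C1f w z)) :=
    NWHol_952.HB.prodMk (HB.mono (hb_of ha q) (by linarith)) (HB.mono (c1_hb ha w) (by linarith))
  have hAh : HB a N (fun z => A (Hol.fn q z, C1f w z)) := by
    refine ⟨fun z => ((hA1 _).1).trans (by linarith), fun x y => ?_⟩
    have h0 : 0 ≤ dist x y ^ a := Real.rpow_nonneg dist_nonneg a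
    have h1 := small_lip (hA.differentiable (by simp)) hA1 (Hol.fn q x, C1f w x)
      (Hol.fn q y, C1f w y)
    rw [one_mul] at h1
    calc _ ≤ _ := h1
      _ ≤ (‖q‖ + ‖w‖) * dist x y ^ a := hp.hol x y
      _ ≤ N * dist x y ^ a := by gcongr; linarith
  have hbh : HB a N (fun z => b (Hol.fn q z, C1f w z)) := by
    refine ⟨fun z => ((hb1 _).1).trans (by linarith), fun x y => ?_⟩
    have h0 : 0 ≤ dist x y ^ a := Real.rpow_nonneg dist_nonneg a
    have h1 := small_lip (hb.differentiable (by simp)) hb1 (Hol.fn q x, C1f w x)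
      (Hol.fn q y, C1f w y)
    rw [one_mul] at h1
    calc _ ≤ _ := h1
      _ ≤ (‖q‖ + ‖w‖) * dist x y ^ a := hp.hol x y
      _ ≤ N * dist x y ^ a := by gcongr; linarith
  have h3 := HB.bilin (ContinuousLinearMap.id ℝ ((ℂ →L[ℝ] E) →L[ℝ] E)) hN0 hw0 hAh (c1_hbd ha w)
  have h4 : HB a (2 * N * ‖w‖) (fun z => A (Hol.fn q z, C1f w z) (C1d w z)) := by
    refine HB.mono h3 ?_
    have : ‖ContinuousLinearMap.id ℝ ((ℂ →L[ℝ] E) →L[ℝ] E)‖ ≤ 1 :=
      ContinuousLinearMap.norm_id_le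
    calc _ ≤ 2 * 1 * N * ‖w‖ := by gcongr
      _ = _ := by ring
  have h5 := HB.add h4 hbh
  have h6 := HB.bilin (ContinuousLinearMap.lsmul ℝ ℝ : ℝ →L[ℝ] E →L[ℝ] E) hκ0
    (by positivity : 0 ≤ 2 * N * ‖w‖ + N) (hb_of ha κ) h5
  have h7 : ‖(ContinuousLinearMap.lsmul ℝ ℝ : ℝ →L[ℝ] E →L[ℝ] E)‖ ≤ 1 :=
    ContinuousLinearMap.opNorm_lsmul_le
  have h8 := HB.mono h6 (M' := 2 * ‖κ‖ * (2 * N * ‖w‖ + N)) (by
    calc _ ≤ 2 * 1 * ‖κ‖ * (2 * N * ‖w‖ + N) := by gcongr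
      _ = _ := by ring)
  obtain ⟨g, hg, hgn⟩ := exists_hol ha (by positivity) h8
  exact ⟨g, hg, hgn⟩

end sol

section c2

variable {F : Type*} [NormedAddCommGroup F] [NormedSpace ℝ F]

/-- `C²` functions with bounded derivatives -/
theorem exists_c1_of_c2 {a : ℝ} (ha : 0 < a) (ha1 : a ≤ 1) {f : ℂ → F} {C : ℝ}
    (hf : ContDiff ℝ 2 f) (h0 : ∀ z, ‖f z‖ ≤ C) (h1 : ∀ z, ‖fderiv ℝ f z‖ ≤ C)
    (h2 : ∀ z, ‖fderiv ℝ (fderiv ℝ f) z‖ ≤ C) :
    ∃ u : C1a a ℂ F, (∀ z, C1f u z = f z) ∧ ‖u‖ ≤ 3 * C := by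
  have hC : 0 ≤ C := (norm_nonneg _).trans (h0 0)
  have hd : Differentiable ℝ f := hf.differentiable (by simp)
  have hd' : Differentiable ℝ (fderiv ℝ f) :=
    (hf.fderiv_right (m := 1) (by norm_num)).differentiable (by simp)
  have e1 : ∀ x y, ‖f x - f y‖ ≤ C * dist x y := fun x y => by
    rw [dist_eq_norm]
    exact Convex.norm_image_sub_le_of_norm_fderiv_le (s := univ) (fun z _ => hd z)
      (fun z _ => h1 z) convex_univ (mem_univ _) (mem_univ _)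
  have e2 : ∀ x y, ‖fderiv ℝ f x - fderiv ℝ f y‖ ≤ C * dist x y := fun x y => by
    rw [dist_eq_norm]
    exact Convex.norm_image_sub_le_of_norm_fderiv_le (s := univ) (fun z _ => hd' z)
      (fun z _ => h2 z) convex_univ (mem_univ _) (mem_univ _)
  have hm : 2 * C + max C 0 ≤ 3 * C := by rw [max_eq_left hC]; linarith
  obtain ⟨u, hu, _, hn⟩ := exists_c1 ha (by positivity : 0 ≤ 3 * C)
    (HB.mono (NWHol_952.hb_lip ha ha1 h0 e1) hm) (HB.mono (NWHol_952.hb_lip ha ha1 h1 e2) hm)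
    (fun x => (hd x).hasFDerivAt)
  exact ⟨u, hu, hn⟩

end c2

end

end Crest.Agent.R235.NWSet_334
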