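import Crest.Agent.R235.NWSet_334

/-!
# Row 235, PACKAGE NW (helper334): the solver of `J`-disc families

`Solver J R ρ M0 N0 N ε Ψ` : `Ψ` maps approximate discs `h` (in the Banach space `C1a`) to maps that
are `J(R·)`-holomorphic at each point of `ball 0 ρ` where `h` is holomorphic.
-/

set_option autoImplicit false
set_option maxSynthPendingDepth 3

open Set Filter Metric Topology MeasureTheory
open scoped ContDiff Real

namespace Crest.Agent.R235.NWSolve_334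

open Crest.Agent.R235.NWDefs_334 Crest.Agent.R235.NWIface_334 Crest.Agent.R235.NWTool_334
open Crest.Agent.R235.NWSet_334 Crest.Agent.R235.NWLoc_334

noncomputable section

/-- properties of the solution operator -/
structure Solver {E : Type} [NormedAddCommGroup E] [NormedSpace ℂ E] (J : E → E →L[ℝ] E)
    (R ρ M0 N0 N ε : ℝ) (Ψ : C1a (1/2) ℂ E → C1a (1/2) ℂ E) : Prop where
  smooth : ContDiffOn ℝ ∞ Ψ (ball 0 N)
  close : ∀ h ∈ ball (0 : C1a (1/2) ℂ E) N, ‖Ψ h - h‖ ≤ ε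
  deriv : ∀ h ∈ ball (0 : C1a (1/2) ℂ E) N, ∀ c, ‖fderiv ℝ Ψ h c - c‖ ≤ ε * ‖c‖
  jhol : ∀ h ∈ ball (0 : C1a (1/2) ℂ E) N, ∀ z ∈ ball (0 : ℂ) ρ, dbl (C1d h z) = 0 →
    ∀ v : ℂ, C1d (Ψ h) z (Complex.I * v) = J (R • C1f (Ψ h) z) (C1d (Ψ h) z v)
  joint : ∀ (S : Type) [NormedAddCommGroup S] [NormedSpace ℝ S] (h : S → C1a (1/2) ℂ E) (s0 : S),
    ContDiffAt ℝ ∞ h s0 → h s0 ∈ ball (0 : C1a (1/2) ℂ E) N → ∀ z0 ∈ ball (0 : ℂ) ρ, ∀ t > 0,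
    (∀ᶠ s in 𝓝 s0, ∀ z ∈ ball z0 t, dbl (C1d (h s) z) = 0) →
    ContDiffAt ℝ ∞ (fun p : S × ℂ => C1f (Ψ (h p.1)) p.2) (s0, z0)
  surj : ∀ u : C1a (1/2) ℂ E, ‖u‖ ≤ M0 →
    (∀ z ∈ ball (0 : ℂ) ρ, ∀ v : ℂ, C1d u z (Complex.I * v) = J (R • C1f u z) (C1d u z v)) →
    ∃ h ∈ ball (0 : C1a (1/2) ℂ E) N0, Ψ h = u ∧ ∀ z ∈ ball (0 : ℂ) ρ, dbl (C1d h z) = 0

theorem exists_solver (hT : CauchyStmt) (hN : NStmt) (hF : FamStmt) (E : Type)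
    [NormedAddCommGroup E] [NormedSpace ℂ E] [FiniteDimensional ℂ E] (ρ M0 : ℝ) (hρ : 0 < ρ)
    (hM0 : 0 ≤ M0) :
    ∃ N0 : ℝ, ∀ N : ℝ, N0 ≤ N → ∀ ε : ℝ, 0 < ε → ∀ (J : E → E →L[ℝ] E) (r : ℝ), ACS J r →
      ∃ R0 : ℝ, 0 < R0 ∧ R0 * (N + ε + 1) < r ∧ ∀ R : ℝ, 0 < R → R ≤ R0 →
        ∃ Ψ : C1a (1/2) ℂ E → C1a (1/2) ℂ E, Solver J R ρ M0 N0 N ε Ψ := by
  have ha : (0:ℝ) < 1/2 := by norm_num
  have ha1 : (1/2:ℝ) < 1 := by norm_num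
  -- cut-off
  let ψ : ContDiffBump (0 : ℂ) := ⟨ρ, 2 * ρ, hρ, by linarith⟩
  have hψ1 : ∀ z ∈ ball (0 : ℂ) ρ, ψ z = 1 := fun z hz =>
    ψ.one_of_mem_closedBall (ball_subset_closedBall hz)
  obtain ⟨T, hTT⟩ := hT E (1/2) ha ha1 ψ ψ.contDiff ψ.hasCompactSupport
  obtain ⟨κ1, hκ1⟩ := exists_cst hF ha ha1 (f := (ψ : ℂ → ℝ)) (R := 2 * ρ) ψ.contDiff
    (fun z hz => ψ.zero_of_le_dist (by rw [dist_zero_right]; exact hz))
  let κ : Hol (1/2) ℂ ℝ := valC κ1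
  have hκ : ∀ z, Hol.fn κ z = ψ z := fun z => by rw [← hκ1]; rfl
  have hκψ : ∀ z ∈ ball (0 : ℂ) ρ, Hol.fn κ z = 1 ∧ ψ z = 1 := fun z hz =>
    ⟨by rw [hκ, hψ1 z hz], hψ1 z hz⟩
  let K : ℝ := ‖κ‖ + 1
  have hK : 0 < K := by positivity
  let CM : ℝ := ‖T‖ * (2 * ‖κ‖ * (2 * (1 + M0) * M0 + (1 + M0)))
  have hCM : 0 ≤ CM := by positivity
  refine ⟨M0 + CM + 1, fun N hN0 ε hε J r hJ => ?_⟩
  have hNpos : 0 < N := by linarith
  let RN : ℝ := 3 * (N + ε) + 3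
  have hRN : 0 < RN := by positivity
  obtain ⟨η, hη, hsolve⟩ := hN E ℝ (1/2) ha ha1 T K RN ε hK hRN hε
  obtain ⟨R0, hR0, hR0r, hA⟩ := jstmt E J r hJ (N + ε + 1) (min η 1) (by positivity)
    (lt_min hη one_pos)
  refine ⟨R0, hR0, hR0r, fun R hR hRR0 => ?_⟩
  obtain ⟨A, hABD, hAs, hAJ⟩ := hA R hR hRR0
  have hÂs : Small (min η 1) (hat (P := ℝ) A) := small_hat hABD.smooth hAs
  have hÂBD : BD (hat (P := ℝ) A) := bd_hat hABD
  have hb0 : BD (fun _ : ℝ × E => (0 : E)) := bd_zero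
  obtain ⟨Φ, hΦ, hΦ2⟩ := hsolve (hat A) (fun _ => 0) hÂBD hb0
    (Small.mono (min_le_left _ _) hÂs)
    (small_zero hη.le)
  let k : Par (1/2) ℝ := (κ, 0, 0)
  have hDom : ∀ h ∈ ball (0 : C1a (1/2) ℂ E) RN, (k, h) ∈ Dom (1/2) E ℝ K RN η := by
    intro h hh
    refine ⟨?_, ?_, ?_, ?_⟩
    · show ‖κ‖ < ‖κ‖ + 1
      linarith
    · show ‖(0 : Hol (1/2) ℂ ℝ)‖ < K
      rw [norm_zero]; exact hK
    · show ‖(0 : Hol (1/2) ℂ (ℂ →L[ℝ] ℂ))‖ < η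
      rw [norm_zero]; exact hη
    · show ‖h‖ < RN
      rwa [mem_ball_zero_iff] at hh
  have hNR : ball (0 : C1a (1/2) ℂ E) N ⊆ ball 0 RN := ball_subset_ball (by
    show N ≤ 3 * (N + ε) + 3
    linarith)
  -- the function
  let Ψ : C1a (1/2) ℂ E → C1a (1/2) ℂ E := fun h => Φ (k, h)
  have hsm : ContDiffOn ℝ ∞ Ψ (ball 0 N) := by
    have h1 : ContDiffOn ℝ ∞ (fun h : C1a (1/2) ℂ E => (k, h)) (ball 0 N) :=
      (contDiff_const.prodMk contDiff_id).contDiffOn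
    exact hΦ.comp h1 fun h hh => hDom h (hNR hh)
  have hnorm : ∀ h ∈ ball (0 : C1a (1/2) ℂ E) N, ‖Ψ h‖ < N + ε := by
    intro h hh
    have h1 := (hΦ2 k h (hDom h (hNR hh))).2.1
    rw [mem_ball_zero_iff] at hh
    have h2 : ‖Φ (k, h)‖ ≤ ‖Φ (k, h) - h‖ + ‖h‖ := by
      calc ‖Φ (k, h)‖ = ‖(Φ (k, h) - h) + h‖ := by rw [sub_add_cancel]
        _ ≤ _ := norm_add_le _ _
    show ‖Φ (k, h)‖ < N + ε
    linarith
  have hder : ∀ h ∈ ball (0 : C1a (1/2) ℂ E) N, ∀ c, fderiv ℝ Ψ h c = fderiv ℝ Φ (k, h) (0, c) := by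
    intro h hh c
    have h1 : DifferentiableAt ℝ Φ (k, h) :=
      (hΦ.contDiffAt ((isOpen_Dom (1/2) K RN η).mem_nhds (hDom h (hNR hh)))).differentiableAt
        (by simp)
    have h2 : HasFDerivAt (fun h : C1a (1/2) ℂ E => ((k, h) : Par (1/2) ℝ × C1a (1/2) ℂ E))
        (ContinuousLinearMap.inr ℝ (Par (1/2) ℝ) (C1a (1/2) ℂ E)) h :=
      hasFDerivAt_prodMk_right k h
    have h3 : HasFDerivAt Ψ ((fderiv ℝ Φ (k, h)).comp
        (ContinuousLinearMap.inr ℝ (Par (1/2) ℝ) (C1a (1/2) ℂ E))) h :=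
      h1.hasFDerivAt.comp h h2
    rw [h3.fderiv]; rfl
  refine ⟨Ψ, hsm, fun h hh => (hΦ2 k h (hDom h (hNR hh))).2.1, fun h hh c => ?_, ?_, ?_, ?_⟩
  · rw [hder h hh]
    exact (hΦ2 k h (hDom h (hNR hh))).2.2.1 c
  · intro h hh z hz hdz
    have hs := (hΦ2 k h (hDom h (hNR hh))).1
    have h1 := sol_dbl hTT hs z
    have h2 : ‖C1f (Ψ h) z‖ ≤ N + ε + 1 :=
      (norm_f_le ha _ z).trans (by have := hnorm h hh; linarith)
    refine (hAJ (C1f (Ψ h) z) h2 _).1 ?_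
    have h3 : dbl (C1d (Φ (k, h)) z) = (ψ z * Hol.fn κ z) •
        (hat A (Hol.fn (0 : Hol (1/2) ℂ ℝ) z, C1f (Φ (k, h)) z) (C1d (Φ (k, h)) z) + 0) := by
      rw [h1, hdz, zero_add]
    rw [(hκψ z hz).1, (hκψ z hz).2, mul_one, one_smul, add_zero] at h3
    exact h3
  · intro S _ _ h s0 hh hmem z0 hz0 t ht hdb
    have hQ : ContDiff ℝ ∞ (fun _ : ℂ => (0 : ℝ)) := contDiff_const
    have hQs : HasCompactSupport (fun _ : ℂ => (0 : ℝ)) := HasCompactSupport.zero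
    have hdist : 0 < ρ - dist z0 0 := by
      have : dist z0 0 < ρ := hz0
      linarith
    let t' := min t (ρ - dist z0 0)
    have ht' : 0 < t' := lt_min ht hdist
    have hsub : ball z0 t' ⊆ ball (0 : ℂ) ρ := by
      refine ball_subset_ball' ?_
      have : t' ≤ ρ - dist z0 0 := min_le_right _ _
      linarith
    have hmemN : ∀ᶠ s in 𝓝 s0, h s ∈ ball (0 : C1a (1/2) ℂ E) N :=
      hh.continuousAt.preimage_mem_nhds (isOpen_ball.mem_nhds hmem)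
    refine regp hF ha ha1 hTT hη hΦ (fun k h hk => (hΦ2 k h hk).2.2.2) hh hQ hQs
      (q0 := (0 : Hol (1/2) ℂ ℝ)) (κ := κ) (w := fun s => Ψ (h s)) (fun z => rfl) ?_ ?_ ?_ ?_
      ht' (fun z hz => hκψ z (hsub hz)) ?_
    · show ‖κ‖ < ‖κ‖ + 1
      linarith
    · rw [norm_zero]; exact hK
    · have := hNR hmem
      rwa [mem_ball_zero_iff] at this
    · filter_upwards [hmemN] with s hs
      refine ⟨(hΦ2 k (h s) (hDom _ (hNR hs))).1, ?_⟩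
      have := hnorm _ hs
      show 6 * ‖Ψ (h s)‖ < 2 * (3 * (N + ε) + 3) + 1
      linarith
    · filter_upwards [hdb] with s hs z hz
      exact hs z (ball_subset_ball (min_le_left _ _) hz)
  · intro u hu huJ
    have hÂ1 : Small 1 (hat (P := ℝ) A) := Small.mono (min_le_right _ _) hÂs
    obtain ⟨g, hg, hgn⟩ := exists_rhs ha hÂBD.smooth hb0.smooth hÂ1 (small_zero zero_le_one) κ
      (0 : Hol (1/2) ℂ ℝ) u
    have hgn' : ‖T g‖ ≤ CM := by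
      have hu0 := norm_nonneg u
      calc ‖T g‖ ≤ ‖T‖ * ‖g‖ := T.le_opNorm g
        _ ≤ ‖T‖ * (2 * ‖κ‖ * (2 * (1 + ‖(0 : Hol (1/2) ℂ ℝ)‖ + ‖u‖) * ‖u‖ +
            (1 + ‖(0 : Hol (1/2) ℂ ℝ)‖ + ‖u‖))) := by gcongr
        _ ≤ CM := by
          rw [norm_zero, add_zero]
          show _ ≤ ‖T‖ * (2 * ‖κ‖ * (2 * (1 + M0) * M0 + (1 + M0)))
          gcongr
    have hmem0 : u - T g ∈ ball (0 : C1a (1/2) ℂ E) (M0 + CM + 1) := by
      rw [mem_ball_zero_iff]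
      calc ‖u - T g‖ ≤ ‖u‖ + ‖T g‖ := norm_sub_le _ _
        _ < M0 + CM + 1 := by linarith
    have hmem : u - T g ∈ ball (0 : C1a (1/2) ℂ E) N := ball_subset_ball hN0 hmem0
    have hsol : Sol T (hat A) (fun _ => (0 : E)) k (u - T g) u := by
      refine ⟨g, fun z => ?_, ?_⟩
      · rw [hg]
        exact (rhs_zero (hat A) (fun _ => (0 : E)) (Hol.fn κ z) (Hol.fn (0 : Hol (1/2) ℂ ℝ) z)
          (C1f u z) (C1d u z)).symm
      · rw [sub_add_cancel]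
    refine ⟨u - T g, hmem0, ?_, fun z hz => ?_⟩
    · refine ((hΦ2 k _ (hDom _ (hNR hmem))).2.2.2 u ?_ hsol).symm
      show ‖u‖ < 2 * (3 * (N + ε) + 3) + 1
      linarith
    · have h1 := sol_dbl hTT hsol z
      have h2 : ‖C1f u z‖ ≤ N + ε + 1 := (norm_f_le ha _ z).trans (by linarith)
      have h3 : dbl (C1d u z) = A (C1f u z) (dl (C1d u z)) := (hAJ (C1f u z) h2 _).2 (huJ z hz)
      have e : ψ z * Hol.fn κ z = 1 := by rw [(hκψ z hz).1, (hκψ z hz).2, mul_one]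
      rw [e, one_smul, add_zero] at h1
      have h4 : dbl (C1d u z) = dbl (C1d (u - T g) z) + dbl (C1d u z) := by
        conv_rhs => rw [h3]
        exact h1
      exact right_eq_add.1 h4

end

end Crest.Agent.R235.NWSolve_334
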