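import Crest.Agent.R235.K12Rprim_82
import Crest.Agent.R235.K12Ext2_168

/-!
Row 235 (S0364), package KUM, node NECKT (helper524), part 1: a tube round a sphere: the sphere is
`y ↦ Ps (y, 0)`; integrals over it; the pull-back of a closed two-form is basic; basic one-forms.
-/

set_option autoImplicit false
set_option maxSynthPendingDepth 3
set_option linter.unusedSectionVars false

open Set Function Filter MeasureTheory
open scoped Manifold ContDiff Topology RealInnerProductSpace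

universe u

namespace Crest.Agent.R235.NeckT1_524

open Crest.Agent.R240 Crest.Agent.R240.Ch Crest.Agent.R235 Crest.Agent.R235.K12_417
  Crest.Agent.R235.PB_604 Crest.Agent.R235.K12Ext_168

noncomputable section

/-! ### basic forms -/

lemma Pi_ne {r : ℝ} {z : E6} (hz : z ∈ OS r) : (Pi z).1 ≠ 0 := by
  intro h
  have := Pi_fst_norm hz.1
  rw [h, norm_zero] at this
  exact zero_ne_one this

lemma Pi_Pi {z : E6} (hz : z.1 ≠ 0) : Pi (Pi z) = Pi z := by
  have h1 := Pi_fst_norm hz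
  have h2 := Pi_inner hz
  have h3 : Pi z ∈ TS (‖(Pi z).2‖ + 1) := ⟨h1, h2, by linarith⟩
  exact Pi_of_TS h3

lemma Pi_mem_OS {r : ℝ} {z : E6} (hz : z ∈ OS r) : Pi z ∈ OS r := TS_subset_OS r (Pi_mem_TS hz)

/-- the chain rule for `Pi ∘ Pi = Pi`. -/
lemma fderiv_Pi_Pi {z : E6} (hz : z.1 ≠ 0) (U : E6) :
    fderiv ℝ Pi (Pi z) (fderiv ℝ Pi z U) = fderiv ℝ Pi z U := by
  have hz' : (Pi z).1 ≠ 0 := by
    intro h
    have := Pi_fst_norm hz
    rw [h, norm_zero] at this
    exact zero_ne_one this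
  have h1 : DifferentiableAt ℝ Pi z := (contDiffAt_Pi hz).differentiableAt infty_ne_zero
  have h2 : DifferentiableAt ℝ Pi (Pi z) := (contDiffAt_Pi hz').differentiableAt infty_ne_zero
  have h3 : (fun y => Pi (Pi y)) =ᶠ[𝓝 z] Pi := by
    have h4 : ∀ᶠ w : E6 in 𝓝 z, w.1 ≠ 0 := continuousAt_fst.eventually_ne hz
    filter_upwards [h4] with w hw using Pi_Pi hw
  have h5 := fderiv_comp z h2 h1
  have h6 : fderiv ℝ (Pi ∘ Pi) z = fderiv ℝ Pi z := h3.fderiv_eq
  rw [h6] at h5
  exact (congrArg (fun L : E6 →L[ℝ] E6 => L U) h5).symm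

variable {r : ℝ}

lemma smoothAt_of {F : Type} [NormedAddCommGroup F] [NormedSpace ℝ F] {W : E6 → F}
    (h : ContDiffOn ℝ ∞ W (OS r)) {z : E6} (hz : z ∈ OS r) : ContDiffAt ℝ ∞ W z :=
  h.contDiffAt ((isOpen_OS r).mem_nhds hz)

/-- the differential of a basic one-form is basic. -/
theorem bas1_d1 {β : E6 → E6 →L[ℝ] ℝ} (h : Bas1 r β) : Bas r (d1 β) where
  smooth := fun z hz => (d1_contDiffAt (smoothAt_of h.smooth hz)).contDiffWithinAt
  alt := fun z _ U => d1_self β z U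
  closed := fun z hz U V Y => dd_d1 (smoothAt_of h.smooth hz) U V Y
  bas := by
    intro z hz U V
    refine d1_pullback' (contDiffAt_Pi hz.1)
      ((smoothAt_of h.smooth (Pi_mem_OS hz)).differentiableAt infty_ne_zero) ?_ U V
    filter_upwards [(isOpen_OS r).mem_nhds hz] with y hy
    exact ContinuousLinearMap.ext fun u => h.bas y hy u

theorem bas1_add {β γ : E6 → E6 →L[ℝ] ℝ} (h : Bas1 r β) (h' : Bas1 r γ) :
    Bas1 r (fun z => β z + γ z) where
  smooth := h.smooth.add h'.smooth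
  bas := by
    intro z hz U
    show β z U + γ z U = β (Pi z) _ + γ (Pi z) _
    rw [h.bas z hz, h'.bas z hz]

/-- multiplication by a basic function. -/
theorem bas1_smul {β : E6 → E6 →L[ℝ] ℝ} (h : Bas1 r β) {f : E6 → ℝ}
    (hf : ContDiffOn ℝ ∞ f (OS r)) (hb : ∀ z ∈ OS r, f z = f (Pi z)) :
    Bas1 r (fun z => f z • β z) where
  smooth := hf.smul h.smooth
  bas := by
    intro z hz U
    show f z • β z U = f (Pi z) • β (Pi z) _
    rw [h.bas z hz, ← hb z hz]

theorem bas_sub {W W' : E6 → B6} (h : Bas r W) (h' : Bas r W') :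
    Bas r (fun z => W z - W' z) where
  smooth := h.smooth.sub h'.smooth
  alt := by
    intro z hz U
    show W z U U - W' z U U = 0
    rw [h.alt z hz, h'.alt z hz, sub_zero]
  closed := by
    intro z hz U V Y
    have h1 := (smoothAt_of h.smooth hz).differentiableAt infty_ne_zero
    have h2 := (smoothAt_of h'.smooth hz).differentiableAt infty_ne_zero
    have h3 : (fun z => W z - W' z) = fun z => W z + (-1 : ℝ) • W' z := by
      funext z; rw [neg_one_smul, sub_eq_add_neg]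
    have h4 := dd_add h1 (h2.const_smul (-1 : ℝ)) U V Y
    have h5 := dd_const_smul (-1 : ℝ) h2 U V Y
    rw [h3]
    refine h4.trans ?_
    rw [h.closed z hz]
    show 0 + dd (fun z => (-1 : ℝ) • W' z) z U V Y = 0
    rw [h5, h'.closed z hz]
    simp
  bas := by
    intro z hz U V
    show W z U V - W' z U V = W (Pi z) _ _ - W' (Pi z) _ _
    rw [h.bas z hz, h'.bas z hz]

theorem bas_add {W W' : E6 → B6} (h : Bas r W) (h' : Bas r W') :
    Bas r (fun z => W z + W' z) where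
  smooth := h.smooth.add h'.smooth
  alt := by
    intro z hz U
    show W z U U + W' z U U = 0
    rw [h.alt z hz, h'.alt z hz, add_zero]
  closed := by
    intro z hz U V Y
    have h1 := (smoothAt_of h.smooth hz).differentiableAt infty_ne_zero
    have h2 := (smoothAt_of h'.smooth hz).differentiableAt infty_ne_zero
    rw [dd_add h1 h2, h.closed z hz, h'.closed z hz]
    simp
  bas := by
    intro z hz U V
    show W z U V + W' z U V = W (Pi z) _ _ + W' (Pi z) _ _
    rw [h.bas z hz, h'.bas z hz]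

theorem bas_smul {W : E6 → B6} (c : ℝ) (h : Bas r W) : Bas r (fun z => c • W z) where
  smooth := h.smooth.const_smul c
  alt := by
    intro z hz U
    show c • W z U U = 0
    rw [h.alt z hz, smul_zero]
  closed := by
    intro z hz U V Y
    have h1 := (smoothAt_of h.smooth hz).differentiableAt infty_ne_zero
    rw [dd_const_smul c h1, h.closed z hz]
    simp
  bas := by
    intro z hz U V
    show c • W z U V = c • W (Pi z) _ _
    rw [h.bas z hz]

/-! ### the sphere in the tube -/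

section Man

variable {M : Type u} [TopologicalSpace M] [T2Space M] [CompactSpace M]
  [ChartedSpace E4 M] [IsManifold 𝓘(ℝ, E4) ∞ M]

variable {σ : E3 → M} {Ps : E6 → M} {G : M → E6} {U : Set M}

lemma Pi_zero (y : E3) : Pi (y, 0) = (‖y‖⁻¹ • y, 0) := by
  simp [Pi]

lemma mem_OS_zero (hr : 0 < r) {y : E3} (hy : y ≠ 0) : ((y, 0) : E6) ∈ OS r := by
  refine ⟨hy, ?_⟩
  rw [Pi_zero, norm_zero]
  exact hr

/-- the sphere is `y ↦ Ps (y, 0)`. -/
theorem sph_eq (h : Tube σ r Ps G U) (hσ : EmbS σ) {y : E3} (hy : y ≠ 0) : σ y = Ps (y, 0) := by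
  have hn : 0 < ‖y‖⁻¹ := inv_pos.2 (norm_pos_iff.2 hy)
  have h1 : ‖‖y‖⁻¹ • y‖ = 1 := by
    rw [norm_smul, norm_inv, norm_norm, inv_mul_cancel₀ (norm_ne_zero_iff.2 hy)]
  rw [← h.fac _ (mem_OS_zero h.r_pos hy), Pi_zero, h.zero _ h1, hσ.hom _ _ hn hy]

/-- the differential of the sphere. -/
theorem dmap_eq (h : Tube σ r Ps G U) (hσ : EmbS σ) {y : E3} (hy : y ≠ 0) (u : E3) :
    dmap σ y u = D1 E6 E4 Ps ((y, 0) : E6) (u, 0) := by
  have h1 := smoothAt h (mem_OS_zero h.r_pos hy)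
  have h2 := mem_chart_source E4 (Ps ((y, 0) : E6))
  have h3 : DifferentiableAt ℝ (mrep E6 E4 ((y, 0) : E6) (Ps ((y, 0) : E6)) Ps) ((y, 0) : E6) :=
    (mrep_smooth h1 (mem_chart_source E6 ((y, 0) : E6)) h2).differentiableAt infty_ne_zero
  have h4 : (fun z : E3 => chartAt E4 (σ y) (σ z)) =ᶠ[𝓝 y] fun z : E3 =>
      mrep E6 E4 ((y, 0) : E6) (Ps ((y, 0) : E6)) Ps (z, 0) := by
    filter_upwards [isOpen_compl_singleton.mem_nhds hy] with z hz
    rw [sph_eq h hσ hy, sph_eq h hσ hz]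
    rfl
  have h5 : HasFDerivAt (fun z : E3 => ((z, 0) : E6)) (ContinuousLinearMap.inl ℝ E3 E3) y :=
    (ContinuousLinearMap.inl ℝ E3 E3).hasFDerivAt
  have h6 : HasFDerivAt (fun z : E3 => mrep E6 E4 ((y, 0) : E6) (Ps ((y, 0) : E6)) Ps (z, 0))
      ((fderiv ℝ (mrep E6 E4 ((y, 0) : E6) (Ps ((y, 0) : E6)) Ps) ((y, 0) : E6)).comp
        (ContinuousLinearMap.inl ℝ E3 E3)) y :=
    HasFDerivAt.comp y (g := mrep E6 E4 ((y, 0) : E6) (Ps ((y, 0) : E6)) Ps) h3.hasFDerivAt h5
  show fderiv ℝ (fun z : E3 => chartAt E4 (σ y) (σ z)) y u = _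
  rw [h4.fderiv_eq, h6.fderiv]
  rfl

theorem at2_eq (h : Tube σ r Ps G U) (hσ : EmbS σ) (b : F2 E4 M) {y : E3} (hy : y ≠ 0)
    (u v : E3) : at2 b (σ y) (dmap σ y u) (dmap σ y v) = P2 Ps b (y, 0) (u, 0) (v, 0) := by
  rw [dmap_eq h hσ hy, dmap_eq h hσ hy, sph_eq h hσ hy]
  rfl

/-- the density of the integral over the sphere. -/
def cyc (W : E6 → B6) (y : E3) : ℝ :=
  y 2 * W (y, 0) (EuclideanSpace.single 0 1, 0) (EuclideanSpace.single 1 1, 0) +
    y 0 * W (y, 0) (EuclideanSpace.single 1 1, 0) (EuclideanSpace.single 2 1, 0) +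
    y 1 * W (y, 0) (EuclideanSpace.single 2 1, 0) (EuclideanSpace.single 0 1, 0)

theorem sphI_eq (h : Tube σ r Ps G U) (hσ : EmbS σ) (b : F2 E4 M) :
    sphI σ b = ∫ y : Metric.sphere (0 : E3) 1, cyc (P2 Ps b) y
      ∂((volume : Measure E3).toSphere) := by
  unfold sphI
  refine integral_congr_ae (Filter.Eventually.of_forall fun y => ?_)
  have hy : (y : E3) ≠ 0 := by
    intro h0
    have := y.2
    rw [h0] at this
    simp at this
  show _ = cyc (P2 Ps b) y
  simp only [at2_eq h hσ b hy]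
  rfl

/-! ### pull-backs of closed forms -/

theorem z2At_P2 (h : Tube σ r Ps G U) (b : Z2 M) {z : E6} (hz : z ∈ OS r) :
    Z2At (E := E6) (X := E6) (pb2 (E := E6) (F := E4) Ps (b.1.1 : F2 E4 M)) z :=
  (z2At_of_mem b.1.2 b.2 (Ps z)).pb2 (smoothAt h hz)

lemma P2_rep (z : E6) (b : F2 E4 M) :
    rep z (pb2 (E := E6) (F := E4) Ps b) = P2 Ps b := by
  funext y
  exact rep_model z _ y

theorem bas_P2 (h : Tube σ r Ps G U) (b : Z2 M) : Bas r (P2 Ps (b.1.1 : F2 E4 M)) where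
  smooth := by
    intro z hz
    have h1 := (z2At_P2 h b hz).sm
    rw [P2_rep] at h1
    exact ContDiffAt.contDiffWithinAt h1
  alt := fun z hz U => (z2At_P2 h b hz).alt U
  closed := by
    intro z hz U V Y
    have h1 := (z2At_P2 h b hz).cl U V Y
    rw [P2_rep] at h1
    exact h1
  bas := by
    intro z hz U V
    have h1 : Ps =ᶠ[𝓝 z] Ps ∘ Pi := by
      filter_upwards [(isOpen_OS r).mem_nhds hz] with w hw using (h.fac w hw).symm
    have hPi : ContMDiffAt 𝓘(ℝ, E6) 𝓘(ℝ, E6) 1 Pi z :=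
      ((contDiffAt_Pi hz.1).of_le one_le_infty).contMDiffAt
    have hP : ContMDiffAt 𝓘(ℝ, E6) 𝓘(ℝ, E4) 1 Ps (Pi z) :=
      (smoothAt h (Pi_mem_OS hz)).of_le one_le_infty
    have h2 : P2 Ps (b.1.1 : F2 E4 M) z =
        at2 (pb2 (E := E6) (F := E4) (Ps ∘ Pi) (b.1.1 : F2 E4 M)) z := by
      show pl _ _ = pl _ _
      rw [D1_congr h1, h1.eq_of_nhds]
    rw [h2, pb2_comp (E := E6) (F := E6) (G := E4) hPi hP, at2_pb2, D1_Pi, pl_apply]
    rfl

end Man

end

end Crest.Agent.R235.NeckT1_524
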