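import Crest.Agent.R235.NeckT1_524

/-!
Row 235 (S0364), package KUM, node NECKT (helper524), part 2: a closed two-form with integral `0` over
the sphere is exact on the tube; it can be made to vanish near the sphere by subtracting an exact form.
-/

set_option autoImplicit false
set_option maxSynthPendingDepth 3
set_option linter.unusedSectionVars false

open Set Function Filter MeasureTheory
open scoped Manifold ContDiff Topology RealInnerProductSpace

universe u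

namespace Crest.Agent.R235.NeckT2_524

open Crest.Agent.R240 Crest.Agent.R240.Ch Crest.Agent.R235 Crest.Agent.R235.K12_417
  Crest.Agent.R235.PB_604 Crest.Agent.R235.K12Ext_168 Crest.Agent.R235.NeckT1_524

noncomputable section

variable {r : ℝ}

/-! ### the retraction once more -/

lemma Pi_scale {t : ℝ} (ht : 0 < t) (q p : E3) : Pi (t • q, p) = Pi (q, p) := by
  by_cases hq : q = 0
  · rw [hq, smul_zero]
  have h1 : ‖t • q‖ = t * ‖q‖ := by rw [norm_smul, Real.norm_of_nonneg ht.le]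
  have hne : ‖q‖ ≠ 0 := norm_ne_zero_iff.2 hq
  unfold Pi
  refine Prod.ext ?_ ?_
  · show ‖t • q‖⁻¹ • t • q = ‖q‖⁻¹ • q
    rw [h1, smul_smul]
    congr 1
    field_simp
  · show p - (⟪t • q, p⟫ / ‖t • q‖ ^ 2) • t • q = p - (⟪q, p⟫ / ‖q‖ ^ 2) • q
    rw [h1, smul_smul, real_inner_smul_left]
    congr 2
    field_simp

lemma fderiv_Pi_fst {z : E6} (hz : z.1 ≠ 0) : fderiv ℝ Pi z (z.1, 0) = 0 := by
  have hd : HasFDerivAt Pi (fderiv ℝ Pi z) z :=
    ((contDiffAt_Pi hz).differentiableAt infty_ne_zero).hasFDerivAt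
  have h1 : HasDerivAt (fun t : ℝ => ((t • z.1, z.2) : E6)) (z.1, 0) 1 := by
    have h2 : HasDerivAt (fun t : ℝ => t • z.1) z.1 1 := by
      simpa using (hasDerivAt_id (1 : ℝ)).smul_const z.1
    exact h2.prodMk (hasDerivAt_const (1 : ℝ) z.2)
  have h3 : HasDerivAt (fun t : ℝ => Pi (t • z.1, z.2)) (fderiv ℝ Pi z (z.1, 0)) 1 := by
    have hd' : HasFDerivAt Pi (fderiv ℝ Pi z) (((1 : ℝ) • z.1, z.2) : E6) := by
      rw [one_smul]; exact hd
    exact HasFDerivAt.comp_hasDerivAt (l := Pi) (1 : ℝ) hd' h1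
  have h4 : (fun t : ℝ => Pi (t • z.1, z.2)) =ᶠ[𝓝 1] fun _ => Pi z := by
    filter_upwards [lt_mem_nhds (zero_lt_one (α := ℝ))] with t ht
    exact Pi_scale ht z.1 z.2
  exact h3.unique ((hasDerivAt_const (1 : ℝ) (Pi z)).congr_of_eventuallyEq h4)

lemma fderiv_Pi_1 {z : E6} (hz : z.1 ≠ 0) (U : E6) :
    ∃ c : ℝ, (fderiv ℝ Pi z U).1 = ‖z.1‖⁻¹ • U.1 + c • z.1 := by
  have hne : ‖z.1‖ ≠ 0 := norm_ne_zero_iff.2 hz
  have hd : HasFDerivAt Pi (fderiv ℝ Pi z) z :=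
    ((contDiffAt_Pi hz).differentiableAt infty_ne_zero).hasFDerivAt
  have h1 : HasFDerivAt (fun y => (Pi y).1)
      ((ContinuousLinearMap.fst ℝ E3 E3).comp (fderiv ℝ Pi z)) z :=
    (ContinuousLinearMap.fst ℝ E3 E3).hasFDerivAt.comp z hd
  have h2 : DifferentiableAt ℝ (fun y : E6 => ‖y.1‖⁻¹) z := by
    have h3 : ContDiffAt ℝ ∞ (fun z : E6 => z.1) z := contDiffAt_fst
    exact ((h3.norm ℝ hz).inv hne).differentiableAt infty_ne_zero
  have h3 : HasFDerivAt (fun y : E6 => y.1) (ContinuousLinearMap.fst ℝ E3 E3) z :=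
    (ContinuousLinearMap.fst ℝ E3 E3).hasFDerivAt
  have h4 := h2.hasFDerivAt.smul h3
  have h5 : (fun y : E6 => (Pi y).1) = fun y : E6 => ‖y.1‖⁻¹ • y.1 := rfl
  rw [h5] at h1
  have h6 := congrArg (fun L : E6 →L[ℝ] E3 => L U) (h1.unique h4)
  refine ⟨fderiv ℝ (fun y : E6 => ‖y.1‖⁻¹) z U, ?_⟩
  exact h6

/-! ### primitives on the tube -/

/-- the density, homogeneous of degree `0`. -/
def dens (W : E6 → B6) (q : E3) : ℝ := cyc W (‖q‖⁻¹ • q)

lemma contDiffAt_cyc {W : E6 → B6} (hr : 0 < r) (h : Bas r W) {y : E3} (hy : y ≠ 0) :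
    ContDiffAt ℝ ∞ (cyc W) y := by
  have h1 : ContDiffAt ℝ ∞ (fun y : E3 => W (y, 0)) y := by
    have h2 : ContDiffAt ℝ ∞ (fun y : E3 => ((y, 0) : E6)) y := contDiffAt_id.prodMk contDiffAt_const
    exact ContDiffAt.comp y (g := W) (smoothAt_of h.smooth (mem_OS_zero hr hy)) h2
  have h3 (u v : E6) : ContDiffAt ℝ ∞ (fun y : E3 => W (y, 0) u v) y :=
    (h1.clm_apply contDiffAt_const).clm_apply contDiffAt_const
  have h4 (i : Fin 3) : ContDiffAt ℝ ∞ (fun y : E3 => y i) y := by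
    have : ContDiff ℝ ∞ (fun y : E3 => y i) := by fun_prop
    exact this.contDiffAt
  unfold cyc
  exact (((h4 2).mul (h3 _ _)).add ((h4 0).mul (h3 _ _))).add ((h4 1).mul (h3 _ _))

lemma hom0_dens {W : E6 → B6} (hr : 0 < r) (h : Bas r W) : Hom0 (dens W) := by
  refine ⟨fun q hq => ?_, fun t q ht => ?_⟩
  · have hq0 : q ≠ 0 := hq
    have hne : ‖q‖ ≠ 0 := norm_ne_zero_iff.2 hq0
    have h1 : ContDiffAt ℝ ∞ (fun q : E3 => ‖q‖⁻¹ • q) q :=
      (((contDiffAt_id (x := q)).norm ℝ hq0).inv hne).smul contDiffAt_id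
    have h2 : ‖q‖⁻¹ • q ≠ 0 := smul_ne_zero (inv_ne_zero hne) hq0
    exact (ContDiffAt.comp q (g := cyc W) (f := fun q : E3 => ‖q‖⁻¹ • q)
      (contDiffAt_cyc hr h h2) h1).contDiffWithinAt
  · unfold dens
    by_cases hq : q = 0
    · rw [hq, smul_zero]
    have h1 : ‖t • q‖ = t * ‖q‖ := by rw [norm_smul, Real.norm_of_nonneg ht.le]
    have hne : ‖q‖ ≠ 0 := norm_ne_zero_iff.2 hq
    rw [h1, smul_smul]
    congr 2
    field_simp

lemma W_fst_zero {W : E6 → B6} (hr : 0 < r) (h : Bas r W) {q : E3} (hq : q ≠ 0) (V : E6) :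
    W (q, 0) (q, 0) V = 0 := by
  rw [h.bas _ (mem_OS_zero hr hq), fderiv_Pi_fst (z := ((q, 0) : E6)) hq, map_zero]
  rfl

lemma inl_sum (u : E3) : ((u, 0) : E6) = u 0 • ((EuclideanSpace.single 0 1, 0) : E6) +
    u 1 • ((EuclideanSpace.single 1 1, 0) : E6) + u 2 • ((EuclideanSpace.single 2 1, 0) : E6) := by
  refine Prod.ext ?_ ?_
  · ext i
    fin_cases i <;> simp
  · simp

/-- on the zero section a basic form is a multiple of the area form. -/
lemma W_zero_section {W : E6 → B6} (hr : 0 < r) (h : Bas r W) {q : E3} (hq : ‖q‖ = 1) (u v : E3) :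
    W (q, 0) (u, 0) (v, 0) = dens W q * ⟪q, cr u v⟫ := by
  have hq0 : q ≠ 0 := by
    intro h0; rw [h0, norm_zero] at hq; exact zero_ne_one hq
  set e0 : E6 := (EuclideanSpace.single 0 1, 0) with he0
  set e1 : E6 := (EuclideanSpace.single 1 1, 0) with he1
  set e2 : E6 := (EuclideanSpace.single 2 1, 0) with he2
  set w := W (q, 0) with hw
  have halt : ∀ v, w v v = 0 := fun v => h.alt _ (mem_OS_zero hr hq0) v
  have hs : ∀ u v, w u v = - w v u := alt_swap halt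
  have hk : ∀ V, w (q, 0) V = 0 := fun V => W_fst_zero hr h hq0 V
  have hd : dens W q = q 2 * w e0 e1 + q 0 * w e1 e2 + q 1 * w e2 e0 := by
    unfold dens cyc
    rw [hq, inv_one, one_smul]
  have k0 := hk e0
  have k1 := hk e1
  have k2 := hk e2
  rw [inl_sum q, ← he0, ← he1, ← he2] at k0 k1 k2
  simp only [map_add, map_smul, add_apply, smul_apply, smul_eq_mul, halt, mul_zero, zero_add,
    add_zero] at k0 k1 k2
  have hn : q 0 ^ 2 + q 1 ^ 2 + q 2 ^ 2 = 1 := by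
    have h1 : ‖q‖ ^ 2 = q 0 ^ 2 + q 1 ^ 2 + q 2 ^ 2 := by
      rw [EuclideanSpace.norm_sq_eq, Fin.sum_univ_three]
      simp
    rw [← h1, hq, one_pow]
  rw [inl_sum u, inl_sum v, hd, ← he0, ← he1, ← he2]
  simp only [map_add, map_smul, add_apply, smul_apply, smul_eq_mul, halt, mul_zero, zero_add,
    add_zero]
  rw [hs e1 e0] at *
  rw [hs e2 e0] at *
  rw [hs e2 e1] at *
  have hi : ⟪q, cr u v⟫ = q 0 * (u 1 * v 2 - u 2 * v 1) + q 1 * (u 2 * v 0 - u 0 * v 2) +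
      q 2 * (u 0 * v 1 - u 1 * v 0) := by
    rw [PiLp.inner_apply, Fin.sum_univ_three]
    simp [cr]
    ring
  rw [hi]
  generalize w e0 e1 = A at *
  generalize w e0 e2 = B at *
  generalize w e1 e2 = C at *
  -- `C, -B, A` is a multiple of `q`
  have hA : A = (q 2 * A + q 0 * C + q 1 * (-B)) * q 2 := by
    linear_combination (-A) * hn + q 0 * k1 - q 1 * k0
  have hB : -B = (q 2 * A + q 0 * C + q 1 * (-B)) * q 1 := by
    linear_combination (B) * hn + q 2 * k0 - q 0 * k2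
  have hC : C = (q 2 * A + q 0 * C + q 1 * (-B)) * q 0 := by
    linear_combination (-C) * hn + q 1 * k2 - q 2 * k1
  linear_combination (u 0 * v 1 - u 1 * v 0) * hA + (u 2 * v 0 - u 0 * v 2) * hB +
    (u 1 * v 2 - u 2 * v 1) * hC

/-- the pull-back of a form on the sphere, homogeneous. -/
def b0 (γ : E3 → E3 →L[ℝ] ℝ) (z : E6) : E6 →L[ℝ] ℝ :=
  (γ z.1).comp (ContinuousLinearMap.fst ℝ E3 E3)

lemma bas1_b0 {γ : E3 → E3 →L[ℝ] ℝ} (h1 : ContDiffOn ℝ ∞ γ {0}ᶜ) (h2 : ∀ q, γ q q = 0)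
    (h3 : ∀ (t : ℝ) (q : E3), 0 < t → q ≠ 0 → γ (t • q) = t⁻¹ • γ q) : Bas1 r (b0 γ) where
  smooth := by
    intro z hz
    have h4 : ContDiffAt ℝ ∞ γ z.1 := h1.contDiffAt (isOpen_compl_singleton.mem_nhds hz.1)
    have h5 : ContDiffAt ℝ ∞ (fun z : E6 => γ z.1) z := ContDiffAt.comp z h4 contDiffAt_fst
    exact (h5.clm_comp contDiffAt_const).contDiffWithinAt
  bas := by
    intro z hz U
    have hne : ‖z.1‖ ≠ 0 := norm_ne_zero_iff.2 hz.1
    obtain ⟨c, hc⟩ := fderiv_Pi_1 hz.1 U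
    show γ z.1 U.1 = γ (‖z.1‖⁻¹ • z.1) (fderiv ℝ Pi z U).1
    rw [hc, h3 _ _ (inv_pos.2 (norm_pos_iff.2 hz.1)) hz.1]
    simp only [smul_apply, map_add, map_smul, h2, smul_eq_mul, mul_zero, add_zero, inv_inv]
    field_simp

lemma d1_b0 {γ : E3 → E3 →L[ℝ] ℝ} (h1 : ContDiffOn ℝ ∞ γ {0}ᶜ) {z : E6} (hz : z.1 ≠ 0)
    (u v : E6) : d1 (b0 γ) z u v = d1 γ z.1 u.1 v.1 := by
  have h4 : ContDiffAt ℝ ∞ γ z.1 := h1.contDiffAt (isOpen_compl_singleton.mem_nhds hz)
  have h5 : fderiv ℝ (fun z : E6 => z.1) z = ContinuousLinearMap.fst ℝ E3 E3 :=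
    (ContinuousLinearMap.fst ℝ E3 E3).fderiv
  have h6 := d1_pullback' (s := γ) (t := b0 γ) (φ := fun z : E6 => z.1) (y := z) contDiffAt_fst
    (h4.differentiableAt infty_ne_zero) (Filter.Eventually.of_forall fun y => ?_) u v
  · rw [h5] at h6
    exact h6
  · have h7 : fderiv ℝ (fun z : E6 => z.1) y = ContinuousLinearMap.fst ℝ E3 E3 :=
      (ContinuousLinearMap.fst ℝ E3 E3).fderiv
    rw [h7]
    rfl

/-- a basic closed form with integral `0` over the sphere is exact. -/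
theorem exists_prim (hS : S2PRIM) (hr : 0 < r) {W : E6 → B6} (h : Bas r W)
    (h0 : ∫ y : Metric.sphere (0 : E3) 1, cyc W y ∂((volume : Measure E3).toSphere) = 0) :
    ∃ β : E6 → E6 →L[ℝ] ℝ, Bas1 r β ∧ ∀ z ∈ OS r, d1 β z = W z := by
  have h1 : ∫ y : Metric.sphere (0 : E3) 1, dens W y ∂((volume : Measure E3).toSphere) = 0 := by
    rw [← h0]
    refine integral_congr_ae (Filter.Eventually.of_forall fun y => ?_)
    show cyc W (‖(y : E3)‖⁻¹ • (y : E3)) = cyc W y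
    have hy : ‖(y : E3)‖ = 1 := by simp
    rw [hy, inv_one, one_smul]
  obtain ⟨γ, g1, g2, g3, g4⟩ := hS (dens W) (hom0_dens hr h) h1
  have hb := bas1_b0 (r := r) g1 g2 g3
  have hW' : Bas r (fun z => W z - d1 (b0 γ) z) := bas_sub h (bas1_d1 hb)
  obtain ⟨β, hβ, hd, -, -⟩ := K12Rprim_82.rprim r _ hr hW' (by
    intro q u v hq hu hv
    have hq0 : q ≠ 0 := by
      intro h0; rw [h0, norm_zero] at hq; exact zero_ne_one hq
    show W (q, 0) (u, 0) (v, 0) - d1 (b0 γ) (q, 0) (u, 0) (v, 0) = 0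
    rw [W_zero_section hr h hq, d1_b0 (z := ((q, 0) : E6)) g1 hq0, g4 q u v hq hu hv, sub_self])
  refine ⟨fun z => b0 γ z + β z, bas1_add hb hβ, fun z hz => ?_⟩
  rw [d1_add ((smoothAt_of hb.smooth hz).differentiableAt infty_ne_zero)
    ((smoothAt_of hβ.smooth hz).differentiableAt infty_ne_zero), hd z hz]
  abel

/-! ### cut-off -/

/-- a smooth function of `s`, `1` for `s ≤ a` and `0` for `s ≥ b`. -/
def ct (a b s : ℝ) : ℝ := Real.smoothTransition ((b - s) / (b - a))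

lemma ct_smooth (a b : ℝ) : ContDiff ℝ ∞ (ct a b) := by
  unfold ct
  exact Real.smoothTransition.contDiff.comp ((contDiff_const.sub contDiff_id).div_const _)

lemma ct_one {a b s : ℝ} (hab : a < b) (hs : s ≤ a) : ct a b s = 1 := by
  unfold ct
  refine Real.smoothTransition.one_of_one_le ?_
  rw [le_div_iff₀ (by linarith)]
  linarith

lemma ct_zero {a b s : ℝ} (hab : a < b) (hs : b ≤ s) : ct a b s = 0 := by
  unfold ct
  refine Real.smoothTransition.zero_of_nonpos ?_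
  exact div_nonpos_of_nonpos_of_nonneg (by linarith) (by linarith)

section Man

variable {M : Type u} [TopologicalSpace M] [T2Space M] [CompactSpace M]
  [ChartedSpace E4 M] [IsManifold 𝓘(ℝ, E4) ∞ M]

variable {σ : E3 → M} {Ps : E6 → M} {G : M → E6} {U : Set M}

/-- a form is determined by its pull-back. -/
theorem val_ext (h : Tube σ r Ps G U) {a b : F2 E4 M} {z : E6} (hz : z ∈ TS r)
    (hab : P2 Ps a z = P2 Ps b z) : at2 a (Ps z) = at2 b (Ps z) := by
  have hzO := TS_subset_OS r hz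
  have hU : Ps z ∈ U := h.maps z hzO
  have hG : ContMDiffAt 𝓘(ℝ, E4) 𝓘(ℝ, E6) 1 G (Ps z) := (smoothGAt h hU).of_le one_le_infty
  have hGz : G (Ps z) = z := by rw [h.right z hzO, Pi_of_TS hz]
  have hP : ContMDiffAt 𝓘(ℝ, E6) 𝓘(ℝ, E4) 1 Ps (G (Ps z)) := by
    rw [hGz]; exact (smoothAt h hzO).of_le one_le_infty
  have h1 : Ps ∘ G =ᶠ[𝓝 (Ps z)] id := by
    filter_upwards [h.openU.mem_nhds hU] with x hx using h.left x hx
  have h2 := D1_comp (E := E4) (F := E6) (G := E4) hG hP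
  rw [D1_congr h1, D1_id] at h2
  have h3 (b : F2 E4 M) (u v : E4) : at2 b (Ps z) u v =
      P2 Ps b z (D1 E4 E6 G (Ps z) u) (D1 E4 E6 G (Ps z) v) := by
    have h4 (u : E4) : u = D1 E6 E4 Ps (G (Ps z)) (D1 E4 E6 G (Ps z) u) :=
      congrArg (fun L : E4 →L[ℝ] E4 => L u) h2
    show _ = at2 b (Ps z) (D1 E6 E4 Ps z (D1 E4 E6 G (Ps z) u))
      (D1 E6 E4 Ps z (D1 E4 E6 G (Ps z) v))
    have h5 (u : E4) : D1 E6 E4 Ps z (D1 E4 E6 G (Ps z) u) = u := by
      have h6 := h4 u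
      rw [hGz] at h6
      exact h6.symm
    rw [h5, h5]
  refine ContinuousLinearMap.ext fun u => ContinuousLinearMap.ext fun v => ?_
  rw [h3 a, h3 b, hab]

/-- a closed form with integral `0` over the sphere is, near the sphere, equal to an exact form. -/
theorem exists_exact (hS : S2PRIM) (h : Tube σ r Ps G U) (hσ : EmbS σ) {r1 : ℝ}
    (hr1 : r1 < r) (b : Z2 M) (hb : sphI σ (b.1.1 : F2 E4 M) = 0) :
    ∃ a : Z2 M, IsEx (a.1.1 : F2 E4 M) ∧
      ∀ z ∈ TS r, ‖z.2‖ ≤ r1 → val a (Ps z) = val b (Ps z) := by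
  obtain ⟨β, hβ, hd⟩ := exists_prim hS h.r_pos (bas_P2 h b) (by rw [← sphI_eq h hσ]; exact hb)
  set a1 : ℝ := max r1 0 with ha1
  have ha1r : a1 < r := max_lt hr1 h.r_pos
  set a2 : ℝ := (a1 + r) / 2 with ha2
  set a3 : ℝ := (a2 + r) / 2 with ha3
  have h12 : a1 < a2 := by rw [ha2]; linarith
  have h23 : a2 < a3 := by rw [ha3, ha2]; linarith
  have h3r : a3 < r := by rw [ha3, ha2]; linarith
  have h01 : 0 ≤ a1 := le_max_right _ _
  have hsq : a2 ^ 2 < a3 ^ 2 := by nlinarith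
  set f : E6 → ℝ := fun z => ct (a2 ^ 2) (a3 ^ 2) (‖(Pi z).2‖ ^ 2) with hf
  have hfs : ContDiffOn ℝ ∞ f (OS r) := by
    intro z hz
    have h1 : ContDiffAt ℝ ∞ (fun z => ‖(Pi z).2‖ ^ 2) z := (contDiffAt_Pi hz.1).snd.norm_sq ℝ
    exact ((ct_smooth _ _).contDiffAt.comp z h1).contDiffWithinAt
  have hfb : ∀ z ∈ OS r, f z = f (Pi z) := by
    intro z hz
    simp only [hf, Pi_Pi hz.1]
  have hβ' := bas1_smul hβ hfs hfb
  obtain ⟨a, ⟨s, hs, hsa⟩, -, ha⟩ := K12Ext_168.ext M σ r Ps G U h (fun z => f z • β z) a3 h3r hβ' (by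
    intro z hz hz3
    have h1 : f z = 0 := by
      simp only [hf, Pi_of_TS hz]
      refine ct_zero hsq ?_
      have h2 : 0 ≤ a3 := by linarith
      exact pow_le_pow_left₀ h2 hz3 2
    show f z • β z = 0
    rw [h1, zero_smul])
  refine ⟨a, isEx_iff.2 ⟨s, hs, hsa⟩, fun z hz hz1 => ?_⟩
  refine val_ext h hz ?_
  have hzO := TS_subset_OS r hz
  rw [ha z hzO, ← hd z hzO]
  refine d1_congr ?_
  have h1 : ContinuousAt (fun z => ‖(Pi z).2‖) z := (contDiffAt_Pi hzO.1).continuousAt.snd.norm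
  have h2 : ‖(Pi z).2‖ < a2 := by
    rw [Pi_of_TS hz]
    exact lt_of_le_of_lt (hz1.trans (le_max_left _ _)) h12
  filter_upwards [h1.eventually_lt_const h2] with y hy
  have h3 : f y = 1 := by
    simp only [hf]
    refine ct_one hsq ?_
    exact pow_le_pow_left₀ (norm_nonneg _) hy.le 2
  rw [h3, one_smul]

end Man

end

end Crest.Agent.R235.NeckT2_524
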