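import Crest.Agent.R235.NeckT2_524
import Crest.Agent.R235.K12Phi_291

/-!
Row 235 (S0364), package KUM, node NECKT (helper524), part 3: the area form of the sphere on the tube,
`d ps = - area`.
-/

set_option autoImplicit false
set_option maxSynthPendingDepth 3
set_option linter.unusedSectionVars false

open Set Function Filter MeasureTheory
open scoped Manifold ContDiff Topology RealInnerProductSpace

universe u

namespace Crest.Agent.R235.NeckT3_524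

open Crest.Agent.R240 Crest.Agent.R240.Ch Crest.Agent.R235 Crest.Agent.R235.K12_417
  Crest.Agent.R235.PB_604 Crest.Agent.R235.K12Ext_168 Crest.Agent.R235.NeckT1_524
  Crest.Agent.R235.NeckT2_524

noncomputable section

variable {r : ℝ}

/-! ### the area form -/

/-- the coordinate. -/
abbrev pj (i : Fin 3) : E3 →L[ℝ] ℝ := EuclideanSpace.proj i

/-- wedge of one-forms. -/
def wd (a b : E3 →L[ℝ] ℝ) : E3 →L[ℝ] E3 →L[ℝ] ℝ := a.smulRight b - b.smulRight a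

lemma wd_apply (a b : E3 →L[ℝ] ℝ) (u v : E3) : wd a b u v = a u * b v - b u * a v := rfl

/-- `det (q, u, v)`. -/
def Om : E3 →L[ℝ] (E3 →L[ℝ] E3 →L[ℝ] ℝ) :=
  (pj 0).smulRight (wd (pj 1) (pj 2)) + (pj 1).smulRight (wd (pj 2) (pj 0)) +
    (pj 2).smulRight (wd (pj 0) (pj 1))

lemma Om_apply (q u v : E3) : Om q u v = q 0 * (u 1 * v 2 - u 2 * v 1) +
    q 1 * (u 2 * v 0 - u 0 * v 2) + q 2 * (u 0 * v 1 - u 1 * v 0) := rfl

lemma Om_cr (q u v : E3) : Om q u v = ⟪q, cr u v⟫ := by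
  rw [Om_apply, K12Phi_291.i3]
  simp [cr]

lemma Om_self (q u : E3) : Om q u u = 0 := by rw [Om_apply]; ring

lemma dd_Om (q u v w : E3) : dd (fun y => Om y) q u v w = 3 * Om u v w := by
  have h : fderiv ℝ (fun y => Om y) q = Om := Om.fderiv
  unfold dd
  rw [h, Om_apply, Om_apply, Om_apply]
  ring

lemma Om_zero {q u v w : E3} (hq : ‖q‖ = 1) (hu : ⟪q, u⟫ = 0) (hv : ⟪q, v⟫ = 0)
    (hw : ⟪q, w⟫ = 0) : Om u v w = 0 := by
  have hn : q 0 ^ 2 + q 1 ^ 2 + q 2 ^ 2 = 1 := by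
    rw [← K12Phi_291.n3, hq, one_pow]
  rw [K12Phi_291.i3] at hu hv hw
  rw [Om_apply]
  have h0 : q 0 * (u 0 * (v 1 * w 2 - v 2 * w 1) + u 1 * (v 2 * w 0 - v 0 * w 2) +
      u 2 * (v 0 * w 1 - v 1 * w 0)) = 0 := by
    linear_combination (v 1 * w 2 - v 2 * w 1) * hu + (w 1 * u 2 - w 2 * u 1) * hv +
      (u 1 * v 2 - u 2 * v 1) * hw
  have h1 : q 1 * (u 0 * (v 1 * w 2 - v 2 * w 1) + u 1 * (v 2 * w 0 - v 0 * w 2) +
      u 2 * (v 0 * w 1 - v 1 * w 0)) = 0 := by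
    linear_combination (v 2 * w 0 - v 0 * w 2) * hu + (w 2 * u 0 - w 0 * u 2) * hv +
      (u 2 * v 0 - u 0 * v 2) * hw
  have h2 : q 2 * (u 0 * (v 1 * w 2 - v 2 * w 1) + u 1 * (v 2 * w 0 - v 0 * w 2) +
      u 2 * (v 0 * w 1 - v 1 * w 0)) = 0 := by
    linear_combination (v 0 * w 1 - v 1 * w 0) * hu + (w 0 * u 1 - w 1 * u 0) * hv +
      (u 0 * v 1 - u 1 * v 0) * hw
  linear_combination (-(u 0 * (v 1 * w 2 - v 2 * w 1) + u 1 * (v 2 * w 0 - v 0 * w 2) +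
      u 2 * (v 0 * w 1 - v 1 * w 0))) * hn + q 0 * h0 + q 1 * h1 + q 2 * h2

/-- the first component of the retraction. -/
def P1m (z : E6) : E3 := (Pi z).1

lemma contDiffAt_P1m {z : E6} (hz : z.1 ≠ 0) : ContDiffAt ℝ ∞ P1m z := (contDiffAt_Pi hz).fst

lemma fderiv_P1m {z : E6} (hz : z.1 ≠ 0) (U : E6) : fderiv ℝ P1m z U = (fderiv ℝ Pi z U).1 := by
  have hd : HasFDerivAt Pi (fderiv ℝ Pi z) z :=
    ((contDiffAt_Pi hz).differentiableAt infty_ne_zero).hasFDerivAt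
  have h1 : HasFDerivAt P1m ((ContinuousLinearMap.fst ℝ E3 E3).comp (fderiv ℝ Pi z)) z :=
    (ContinuousLinearMap.fst ℝ E3 E3).hasFDerivAt.comp z hd
  rw [h1.fderiv]
  rfl

/-- the pull-back of the area form of the unit sphere. -/
def aS (z : E6) : B6 := pl (fderiv ℝ P1m z) (Om (P1m z))

lemma aS_apply {z : E6} (hz : z.1 ≠ 0) (U V : E6) :
    aS z U V = Om (Pi z).1 (fderiv ℝ Pi z U).1 (fderiv ℝ Pi z V).1 := by
  unfold aS
  rw [pl_apply, fderiv_P1m hz, fderiv_P1m hz]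
  rfl

lemma contDiffAt_aS {z : E6} (hz : z.1 ≠ 0) : ContDiffAt ℝ ∞ aS z := by
  unfold aS
  exact contDiffAt_pl ((contDiffAt_P1m hz).fderiv_right (m := ∞) (by simp))
    (Om.contDiff.contDiffAt.comp z (contDiffAt_P1m hz))

theorem bas_aS : Bas r aS where
  smooth := fun z hz => (contDiffAt_aS hz.1).contDiffWithinAt
  alt := fun z hz U => by rw [aS_apply hz.1, Om_self]
  closed := by
    intro z hz U V Y
    rw [dd_pullback' (b := fun y => Om y) (φ := P1m) (contDiffAt_P1m hz.1)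
      Om.differentiableAt (fun u v => alt_swap (Om_self _) u v)
      ((contDiffAt_aS hz.1).differentiableAt infty_ne_zero)
      (Filter.Eventually.of_forall fun y u v => by unfold aS; rw [pl_apply]), dd_Om,
      fderiv_P1m hz.1, fderiv_P1m hz.1, fderiv_P1m hz.1]
    rw [Om_zero (Pi_fst_norm hz.1) (K12Rprim_82.fderiv_Pi_orth hz.1 U)
      (K12Rprim_82.fderiv_Pi_orth hz.1 V) (K12Rprim_82.fderiv_Pi_orth hz.1 Y), mul_zero]
  bas := by
    intro z hz U V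
    rw [aS_apply hz.1, aS_apply (Pi_ne hz), Pi_Pi hz.1, fderiv_Pi_Pi hz.1, fderiv_Pi_Pi hz.1]

/-- on the zero section. -/
lemma aS_zero {q : E3} (hq : ‖q‖ = 1) (u v : E3) : aS (q, 0) (u, 0) (v, 0) = Om q u v := by
  have hq0 : q ≠ 0 := by
    intro h0; rw [h0, norm_zero] at hq; exact zero_ne_one hq
  have hz : ((q, 0) : E6).1 ≠ 0 := hq0
  obtain ⟨c, hc⟩ := fderiv_Pi_1 hz (u, 0)
  obtain ⟨d, hd⟩ := fderiv_Pi_1 hz (v, 0)
  rw [aS_apply hz, hc, hd, Pi_zero]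
  simp only [hq, inv_one, one_smul, Om_apply, PiLp.add_apply, PiLp.smul_apply, smul_eq_mul]
  ring

/-! ### frames -/

lemma exists_fr {q : E3} (hq : ‖q‖ = 1) : ∃ e : E3, IsFr q e := by
  have hq0 : q ≠ 0 := by
    intro h0; rw [h0, norm_zero] at hq; exact zero_ne_one hq
  have h1 : ∃ v : E3, v ≠ 0 ∧ ⟪q, v⟫ = 0 := by
    by_cases h : q 0 = 0 ∧ q 1 = 0
    · refine ⟨EuclideanSpace.single 0 1, ?_, ?_⟩
      · intro h2
        have := congrArg (fun v : E3 => v 0) h2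
        simp at this
      · rw [K12Phi_291.i3]; simp [h.1]
    · refine ⟨!₂[-q 1, q 0, 0], ?_, ?_⟩
      · intro h2
        have h3 := congrArg (fun v : E3 => v 0) h2
        have h4 := congrArg (fun v : E3 => v 1) h2
        simp at h3 h4
        exact h ⟨h4, h3⟩
      · rw [K12Phi_291.i3]; simp; ring
  obtain ⟨v, hv, hv'⟩ := h1
  refine ⟨‖v‖⁻¹ • v, hq, ?_, ?_⟩
  · rw [norm_smul, norm_inv, norm_norm, inv_mul_cancel₀ (norm_ne_zero_iff.2 hv)]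
  · rw [inner_smul_right, hv', mul_zero]

lemma cr0 (a b : E3) : cr a b 0 = a 1 * b 2 - a 2 * b 1 := rfl
lemma cr1 (a b : E3) : cr a b 1 = a 2 * b 0 - a 0 * b 2 := rfl
lemma cr2 (a b : E3) : cr a b 2 = a 0 * b 1 - a 1 * b 0 := rfl

/-- expansion in the orthonormal frame `q, e, q × e`. -/
lemma frame_exp {q e : E3} (h : IsFr q e) (v : E3) :
    v = ⟪q, v⟫ • q + ⟪e, v⟫ • e + ⟪cr q e, v⟫ • cr q e := by
  obtain ⟨hq, he, hqe⟩ := h
  have hN : q 0 ^ 2 + q 1 ^ 2 + q 2 ^ 2 = 1 := by rw [← K12Phi_291.n3, hq, one_pow]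
  have hE : e 0 ^ 2 + e 1 ^ 2 + e 2 ^ 2 = 1 := by rw [← K12Phi_291.n3, he, one_pow]
  rw [K12Phi_291.i3] at hqe
  have hD := hqe
  ext i
  simp only [K12Phi_291.i3, PiLp.add_apply, PiLp.smul_apply, smul_eq_mul, cr0, cr1, cr2]
  fin_cases i
  · show v 0 = (q 0 * v 0 + q 1 * v 1 + q 2 * v 2) * q 0 + (e 0 * v 0 + e 1 * v 1 + e 2 * v 2) * e 0 +
      ((q 1 * e 2 - q 2 * e 1) * v 0 + (q 2 * e 0 - q 0 * e 2) * v 1 +
        (q 0 * e 1 - q 1 * e 0) * v 2) * (q 1 * e 2 - q 2 * e 1)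
    linear_combination (-(v 0)) * ((q 1 ^ 2 + q 2 ^ 2) * hE + (1 - e 0 ^ 2) * hN -
      (q 0 * e 0 + q 1 * e 1 + q 2 * e 2 - 2 * q 0 * e 0) * hD) -
      v 1 * (-(q 0 * q 1) * hE - e 0 * e 1 * hN + (q 1 * e 0 + q 0 * e 1) * hD) -
      v 2 * (-(q 0 * q 2) * hE - e 0 * e 2 * hN + (q 2 * e 0 + q 0 * e 2) * hD)
  · show v 1 = (q 0 * v 0 + q 1 * v 1 + q 2 * v 2) * q 1 + (e 0 * v 0 + e 1 * v 1 + e 2 * v 2) * e 1 +
      ((q 1 * e 2 - q 2 * e 1) * v 0 + (q 2 * e 0 - q 0 * e 2) * v 1 +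
        (q 0 * e 1 - q 1 * e 0) * v 2) * (q 2 * e 0 - q 0 * e 2)
    linear_combination (-(v 1)) * ((q 0 ^ 2 + q 2 ^ 2) * hE + (1 - e 1 ^ 2) * hN -
      (q 0 * e 0 + q 1 * e 1 + q 2 * e 2 - 2 * q 1 * e 1) * hD) -
      v 0 * (-(q 0 * q 1) * hE - e 0 * e 1 * hN + (q 1 * e 0 + q 0 * e 1) * hD) -
      v 2 * (-(q 1 * q 2) * hE - e 1 * e 2 * hN + (q 2 * e 1 + q 1 * e 2) * hD)
  · show v 2 = (q 0 * v 0 + q 1 * v 1 + q 2 * v 2) * q 2 + (e 0 * v 0 + e 1 * v 1 + e 2 * v 2) * e 2 +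
      ((q 1 * e 2 - q 2 * e 1) * v 0 + (q 2 * e 0 - q 0 * e 2) * v 1 +
        (q 0 * e 1 - q 1 * e 0) * v 2) * (q 0 * e 1 - q 1 * e 0)
    linear_combination (-(v 2)) * ((q 0 ^ 2 + q 1 ^ 2) * hE + (1 - e 2 ^ 2) * hN -
      (q 0 * e 0 + q 1 * e 1 + q 2 * e 2 - 2 * q 2 * e 2) * hD) -
      v 0 * (-(q 0 * q 2) * hE - e 0 * e 2 * hN + (q 2 * e 0 + q 0 * e 2) * hD) -
      v 1 * (-(q 1 * q 2) * hE - e 1 * e 2 * hN + (q 2 * e 1 + q 1 * e 2) * hD)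

lemma Om_fr {q e : E3} (h : IsFr q e) : Om q e (cr q e) = 1 := by
  obtain ⟨hq, he, hqe⟩ := h
  have hN : q 0 ^ 2 + q 1 ^ 2 + q 2 ^ 2 = 1 := by rw [← K12Phi_291.n3, hq, one_pow]
  have hE : e 0 ^ 2 + e 1 ^ 2 + e 2 ^ 2 = 1 := by rw [← K12Phi_291.n3, he, one_pow]
  rw [K12Phi_291.i3] at hqe
  rw [Om_apply, cr0, cr1, cr2]
  linear_combination (e 0 ^ 2 + e 1 ^ 2 + e 2 ^ 2) * hN + hE -
    (q 0 * e 0 + q 1 * e 1 + q 2 * e 2) * hqe

/-! ### tangent vectors -/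

/-- the image of the differential of the retraction. -/
lemma fderiv_Pi_tan {z : E6} (hz : z.1 ≠ 0) (U : E6) :
    ⟪(Pi z).1, (fderiv ℝ Pi z U).2⟫ = - ⟪(Pi z).2, (fderiv ℝ Pi z U).1⟫ := by
  have h0 := ((contDiffAt_Pi hz).differentiableAt infty_ne_zero).hasFDerivAt
  have h1 : HasFDerivAt (fun y => (Pi y).1)
      ((ContinuousLinearMap.fst ℝ E3 E3).comp (fderiv ℝ Pi z)) z :=
    (ContinuousLinearMap.fst ℝ E3 E3).hasFDerivAt.comp z h0
  have h1' : HasFDerivAt (fun y => (Pi y).2)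
      ((ContinuousLinearMap.snd ℝ E3 E3).comp (fderiv ℝ Pi z)) z :=
    (ContinuousLinearMap.snd ℝ E3 E3).hasFDerivAt.comp z h0
  have h2 := h1.inner ℝ h1'
  have h3 : (fun y : E6 => ⟪(Pi y).1, (Pi y).2⟫) =ᶠ[𝓝 z] fun _ => (0 : ℝ) := by
    filter_upwards [K12Rprim_82.isOpen_ne.mem_nhds hz] with y hy
    exact Pi_inner hy
  have h4 : HasFDerivAt (fun y : E6 => ⟪(Pi y).1, (Pi y).2⟫) (0 : E6 →L[ℝ] ℝ) z :=
    (hasFDerivAt_const (0 : ℝ) z).congr_of_eventuallyEq h3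
  have h5 := congrArg (fun L : E6 →L[ℝ] ℝ => L U) (h2.unique h4)
  have h6 : ⟪(Pi z).1, (fderiv ℝ Pi z U).2⟫ + ⟪(fderiv ℝ Pi z U).1, (Pi z).2⟫ = 0 := by
    simpa using h5
  have h7 := real_inner_comm (Pi z).2 (fderiv ℝ Pi z U).1
  linarith

/-- tangent vectors of `T S²` in the frame. -/
lemma tan_exp {z : E6} (hz : z.1 ≠ 0) {e : E3} (he : IsFr (Pi z).1 e) (U : E6) :
    fderiv ℝ Pi z U = ⟪e, (fderiv ℝ Pi z U).1⟫ • X (Pi z) e 0 +
      ⟪cr (Pi z).1 e, (fderiv ℝ Pi z U).1⟫ • X (Pi z) e 1 +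
      ⟪e, (fderiv ℝ Pi z U).2⟫ • X (Pi z) e 2 +
      ⟪cr (Pi z).1 e, (fderiv ℝ Pi z U).2⟫ • X (Pi z) e 3 := by
  have h1 := K12Rprim_82.fderiv_Pi_orth hz U
  have h2 := fderiv_Pi_tan hz U
  generalize fderiv ℝ Pi z U = V at *
  obtain ⟨a, b⟩ := V
  simp only at h1 h2
  generalize Pi z = w at *
  obtain ⟨q, p⟩ := w
  simp only at h1 h2 he ⊢
  have ha := frame_exp he a
  have hb := frame_exp he b
  rw [h1, zero_smul, zero_add] at ha
  have hpa : ⟪p, a⟫ = ⟪e, a⟫ * ⟪p, e⟫ + ⟪cr q e, a⟫ * ⟪p, cr q e⟫ := by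
    conv_lhs => rw [ha]
    rw [inner_add_right, inner_smul_right, inner_smul_right]
  rw [h2, hpa] at hb
  refine Prod.ext ?_ ?_
  · show a = _
    simp only [X, hor, ver, Prod.smul_mk, Prod.mk_add_mk, smul_zero, add_zero]
    exact ha
  · show b = _
    simp only [X, hor, ver, Prod.smul_mk, Prod.mk_add_mk]
    refine hb.trans ?_
    module

/-! ### the angular form -/

/-- the angular form, basic. -/
def pz (z : E6) : E6 →L[ℝ] ℝ := (ps (Pi z)).comp (fderiv ℝ Pi z)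

lemma contDiffAt_ps {z : E6} (hz : z.2 ≠ 0) : ContDiffAt ℝ ∞ ps z := by
  have h1 : ContDiffAt ℝ ∞ (fun z : E6 => (‖z.2‖ ^ 2)⁻¹) z :=
    (contDiffAt_snd.norm_sq ℝ).inv (pow_ne_zero 2 (norm_ne_zero_iff.2 hz))
  have h2 : ContDiffAt ℝ ∞ (fun z : E6 => cr z.1 z.2) z := by
    have h3 : ContDiff ℝ ∞ (fun z : E6 => cr z.1 z.2) := by
      rw [contDiff_euclidean]
      intro i
      fin_cases i
      · show ContDiff ℝ ∞ (fun z : E6 => z.1 1 * z.2 2 - z.1 2 * z.2 1)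
        fun_prop
      · show ContDiff ℝ ∞ (fun z : E6 => z.1 2 * z.2 0 - z.1 0 * z.2 2)
        fun_prop
      · show ContDiff ℝ ∞ (fun z : E6 => z.1 0 * z.2 1 - z.1 1 * z.2 0)
        fun_prop
    exact h3.contDiffAt
  have h4 : ContDiffAt ℝ ∞ (fun z : E6 => (innerSL ℝ) (cr z.1 z.2)) z :=
    (innerSL ℝ).contDiff.contDiffAt.comp z h2
  exact h1.smul (h4.clm_comp contDiffAt_const)

lemma contDiffAt_pz {z : E6} (hz : z.1 ≠ 0) (hp : (Pi z).2 ≠ 0) : ContDiffAt ℝ ∞ pz z := by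
  have h1 : ContDiffAt ℝ ∞ (fun z => ps (Pi z)) z :=
    ContDiffAt.comp z (contDiffAt_ps hp) (contDiffAt_Pi hz)
  exact h1.clm_comp ((contDiffAt_Pi hz).fderiv_right (m := ∞) (by simp))

lemma pz_bas {z : E6} (hz : z.1 ≠ 0) (U : E6) : pz z U = pz (Pi z) (fderiv ℝ Pi z U) := by
  show ps (Pi z) (fderiv ℝ Pi z U) = ps (Pi (Pi z)) (fderiv ℝ Pi (Pi z) (fderiv ℝ Pi z U))
  rw [Pi_Pi hz, fderiv_Pi_Pi hz]

/-- `d ps = - area`. -/
theorem d1_pz (hR : RADF) {z : E6} (hz : z.1 ≠ 0) (hp : (Pi z).2 ≠ 0) (U V : E6) :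
    d1 pz z U V = - aS z U V := by
  have hTS : Pi z ∈ TS (‖(Pi z).2‖ + 1) := ⟨Pi_fst_norm hz, Pi_inner hz, by linarith⟩
  obtain ⟨e, he⟩ := exists_fr (Pi_fst_norm hz)
  have h1 := d1_pullback' (s := ps) (t := pz) (φ := Pi) (y := z) (contDiffAt_Pi hz)
    ((contDiffAt_ps hp).differentiableAt infty_ne_zero)
    (Filter.Eventually.of_forall fun y => rfl) U V
  have h2 := hR.psf (Pi z) _ e (fun _ => 1) hTS hp he contDiffAt_const
  simp only [one_smul, deriv_const, zero_div, neg_zero, ite_self] at h2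
  rw [h1, aS_apply hz, tan_exp hz he U, tan_exp hz he V]
  have e00 := h2 0 0
  have e01 := h2 0 1
  have e02 := h2 0 2
  have e03 := h2 0 3
  have e10 := h2 1 0
  have e11 := h2 1 1
  have e12 := h2 1 2
  have e13 := h2 1 3
  have e20 := h2 2 0
  have e21 := h2 2 1
  have e22 := h2 2 2
  have e23 := h2 2 3
  have e30 := h2 3 0
  have e31 := h2 3 1
  have e32 := h2 3 2
  have e33 := h2 3 3
  simp [en] at e00 e01 e02 e03 e10 e11 e12 e13 e20 e21 e22 e23 e30 e31 e32 e33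
  have hO := Om_fr he
  have hO' : Om (Pi z).1 (cr (Pi z).1 e) e = -1 := by
    rw [alt_swap (Om_self _), hO]
  have hOe := Om_self (Pi z).1 e
  have hOn := Om_self (Pi z).1 (cr (Pi z).1 e)
  have hX0 : (X (Pi z) e 0).1 = e := rfl
  have hX1 : (X (Pi z) e 1).1 = cr (Pi z).1 e := rfl
  have hX2 : (X (Pi z) e 2).1 = 0 := rfl
  have hX3 : (X (Pi z) e 3).1 = 0 := rfl
  simp only [Prod.fst_add, Prod.smul_fst, map_add, map_smul, add_apply, smul_apply, smul_eq_mul,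
    e00, e01, e02, e03, e10, e11, e12, e13, e20, e21, e22, e23, e30, e31, e32, e33, hX0, hX1, hX2,
    hX3, hO, hO', hOe, hOn, smul_zero, add_zero, mul_zero, zero_add]
  ring

end

end Crest.Agent.R235.NeckT3_524
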