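import Crest.Agent.R235.NeckT3_524
import Crest.Agent.R235.KumDefs_152

/-!
Row 235 (S0364), package KUM, node NECKT (helper524), part 4: the Thom form on the tube.
-/

set_option autoImplicit false
set_option maxSynthPendingDepth 3
set_option linter.unusedSectionVars false

open Set Function Filter MeasureTheory
open scoped Manifold ContDiff Topology RealInnerProductSpace

universe u

namespace Crest.Agent.R235.NeckT4_524

open Crest.Agent.R240 Crest.Agent.R240.Ch Crest.Agent.R235 Crest.Agent.R235.K12_417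
  Crest.Agent.R235.PB_604 Crest.Agent.R235.K12Ext_168 Crest.Agent.R235.NeckT1_524
  Crest.Agent.R235.NeckT2_524 Crest.Agent.R235.NeckT3_524

noncomputable section

variable {r t : ℝ}

/-- `-1/(2π)`. -/
def f0 : ℝ := -1 / (2 * Real.pi)

/-- the profile: `-1/(2π)` for `s ≤ 1/10`, `0` for `s ≥ 1/5`. -/
def ff (s : ℝ) : ℝ := f0 * ct (1 / 10) (1 / 5) s

lemma ff_smooth : ContDiff ℝ ∞ ff := contDiff_const.mul (ct_smooth _ _)

lemma ff_one {s : ℝ} (hs : s ≤ 1 / 10) : ff s = f0 := by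
  unfold ff
  rw [ct_one (by norm_num) hs, mul_one]

lemma ff_zero {s : ℝ} (hs : 1 / 5 ≤ s) : ff s = 0 := by
  unfold ff
  rw [ct_zero (by norm_num) hs, mul_zero]

/-- the smooth part of the one-form. -/
def bT (t : ℝ) (z : E6) : E6 →L[ℝ] ℝ := (f0 - ff (‖(Pi z).2‖ / t)) • pz z

/-- the Thom form. -/
def WT (t : ℝ) (z : E6) : B6 := f0 • aS z + d1 (bT t) z

lemma cont_n {z : E6} (hz : z.1 ≠ 0) (t : ℝ) : ContinuousAt (fun z => ‖(Pi z).2‖ / t) z :=
  ((contDiffAt_Pi hz).continuousAt.snd.norm).div_const t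

lemma bT_ev {z : E6} (hz : z.1 ≠ 0) (h : ‖(Pi z).2‖ / t < 1 / 10) : bT t =ᶠ[𝓝 z] fun _ => 0 := by
  filter_upwards [(cont_n hz t).eventually_lt_const h] with y hy
  show (f0 - ff (‖(Pi y).2‖ / t)) • pz y = 0
  rw [ff_one hy.le, sub_self, zero_smul]

theorem bas1_bT (t : ℝ) : Bas1 r (bT t) where
  smooth := by
    intro z hz
    by_cases hp : (Pi z).2 = 0
    · have h1 : ‖(Pi z).2‖ / t < 1 / 10 := by rw [hp, norm_zero, zero_div]; norm_num
      exact (contDiffAt_const.congr_of_eventuallyEq (bT_ev hz.1 h1)).contDiffWithinAt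
    · have h1 : ContDiffAt ℝ ∞ (fun z => ‖(Pi z).2‖ / t) z :=
        ((contDiffAt_Pi hz.1).snd.norm ℝ hp).div_const t
      have h2 : ContDiffAt ℝ ∞ (fun z => f0 - ff (‖(Pi z).2‖ / t)) z :=
        contDiffAt_const.sub (ff_smooth.contDiffAt.comp z h1)
      exact (h2.smul (contDiffAt_pz hz.1 hp)).contDiffWithinAt
  bas := by
    intro z hz U
    show (f0 - ff (‖(Pi z).2‖ / t)) • pz z U =
      (f0 - ff (‖(Pi (Pi z)).2‖ / t)) • pz (Pi z) (fderiv ℝ Pi z U)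
    rw [Pi_Pi hz.1, ← pz_bas hz.1]

theorem bas_WT (t : ℝ) : Bas r (WT t) := bas_add (bas_smul f0 bas_aS) (bas1_d1 (bas1_bT t))

lemma d1_const_smul' {E : Type} [NormedAddCommGroup E] [NormedSpace ℝ E] {s : E → E →L[ℝ] ℝ}
    {y : E} (c : ℝ) (hs : DifferentiableAt ℝ s y) (u v : E) :
    d1 (fun z => c • s z) y u v = c * d1 s y u v := by
  rw [d1_smul (differentiableAt_const c) hs]
  simp

/-- the Thom form is `d(A)`, `A = - ff(|p|/t) pz`, off the sphere. -/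
theorem WT_eq (hR : RADF) {z : E6} (hz : z.1 ≠ 0) (hp : (Pi z).2 ≠ 0) (U V : E6) :
    WT t z U V = d1 (fun y => (-ff (‖(Pi y).2‖ / t)) • pz y) z U V := by
  have hpz := (contDiffAt_pz hz hp).differentiableAt infty_ne_zero
  have h1 : ContDiffAt ℝ ∞ (fun z => ‖(Pi z).2‖ / t) z :=
    ((contDiffAt_Pi hz).snd.norm ℝ hp).div_const t
  have h2 : ContDiffAt ℝ ∞ (fun z => -ff (‖(Pi z).2‖ / t)) z := (ff_smooth.contDiffAt.comp z h1).neg
  have h3 : DifferentiableAt ℝ (fun y => (-ff (‖(Pi y).2‖ / t)) • pz y) z :=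
    (h2.differentiableAt infty_ne_zero).smul hpz
  have h4 : bT t = fun y => f0 • pz y + (-ff (‖(Pi y).2‖ / t)) • pz y := by
    funext y
    show (f0 - ff (‖(Pi y).2‖ / t)) • pz y = _
    rw [sub_eq_add_neg, add_smul]
  have h5 : d1 (bT t) z = d1 (fun y => f0 • pz y) z +
      d1 (fun y => (-ff (‖(Pi y).2‖ / t)) • pz y) z := by
    rw [h4]
    exact d1_add (hpz.const_smul f0) h3
  have h6 : d1 (bT t) z U V = d1 (fun y => f0 • pz y) z U V +
      d1 (fun y => (-ff (‖(Pi y).2‖ / t)) • pz y) z U V := by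
    rw [h5]
    rfl
  have h7 : WT t z U V = f0 * aS z U V + d1 (bT t) z U V := rfl
  rw [h7, h6, d1_const_smul' f0 hpz, d1_pz hR hz hp]
  generalize d1 (fun y => (-ff (‖(Pi y).2‖ / t)) • pz y) z U V = Q
  ring

theorem WT_vanish (hR : RADF) (ht : 0 < t) {z : E6} (hz : z ∈ TS r)
    (h : 11 / 50 * t ≤ ‖z.2‖) : WT t z = 0 := by
  have hz1 : z.1 ≠ 0 := (TS_subset_OS r hz).1
  have hPi := Pi_of_TS hz
  have hz2 : 0 < ‖z.2‖ := lt_of_lt_of_le (by positivity) h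
  have hp : (Pi z).2 ≠ 0 := by rw [hPi]; exact norm_pos_iff.1 hz2
  refine ContinuousLinearMap.ext fun U => ContinuousLinearMap.ext fun V => ?_
  rw [WT_eq hR hz1 hp]
  have h1 : (1 / 5 : ℝ) < ‖(Pi z).2‖ / t := by
    rw [hPi, lt_div_iff₀ ht]
    linarith
  have h2 : (fun y => (-ff (‖(Pi y).2‖ / t)) • pz y) =ᶠ[𝓝 z] fun _ => 0 := by
    filter_upwards [(cont_n hz1 t).eventually_const_lt h1] with y hy
    rw [ff_zero hy.le, neg_zero, zero_smul]
  rw [d1_zero_of_ev h2]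

/-! ### on the sphere -/

theorem WT_zero (t : ℝ) {q : E3} (hq : ‖q‖ = 1) (u v : E3) :
    WT t (q, 0) (u, 0) (v, 0) = f0 * Om q u v := by
  have hq0 : q ≠ 0 := by
    intro h0; rw [h0, norm_zero] at hq; exact zero_ne_one hq
  have h1 : ‖(Pi ((q, 0) : E6)).2‖ / t < 1 / 10 := by
    rw [Pi_zero, norm_zero, zero_div]; norm_num
  show f0 • aS (q, 0) (u, 0) (v, 0) + d1 (bT t) (q, 0) (u, 0) (v, 0) = _
  rw [d1_zero_of_ev (bT_ev (z := ((q, 0) : E6)) hq0 h1), aS_zero hq, smul_eq_mul]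
  show _ + 0 = _
  rw [add_zero]

theorem cyc_WT (t : ℝ) {q : E3} (hq : ‖q‖ = 1) : cyc (WT t) q = f0 := by
  have hN : q 0 ^ 2 + q 1 ^ 2 + q 2 ^ 2 = 1 := by rw [← K12Phi_291.n3, hq, one_pow]
  unfold cyc
  rw [WT_zero t hq, WT_zero t hq, WT_zero t hq, Om_apply, Om_apply, Om_apply]
  simp
  linear_combination f0 * hN

lemma sphere_real : ((volume : Measure E3).toSphere).real univ = 4 * Real.pi := by
  rw [measureReal_def, Measure.toSphere_apply_univ, EuclideanSpace.volume_ball_fin_three]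
  simp only [finrank_euclideanSpace, Fintype.card_fin]
  rw [ENNReal.ofReal_one, one_pow, one_mul, ENNReal.toReal_mul, ENNReal.toReal_ofReal (by positivity)]
  simp
  ring

/-! ### along the neck -/

lemma hh_mem {t : ℝ} (ht : 0 < t) (htr : t ≤ r) {z : E4} (hz : z ∈ KT_604.PB 1) : hh t z ∈ TS r := by
  obtain ⟨h1, h2, h3⟩ := K12Phi_291.phi.mem z t hz.1
  refine ⟨h1, h2, ?_⟩
  show ‖t • hP z‖ < r
  rw [norm_smul, h3, Real.norm_of_nonneg ht.le]
  have h4 : ‖z‖ ^ 2 < 1 := by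
    have := hz.2
    nlinarith [norm_nonneg z]
  nlinarith

lemma norm_hh {t : ℝ} (ht : 0 < t) {z : E4} (hz : z ≠ 0) : ‖(hh t z).2‖ / t = ‖z‖ ^ 2 := by
  obtain ⟨-, -, h3⟩ := K12Phi_291.phi.mem z t hz
  show ‖t • hP z‖ / t = _
  rw [norm_smul, h3, Real.norm_of_nonneg ht.le]
  field_simp

lemma Pi_hh {t : ℝ} {z : E4} (hz : z ≠ 0) : Pi (hh t z) = hh t z := by
  obtain ⟨h1, h2, -⟩ := K12Phi_291.phi.mem z t hz
  exact Pi_of_TS (r := ‖(hh t z).2‖ + 1) ⟨h1, h2, by linarith⟩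

lemma hh_ne {t : ℝ} {z : E4} (hz : z ≠ 0) : (hh t z).1 ≠ 0 := by
  obtain ⟨h1, -, -⟩ := K12Phi_291.phi.mem z t hz
  intro h
  have h2 : hQ z = 0 := h
  rw [h2, norm_zero] at h1
  exact zero_ne_one h1

lemma hh_ne2 {t : ℝ} (ht : 0 < t) {z : E4} (hz : z ≠ 0) : (hh t z).2 ≠ 0 := by
  obtain ⟨-, -, h3⟩ := K12Phi_291.phi.mem z t hz
  show t • hP z ≠ 0
  refine smul_ne_zero ht.ne' ?_
  rw [← norm_ne_zero_iff, h3]
  exact pow_ne_zero 2 (norm_ne_zero_iff.2 hz)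

lemma contDiffAt_hh {t : ℝ} {z : E4} (hz : z ≠ 0) : ContDiffAt ℝ ∞ (hh t) z :=
  (K12Phi_291.phi.smooth t).contDiffAt (isOpen_compl_singleton.mem_nhds hz)

lemma fderiv_Pi_hh {t : ℝ} {z : E4} (hz : z ≠ 0) (v : E4) :
    fderiv ℝ Pi (hh t z) (fderiv ℝ (hh t) z v) = fderiv ℝ (hh t) z v := by
  have h1 : DifferentiableAt ℝ (hh t) z := (contDiffAt_hh hz).differentiableAt infty_ne_zero
  have h2 : DifferentiableAt ℝ Pi (hh t z) :=
    (contDiffAt_Pi (hh_ne hz)).differentiableAt infty_ne_zero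
  have h3 : (fun y => Pi (hh t y)) =ᶠ[𝓝 z] hh t := by
    filter_upwards [isOpen_compl_singleton.mem_nhds hz] with w hw using Pi_hh hw
  have h5 := fderiv_comp z h2 h1
  have h6 : fderiv ℝ (Pi ∘ hh t) z = fderiv ℝ (hh t) z := h3.fderiv_eq
  rw [h6] at h5
  exact (congrArg (fun L : E4 →L[ℝ] E6 => L v) h5).symm

/-- the pull-back of the Thom form under the neck parametrisation. -/
theorem WT_hh (hR : RADF) (ht : 0 < t) {z : E4} (hz : z ≠ 0) (u v : E4) :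
    WT t (hh t z) (fderiv ℝ (hh t) z u) (fderiv ℝ (hh t) z v) =
      d1 (fun y => ff (‖y‖ ^ 2) • thL y) z u v := by
  have hne := hh_ne (t := t) hz
  have hne2 : (Pi (hh t z)).2 ≠ 0 := by rw [Pi_hh hz]; exact hh_ne2 ht hz
  have h1 : ContDiffAt ℝ ∞ (fun z => ‖(Pi z).2‖ / t) (hh t z) :=
    ((contDiffAt_Pi hne).snd.norm ℝ hne2).div_const t
  have h2 : ContDiffAt ℝ ∞ (fun z => -ff (‖(Pi z).2‖ / t)) (hh t z) :=
    (ff_smooth.contDiffAt.comp _ h1).neg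
  have h3 : DifferentiableAt ℝ (fun y => (-ff (‖(Pi y).2‖ / t)) • pz y) (hh t z) :=
    (h2.smul (contDiffAt_pz hne hne2)).differentiableAt infty_ne_zero
  rw [WT_eq hR hne hne2]
  refine (d1_pullback' (s := fun y => (-ff (‖(Pi y).2‖ / t)) • pz y)
    (t := fun y => ff (‖y‖ ^ 2) • thL y) (φ := hh t) (y := z) (contDiffAt_hh hz) h3 ?_ u v).symm
  filter_upwards [isOpen_compl_singleton.mem_nhds hz] with y hy
  have hy0 : y ≠ 0 := hy
  refine ContinuousLinearMap.ext fun w => ?_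
  show ff (‖y‖ ^ 2) • thL y w = (-ff (‖(Pi (hh t y)).2‖ / t)) • pz (hh t y) (fderiv ℝ (hh t) y w)
  have h4 : pz (hh t y) (fderiv ℝ (hh t) y w) = -(2 * ⟪qI y, w⟫ / ‖y‖ ^ 2) := by
    show ps (Pi (hh t y)) (fderiv ℝ Pi (hh t y) (fderiv ℝ (hh t) y w)) = _
    rw [fderiv_Pi_hh hy0, Pi_hh hy0]
    exact K12Phi_291.phi.pps y w t hy0 ht
  have h5 : thL y w = 2 / ‖y‖ ^ 2 * ⟪qI y, w⟫ := rfl
  rw [h4, h5, Pi_hh hy0, norm_hh ht hy0, smul_eq_mul, smul_eq_mul]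
  ring

end

end Crest.Agent.R235.NeckT4_524
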