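import Crest.Agent.R235.NeckT4_524
import Crest.Agent.R235.KumCode_766

/-!
Row 235 (S0364), package KUM, node NECKT (helper524), part 5: THE OUTPUT `neckT`: Thom forms and discs
for the removed spheres, from the tubes.
-/

set_option autoImplicit false
set_option maxSynthPendingDepth 3
set_option linter.unusedSectionVars false

open Set Function Filter MeasureTheory
open scoped Manifold ContDiff Topology RealInnerProductSpace

universe u

namespace Crest.Agent.R235.NeckT5_524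

open Crest.Agent.R240 Crest.Agent.R240.Ch Crest.Agent.R240.Int Crest.Agent.R235
  Crest.Agent.R235.K12_417
  Crest.Agent.R235.PB_604 Crest.Agent.R235.K12Ext_168 Crest.Agent.R235.NeckT1_524
  Crest.Agent.R235.NeckT2_524 Crest.Agent.R235.NeckT3_524 Crest.Agent.R235.NeckT4_524

noncomputable section

variable {M : Type u} [TopologicalSpace M] [T2Space M] [CompactSpace M]
  [ChartedSpace E4 M] [IsManifold 𝓘(ℝ, E4) ∞ M]

/-- a tube round a sphere with the neck parametrisation. -/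
structure NTube (σ : E3 → M) (φ : E4 → M) (r t : ℝ) (Ps : E6 → M) (G : M → E6) (U : Set M) :
    Prop where
  tube : K12_417.Tube σ r Ps G U
  t_pos : 0 < t
  t_le : t ≤ r
  phi : ∀ z ∈ KT_604.PB 1, φ z = Ps (hh t z)

/-! ### the intersection form -/

omit [T2Space M] [CompactSpace M] in
lemma W_zero_l (c : Bil) : W 0 c = 0 := by
  have := W_smul_left (0 : ℝ) (0 : Bil) c
  simpa using this

theorem pI_zero {F a b : Z2 M} (h : ∀ x, val a x = 0 ∨ val b x = 0) : pI F a b = 0 := by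
  let _ : MeasurableSpace M := borel M
  have _ : BorelSpace M := ⟨rfl⟩
  show ∫ x, qG (F.1.1 : F2 E4 M) (a.1.1 : F2 E4 M) (b.1.1 : F2 E4 M) x ∂(mu (F.1.1 : F2 E4 M)) = 0
  have h1 : ∀ x, qG (F.1.1 : F2 E4 M) (a.1.1 : F2 E4 M) (b.1.1 : F2 E4 M) x = 0 := by
    intro x
    unfold qG q
    rcases h x with h2 | h2
    · have h3 : at2 (a.1.1 : F2 E4 M) x = 0 := h2
      rw [h3, W_zero_l, zero_div]
    · have h3 : at2 (b.1.1 : F2 E4 M) x = 0 := h2
      rw [h3, W_comm, W_zero_l, zero_div]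
  simp only [h1, integral_zero]

/-- K3 type: the intersection form is nondegenerate. -/
theorem nondeg {F : Z2 M} (hF : Vol (F.1.1 : F2 E4 M)) (hK : K3Type F) {c : H2 M}
    (hc : ∀ b : H2 M, ip F c b = 0) : c = 0 := by
  obtain ⟨-, e, hG, -⟩ := hK
  have h1 : e.equivFun c = 0 := by
    refine KumCode_766.nondegR fun k => ?_
    have h2 := LatK_766.ip_eq hF e hG c (e k)
    rw [hc] at h2
    have h3 : (Pi.single k 1 : LatKx_766.IK → ℝ) = e.equivFun (e k) := by
      funext j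
      rw [Module.Basis.equivFun_self, Pi.single_apply]
      simp only [eq_comm]
    rw [h3]
    exact h2.symm
  exact (LinearEquiv.map_eq_zero_iff e.equivFun).1 h1

variable {σ : E3 → M} {r t : ℝ} {Ps : E6 → M} {G : M → E6} {U : Set M}

set_option maxHeartbeats 1000000 in
/-- the class of a form supported in the tube with integral `-2` over the sphere. -/
theorem cls_thom (hS : S2PRIM) {F : Z2 M} (hF : Vol (F.1.1 : F2 E4 M)) (hK : K3Type F)
    (h : K12_417.Tube σ r Ps G U) (hσ : EmbS σ) {d : H2 M}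
    (hrep : ∀ b : Z2 M, sphI σ (b.1.1 : F2 E4 M) = ip F d (cls b)) (hdd : ip F d d = -2)
    {T : Z2 M} {r1 : ℝ} (hr1 : r1 < r)
    (hT0 : ∀ x, (∀ z ∈ TS r, ‖z.2‖ ≤ r1 → x ≠ Ps z) → val T x = 0)
    (hTs : sphI σ (T.1.1 : F2 E4 M) = -2) : cls T = d := by
  have key : ∀ b : Z2 M, sphI σ (b.1.1 : F2 E4 M) = 0 → pI F T b = 0 := by
    intro b hb
    obtain ⟨a, ha, hab⟩ := exists_exact hS h hσ hr1 b hb
    have h1 : pI F T (b - a) = 0 := by
      refine pI_zero fun x => ?_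
      by_cases hx : ∀ z ∈ TS r, ‖z.2‖ ≤ r1 → x ≠ Ps z
      · exact Or.inl (hT0 x hx)
      · push Not at hx
        obtain ⟨z, hz, hz1, rfl⟩ := hx
        right
        have h2 : val (b - a) (Ps z) = val b (Ps z) - val a (Ps z) := rfl
        rw [h2, hab z hz hz1, sub_self]
    have h2 := pI_exact_right hF T ha
    have h3 := pI_add_right hF T (b - a) a
    rw [sub_add_cancel, h1, h2, add_zero] at h3
    exact h3
  obtain ⟨D, hD⟩ := cls_surj d
  have h1 : ip F d (cls T) = -2 := by rw [← hrep T]; exact hTs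
  have main : ∀ b : Z2 M, ip F (cls T - d) (cls b) = 0 := by
    intro b
    obtain ⟨l, hl⟩ : ∃ l : ℝ, l = -(1 / 2) * ip F d (cls b) := ⟨_, rfl⟩
    have e1 : cls (b - l • D) = cls b - l • d := by rw [map_sub, map_smul, hD]
    have h2 : sphI σ ((b - l • D : Z2 M).1.1 : F2 E4 M) = 0 := by
      rw [hrep (b - l • D), e1, ip_sub_right hF, ip_smul_right hF, hdd, hl]
      ring
    have h3 := key (b - l • D) h2
    rw [← ip_cls hF, e1, ip_sub_right hF, ip_smul_right hF, ip_comm F (cls T) d, h1, hl] at h3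
    rw [ip_sub_left hF]
    linarith
  have h4 : cls T - d = 0 := by
    refine nondeg hF hK fun c => ?_
    obtain ⟨b, hb⟩ := cls_surj c
    rw [← hb]
    exact main b
  exact sub_eq_zero.1 h4

/-! ### the Thom form -/

/-- the differential of the neck parametrisation. -/
theorem dmap_phi {φ : E4 → M} (h : NTube σ φ r t Ps G U) {z : E4} (hz : z ∈ KT_604.PB 1) (v : E4) :
    dmap φ z v = D1 E6 E4 Ps (hh t z) (fderiv ℝ (hh t) z v) := by
  have hzO := TS_subset_OS r (hh_mem h.t_pos h.t_le hz)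
  have h1 := smoothAt h.tube hzO
  have h2 := mem_chart_source E4 (Ps (hh t z))
  have h3 : DifferentiableAt ℝ (mrep E6 E4 (hh t z) (Ps (hh t z)) Ps) (hh t z) :=
    (mrep_smooth h1 (mem_chart_source E6 (hh t z)) h2).differentiableAt infty_ne_zero
  have hopen : IsOpen (KT_604.PB 1) := by
    have h4 : KT_604.PB 1 = {0}ᶜ ∩ Metric.ball (0 : E4) 1 := by
      ext y
      simp [KT_604.PB]
    rw [h4]
    exact isOpen_compl_singleton.inter Metric.isOpen_ball
  have h4 : (fun y : E4 => chartAt E4 (φ z) (φ y)) =ᶠ[𝓝 z] fun y : E4 =>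
      mrep E6 E4 (hh t z) (Ps (hh t z)) Ps (hh t y) := by
    filter_upwards [hopen.mem_nhds hz] with y hy
    rw [h.phi y hy, h.phi z hz]
    rfl
  have h5 : DifferentiableAt ℝ (hh t) z := (contDiffAt_hh hz.1).differentiableAt infty_ne_zero
  have h6 : HasFDerivAt (fun y : E4 => mrep E6 E4 (hh t z) (Ps (hh t z)) Ps (hh t y))
      ((fderiv ℝ (mrep E6 E4 (hh t z) (Ps (hh t z)) Ps) (hh t z)).comp (fderiv ℝ (hh t) z)) z :=
    HasFDerivAt.comp z (g := mrep E6 E4 (hh t z) (Ps (hh t z)) Ps) h3.hasFDerivAt h5.hasFDerivAt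
  show fderiv ℝ (fun y : E4 => chartAt E4 (φ z) (φ y)) z v = _
  rw [h4.fderiv_eq, h6.fderiv]
  rfl

theorem exists_thom (hS : S2PRIM) (hR : RADF) {F : Z2 M} (hF : Vol (F.1.1 : F2 E4 M))
    (hK : K3Type F) {φ : E4 → M} (h : NTube σ φ r t Ps G U) (hσ : EmbS σ) {d : H2 M}
    (hrep : ∀ b : Z2 M, sphI σ (b.1.1 : F2 E4 M) = ip F d (cls b)) (hdd : ip F d d = -2) :
    ∃ T : Z2 M, cls T = d ∧ (∀ x, x ∉ im σ → (∀ z ∈ KT_604.PB (1 / 2), x ≠ φ z) → val T x = 0) ∧
      ∀ z ∈ KT_604.PB 1, ∀ u v, val T (φ z) (dmap φ z u) (dmap φ z v) =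
        d1 (fun y => ff (‖y‖ ^ 2) • thL y) z u v := by
  have ht := h.t_pos
  have htr := h.t_le
  have hr1 : 11 / 50 * t < r := by linarith
  obtain ⟨T, hT0, hT⟩ := K12Ext2_168.ext2 M σ r Ps G U h.tube (WT t) (11 / 50 * t) hr1 (bas_WT t)
    (fun z hz hz2 => WT_vanish hR ht hz hz2)
  have hTs : sphI σ (T.1.1 : F2 E4 M) = -2 := by
    rw [sphI_eq h.tube hσ]
    have h1 : ∀ y : Metric.sphere (0 : E3) 1, cyc (P2 Ps (T.1.1 : F2 E4 M)) y = f0 := by
      intro y
      have hy : ‖(y : E3)‖ = 1 := by simp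
      have hy0 : (y : E3) ≠ 0 := by
        intro h0; rw [h0, norm_zero] at hy; exact zero_ne_one hy
      rw [← cyc_WT t hy]
      unfold cyc
      rw [hT _ (mem_OS_zero h.tube.r_pos hy0)]
    simp only [h1]
    rw [integral_const, sphere_real, smul_eq_mul]
    unfold f0
    have := Real.pi_ne_zero
    field_simp
    norm_num
  refine ⟨T, cls_thom hS hF hK h.tube hσ hrep hdd hr1 hT0 hTs, ?_, ?_⟩
  · intro x hx1 hx2
    refine hT0 x fun z hz hz2 hxz => ?_
    obtain ⟨q, p⟩ := z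
    have hz' := hz
    obtain ⟨hq, hqp, -⟩ := hz
    simp only at hq hqp hz2
    by_cases hp : p = 0
    · subst hp
      rw [h.tube.zero q hq] at hxz
      exact hx1 ⟨q, by simpa using hq, hxz.symm⟩
    · obtain ⟨z, hz0, hzz⟩ := K12Phi_291.phi.surj q p t hq hqp hp ht
      have h1 := norm_hh ht hz0
      rw [hzz] at h1
      have h2 : ‖z‖ ^ 2 ≤ 11 / 50 := by
        rw [← h1, div_le_iff₀ ht]
        exact hz2
      have h3 : ‖z‖ < 1 / 2 := by nlinarith [norm_nonneg z]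
      have h4 : z ∈ KT_604.PB (1 / 2) := ⟨hz0, h3⟩
      have h5 : z ∈ KT_604.PB 1 := ⟨hz0, by linarith⟩
      refine hx2 z h4 ?_
      rw [h.phi z h5, hzz, hxz]
  · intro z hz u v
    have hzO := TS_subset_OS r (hh_mem ht htr hz)
    rw [dmap_phi h hz, dmap_phi h hz, h.phi z hz, ← WT_hh hR ht hz.1]
    have h1 := hT (hh t z) hzO
    rw [← h1]
    rfl

/-! ### the disc -/

theorem exists_disc {φ : E4 → M} (h : NTube σ φ r t Ps G U) :
    ∃ (v : E4) (D : Ep → M) (r₀ : ℝ), ‖v‖ = 1 ∧ 0 < r₀ ∧ r₀ ≤ 1 ∧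
    ContMDiffOn 𝓘(ℝ, Ep) 𝓘(ℝ, E4) ∞ D (Metric.ball 0 r₀) ∧ D 0 ∈ im σ ∧
    ∀ r t : ℝ, 0 < r → r < r₀ →
      D (WithLp.toLp 2 ![r * Real.cos t, r * Real.sin t]) =
        φ (√r • (Real.cos (t / 2) • v + Real.sin (t / 2) • qi v)) := by
  have ht := h.t_pos
  have htr := h.t_le
  set q0 : E3 := !₂[1, 0, 0] with hq0
  have hq : ‖q0‖ = 1 := by
    have h1 : ‖q0‖ ^ 2 = 1 := by
      rw [K12Phi_291.n3, hq0]; simp
    exact (pow_eq_one_iff_of_nonneg (norm_nonneg _) two_ne_zero).1 h1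
  set L : Ep → E6 := fun y => (q0, t • !₂[0, y 1, y 0]) with hL
  have hLs : ContDiff ℝ ∞ L := by
    refine contDiff_const.prodMk ?_
    have h1 : ContDiff ℝ ∞ (fun y : Ep => (!₂[0, y 1, y 0] : E3)) := by
      rw [contDiff_euclidean]
      intro i
      fin_cases i
      · exact contDiff_const
      · show ContDiff ℝ ∞ (fun y : Ep => y 1)
        fun_prop
      · show ContDiff ℝ ∞ (fun y : Ep => y 0)
        fun_prop
    exact (contDiff_const (c := t)).smul h1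
  have hLm : ∀ y ∈ Metric.ball (0 : Ep) 1, L y ∈ TS r := by
    intro y hy
    have h1 : ‖y‖ < 1 := by simpa using hy
    refine ⟨hq, ?_, ?_⟩
    · show ⟪q0, t • (!₂[0, y 1, y 0] : E3)⟫ = 0
      rw [inner_smul_right, K12Phi_291.i3, hq0]
      simp
    · show ‖t • (!₂[0, y 1, y 0] : E3)‖ < r
      have h2 : ‖(!₂[0, y 1, y 0] : E3)‖ ^ 2 = ‖y‖ ^ 2 := by
        rw [K12Phi_291.n3, EuclideanSpace.norm_sq_eq, Fin.sum_univ_two]
        simp
        ring
      have h3 : ‖(!₂[0, y 1, y 0] : E3)‖ = ‖y‖ :=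
        (pow_left_inj₀ (norm_nonneg _) (norm_nonneg _) two_ne_zero).1 h2
      rw [norm_smul, Real.norm_of_nonneg ht.le, h3]
      nlinarith [norm_nonneg y]
  refine ⟨!₂[1, 0, 0, 0], fun y => Ps (L y), 1, ?_, one_pos, le_rfl, ?_, ?_, ?_⟩
  · have h1 : ‖(!₂[1, 0, 0, 0] : E4)‖ ^ 2 = 1 := by
      rw [K12Phi_291.n4]; simp
    exact (pow_eq_one_iff_of_nonneg (norm_nonneg _) two_ne_zero).1 h1
  · intro y hy
    have h1 : ContMDiffAt 𝓘(ℝ, Ep) 𝓘(ℝ, E6) ∞ L y := hLs.contMDiff.contMDiffAt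
    have h2 := smoothAt h.tube (TS_subset_OS r (hLm y hy))
    exact (ContMDiffAt.comp y h2 h1).contMDiffWithinAt
  · refine ⟨q0, by simpa using hq, ?_⟩
    rw [← h.tube.zero q0 hq]
    have h1 : L 0 = (q0, 0) := by
      rw [hL]
      refine Prod.ext rfl ?_
      ext i
      fin_cases i <;> simp
    show Ps (q0, 0) = Ps (L 0)
    rw [h1]
  · intro ρ θ hρ hρ1
    set c := Real.cos (θ / 2) with hc
    set s := Real.sin (θ / 2) with hs
    have hcs : c ^ 2 + s ^ 2 = 1 := Real.cos_sq_add_sin_sq (θ / 2)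
    have hsq : √ρ ^ 2 = ρ := Real.sq_sqrt hρ.le
    set z : E4 := √ρ • (c • (!₂[1, 0, 0, 0] : E4) + s • qi !₂[1, 0, 0, 0]) with hz
    have z0 : z 0 = √ρ * c := by rw [hz]; simp [qi]
    have z1 : z 1 = √ρ * s := by rw [hz]; simp [qi]
    have z2 : z 2 = 0 := by rw [hz]; simp [qi]
    have z3 : z 3 = 0 := by rw [hz]; simp [qi]
    have hzn : ‖z‖ ^ 2 = ρ := by
      rw [K12Phi_291.n4, z0, z1, z2, z3]
      linear_combination hsq * (c ^ 2 + s ^ 2) + ρ * hcs
    have hzne : z ≠ 0 := by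
      intro h0
      rw [h0, norm_zero] at hzn
      norm_num at hzn
      exact hρ.ne hzn
    have hzB : z ∈ KT_604.PB 1 := by
      refine ⟨hzne, ?_⟩
      have := norm_nonneg z
      nlinarith
    rw [h.phi z hzB]
    have hLz : L (WithLp.toLp 2 ![ρ * Real.cos θ, ρ * Real.sin θ]) = hh t z := by
      refine Prod.ext ?_ ?_
      · show q0 = hQ z
        have h1 : hQ z = (‖z‖ ^ 2)⁻¹ • !₂[z 0 ^ 2 + z 1 ^ 2 - z 2 ^ 2 - z 3 ^ 2,
          2 * (z 1 * z 2 - z 0 * z 3), 2 * (z 1 * z 3 + z 0 * z 2)] := rfl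
        have h2 : z 0 ^ 2 + z 1 ^ 2 = ρ := by rw [← hzn, K12Phi_291.n4, z2, z3]; ring
        rw [h1, hzn, hq0, z2, z3]
        ext i
        fin_cases i
        · show (1 : ℝ) = ρ⁻¹ * (z 0 ^ 2 + z 1 ^ 2 - 0 ^ 2 - 0 ^ 2)
          rw [h2]
          field_simp
          ring
        · show (0 : ℝ) = ρ⁻¹ * (2 * (z 1 * 0 - z 0 * 0))
          ring
        · show (0 : ℝ) = ρ⁻¹ * (2 * (z 1 * 0 + z 0 * 0))
          ring
      · show t • (!₂[0, (WithLp.toLp 2 ![ρ * Real.cos θ, ρ * Real.sin θ] : Ep) 1,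
          (WithLp.toLp 2 ![ρ * Real.cos θ, ρ * Real.sin θ] : Ep) 0] : E3) = t • hP z
        congr 1
        have h1 : hP z = !₂[2 * (z 1 * z 3 - z 0 * z 2), 2 * (z 2 * z 3 + z 0 * z 1),
          z 0 ^ 2 - z 1 ^ 2 - z 2 ^ 2 + z 3 ^ 2] := rfl
        have hθ : θ = 2 * (θ / 2) := by ring
        have h2 : Real.cos θ = c ^ 2 - s ^ 2 := by
          rw [hθ, Real.cos_two_mul, ← hc]
          linear_combination hcs
        have h3 : Real.sin θ = 2 * s * c := by
          rw [hs, hc, ← Real.sin_two_mul]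
          congr 1
        rw [h1, z0, z1, z2, z3]
        ext i
        fin_cases i
        · show (0 : ℝ) = 2 * (√ρ * s * 0 - √ρ * c * 0)
          ring
        · show ρ * Real.sin θ = 2 * (0 * 0 + √ρ * c * (√ρ * s))
          rw [h3]
          linear_combination (-(2 * s * c)) * hsq
        · show ρ * Real.cos θ = (√ρ * c) ^ 2 - (√ρ * s) ^ 2 - 0 ^ 2 + 0 ^ 2
          rw [h2]
          linear_combination (-(c ^ 2 - s ^ 2)) * hsq
    show Ps (L _) = _
    rw [hLz]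

/-- **THE OUTPUT**: Thom forms and discs. -/
theorem neckT (hS : S2PRIM) (hR : RADF) {w : Trip M} (hw : Pos3 w) (hK : K3Type (w 0)) {m : ℕ}
    (K : Neck M m) (σ : Fin m → E3 → M) (d : Fin m → H2 M) (r t : Fin m → ℝ) (Ps : Fin m → E6 → M)
    (G : Fin m → M → E6) (U : Fin m → Set M)
    (h : ∀ i, NTube (σ i) (K.phi i) (r i) (t i) (Ps i) (G i) (U i)) (hσ : ∀ i, EmbS (σ i))
    (hC : ∀ i, K.C i = im (σ i))
    (hrep : ∀ i (b : Z2 M), sphI (σ i) (b.1.1 : F2 E4 M) = ip (w 0) (d i) (cls b))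
    (hdd : ∀ i, ip (w 0) (d i) (d i) = -2) : NeckT K d where
  thom := by
    intro i
    obtain ⟨T, h1, h2, h3⟩ := exists_thom hS hR (hw.vol 0) hK (h i) (hσ i) (hrep i) (hdd i)
    refine ⟨T, h1, fun x hx => h2 x (by rwa [← hC i]), ff, ff_smooth,
      ⟨1 / 10, by norm_num, fun s hs => ff_one hs.le⟩, fun s hs => ff_zero (by linarith), h3⟩
  disc := by
    intro i
    obtain ⟨v, D, r₀, h1, h2, h3, h4, h5, h6⟩ := exists_disc (h i)
    exact ⟨v, D, r₀, h1, h2, h3, h4, by rw [hC i]; exact h5, h6⟩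

end

end Crest.Agent.R235.NeckT5_524
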