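import Crest.Agent.R235.SWJDok_930
import Crest.Agent.R235.Mdl3_399
import Crest.Agent.R235.QSTri_451
import Crest.Agent.R235.H1Fin_692

/-!
# Row 235 (S0364), PACKAGE SW (helper930): leaf (M9), the Jacobian data of a positive triple

* `ker_iff`   : over `inner = at2 (gg e)`, the kernel of `B` of the Hodge pair `pairH (qs he hin) s` =
                the closed and coclosed one-forms;
* `kerH_tri`  : `KerH S s`, if `S.H.B` is this operator;
* `exists_jd_tri` : `∃ b, ∃ j : JD M κ b, j.OK S`; `exists_jd_bas` : the same for a given `H1Bas`.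
-/

set_option autoImplicit false
set_option maxSynthPendingDepth 3
set_option linter.unusedSectionVars false

open Set Function Filter MeasureTheory Bundle
open scoped Manifold ContDiff Topology ENNReal
open Crest.GeometryTopology.CoordMetric Crest.GeometryTopology.ChartCurvature
  Crest.GeometryTopology.PointedLimit
open Crest.Agent.R202.Tens Crest.Agent.R247.Bo84 Crest.Agent.R249.Vf281
open Crest.Agent.R249.Tz2_805 Crest.Agent.R249.Tz805 Crest.Agent.R249.Idx789

namespace Crest.Agent.R235.SWJDok_930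

open Crest.Agent.R240 Crest.Agent.R240.Ch Crest.Agent.R240.Int
open Crest.Agent.R235.HodgeAbs_194 (Spl)
open Crest.Agent.R235.Hodge_194 Crest.Agent.R235.DichProps_723
open Crest.Agent.R235.SWDefs_53
open Crest.Agent.R235.IndTri_451 (IsTri gg II und)
open Crest.Agent.R235.QSTri_451 (qs)
open Crest.Agent.R235.Ind167 (QS pairH)

noncomputable section

/-- the frame of the self-dual forms of a triple. -/
theorem fr_of {M : Type} [TopologicalSpace M] [ChartedSpace E4 M] [IsManifold 𝓘(ℝ, E4) ∞ M]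
    {w e : Fin 3 → F2 E4 M} (h : IsTri w e) : Fr (e 0) e where
  smF := h.smooth 0
  ne x := h.W_e_ne 0 x
  sm := h.smooth
  orth i j x := by rw [h.W_e i j x, h.W_e 0 0 x, if_pos rfl]

variable {M : Type} [MetricSpace M] [CompactSpace M]
  [ChartedSpace (EuclideanSpace ℝ (Fin 4)) M] [IsManifold (𝓡 4) ∞ M]
  [RiemannianBundle (fun p : M => TangentSpace (𝓡 4) p)]
  [IsContMDiffRiemannianBundle (𝓡 4) ∞ (EuclideanSpace ℝ (Fin 4))
    (fun p : M => TangentSpace (𝓡 4) p)]
  [IsRiemannianManifold (𝓡 4) M] [MeasurableSpace M] [BorelSpace M]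
  [SecondCountableTopology M] [Nonempty M]

section ker

variable {κ : Type} [Fintype κ] (s : PF 4 M κ) {w e : Fin 3 → F2 E4 M} (he : IsTri w e)
  (hin : ∀ (x : M) (u v : TangentSpace 𝓘(ℝ, E4) x), inner ℝ u v = at2 (gg e) x u v)

include hin in
theorem flG_shp (a : F1 E4 M) : RiemB_399.flG (gg e) (shp s a) = a := by
  funext z
  refine ContinuousLinearMap.ext fun v => ?_
  exact (hin z (shp s a z) v).symm.trans (inner_shp s a z v)

theorem opB_zero' (a : X1 M) (z : M) :
    opB (pairH (qs he hin) s).D1 (pairH (qs he hin) s).cc (cof s a.1) 0 z = - (δL s a).1 z :=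
  Mdl3_399.opB_zero (qs he hin) s (smU_cof s a.2) (sec_cof s a.1) z

theorem opB_succ' (a : X1 M) (b : Fin 3) (z : M) :
    opB (pairH (qs he hin) s).D1 (pairH (qs he hin) s).cc (cof s a.1) b.succ z =
      - (2 * qG (e 0) (e b) (dL a).1 z) := by
  have h1 := Mdl3_399.opB_q hin (RiemD_399.QT.of_tri he) s (QSTri_451.met_gg he)
    (fun b x => (he.smooth b).1 x) (fun b x u v => he.e_eq b x u v) (smU_cof s a.2)
    (sec_cof s a.1) b z (he.W_e_ne 0 z)
  refine Eq.trans h1 ?_
  have h2 : RiemB_399.flG (gg e) (fieldOf s (cof s a.1)) = a.1 := flG_shp s hin a.1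
  rw [h2]
  rfl

/-- **the kernel of `B` = the harmonic one-forms.** -/
theorem ker_iff (a : X1 M) :
    (∀ k z, opB (pairH (qs he hin) s).D1 (pairH (qs he hin) s).cc (cof s a.1) k z = 0) ↔
      δL s a = 0 ∧ dL a = 0 := by
  constructor
  · intro h
    refine ⟨?_, ?_⟩
    · apply Subtype.ext
      funext z
      have h1 := h 0 z
      rw [opB_zero' s he hin] at h1
      exact neg_eq_zero.1 h1
    · have hm : dL a ∈ SDm (e 0) e := by
        rw [mem_SDm]
        intro i z
        have h1 := h i.succ z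
        rw [opB_succ' s he hin] at h1
        rw [qG_comm]
        linarith
      exact (fr_of he).spl.def2 _ hm (IL_stokes (fr_of he).vol a (dL_closed a))
  · rintro ⟨h1, h2⟩ k z
    refine Fin.cases ?_ (fun b => ?_) k
    · rw [opB_zero' s he hin, h1]
      exact neg_zero
    · rw [opB_succ' s he hin, h2]
      have h3 : qG (e 0) (e b) ((0 : X2 M) : F2 E4 M) z = 0 := by
        have := qG_smul_right (e 0) 0 (e b) (0 : F2 E4 M) z
        rw [zero_smul, zero_mul] at this
        exact this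
      rw [h3, mul_zero, neg_zero]

end ker

section jd

variable [ConnectedSpace M] {κ0 κ1 κ : Type} [Fintype κ0] [Fintype κ1] [Fintype κ]
  {S : SWS M κ0 κ1 κ} {T : ToF 4 M} {s : PF 4 M κ} {w e : Fin 3 → F2 E4 M} (he : IsTri w e)
  (hin : ∀ (x : M) (u v : TangentSpace 𝓘(ℝ, E4) x), inner ℝ u v = at2 (gg e) x u v)

theorem kerH_tri (hB : ∀ v : κ → M → ℝ,
    S.H.B v = opB (pairH (qs he hin) s).D1 (pairH (qs he hin) s).cc v) : KerH S s := by
  intro a
  rw [hB]
  exact ker_iff s he hin a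

/-- **(M9)** the Jacobian data of a given integral basis of `H¹`. -/
theorem exists_jd_bas (hp : ∀ A B z, S.DT.p A B z = tanP s A B z)
    (hs : ∀ A z, S.s A z = T.toF z (s.s A z))
    (hB : ∀ v : κ → M → ℝ,
      S.H.B v = opB (pairH (qs he hin) s).D1 (pairH (qs he hin) s).cc v)
    {b : ℕ} {σ : Fin b → F1 E4 M} (hσ : H1Bas σ) : ∃ j : JD M κ b, j.OK S :=
  exists_jd hp hs (kerH_tri he hin hB) hσ

/-- **(M9)** the Jacobian data of a given integral basis of `H¹`, with the forms. -/
theorem exists_jd_bas_al (hp : ∀ A B z, S.DT.p A B z = tanP s A B z)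
    (hs : ∀ A z, S.s A z = T.toF z (s.s A z))
    (hB : ∀ v : κ → M → ℝ,
      S.H.B v = opB (pairH (qs he hin) s).D1 (pairH (qs he hin) s).cc v)
    {b : ℕ} {σ : Fin b → F1 E4 M} (hσ : H1Bas σ) :
    ∃ (j : JD M κ b) (α : Fin b → X1 M) (f : Fin b → CFn M), j.OK S ∧
      (∀ i, (α i : F1 E4 M) = σ i - dF (f i).1) ∧ (∀ i, δL s (α i) = 0) ∧ (∀ i, dL (α i) = 0) ∧
      ∀ i, j.al i = cof s (α i).1 :=
  exists_jd_al hp hs (kerH_tri he hin hB) hσ

/-- **(M9)** the Jacobian data of a positive triple. -/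
theorem exists_jd_tri (hp : ∀ A B z, S.DT.p A B z = tanP s A B z)
    (hs : ∀ A z, S.s A z = T.toF z (s.s A z))
    (hB : ∀ v : κ → M → ℝ,
      S.H.B v = opB (pairH (qs he hin) s).D1 (pairH (qs he hin) s).cc v) :
    ∃ (b : ℕ) (j : JD M κ b), j.OK S := by
  obtain ⟨b, σ, hσ⟩ := H1Fin_692.h1bas M
  exact ⟨b, exists_jd_bas he hin hp hs hB hσ⟩

end jd

end

end Crest.Agent.R235.SWJDok_930
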