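import Crest.Agent.R235.RC7_723
import Crest.Agent.R235.FamTop_307
import Crest.Agent.R235.SwsL_755
import Crest.Agent.R235.SWJDt_930

/-!
Row 235 (S0364), block FAM, leaf NUMJ (helper723): **`numJ S j = K1 * ∫ α_0 ∧ α_1 ∧ α_2 ∧ α_3`**.

`S = swsQ T P Jf Kt H` (helper755), `Twf q P Jf Kt`, `F(u,v) = ⟨I_0 u, v⟩`, `j.al i = cof P.s (α i)`:

* `L4_eq`, `sum_L4` : the integrand of `numJ` is `- 96 (2π)⁴ vol_F (X)`;
* `numJ_eq`         : `numJ S j = - 96 (2π)⁴ pI F (α_0∧α_1) (α_2∧α_3)`.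
-/

set_option autoImplicit false
set_option maxSynthPendingDepth 3
set_option linter.unusedSectionVars false
set_option linter.unusedVariables false
set_option maxHeartbeats 1000000

open Set Function Filter MeasureTheory Bundle
open Matrix hiding J
open scoped Manifold ContDiff Topology ENNReal

namespace Crest.Agent.R235.NumJ_723

open Crest.Agent.R240 Crest.Agent.R240.Ch Crest.Agent.R240.Int
open Crest.Agent.R249.Tv57 (Dat OpPair)
open Crest.Agent.R249.Vf281 Crest.Agent.R249.Tz2_805 Crest.Agent.R249.Tz805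
open Crest.Agent.R235.Ind167 Crest.Agent.R235.Mdl2_755 Crest.Agent.R235.SymQ_755
open Crest.Agent.R235.SWDefs_53 Crest.Agent.R235.SwsQ_755
open Crest.Agent.R235.RiemC_399 Crest.Agent.R235.RC7_723
open Crest.Agent.R235.IndVol_57 (Cpt)
open Crest.Agent.R235.Hodge_194 (cof shp inner_shp)
open Crest.Agent.R235.FamTop_307 (bJ L4 numJ)

noncomputable section

variable {M : Type} [MetricSpace M] [CompactSpace M] [ConnectedSpace M]
  [ChartedSpace (EuclideanSpace ℝ (Fin 4)) M] [IsManifold (𝓡 4) ∞ M]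
  [RiemannianBundle (fun p : M => TangentSpace (𝓡 4) p)]
  [IsContMDiffRiemannianBundle (𝓡 4) ∞ (EuclideanSpace ℝ (Fin 4))
    (fun p : M => TangentSpace (𝓡 4) p)]
  [IsRiemannianManifold (𝓡 4) M] [MeasurableSpace M] [BorelSpace M]
  [SecondCountableTopology M] [Nonempty M]
  {κ κ0 κ1 : Type} [Fintype κ] [Fintype κ0] [Fintype κ1]

variable {T : ToF 4 M} {P : CPair 4 M κ κ0 κ1} {Jf : κ0 → κ0 → M → ℝ}
  {Kt : Fin 3 → κ0 → κ0 → M → ℝ} {DL : Dat 4 M (Fin 4)} {DT : Dat 4 M κ} {H : OpPair DL DT}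
  {q : QS M}

/-- the vector fields. -/
def XX (P : CPair 4 M κ κ0 κ1) (j : JD M κ 4) (z : M) (i : Fin 4) :
    TangentSpace (𝓡 4) z := ∑ A, j.al i A z • P.s.s A z

theorem bJ_eq (j : JD M κ 4) (i : Fin 4) (x : κ1) (y : κ0) (z : M) :
    bJ (swsQ T P Jf Kt H) j i x y z = 2 * Real.pi * bm P Jf z (XX P j z) i x y := by
  unfold bJ
  congr 1
  exact sum_al (fun A => j.al i A z) x y

theorem L4_eq (j : JD M κ 4) (i k l m : Fin 4) (y y' : κ0) (z : M) :
    L4 (swsQ T P Jf Kt H) j i k l m y y' z = (2 * Real.pi) ^ 4 *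
      ((bm P Jf z (XX P j z) i)ᵀ * bm P Jf z (XX P j z) k * (bm P Jf z (XX P j z) l)ᵀ *
        bm P Jf z (XX P j z) m) y y' := by
  unfold L4
  simp only [bJ_eq]
  have h : ((bm P Jf z (XX P j z) i)ᵀ * bm P Jf z (XX P j z) k * (bm P Jf z (XX P j z) l)ᵀ *
        bm P Jf z (XX P j z) m) y y' = ∑ x, ∑ y1, ∑ x1, bm P Jf z (XX P j z) i x y *
          bm P Jf z (XX P j z) k x y1 * bm P Jf z (XX P j z) l x1 y1 *
            bm P Jf z (XX P j z) m x1 y' := by
    rw [Matrix.mul_apply]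
    simp only [Matrix.mul_apply, Matrix.transpose_apply, Finset.sum_mul]
    have e1 : ∀ x1 : κ1, ∑ y1, ∑ x, bm P Jf z (XX P j z) i x y *
          bm P Jf z (XX P j z) k x y1 * bm P Jf z (XX P j z) l x1 y1 *
            bm P Jf z (XX P j z) m x1 y' = ∑ x, ∑ y1, bm P Jf z (XX P j z) i x y *
          bm P Jf z (XX P j z) k x y1 * bm P Jf z (XX P j z) l x1 y1 *
            bm P Jf z (XX P j z) m x1 y' := fun x1 => Finset.sum_comm
    simp only [e1]
    rw [Finset.sum_comm]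
    exact Finset.sum_congr rfl fun x _ => Finset.sum_comm
  rw [h, Finset.mul_sum]
  refine Finset.sum_congr rfl fun x _ => ?_
  rw [Finset.mul_sum]
  refine Finset.sum_congr rfl fun y1 _ => ?_
  rw [Finset.mul_sum]
  refine Finset.sum_congr rfl fun x1 _ => ?_
  ring

/-- the integrand of `numJ`. -/
theorem sum_L4 (j : JD M κ 4) (z : M) :
    ∑ σ : Equiv.Perm (Fin 4), ((Equiv.Perm.sign σ : ℤ) : ℝ) *
      ∑ y, L4 (swsQ T P Jf Kt H) j (σ 0) (σ 1) (σ 2) (σ 3) y y z = (2 * Real.pi) ^ 4 *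
      (alt4 (fun i => (bm P Jf z (XX P j z) i)ᵀ) (fun i => bm P Jf z (XX P j z) i)).trace := by
  unfold alt4
  rw [Matrix.trace_sum, Finset.mul_sum]
  refine Finset.sum_congr rfl fun σ _ => ?_
  rw [Matrix.trace_smul, smul_eq_mul, mul_left_comm]
  congr 1
  rw [Matrix.trace, Finset.mul_sum]
  exact Finset.sum_congr rfl fun y _ => L4_eq j _ _ _ _ y y z

variable (h : Twf q P Jf Kt) {F : Z2 M} {J' : EndF E4 M} (hC : Cpt (F.1.1 : F2 E4 M) J')
  (hF : ∀ (x : M) (u v : TangentSpace (𝓡 4) x), at2 (F.1.1 : F2 E4 M) x u v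
    = inner ℝ (q.op 0 x u) v)
  (j : JD M κ 4) {α : Fin 4 → F1 E4 M} (hα : ∀ i, j.al i = cof P.s (α i))

include h hC hF hα in
theorem density (z : M) :
    ∑ σ : Equiv.Perm (Fin 4), ((Equiv.Perm.sign σ : ℤ) : ℝ) *
      ∑ y, L4 (swsQ T P Jf Kt H) j (σ 0) (σ 1) (σ 2) (σ 3) y y z =
      (-96 * (2 * Real.pi) ^ 4) *
        (2 * qG (F.1.1 : F2 E4 M) (wedG (α 0) (α 1)) (wedG (α 2) (α 3)) z) := by
  obtain ⟨j0, j1, b, hb⟩ := h.pt z
  have h1 : 2 * qG (F.1.1 : F2 E4 M) (wedG (α 0) (α 1)) (wedG (α 2) (α 3)) z =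
      volF (F.1.1 : F2 E4 M) z (XX P j z) := by
    refine volF_wed hb (XX P j z) (hF z) (α := fun i => at1 (α i) z) ?_ (hC.vol.ne z)
    intro i v
    have h2 : XX P j z i = shp P.s (α i) z := by
      unfold XX
      rw [hα i]
      rfl
    rw [h2, inner_shp]
  rw [sum_L4, trace_vol hb (XX P j z) (hF z), h1]
  ring

include h hC hF hα in
/-- **NUMJ** -/
theorem numJ_eq {a b : Z2 M} (ha : (a.1.1 : F2 E4 M) = wedG (α 0) (α 1))
    (hb : (b.1.1 : F2 E4 M) = wedG (α 2) (α 3)) :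
    numJ (swsQ T P Jf Kt H) j = (-96 * (2 * Real.pi) ^ 4) * pI F a b := by
  rw [IndVol_57.pI_eq hC, ha, hb, ← integral_const_mul]
  unfold numJ
  exact integral_congr_ae (Eventually.of_forall fun z => density h hC hF j hα z)

end

end Crest.Agent.R235.NumJ_723
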