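import Crest.Agent.R235.TyR_844
import Crest.Agent.R235.STFProps_861

/-!
# R235, package STF, leaf PD (helper819): Poincare duality from the dichotomy

* `nondeg`  : `ip (w 0)` is nondegenerate (from `BPLUS`-type signature `TyOK`)
* `pd_of_dichr : DICHR → PD`
-/

set_option autoImplicit false
set_option maxSynthPendingDepth 3

open Set Function
open scoped Manifold ContDiff

universe u

namespace Crest.Agent.R235.PD_819

open Crest.Agent.R240 Crest.Agent.R240.Ch Crest.Agent.R240.Int Crest.Agent.R235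

noncomputable section

variable {M : Type u} [TopologicalSpace M] [T2Space M] [CompactSpace M] [ConnectedSpace M]
  [ChartedSpace E4 M] [IsManifold 𝓘(ℝ, E4) ∞ M]

theorem nondeg {w : Trip M} (hw : Pos3 w) (h : TyOK (w 0)) {c : H2 M}
    (hc : ∀ b : H2 M, ip (w 0) c b = 0) : c = 0 := by
  by_contra hne
  have hpos : PosCls (w 0) (fun i => cls (w i)) := fun a ha => hw.ip_comb_pos 0 ha
  have := h.neg _ hpos c (fun i => hc _) hne
  rw [hc c] at this
  exact lt_irrefl _ this

/-- every linear form on `H²` is `ip s` -/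
theorem riesz {w : Trip M} (hw : Pos3 w) (h : TyOK (w 0)) (l : H2 M →ₗ[ℝ] ℝ) :
    ∃ s : H2 M, ∀ b : H2 M, l b = ip (w 0) s b := by
  have := h.fin
  have hinj : Function.Injective (ipB (w 0) (hw.vol 0)) := by
    rw [← LinearMap.ker_eq_bot, LinearMap.ker_eq_bot']
    intro c hc
    refine nondeg hw h fun b => ?_
    have := LinearMap.congr_fun hc b
    exact this
  have hdim : Module.finrank ℝ (H2 M) = Module.finrank ℝ (H2 M →ₗ[ℝ] ℝ) :=
    (Subspace.dual_finrank_eq (K := ℝ) (V := H2 M)).symm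
  have hsurj : Function.Surjective (ipB (w 0) (hw.vol 0)) :=
    (LinearMap.injective_iff_surjective_of_finrank_eq_finrank hdim).1 hinj
  obtain ⟨s, hs⟩ := hsurj l
  exact ⟨s, fun b => by rw [← hs]; rfl⟩

theorem pd_of_tyOK {w : Trip M} (hw : Pos3 w) (h : TyOK (w 0)) (L : X2 M →ₗ[ℝ] ℝ)
    (hL : ∀ b : X2 M, IsEx (b.1 : F2 E4 M) → L b = 0) :
    ∃ s : Z2 M, ∀ b : Z2 M, L b.1 = pI (w 0) s b := by
  have hk : B2 M ≤ LinearMap.ker (L ∘ₗ (Z2 M).subtype) := by
    intro b hb
    rw [LinearMap.mem_ker]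
    exact hL _ hb
  obtain ⟨s, hs⟩ := riesz hw h ((B2 M).liftQ _ hk)
  obtain ⟨a, rfl⟩ := cls_surj s
  refine ⟨a, fun b => ?_⟩
  have h1 := hs (cls b)
  rw [ip_cls (hw.vol 0)] at h1
  rw [← h1]
  exact (Submodule.liftQ_apply (B2 M) (L ∘ₗ (Z2 M).subtype) b).symm

end

theorem pd_of_dichr (hD : DICHR.{u}) : STF_861.PD.{u} := by
  intro M _ _ _ _ _ _ w hw L hL
  exact pd_of_tyOK hw (tyOK_of (hw.vol 0) (hD M w hw)) L hL

end Crest.Agent.R235.PD_819
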