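import Crest.Agent.R235.Mono_387
import Crest.Agent.R235.LbB_453
import Crest.Agent.R281.Poi_234

/-!
# Row 235, KUM-KTW (a), part 2: parallel sections of a line bundle `P` (rank one hermitian
projections on `ℂ^N`) with the connection `P ∘ d - 2πi T`, over open subsets of a normed space.
`d T = - Chern form of P`, so the connection is flat.
-/

set_option autoImplicit false
set_option linter.unusedSectionVars false

open Set Function Filter Topology Complex
open scoped ContDiff ComplexConjugate Matrix ComplexOrder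

namespace Crest.Agent.R235.Par_387

open Crest.Agent.R240.Ch Crest.Agent.R235.Lb453 Crest.Agent.R235.Mono_387

noncomputable section

/-! ### algebra -/

section Alg

variable {ι : Type} [Fintype ι]

/-- hermitian product -/
def hh (x y : ι → ℂ) : ℂ := ∑ i, conj (x i) * y i

theorem hh_add_right (x y z : ι → ℂ) : hh x (y + z) = hh x y + hh x z := by
  simp [hh, mul_add, Finset.sum_add_distrib]

theorem hh_smul_right (c : ℂ) (x y : ι → ℂ) : hh x (c • y) = c * hh x y := by
  simp only [hh, Pi.smul_apply, smul_eq_mul, Finset.mul_sum]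
  exact Finset.sum_congr rfl fun i _ => by ring

theorem hh_smul_left (c : ℂ) (x y : ι → ℂ) : hh (c • x) y = conj c * hh x y := by
  simp only [hh, Pi.smul_apply, smul_eq_mul, Finset.mul_sum, map_mul]
  exact Finset.sum_congr rfl fun i _ => by ring

theorem hh_conj (x y : ι → ℂ) : conj (hh x y) = hh y x := by
  simp only [hh, map_sum, map_mul, Complex.conj_conj]
  exact Finset.sum_congr rfl fun i _ => by ring

theorem ne_zero_of_unit {x : ι → ℂ} (h : hh x x = 1) : x ≠ 0 := by
  rintro rfl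
  simp [hh] at h

theorem pr_mulVec (e x : ι → ℂ) : (pr e).mulVec x = hh e x • e := by
  ext i
  simp only [Matrix.mulVec, dotProduct, pr, hh, Pi.smul_apply, smul_eq_mul, Finset.sum_mul]
  exact Finset.sum_congr rfl fun k _ => by ring

/-- `⟨P x, y⟩ = ⟨x, P y⟩` -/
theorem hh_mulVec {P : Matrix ι ι ℂ} (hP : P.conjTranspose = P) (x y : ι → ℂ) :
    hh (P.mulVec x) y = hh x (P.mulVec y) := by
  simp only [hh, Matrix.mulVec, dotProduct, map_sum, map_mul, Finset.sum_mul, Finset.mul_sum]
  rw [Finset.sum_comm]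
  refine Finset.sum_congr rfl fun i _ => Finset.sum_congr rfl fun j _ => ?_
  have h : conj (P j i) = P i j := by
    have := congrFun (congrFun hP i) j
    simpa [Matrix.conjTranspose_apply] using this
  rw [h]; ring

/-- a rank one hermitian projection with a unit vector `e` in its image is `e e^*` -/
theorem proj_eq {P : Matrix ι ι ℂ} (h1 : P * P = P) (h2 : P.conjTranspose = P)
    (h3 : P.trace = 1) {e : ι → ℂ} (he : P.mulVec e = e) (hu : hh e e = 1) : P = pr e := by
  have a1 : P * pr e = pr e := by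
    ext i j
    have := congrFun he i
    simp only [Matrix.mulVec, dotProduct] at this
    simp only [Matrix.mul_apply, pr]
    rw [← this, Finset.sum_mul]
    exact Finset.sum_congr rfl fun k _ => by ring
  have a2 : pr e * P = pr e := by
    have := congrArg Matrix.conjTranspose a1
    rwa [Matrix.conjTranspose_mul, h2, pr_herm] at this
  have a3 : pr e * pr e = pr e := pr_idem hu
  have hQ : (P - pr e).conjTranspose * (P - pr e) = P - pr e := by
    rw [Matrix.conjTranspose_sub, h2, pr_herm]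
    rw [sub_mul, mul_sub, mul_sub, h1, a1, a2, a3]
    simp
  have hz : ((P - pr e).conjTranspose * (P - pr e)).trace = 0 := by
    rw [hQ, Matrix.trace_sub, h3, pr_trace hu, sub_self]
  exact sub_eq_zero.1 (Matrix.trace_conjTranspose_mul_self_eq_zero_iff.1 hz)

end Alg

/-! ### calculus -/

variable {E : Type} [NormedAddCommGroup E] [NormedSpace ℝ E] {N : ℕ}

/-- derivative of a vector -/
def dv (l : E → Fin N → ℂ) (z u : E) : Fin N → ℂ := fun i => fderiv ℝ (fun y => l y i) z u

/-- derivative of a matrix -/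
def dP (P : E → Matrix (Fin N) (Fin N) ℂ) (z u : E) : Matrix (Fin N) (Fin N) ℂ :=
  Matrix.of fun i j => fderiv ℝ (fun y => P y i j) z u

/-- a line bundle `P` with a potential `T` of minus the Chern form. -/
structure Bun (P : E → Matrix (Fin N) (Fin N) ℂ) (T : E → E →L[ℝ] ℝ) (O : Set E) : Prop where
  smP : ∀ z ∈ O, ∀ i j, ContDiffAt ℝ ∞ (fun y => P y i j) z
  smT : ∀ z ∈ O, ContDiffAt ℝ ∞ T z
  idem : ∀ z ∈ O, P z * P z = P z
  herm : ∀ z ∈ O, (P z).conjTranspose = P z
  rank : ∀ z ∈ O, (P z).trace = 1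
  curv : ∀ z ∈ O, ∀ u v, d1 T z u v =
    - ((I / (2 * Real.pi)) * (P z * (dP P z u * dP P z v - dP P z v * dP P z u)).trace).re

/-- `l` is a unit section of `P` at `z`, parallel at `z`. -/
structure Good (P : E → Matrix (Fin N) (Fin N) ℂ) (T : E → E →L[ℝ] ℝ) (l : E → Fin N → ℂ)
    (z : E) : Prop where
  sm : ∀ i, ContDiffAt ℝ ∞ (fun y => l y i) z
  mem : (P z).mulVec (l z) = l z
  unit : hh (l z) (l z) = 1
  par : ∀ v, (P z).mulVec (dv l z v) = (2 * Real.pi * I * T z v) • l z

/-- the system of germs. -/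
def Par (P : E → Matrix (Fin N) (Fin N) ℂ) (T : E → E →L[ℝ] ℝ) (z : E) (l : E → Fin N → ℂ) :
    Prop := ∀ᶠ y in 𝓝 z, Good P T l y

variable {P : E → Matrix (Fin N) (Fin N) ℂ} {T : E → E →L[ℝ] ℝ} {O : Set E}

theorem Bun.mono {O' : Set E} (h : Bun P T O) (hO : O' ⊆ O) : Bun P T O' :=
  ⟨fun z hz => h.smP z (hO hz), fun z hz => h.smT z (hO hz), fun z hz => h.idem z (hO hz),
    fun z hz => h.herm z (hO hz), fun z hz => h.rank z (hO hz), fun z hz => h.curv z (hO hz)⟩

theorem dv_congr {f g : E → Fin N → ℂ} {z : E} (h : f =ᶠ[𝓝 z] g) (u : E) :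
    dv f z u = dv g z u := by
  funext i
  have : (fun y => f y i) =ᶠ[𝓝 z] fun y => g y i := h.mono fun y hy => by
    show f y i = g y i
    rw [hy]
  unfold dv
  rw [this.fderiv_eq]

theorem Good.congr {f g : E → Fin N → ℂ} {z : E} (hf : Good P T f z) (h : f =ᶠ[𝓝 z] g) :
    Good P T g z := by
  have h0 : f z = g z := h.self_of_nhds
  refine ⟨fun i => (hf.sm i).congr_of_eventuallyEq (h.symm.mono fun y hy => by
    show g y i = f y i; rw [hy]), ?_, ?_, fun v => ?_⟩
  · rw [← h0]; exact hf.mem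
  · rw [← h0]; exact hf.unit
  · rw [← h0, ← dv_congr h]; exact hf.par v

theorem Good.smul {f : E → Fin N → ℂ} {z : E} (hf : Good P T f z) {c : ℂ}
    (hc : conj c * c = 1) : Good P T (fun y => c • f y) z := by
  have hd : ∀ v, dv (fun y => c • f y) z v = c • dv f z v := by
    intro v
    funext i
    have : (fun y => (c • f y) i) = fun y => c * f y i := rfl
    unfold dv
    rw [this, fderiv_const_mul ((hf.sm i).differentiableAt (by simp))]
    rfl
  refine ⟨fun i => contDiffAt_const.mul (hf.sm i), ?_, ?_, fun v => ?_⟩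
  · rw [Matrix.mulVec_smul, hf.mem]
  · rw [hh_smul_left, hh_smul_right, hf.unit, mul_one, hc]
  · rw [hd, Matrix.mulVec_smul, hf.par, smul_comm]

/-- derivative of a hermitian product -/
theorem fderiv_hh {f g : E → Fin N → ℂ} {z : E}
    (hf : ∀ i, DifferentiableAt ℝ (fun y => f y i) z)
    (hg : ∀ i, DifferentiableAt ℝ (fun y => g y i) z) (v : E) :
    fderiv ℝ (fun y => hh (f y) (g y)) z v = hh (dv f z v) (g z) + hh (f z) (dv g z v) := by
  have h1 : (fun y => hh (f y) (g y)) = fun y => ∑ i, conj (f y i) * g y i := rfl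
  rw [h1, fderiv_fun_sum (fun i _ => (diff_conj (hf i)).fun_mul (hg i)), sum_apply]
  unfold hh
  rw [← Finset.sum_add_distrib]
  refine Finset.sum_congr rfl fun i _ => ?_
  rw [fderiv_fun_mul (diff_conj (hf i)) (hg i)]
  simp only [add_apply, smul_apply, smul_eq_mul, fderiv_conj (hf i)]
  unfold dv
  ring

theorem diff_hh {f g : E → Fin N → ℂ} {z : E}
    (hf : ∀ i, DifferentiableAt ℝ (fun y => f y i) z)
    (hg : ∀ i, DifferentiableAt ℝ (fun y => g y i) z) :
    DifferentiableAt ℝ (fun y => hh (f y) (g y)) z := by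
  have h1 : (fun y => hh (f y) (g y)) = fun y => ∑ i, conj (f y i) * g y i := rfl
  rw [h1]
  exact DifferentiableAt.fun_sum fun i _ => (diff_conj (hf i)).fun_mul (hg i)

theorem Good.diff {f : E → Fin N → ℂ} {z : E} (hf : Good P T f z) (i : Fin N) :
    DifferentiableAt ℝ (fun y => f y i) z := (hf.sm i).differentiableAt (by simp)

/-- the projection is `f f^*` -/
theorem Good.proj {f : E → Fin N → ℂ} {z : E} (hf : Good P T f z) (h : Bun P T O)
    (hz : z ∈ O) : P z = pr (f z) :=
  proj_eq (h.idem z hz) (h.herm z hz) (h.rank z hz) hf.mem hf.unit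

/-- two parallel unit sections over a preconnected open set differ by a constant phase. -/
theorem exists_const (h : Bun P T O) {s : Set E} (hsO : s ⊆ O) (hs : IsOpen s)
    (hc : IsPreconnected s) {f g : E → Fin N → ℂ} (hf : ∀ z ∈ s, Good P T f z)
    (hg : ∀ z ∈ s, Good P T g z) :
    ∃ c : ℂ, conj c * c = 1 ∧ ∀ z ∈ s, f z = c • g z := by
  rcases s.eq_empty_or_nonempty with rfl | ⟨z0, hz0⟩
  · exact ⟨1, by simp, fun z hz => absurd hz (notMem_empty z)⟩
  have hd : ∀ z ∈ s, DifferentiableAt ℝ (fun y => hh (g y) (f y)) z := fun z hz =>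
    diff_hh (hg z hz).diff (hf z hz).diff
  have h0 : ∀ z ∈ s, fderiv ℝ (fun y => hh (g y) (f y)) z = 0 := by
    intro z hz
    ext v
    rw [fderiv_hh (hg z hz).diff (hf z hz).diff]
    have hP := h.herm z (hsO hz)
    have e1 : hh (dv g z v) (f z) = conj (2 * Real.pi * I * T z v) * hh (g z) (f z) := by
      rw [← (hf z hz).mem, ← hh_mulVec hP, (hg z hz).par, hh_smul_left, (hf z hz).mem]
    have e2 : hh (g z) (dv f z v) = (2 * Real.pi * I * T z v) * hh (g z) (f z) := by
      rw [← (hg z hz).mem, hh_mulVec hP, (hf z hz).par, hh_smul_right, (hg z hz).mem]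
    rw [e1, e2]
    simp only [map_mul, map_ofNat, Complex.conj_ofReal, Complex.conj_I, zero_apply]
    ring
  have hconst : ∀ z ∈ s, hh (g z) (f z) = hh (g z0) (f z0) := fun z hz =>
    hs.is_const_of_fderiv_eq_zero (𝕜 := ℝ) hc (fun y hy => (hd y hy).differentiableWithinAt)
      (fun y hy => h0 y hy) hz hz0
  have hfg : ∀ z ∈ s, f z = hh (g z0) (f z0) • g z := by
    intro z hz
    rw [← hconst z hz, ← pr_mulVec, ← (hg z hz).proj h (hsO hz), (hf z hz).mem]
  refine ⟨hh (g z0) (f z0), ?_, hfg⟩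
  have h1 := (hf z0 hz0).unit
  rw [hfg z0 hz0, hh_smul_left, hh_smul_right, (hg z0 hz0).unit, mul_one] at h1
  exact h1

/-! ### local frames -/

/-- a smooth unit frame of `P` near `z`. -/
structure Frame (P : E → Matrix (Fin N) (Fin N) ℂ) (e : E → Fin N → ℂ) (z : E) : Prop where
  sm : ∀ i, ContDiffAt ℝ ∞ (fun y => e y i) z
  unit : hh (e z) (e z) = 1
  eq : P z = pr (e z)

theorem exists_frame' (smP : ∀ z ∈ O, ∀ i j, ContDiffAt ℝ ∞ (fun y => P y i j) z)
    (idem : ∀ z ∈ O, P z * P z = P z) (herm : ∀ z ∈ O, (P z).conjTranspose = P z)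
    (rank : ∀ z ∈ O, (P z).trace = 1) (hO : IsOpen O) {z0 : E} (hz0 : z0 ∈ O) :
    ∃ e : E → Fin N → ℂ, ∀ᶠ z in 𝓝 z0, z ∈ O ∧ Frame P e z := by
  have hcol : ∀ z ∈ O, ∀ j, hh (fun i => P z i j) (fun i => P z i j) = P z j j := by
    intro z hz j
    have h1 := congrFun (congrFun (idem z hz) j) j
    rw [Matrix.mul_apply] at h1
    rw [← h1]
    refine Finset.sum_congr rfl fun i _ => ?_
    have : conj (P z i j) = P z j i := by
      have := congrFun (congrFun (herm z hz) j) i
      simpa [Matrix.conjTranspose_apply] using this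
    rw [this]
  have hreal : ∀ z ∈ O, ∀ j, ((P z j j).re : ℂ) = P z j j := by
    intro z hz j
    have : conj (P z j j) = P z j j := by
      have := congrFun (congrFun (herm z hz) j) j
      simpa [Matrix.conjTranspose_apply] using this
    exact Complex.conj_eq_iff_re.1 this
  obtain ⟨j, hj⟩ : ∃ j, P z0 j j ≠ 0 := by
    by_contra hcon
    push Not at hcon
    have := rank z0 hz0
    rw [Matrix.trace, Finset.sum_eq_zero (fun j _ => (Matrix.diag_apply _ _).trans (hcon j))] at this
    exact zero_ne_one this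
  have hpos0 : 0 < (P z0 j j).re := by
    have h1 := hcol z0 hz0 j
    have h2 : (P z0 j j).re = ∑ i, Complex.normSq (P z0 i j) := by
      rw [← h1]
      simp only [hh, Complex.re_sum]
      refine Finset.sum_congr rfl fun i _ => ?_
      rw [← Complex.normSq_eq_conj_mul_self, Complex.ofReal_re]
    have h3 : 0 ≤ (P z0 j j).re := by
      rw [h2]; exact Finset.sum_nonneg fun i _ => Complex.normSq_nonneg _
    rcases h3.eq_or_lt with h4 | h4
    · exact absurd (by rw [← hreal z0 hz0 j, ← h4]; simp) hj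
    · exact h4
  have hcre : ContinuousAt (fun z => (P z j j).re) z0 :=
    Complex.continuous_re.continuousAt.comp (smP z0 hz0 j j).continuousAt
  refine ⟨fun z i => P z i j * ((√(P z j j).re)⁻¹ : ℝ), ?_⟩
  filter_upwards [hO.mem_nhds hz0, hcre.eventually_const_lt hpos0] with z hz hpos
  have hsq : ((√(P z j j).re : ℝ) : ℂ) ^ 2 = P z j j := by
    rw [← Complex.ofReal_pow, Real.sq_sqrt hpos.le, hreal z hz j]
  have hs0 : ((√(P z j j).re : ℝ) : ℂ) ≠ 0 := by
    exact_mod_cast (Real.sqrt_pos.2 hpos).ne'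
  have hunit : hh (fun i => P z i j * ((√(P z j j).re)⁻¹ : ℝ))
      (fun i => P z i j * ((√(P z j j).re)⁻¹ : ℝ)) = 1 := by
    have e1 : (fun i => P z i j * ((√(P z j j).re)⁻¹ : ℝ)) =
        (((√(P z j j).re)⁻¹ : ℝ) : ℂ) • fun i => P z i j := by
      funext i; simp [mul_comm]
    rw [e1, hh_smul_left, hh_smul_right, hcol z hz j, Complex.conj_ofReal]
    push_cast
    field_simp
    exact hsq.symm
  refine ⟨hz, fun i => ?_, hunit, ?_⟩
  · refine (smP z hz i j).mul ?_
    have h1 : ContDiffAt ℝ ∞ (fun y => (P y j j).re) z :=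
      Complex.reCLM.contDiff.contDiffAt.comp z (smP z hz j j)
    have h2 : ContDiffAt ℝ ∞ (fun y => (√(P y j j).re)⁻¹) z :=
      (h1.sqrt hpos.ne').inv (Real.sqrt_pos.2 hpos).ne'
    exact Complex.ofRealCLM.contDiff.contDiffAt.comp z h2
  · refine proj_eq (idem z hz) (herm z hz) (rank z hz) ?_ hunit
    have e1 : (fun i => P z i j * ((√(P z j j).re)⁻¹ : ℝ)) =
        (((√(P z j j).re)⁻¹ : ℝ) : ℂ) • fun i => P z i j := by
      funext i; simp [mul_comm]
    rw [e1, Matrix.mulVec_smul]
    congr 1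
    funext i
    exact congrFun (congrFun (idem z hz) i) j

theorem exists_frame (h : Bun P T O) (hO : IsOpen O) {z0 : E} (hz0 : z0 ∈ O) :
    ∃ e : E → Fin N → ℂ, ∀ᶠ z in 𝓝 z0, z ∈ O ∧ Frame P e z :=
  exists_frame' h.smP h.idem h.herm h.rank hO hz0

/-- the connection form of a frame, `⟨e, de⟩ = 2πi al e`. -/
def al (e : E → Fin N → ℂ) (z : E) : E →L[ℝ] ℝ :=
  (1 / (2 * Real.pi)) • ∑ i, ((e z i).re • fderiv ℝ (fun y => (e y i).im) z -
    (e z i).im • fderiv ℝ (fun y => (e y i).re) z)

theorem sm_re {e : E → ℂ} {z : E} (he : ContDiffAt ℝ ∞ e z) :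
    ContDiffAt ℝ ∞ (fun y => (e y).re) z := Complex.reCLM.contDiff.contDiffAt.comp z he

theorem sm_im {e : E → ℂ} {z : E} (he : ContDiffAt ℝ ∞ e z) :
    ContDiffAt ℝ ∞ (fun y => (e y).im) z := Complex.imCLM.contDiff.contDiffAt.comp z he

theorem sm_al {e : E → Fin N → ℂ} {z : E} (he : ∀ i, ContDiffAt ℝ ∞ (fun y => e y i) z) :
    ContDiffAt ℝ ∞ (al e) z := by
  have h1 : ContDiffAt ℝ ∞ (fun z => ∑ i, ((e z i).re • fderiv ℝ (fun y => (e y i).im) z -
      (e z i).im • fderiv ℝ (fun y => (e y i).re) z)) z := by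
    refine ContDiffAt.sum fun i _ => ?_
    refine ContDiffAt.sub ?_ ?_
    · exact (sm_re (he i)).smul ((sm_im (he i)).fderiv_right (m := ∞) (by simp))
    · exact (sm_im (he i)).smul ((sm_re (he i)).fderiv_right (m := ∞) (by simp))
  exact (contDiffAt_const (c := (1 / (2 * Real.pi) : ℝ))).smul h1

theorem fderiv_re {e : E → ℂ} {z : E} (he : DifferentiableAt ℝ e z) (u : E) :
    fderiv ℝ (fun y => (e y).re) z u = (fderiv ℝ e z u).re := by
  have h := (Complex.reCLM.hasFDerivAt (x := e z)).comp z he.hasFDerivAt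
  have h2 : fderiv ℝ (fun y => (e y).re) z = _ := h.fderiv
  rw [h2]; rfl

theorem fderiv_im {e : E → ℂ} {z : E} (he : DifferentiableAt ℝ e z) (u : E) :
    fderiv ℝ (fun y => (e y).im) z u = (fderiv ℝ e z u).im := by
  have h := (Complex.imCLM.hasFDerivAt (x := e z)).comp z he.hasFDerivAt
  have h2 : fderiv ℝ (fun y => (e y).im) z = _ := h.fderiv
  rw [h2]; rfl

/-- `al` is the imaginary part of `⟨e, de⟩ / 2π` -/
theorem al_apply {e : E → Fin N → ℂ} {z : E} (he : ∀ i, DifferentiableAt ℝ (fun y => e y i) z)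
    (u : E) : al e z u = (1 / (2 * Real.pi)) * (hh (e z) (dv e z u)).im := by
  simp only [al, smul_apply, sum_apply, sub_apply, smul_eq_mul, hh, dv, Complex.im_sum]
  congr 1
  refine Finset.sum_congr rfl fun i _ => ?_
  rw [fderiv_re (he i), fderiv_im (he i)]
  simp only [Complex.mul_im, Complex.conj_re, Complex.conj_im]
  ring

/-- `⟨e, de⟩ = 2πi al` for unit frames. -/
theorem hh_dv {e : E → Fin N → ℂ} {z : E} (he : ∀ i, DifferentiableAt ℝ (fun y => e y i) z)
    (h1 : ∀ᶠ y in 𝓝 z, hh (e y) (e y) = 1) (u : E) :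
    hh (e z) (dv e z u) = 2 * Real.pi * I * al e z u := by
  have h2 := deriv_unit he h1 u
  have h3 : conj (hh (e z) (dv e z u)) = - hh (e z) (dv e z u) := by
    rw [hh_conj]; exact h2
  have h4 : (hh (e z) (dv e z u)).re = 0 := by
    have := congrArg Complex.re h3
    simp only [Complex.conj_re, Complex.neg_re] at this
    linarith
  rw [al_apply he]
  apply Complex.ext
  · rw [h4]; simp
  · have hpi : Real.pi ≠ 0 := Real.pi_ne_zero
    simp only [Complex.mul_im, Complex.mul_re, Complex.I_re, Complex.I_im, Complex.ofReal_re,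
      Complex.ofReal_im, Complex.re_ofNat, Complex.im_ofNat]
    field_simp
    ring

/-- exterior derivative of the connection form -/
theorem d1_al {e : E → Fin N → ℂ} {z : E} (he : ∀ i, ContDiffAt ℝ ∞ (fun y => e y i) z)
    (u v : E) : d1 (al e) z u v = (1 / (2 * Real.pi)) * ∑ i,
      2 * ((dv e z u i).re * (dv e z v i).im - (dv e z v i).re * (dv e z u i).im) := by
  have hd : ∀ i, DifferentiableAt ℝ (fun y => e y i) z := fun i =>
    (he i).differentiableAt (by simp)
  have hre : ∀ i, DifferentiableAt ℝ (fun y => (e y i).re) z := fun i =>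
    (sm_re (he i)).differentiableAt (by simp)
  have him : ∀ i, DifferentiableAt ℝ (fun y => (e y i).im) z := fun i =>
    (sm_im (he i)).differentiableAt (by simp)
  have hre2 : ∀ i, DifferentiableAt ℝ (fderiv ℝ (fun y => (e y i).re)) z := fun i =>
    ((sm_re (he i)).fderiv_right (m := ∞) (by simp)).differentiableAt (by simp)
  have him2 : ∀ i, DifferentiableAt ℝ (fderiv ℝ (fun y => (e y i).im)) z := fun i =>
    ((sm_im (he i)).fderiv_right (m := ∞) (by simp)).differentiableAt (by simp)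
  have key : ∀ u v, fderiv ℝ (al e) z u v = (1 / (2 * Real.pi)) * ∑ i,
      (((dv e z u i).re * (dv e z v i).im - (dv e z u i).im * (dv e z v i).re) +
        ((e z i).re * fderiv ℝ (fderiv ℝ (fun y => (e y i).im)) z u v -
          (e z i).im * fderiv ℝ (fderiv ℝ (fun y => (e y i).re)) z u v)) := by
    intro u v
    have h1 : HasFDerivAt (al e) ((1 / (2 * Real.pi)) • ∑ i,
        (((e z i).re • fderiv ℝ (fderiv ℝ (fun y => (e y i).im)) z +
          (fderiv ℝ (fun y => (e y i).re) z).smulRight (fderiv ℝ (fun y => (e y i).im) z)) -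
        ((e z i).im • fderiv ℝ (fderiv ℝ (fun y => (e y i).re)) z +
          (fderiv ℝ (fun y => (e y i).im) z).smulRight (fderiv ℝ (fun y => (e y i).re) z)))) z := by
      have h2 : HasFDerivAt (fun z => ∑ i, ((e z i).re • fderiv ℝ (fun y => (e y i).im) z -
          (e z i).im • fderiv ℝ (fun y => (e y i).re) z)) (∑ i,
        (((e z i).re • fderiv ℝ (fderiv ℝ (fun y => (e y i).im)) z +
          (fderiv ℝ (fun y => (e y i).re) z).smulRight (fderiv ℝ (fun y => (e y i).im) z)) -
        ((e z i).im • fderiv ℝ (fderiv ℝ (fun y => (e y i).re)) z +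
          (fderiv ℝ (fun y => (e y i).im) z).smulRight (fderiv ℝ (fun y => (e y i).re) z)))) z := by
        refine HasFDerivAt.fun_sum fun i _ => ?_
        exact ((hre i).hasFDerivAt.smul (him2 i).hasFDerivAt).sub
          ((him i).hasFDerivAt.smul (hre2 i).hasFDerivAt)
      exact h2.const_smul (1 / (2 * Real.pi) : ℝ)
    rw [h1.fderiv]
    simp only [smul_apply, sum_apply, sub_apply, add_apply, smul_eq_mul,
      ContinuousLinearMap.smulRight_apply]
    congr 1
    refine Finset.sum_congr rfl fun i _ => ?_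
    rw [fderiv_re (hd i), fderiv_im (hd i), fderiv_re (hd i), fderiv_im (hd i)]
    unfold dv
    ring
  rw [d1_apply, key, key, ← mul_sub, ← Finset.sum_sub_distrib]
  congr 1
  refine Finset.sum_congr rfl fun i _ => ?_
  rw [snd_symm (sm_re (he i)) u v, snd_symm (sm_im (he i)) u v]
  ring

/-- curvature in terms of the frame -/
theorem curv_frame {e : E → Fin N → ℂ} {z : E} (he : ∀ᶠ y in 𝓝 z, Frame P e y) (u v : E) :
    ((I / (2 * Real.pi)) * (P z * (dP P z u * dP P z v - dP P z v * dP P z u)).trace).re =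
      - d1 (al e) z u v := by
  have h0 := he.self_of_nhds
  have hd : ∀ i, DifferentiableAt ℝ (fun y => e y i) z := fun i =>
    (h0.sm i).differentiableAt (by simp)
  have hP : ∀ u, dP P z u = Matrix.of fun i j => fderiv ℝ (fun y => pr (e y) i j) z u := by
    intro u
    unfold dP
    congr 1
    funext i j
    have : (fun y => P y i j) =ᶠ[𝓝 z] fun y => pr (e y) i j :=
      he.mono fun y hy => by show P y i j = _; rw [hy.eq]
    rw [this.fderiv_eq]
  rw [hP, hP, h0.eq, curv_pr hd (he.mono fun y hy => hy.unit), d1_al h0.sm]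
  have h1 : ∀ i, conj (fderiv ℝ (fun y => e y i) z u) * fderiv ℝ (fun y => e y i) z v -
      conj (fderiv ℝ (fun y => e y i) z v) * fderiv ℝ (fun y => e y i) z u =
      I * ((2 * ((dv e z u i).re * (dv e z v i).im - (dv e z v i).re * (dv e z u i).im) : ℝ) : ℂ) := by
    intro i
    unfold dv
    apply Complex.ext
    · simp only [Complex.sub_re, Complex.mul_re, Complex.conj_re, Complex.conj_im, Complex.I_re,
        Complex.I_im, Complex.ofReal_re, Complex.ofReal_im]
      ring
    · simp only [Complex.sub_im, Complex.mul_im, Complex.conj_re, Complex.conj_im, Complex.I_re,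
        Complex.I_im, Complex.ofReal_re, Complex.ofReal_im]
      ring
  simp only [h1]
  rw [← Finset.mul_sum, ← Complex.ofReal_sum]
  have h2 : (I / (2 * Real.pi)) * (I * ((∑ i, 2 * ((dv e z u i).re * (dv e z v i).im -
      (dv e z v i).re * (dv e z u i).im) : ℝ) : ℂ)) =
      ((-(1 / (2 * Real.pi) * ∑ i, 2 * ((dv e z u i).re * (dv e z v i).im -
      (dv e z v i).re * (dv e z u i).im)) : ℝ) : ℂ) := by
    push_cast
    linear_combination (1 / (2 * (Real.pi : ℂ)) * ∑ i, 2 * (((dv e z u i).re : ℂ) *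
      (dv e z v i).im - (dv e z v i).re * (dv e z u i).im)) * Complex.I_mul_I
  rw [h2, Complex.ofReal_re]

variable [FiniteDimensional ℝ E]

/-- **local existence of parallel sections.** -/
theorem exists_par (h : Bun P T O) (hO : IsOpen O) {z0 : E} (hz0 : z0 ∈ O) :
    ∃ r : ℝ, 0 < r ∧ Metric.ball z0 r ⊆ O ∧ ∃ l : E → Fin N → ℂ,
      ∀ z ∈ Metric.ball z0 r, Good P T l z := by
  obtain ⟨e, he⟩ := exists_frame h hO hz0
  obtain ⟨r, hr, hb⟩ := Metric.eventually_nhds_iff_ball.1 he
  have hev : ∀ z ∈ Metric.ball z0 r, ∀ᶠ y in 𝓝 z, Frame P e y := fun z hz => by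
    filter_upwards [Metric.isOpen_ball.mem_nhds hz] with y hy using (hb y hy).2
  have hsm : ContDiffOn ℝ ∞ (fun z => T z - al e z) (Metric.ball z0 r) := fun z hz =>
    ((h.smT z (hb z hz).1).sub (sm_al (hb z hz).2.sm)).contDiffWithinAt
  obtain ⟨g, hg⟩ := R281.Poi_234.poincare1 Metric.isOpen_ball (convex_ball z0 r) hsm (by
    intro z hz u v
    have hT := (h.smT z (hb z hz).1).differentiableAt (n := ∞) (by simp)
    have ha := (sm_al (hb z hz).2.sm).differentiableAt (n := ∞) (by simp)
    have h1 := h.curv z (hb z hz).1 u v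
    rw [curv_frame (hev z hz) u v, neg_neg, d1_apply, d1_apply] at h1
    have h2 : fderiv ℝ (fun z => T z - al e z) z = fderiv ℝ T z - fderiv ℝ (al e) z :=
      (hT.hasFDerivAt.sub ha.hasFDerivAt).fderiv
    rw [h2]
    simp only [sub_apply]
    linarith)
  have hgs := R281.Poi_234.contDiffOn_of_hasFDerivAt Metric.isOpen_ball hsm hg
  refine ⟨r, hr, fun z hz => (hb z hz).1, fun z => ex (g z) • e z, fun z hz => ?_⟩
  have hF := (hb z hz).2
  have hgd : DifferentiableAt ℝ g z := (hg z hz).differentiableAt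
  have hed : ∀ i, DifferentiableAt ℝ (fun y => e y i) z := fun i =>
    (hF.sm i).differentiableAt (by simp)
  have hexs : ContDiffAt ℝ ∞ (fun y => ex (g y)) z :=
    contDiff_ex.contDiffAt.comp z (hgs.contDiffAt (Metric.isOpen_ball.mem_nhds hz))
  have hdl : ∀ v, dv (fun z => ex (g z) • e z) z v =
      (2 * Real.pi * I * ex (g z) * ((T z v - al e z v : ℝ) : ℂ)) • e z + ex (g z) • dv e z v := by
    intro v
    funext i
    have e1 : (fun y => (ex (g y) • e y) i) = fun y => ex (g y) * e y i := rfl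
    unfold dv
    rw [e1, fderiv_fun_mul (hexs.differentiableAt (by simp)) (hed i)]
    simp only [add_apply, smul_apply, smul_eq_mul, Pi.add_apply, Pi.smul_apply]
    rw [fderiv_ex hgd, (hg z hz).fderiv]
    simp only [sub_apply]
    push_cast
    ring
  have hunit := hF.unit
  refine ⟨fun i => hexs.mul (hF.sm i), ?_, ?_, fun v => ?_⟩
  · rw [hF.eq, pr_mulVec, hh_smul_right, hunit, mul_one]
  · rw [hh_smul_left, hh_smul_right, hunit, mul_one, ex_mul_conj]
  · rw [hdl, hF.eq, pr_mulVec, hh_add_right, hh_smul_right, hh_smul_right, hunit,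
      hh_dv hed ((hev z hz).mono fun y hy => hy.unit), smul_smul]
    congr 1
    push_cast
    ring

/-- the germs form a system. -/
theorem par_ball {z : E} {l : E → Fin N → ℂ} (hz : z ∈ O) (hO : IsOpen O) (hl : Par P T z l) :
    ∃ r > 0, ∀ y ∈ Metric.ball z r, y ∈ O ∧ Good P T l y :=
  Metric.eventually_nhds_iff_ball.1 ((hO.eventually_mem hz).and hl)

theorem par_cmp (h : Bun P T O) (hO : IsOpen O) {z : E} (hz : z ∈ O) {f g : E → Fin N → ℂ}
    (hf : Par P T z f) (hg : Par P T z g) :
    ∃ c : ℂ, conj c * c = 1 ∧ ∀ᶠ y in 𝓝 z, f y = c • g y ∧ Good P T g y := by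
  obtain ⟨r, hr, hb⟩ := Metric.eventually_nhds_iff_ball.1 ((hO.eventually_mem hz).and (hf.and hg))
  obtain ⟨c, hc, he⟩ := exists_const h (fun y hy => (hb y hy).1) Metric.isOpen_ball
    (convex_ball z r).isPreconnected (fun y hy => (hb y hy).2.1) (fun y hy => (hb y hy).2.2)
  refine ⟨c, hc, ?_⟩
  filter_upwards [Metric.ball_mem_nhds z hr] with y hy
  exact ⟨he y hy, (hb y hy).2.2⟩

/-- the germs form a system. -/
theorem sys (h : Bun P T O) (hO : IsOpen O) : Sys O (fun z l => z ∈ O ∧ Par P T z l) where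
  congr z f g := by
    rintro ⟨hz, hf⟩ hfg
    refine ⟨hz, ?_⟩
    filter_upwards [hf, hfg.eventuallyEq_nhds] with y h1 h2
    exact h1.congr h2
  opn z f := by
    rintro ⟨hz, hf⟩
    exact (hO.eventually_mem hz).and (eventually_eventually_nhds.2 hf)
  uniq z f g := by
    rintro ⟨hz, hf⟩ ⟨_, hg⟩ hfg
    obtain ⟨c, _, he⟩ := par_cmp h hO hz hf hg
    have h1 := he.self_of_nhds
    have hc1 : c = 1 := by
      have h2 : (c - 1) • g z = 0 := by
        rw [sub_smul, one_smul, ← h1.1, hfg, sub_self]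
      rcases smul_eq_zero.1 h2 with h3 | h3
      · exact sub_eq_zero.1 h3
      · exact absurd h3 (ne_zero_of_unit h1.2.unit)
    filter_upwards [he] with y hy
    rw [hy.1, hc1, one_smul]
  sep z f g := by
    rintro ⟨hz, hf⟩ ⟨_, hg⟩ hfg
    obtain ⟨c, _, he⟩ := par_cmp h hO hz hf hg
    have hc1 : c ≠ 1 := by
      rintro rfl
      exact hfg (by rw [he.self_of_nhds.1, one_smul])
    filter_upwards [he] with y hy
    intro h1
    have h2 : (c - 1) • g y = 0 := by
      rw [sub_smul, one_smul, ← hy.1, h1, sub_self]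
    rcases smul_eq_zero.1 h2 with h3 | h3
    · exact hc1 (sub_eq_zero.1 h3)
    · exact ne_zero_of_unit hy.2.unit h3
  ext z hz := by
    obtain ⟨r, hr, hrO, l, hl⟩ := exists_par h hO hz
    have hpar : ∀ y ∈ Metric.ball z r, Par P T y l := fun y hy => by
      filter_upwards [Metric.isOpen_ball.mem_nhds hy] with x hx using hl x hx
    refine ⟨Metric.ball z r, Metric.ball_mem_nhds z hr, fun y hy g hg => ?_⟩
    obtain ⟨c, hc, he⟩ := par_cmp h hO (hrO hy) hg.2 (hpar y hy)
    refine ⟨fun x => c • l x, fun x hx => ⟨hrO hx, ?_⟩, he.self_of_nhds.1.symm⟩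
    filter_upwards [hpar x hx] with w hw using hw.smul hc

end

section Punctured

open Crest.Agent.R240 Crest.Agent.R235.KT_604

variable {N : ℕ} {P : E4 → Matrix (Fin N) (Fin N) ℂ} {T : E4 → E4 →L[ℝ] ℝ} {r : ℝ}

/-- **global parallel unit section on the punctured ball.** -/
theorem exists_psi (hr : 0 < r) (h : Bun P T (PB r)) :
    ∃ psi : E4 → Fin N → ℂ, ∀ z ∈ PB r, Good P T psi z := by
  have hq : pt 1 2 (r / 4) (r / 4) ∈ PB r := by
    rw [PB_eq_cyl]
    refine ⟨norm_pt hr _ _ ?_ ?_, 1, by simp, ?_⟩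
    · rw [abs_of_pos (by positivity)]
    · rw [abs_of_pos (by positivity)]
    · rw [pt_left (by decide)]; positivity
  obtain ⟨s, hs, hsO, l, hl⟩ := exists_par h (isOpen_PB r) hq
  have hpar : Par P T (pt 1 2 (r / 4) (r / 4)) l := by
    filter_upwards [Metric.ball_mem_nhds _ hs] with y hy using hl y hy
  obtain ⟨F, _, hF⟩ := (sys h (isOpen_PB r)).punctured hr hq ⟨hq, hpar⟩
  exact ⟨F, fun z hz => (hF z hz).2.self_of_nhds⟩

theorem neg_mem_PB {z : E4} (hz : z ∈ PB r) : -z ∈ PB r := ⟨neg_ne_zero.2 hz.1, by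
  rw [norm_neg]; exact hz.2⟩

/-- the pull-back of a parallel section by `z ↦ -z`. -/
theorem Good.comp_neg {psi : E4 → Fin N → ℂ} {z : E4} (hP : P (-z) = P z) (hT : T (-z) = - T z)
    (h : Good P T psi (-z)) : Good P T (fun y => psi (-y)) z := by
  have hd : ∀ v, dv (fun y => psi (-y)) z v = - dv psi (-z) v := by
    intro v
    funext i
    unfold dv
    have h1 : HasFDerivAt (fun y : E4 => psi (-y) i)
        ((fderiv ℝ (fun y => psi y i) (-z)).comp (-(ContinuousLinearMap.id ℝ E4))) z := by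
      have h2 : HasFDerivAt (fun y : E4 => -y) (-(ContinuousLinearMap.id ℝ E4)) z :=
        (hasFDerivAt_id z).neg
      exact HasFDerivAt.comp z (g := fun y => psi y i) (h.diff i).hasFDerivAt h2
    rw [h1.fderiv]
    simp
  refine ⟨fun i => ?_, ?_, h.unit, fun v => ?_⟩
  · exact ContDiffAt.comp z (g := fun y => psi y i) (h.sm i) contDiff_neg.contDiffAt
  · rw [← hP]; exact h.mem
  · rw [hd, Matrix.mulVec_neg, ← hP, h.par, ← neg_smul]
    congr 1
    rw [hT]
    simp

/-- if the data are even, `psi (-z) = c psi z` with a constant `c = ± 1`. -/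
theorem exists_sign (hr : 0 < r) (h : Bun P T (PB r)) (hP : ∀ z ∈ PB r, P (-z) = P z)
    (hT : ∀ z ∈ PB r, T (-z) = - T z) {psi : E4 → Fin N → ℂ}
    (hpsi : ∀ z ∈ PB r, Good P T psi z) :
    ∃ c : ℂ, (c = 1 ∨ c = -1) ∧ ∀ z ∈ PB r, psi (-z) = c • psi z := by
  obtain ⟨c, hc, he⟩ := exists_const h Subset.rfl (isOpen_PB r) (isPreconnected_PB hr)
    (f := fun z => psi (-z)) (fun z hz => (hpsi _ (neg_mem_PB hz)).comp_neg (hP z hz) (hT z hz))
    hpsi
  refine ⟨c, ?_, he⟩
  have hq : pt 1 2 (r / 4) (r / 4) ∈ PB r := by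
    rw [PB_eq_cyl]
    refine ⟨norm_pt hr _ _ ?_ ?_, 1, by simp, ?_⟩
    · rw [abs_of_pos (by positivity)]
    · rw [abs_of_pos (by positivity)]
    · rw [pt_left (by decide)]; positivity
  have h1 := he _ hq
  have h2 := he _ (neg_mem_PB hq)
  rw [neg_neg, h1, smul_smul] at h2
  have h3 : (c * c - 1) • psi (pt 1 2 (r / 4) (r / 4)) = 0 := by
    rw [sub_smul, one_smul, ← h2, sub_self]
  rcases smul_eq_zero.1 h3 with h4 | h4
  · exact mul_self_eq_one_iff.1 (sub_eq_zero.1 h4)
  · exact absurd h4 (ne_zero_of_unit (hpsi _ hq).unit)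

end Punctured

end Crest.Agent.R235.Par_387
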