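import Crest.Agent.R235.Ip2_288

/-!
Row 235, node (D) of the KUM chain (helper57): a `C⁰`-continuous path of positive closed triples
gives a polygonal path.

* `eventually_seg` : near `t₀` all `w s` are joined to `w t₀` by a positive segment;
* `pl_of_path`     : `S` preconnected, `w : T → Trip M` continuous on `S` (in charts, `C⁰`), positive:
                     `PL (w a) (w b)` for `a, b ∈ S`;
* `joined_of_path` : the same with constant classes: `Joined (w a) (w b)`;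
* `pl_of_path01`, `joined_of_path01` : `S = [0,1]`.
-/

set_option autoImplicit false
set_option maxSynthPendingDepth 3
set_option linter.unusedSectionVars false

open Set Function Filter MeasureTheory Metric
open scoped Manifold ContDiff Topology

universe u

namespace Crest.Agent.R235.PathPL_57

open Crest.Agent.R240 Crest.Agent.R240.Ch Crest.Agent.R240.Int

noncomputable section

variable {M : Type u} [TopologicalSpace M] [ChartedSpace E4 M] [IsManifold 𝓘(ℝ, E4) ∞ M]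

/-- the representation in a chart, as a linear map. -/
def repL (p : M) (y : E4) : Z2 M →ₗ[ℝ] Bil where
  toFun a := rep p (a.1.1 : F2 E4 M) y
  map_add' _ _ := by ext u v; rfl
  map_smul' _ _ := by ext u v; rfl

theorem repL_apply (p : M) (y : E4) (a : Z2 M) : repL p y a = rep p (a.1.1 : F2 E4 M) y := rfl

/-- nondegeneracy in a chart. -/
theorem W_repL {p : M} {x : M} (hx : x ∈ (chartAt E4 p).source) (a : Z2 M) :
    W (repL p (chartAt E4 p x) a) (repL p (chartAt E4 p x) a) ≠ 0 ↔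
      W (val a x) (val a x) ≠ 0 := by
  have h := W_rep (b := (a.1.1 : F2 E4 M)) (c := (a.1.1 : F2 E4 M)) (fun x => val_alt a x)
    (fun x => val_alt a x) p (chartAt E4 p x)
  rw [(chartAt E4 p).left_inv hx] at h
  rw [repL_apply, h]
  have h2 := det_tcc_ne hx
  constructor
  · intro h3 h4
    exact h3 (by rw [show W (at2 (a.1.1 : F2 E4 M) x) (at2 (a.1.1 : F2 E4 M) x) = 0 from h4,
      mul_zero])
  · intro h3
    exact mul_ne_zero h2 h3

theorem W_smul_self (r : ℝ) (b : Bil) : W (r • b) (r • b) = r ^ 2 * W b b := by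
  rw [W_smul_left, W_smul_right]; ring

/-- it is enough to test positivity on the unit sphere. -/
theorem pos3_of_sphere {w : Trip M}
    (h : ∀ (x : M) (c : Fin 3 → ℝ), c ∈ sphere (0 : Fin 3 → ℝ) 1 →
      W (val (∑ i, c i • w i) x) (val (∑ i, c i • w i) x) ≠ 0) : Pos3 w := by
  intro x c hc
  have hn : 0 < ‖c‖ := norm_pos_iff.2 hc
  have h1 := h x (‖c‖⁻¹ • c) (by
    rw [mem_sphere_zero_iff_norm, norm_smul, norm_inv, norm_norm, inv_mul_cancel₀ hn.ne'])
  rw [val_comb] at h1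
  have h2 : ∑ i, (‖c‖⁻¹ • c) i • val (w i) x = ‖c‖⁻¹ • ∑ i, c i • val (w i) x := by
    rw [Finset.smul_sum]
    refine Finset.sum_congr rfl fun i _ => ?_
    rw [Pi.smul_apply, smul_eq_mul, mul_smul]
  rw [h2, W_smul_self] at h1
  exact right_ne_zero_of_mul h1

theorem comp_aux {T X B : Type*} [TopologicalSpace T] [TopologicalSpace X] [TopologicalSpace B]
    {S : Set T} {V : Set E4} {f : T → E4 → B}
    (hf : ContinuousOn (fun z : T × E4 => f z.1 z.2) (S ×ˢ V)) {D : Set X} {g : X → T} {h : X → E4}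
    (hg : ContinuousOn g D) (hh : ContinuousOn h D) (hm : ∀ z ∈ D, g z ∈ S ∧ h z ∈ V) :
    ContinuousOn (fun z => f (g z) (h z)) D :=
  hf.comp (hg.prodMk hh) (fun z hz => hm z hz)

theorem cont_comb {X : Type*} [TopologicalSpace X] {D : Set X} {a b : Fin 3 → X → Bil} {r : X → ℝ}
    {c : Fin 3 → X → ℝ} (ha : ∀ i, ContinuousOn (a i) D) (hb : ∀ i, ContinuousOn (b i) D)
    (hr : ContinuousOn r D) (hc : ∀ i, ContinuousOn (c i) D) :
    ContinuousOn (fun z => ∑ i, c i z • ((1 - r z) • a i z + r z • b i z)) D := by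
  refine continuousOn_finsetSum _ fun i _ => ?_
  exact (hc i).smul (((continuousOn_const.sub hr).smul (ha i)).add (hr.smul (hb i)))

variable [T2Space M] [CompactSpace M]

theorem eventually_seg {T : Type*} [TopologicalSpace T] {S : Set T} {w : T → Trip M}
    (hc : ∀ i p, ContinuousOn (fun z : T × E4 => rep p ((w z.1 i).1.1 : F2 E4 M) z.2)
      (S ×ˢ (chartAt E4 p).target))
    (hp : ∀ t ∈ S, Pos3 (w t)) {t₀ : T} (ht₀ : t₀ ∈ S) :
    ∀ᶠ s in 𝓝[S] t₀, Seg (w t₀) (w s) := by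
  rw [eventually_nhdsWithin_iff]
  set K : Set ((ℝ × (Fin 3 → ℝ)) × M) := (Icc (0 : ℝ) 1 ×ˢ sphere (0 : Fin 3 → ℝ) 1) ×ˢ univ
    with hK
  have hKc : IsCompact K := (isCompact_Icc.prod (isCompact_sphere _ _)).prod isCompact_univ
  have key : ∀ᶠ s in 𝓝 t₀, ∀ q ∈ K, s ∈ S →
      W (val (∑ i, q.1.2 i • seg (w t₀) (w s) q.1.1 i) q.2)
        (val (∑ i, q.1.2 i • seg (w t₀) (w s) q.1.1 i) q.2) ≠ 0 := by
    apply hKc.eventually_forall_of_forall_eventually
    rintro ⟨⟨r₀, c₀⟩, x₀⟩ ⟨⟨hr₀, hc₀⟩, -⟩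
    set φ := chartAt E4 x₀ with hφ
    have hx₀ : x₀ ∈ φ.source := mem_chart_source E4 x₀
    -- the function in the chart
    let G : T × ((ℝ × (Fin 3 → ℝ)) × M) → Bil := fun z =>
      ∑ i, z.2.1.2 i • ((1 - z.2.1.1) • rep x₀ ((w t₀ i).1.1 : F2 E4 M) (φ z.2.2) +
        z.2.1.1 • rep x₀ ((w z.1 i).1.1 : F2 E4 M) (φ z.2.2))
    set D : Set (T × ((ℝ × (Fin 3 → ℝ)) × M)) := {z | z.1 ∈ S ∧ z.2.2 ∈ φ.source} with hD
    have hφc : ContinuousOn (fun z : T × ((ℝ × (Fin 3 → ℝ)) × M) => φ z.2.2) D :=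
      φ.continuousOn.comp (continuous_snd.comp continuous_snd).continuousOn (fun z hz => hz.2)
    have hG1 : ∀ i, ContinuousOn (fun z : T × ((ℝ × (Fin 3 → ℝ)) × M) =>
        rep x₀ ((w z.1 i).1.1 : F2 E4 M) (φ z.2.2)) D := fun i =>
      comp_aux (f := fun t y => rep x₀ ((w t i).1.1 : F2 E4 M) y) (hc i x₀)
        continuous_fst.continuousOn hφc (fun z hz => ⟨hz.1, φ.map_source hz.2⟩)
    have hG0 : ∀ i, ContinuousOn (fun z : T × ((ℝ × (Fin 3 → ℝ)) × M) =>
        rep x₀ ((w t₀ i).1.1 : F2 E4 M) (φ z.2.2)) D := fun i =>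
      comp_aux (f := fun t y => rep x₀ ((w t i).1.1 : F2 E4 M) y) (hc i x₀)
        continuousOn_const hφc (fun z hz => ⟨ht₀, φ.map_source hz.2⟩)
    have hr : Continuous fun z : T × ((ℝ × (Fin 3 → ℝ)) × M) => z.2.1.1 := by fun_prop
    have hcc : ∀ i, Continuous fun z : T × ((ℝ × (Fin 3 → ℝ)) × M) => z.2.1.2 i := by
      intro i; fun_prop
    have hGc : ContinuousOn G D :=
      cont_comb hG0 hG1 hr.continuousOn (fun i => (hcc i).continuousOn)
    have hWc : ContinuousOn (fun z => W (G z) (G z)) D := continuousOn_W hGc hGc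
    have hG_eq : ∀ z : T × ((ℝ × (Fin 3 → ℝ)) × M), G z =
        repL x₀ (φ z.2.2) (∑ i, z.2.1.2 i • seg (w t₀) (w z.1) z.2.1.1 i) := by
      intro z
      rw [map_sum]
      refine Finset.sum_congr rfl fun i _ => ?_
      rw [map_smul]
      unfold seg
      rw [map_add, map_smul, map_smul]
      rfl
    have hmem : (t₀, ((r₀, c₀), x₀)) ∈ D := ⟨ht₀, hx₀⟩
    have hne : W (G (t₀, ((r₀, c₀), x₀))) (G (t₀, ((r₀, c₀), x₀))) ≠ 0 := by
      rw [hG_eq]
      show W (repL x₀ (φ x₀) (∑ i, c₀ i • seg (w t₀) (w t₀) r₀ i)) _ ≠ 0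
      rw [W_repL hx₀]
      rw [seg_self, val_comb]
      apply hp t₀ ht₀ x₀ c₀
      rintro rfl
      rw [mem_sphere_zero_iff_norm, norm_zero] at hc₀
      exact zero_ne_one hc₀
    have h2 := (hWc _ hmem).eventually_ne hne
    rw [eventually_nhdsWithin_iff] at h2
    have h3 : ∀ᶠ z : T × ((ℝ × (Fin 3 → ℝ)) × M) in 𝓝 (t₀, ((r₀, c₀), x₀)),
        z.2.2 ∈ φ.source := by
      have hcz : ContinuousAt (fun z : T × ((ℝ × (Fin 3 → ℝ)) × M) => z.2.2)
        (t₀, ((r₀, c₀), x₀)) := by fun_prop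
      exact hcz.eventually (φ.open_source.mem_nhds hx₀)
    filter_upwards [h2, h3] with z hz hz3 hzS
    have h4 := hz ⟨hzS, hz3⟩
    rw [hG_eq, W_repL hz3] at h4
    exact h4
  filter_upwards [key] with s hs hsS r hr0 hr1
  apply pos3_of_sphere
  intro x c hcs
  exact hs ((r, c), x) ⟨⟨⟨hr0, hr1⟩, hcs⟩, mem_univ _⟩ hsS

/-- **(D)**: a `C⁰`-continuous family of positive closed triples over a preconnected set. -/
theorem pl_of_path {T : Type*} [TopologicalSpace T] {S : Set T} (hS : IsPreconnected S)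
    {w : T → Trip M}
    (hc : ∀ i p, ContinuousOn (fun z : T × E4 => rep p ((w z.1 i).1.1 : F2 E4 M) z.2)
      (S ×ˢ (chartAt E4 p).target))
    (hp : ∀ t ∈ S, Pos3 (w t)) {a b : T} (ha : a ∈ S) (hb : b ∈ S) : PL (w a) (w b) := by
  refine hS.induction₂ (fun s t => PL (w s) (w t)) (fun t ht => ?_) ?_ ?_ ha hb
  · filter_upwards [eventually_seg hc hp ht] with s hs using hs.pl
  · intro x y z _ _ _ h1 h2; exact h1.trans h2
  · intro x y _ _ h; exact h.symm

/-- the same inside fixed classes. -/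
theorem joined_of_path {T : Type*} [TopologicalSpace T] {S : Set T} (hS : IsPreconnected S)
    {w : T → Trip M}
    (hc : ∀ i p, ContinuousOn (fun z : T × E4 => rep p ((w z.1 i).1.1 : F2 E4 M) z.2)
      (S ×ˢ (chartAt E4 p).target))
    (hp : ∀ t ∈ S, Pos3 (w t)) (hcl : ∀ s ∈ S, ∀ t ∈ S, SameCls (w s) (w t)) {a b : T}
    (ha : a ∈ S) (hb : b ∈ S) : Joined (w a) (w b) := by
  refine hS.induction₂ (fun s t => Joined (w s) (w t)) (fun t ht => ?_) ?_ ?_ ha hb
  · filter_upwards [eventually_seg hc hp ht, self_mem_nhdsWithin] with s hs hsS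
    exact Joined.single hs (hcl t ht s hsS)
  · intro x y z _ _ _ h1 h2; exact h1.trans h2
  · intro x y _ _ h; exact h.symm

theorem pl_of_path01 {w : ℝ → Trip M}
    (hc : ∀ i p, ContinuousOn (fun z : ℝ × E4 => rep p ((w z.1 i).1.1 : F2 E4 M) z.2)
      (Icc 0 1 ×ˢ (chartAt E4 p).target))
    (hp : ∀ t ∈ Icc (0 : ℝ) 1, Pos3 (w t)) : PL (w 0) (w 1) :=
  pl_of_path isPreconnected_Icc hc hp (left_mem_Icc.2 zero_le_one) (right_mem_Icc.2 zero_le_one)

theorem joined_of_path01 {w : ℝ → Trip M}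
    (hc : ∀ i p, ContinuousOn (fun z : ℝ × E4 => rep p ((w z.1 i).1.1 : F2 E4 M) z.2)
      (Icc 0 1 ×ˢ (chartAt E4 p).target))
    (hp : ∀ t ∈ Icc (0 : ℝ) 1, Pos3 (w t))
    (hcl : ∀ t ∈ Icc (0 : ℝ) 1, SameCls (w 0) (w t)) : Joined (w 0) (w 1) :=
  joined_of_path isPreconnected_Icc hc hp
    (fun s hs t ht => (hcl s hs).symm.trans (hcl t ht)) (left_mem_Icc.2 zero_le_one)
    (right_mem_Icc.2 zero_le_one)

end

end Crest.Agent.R235.PathPL_57
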