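import Mathlib

/-!
Row 235, package IND (helper399): linear algebra of a quaternionic triple on a Euclidean 4-space.

`QL I` : `I i` skew, `I i² = -1`, `I i I (i+1) = I (i+2)`.
`QL.span` : a skew endomorphism which anticommutes with `I j` is `α I (j+1) + β I (j+2)`.
`QL.coef` : `α`, `β` by a Parseval family.
-/

set_option autoImplicit false

open scoped RealInnerProductSpace

namespace Crest.Agent.R235.QLin_399

variable {V : Type*} [NormedAddCommGroup V] [InnerProductSpace ℝ V]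

/-- a quaternionic triple. -/
structure QL (I : Fin 3 → V →ₗ[ℝ] V) : Prop where
  sq : ∀ i v, I i (I i v) = -v
  mul : ∀ i v, I i (I (i + 1) v) = I (i + 2) v
  skew : ∀ i u v, ⟪I i u, v⟫ = - ⟪u, I i v⟫

namespace QL

variable {I : Fin 3 → V →ₗ[ℝ] V}

theorem rot (h : QL I) (j : Fin 3) : QL (fun i => I (i + j)) where
  sq i v := h.sq _ v
  mul i v := by
    have e1 : i + 1 + j = (i + j) + 1 := by abel
    have e2 : i + 2 + j = (i + j) + 2 := by abel
    simp only [e1, e2]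
    exact h.mul _ v
  skew i u v := h.skew _ u v

/-- `I (i+1) I i = - I (i+2)`. -/
theorem mul' (h : QL I) (i : Fin 3) (v : V) : I (i + 1) (I i v) = - I (i + 2) v := by
  -- `I (i+1) = I (i+1+3) ..`: use `I (i+2) (I i v) = I (i+1) v`
  have e1 : i + 2 + 1 = i := by fin_cases i <;> rfl
  have e2 : i + 2 + 2 = i + 1 := by fin_cases i <;> rfl
  have h1 : I (i + 2) (I i v) = I (i + 1) v := by
    have := h.mul (i + 2) v
    rwa [e1, e2] at this
  have h2 : I (i + 1) (I (i + 2) (I i v)) = I i (I i v) := by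
    have := h.mul (i + 1) (I i v)
    have e3 : i + 1 + 1 = i + 2 := by fin_cases i <;> rfl
    have e4 : i + 1 + 2 = i := by fin_cases i <;> rfl
    rwa [e3, e4] at this
  -- `I (i+2) = I i I (i+1)`
  have h3 : I (i + 1) (I i v) = I (i + 1) (- I (i + 2) (I (i + 1) v)) := by
    have := h.mul (i + 1) (I (i + 1) v)
    have e3 : i + 1 + 1 = i + 2 := by fin_cases i <;> rfl
    have e4 : i + 1 + 2 = i := by fin_cases i <;> rfl
    rw [e3, e4] at this
    -- I (i+1) (I (i+2) (I (i+1) v)) = I i (I (i+1) v) = I (i+2) v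
    have h4 : I i (I (i + 1) v) = I (i + 2) v := h.mul i v
    have h5 : I (i + 2) (I (i + 1) v) = - I i v := by
      have h6 : I (i + 1) (I (i + 1) (I (i + 2) (I (i + 1) v))) = I (i + 1) (I (i + 2) v) := by
        rw [this, h4]
      rw [h.sq] at h6
      have h7 := h.mul (i + 1) v
      rw [e3, e4] at h7
      rw [h7] at h6
      rw [← h6, neg_neg]
    rw [h5, neg_neg]
  rw [h3, map_neg]
  have := h.mul (i + 1) (I (i + 1) v)
  have e3 : i + 1 + 1 = i + 2 := by fin_cases i <;> rfl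
  have e4 : i + 1 + 2 = i := by fin_cases i <;> rfl
  rw [e3, e4] at this
  rw [this, h.mul]

theorem mul_02 (h : QL I) (v : V) : I 0 (I 2 v) = - I 1 v := by
  have := h.mul' 2 v
  simpa using this

theorem mul_20 (h : QL I) (v : V) : I 2 (I 0 v) = I 1 v := by
  have := h.mul 2 v
  simpa using this

theorem mul_01 (h : QL I) (v : V) : I 0 (I 1 v) = I 2 v := by
  have := h.mul 0 v
  simpa using this

theorem mul_10 (h : QL I) (v : V) : I 1 (I 0 v) = - I 2 v := by
  have := h.mul' 0 v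
  simpa using this

theorem mul_12 (h : QL I) (v : V) : I 1 (I 2 v) = I 0 v := by
  have := h.mul 1 v
  simpa using this

theorem mul_21 (h : QL I) (v : V) : I 2 (I 1 v) = - I 0 v := by
  have := h.mul' 1 v
  simpa using this

theorem inner_self (h : QL I) (i : Fin 3) (v : V) : ⟪v, I i v⟫ = 0 := by
  have h1 := h.skew i v v
  rw [real_inner_comm] at h1
  linarith

theorem norm (h : QL I) (i : Fin 3) (u v : V) : ⟪I i u, I i v⟫ = ⟪u, v⟫ := by
  rw [h.skew, h.sq, inner_neg_right, neg_neg]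

/-- the orthonormal frame `X, I₀ X, I₁ X, I₂ X`. -/
theorem orthonormal (h : QL I) {X : V} (hX : ‖X‖ = 1) :
    Orthonormal ℝ ![X, I 0 X, I 1 X, I 2 X] := by
  have h0 : ∀ i, ⟪I i X, X⟫ = 0 := fun i => by rw [real_inner_comm]; exact h.inner_self i X
  have h01 : ⟪I 0 X, I 1 X⟫ = 0 := by rw [h.skew, h.mul_01, h.inner_self, neg_zero]
  have h02 : ⟪I 0 X, I 2 X⟫ = 0 := by
    rw [h.skew, h.mul_02, inner_neg_right, h.inner_self, neg_zero, neg_zero]
  have h12 : ⟪I 1 X, I 2 X⟫ = 0 := by rw [h.skew, h.mul_12, h.inner_self, neg_zero]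
  have h10 : ⟪I 1 X, I 0 X⟫ = 0 := by rw [real_inner_comm]; exact h01
  have h20 : ⟪I 2 X, I 0 X⟫ = 0 := by rw [real_inner_comm]; exact h02
  have h21 : ⟪I 2 X, I 1 X⟫ = 0 := by rw [real_inner_comm]; exact h12
  have hn : ∀ i, ⟪I i X, I i X⟫ = 1 := fun i => by
    rw [h.norm, real_inner_self_eq_norm_sq, hX, one_pow]
  have hn' : ∀ i, ‖I i X‖ = 1 := fun i => by
    have h1 := hn i
    rw [real_inner_self_eq_norm_sq] at h1
    nlinarith [norm_nonneg (I i X)]
  rw [orthonormal_iff_ite]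
  intro i j
  fin_cases i <;> fin_cases j <;>
    simp [h0, h.inner_self, h01, h02, h12, h10, h20, h21, hX, hn']

/-- expansion in the frame. -/
theorem expand (h : QL I) (h4 : Module.finrank ℝ V = 4) {X : V} (hX : ‖X‖ = 1) (u : V) :
    u = ⟪X, u⟫ • X + ⟪I 0 X, u⟫ • I 0 X + ⟪I 1 X, u⟫ • I 1 X + ⟪I 2 X, u⟫ • I 2 X := by
  have : FiniteDimensional ℝ V := Module.finite_of_finrank_pos (by rw [h4]; norm_num)
  have ho := h.orthonormal hX
  have hsp : ⊤ ≤ Submodule.span ℝ (Set.range ![X, I 0 X, I 1 X, I 2 X]) := by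
    rw [ho.linearIndependent.span_eq_top_of_card_eq_finrank' (by rw [Fintype.card_fin, h4])]
  have h1 := (OrthonormalBasis.mk ho hsp).sum_repr u
  rw [Fin.sum_univ_four] at h1
  simp only [OrthonormalBasis.repr_apply_apply, OrthonormalBasis.coe_mk] at h1
  exact h1.symm

/-- two endomorphisms which agree on the frame. -/
theorem ext_frame (h : QL I) (h4 : Module.finrank ℝ V = 4) {X : V} (hX : ‖X‖ = 1)
    {D E : V →ₗ[ℝ] V} (hx : D X = E X) (h0 : D (I 0 X) = E (I 0 X)) (h1 : D (I 1 X) = E (I 1 X))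
    (h2 : D (I 2 X) = E (I 2 X)) (u : V) : D u = E u := by
  rw [h.expand h4 hX u]
  simp only [map_add, map_smul, hx, h0, h1, h2]

/-- **a skew endomorphism which anticommutes with `I₀` is `α I₁ + β I₂`.** -/
theorem span0 (h : QL I) (h4 : Module.finrank ℝ V = 4) {D : V →ₗ[ℝ] V}
    (hs : ∀ u v, ⟪D u, v⟫ = - ⟪u, D v⟫) (ha : ∀ v, D (I 0 v) = - I 0 (D v)) :
    ∃ α β : ℝ, ∀ u, D u = α • I 1 u + β • I 2 u := by
  have : Nontrivial V := Module.nontrivial_of_finrank_pos (R := ℝ) (by rw [h4]; norm_num)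
  obtain ⟨X, hX⟩ := exists_norm_eq V (zero_le_one' ℝ)
  have hs0 : ∀ v, ⟪v, D v⟫ = 0 := by
    intro v
    have h1 := hs v v
    rw [real_inner_comm] at h1
    linarith
  -- first row
  have a0 : ⟪X, D X⟫ = 0 := hs0 X
  have a1 : ⟪I 0 X, D X⟫ = 0 := by
    have h1 : ⟪D (I 0 X), X⟫ = - ⟪I 0 X, D X⟫ := hs _ _
    rw [ha, inner_neg_left, h.skew, neg_neg] at h1
    have h2 : ⟪D X, I 0 X⟫ = ⟪I 0 X, D X⟫ := real_inner_comm _ _
    linarith
  set α := ⟪I 1 X, D X⟫ with hα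
  set β := ⟪I 2 X, D X⟫ with hβ
  have hDX : D X = α • I 1 X + β • I 2 X := by
    have h1 := h.expand h4 hX (D X)
    rw [a0, a1, ← hα, ← hβ, zero_smul, zero_smul, zero_add, zero_add] at h1
    exact h1
  -- second
  have hD0 : D (I 0 X) = β • I 1 X - α • I 2 X := by
    rw [ha, hDX, map_add, map_smul, map_smul, h.mul_01, h.mul_02, smul_neg]
    abel
  -- third
  have b0 : ⟪X, D (I 1 X)⟫ = -α := by
    have h1 : ⟪D X, I 1 X⟫ = - ⟪X, D (I 1 X)⟫ := hs _ _
    have h2 : ⟪D X, I 1 X⟫ = α := by rw [real_inner_comm]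
    linarith
  have b1 : ⟪I 0 X, D (I 1 X)⟫ = -β := by
    have h1 : ⟪D (I 0 X), I 1 X⟫ = - ⟪I 0 X, D (I 1 X)⟫ := hs _ _
    have h2 : ⟪D (I 0 X), I 1 X⟫ = β := by
      rw [hD0, inner_sub_left, inner_smul_left, inner_smul_left]
      have h3 : ⟪I 1 X, I 1 X⟫ = 1 := by rw [h.norm, real_inner_self_eq_norm_sq, hX, one_pow]
      have h5 : ⟪I 2 X, I 1 X⟫ = 0 := by
        rw [h.skew, h.mul_21, inner_neg_right, h.inner_self, neg_zero, neg_zero]
      rw [h3, h5]
      simp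
    linarith
  have b2 : ⟪I 1 X, D (I 1 X)⟫ = 0 := hs0 _
  have b3 : ⟪I 2 X, D (I 1 X)⟫ = 0 := by
    have h1 : ⟪D (I 2 X), I 1 X⟫ = - ⟪I 2 X, D (I 1 X)⟫ := hs _ _
    have h2 : D (I 2 X) = - I 0 (D (I 1 X)) := by
      rw [← h.mul_01 X, ha]
    rw [h2, inner_neg_left, h.skew, neg_neg, h.mul_01, real_inner_comm] at h1
    linarith
  have hD1 : D (I 1 X) = -α • X - β • I 0 X := by
    have h1 := h.expand h4 hX (D (I 1 X))
    rw [b0, b1, b2, b3, zero_smul, zero_smul, add_zero, add_zero] at h1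
    rw [h1, neg_smul β]; abel
  have hD2 : D (I 2 X) = α • I 0 X - β • X := by
    have h2 : D (I 2 X) = - I 0 (D (I 1 X)) := by
      rw [← h.mul_01 X, ha]
    rw [h2, hD1, map_sub, map_smul, map_smul, h.sq]
    module
  refine ⟨α, β, fun u => ?_⟩
  have h5 := h.ext_frame h4 hX (D := D) (E := α • I 1 + β • I 2) ?_ ?_ ?_ ?_ u
  · rw [h5]; rfl
  · rw [hDX]; rfl
  · rw [hD0]
    simp only [LinearMap.add_apply, LinearMap.smul_apply, h.mul_10, h.mul_20]
    module
  · rw [hD1]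
    simp only [LinearMap.add_apply, LinearMap.smul_apply, h.sq, h.mul_21]
    module
  · rw [hD2]
    simp only [LinearMap.add_apply, LinearMap.smul_apply, h.sq, h.mul_12]
    module

/-- the same for `I j`. -/
theorem span (h : QL I) (h4 : Module.finrank ℝ V = 4) (j : Fin 3) {D : V →ₗ[ℝ] V}
    (hs : ∀ u v, ⟪D u, v⟫ = - ⟪u, D v⟫) (ha : ∀ v, D (I j v) = - I j (D v)) :
    ∃ α β : ℝ, ∀ u, D u = α • I (j + 1) u + β • I (j + 2) u := by
  have h1 := (h.rot j).span0 h4 hs (by simpa using ha)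
  simpa [add_comm] using h1

/-- Parseval families. -/
theorem parseval_sq {κ : Type*} [Fintype κ] {s : κ → V} (h4 : Module.finrank ℝ V = 4)
    (hp : ∀ v, ∑ A, ⟪s A, v⟫ • s A = v) : ∑ A, ⟪s A, s A⟫ = 4 := by
  have : FiniteDimensional ℝ V := Module.finite_of_finrank_pos (by rw [h4]; norm_num)
  let b := stdOrthonormalBasis ℝ V
  have h1 : ∀ v : V, ∑ A, ⟪s A, v⟫ ^ 2 = ⟪v, v⟫ := by
    intro v
    conv_rhs => rw [← hp v, sum_inner]
    refine Finset.sum_congr rfl fun A _ => ?_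
    rw [inner_smul_left, hp v, pow_two]
    rfl
  have h2 : ∀ A, ⟪s A, s A⟫ = ∑ i, ⟪s A, b i⟫ ^ 2 := by
    intro A
    rw [← OrthonormalBasis.sum_inner_mul_inner b (s A) (s A)]
    refine Finset.sum_congr rfl fun i _ => ?_
    rw [real_inner_comm (b i) (s A), pow_two]
  simp only [h2]
  rw [Finset.sum_comm]
  simp only [h1]
  have h3 : ∀ i, ⟪b i, b i⟫ = (1 : ℝ) := by
    intro i
    rw [real_inner_self_eq_norm_sq, b.orthonormal.1 i, one_pow]
  simp only [h3, Finset.sum_const, Finset.card_univ, Fintype.card_fin, h4]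
  norm_num

theorem parseval_ij (h : QL I) {κ : Type*} [Fintype κ] {s : κ → V} (h4 : Module.finrank ℝ V = 4)
    (hp : ∀ v, ∑ A, ⟪s A, v⟫ • s A = v) (j : Fin 3) :
    ∑ A, ⟪I j (s A), I j (s A)⟫ = 4 ∧ ∑ A, ⟪I j (s A), I (j + 1) (s A)⟫ = 0 ∧
      ∑ A, ⟪I (j + 1) (s A), I j (s A)⟫ = 0 := by
  have h1 : ∀ v, ⟪I j v, I (j + 1) v⟫ = 0 := by
    intro v
    rw [h.skew, h.mul, h.inner_self, neg_zero]
  refine ⟨?_, ?_, ?_⟩
  · simp only [h.norm]
    exact parseval_sq h4 hp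
  · simp only [h1, Finset.sum_const_zero]
  · simp only [real_inner_comm, h1, Finset.sum_const_zero]

end QL

end Crest.Agent.R235.QLin_399
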