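import Mathlib
import Crest.Agent.R240.Lin5
import Crest.Agent.R240.Ch3

/-!
Row 235 (S0364), package CUR, helper489: LEMMA QLOG, part A: the exact identity (I3) for a closed
current `φ ds` on an open subset of `E4`.
-/

set_option autoImplicit false
set_option maxSynthPendingDepth 3

open Set Function Filter MeasureTheory Metric
open scoped ContDiff Topology RealInnerProductSpace

namespace Crest.Agent.R235.QLog_489

open Crest.Agent.R240 Crest.Agent.R240.Ch

noncomputable section

/-- the covector `⟨z, ·⟩`. -/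
def fl (z : E4) : E4 →L[ℝ] ℝ := innerSL ℝ z

@[simp] theorem fl_apply (z v : E4) : fl z v = ⟪z, v⟫ := rfl

theorem fl_ee (z : E4) (i : Fin 4) : fl z (ee i) = z i := by
  simp [fl, ee, PiLp.inner_apply]

theorem norm_fl (z : E4) : ‖fl z‖ = ‖z‖ := innerSL_apply_norm ℝ z

theorem norm_sq4 (v : E4) : ‖v‖ ^ 2 = v 0 ^ 2 + v 1 ^ 2 + v 2 ^ 2 + v 3 ^ 2 := by
  rw [EuclideanSpace.norm_sq_eq]
  simp [Fin.sum_univ_four]

/-- `ι_z (z♭ ∧ b ∧ c) = 0`. -/
theorem W_key {b c : Bil} (hb : Alt b) (hc : Alt c) (z : E4) :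
    W b (wed (fl z) (c z)) + W c (wed (fl z) (b z)) = ‖z‖ ^ 2 * W b c := by
  have h1 : ∀ i j : Fin 4, ent (wed (fl z) (c z)) i j = z i * c z (ee j) - z j * c z (ee i) := by
    intro i j
    simp only [ent, wed_apply, fl_ee]
    ring
  have h2 : ∀ i j : Fin 4, ent (wed (fl z) (b z)) i j = z i * b z (ee j) - z j * b z (ee i) := by
    intro i j
    simp only [ent, wed_apply, fl_ee]
    ring
  rw [norm_sq4]
  unfold W
  simp only [h1, h2, alt_expand hb z, alt_expand hc z]
  simp
  ring

end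

end Crest.Agent.R235.QLog_489
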