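import Crest.Agent.R235.Clif4_723
import Crest.Agent.R235.SymQ_755
import Crest.Agent.R235.HodgeAda_194
import Crest.Agent.R235.HodgeEnd_194

/-!
Row 235 (S0364), block FAM / RC, leaf RC7 (helper723), part 2: the alternating sum of four Clifford
multiplications of a quaternionic Clifford pair.

`h : Pt q P Jf Kt z j0 j1 b` (helper755), `X : Fin 4 → T_z M`:

* `alt_cc0` : `∑_σ sgn σ c(X_σ0)ᵀ c(X_σ1) c(X_σ2)ᵀ c(X_σ3) = 24 det⟨X_i, b_j⟩ p_0`;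
* `alt_cc1` : `∑_σ sgn σ c(X_σ0) c(X_σ1)ᵀ c(X_σ2) c(X_σ3)ᵀ = - 24 det⟨X_i, b_j⟩ p_1`;
* `volF_b`  : `volF F z X = - det⟨X_i, b_j⟩` if `F(u,v) = ⟨I_0 u, v⟩`;
* `alt_vol0`, `alt_vol1` : hence `-24 volF F z X p_0`, `24 volF F z X p_1`;
* `volF_wed` : `volF F z X = 2 q(F; s_0∧s_1, s_2∧s_3)` if `s_i = ⟨X_i, ·⟩`;
* `int_volF` : `∫ volF (w 0) z (X z) dμ = pI (w 0) a b`.
-/

set_option autoImplicit false
set_option maxSynthPendingDepth 3
set_option linter.unusedSectionVars false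
set_option linter.unusedVariables false
set_option maxHeartbeats 1000000

open Set Function Filter MeasureTheory Bundle
open Matrix hiding J
open scoped Manifold ContDiff Topology ENNReal
open Crest.GeometryTopology.CoordMetric Crest.GeometryTopology.ChartCurvature

namespace Crest.Agent.R235.RC7_723

open Crest.Agent.R240 Crest.Agent.R240.Ch Crest.Agent.R240.Int
open Crest.Agent.R249.Vf281 Crest.Agent.R249.Tz2_805 Crest.Agent.R249.Tz805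
open Crest.Agent.R249.C2_198 hiding cp half_two
open Crest.Agent.R235.Ind167 Crest.Agent.R235.Mdl2_755 Crest.Agent.R235.SymQ_755
open Crest.Agent.R235.RiemC_399
open Crest.Agent.R235.IndVol_57 (WF WF_vol Cpt)

noncomputable section

theorem WF_wed (α : Fin 4 → (E4 →L[ℝ] ℝ)) (v : Fin 4 → E4) :
    WF (wed (α 0) (α 1)) (wed (α 2) (α 3)) v = (Matrix.of fun i j => α i (v j)).det := by
  unfold WF
  simp only [wed_apply]
  rw [Matrix.det_succ_row_zero]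
  simp only [Fin.sum_univ_succ, Matrix.det_fin_three, Matrix.submatrix_apply, Matrix.of_apply,
    Fin.sum_univ_zero]
  simp [Fin.succAbove, Fin.lt_def]
  ring

theorem tr3 {a b c d : Type*} [Fintype a] [Fintype b] [Fintype c] (A : Matrix d a ℝ)
    (D : Matrix a b ℝ) (B : Matrix c b ℝ) : (A * D * Bᵀ)ᵀ = B * Dᵀ * Aᵀ := by
  rw [Matrix.transpose_mul, Matrix.transpose_mul, Matrix.transpose_transpose, Matrix.mul_assoc]

theorem dd_t {m n : Type*} (C : Fin 4 → Matrix m n ℝ) (x : Fin 4 → ℝ) :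
    (dd C x)ᵀ = dd (fun k => (C k)ᵀ) x := by
  unfold dd
  rw [Matrix.transpose_sum]
  exact Finset.sum_congr rfl fun k _ => Matrix.transpose_smul _ _

section pt

variable {M : Type*} [TopologicalSpace M] [ChartedSpace (EuclideanSpace ℝ (Fin 4)) M]
  [IsManifold 𝓘(ℝ, EuclideanSpace ℝ (Fin 4)) ∞ M]
  [RiemannianBundle (fun x : M => TangentSpace 𝓘(ℝ, EuclideanSpace ℝ (Fin 4)) x)]
  [IsContMDiffRiemannianBundle 𝓘(ℝ, EuclideanSpace ℝ (Fin 4)) ∞ (EuclideanSpace ℝ (Fin 4))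
      (fun x : M => TangentSpace 𝓘(ℝ, EuclideanSpace ℝ (Fin 4)) x)]

variable {κ κ0 κ1 : Type} [Fintype κ] [Fintype κ0] [Fintype κ1]
  {q : QS M} {P : CPair 4 M κ κ0 κ1} {Jf : κ0 → κ0 → M → ℝ}
  {Kt : Fin 3 → κ0 → κ0 → M → ℝ} {z : M} {j0 : Matrix κ0 (Fin 4) ℝ} {j1 : Matrix κ1 (Fin 4) ℝ}
  {b : Fin 4 → TangentSpace 𝓘(ℝ, EuclideanSpace ℝ (Fin 4)) z} (h : Pt q P Jf Kt z j0 j1 b)
  (X : Fin 4 → TangentSpace 𝓘(ℝ, EuclideanSpace ℝ (Fin 4)) z)

/-- the components of the vectors in a frame. -/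
def cpt (b : Fin 4 → TangentSpace 𝓘(ℝ, EuclideanSpace ℝ (Fin 4)) z) 
    (X : Fin 4 → TangentSpace 𝓘(ℝ, EuclideanSpace ℝ (Fin 4)) z) (i j : Fin 4) : ℝ :=
  (inner ℝ (X i) (b j) : ℝ)

/-- their determinant. -/
def dt (b : Fin 4 → TangentSpace 𝓘(ℝ, EuclideanSpace ℝ (Fin 4)) z) 
    (X : Fin 4 → TangentSpace 𝓘(ℝ, EuclideanSpace ℝ (Fin 4)) z) : ℝ := (Matrix.of (cpt b X)).det

theorem q_self (q : QS M) (v : TangentSpace 𝓘(ℝ, EuclideanSpace ℝ (Fin 4)) z) :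
    (inner ℝ (q.op 0 z v) v : ℝ) = 0 := by
  rw [real_inner_comm]
  exact q.inner_self_op 0 z v

include h

theorem ccX_dd (i : Fin 4) : ccX P.cc z (X i) = j1 * dd (fun k => cK ℝ k) (cpt b X i) * j0ᵀ :=
  h.cc (X i)

theorem ccX_dd_t (i : Fin 4) :
    (ccX P.cc z (X i))ᵀ = j0 * dd (fun k => (cK ℝ k)ᵀ) (cpt b X i) * j1ᵀ := by
  rw [ccX_dd h, Matrix.transpose_mul, Matrix.transpose_mul, Matrix.transpose_transpose,
    ← Matrix.mul_assoc]
  have h1 : (dd (fun k => cK ℝ k) (cpt b X i))ᵀ = dd (fun k => (cK ℝ k)ᵀ) (cpt b X i) := by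
    unfold dd
    rw [Matrix.transpose_sum]
    exact Finset.sum_congr rfl fun k _ => Matrix.transpose_smul _ _
  rw [h1]

theorem alt_cc0 : alt4 (fun i => (ccX P.cc z (X i))ᵀ) (fun i => ccX P.cc z (X i)) =
    (24 * dt b X) • pz P.D0 z := by
  have h1 : (fun i => (ccX P.cc z (X i))ᵀ) =
      fun i => j0 * dd (fun k => (cK ℝ k)ᵀ) (cpt b X i) * j1ᵀ := funext (ccX_dd_t h X)
  have h2 : (fun i => ccX P.cc z (X i)) =
      fun i => j1 * dd (fun k => cK ℝ k) (cpt b X i) * j0ᵀ := funext (ccX_dd h X)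
  rw [h1, h2, alt4_conj h.tj0 h.tj1, alt4_dd, alt4_cK0, ← h.jt0, Matrix.mul_smul, Matrix.mul_smul,
    Matrix.smul_mul, Matrix.smul_mul, Matrix.mul_one, smul_smul]
  congr 1
  rw [mul_comm]
  rfl

theorem alt_cc1 : alt4 (fun i => ccX P.cc z (X i)) (fun i => (ccX P.cc z (X i))ᵀ) =
    (-24 * dt b X) • pz P.D1 z := by
  have h1 : (fun i => (ccX P.cc z (X i))ᵀ) =
      fun i => j0 * dd (fun k => (cK ℝ k)ᵀ) (cpt b X i) * j1ᵀ := funext (ccX_dd_t h X)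
  have h2 : (fun i => ccX P.cc z (X i)) =
      fun i => j1 * dd (fun k => cK ℝ k) (cpt b X i) * j0ᵀ := funext (ccX_dd h X)
  rw [h1, h2, alt4_conj h.tj1 h.tj0, alt4_dd, alt4_cK1, ← h.jt1, Matrix.mul_smul, Matrix.mul_smul,
    Matrix.smul_mul, Matrix.smul_mul, Matrix.mul_one, smul_smul]
  congr 1
  rw [mul_comm]
  rfl

variable {F : F2 (EuclideanSpace ℝ (Fin 4)) M}
  (hF : ∀ (u v : TangentSpace 𝓘(ℝ, EuclideanSpace ℝ (Fin 4)) z),
    at2 F z u v = inner ℝ (q.op 0 z u) v)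

include hF

theorem F_b (i j : Fin 4) : at2 F z (b i) (b j) = K ℝ 0 j i := by
  exact (hF _ _).trans ((real_inner_comm _ _).trans (h.adp 0 j i))

theorem alt_F : Alt (at2 F z) := by
  intro v
  exact (hF v v).trans (q_self q _)

theorem WF_b : WF (at2 F z) (at2 F z) b = -2 := by
  unfold WF
  simp only [F_b h hF]
  simp [K]
  norm_num

/-- **the volume form in the frame** -/
theorem volF_b : volF F z X = - dt b X := by
  unfold volF
  have h1 : (X : Fin 4 → E4) = fun i => ∑ a, cpt b X i a • (b a : E4) := by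
    funext i
    exact (h.ex (X i)).symm
  have h2 := WF_change (alt_F h hF) (alt_F h hF) (fun a => (b a : E4)) (Matrix.of (cpt b X))
  have h4 : WF (at2 F z) (at2 F z) (X : Fin 4 → E4) = dt b X * 
      WF (at2 F z) (at2 F z) (fun a => (b a : E4)) :=
    (congrArg (WF (at2 F z) (at2 F z)) h1).trans h2
  refine (congrArg (fun r : ℝ => r / 2) h4).trans ?_
  have h3 : WF (at2 F z) (at2 F z) (fun a => (b a : E4)) = -2 := WF_b h hF
  rw [h3]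
  ring

theorem alt_vol0 : alt4 (fun i => (ccX P.cc z (X i))ᵀ) (fun i => ccX P.cc z (X i)) =
    (-24 * volF F z X) • pz P.D0 z := by
  rw [alt_cc0 h, volF_b h X hF]
  congr 1
  ring

theorem alt_vol1 : alt4 (fun i => ccX P.cc z (X i)) (fun i => (ccX P.cc z (X i))ᵀ) =
    (24 * volF F z X) • pz P.D1 z := by
  rw [alt_cc1 h, volF_b h X hF]
  congr 1
  ring

/-- `2 q(F; α_0∧α_1, α_2∧α_3) = vol_F(X)` if `α_i = ⟨X_i, ·⟩`. -/
theorem volF_wed {α : Fin 4 → (E4 →L[ℝ] ℝ)}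
    (hα : ∀ (i : Fin 4) (v : TangentSpace 𝓘(ℝ, EuclideanSpace ℝ (Fin 4)) z),
      α i v = inner ℝ (X i) v) (h0 : W (at2 F z) (at2 F z) ≠ 0) :
    2 * Crest.Agent.R240.q (at2 F z) (wed (α 0) (α 1)) (wed (α 2) (α 3)) = volF F z X := by
  have hw : ∀ i j, Alt (wed (α i) (α j)) := by
    intro i j v
    rw [wed_apply]
    ring
  have h1 := WF_vol (alt_F h hF) (hw 0 1) (hw 2 3) h0 (fun a => (b a : E4))
  have h2 : WF (at2 F z) (at2 F z) (fun a => (b a : E4)) = -2 := WF_b h hF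
  have h3 : WF (wed (α 0) (α 1)) (wed (α 2) (α 3)) (fun a => (b a : E4)) = dt b X := by
    refine (WF_wed α (fun a => (b a : E4))).trans ?_
    have e : (fun i k => α i (b k : E4)) = cpt b X := by
      funext i k
      exact hα i (b k)
    exact congrArg (fun A : Fin 4 → Fin 4 → ℝ => (Matrix.of A).det) e
  rw [h2, h3] at h1
  rw [volF_b h X hF]
  linarith

omit hF

/-- the matrix `c(X) i`. -/
def bm (P : CPair 4 M κ κ0 κ1) (Jf : κ0 → κ0 → M → ℝ) (z : M)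
    (X : Fin 4 → TangentSpace 𝓘(ℝ, EuclideanSpace ℝ (Fin 4)) z) (i : Fin 4) : Matrix κ1 κ0 ℝ :=
  ccX P.cc z (X i) * Matrix.of fun y' y => Jf y' y z

theorem bm_eq (i : Fin 4) :
    bm P Jf z X i = j1 * dd (fun k => cK ℝ k) (cpt b X i) * (j0 * (J ℝ 0)ᵀ)ᵀ := by
  unfold bm
  rw [ccX_dd h, h.hJ, Matrix.transpose_mul, Matrix.transpose_transpose]
  calc j1 * dd (fun k => cK ℝ k) (cpt b X i) * j0ᵀ * (j0 * J ℝ 0 * j0ᵀ) =
      j1 * dd (fun k => cK ℝ k) (cpt b X i) * ((j0ᵀ * j0) * (J ℝ 0 * j0ᵀ)) := by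
        simp only [Matrix.mul_assoc]
    _ = _ := by rw [h.tj0, Matrix.one_mul]

theorem bm_eq_t (i : Fin 4) : (bm P Jf z X i)ᵀ =
    (j0 * (J ℝ 0)ᵀ) * dd (fun k => (cK ℝ k)ᵀ) (cpt b X i) * j1ᵀ := by
  rw [bm_eq h, tr3, dd_t]

theorem J0_ort : J ℝ 0 * (J ℝ 0)ᵀ = 1 ∧ (J ℝ 0)ᵀ * J ℝ 0 = 1 := by
  rw [J0_t]
  constructor
  · rw [mul_neg, J0_sq, neg_neg]
  · rw [neg_mul, J0_sq, neg_neg]

/-- **the alternating sum for `b_i = c(X_i) i`** -/
theorem alt_bm : alt4 (fun i => (bm P Jf z X i)ᵀ) (fun i => bm P Jf z X i) =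
    (24 * dt b X) • pz P.D0 z := by
  have h1 : (fun i => (bm P Jf z X i)ᵀ) =
      fun i => (j0 * (J ℝ 0)ᵀ) * dd (fun k => (cK ℝ k)ᵀ) (cpt b X i) * j1ᵀ := funext (bm_eq_t h X)
  have h2 : (fun i => bm P Jf z X i) =
      fun i => j1 * dd (fun k => cK ℝ k) (cpt b X i) * (j0 * (J ℝ 0)ᵀ)ᵀ := funext (bm_eq h X)
  have h3 : (j0 * (J ℝ 0)ᵀ)ᵀ * (j0 * (J ℝ 0)ᵀ) = 1 := by
    rw [Matrix.transpose_mul, Matrix.transpose_transpose]
    calc J ℝ 0 * j0ᵀ * (j0 * (J ℝ 0)ᵀ) = J ℝ 0 * ((j0ᵀ * j0) * (J ℝ 0)ᵀ) := by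
          simp only [Matrix.mul_assoc]
      _ = 1 := by rw [h.tj0, Matrix.one_mul, (J0_ort h).1]
  have h4 : (j0 * (J ℝ 0)ᵀ) * (j0 * (J ℝ 0)ᵀ)ᵀ = pz P.D0 z := by
    rw [Matrix.transpose_mul, Matrix.transpose_transpose, ← h.jt0]
    calc j0 * (J ℝ 0)ᵀ * (J ℝ 0 * j0ᵀ) = j0 * (((J ℝ 0)ᵀ * J ℝ 0) * j0ᵀ) := by
          simp only [Matrix.mul_assoc]
      _ = j0 * j0ᵀ := by rw [(J0_ort h).2, Matrix.one_mul]
  rw [h1, h2, alt4_conj h3 h.tj1, alt4_dd, alt4_cK0, ← h4, Matrix.mul_smul, Matrix.mul_smul,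
    Matrix.smul_mul, Matrix.smul_mul, Matrix.mul_one, smul_smul]
  congr 1
  rw [mul_comm]
  rfl

/-- **the trace**: `∑_σ sgn σ tr (b_σ0ᵀ b_σ1 b_σ2ᵀ b_σ3) = 96 det⟨X_i, b_j⟩`. -/
theorem trace_bm : (alt4 (fun i => (bm P Jf z X i)ᵀ) (fun i => bm P Jf z X i)).trace =
    96 * dt b X := by
  rw [alt_bm h, Matrix.trace_smul, h.trace0, smul_eq_mul]
  ring

include hF in
theorem trace_vol : (alt4 (fun i => (bm P Jf z X i)ᵀ) (fun i => bm P Jf z X i)).trace =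
    -96 * volF F z X := by
  rw [trace_bm h, volF_b h X hF]
  ring

omit h in
/-- the matrix of `c(a) i`. -/
theorem sum_al (a : κ → ℝ) (x : κ1) (y : κ0) : ∑ A, a A * clJ P Jf A x y z =
    (ccX P.cc z (∑ A, a A • P.s.s A z) * Matrix.of fun y' y => Jf y' y z) x y := by
  rw [ccX_sum]
  simp only [ccX_smul, Matrix.sum_mul, Matrix.smul_mul, Matrix.sum_apply, Matrix.smul_apply,
    smul_eq_mul]
  refine Finset.sum_congr rfl fun A _ => ?_
  simp only [Matrix.mul_apply, ccX, Matrix.of_apply, clJ]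

end pt

end

end Crest.Agent.R235.RC7_723
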