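import Crest.Agent.R235.RCSt_746
import Crest.Agent.R235.Rc0_820

/-!
Row 235, block FAM/RC (helper746): APPROXIMATION NUMBERS OF THE RESOLVENT `Cr j D 1` of helper820
from approximation numbers of the embedding `j` alone (`D` of closed range and finite corank):
`app_res : Coer j D → AppJ j → IsClosed (range D) → FiniteDimensional (range D)ᗮ →
  ∃ c, App (Cr j D 1) c (1/4)`.
-/

set_option autoImplicit false
set_option linter.unusedSectionVars false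

open scoped InnerProductSpace ContDiff Topology
open Complex Filter Crest.Agent.R235.RCTr_746 Crest.Agent.R235.RCSt_746 Crest.Agent.R235.Rc0_820

namespace Crest.Agent.R235.RCApp_746

noncomputable section

/-! ### general facts on approximation numbers -/

section gen

variable {H : Type*} [NormedAddCommGroup H] [InnerProductSpace ℂ H] [CompleteSpace H]

lemma rk_star {F : H →L[ℂ] H} {n : ℕ} (hF : Rk F n) : Rk (star F) n := by
  have hfd := hF.1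
  set S := LinearMap.range (F : H →ₗ[ℂ] H) with hS
  let F' : H →L[ℂ] S := F.codRestrict S (fun x => ⟨x, rfl⟩)
  have e : F = S.subtypeL ∘L F' := by ext x; rfl
  have hle : LinearMap.range ((star F : H →L[ℂ] H) : H →ₗ[ℂ] H) ≤
      LinearMap.range ((ContinuousLinearMap.adjoint F' : S →L[ℂ] H) : S →ₗ[ℂ] H) := by
    rintro _ ⟨x, rfl⟩
    refine ⟨ContinuousLinearMap.adjoint S.subtypeL x, ?_⟩
    have h1 : star F = ContinuousLinearMap.adjoint F' ∘L ContinuousLinearMap.adjoint S.subtypeL := by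
      rw [ContinuousLinearMap.star_eq_adjoint, ← ContinuousLinearMap.adjoint_comp, ← e]
    rw [h1]; rfl
  refine ⟨Submodule.finiteDimensional_of_le hle, (Submodule.finrank_mono hle).trans ?_⟩
  exact (LinearMap.finrank_range_le _).trans hF.2

lemma Ap.star {T : H →L[ℂ] H} {a : ℝ} (hT : Ap T a) : Ap (star T) a := by
  obtain ⟨c, hc⟩ := hT
  refine ⟨c, fun n => ?_⟩
  obtain ⟨F, h1, h2⟩ := hc n
  refine ⟨Star.star F, rk_star h1, ?_⟩
  rw [← star_sub, norm_star]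
  exact h2

lemma Ap.mono {T : H →L[ℂ] H} {a b : ℝ} (hT : Ap T a) (hab : b ≤ a) : Ap T b := by
  obtain ⟨c, hc⟩ := hT
  refine ⟨c, fun n => ?_⟩
  obtain ⟨F, h1, h2⟩ := hc n
  refine ⟨F, h1, h2.trans (mul_le_mul_of_nonneg_left ?_ hc.nonneg)⟩
  exact Real.rpow_le_rpow_of_exponent_le (by linarith [(Nat.cast_nonneg n : (0:ℝ) ≤ n)])
    (neg_le_neg hab)

lemma Ap.of_rk {T : H →L[ℂ] H} {r : ℕ} (hT : Rk T r) {a : ℝ} (ha : 0 ≤ a) : Ap T a := by
  refine ⟨‖T‖ * ((r : ℝ) + 1) ^ a, fun n => ?_⟩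
  by_cases hn : r ≤ n
  · refine ⟨T, hT.mono hn, ?_⟩
    rw [sub_self, norm_zero]
    positivity
  · push Not at hn
    refine ⟨0, (Rk.zero).mono (Nat.zero_le n), ?_⟩
    rw [sub_zero, mul_assoc]
    refine le_mul_of_one_le_right (norm_nonneg _) ?_
    rw [Real.rpow_neg (by positivity), ← div_eq_mul_inv, one_le_div (by positivity)]
    refine Real.rpow_le_rpow (by positivity) ?_ ha
    have : (n : ℝ) < r := by exact_mod_cast hn
    linarith

lemma Ap.smul {T : H →L[ℂ] H} {a : ℝ} (hT : Ap T a) (z : ℂ) : Ap (z • T) a := by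
  have := hT.left (z • (1 : H →L[ℂ] H))
  rwa [smul_mul_assoc, one_mul] at this

lemma Ap.add {S T : H →L[ℂ] H} {a : ℝ} (hS : Ap S a) (hT : Ap T a) (ha : 0 ≤ a) :
    Ap (S + T) a := by
  obtain ⟨c, hc⟩ := hS
  obtain ⟨d, hd⟩ := hT
  refine ⟨(c + d) * 2 ^ a, fun n => ?_⟩
  obtain ⟨F, h1, h2⟩ := hc (n / 2)
  obtain ⟨G, h3, h4⟩ := hd (n / 2)
  refine ⟨F + G, (h1.add h3).mono (by omega), ?_⟩
  have e : S + T - (F + G) = (S - F) + (T - G) := by abel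
  rw [e]
  refine (norm_add_le _ _).trans ?_
  have h5 : ((n : ℝ) + 1) / 2 ≤ ((n / 2 : ℕ) : ℝ) + 1 := by
    have : n ≤ 2 * (n / 2) + 1 := by omega
    have h6 : (n : ℝ) ≤ 2 * ((n / 2 : ℕ) : ℝ) + 1 := by exact_mod_cast this
    linarith
  have h7 : 0 < ((n : ℝ) + 1) / 2 := by positivity
  have h8 : (((n / 2 : ℕ) : ℝ) + 1) ^ (-a) ≤ 2 ^ a * ((n : ℝ) + 1) ^ (-a) := by
    have h9 := Real.rpow_le_rpow_of_nonpos h7 h5 (neg_nonpos.2 ha)
    refine h9.trans (le_of_eq ?_)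
    rw [Real.div_rpow (by positivity) (by norm_num), Real.rpow_neg (by norm_num : (0:ℝ) ≤ 2) a,
      div_inv_eq_mul, mul_comm]
  calc ‖S - F‖ + ‖T - G‖ ≤ c * (((n / 2 : ℕ) : ℝ) + 1) ^ (-a) +
        d * (((n / 2 : ℕ) : ℝ) + 1) ^ (-a) := add_le_add h2 h4
    _ = (c + d) * (((n / 2 : ℕ) : ℝ) + 1) ^ (-a) := by ring
    _ ≤ (c + d) * (2 ^ a * ((n : ℝ) + 1) ^ (-a)) :=
        mul_le_mul_of_nonneg_left h8 (add_nonneg hc.nonneg hd.nonneg)
    _ = _ := by ring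

end gen

variable {X H0 H1 : Type*} [NormedAddCommGroup X] [InnerProductSpace ℂ X] [CompleteSpace X]
  [NormedAddCommGroup H0] [InnerProductSpace ℂ H0] [CompleteSpace H0]
  [NormedAddCommGroup H1] [InnerProductSpace ℂ H1] [CompleteSpace H1]

local notation "⟪" x ", " y "⟫" => inner ℂ x y

/-- approximation numbers of the embedding. -/
def AppJ (j : X →L[ℂ] H0) : Prop :=
  ∃ c : ℝ, ∀ n : ℕ, ∃ F : X →L[ℂ] H0,
    FiniteDimensional ℂ (LinearMap.range (F : X →ₗ[ℂ] H0)) ∧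
    Module.finrank ℂ (LinearMap.range (F : X →ₗ[ℂ] H0)) ≤ n ∧
    ‖j - F‖ ≤ c * ((n : ℝ) + 1) ^ (-(1 / 4 : ℝ))

/-- the projections. -/
def E0 : HT H0 H1 →L[ℂ] HT H0 H1 := pr (p0 H0 H1) 0

/-- the projections. -/
def E1 : HT H0 H1 →L[ℂ] HT H0 H1 := pr 0 (p1 H0 H1)

lemma E0_add_E1 : (E0 : HT H0 H1 →L[ℂ] HT H0 H1) + E1 = 1 := by
  ext1 x
  refine ext_HT ?_ ?_
  · show x.fst + 0 = x.fst
    rw [add_zero]
  · show 0 + x.snd = x.snd
    rw [zero_add]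

lemma E0_sq : (E0 : HT H0 H1 →L[ℂ] HT H0 H1) * E0 = E0 := by
  ext1 x; exact ext_HT rfl rfl

lemma E1_sq : (E1 : HT H0 H1 →L[ℂ] HT H0 H1) * E1 = E1 := by
  ext1 x; exact ext_HT rfl rfl

lemma E0_gr : (E0 : HT H0 H1 →L[ℂ] HT H0 H1) * gr H0 H1 = E0 := by
  ext1 x; exact ext_HT rfl rfl

lemma gr_E0 : gr H0 H1 * (E0 : HT H0 H1 →L[ℂ] HT H0 H1) = E0 := by
  ext1 x
  refine ext_HT rfl ?_
  show -(0 : H1) = 0
  rw [neg_zero]

lemma E1_gr : (E1 : HT H0 H1 →L[ℂ] HT H0 H1) * gr H0 H1 = (-1 : ℂ) • E1 := by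
  ext1 x
  refine ext_HT ?_ ?_
  · show (0 : H0) = (-1 : ℂ) • 0
    rw [smul_zero]
  · show -x.snd = (-1 : ℂ) • x.snd
    rw [neg_one_smul]

lemma gr_E1 : gr H0 H1 * (E1 : HT H0 H1 →L[ℂ] HT H0 H1) = (-1 : ℂ) • E1 := by
  ext1 x
  refine ext_HT ?_ ?_
  · show (0 : H0) = (-1 : ℂ) • 0
    rw [smul_zero]
  · show -x.snd = (-1 : ℂ) • x.snd
    rw [neg_one_smul]

lemma E0_sa : star (E0 : HT H0 H1 →L[ℂ] HT H0 H1) = E0 := by
  rw [ContinuousLinearMap.star_eq_adjoint]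
  symm
  rw [ContinuousLinearMap.eq_adjoint_iff]
  intro x y
  rw [inner_HT, inner_HT]
  show ⟪x.fst, y.fst⟫ + ⟪(0 : H1), y.snd⟫ = ⟪x.fst, y.fst⟫ + ⟪x.snd, (0 : H1)⟫
  rw [inner_zero_left, inner_zero_right]

lemma E1_sa : star (E1 : HT H0 H1 →L[ℂ] HT H0 H1) = E1 := by
  rw [ContinuousLinearMap.star_eq_adjoint]
  symm
  rw [ContinuousLinearMap.eq_adjoint_iff]
  intro x y
  rw [inner_HT, inner_HT]
  show ⟪(0 : H0), y.fst⟫ + ⟪x.snd, y.snd⟫ = ⟪x.fst, (0 : H0)⟫ + ⟪x.snd, y.snd⟫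
  rw [inner_zero_left, inner_zero_right]

section main

variable {j : X →L[ℂ] H0} {D : X →L[ℂ] H1}

lemma ap_E0K (hj : AppJ j) : Ap (E0 * Cr j D 1) (1 / 4) := by
  obtain ⟨c, hc⟩ := hj
  have hc0 : 0 ≤ c := by
    obtain ⟨F, -, -, h⟩ := hc 0
    have := (norm_nonneg _).trans h
    simpa using this
  refine ⟨c * ‖So j D 1‖, fun n => ?_⟩
  obtain ⟨F, h1, h2, h3⟩ := hc n
  refine ⟨pr (F ∘L So j D 1) 0, ?_, ?_⟩
  · set S := LinearMap.range (F : X →ₗ[ℂ] H0) with hS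
    let i0 : H0 →L[ℂ] HT H0 H1 := pr (ContinuousLinearMap.id ℂ H0) 0
    have hle : LinearMap.range ((pr (F ∘L So j D 1) 0 : HT H0 H1 →L[ℂ] HT H0 H1) :
        HT H0 H1 →ₗ[ℂ] HT H0 H1) ≤ S.map (i0 : H0 →ₗ[ℂ] HT H0 H1) := by
      rintro _ ⟨x, rfl⟩
      exact ⟨F (So j D 1 x), ⟨_, rfl⟩, rfl⟩
    exact ⟨Submodule.finiteDimensional_of_le hle, (Submodule.finrank_mono hle).trans
      ((Submodule.finrank_map_le _ _).trans h2)⟩
  · refine ContinuousLinearMap.opNorm_le_bound _ (by positivity) fun x => ?_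
    have e : ((E0 : HT H0 H1 →L[ℂ] HT H0 H1) * Cr j D 1 -
        (pr (F ∘L So j D 1) 0 : HT H0 H1 →L[ℂ] HT H0 H1)) x =
        (pr ((j - F) ∘L So j D 1) 0 : HT H0 H1 →L[ℂ] HT H0 H1) x := by
      refine ext_HT ?_ ?_
      · show j (So j D 1 x) - F (So j D 1 x) = (j - F) (So j D 1 x)
        rfl
      · show (0 : H1) - 0 = 0
        rw [sub_zero]
    rw [e]
    have h4 : ‖(pr ((j - F) ∘L So j D 1) 0 : HT H0 H1 →L[ℂ] HT H0 H1) x‖ =
        ‖(j - F) (So j D 1 x)‖ := by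
      have h5 := norm_HT ((pr ((j - F) ∘L So j D 1) 0 : HT H0 H1 →L[ℂ] HT H0 H1) x)
      rw [pr_fst, pr_snd] at h5
      have h6 : ‖((0 : HT H0 H1 →L[ℂ] H1) x)‖ = 0 := by simp
      rw [h6] at h5
      have h7 : ‖(pr ((j - F) ∘L So j D 1) 0 : HT H0 H1 →L[ℂ] HT H0 H1) x‖ ^ 2 =
        ‖(j - F) (So j D 1 x)‖ ^ 2 := by rw [h5]; simp
      exact (sq_eq_sq₀ (norm_nonneg _) (norm_nonneg _)).1 h7
    rw [h4]
    calc ‖(j - F) (So j D 1 x)‖ ≤ ‖j - F‖ * ‖So j D 1 x‖ := (j - F).le_opNorm _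
      _ ≤ (c * ((n : ℝ) + 1) ^ (-(1 / 4 : ℝ))) * (‖So j D 1‖ * ‖x‖) :=
          mul_le_mul h3 ((So j D 1).le_opNorm x) (norm_nonneg _) (by positivity)
      _ = _ := by ring

variable (hc : Coer j D)
include hc

lemma star_K : star (Cr j D 1) = gr H0 H1 * Cr j D 1 * gr H0 H1 := by
  rw [ContinuousLinearMap.star_eq_adjoint, Cr_adj hc one_ne_zero]
  ext1 x
  exact (gCg hc one_ne_zero x).symm

lemma K_add : Cr j D 1 + star (Cr j D 1) = (2 : ℂ) • (star (Cr j D 1) * Cr j D 1) := by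
  have := C_add_adj hc one_ne_zero
  rw [ContinuousLinearMap.star_eq_adjoint, Cr_adj hc one_ne_zero]
  exact this

lemma ap_A10 (hj : AppJ j) : Ap (E1 * Cr j D 1 * E0) (1 / 4) := by
  have h1 : star (E1 * Cr j D 1 * E0) = (-1 : ℂ) • (E0 * Cr j D 1 * E1) := by
    rw [star_mul, star_mul, E0_sa, E1_sa, star_K hc]
    calc E0 * (gr H0 H1 * Cr j D 1 * gr H0 H1 * E1) =
        (E0 * gr H0 H1) * Cr j D 1 * (gr H0 H1 * E1) := by noncomm_ring
      _ = (-1 : ℂ) • (E0 * Cr j D 1 * E1) := by rw [E0_gr, gr_E1, mul_smul_comm]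
  have h2 : Ap ((-1 : ℂ) • (E0 * Cr j D 1 * E1)) (1 / 4) :=
    Ap.smul ((ap_E0K hj).right E1) (-1)
  rw [← h1] at h2
  have h3 := Ap.star h2
  rwa [star_star] at h3

lemma A11_sq : E1 * Cr j D 1 * E1 - (E1 * Cr j D 1 * E1) * (E1 * Cr j D 1 * E1) =
    (-1 : ℂ) • ((E1 * Cr j D 1 * E0) * (E0 * Cr j D 1 * E1)) := by
  have h1 := K_add hc
  have h2 := congrArg (fun T => E1 * T * E1) h1
  simp only [mul_add, add_mul, mul_smul_comm, smul_mul_assoc] at h2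
  have e1 : E1 * star (Cr j D 1) * E1 = E1 * Cr j D 1 * E1 := by
    rw [star_K hc]
    calc E1 * (gr H0 H1 * Cr j D 1 * gr H0 H1) * E1 =
        (E1 * gr H0 H1) * Cr j D 1 * (gr H0 H1 * E1) := by noncomm_ring
      _ = _ := by
          rw [E1_gr, gr_E1, smul_mul_assoc, smul_mul_assoc, mul_smul_comm, smul_smul]
          norm_num
  have e2 : E1 * star (Cr j D 1) * E0 = (-1 : ℂ) • (E1 * Cr j D 1 * E0) := by
    rw [star_K hc]
    calc E1 * (gr H0 H1 * Cr j D 1 * gr H0 H1) * E0 =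
        (E1 * gr H0 H1) * Cr j D 1 * (gr H0 H1 * E0) := by noncomm_ring
      _ = _ := by rw [E1_gr, gr_E0, smul_mul_assoc, smul_mul_assoc]
  have e3 : E1 * (star (Cr j D 1) * Cr j D 1) * E1 =
      (-1 : ℂ) • ((E1 * Cr j D 1 * E0) * (E0 * Cr j D 1 * E1)) +
      (E1 * Cr j D 1 * E1) * (E1 * Cr j D 1 * E1) := by
    calc E1 * (star (Cr j D 1) * Cr j D 1) * E1 =
        E1 * star (Cr j D 1) * 1 * Cr j D 1 * E1 := by noncomm_ring
      _ = E1 * star (Cr j D 1) * (E0 * E0 + E1 * E1) * Cr j D 1 * E1 := by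
          rw [E0_sq, E1_sq, E0_add_E1]
      _ = (E1 * star (Cr j D 1) * E0) * (E0 * Cr j D 1 * E1) +
          (E1 * star (Cr j D 1) * E1) * (E1 * Cr j D 1 * E1) := by noncomm_ring
      _ = _ := by rw [e1, e2, smul_mul_assoc]
  rw [e1, e3, ← two_smul ℂ] at h2
  have h3 := smul_right_injective _ (two_ne_zero (α := ℂ)) h2
  rw [sub_eq_iff_eq_add]
  exact h3

/-- the second inclusion. -/
def i1 (H0 H1 : Type*) [NormedAddCommGroup H0] [InnerProductSpace ℂ H0] [CompleteSpace H0]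
    [NormedAddCommGroup H1] [InnerProductSpace ℂ H1] [CompleteSpace H1] : H1 →L[ℂ] HT H0 H1 :=
  pr 0 (ContinuousLinearMap.id ℂ H1)

/-- the lower right block. -/
def AA (j : X →L[ℂ] H0) (D : X →L[ℂ] H1) : H1 →L[ℂ] H1 := p1 H0 H1 ∘L Cr j D 1 ∘L i1 H0 H1

/-- the form `⟪(1 - A) y, y⟫ = ‖j u‖² + ‖D u‖²`. -/
lemma form (y : H1) : ⟪(1 - AA j D) y, y⟫ =
    ((‖j (So j D 1 (i1 H0 H1 y))‖ ^ 2 + ‖D (So j D 1 (i1 H0 H1 y))‖ ^ 2 : ℝ) : ℂ) := by
  have h := Cr_WEq hc one_ne_zero (i1 H0 H1 y)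
  set u := So j D 1 (i1 H0 H1 y)
  have h1 : (Cr j D 1 (i1 H0 H1 y)).fst = j u := h.fst
  have h2 : AA j D y = y - I • D u := by
    have := h.snd
    rw [Complex.ofReal_one, mul_one] at this
    exact this
  have h3 : ∀ v, ⟪j v, j u⟫ + I * ⟪D v, AA j D y⟫ = 0 := by
    intro v
    have := h.weak v
    rw [Complex.ofReal_one, mul_one] at this
    have e : (Cr j D 1 (i1 H0 H1 y)).fst - (i1 H0 H1 y).fst = j u := by
      rw [h1]; show j u - 0 = j u; rw [sub_zero]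
    rw [e] at this
    exact this
  have h4 : (1 - AA j D) y = I • D u := by
    show y - AA j D y = _
    rw [h2]; abel
  have h5 : y = AA j D y + I • D u := by rw [h2]; abel
  rw [h4]
  conv_lhs => rw [h5]
  rw [inner_add_right, inner_smul_left, inner_smul_left, inner_smul_right]
  have h6 := h3 u
  rw [inner_self_eq_norm_sq_to_K] at h6 ⊢
  simp only [conj_I]
  push_cast
  simp only [coe_algebraMap] at h6 ⊢
  linear_combination (-1 : ℂ) * h6 - (‖D u‖ : ℂ) ^ 2 * I_sq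

/-- elements of the range. -/
lemma range_bd (v : X) (y : H1) (hy : y = D v) :
    ‖y‖ ^ 2 ≤ (‖j v‖ + ‖D v‖) *
      Real.sqrt (‖j (So j D 1 (i1 H0 H1 y))‖ ^ 2 + ‖D (So j D 1 (i1 H0 H1 y))‖ ^ 2) := by
  have h := Cr_WEq hc one_ne_zero (i1 H0 H1 y)
  set u := So j D 1 (i1 H0 H1 y)
  have h1 : (Cr j D 1 (i1 H0 H1 y)).fst = j u := h.fst
  have h2 : AA j D y = y - I • D u := by
    have := h.snd
    rw [Complex.ofReal_one, mul_one] at this
    exact this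
  have h3 : ⟪j v, j u⟫ + I * ⟪D v, AA j D y⟫ = 0 := by
    have := h.weak v
    rw [Complex.ofReal_one, mul_one] at this
    have e : (Cr j D 1 (i1 H0 H1 y)).fst - (i1 H0 H1 y).fst = j u := by
      rw [h1]; show j u - 0 = j u; rw [sub_zero]
    rw [e] at this
    exact this
  have h5 : ⟪y, y⟫ = I * ⟪j v, j u⟫ + I * ⟪D v, D u⟫ := by
    have h6 : ⟪D v, AA j D y⟫ = ⟪D v, y⟫ - I * ⟪D v, D u⟫ := by
      rw [h2, inner_sub_right, inner_smul_right]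
    rw [h6] at h3
    nth_rewrite 1 [hy]
    linear_combination (-I) * h3 + ⟪D v, y⟫ * I_sq - I * ⟪D v, D u⟫ * I_sq
  have h7 : ‖y‖ ^ 2 = ‖⟪y, y⟫‖ := by
    rw [inner_self_eq_norm_sq_to_K]; simp
  rw [h7, h5]
  set s := Real.sqrt (‖j u‖ ^ 2 + ‖D u‖ ^ 2) with hs
  have b1 : ‖j u‖ ≤ s := Real.le_sqrt_of_sq_le (by nlinarith [sq_nonneg ‖D u‖])
  have b2 : ‖D u‖ ≤ s := Real.le_sqrt_of_sq_le (by nlinarith [sq_nonneg ‖j u‖])
  calc ‖I * ⟪j v, j u⟫ + I * ⟪D v, D u⟫‖ ≤ ‖I * ⟪j v, j u⟫‖ + ‖I * ⟪D v, D u⟫‖ := norm_add_le _ _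
    _ = ‖⟪j v, j u⟫‖ + ‖⟪D v, D u⟫‖ := by rw [norm_mul, norm_mul, norm_I, one_mul, one_mul]
    _ ≤ ‖j v‖ * ‖j u‖ + ‖D v‖ * ‖D u‖ := add_le_add (norm_inner_le_norm _ _)
        (norm_inner_le_norm _ _)
    _ ≤ ‖j v‖ * s + ‖D v‖ * s := add_le_add (mul_le_mul_of_nonneg_left b1 (norm_nonneg _))
        (mul_le_mul_of_nonneg_left b2 (norm_nonneg _))
    _ = _ := by ring

/-- on the orthogonal complement of the range `A = 1`. -/
lemma AA_coker (y : H1) (hy : ∀ v, ⟪D v, y⟫ = 0) : AA j D y = y := by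
  have h := (Cr_eq hc one_ne_zero (x := i1 H0 H1 y) (y := i1 H0 H1 y) (u := 0)
    ⟨by rw [map_zero]; rfl, by rw [map_zero, smul_zero, sub_zero], fun v => by
      have e : (i1 H0 H1 y).fst - (i1 H0 H1 y).fst = 0 := sub_self _
      rw [e, inner_zero_right]
      show 0 + _ * ⟪D v, y⟫ = 0
      rw [hy]; ring⟩).1
  show (Cr j D 1 (i1 H0 H1 y)).snd = y
  rw [h]; rfl

lemma AA_sym (x y : H1) : ⟪AA j D x, y⟫ = ⟪x, AA j D y⟫ := by
  have h1 := congrArg (fun T : HT H0 H1 →L[ℂ] HT H0 H1 => ⟪T (i1 H0 H1 x), i1 H0 H1 y⟫)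
    (star_K hc)
  rw [ContinuousLinearMap.star_eq_adjoint, ContinuousLinearMap.adjoint_inner_left] at h1
  have e1 : ⟪i1 H0 H1 x, Cr j D 1 (i1 H0 H1 y)⟫ = ⟪x, AA j D y⟫ := by
    rw [inner_HT]
    show ⟪(0 : H0), _⟫ + ⟪x, AA j D y⟫ = _
    rw [inner_zero_left, zero_add]
  have e2 : ⟪(gr H0 H1 * Cr j D 1 * gr H0 H1) (i1 H0 H1 x), i1 H0 H1 y⟫ = ⟪AA j D x, y⟫ := by
    rw [inner_HT]
    have e3 : ((gr H0 H1 * Cr j D 1 * gr H0 H1) (i1 H0 H1 x)).snd = AA j D x := by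
      show -(Cr j D 1 (gr H0 H1 (i1 H0 H1 x))).snd = (Cr j D 1 (i1 H0 H1 x)).snd
      have e4 : gr H0 H1 (i1 H0 H1 x) = -(i1 H0 H1 x) := by
        refine ext_HT ?_ rfl
        show (0 : H0) = -0
        rw [neg_zero]
      rw [e4, map_neg]
      show - -(Cr j D 1 (i1 H0 H1 x)).snd = _
      rw [neg_neg]
    rw [e3]
    show ⟪_, (0 : H0)⟫ + ⟪AA j D x, y⟫ = _
    rw [inner_zero_right, zero_add]
  rw [e1, e2] at h1
  exact h1.symm

/-- the lift of an operator of `H1`. -/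
def LL (H0 : Type*) [NormedAddCommGroup H0] [InnerProductSpace ℂ H0] [CompleteSpace H0]
    {H1 : Type*} [NormedAddCommGroup H1] [InnerProductSpace ℂ H1] [CompleteSpace H1]
    (T : H1 →L[ℂ] H1) : HT H0 H1 →L[ℂ] HT H0 H1 := i1 H0 H1 ∘L T ∘L p1 H0 H1

omit hc in
lemma LL_mul (S T : H1 →L[ℂ] H1) : LL H0 (S * T) = LL H0 S * LL H0 T := by
  ext1 x; exact ext_HT rfl rfl

omit hc in
lemma LL_AA : LL H0 (AA j D) = E1 * Cr j D 1 * E1 := by
  ext1 x; exact ext_HT rfl rfl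

omit hc in
lemma LL_rk {T : H1 →L[ℂ] H1} {n : ℕ} (hT : Rk T n) : Rk (LL H0 T) n := by
  have hfd := hT.1
  have hle : LinearMap.range ((LL H0 T : HT H0 H1 →L[ℂ] HT H0 H1) : HT H0 H1 →ₗ[ℂ] HT H0 H1) ≤
      (LinearMap.range (T : H1 →ₗ[ℂ] H1)).map (i1 H0 H1 : H1 →ₗ[ℂ] HT H0 H1) := by
    rintro _ ⟨x, rfl⟩
    exact ⟨T x.snd, ⟨_, rfl⟩, rfl⟩
  exact ⟨Submodule.finiteDimensional_of_le hle, (Submodule.finrank_mono hle).trans
    ((Submodule.finrank_map_le _ _).trans hT.2)⟩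

/-- **approximation numbers of the resolvent**. -/
theorem app_res (hj : AppJ j) (hcl : IsClosed (Set.range D))
    (hfin : FiniteDimensional ℂ ((LinearMap.range (D : X →ₗ[ℂ] H1))ᗮ : Submodule ℂ H1)) :
    ∃ c, App (Cr j D 1) c (1 / 4) := by
  set R : Submodule ℂ H1 := LinearMap.range (D : X →ₗ[ℂ] H1) with hR
  have hcl' : IsClosed (R : Set H1) := by
    have : (R : Set H1) = Set.range D := by ext x; simp [hR]
    rw [this]; exact hcl
  have hRc : CompleteSpace R := hcl'.completeSpace_coe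
  set N : H1 →L[ℂ] H1 := Rᗮ.starProjection with hN
  set Q : H1 →L[ℂ] H1 := 1 - AA j D + N with hQ
  -- preimages
  let D' : X →L[ℂ] R := D.codRestrict R (fun x => ⟨x, rfl⟩)
  have hD' : Function.Surjective D' := by
    rintro ⟨_, ⟨x, rfl⟩⟩
    exact ⟨x, rfl⟩
  obtain ⟨C, hC0, hC⟩ := D'.exists_preimage_norm_le hD'
  set k : ℝ := ‖j‖ * C + ‖D‖ * C with hk
  have hk0 : 0 ≤ k := by positivity
  have hrange : ∀ y ∈ R, ‖y‖ ≤ k * Real.sqrt (‖j (So j D 1 (i1 H0 H1 y))‖ ^ 2 +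
      ‖D (So j D 1 (i1 H0 H1 y))‖ ^ 2) := by
    intro y hy
    obtain ⟨v, hv, hvn⟩ := hC ⟨y, hy⟩
    have hv' : y = D v := by
      have := congrArg Subtype.val hv
      exact this.symm
    have hvn' : ‖v‖ ≤ C * ‖y‖ := hvn
    have h1 := range_bd hc v y hv'
    set s := Real.sqrt (‖j (So j D 1 (i1 H0 H1 y))‖ ^ 2 + ‖D (So j D 1 (i1 H0 H1 y))‖ ^ 2)
    have hs0 : 0 ≤ s := Real.sqrt_nonneg _
    rcases eq_or_ne y 0 with h0 | h0
    · rw [h0, norm_zero]; positivity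
    · have hy0 : 0 < ‖y‖ := norm_pos_iff.2 h0
      have h2 : ‖j v‖ + ‖D v‖ ≤ k * ‖y‖ := by
        have a1 : ‖j v‖ ≤ ‖j‖ * (C * ‖y‖) :=
          (j.le_opNorm v).trans (mul_le_mul_of_nonneg_left hvn' (norm_nonneg _))
        have a2 : ‖D v‖ ≤ ‖D‖ * (C * ‖y‖) :=
          (D.le_opNorm v).trans (mul_le_mul_of_nonneg_left hvn' (norm_nonneg _))
        rw [hk]; nlinarith
      have h3 : ‖y‖ * ‖y‖ ≤ (k * s) * ‖y‖ := by
        calc ‖y‖ * ‖y‖ = ‖y‖ ^ 2 := by ring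
          _ ≤ (‖j v‖ + ‖D v‖) * s := h1
          _ ≤ (k * ‖y‖) * s := mul_le_mul_of_nonneg_right h2 hs0
          _ = _ := by ring
      exact le_of_mul_le_mul_right h3 hy0
  -- coercivity
  set m : ℝ := 1 / (k ^ 2 + 1) with hm
  have hm0 : 0 < m := by positivity
  have hm1 : m ≤ 1 := by
    rw [hm, div_le_one (by positivity)]; nlinarith [sq_nonneg k]
  have hmk : m * k ^ 2 ≤ 1 := by
    rw [hm, div_mul_eq_mul_div, div_le_one (by positivity)]; linarith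
  have hform : ∀ y : H1, ‖y‖ ^ 2 * m ≤ ‖⟪Q y, y⟫‖ := by
    intro y
    set y1 := R.starProjection y with hy1
    set y2 := Rᗮ.starProjection y with hy2
    have hy : y = y1 + y2 := by
      rw [hy1, hy2, Submodule.starProjection_orthogonal']
      simp
    have m1 : y1 ∈ R := Submodule.starProjection_apply_mem R y
    have m2 : y2 ∈ Rᗮ := Submodule.starProjection_apply_mem Rᗮ y
    have o12 : ⟪y1, y2⟫ = 0 := (Submodule.mem_orthogonal R y2).1 m2 y1 m1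
    have o21 : ⟪y2, y1⟫ = 0 := (Submodule.mem_orthogonal' R y2).1 m2 y1 m1
    have hA2 : AA j D y2 = y2 := AA_coker hc y2 fun v =>
      (Submodule.mem_orthogonal R y2).1 m2 (D v) ⟨v, rfl⟩
    have hq := form hc y1
    set q : ℝ := ‖j (So j D 1 (i1 H0 H1 y1))‖ ^ 2 + ‖D (So j D 1 (i1 H0 H1 y1))‖ ^ 2 with hqd
    have hq0 : 0 ≤ q := by positivity
    have h1 : ⟪Q y, y⟫ = ((q + ‖y2‖ ^ 2 : ℝ) : ℂ) := by
      have e1 : Q y = (1 - AA j D) y1 + y2 := by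
        have e2 : (1 - AA j D) y2 = 0 := by
          show y2 - AA j D y2 = 0
          rw [hA2, sub_self]
        have e3 : Q y = (1 - AA j D) y + y2 := rfl
        rw [e3]
        conv_lhs => rw [hy]
        rw [map_add, e2, add_zero]
      have e4 : ⟪(1 - AA j D) y1, y2⟫ = 0 := by
        have e5 : ⟪(1 - AA j D) y1, y2⟫ = ⟪y1, y2⟫ - ⟪AA j D y1, y2⟫ := by
          show ⟪y1 - AA j D y1, y2⟫ = _
          rw [inner_sub_left]
        rw [e5, AA_sym hc, hA2, sub_self]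
      rw [e1]
      conv_lhs => rw [hy]
      rw [inner_add_left, inner_add_right, inner_add_right, hq, e4, o21,
        inner_self_eq_norm_sq_to_K]
      push_cast
      simp
    rw [h1, Complex.norm_real, Real.norm_eq_abs, abs_of_nonneg (by positivity)]
    have h2 : ‖y‖ ^ 2 = ‖y1‖ ^ 2 + ‖y2‖ ^ 2 := by
      have e : ⟪y, y⟫ = ⟪y1, y1⟫ + ⟪y2, y2⟫ := by
        conv_lhs => rw [hy]
        rw [inner_add_left, inner_add_right, inner_add_right, o12, o21]; ring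
      rw [inner_self_eq_norm_sq_to_K, inner_self_eq_norm_sq_to_K, inner_self_eq_norm_sq_to_K] at e
      exact_mod_cast e
    have h3 := hrange y1 m1
    rw [← hqd] at h3
    have h4 : ‖y1‖ ^ 2 ≤ k ^ 2 * q := by
      calc ‖y1‖ ^ 2 ≤ (k * Real.sqrt q) ^ 2 := pow_le_pow_left₀ (norm_nonneg _) h3 2
        _ = k ^ 2 * q := by rw [mul_pow, Real.sq_sqrt hq0]
    rw [h2]
    have h5 : ‖y1‖ ^ 2 * m ≤ q := by
      calc ‖y1‖ ^ 2 * m ≤ (k ^ 2 * q) * m := mul_le_mul_of_nonneg_right h4 hm0.le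
        _ = (m * k ^ 2) * q := by ring
        _ ≤ 1 * q := mul_le_mul_of_nonneg_right hmk hq0
        _ = q := one_mul q
    have h6 : ‖y2‖ ^ 2 * m ≤ ‖y2‖ ^ 2 := mul_le_of_le_one_right (by positivity) hm1
    linarith
  have hQu : IsUnit Q := ContinuousLinearMap.isUnit_of_forall_le_norm_inner_map Q
    (c := ⟨m, hm0.le⟩) hm0 hform
  set B := Ring.inverse Q with hB
  have hQB : Q * B = 1 := Ring.mul_inverse_cancel _ hQu
  have eA : AA j D = (AA j D - AA j D * AA j D) * B + AA j D * N * B := by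
    calc AA j D = AA j D * (Q * B) := by rw [hQB, mul_one]
      _ = _ := by rw [hQ]; noncomm_ring
  have hA10 := ap_A10 hc hj
  have hA01 := (ap_E0K (D := D) hj).right E1
  have hT : Ap ((E1 * Cr j D 1 * E1) - (E1 * Cr j D 1 * E1) * (E1 * Cr j D 1 * E1)) (1 / 4) := by
    rw [A11_sq hc]
    have h1 := hA10.mul hA01 (by norm_num) (by norm_num)
    exact Ap.smul (Ap.mono h1 (b := 1 / 4) (by norm_num)) (-1)
  have hNrk : ∃ r, Rk N r := by
    refine ⟨Module.finrank ℂ Rᗮ, ?_⟩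
    have hle : LinearMap.range (N : H1 →ₗ[ℂ] H1) ≤ Rᗮ := by
      rintro _ ⟨x, rfl⟩
      exact Submodule.starProjection_apply_mem Rᗮ x
    exact ⟨Submodule.finiteDimensional_of_le hle, Submodule.finrank_mono hle⟩
  obtain ⟨r, hr⟩ := hNrk
  have hA11 : Ap (E1 * Cr j D 1 * E1) (1 / 4) := by
    have e1 : E1 * Cr j D 1 * E1 = ((E1 * Cr j D 1 * E1) - (E1 * Cr j D 1 * E1) *
        (E1 * Cr j D 1 * E1)) * LL H0 B + (E1 * Cr j D 1 * E1) * LL H0 N * LL H0 B := by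
      have e2 := congrArg (LL H0) eA
      have e3 : LL H0 ((AA j D - AA j D * AA j D) * B + AA j D * N * B) =
          (LL H0 (AA j D) - LL H0 (AA j D) * LL H0 (AA j D)) * LL H0 B +
          LL H0 (AA j D) * LL H0 N * LL H0 B := by
        ext1 x
        refine ext_HT ?_ rfl
        show (0 : H0) = ((0 : H0) - 0) + 0
        simp
      rw [e3, LL_AA] at e2
      exact e2
    rw [e1]
    refine Ap.add (Ap.right hT _) ?_ (by norm_num)
    refine Ap.right ?_ _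
    exact Ap.left (Ap.of_rk (LL_rk hr) (by norm_num)) _
  have eK : Cr j D 1 = E0 * Cr j D 1 + E1 * Cr j D 1 * E0 + E1 * Cr j D 1 * E1 := by
    calc Cr j D 1 = (E0 + E1) * Cr j D 1 * (1 : HT H0 H1 →L[ℂ] HT H0 H1) := by
          rw [E0_add_E1, one_mul, mul_one]
      _ = E0 * Cr j D 1 + E1 * Cr j D 1 * (E0 + E1) := by
          rw [mul_one, add_mul, E0_add_E1, mul_one]
      _ = _ := by rw [mul_add]; abel
  have : Ap (Cr j D 1) (1 / 4) := by
    rw [eK]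
    exact Ap.add (Ap.add (ap_E0K hj) hA10 (by norm_num)) hA11 (by norm_num)
  exact this

end main

end

end Crest.Agent.R235.RCApp_746
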