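import Crest.Agent.R235.RCTr_746
import Crest.Agent.R235.FamDefs_307

/-!
Row 235, block FAM/RC (helper746): THE EXACT HYPOTHESES AND THE OUTPUT of the resolvent-Chern formula.

All operators are bounded operators of a complex Hilbert space `H` (in the application
`H = L²(W⁺) ⊕ ℂ^N ⊕ L²(W⁻)`, `g = (1, 1, -1)`), `Y` is a skew-adjoint operator with `g Y g = - Y`
(`Y = i A` or `Y = g A`, `A = [0 D*; D 0]`), `Y_θ = Y + V θ`.

* `Base g K`        : `K = (1 + Y)⁻¹`: `K + K* = 2 K K* = 2 K* K`, `g K g = K*`, `a_n(K) ≤ c (n+1)^(-1/4)`;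
* `Cr K ε`, `Gr K ε`: `C_ε = (1 + ε Y)⁻¹ = K (ε + (1 - ε) K)⁻¹`, `G_ε = C_ε* C_ε = (1 - ε² Y²)⁻¹`;
* `Fam g K V b U`   : smooth bounded perturbation `V θ` (skew, odd), `∂_a V - b a` of rank `≤ r`,
                      `Y_{θ+e_j} = U_j Y_θ U_j⁻¹` in the form `K U - U K = K (V' U - U V) K`;
* `KerF g K V P`    : `P θ` = smooth orthogonal projection onto `ker Y_θ = {u | K (1 - V θ) u = u}`, `g P = P`;
* `Inf g K b L`     : `b_a G_ε = G_ε b_a + ε G_ε Z`, `‖Z‖ ≤ c`, and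
                      `ε⁴ tr (∑ sgn g b b b b G_ε⁴) → L` for `ε → 0+`;
* `RC`              : the output `ch4 tr P = L / 2`; `rc_of : STK → INF → RC`.
-/

set_option autoImplicit false

open scoped InnerProductSpace Topology ContDiff
open Filter Set Crest.Agent.R235.RCTr_746 Crest.Agent.R235.FamDefs_307

namespace Crest.Agent.R235.RCDefs_746

noncomputable section

variable {H : Type*} [NormedAddCommGroup H] [InnerProductSpace ℂ H] [CompleteSpace H]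

/-- `K = (1 + Y)⁻¹`, `Y` skew-adjoint with `g Y g = - Y`. -/
structure Base (g K : H →L[ℂ] H) : Prop where
  gg : g * g = 1
  gs : star g = g
  kk : K + star K = (2 : ℂ) • (K * star K)
  kk' : K + star K = (2 : ℂ) • (star K * K)
  gk : g * K * g = star K
  app : ∃ c, App K c (1 / 4)

/-- `C_ε = (1 + ε Y)⁻¹`. -/
def Cr (K : H →L[ℂ] H) (ε : ℝ) : H →L[ℂ] H :=
  K * Ring.inverse ((ε : ℂ) • (1 : H →L[ℂ] H) + ((1 - ε : ℝ) : ℂ) • K)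

/-- `G_ε = (1 - ε² Y²)⁻¹`. -/
def Gr (K : H →L[ℂ] H) (ε : ℝ) : H →L[ℂ] H := star (Cr K ε) * Cr K ε

/-- the family `Y_θ = Y + V θ`. -/
structure Fam (g K : H →L[ℂ] H) (V : (Fin 4 → ℝ) → H →L[ℂ] H) (b U : Fin 4 → H →L[ℂ] H) : Prop where
  smooth : ContDiff ℝ ∞ V
  gv : ∀ h, g * V h * g = - V h
  skew : ∀ h, star (V h) = - V h
  rk : ∃ r : ℕ, ∀ a h, Rk (pdθ a V h - b a) r
  gu : ∀ j, g * U j = U j * g
  uu : ∀ j, star (U j) * U j = 1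
  uu' : ∀ j, U j * star (U j) = 1
  per : ∀ j h, K * U j - U j * K = K * (V (h + Pi.single j 1) * U j - U j * V h) * K

/-- `P θ` is the orthogonal projection onto the kernel of `Y + V θ`, contained in `{g = 1}`. -/
structure KerF (g K : H →L[ℂ] H) (V P : (Fin 4 → ℝ) → H →L[ℂ] H) : Prop where
  smooth : ContDiff ℝ ∞ P
  idem : ∀ h, P h * P h = P h
  sa : ∀ h, star (P h) = P h
  gp : ∀ h, g * P h = P h
  ker : ∀ h, K * (1 - V h) * P h = P h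
  ker' : ∀ h u, K ((1 - V h) u) = u → P h u = u

/-- the symbol hypotheses for `ε → 0`. -/
structure Inf (g K : H →L[ℂ] H) (b : Fin 4 → H →L[ℂ] H) (L : ℂ) : Prop where
  com : ∀ a, ∃ c : ℝ, ∀ ε : ℝ, 0 < ε → ε ≤ 1 → ∃ Z : H →L[ℂ] H, ‖Z‖ ≤ c ∧
    b a * Gr K ε = Gr K ε * b a + (ε : ℂ) • (Gr K ε * Z)
  weyl : Tendsto (fun ε : ℝ => (ε : ℂ) ^ 4 * RCTr_746.tr
    ((∑ σ : Equiv.Perm (Fin 4), sg σ • (g * b (σ 0) * b (σ 1) * b (σ 2) * b (σ 3))) * (Gr K ε) ^ 4))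
    (𝓝[>] 0) (𝓝 L)

/-- `(1 + ε (Y + W))⁻¹` for a bounded `W`. -/
def Cf (K W : H →L[ℂ] H) (ε : ℝ) : H →L[ℂ] H :=
  K * Ring.inverse ((ε : ℂ) • (1 : H →L[ℂ] H) + ((1 - ε : ℝ) : ℂ) • K + (ε : ℂ) • (W * K))

/-- the density `ε⁴ ∑ sgn tr (g C V₁ G V₂ G V₃ G V₄ C)` at `h`, `C = (1 + ε Y_h)⁻¹`, `G = C* C`. -/
def dens (g K : H →L[ℂ] H) (V : (Fin 4 → ℝ) → H →L[ℂ] H) (ε : ℝ) (h : Fin 4 → ℝ) : ℂ :=
  (ε : ℂ) ^ 4 * ∑ σ : Equiv.Perm (Fin 4), sg σ * RCTr_746.tr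
    (g * Cf K (V h) ε * pdθ (σ 0) V h * (star (Cf K (V h) ε) * Cf K (V h) ε) *
      pdθ (σ 1) V h * (star (Cf K (V h) ε) * Cf K (V h) ε) *
      pdθ (σ 2) V h * (star (Cf K (V h) ε) * Cf K (V h) ε) * pdθ (σ 3) V h * Cf K (V h) ε)

/-- **THE OUTPUT**. -/
def RC : Prop :=
  ∀ (H : Type) [NormedAddCommGroup H] [InnerProductSpace ℂ H] [CompleteSpace H]
    (g K : H →L[ℂ] H) (V P : (Fin 4 → ℝ) → H →L[ℂ] H) (b U : Fin 4 → H →L[ℂ] H) (L : ℂ),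
    Base g K → Fam g K V b U → KerF g K V P → Inf g K b L →
    (∀ h, ∃ c, IsNuc (P h) c) ∧ (∀ j h, P (h + Pi.single j 1) * U j = U j * P h) ∧
    ch4 RCTr_746.tr P = L / 2

/-- half 1 (Stokes and `ε → ∞`). -/
def STK : Prop :=
  ∀ (H : Type) [NormedAddCommGroup H] [InnerProductSpace ℂ H] [CompleteSpace H]
    (g K : H →L[ℂ] H) (V P : (Fin 4 → ℝ) → H →L[ℂ] H) (b U : Fin 4 → H →L[ℂ] H),
    Base g K → Fam g K V b U → KerF g K V P →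
    (∀ h, ∃ c, IsNuc (P h) c) ∧ (∀ j h, P (h + Pi.single j 1) * U j = U j * P h) ∧
    ∀ ε : ℝ, 0 < ε → ch4 RCTr_746.tr P = (1 / 2) * ∫ h in Icc (0 : Fin 4 → ℝ) 1, dens g K V ε h

/-- half 2 (`ε → 0`). -/
def INF : Prop :=
  ∀ (H : Type) [NormedAddCommGroup H] [InnerProductSpace ℂ H] [CompleteSpace H]
    (g K : H →L[ℂ] H) (V : (Fin 4 → ℝ) → H →L[ℂ] H) (b U : Fin 4 → H →L[ℂ] H) (L : ℂ),
    Base g K → Fam g K V b U → Inf g K b L →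
    Tendsto (fun ε : ℝ => ∫ h in Icc (0 : Fin 4 → ℝ) 1, dens g K V ε h) (𝓝[>] 0) (𝓝 L)

theorem rc_of (h1 : STK) (h2 : INF) : RC := by
  intro H _ _ _ g K V P b U L hB hF hP hI
  obtain ⟨a1, a2, a3⟩ := h1 H g K V P b U hB hF hP
  refine ⟨a1, a2, ?_⟩
  have h3 := h2 H g K V b U L hB hF hI
  have h4 : Tendsto (fun _ : ℝ => ch4 RCTr_746.tr P) (𝓝[>] 0) (𝓝 ((1 / 2) * L)) := by
    refine (h3.const_mul (1 / 2)).congr' ?_
    filter_upwards [self_mem_nhdsWithin] with ε hε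
    exact (a3 ε hε).symm
  rw [tendsto_nhds_unique tendsto_const_nhds h4]
  ring

end

end Crest.Agent.R235.RCDefs_746
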