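import Crest.Agent.R235.RCDefs_746

/-!
Row 235, block FAM/RC (helper843), half INF (`ε → 0`) of the resolvent-Chern formula of helper746,
part A: calculus of uniform families.

* `isNuc_scale` : `a_n(T) ≤ c (n+1)⁻²`, `‖T‖ ≤ A`  ⟹  nuclear norm `≤ N A + 13 c / N`;
* `OO e k T`    : uniform families with `‖T‖ ≤ A`, `a_n(T) ≤ A e^{-k} (n+1)^{-k/4}`; products, sums;
* `Sim δ ρ k`   : `T = T' + δ E + ρ R`, `E` of order `k`, `R` of finite rank;
* `Sim.tr`      : the trace estimate.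
-/

set_option autoImplicit false
set_option linter.unusedSectionVars false

open scoped InnerProductSpace Topology ContDiff
open Filter Set MeasureTheory Crest.Agent.R235.RCTr_746 Crest.Agent.R235.FamDefs_307
open Crest.Agent.R235.RCDefs_746

namespace Crest.Agent.R235.RCInfA_843

noncomputable section

variable {H : Type*} [NormedAddCommGroup H] [InnerProductSpace ℂ H] [CompleteSpace H]

/-! ### approximation numbers -/

lemma app_mono {T : H →L[ℂ] H} {c d a : ℝ} (h : App T c a) (hcd : c ≤ d) : App T d a := by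
  intro n
  obtain ⟨F, h1, h2⟩ := h n
  exact ⟨F, h1, h2.trans (mul_le_mul_of_nonneg_right hcd (by positivity))⟩

lemma app_bd {T : H →L[ℂ] H} {c : ℝ} (h : ‖T‖ ≤ c) : App T c 0 := by
  intro n
  refine ⟨0, Rk.zero.mono (Nat.zero_le n), ?_⟩
  simpa using h

lemma half_le (n : ℕ) {t : ℝ} (ht : 0 ≤ t) :
    (((n / 2 : ℕ) : ℝ) + 1) ^ (-t) ≤ 2 ^ t * ((n : ℝ) + 1) ^ (-t) := by
  have h5 : ((n : ℝ) + 1) / 2 ≤ ((n / 2 : ℕ) : ℝ) + 1 := by
    have : n ≤ 2 * (n / 2) + 1 := by omega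
    have h6 : (n : ℝ) ≤ 2 * ((n / 2 : ℕ) : ℝ) + 1 := by exact_mod_cast this
    linarith
  have h7 : 0 < ((n : ℝ) + 1) / 2 := by positivity
  refine (Real.rpow_le_rpow_of_nonpos h7 h5 (neg_nonpos.2 ht)).trans (le_of_eq ?_)
  rw [Real.div_rpow (by positivity) (by norm_num), Real.rpow_neg (by norm_num : (0:ℝ) ≤ 2) t,
    div_inv_eq_mul, mul_comm]

lemma app_add {S T : H →L[ℂ] H} {c d a : ℝ} (hS : App S c a) (hT : App T d a) (ha : 0 ≤ a) :
    App (S + T) ((c + d) * 2 ^ a) a := by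
  intro n
  obtain ⟨F, h1, h2⟩ := hS (n / 2)
  obtain ⟨G, h3, h4⟩ := hT (n / 2)
  refine ⟨F + G, (h1.add h3).mono (by omega), ?_⟩
  have e : S + T - (F + G) = (S - F) + (T - G) := by abel
  rw [e]
  refine (norm_add_le _ _).trans ?_
  have h5 := half_le n ha
  have hc := hS.nonneg
  have hd := hT.nonneg
  calc ‖S - F‖ + ‖T - G‖ ≤ (c + d) * (((n / 2 : ℕ) : ℝ) + 1) ^ (-a) := by linarith
    _ ≤ (c + d) * (2 ^ a * ((n : ℝ) + 1) ^ (-a)) :=
        mul_le_mul_of_nonneg_left h5 (by positivity)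
    _ = _ := by ring

lemma rk_zero_eq {F : H →L[ℂ] H} (h : Rk F 0) : F = 0 := by
  have := h.1
  have h5 := Submodule.finrank_eq_zero.1 (Nat.le_zero.1 h.2)
  ext x
  have : F x ∈ LinearMap.range (F : H →ₗ[ℂ] H) := ⟨x, rfl⟩
  rw [h5] at this
  simpa using this

/-- nuclear norm at scale `N`. -/
lemma isNuc_scale {T : H →L[ℂ] H} {c A : ℝ} (h : App T c 2) (hA : ‖T‖ ≤ A) {N : ℕ} (hN : 1 ≤ N) :
    IsNuc T (N * A + 13 * (c / N)) := by
  have hc := h.nonneg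
  have hA0 : 0 ≤ A := (norm_nonneg _).trans hA
  have hN0 : (0 : ℝ) < N := by exact_mod_cast hN
  choose F hF1 hF2 using h
  set G : ℕ → H →L[ℂ] H := fun k => F (N * 2 ^ k - 1) with hG
  have hnum : ∀ k : ℕ, (((N * 2 ^ k - 1 : ℕ) : ℝ) + 1) = N * (2 : ℝ) ^ k := by
    intro k
    have : 1 ≤ N * 2 ^ k := Nat.mul_pos hN (by positivity)
    push_cast [Nat.cast_sub this]
    ring
  have hGn : ∀ k, ‖T - G k‖ ≤ c / (N : ℝ) ^ 2 * (1 / 4 : ℝ) ^ k := by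
    intro k
    refine (hF2 (N * 2 ^ k - 1)).trans (le_of_eq ?_)
    rw [hnum, Real.rpow_neg (by positivity), Real.rpow_two, mul_pow, ← pow_mul, mul_comm k 2,
      pow_mul]
    have e4 : ((2 : ℝ) ^ 2) ^ k * (1 / 4 : ℝ) ^ k = 1 := by rw [← mul_pow]; norm_num
    have h4 : (0 : ℝ) < ((2 : ℝ) ^ 2) ^ k := by positivity
    rw [eq_comm, ← div_eq_mul_inv, eq_div_iff (by positivity)]
    field_simp
    linear_combination c * e4
  have hlim : Tendsto G atTop (𝓝 T) := by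
    rw [tendsto_iff_norm_sub_tendsto_zero]
    refine squeeze_zero (fun _ => norm_nonneg _) (fun k => ?_)
      ((tendsto_pow_atTop_nhds_zero_of_lt_one (by norm_num : (0:ℝ) ≤ 1 / 4)
        (by norm_num)).const_mul (c / (N : ℝ) ^ 2) |>.trans (by simp))
    rw [norm_sub_rev]; exact hGn k
  have hDn : ∀ k, ‖G (k + 1) - G k‖ ≤ 2 * (c / (N : ℝ) ^ 2 * (1 / 4 : ℝ) ^ k) := by
    intro k
    have h3 : G (k + 1) - G k = (T - G k) - (T - G (k + 1)) := by abel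
    rw [h3]
    refine (norm_sub_le _ _).trans ?_
    have h4 := hGn k
    have h5 := hGn (k + 1)
    have h6 : c / (N : ℝ) ^ 2 * (1 / 4 : ℝ) ^ (k + 1) ≤ c / (N : ℝ) ^ 2 * (1 / 4 : ℝ) ^ k := by
      refine mul_le_mul_of_nonneg_left ?_ (by positivity)
      exact pow_le_pow_of_le_one (by norm_num) (by norm_num) (Nat.le_succ k)
    linarith
  have hD : ∀ k, IsNuc (G (k + 1) - G k) (6 * (c / N) * (1 / 2 : ℝ) ^ k) := by
    intro k
    have h1 : Rk (G (k + 1) - G k) (3 * (N * 2 ^ k)) := by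
      refine ((hF1 _).sub (hF1 _)).mono ?_
      have : N * 2 ^ (k + 1) = 2 * (N * 2 ^ k) := by ring
      omega
    refine h1.isNuc.mono ?_
    have e2 : (2 : ℝ) ^ k * (1 / 4 : ℝ) ^ k = (1 / 2 : ℝ) ^ k := by
      rw [← mul_pow]; norm_num
    push_cast
    calc (3 * (N * 2 ^ k) : ℝ) * ‖G (k + 1) - G k‖
        ≤ (3 * (N * 2 ^ k) : ℝ) * (2 * (c / (N : ℝ) ^ 2 * (1 / 4 : ℝ) ^ k)) :=
          mul_le_mul_of_nonneg_left (hDn k) (by positivity)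
      _ = 6 * (c / N) * ((2 : ℝ) ^ k * (1 / 4 : ℝ) ^ k) := by field_simp; ring
      _ = _ := by rw [e2]
  have hsum : Summable (fun k : ℕ => 6 * (c / N) * (1 / 2 : ℝ) ^ k) :=
    (summable_geometric_of_lt_one (by norm_num) (by norm_num)).mul_left _
  have key := IsNuc.tsum (S := T - G 0) hD hsum ?_
  · have h1 : IsNuc (G 0) (N * (A + c / (N : ℝ) ^ 2)) := by
      have h2 : Rk (G 0) N := (hF1 _).mono (by simp)
      refine h2.isNuc.mono ?_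
      refine mul_le_mul_of_nonneg_left ?_ hN0.le
      have h3 := hGn 0
      rw [pow_zero, mul_one] at h3
      have h4 : G 0 = T - (T - G 0) := by abel
      rw [h4]
      refine (norm_sub_le _ _).trans ?_
      linarith
    have h2 := h1.add key
    rw [add_sub_cancel] at h2
    refine h2.mono (le_of_eq ?_)
    rw [tsum_mul_left, tsum_geometric_of_lt_one (by norm_num) (by norm_num)]
    field_simp
    ring
  · intro x
    have hs : Summable (fun k => (G (k + 1) - G k) x) := by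
      refine Summable.of_norm (Summable.of_nonneg_of_le (fun _ => norm_nonneg _) (fun k => ?_)
        ((((summable_geometric_of_lt_one (by norm_num : (0:ℝ) ≤ 1 / 4) (by norm_num)).mul_left
          (c / (N : ℝ) ^ 2)).mul_left 2).mul_right ‖x‖))
      exact ((G (k + 1) - G k).le_opNorm x).trans
        (mul_le_mul_of_nonneg_right (hDn k) (norm_nonneg _))
    have h9 := hs.hasSum.tendsto_sum_nat
    have h10 : ∀ n, ∑ k ∈ Finset.range n, (G (k + 1) - G k) x = G n x - G 0 x := by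
      intro n
      exact Finset.sum_range_sub (fun k => G k x) n
    simp only [h10] at h9
    have h11 : Tendsto (fun n => G n x - G 0 x) atTop (𝓝 ((T - G 0) x)) := by
      rw [sub_apply]
      exact (((ContinuousLinearMap.apply ℂ H x).continuous.tendsto T).comp hlim).sub_const _
    rw [← tendsto_nhds_unique h9 h11]
    exact hs.hasSum

/-! ### uniform families -/

section fam

variable {ι : Type*}

/-- families of order `k`. -/
def OO (e : ι → ℝ) (k : ℕ) (T : ι → H →L[ℂ] H) : Prop :=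
  ∃ A : ℝ, ∀ i, ‖T i‖ ≤ A ∧ App (T i) (A * ((e i)⁻¹) ^ k) ((k : ℝ) / 4)

/-- bounded families of finite rank. -/
def FR (R : ι → H →L[ℂ] H) : Prop := ∃ (r : ℕ) (A : ℝ), ∀ i, Rk (R i) r ∧ ‖R i‖ ≤ A

variable {e : ι → ℝ} {j k : ℕ} {S T S' T' : ι → H →L[ℂ] H}

lemma oo_bd {A : ℝ} (h : ∀ i, ‖T i‖ ≤ A) : OO e 0 T :=
  ⟨A, fun i => ⟨h i, by simpa using app_bd (h i)⟩⟩

lemma OO.bd (h : OO e k T) : ∃ A : ℝ, 0 ≤ A ∧ ∀ i, ‖T i‖ ≤ A := by
  obtain ⟨A, hA⟩ := h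
  exact ⟨max A 0, le_max_right _ _, fun i => (hA i).1.trans (le_max_left _ _)⟩

lemma OO.zero' (h : OO e k T) : OO e 0 T := by
  obtain ⟨A, -, hA⟩ := h.bd
  exact oo_bd hA

lemma OO.cst (h : OO e k T) : ∃ A : ℝ, 0 ≤ A ∧
    ∀ i, ‖T i‖ ≤ A ∧ App (T i) (A * ((e i)⁻¹) ^ k) ((k : ℝ) / 4) := by
  obtain ⟨A, hA⟩ := h
  by_cases hne : Nonempty ι
  · obtain ⟨i⟩ := hne
    exact ⟨A, (norm_nonneg _).trans (hA i).1, hA⟩
  · exact ⟨0, le_rfl, fun i => absurd ⟨i⟩ hne⟩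

lemma oo_mul (hT : OO e j T) (hS : OO e k S) : OO e (j + k) (fun i => T i * S i) := by
  obtain ⟨A, hA0, hA⟩ := hT.cst
  obtain ⟨B, hB0, hB⟩ := hS.cst
  refine ⟨A * B * 2 ^ ((j : ℝ) / 4 + (k : ℝ) / 4), fun i => ⟨?_, ?_⟩⟩
  · have h1 : (1 : ℝ) ≤ 2 ^ ((j : ℝ) / 4 + (k : ℝ) / 4) :=
      Real.one_le_rpow (by norm_num) (by positivity)
    calc ‖T i * S i‖ ≤ ‖T i‖ * ‖S i‖ := norm_mul_le _ _
      _ ≤ A * B := mul_le_mul (hA i).1 (hB i).1 (norm_nonneg _) hA0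
      _ ≤ A * B * 2 ^ ((j : ℝ) / 4 + (k : ℝ) / 4) :=
          le_mul_of_one_le_right (by positivity) h1
  · have h := (hA i).2.mul (hB i).2 (by positivity) (by positivity)
    have e1 : ((j + k : ℕ) : ℝ) / 4 = (j : ℝ) / 4 + (k : ℝ) / 4 := by push_cast; ring
    rw [e1, pow_add]
    refine app_mono h (le_of_eq ?_)
    ring

lemma oo_add (hT : OO e k T) (hS : OO e k S) : OO e k (fun i => T i + S i) := by
  obtain ⟨A, hA0, hA⟩ := hT.cst
  obtain ⟨B, hB0, hB⟩ := hS.cst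
  refine ⟨(A + B) * 2 ^ ((k : ℝ) / 4), fun i => ⟨?_, ?_⟩⟩
  · have h1 : (1 : ℝ) ≤ 2 ^ ((k : ℝ) / 4) := Real.one_le_rpow (by norm_num) (by positivity)
    calc ‖T i + S i‖ ≤ A + B := (norm_add_le _ _).trans (add_le_add (hA i).1 (hB i).1)
      _ ≤ _ := le_mul_of_one_le_right (by positivity) h1
  · refine app_mono (app_add (hA i).2 (hB i).2 (by positivity)) (le_of_eq ?_)
    ring

lemma oo_zero : OO e k (fun _ => (0 : H →L[ℂ] H)) :=
  ⟨0, fun i => ⟨by simp, fun n => ⟨0, Rk.zero.mono (Nat.zero_le n), by simp⟩⟩⟩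

lemma OO.comp {κ : Type*} {f : κ → ℝ} (h : OO e k T) (φ : κ → ι) (hf : ∀ x, e (φ x) = f x) :
    OO f k (fun x => T (φ x)) := by
  obtain ⟨A, hA⟩ := h
  exact ⟨A, fun x => by rw [← hf]; exact hA _⟩

lemma fr_zero : FR (fun _ : ι => (0 : H →L[ℂ] H)) := ⟨0, 0, fun _ => ⟨Rk.zero, by simp⟩⟩

lemma FR.mulr {R : ι → H →L[ℂ] H} (hR : FR R) (hT : OO e k T) : FR (fun i => R i * T i) := by
  obtain ⟨r, A, hA⟩ := hR
  obtain ⟨B, hB0, hB⟩ := hT.bd
  refine ⟨r, A * B, fun i => ⟨(hA i).1.right _, (norm_mul_le _ _).trans ?_⟩⟩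
  exact mul_le_mul (hA i).2 (hB i) (norm_nonneg _) ((norm_nonneg _).trans (hA i).2)

lemma FR.mull {R : ι → H →L[ℂ] H} (hR : FR R) (hT : OO e k T) : FR (fun i => T i * R i) := by
  obtain ⟨r, A, hA⟩ := hR
  obtain ⟨B, hB0, hB⟩ := hT.bd
  refine ⟨r, B * A, fun i => ⟨(hA i).1.left _, (norm_mul_le _ _).trans ?_⟩⟩
  exact mul_le_mul (hB i) (hA i).2 (norm_nonneg _) hB0

lemma FR.add {R R' : ι → H →L[ℂ] H} (hR : FR R) (hR' : FR R') : FR (fun i => R i + R' i) := by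
  obtain ⟨r, A, hA⟩ := hR
  obtain ⟨s, B, hB⟩ := hR'
  exact ⟨r + s, A + B, fun i => ⟨(hA i).1.add (hB i).1,
    (norm_add_le _ _).trans (add_le_add (hA i).2 (hB i).2)⟩⟩

/-- `T = T' + δ E + ρ R`. -/
def Sim (e δ ρ : ι → ℝ) (k : ℕ) (T T' : ι → H →L[ℂ] H) : Prop :=
  OO e k T ∧ OO e k T' ∧ ∃ E R : ι → H →L[ℂ] H, OO e k E ∧ FR R ∧
    ∀ i, T i = T' i + (δ i : ℂ) • E i + (ρ i : ℂ) • R i

variable {δ ρ : ι → ℝ}

lemma sim_refl (h : OO e k T) : Sim e δ ρ k T T :=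
  ⟨h, h, _, _, oo_zero, fr_zero, fun i => by simp⟩

lemma Sim.mul (h : Sim e δ ρ j T T') (h' : Sim e δ ρ k S S') :
    Sim e δ ρ (j + k) (fun i => T i * S i) (fun i => T' i * S' i) := by
  obtain ⟨a1, a2, E, R, a3, a4, a5⟩ := h
  obtain ⟨b1, b2, E', R', b3, b4, b5⟩ := h'
  refine ⟨oo_mul a1 b1, oo_mul a2 b2, fun i => E i * S i + T' i * E' i,
    fun i => R i * S i + T' i * R' i, oo_add (oo_mul a3 b1) (oo_mul a2 b3),
    (a4.mulr b1).add (b4.mull a2), fun i => ?_⟩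
  change T i * S i = T' i * S' i + (δ i : ℂ) • (E i * S i + T' i * E' i) +
    (ρ i : ℂ) • (R i * S i + T' i * R' i)
  have e1 : T i * S i = (T' i + (δ i : ℂ) • E i + (ρ i : ℂ) • R i) * S i := by rw [← a5]
  have e2 : T' i * S i = T' i * (S' i + (δ i : ℂ) • E' i + (ρ i : ℂ) • R' i) := by rw [← b5]
  rw [e1, add_mul, add_mul, e2]
  simp only [mul_add, smul_mul_assoc, mul_smul_comm, smul_add]
  abel

lemma Sim.trans {T'' : ι → H →L[ℂ] H} (h : Sim e δ ρ k T T')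
    (h' : Sim e δ ρ k T' T'') : Sim e δ ρ k T T'' := by
  obtain ⟨a1, a2, E, R, a3, a4, a5⟩ := h
  obtain ⟨b1, b2, E', R', b3, b4, b5⟩ := h'
  refine ⟨a1, b2, fun i => E i + E' i, fun i => R i + R' i, oo_add a3 b3, a4.add b4,
    fun i => ?_⟩
  rw [a5, b5]
  simp only [smul_add]
  abel

lemma OO.nuc (he : ∀ i, 0 < e i) (he1 : ∀ i, e i ≤ 1) (h : OO e 8 T) :
    ∃ c : ℝ, ∀ i, IsNuc (T i) (c * ((e i)⁻¹) ^ 4) := by
  obtain ⟨A, hA0, hA⟩ := h.cst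
  refine ⟨15 * A, fun i => ?_⟩
  have h1 : 1 ≤ (e i)⁻¹ := (one_le_inv₀ (he i)).2 (he1 i)
  have h2 : 1 ≤ ((e i)⁻¹) ^ 4 := one_le_pow₀ h1
  set N : ℕ := ⌈((e i)⁻¹) ^ 4⌉₊ with hN
  have h3 : ((e i)⁻¹) ^ 4 ≤ (N : ℝ) := Nat.le_ceil _
  have h4 : (N : ℝ) ≤ 2 * ((e i)⁻¹) ^ 4 := by
    have := (Nat.ceil_lt_add_one (by positivity : 0 ≤ ((e i)⁻¹) ^ 4)).le
    rw [← hN] at this
    linarith
  have h5 : 1 ≤ N := by
    have : (1 : ℝ) ≤ N := h2.trans h3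
    exact_mod_cast this
  have h6 : App (T i) (A * ((e i)⁻¹) ^ 8) 2 := by
    have := (hA i).2
    norm_num at this ⊢
    exact this
  refine (isNuc_scale h6 (hA i).1 h5).mono ?_
  have h7 : A * ((e i)⁻¹) ^ 8 / N ≤ A * ((e i)⁻¹) ^ 4 := by
    rw [div_le_iff₀ (by positivity)]
    calc A * ((e i)⁻¹) ^ 8 = A * ((e i)⁻¹) ^ 4 * ((e i)⁻¹) ^ 4 := by ring
      _ ≤ _ := mul_le_mul_of_nonneg_left h3 (by positivity)
  have h8 : (N : ℝ) * A ≤ 2 * ((e i)⁻¹) ^ 4 * A := mul_le_mul_of_nonneg_right h4 hA0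
  linarith

lemma FR.nuc {R : ι → H →L[ℂ] H} (h : FR R) : ∃ c : ℝ, ∀ i, IsNuc (R i) c := by
  obtain ⟨r, A, hA⟩ := h
  refine ⟨r * A, fun i => (hA i).1.isNuc.mono ?_⟩
  exact mul_le_mul_of_nonneg_left (hA i).2 (by positivity)

/-- the trace estimate. -/
lemma Sim.tr (he : ∀ i, 0 < e i) (he1 : ∀ i, e i ≤ 1) (h : Sim e δ ρ 8 T T') :
    ∃ c : ℝ, ∀ i, ‖RCTr_746.tr (T i) - RCTr_746.tr (T' i)‖ ≤
      c * (|δ i| * ((e i)⁻¹) ^ 4 + |ρ i|) := by
  obtain ⟨a1, a2, E, R, a3, a4, a5⟩ := h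
  obtain ⟨c1, h1⟩ := a1.nuc he he1
  obtain ⟨c2, h2⟩ := a2.nuc he he1
  obtain ⟨c3, h3⟩ := a3.nuc he he1
  obtain ⟨c4, h4⟩ := a4.nuc
  refine ⟨max c3 c4, fun i => ?_⟩
  have h5 : T i - T' i = (δ i : ℂ) • E i + (ρ i : ℂ) • R i := by
    rw [a5]; abel
  rw [← tr_sub (h1 i) (h2 i), h5]
  refine (((h3 i).smul (δ i : ℂ)).add ((h4 i).smul (ρ i : ℂ))).norm_tr_le.trans ?_
  rw [Complex.norm_real, Complex.norm_real, Real.norm_eq_abs, Real.norm_eq_abs]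
  have h6 : 0 ≤ ((e i)⁻¹) ^ 4 := by have := he i; positivity
  calc |δ i| * (c3 * ((e i)⁻¹) ^ 4) + |ρ i| * c4
      ≤ |δ i| * (max c3 c4 * ((e i)⁻¹) ^ 4) + |ρ i| * max c3 c4 := by
        gcongr
        · exact le_max_left _ _
        · exact le_max_right _ _
    _ = _ := by ring

end fam

end

end Crest.Agent.R235.RCInfA_843
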