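import Crest.Agent.R235.RCApp_746

/-!
Row 235, block FAM/RC (helper746): APPROXIMATION NUMBERS OF THE EMBEDDING FROM A REAL EIGENBASIS
`appJ_of_spec`, and the growth of the eigenvalues from the heat trace `growth`.
-/

set_option autoImplicit false
set_option linter.unusedSectionVars false

open scoped InnerProductSpace ContDiff Topology
open Complex Filter Crest.Agent.R235.RCTr_746 Crest.Agent.R235.RCSt_746 Crest.Agent.R235.Rc0_820
open Crest.Agent.R235.RCApp_746

namespace Crest.Agent.R235.RCJ_746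

noncomputable section

variable {X H0 : Type*} [NormedAddCommGroup X] [InnerProductSpace ℂ X] [CompleteSpace X]
  [NormedAddCommGroup H0] [InnerProductSpace ℂ H0] [CompleteSpace H0]

local notation "⟪" x ", " y "⟫" => inner ℂ x y

/-- **AppJ from a real orthonormal basis**: `φ` real-orthonormal with Parseval's identity,
`∑ w_k (Re ⟪φ_k, j x⟫)² ≤ C ‖x‖²` with monotone weights `w_n ≥ c √(n+1)`. -/
theorem appJ_of_spec {j : X →L[ℂ] H0} (φ : ℕ → H0) (w : ℕ → ℝ)
    (ho : ∀ k l, (⟪φ k, φ l⟫).re = if k = l then 1 else 0)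
    (hφ : ∀ y : H0, HasSum (fun k => (⟪φ k, y⟫).re ^ 2) (‖y‖ ^ 2))
    {C : ℝ} (hE : ∀ (x : X) (s : Finset ℕ), ∑ k ∈ s, w k * (⟪φ k, j x⟫).re ^ 2 ≤ C * ‖x‖ ^ 2)
    (hm : Monotone w) {c : ℝ} (hc : 0 < c) (hg : ∀ n : ℕ, c * Real.sqrt ((n : ℝ) + 1) ≤ w n) :
    AppJ j := by
  have hw0 : ∀ n, 0 < w n := fun n =>
    lt_of_lt_of_le (mul_pos hc (Real.sqrt_pos.2 (by positivity))) (hg n)
  have hC0 : 0 ≤ |C| := abs_nonneg C
  refine ⟨Real.sqrt (|C| / c), fun n => ?_⟩
  set S : Submodule ℂ H0 := Submodule.span ℂ (φ '' (Finset.range n : Set ℕ)) with hS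
  have hfin : (φ '' (Finset.range n : Set ℕ)).Finite := (Finset.finite_toSet _).image _
  have hfd : FiniteDimensional ℂ S := FiniteDimensional.span_of_finite ℂ hfin
  have hdim : Module.finrank ℂ S ≤ n := by
    classical
    have e : φ '' (Finset.range n : Set ℕ) = ((Finset.range n).image φ : Finset H0) := by simp
    rw [hS, e]
    refine (finrank_span_finset_le_card _).trans ?_
    refine Finset.card_image_le.trans ?_
    simp
  set P : H0 →L[ℂ] H0 := S.starProjection with hP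
  have hle : LinearMap.range ((P ∘L j : X →L[ℂ] H0) : X →ₗ[ℂ] H0) ≤ S := by
    rintro _ ⟨x, rfl⟩
    exact Submodule.starProjection_apply_mem S _
  refine ⟨P ∘L j, Submodule.finiteDimensional_of_le hle, (Submodule.finrank_mono hle).trans hdim,
    ?_⟩
  refine ContinuousLinearMap.opNorm_le_bound _ (by positivity) fun x => ?_
  -- the comparison vector
  set v : H0 := ∑ k ∈ Finset.range n, (((⟪φ k, j x⟫).re : ℝ) : ℂ) • φ k with hv
  have hvS : v ∈ S := by
    refine Submodule.sum_mem _ fun k hk => Submodule.smul_mem _ _ ?_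
    exact Submodule.subset_span ⟨k, by exact_mod_cast hk, rfl⟩
  have h1 : ‖(j - P ∘L j) x‖ ≤ ‖j x - v‖ := by
    have h2 : (j - P ∘L j) x = j x - S.starProjection (j x) := rfl
    rw [h2, Submodule.starProjection_minimal]
    exact ciInf_le ⟨0, by rintro _ ⟨y, rfl⟩; exact norm_nonneg _⟩ (⟨v, hvS⟩ : S)
  have h2 : ∀ k, (⟪φ k, j x - v⟫).re = if k < n then 0 else (⟪φ k, j x⟫).re := by
    intro k
    rw [inner_sub_right, hv, inner_sum, Complex.sub_re, Complex.re_sum]
    have h3 : ∀ l ∈ Finset.range n, (⟪φ k, (((⟪φ l, j x⟫).re : ℝ) : ℂ) • φ l⟫).re =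
        if k = l then (⟪φ k, j x⟫).re else 0 := by
      intro l _
      rw [inner_smul_right, Complex.re_ofReal_mul, ho]
      split_ifs with h
      · rw [h, mul_one]
      · rw [mul_zero]
    rw [Finset.sum_congr rfl h3, Finset.sum_ite_eq]
    simp only [Finset.mem_range]
    split_ifs <;> simp
  have h3 : ‖j x - v‖ ^ 2 ≤ |C| / w n * ‖x‖ ^ 2 := by
    have h4 := hφ (j x - v)
    simp only [h2] at h4
    refine hasSum_le_of_sum_le h4 fun s => ?_
    have h5 : ∀ k ∈ s, (if k < n then 0 else (⟪φ k, j x⟫).re) ^ 2 ≤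
        (w n)⁻¹ * (w k * (⟪φ k, j x⟫).re ^ 2) := by
      intro k _
      split_ifs with h
      · have := hw0 n; have := hw0 k
        rw [zero_pow two_ne_zero]; positivity
      · push Not at h
        have h6 := hm h
        have h7 := hw0 n
        rw [← mul_assoc]
        refine le_mul_of_one_le_left (sq_nonneg _) ?_
        rw [← div_eq_inv_mul, one_le_div h7]
        exact h6
    refine (Finset.sum_le_sum h5).trans ?_
    rw [← Finset.mul_sum, div_eq_inv_mul, mul_assoc]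
    refine mul_le_mul_of_nonneg_left ?_ (inv_pos.2 (hw0 n)).le
    exact (hE x s).trans (mul_le_mul_of_nonneg_right (le_abs_self C) (sq_nonneg _))
  have h4 : |C| / w n ≤ (|C| / c) * ((n : ℝ) + 1) ^ (-(1 / 2 : ℝ)) := by
    have h5 : |C| / w n ≤ |C| / (c * Real.sqrt ((n : ℝ) + 1)) :=
      div_le_div_of_nonneg_left hC0 (mul_pos hc (Real.sqrt_pos.2 (by positivity))) (hg n)
    refine h5.trans (le_of_eq ?_)
    rw [Real.rpow_neg (by positivity), ← Real.sqrt_eq_rpow, div_mul_eq_div_div, div_eq_mul_inv]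
  refine h1.trans ?_
  have h5 : ‖j x - v‖ ^ 2 ≤ (Real.sqrt (|C| / c) * ((n : ℝ) + 1) ^ (-(1 / 4 : ℝ)) * ‖x‖) ^ 2 := by
    refine h3.trans ?_
    rw [mul_pow, mul_pow, Real.sq_sqrt (by positivity)]
    refine mul_le_mul_of_nonneg_right (h4.trans (le_of_eq ?_)) (sq_nonneg _)
    congr 1
    rw [← Real.rpow_natCast, ← Real.rpow_mul (by positivity)]
    norm_num
  exact (pow_le_pow_iff_left₀ (norm_nonneg _) (by positivity) two_ne_zero).1 h5

/-- growth of eigenvalues from the heat trace in dimension `4`. -/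
theorem growth {m : ℕ → ℝ} (hm : Monotone m) (hs : ∀ t > 0, Summable fun k => Real.exp (-(t * m k)))
    {C : ℝ} (hC : ∀ t ∈ Set.Ioc (0 : ℝ) 1, ∑' k, Real.exp (-(t * m k)) ≤ C / t ^ 2) :
    ∃ c : ℝ, 0 < c ∧ ∀ n : ℕ, c * Real.sqrt ((n : ℝ) + 1) ≤ max 1 (m n) := by
  set E : ℝ := Real.exp (-1) with hE
  have hE0 : 0 < E := Real.exp_pos _
  set C' : ℝ := |C| + 1 with hC'
  have hC'0 : 0 < C' := by positivity
  refine ⟨Real.sqrt (E / C'), Real.sqrt_pos.2 (by positivity), fun n => ?_⟩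
  set M : ℝ := max 1 (m n) with hM
  have hM1 : 1 ≤ M := le_max_left _ _
  have hM0 : 0 < M := by linarith
  have ht : M⁻¹ ∈ Set.Ioc (0 : ℝ) 1 := ⟨inv_pos.2 hM0, inv_le_one_of_one_le₀ hM1⟩
  have h1 := hC _ ht
  have h2 : ((n : ℝ) + 1) * E ≤ ∑' k, Real.exp (-(M⁻¹ * m k)) := by
    have h3 := (hs _ ht.1).sum_le_tsum (Finset.range (n + 1)) fun k _ => (Real.exp_pos _).le
    refine le_trans ?_ h3
    have h4 : ∀ k ∈ Finset.range (n + 1), E ≤ Real.exp (-(M⁻¹ * m k)) := by
      intro k hk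
      refine Real.exp_le_exp.2 (neg_le_neg ?_)
      have h5 : m k ≤ M := (hm (Nat.lt_succ_iff.1 (Finset.mem_range.1 hk))).trans (le_max_right _ _)
      calc M⁻¹ * m k ≤ M⁻¹ * M := mul_le_mul_of_nonneg_left h5 (inv_pos.2 hM0).le
        _ = 1 := inv_mul_cancel₀ hM0.ne'
    have h5 := Finset.sum_le_sum h4
    rw [Finset.sum_const, Finset.card_range, nsmul_eq_mul] at h5
    push_cast at h5
    exact h5
  have h3 : ((n : ℝ) + 1) * E ≤ C' * M ^ 2 := by
    refine h2.trans (h1.trans ?_)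
    rw [inv_pow, div_inv_eq_mul]
    refine mul_le_mul_of_nonneg_right ?_ (sq_nonneg _)
    rw [hC']; linarith [le_abs_self C]
  rw [← Real.sqrt_mul (by positivity)]
  refine Real.sqrt_le_iff.2 ⟨hM0.le, ?_⟩
  rw [div_mul_eq_mul_div, div_le_iff₀ hC'0]
  linarith

end

end Crest.Agent.R235.RCJ_746
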