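import Crest.Agent.R235.RCSt_746

/-!
Row 235, block FAM/RC (helper746), RC3: RESOLVENT ALGEBRA with bounded operators.
`R = (d + Y + V + P)⁻¹`, `C = P + d R (1 - P) = d (d + Y + V)⁻¹`, `(g (2 C - 1))² = 1`.
-/

set_option autoImplicit false
set_option maxSynthPendingDepth 3
set_option linter.unusedSectionVars false

open scoped InnerProductSpace Topology ContDiff
open Filter Set MeasureTheory Crest.Agent.R235.RCTr_746 Crest.Agent.R235.RCDefs_746
open Crest.Agent.R235.RCSt_746

namespace Crest.Agent.R235.RCRes_746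

noncomputable section

variable {H : Type*} [NormedAddCommGroup H] [InnerProductSpace ℂ H] [CompleteSpace H]

local notation "⟪" x ", " y "⟫" => inner ℂ x y

/-! ### compactness -/

lemma Rk.compact {F : H →L[ℂ] H} {n : ℕ} (hF : Rk F n) : IsCompactOperator F := by
  have := hF.1
  set S := LinearMap.range (F : H →ₗ[ℂ] H) with hS
  let F' : H →L[ℂ] S := F.codRestrict S (fun x => ⟨x, rfl⟩)
  have h1 : IsCompactOperator F' := isCompactOperator_of_locallyCompactSpace_dom F'
  have h2 := h1.clm_comp S.subtypeL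
  exact h2

lemma Ap.compact {T : H →L[ℂ] H} {a : ℝ} (hT : Ap T a) (ha : 0 < a) : IsCompactOperator T := by
  obtain ⟨c, hc⟩ := hT
  choose F hF1 hF2 using hc
  have hlim : Tendsto F atTop (𝓝 T) := by
    rw [tendsto_iff_norm_sub_tendsto_zero]
    have h1 : Tendsto (fun n : ℕ => c * ((n : ℝ) + 1) ^ (-a)) atTop (𝓝 0) := by
      have h2 : Tendsto (fun n : ℕ => ((n : ℝ) + 1) ^ (-a)) atTop (𝓝 0) :=
        (tendsto_rpow_neg_atTop ha).comp
          (tendsto_atTop_add_const_right _ _ tendsto_natCast_atTop_atTop)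
      simpa using h2.const_mul c
    refine squeeze_zero (fun _ => norm_nonneg _) (fun n => ?_) h1
    rw [norm_sub_rev]; exact hF2 n
  exact isCompactOperator_of_tendsto hlim (Eventually.of_forall fun n => Rk.compact (hF1 n))

lemma unit_of_inj {K : H →L[ℂ] H} (hK : Ap K (1 / 4)) (W : H →L[ℂ] H)
    (h : ∀ w, w + W (K w) = 0 → w = 0) : IsUnit (1 + W * K) := by
  have h1 : IsCompactOperator (W * K : H →L[ℂ] H) := by
    have := Ap.compact (hK.left W) (by norm_num)
    exact this
  rcases h1.hasEigenvalue_or_mem_resolventSet (μ := (-1 : ℂ)) (by norm_num) with h2 | h2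
  · exfalso
    obtain ⟨v, hv⟩ := h2.exists_hasEigenvector
    have h3 : W (K v) = (-1 : ℂ) • v := hv.apply_eq_smul
    refine hv.2 (h v ?_)
    rw [h3]; simp
  · rw [spectrum.mem_resolventSet_iff] at h2
    have e : (algebraMap ℂ (H →L[ℂ] H)) (-1) - W * K = -(1 + W * K) := by
      rw [map_neg, map_one]; abel
    rw [e, IsUnit.neg_iff] at h2
    exact h2

/-! ### one operator -/

/-- pointwise data. -/
structure Pt (g K V P : H →L[ℂ] H) : Prop where
  base : Base g K
  gv : g * V * g = - V
  skew : star V = - V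
  idem : P * P = P
  sa : star P = P
  gp : g * P = P
  ker : K * (1 - V) * P = P
  ker' : ∀ u, K ((1 - V) u) = u → P u = u

variable {g K V P : H →L[ℂ] H}

lemma re_inner (hB : Base g K) (w : H) : (⟪w, K w⟫).re = ‖K w‖ ^ 2 := by
  have h1 := congrArg (fun T : H →L[ℂ] H => ⟪w, T w⟫) hB.kk'
  have h2 : ⟪w, (star K) w⟫ = (starRingEnd ℂ) ⟪w, K w⟫ := by
    rw [ContinuousLinearMap.star_eq_adjoint, ContinuousLinearMap.adjoint_inner_right,
      inner_conj_symm]
  have h3 : ⟪w, (star K * K) w⟫ = ((‖K w‖ ^ 2 : ℝ) : ℂ) := by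
    show ⟪w, (star K) (K w)⟫ = _
    rw [ContinuousLinearMap.star_eq_adjoint, ContinuousLinearMap.adjoint_inner_right,
      inner_self_eq_norm_sq_to_K]
    push_cast; rfl
  simp only [_root_.add_apply, inner_add_right, _root_.smul_apply, inner_smul_right] at h1
  rw [h2, h3] at h1
  have h4 := congrArg Complex.re h1
  simp only [Complex.add_re, Complex.conj_re, Complex.mul_re, Complex.re_ofNat, Complex.im_ofNat,
    Complex.ofReal_re, Complex.ofReal_im] at h4
  linarith

lemma skew_re (hV : star V = - V) (u : H) : (⟪V u, u⟫).re = 0 := by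
  have h2 : ⟪V u, u⟫ = - (starRingEnd ℂ) ⟪V u, u⟫ := by
    have h1 : ⟪V u, u⟫ = ⟪u, (star V) u⟫ := by
      rw [ContinuousLinearMap.star_eq_adjoint, ContinuousLinearMap.adjoint_inner_right]
    rw [inner_conj_symm]
    conv_lhs => rw [h1, hV]
    simp
  have h3 := congrArg Complex.re h2
  simp only [Complex.neg_re, Complex.conj_re] at h3
  linarith

lemma proj_re (hi : P * P = P) (hs : star P = P) (u : H) : (⟪P u, u⟫).re = ‖P u‖ ^ 2 := by
  have h1 : ⟪P u, u⟫ = ⟪P u, P u⟫ := by
    have h2 : ⟪P u, P u⟫ = ⟪P (P u), u⟫ := by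
      conv_rhs => rw [← hs]
      rw [ContinuousLinearMap.star_eq_adjoint, ContinuousLinearMap.adjoint_inner_left]
      rw [← ContinuousLinearMap.star_eq_adjoint, hs]
    rw [h2]
    have h3 : P (P u) = P u := congrArg (fun T : H →L[ℂ] H => T u) hi
    rw [h3]
  rw [h1, inner_self_eq_norm_sq_to_K]
  norm_cast

/-- `W = d - 1 + V + P`. -/
def WW (V P : H →L[ℂ] H) (d : ℝ) : H →L[ℂ] H := (d - 1) • 1 + V + P

/-- `R = (d + Y + V + P)⁻¹`. -/
def RR (K V P : H →L[ℂ] H) (d : ℝ) : H →L[ℂ] H := K * Ring.inverse (1 + WW V P d * K)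

/-- `C = d (d + Y + V)⁻¹`. -/
def CC (K V P : H →L[ℂ] H) (d : ℝ) : H →L[ℂ] H := P + d • (RR K V P d * (1 - P))

lemma Pt.unitX (h : Pt g K V P) {d : ℝ} (hd : 0 ≤ d) : IsUnit (1 + WW V P d * K) := by
  refine unit_of_inj h.base.app _ fun w hw => ?_
  set u := K w with hu
  have h1 : w = -(WW V P d u) := eq_neg_of_add_eq_zero_left hw
  have h2 := re_inner h.base w
  rw [← hu] at h2
  have h3 : (⟪w, u⟫).re = -((d - 1) * ‖u‖ ^ 2) - ‖P u‖ ^ 2 := by
    rw [h1]
    simp only [WW, _root_.add_apply, _root_.smul_apply, inner_neg_left,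
      inner_add_left, Complex.neg_re, Complex.add_re, skew_re h.skew, proj_re h.idem h.sa]
    have h4 : (⟪(d - 1) • (1 : H →L[ℂ] H) u, u⟫).re = (d - 1) * ‖u‖ ^ 2 := by
      have h5 : (d - 1) • (1 : H →L[ℂ] H) u = ((d - 1 : ℝ) : ℂ) • u := by
        rw [one_apply_eq_self]; exact (Complex.coe_smul _ _).symm
      rw [h5, inner_smul_left, inner_self_eq_norm_sq_to_K, Complex.conj_ofReal]
      have h6 : (((d - 1 : ℝ) : ℂ) * ((‖u‖ : ℂ)) ^ 2) = (((d - 1) * ‖u‖ ^ 2 : ℝ) : ℂ) := by
        push_cast; ring
      exact (congrArg Complex.re h6).trans (Complex.ofReal_re _)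
    rw [h4]; ring
  rw [h3] at h2
  have h4 : d * ‖u‖ ^ 2 + ‖P u‖ ^ 2 = 0 := by linarith
  have h5 : 0 ≤ d * ‖u‖ ^ 2 := by positivity
  have h6 : ‖P u‖ ^ 2 = 0 := by nlinarith [sq_nonneg ‖P u‖]
  have h7 : P u = 0 := by simpa using h6
  have h8 : d * ‖u‖ ^ 2 = 0 := by linarith
  have h9 : u = 0 := by
    rcases mul_eq_zero.1 h8 with h9 | h9
    · have h10 : w = (1 - V) u := by
        rw [h1]
        simp only [WW, h9, _root_.add_apply, _root_.smul_apply, h7, _root_.sub_apply,
          one_apply_eq_self]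
        simp
        abel
      have h11 : K ((1 - V) u) = u := by rw [← h10]
      rw [← h.ker' u h11, h7]
    · simpa using h9
  rw [h1, h9, map_zero, neg_zero]

lemma unitN (hB : Base g K) (hV : star V = - V) {d : ℝ} (hd : 0 < d) :
    IsUnit (1 + ((d - 1) • 1 + V) * K) := by
  refine unit_of_inj hB.app _ fun w hw => ?_
  set u := K w with hu
  have h1 : w = -(((d - 1) • (1 : H →L[ℂ] H) + V) u) := eq_neg_of_add_eq_zero_left hw
  have h2 := re_inner hB w
  rw [← hu] at h2
  have h3 : (⟪w, u⟫).re = -((d - 1) * ‖u‖ ^ 2) := by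
    rw [h1]
    simp only [_root_.add_apply, _root_.smul_apply, inner_neg_left,
      inner_add_left, Complex.neg_re, Complex.add_re, skew_re hV]
    have h4 : (⟪(d - 1) • (1 : H →L[ℂ] H) u, u⟫).re = (d - 1) * ‖u‖ ^ 2 := by
      have h5 : (d - 1) • (1 : H →L[ℂ] H) u = ((d - 1 : ℝ) : ℂ) • u := by
        rw [one_apply_eq_self]; exact (Complex.coe_smul _ _).symm
      rw [h5, inner_smul_left, inner_self_eq_norm_sq_to_K, Complex.conj_ofReal]
      have h6 : (((d - 1 : ℝ) : ℂ) * ((‖u‖ : ℂ)) ^ 2) = (((d - 1) * ‖u‖ ^ 2 : ℝ) : ℂ) := by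
        push_cast; ring
      exact (congrArg Complex.re h6).trans (Complex.ofReal_re _)
    rw [h4]; ring
  rw [h3] at h2
  have h4 : d * ‖u‖ ^ 2 = 0 := by linarith
  have h9 : u = 0 := by
    rcases mul_eq_zero.1 h4 with h9 | h9
    · exact absurd h9 hd.ne'
    · simpa using h9
  rw [h1, h9, map_zero, neg_zero]

/-! ### algebra -/

lemma R_mul {d : ℝ} (hu : IsUnit (1 + WW V P d * K)) :
    RR K V P d * (1 + WW V P d * K) = K := by
  unfold RR
  rw [mul_assoc, Ring.inverse_mul_cancel _ hu, mul_one]

lemma R_one {d : ℝ} (hu : IsUnit (1 + WW V P d * K)) :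
    RR K V P d + RR K V P d * WW V P d * K = K := by
  have := R_mul (V := V) (P := P) hu
  rw [mul_add, mul_one, ← mul_assoc] at this
  exact this

lemma R_two {d : ℝ} (hu : IsUnit (1 + WW V P d * K)) :
    RR K V P d + K * WW V P d * RR K V P d = K := by
  unfold RR
  calc K * Ring.inverse (1 + WW V P d * K) + K * WW V P d * (K * Ring.inverse (1 + WW V P d * K))
      = K * ((1 + WW V P d * K) * Ring.inverse (1 + WW V P d * K)) := by noncomm_ring
    _ = K := by rw [Ring.mul_inverse_cancel _ hu, mul_one]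

lemma Pt.pg (h : Pt g K V P) : P * g = P := by
  have h1 := congrArg star h.gp
  rwa [star_mul, h.base.gs, h.sa] at h1

lemma Pt.pvk (h : Pt g K V P) : P * (1 - V) * K = P := by
  have h1 := congrArg star h.ker
  simp only [star_mul, star_sub, star_one, h.skew, h.sa] at h1
  -- h1 : P * ((1 - -V) * star K) = P
  have h2 : g * star K * g = K := by
    rw [← h.base.gk]
    calc g * (g * K * g) * g = (g * g) * K * (g * g) := by noncomm_ring
      _ = K := by rw [h.base.gg]; noncomm_ring
  have h3 : g * (1 + V) * g = 1 - V := by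
    calc g * (1 + V) * g = g * g + g * V * g := by noncomm_ring
      _ = 1 - V := by rw [h.base.gg, h.gv]; noncomm_ring
  calc P * (1 - V) * K = P * (g * (1 + V) * g) * (g * star K * g) := by rw [h2, h3]
    _ = (P * g) * (1 + V) * (g * g) * star K * g := by noncomm_ring
    _ = (P * ((1 - -V) * star K)) * g := by rw [h.pg, h.base.gg]; noncomm_ring
    _ = P := by rw [h1, h.pg]

lemma Pt.RP (h : Pt g K V P) {d : ℝ} (hd : 0 ≤ d) : (1 + d) • (RR K V P d * P) = P := by
  have hu := h.unitX hd
  have h1 := R_mul (V := V) (P := P) hu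
  have e0 : K * ((1 - V) * P) = P := by rw [← mul_assoc]; exact h.ker
  have e1 : (1 + WW V P d * K) * ((1 - V) * P) = (1 + d) • P := by
    calc (1 + WW V P d * K) * ((1 - V) * P) = (1 - V) * P + WW V P d * (K * ((1 - V) * P)) := by
          noncomm_ring
      _ = (1 - V) * P + WW V P d * P := by rw [e0]
      _ = (1 + d) • P := by
          simp only [WW, add_mul, sub_mul, one_mul, smul_mul_assoc, h.idem]
          module
  calc (1 + d) • (RR K V P d * P) = RR K V P d * ((1 + d) • P) := by rw [mul_smul_comm]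
    _ = (RR K V P d * (1 + WW V P d * K)) * ((1 - V) * P) := by rw [← e1, mul_assoc]
    _ = P := by rw [h1, e0]

lemma Pt.PR (h : Pt g K V P) {d : ℝ} (hd : 0 ≤ d) : (1 + d) • (P * RR K V P d) = P := by
  have hu := h.unitX hd
  have h1 := R_two (V := V) (P := P) hu
  have e1 : P * (1 - V) * (1 + K * WW V P d) = (1 + d) • P := by
    calc P * (1 - V) * (1 + K * WW V P d) = P * (1 - V) + P * (1 - V) * K * WW V P d := by
          noncomm_ring
      _ = P * (1 - V) + P * WW V P d := by rw [h.pvk]
      _ = (1 + d) • P := by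
          simp only [WW, mul_add, mul_sub, mul_one, mul_smul_comm, h.idem]
          module
  calc (1 + d) • (P * RR K V P d) = ((1 + d) • P) * RR K V P d := by rw [smul_mul_assoc]
    _ = P * (1 - V) * (RR K V P d + K * WW V P d * RR K V P d) := by rw [← e1]; noncomm_ring
    _ = P := by rw [h1, h.pvk]

lemma Pt.comm (h : Pt g K V P) {d : ℝ} (hd : 0 ≤ d) : RR K V P d * P = P * RR K V P d := by
  have h1 := h.RP hd
  have h2 := h.PR hd
  have h3 : (1 + d) ≠ 0 := by positivity
  exact smul_right_injective _ h3 (by simp only; rw [h1, h2])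

lemma Pt.PRQ (h : Pt g K V P) {d : ℝ} (hd : 0 ≤ d) : P * RR K V P d * (1 - P) = 0 := by
  rw [← h.comm hd, mul_assoc, mul_sub, mul_one, h.idem, sub_self, mul_zero]

lemma Pt.CC_eq (h : Pt g K V P) {d : ℝ} (hd : 0 ≤ d) :
    CC K V P d = d • RR K V P d + (1 + d)⁻¹ • P := by
  have h3 : (1 + d) ≠ 0 := by positivity
  have h4 : RR K V P d * P = (1 + d)⁻¹ • P := by
    rw [eq_inv_smul_iff₀ h3]; exact h.RP hd
  have h5 : P = (1 + d) • (1 + d)⁻¹ • P := by rw [smul_inv_smul₀ h3]
  unfold CC
  rw [mul_sub, mul_one, h4]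
  conv_lhs => enter [1]; rw [h5]
  module

/-- `C (1 + (d - 1 + V) K) = d K`. -/
lemma Pt.CN (h : Pt g K V P) {d : ℝ} (hd : 0 ≤ d) :
    CC K V P d * (1 + ((d - 1) • 1 + V) * K) = d • K := by
  have hu := h.unitX hd
  have h1 := R_mul (V := V) (P := P) hu
  have h2 : P * V * K = P * K - P := by
    have := h.pvk
    have e : P * (1 - V) * K = P * K - P * V * K := by noncomm_ring
    rw [e] at this
    calc P * V * K = P * K - (P * K - P * V * K) := by abel
      _ = P * K - P := by rw [this]
  have e1 : P * (1 + ((d - 1) • 1 + V) * K) = d • (P * K) := by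
    have e : P * (1 + ((d - 1) • 1 + V) * K) = P + (d - 1) • (P * K) + P * V * K := by
      simp only [mul_add, add_mul, mul_one, one_mul, smul_mul_assoc, mul_smul_comm, mul_assoc,
        ← add_assoc]
    rw [e, h2]; module
  have e2 : (1 + ((d - 1) • 1 + V) * K) = (1 + WW V P d * K) - P * K := by
    simp only [WW, add_mul]; abel
  have e3 : RR K V P d * (1 + ((d - 1) • 1 + V) * K) = K - RR K V P d * P * K := by
    rw [e2, mul_sub, h1, ← mul_assoc]
  have e4 : (1 + d) • (RR K V P d * P * K) = P * K := by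
    rw [← smul_mul_assoc, h.RP hd]
  have e5 : RR K V P d * P * (1 + ((d - 1) • 1 + V) * K) = d • (RR K V P d * P * K) := by
    rw [mul_assoc, e1, mul_smul_comm, mul_assoc]
  have e6 : CC K V P d * (1 + ((d - 1) • 1 + V) * K) = P * (1 + ((d - 1) • 1 + V) * K) +
      d • (RR K V P d * (1 + ((d - 1) • 1 + V) * K) -
        RR K V P d * P * (1 + ((d - 1) • 1 + V) * K)) := by
    have e7 : ∀ Z : H →L[ℂ] H, RR K V P d * (1 - P) * Z = RR K V P d * Z - RR K V P d * P * Z :=
      fun Z => by rw [mul_sub, mul_one, sub_mul]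
    unfold CC
    rw [add_mul, smul_mul_assoc, e7]
  rw [e6, e1, e3, e5, ← e4]
  module

/-- `g R g`. -/
def RT (g K V P : H →L[ℂ] H) (d : ℝ) : H →L[ℂ] H := g * RR K V P d * g

/-- `g W g`. -/
def WT (V P : H →L[ℂ] H) (d : ℝ) : H →L[ℂ] H := (d - 1) • 1 - V + P

lemma Pt.gPg (h : Pt g K V P) : g * P * g = P := by rw [h.gp, h.pg]

lemma Pt.gWg (h : Pt g K V P) (d : ℝ) : g * WW V P d * g = WT V P d := by
  unfold WW WT
  have e : g * ((d - 1) • 1 + V + P) * g = (d - 1) • (g * g) + g * V * g + g * P * g := by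
    simp only [mul_add, add_mul, mul_smul_comm, smul_mul_assoc, mul_one]
  rw [e, h.base.gg, h.gv, h.gPg]
  abel

/-- conjugation by `g` is multiplicative. -/
lemma gconj (hg : g * g = 1) (A B : H →L[ℂ] H) : g * (A * B) * g = (g * A * g) * (g * B * g) := by
  calc g * (A * B) * g = g * A * 1 * B * g := by noncomm_ring
    _ = g * A * (g * g) * B * g := by rw [hg]
    _ = _ := by noncomm_ring

lemma gconj' (hg : g * g = 1) (A : H →L[ℂ] H) : g * (g * A * g) * g = A := by
  calc g * (g * A * g) * g = (g * g) * A * (g * g) := by noncomm_ring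
    _ = A := by rw [hg]; noncomm_ring

lemma Pt.RT_one (h : Pt g K V P) {d : ℝ} (hd : 0 ≤ d) :
    RT g K V P d + RT g K V P d * WT V P d * star K = star K := by
  have h1 := congrArg (fun T => g * T * g) (R_one (V := V) (P := P) (h.unitX hd))
  simp only [mul_add, add_mul] at h1
  rw [gconj h.base.gg, gconj h.base.gg, h.gWg, h.base.gk] at h1
  exact h1

lemma Pt.RT_two (h : Pt g K V P) {d : ℝ} (hd : 0 ≤ d) :
    RT g K V P d + star K * WT V P d * RT g K V P d = star K := by
  have h1 := congrArg (fun T => g * T * g) (R_two (V := V) (P := P) (h.unitX hd))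
  simp only [mul_add, add_mul] at h1
  rw [gconj h.base.gg, gconj h.base.gg, h.gWg, h.base.gk] at h1
  exact h1

/-- `star R = g R g`. -/
lemma Pt.star_R (h : Pt g K V P) {d : ℝ} (hd : 0 ≤ d) : star (RR K V P d) = RT g K V P d := by
  have h1 := congrArg star (R_mul (V := V) (P := P) (h.unitX hd))
  have hW : star (WW V P d) = WT V P d := by
    unfold WW WT
    rw [star_add, star_add, star_smul, star_one, h.skew, h.sa]
    simp only [star_trivial]
    abel
  rw [star_mul, star_add, star_one, star_mul, hW] at h1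
  have h2 := h.RT_one hd
  calc star (RR K V P d) = 1 * star (RR K V P d) := by rw [one_mul]
    _ = ((1 - RT g K V P d * WT V P d) * (1 + star K * WT V P d)) * star (RR K V P d) := by
        congr 1
        have e : (1 - RT g K V P d * WT V P d) * (1 + star K * WT V P d) =
          1 + (star K - (RT g K V P d + RT g K V P d * WT V P d * star K)) * WT V P d := by
          noncomm_ring
        rw [e, h2]; noncomm_ring
    _ = (1 - RT g K V P d * WT V P d) * ((1 + star K * WT V P d) * star (RR K V P d)) := by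
        rw [mul_assoc]
    _ = (1 - RT g K V P d * WT V P d) * star K := by rw [h1]
    _ = star K - RT g K V P d * WT V P d * star K := by noncomm_ring
    _ = RT g K V P d := by nth_rewrite 1 [← h2]; abel

/-- `R + R' = R' (2 + W + W') R`. -/
lemma Pt.sum (h : Pt g K V P) {d : ℝ} (hd : 0 ≤ d) :
    RR K V P d + RT g K V P d =
      (2 : ℝ) • (RT g K V P d * (d • 1 + P) * RR K V P d) := by
  have h1 := h.RT_one hd
  have h2 := R_two (V := V) (P := P) (h.unitX hd)
  have h3 := h.base.kk'
  have k2 : (2 : ℂ) • (star K * K) = star K * K + star K * K := two_smul _ _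
  rw [k2] at h3
  have e1 : (1 - RT g K V P d * WT V P d) * star K = RT g K V P d := by
    calc (1 - RT g K V P d * WT V P d) * star K = star K - RT g K V P d * WT V P d * star K := by
          rw [sub_mul, one_mul]
      _ = (RT g K V P d + RT g K V P d * WT V P d * star K) -
          RT g K V P d * WT V P d * star K := by rw [h1]
      _ = RT g K V P d := by abel
  have e2 : K * (1 - WW V P d * RR K V P d) = RR K V P d := by
    calc K * (1 - WW V P d * RR K V P d) = K - K * WW V P d * RR K V P d := by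
          rw [mul_sub, mul_one, mul_assoc]
      _ = (RR K V P d + K * WW V P d * RR K V P d) - K * WW V P d * RR K V P d := by rw [h2]
      _ = RR K V P d := by abel
  have key : (1 - RT g K V P d * WT V P d) * RR K V P d + RT g K V P d *
      (1 - WW V P d * RR K V P d) = RT g K V P d * RR K V P d + RT g K V P d * RR K V P d := by
    have e3 := congrArg (fun T => (1 - RT g K V P d * WT V P d) * T *
      (1 - WW V P d * RR K V P d)) h3
    calc (1 - RT g K V P d * WT V P d) * RR K V P d + RT g K V P d * (1 - WW V P d * RR K V P d)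
        = (1 - RT g K V P d * WT V P d) * (K * (1 - WW V P d * RR K V P d)) +
          ((1 - RT g K V P d * WT V P d) * star K) * (1 - WW V P d * RR K V P d) := by
          rw [e1, e2]
      _ = (1 - RT g K V P d * WT V P d) * (K + star K) * (1 - WW V P d * RR K V P d) := by
          noncomm_ring
      _ = (1 - RT g K V P d * WT V P d) * (star K * K + star K * K) *
          (1 - WW V P d * RR K V P d) := e3
      _ = ((1 - RT g K V P d * WT V P d) * star K) * (K * (1 - WW V P d * RR K V P d)) +
          ((1 - RT g K V P d * WT V P d) * star K) * (K * (1 - WW V P d * RR K V P d)) := by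
          noncomm_ring
      _ = _ := by rw [e1, e2]
  have e4 : RR K V P d + RT g K V P d = (1 - RT g K V P d * WT V P d) * RR K V P d +
      RT g K V P d * (1 - WW V P d * RR K V P d) +
      RT g K V P d * (WT V P d + WW V P d) * RR K V P d := by noncomm_ring
  have e5 : WT V P d + WW V P d = (2 : ℝ) • ((d - 1) • (1 : H →L[ℂ] H) + P) := by
    unfold WT WW; module
  rw [e4, key, e5]
  simp only [mul_add, add_mul, mul_smul_comm, smul_mul_assoc, mul_one]
  module

/-- `C' = g C g`. -/
def CT (g K V P : H →L[ℂ] H) (d : ℝ) : H →L[ℂ] H := P + d • (RT g K V P d * (1 - P))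

lemma Pt.gCg (h : Pt g K V P) (d : ℝ) : g * CC K V P d * g = CT g K V P d := by
  unfold CC CT
  have e : g * (P + d • (RR K V P d * (1 - P))) * g =
      g * P * g + d • (g * (RR K V P d * (1 - P)) * g) := by
    simp only [mul_add, add_mul, mul_smul_comm, smul_mul_assoc]
  have e2 : g * (1 - P) * g = 1 - P := by
    rw [mul_sub, sub_mul, h.gPg, mul_one, h.base.gg]
  rw [e, h.gPg, gconj h.base.gg, e2, RT]

lemma Pt.commT (h : Pt g K V P) {d : ℝ} (hd : 0 ≤ d) :
    RT g K V P d * P = P * RT g K V P d := by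
  unfold RT
  calc g * RR K V P d * g * P = g * (RR K V P d * P) := by rw [mul_assoc, h.gp, mul_assoc]
    _ = (g * P) * RR K V P d := by rw [h.comm hd, mul_assoc]
    _ = P * RR K V P d := by rw [h.gp]
    _ = RR K V P d * P := by rw [h.comm hd]
    _ = RR K V P d * (P * g) := by rw [h.pg]
    _ = (P * RR K V P d) * g := by rw [← mul_assoc, h.comm hd]
    _ = ((P * g) * RR K V P d) * g := by rw [h.pg]
    _ = P * (g * RR K V P d * g) := by noncomm_ring

lemma Pt.star_CC (h : Pt g K V P) {d : ℝ} (hd : 0 ≤ d) : star (CC K V P d) = CT g K V P d := by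
  unfold CC CT
  rw [star_add, star_smul, star_mul, star_sub, star_one, h.sa, h.star_R hd, star_trivial,
    mul_sub, sub_mul, mul_one, one_mul, h.commT hd]

lemma Pt.CTC (h : Pt g K V P) {d : ℝ} (hd : 0 ≤ d) :
    CC K V P d + CT g K V P d = (2 : ℝ) • (CT g K V P d * CC K V P d) := by
  have h1 := h.sum hd
  have h2 := h.PRQ hd
  have e1 : (RR K V P d + RT g K V P d) * (1 - P) =
      (2 * d) • (RT g K V P d * RR K V P d * (1 - P)) := by
    rw [h1]
    have e : (2 : ℝ) • (RT g K V P d * (d • 1 + P) * RR K V P d) * (1 - P) =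
        (2 * d) • (RT g K V P d * RR K V P d * (1 - P)) +
        (2 : ℝ) • (RT g K V P d * (P * RR K V P d * (1 - P))) := by
      simp only [mul_add, add_mul, mul_smul_comm, smul_mul_assoc, mul_one, mul_assoc]
      module
    rw [e, h2, mul_zero, smul_zero, add_zero]
  have e2 : (1 - P) * P = 0 := by rw [sub_mul, one_mul, h.idem, sub_self]
  have e3 : (1 - P) * RR K V P d * (1 - P) = RR K V P d * (1 - P) := by
    have : (1 - P) * RR K V P d * (1 - P) = RR K V P d * (1 - P) - P * RR K V P d * (1 - P) := by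
      rw [sub_mul, one_mul, sub_mul]
    rw [this, h2, sub_zero]
  have e4 : CT g K V P d * CC K V P d = P + (d * d) • (RT g K V P d * RR K V P d * (1 - P)) := by
    unfold CT CC
    have e : (P + d • (RT g K V P d * (1 - P))) * (P + d • (RR K V P d * (1 - P))) =
        P * P + d • (P * RR K V P d * (1 - P)) + d • (RT g K V P d * ((1 - P) * P)) +
        (d * d) • (RT g K V P d * ((1 - P) * RR K V P d * (1 - P))) := by
      simp only [mul_add, add_mul, mul_smul_comm, smul_mul_assoc, mul_assoc, smul_add, smul_smul]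
      abel
    rw [e, h2, e2, e3, h.idem, mul_zero, smul_zero, add_zero, add_zero, mul_assoc]
  have e5 : CC K V P d + CT g K V P d = (2 : ℝ) • P +
      d • ((RR K V P d + RT g K V P d) * (1 - P)) := by
    unfold CC CT
    rw [add_mul]; module
  rw [e4, e5, e1]
  module

lemma Pt.FF (h : Pt g K V P) {d : ℝ} (hd : 0 ≤ d) :
    (g * ((2 : ℝ) • CC K V P d - 1)) * (g * ((2 : ℝ) • CC K V P d - 1)) = 1 := by
  have h1 := h.CTC hd
  have e : (g * ((2 : ℝ) • CC K V P d - 1)) * (g * ((2 : ℝ) • CC K V P d - 1)) =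
      (4 : ℝ) • ((g * CC K V P d * g) * CC K V P d) - (2 : ℝ) • (g * CC K V P d * g) -
      (2 : ℝ) • ((g * g) * CC K V P d) + g * g := by
    simp only [mul_sub, sub_mul, mul_smul_comm, smul_mul_assoc, mul_one, mul_assoc]
    module
  rw [e, h.gCg, h.base.gg, one_mul]
  have e2 : (4 : ℝ) • (CT g K V P d * CC K V P d) =
      (2 : ℝ) • (CC K V P d + CT g K V P d) := by rw [h1]; module
  rw [e2]
  module

/-! ### nuclearity of the projection -/

lemma ap_proj {T P : H →L[ℂ] H} (hT : Ap T (1 / 4)) (h : T * P = P) : Ap P (5 / 4) := by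
  have h2 : Ap (T * T) (1 / 2) := by
    have := hT.mul hT (by norm_num) (by norm_num)
    norm_num at this; simpa using this
  have h4 : Ap (T * T * (T * T)) 1 := by
    have := h2.mul h2 (by norm_num) (by norm_num)
    norm_num at this; simpa using this
  have h5 : Ap (T * T * (T * T) * T) (5 / 4) := by
    have := h4.mul hT (by norm_num) (by norm_num)
    norm_num at this; simpa using this
  have e : T * T * (T * T) * T * P = P := by
    calc T * T * (T * T) * T * P = T * (T * (T * (T * (T * P)))) := by noncomm_ring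
      _ = P := by rw [h, h, h, h, h]
  rw [← e]
  exact h5.right P

lemma Pt.apP (h : Pt g K V P) : Ap P (5 / 4) := by
  refine ap_proj (T := K * (1 - V)) ?_ h.ker
  exact Ap.right h.base.app _

/-! ### unitaries -/

lemma inter {V V' P P' U : H →L[ℂ] H} (hper : K * U - U * K = K * (V' * U - U * V) * K)
    (hk : K * (1 - V) * P = P) (hk' : ∀ u, K ((1 - V') u) = u → P' u = u) :
    P' * (U * P) = U * P := by
  have h1 := congrArg (fun T => T * ((1 - V) * P)) hper
  have h0 : K * ((1 - V) * P) = P := by rw [← mul_assoc]; exact hk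
  have h2 : K * ((1 - V') * (U * P)) = U * P := by
    have e1 : (K * U - U * K) * ((1 - V) * P) = K * (U * ((1 - V) * P)) - U * P := by
      rw [sub_mul, mul_assoc, mul_assoc, h0]
    have e2 : K * (V' * U - U * V) * K * ((1 - V) * P) = K * ((V' * U - U * V) * P) := by
      rw [mul_assoc, h0, mul_assoc]
    rw [e1, e2] at h1
    calc K * ((1 - V') * (U * P)) = K * (U * ((1 - V) * P)) - K * ((V' * U - U * V) * P) := by
          noncomm_ring
      _ = K * (U * ((1 - V) * P)) - (K * (U * ((1 - V) * P)) - U * P) := by rw [h1]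
      _ = U * P := by abel
  ext u
  exact hk' _ (congrArg (fun T : H →L[ℂ] H => T u) h2)

lemma per_star {V V' U : H →L[ℂ] H} (hB : Base g K) (hU : g * U = U * g) (hV : g * V * g = -V)
    (hV' : g * V' * g = -V') (sV : star V = -V) (sV' : star V' = -V')
    (hper : K * U - U * K = K * (V' * U - U * V) * K) :
    K * star U - star U * K = K * (V * star U - star U * V') * K := by
  have h1 := congrArg star hper
  simp only [star_sub, star_mul, sV, sV'] at h1
  -- h1 : star U * star K - star K * star U = star K * ((star U * -V' - -V * star U) * star K)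
  have h2 := congrArg (fun T => g * T * g) h1
  have hU' : star U * g = g * star U := by
    have := congrArg star hU
    rwa [star_mul, star_mul, hB.gs] at this
  have gU : g * star U * g = star U := by
    rw [← hU', mul_assoc, hB.gg, mul_one]
  have gK : g * star K * g = K := by rw [← hB.gk]; exact gconj' hB.gg K
  simp only [mul_sub, sub_mul] at h2
  rw [gconj hB.gg, gconj hB.gg (star K) (star U), gU, gK] at h2
  have e1 : g * (star K * (star U * -V' * star K)) * g = K * (star U * V') * K := by
    rw [gconj hB.gg, gconj hB.gg, gconj hB.gg, gK, gU]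
    have : g * -V' * g = V' := by
      rw [mul_neg, neg_mul, hV', neg_neg]
    rw [this]; noncomm_ring
  have e2 : g * (star K * (-V * star U * star K)) * g = K * (V * star U) * K := by
    rw [gconj hB.gg, gconj hB.gg, gconj hB.gg, gK, gU]
    have : g * -V * g = V := by
      rw [mul_neg, neg_mul, hV, neg_neg]
    rw [this]; noncomm_ring
  rw [e1, e2] at h2
  have h3 := congrArg (fun T => -T) h2
  simp only [neg_sub] at h3
  rw [h3, mul_sub, sub_mul]

lemma inter_eq {V V' P P' U : H →L[ℂ] H} (h : Pt g K V P) (h' : Pt g K V' P')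
    (hU : g * U = U * g) (hper : K * U - U * K = K * (V' * U - U * V) * K) : P' * U = U * P := by
  have h1 := inter hper h.ker h'.ker'
  have h2 := inter (per_star h.base hU h.gv h'.gv h.skew h'.skew hper) h'.ker h.ker'
  have h3 := congrArg star h2
  simp only [star_mul, star_star, h.sa, h'.sa] at h3
  -- h3 : P' * U * P = P' * U
  rw [← h3, ← h1]
  noncomm_ring

lemma inter_R {V V' P P' U : H →L[ℂ] H} (h : Pt g K V P) (h' : Pt g K V' P')
    (hU : g * U = U * g) (hper : K * U - U * K = K * (V' * U - U * V) * K) {d : ℝ} (hd : 0 ≤ d) :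
    RR K V' P' d * U = U * RR K V P d := by
  have hp := inter_eq h h' hU hper
  have hw : WW V' P' d * U - U * WW V P d = V' * U - U * V := by
    unfold WW
    simp only [add_mul, mul_add, smul_mul_assoc, mul_smul_comm, one_mul, mul_one, hp]
    abel
  rw [← hw] at hper
  set W := WW V P d
  set W' := WW V' P' d
  set R := RR K V P d
  set R' := RR K V' P' d
  have r1 : R + R * W * K = K := R_one (h.unitX hd)
  have r2' : R' + K * W' * R' = K := R_two (h'.unitX hd)
  have r1' : R' + R' * W' * K = K := R_one (h'.unitX hd)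
  have r2 : R + K * W * R = K := R_two (h.unitX hd)
  have hper' : K * (W' * U - U * W) * K = K * U - U * K := hper.symm
  have a1 : (1 - R' * W') * K = R' := by
    rw [sub_mul, one_mul]; nth_rewrite 1 [← r1']; abel
  have a2 : K * (1 - W * R) = R := by
    rw [mul_sub, mul_one, ← mul_assoc]; nth_rewrite 1 [← r2]; abel
  have e : (1 - R' * W') * (K * U - U * K) * (1 - W * R) =
      (1 - R' * W') * (K * (W' * U - U * W) * K) * (1 - W * R) := by rw [hper']
  have e1 : (1 - R' * W') * (K * U - U * K) * (1 - W * R) =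
      R' * U * (1 - W * R) - (1 - R' * W') * U * R := by
    calc (1 - R' * W') * (K * U - U * K) * (1 - W * R) =
          ((1 - R' * W') * K) * U * (1 - W * R) - (1 - R' * W') * U * (K * (1 - W * R)) := by
          noncomm_ring
      _ = _ := by rw [a1, a2]
  have e2 : (1 - R' * W') * (K * (W' * U - U * W) * K) * (1 - W * R) =
      R' * (W' * U - U * W) * R := by
    calc (1 - R' * W') * (K * (W' * U - U * W) * K) * (1 - W * R) =
          ((1 - R' * W') * K) * (W' * U - U * W) * (K * (1 - W * R)) := by noncomm_ring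
      _ = _ := by rw [a1, a2]
  rw [e1, e2] at e
  have e3 : R' * U - U * R = (R' * U * (1 - W * R) - (1 - R' * W') * U * R) -
      R' * (W' * U - U * W) * R := by noncomm_ring
  rw [e, sub_self] at e3
  exact sub_eq_zero.1 e3

lemma inter_C {V V' P P' U : H →L[ℂ] H} (h : Pt g K V P) (h' : Pt g K V' P')
    (hU : g * U = U * g) (hper : K * U - U * K = K * (V' * U - U * V) * K) {d : ℝ} (hd : 0 ≤ d) :
    CC K V' P' d * U = U * CC K V P d := by
  have hp := inter_eq h h' hU hper
  have hr := inter_R h h' hU hper hd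
  unfold CC
  rw [add_mul, mul_add, hp, smul_mul_assoc, mul_smul_comm]
  congr 2
  calc RR K V' P' d * (1 - P') * U = RR K V' P' d * (U - P' * U) := by noncomm_ring
    _ = RR K V' P' d * U * (1 - P) := by rw [hp]; noncomm_ring
    _ = U * (RR K V P d * (1 - P)) := by rw [hr, mul_assoc]

end

end Crest.Agent.R235.RCRes_746
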