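import Crest.Agent.R235.RCDefs_746
import Crest.Agent.R235.TorF_692

/-!
Row 235, block FAM/RC (helper746), RC2: STOKES. For a smooth family `F (s, h)` of involutions with
`∂_a F = K M_a K` (`K` of approximation number exponent `1/4`), periodic up to conjugation,
the number `∫_cube ∑ sgn tr (F ∂F ∂F ∂F ∂F)` does not depend on `s`.
-/

set_option autoImplicit false
set_option maxSynthPendingDepth 3

open scoped InnerProductSpace Topology ContDiff
open Filter Set MeasureTheory Crest.Agent.R235.RCTr_746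
open Crest.Agent.R235.FamDefs_307 (pdθ sg ch4)
open Crest.Agent.R235.TorF_692 (S)

namespace Crest.Agent.R235.RCSt_746

noncomputable section

/-! ### directional derivatives -/

section cal

variable {X W : Type*} [NormedAddCommGroup X] [NormedSpace ℝ X] [NormedAddCommGroup W]
  [NormedSpace ℝ W]

lemma two_le : (2 : WithTop ℕ∞) ≤ ∞ :=
  show ((2 : ℕ∞) : WithTop ℕ∞) ≤ ((⊤ : ℕ∞) : WithTop ℕ∞) from WithTop.coe_le_coe.2 le_top

/-- directional derivative. -/
def D (v : X) (f : X → W) (x : X) : W := fderiv ℝ f x v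

lemma D_smooth {f : X → W} (hf : ContDiff ℝ ∞ f) (v : X) : ContDiff ℝ ∞ (D v f) :=
  (hf.fderiv_right (m := ∞) (by simp)).clm_apply contDiff_const

lemma hasD {f : X → W} (hf : ContDiff ℝ ∞ f) (x : X) : HasFDerivAt f (fderiv ℝ f x) x :=
  (hf.differentiable (by simp) x).hasFDerivAt

lemma D_symm {f : X → W} (hf : ContDiff ℝ ∞ f) (v w : X) (x : X) :
    D v (D w f) x = D w (D v f) x := by
  have h1 : ContDiff ℝ ∞ (fderiv ℝ f) := hf.fderiv_right (m := ∞) (by simp)
  have h2 : ∀ u, fderiv ℝ (D u f) x = (fderiv ℝ (fderiv ℝ f) x).flip u := by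
    intro u
    have h3 := (hasD h1 x).clm_apply (hasFDerivAt_const u x)
    have h4 : HasFDerivAt (D u f) _ x := h3
    rw [h4.fderiv]
    ext y
    simp
  have h5 : IsSymmSndFDerivAt ℝ f x :=
    (hf.contDiffAt (x := x)).isSymmSndFDerivAt (by simpa using two_le)
  show fderiv ℝ (D w f) x v = fderiv ℝ (D v f) x w
  rw [h2, h2]
  exact h5 v w

lemma D_clm {V : Type*} [NormedAddCommGroup V] [NormedSpace ℝ V] {c : X → V →L[ℝ] W}
    {u : X → V} (hc : ContDiff ℝ ∞ c) (hu : ContDiff ℝ ∞ u) (v x : X) :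
    D v (fun x => c x (u x)) x = D v c x (u x) + c x (D v u x) := by
  have h := (hasD hc x).clm_apply (hasD hu x)
  unfold D
  rw [h.fderiv]
  simp only [_root_.add_apply, ContinuousLinearMap.comp_apply,
    ContinuousLinearMap.flip_apply]
  rw [add_comm]

lemma D_lin {V : Type*} [NormedAddCommGroup V] [NormedSpace ℝ V] (L : V →L[ℝ] W) {u : X → V}
    (hu : ContDiff ℝ ∞ u) (v x : X) : D v (fun x => L (u x)) x = L (D v u x) := by
  have h := L.hasFDerivAt.comp x (hasD hu x)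
  have h' : HasFDerivAt (fun x => L (u x)) _ x := h
  unfold D
  rw [h'.fderiv]
  rfl

end cal

section alg

variable {X 𝒜 : Type*} [NormedAddCommGroup X] [NormedSpace ℝ X] [NormedRing 𝒜] [NormedAlgebra ℝ 𝒜]

lemma D_mul {f g : X → 𝒜} (hf : ContDiff ℝ ∞ f) (hg : ContDiff ℝ ∞ g) (v x : X) :
    D v (fun x => f x * g x) x = D v f x * g x + f x * D v g x := by
  have h1 : HasDerivAt (fun t : ℝ => f (x + t • v)) (D v f x) 0 := by
    have := (hasD hf (x + (0 : ℝ) • v)).comp_hasDerivAt (0 : ℝ)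
      (((hasDerivAt_id (0 : ℝ)).smul_const v).const_add x)
    simpa [D, Function.comp_def] using this
  have h2 : HasDerivAt (fun t : ℝ => g (x + t • v)) (D v g x) 0 := by
    have := (hasD hg (x + (0 : ℝ) • v)).comp_hasDerivAt (0 : ℝ)
      (((hasDerivAt_id (0 : ℝ)).smul_const v).const_add x)
    simpa [D, Function.comp_def] using this
  have h3 : HasDerivAt (fun t : ℝ => f (x + t • v) * g (x + t • v))
      (D v (fun x => f x * g x) x) 0 := by
    have := (hasD (hf.mul hg) (x + (0 : ℝ) • v)).comp_hasDerivAt (0 : ℝ)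
      (((hasDerivAt_id (0 : ℝ)).smul_const v).const_add x)
    simpa [D, Function.comp_def] using this
  have h4 := h1.mul h2
  have h5 := h3.unique h4
  rw [h5]
  simp

end alg

/-! ### multilinear functionals -/

lemma exists_clm {V W : Type*} [NormedAddCommGroup V] [NormedSpace ℝ V] [NormedAddCommGroup W]
    [NormedSpace ℝ W] (g : V → W) (ha : ∀ x y, g (x + y) = g x + g y)
    (hs : ∀ (r : ℝ) x, g (r • x) = r • g x) (c : ℝ) (hc : 0 ≤ c) (hb : ∀ x, ‖g x‖ ≤ c * ‖x‖) :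
    ∃ L : V →L[ℝ] W, (∀ x, L x = g x) ∧ ‖L‖ ≤ c :=
  ⟨LinearMap.mkContinuous ⟨⟨g, ha⟩, hs⟩ c hb, fun _ => rfl, LinearMap.mkContinuous_norm_le _ hc _⟩

lemma exists_quad {V : Type*} [NormedAddCommGroup V] [NormedSpace ℝ V] (f : V → V → V → V → ℂ)
    (add4 : ∀ A B C D D', f A B C (D + D') = f A B C D + f A B C D')
    (add3 : ∀ A B C C' D, f A B (C + C') D = f A B C D + f A B C' D)
    (add2 : ∀ A B B' C D, f A (B + B') C D = f A B C D + f A B' C D)
    (add1 : ∀ A A' B C D, f (A + A') B C D = f A B C D + f A' B C D)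
    (sm4 : ∀ (r : ℝ) A B C D, f A B C (r • D) = r • f A B C D)
    (sm3 : ∀ (r : ℝ) A B C D, f A B (r • C) D = r • f A B C D)
    (sm2 : ∀ (r : ℝ) A B C D, f A (r • B) C D = r • f A B C D)
    (sm1 : ∀ (r : ℝ) A B C D, f (r • A) B C D = r • f A B C D)
    (c : ℝ) (hc0 : 0 ≤ c) (hc : ∀ A B C D, ‖f A B C D‖ ≤ c * ‖A‖ * ‖B‖ * ‖C‖ * ‖D‖) :
    ∃ τ : V →L[ℝ] V →L[ℝ] V →L[ℝ] V →L[ℝ] ℂ, ∀ A B C D, τ A B C D = f A B C D := by
  have L1 : ∀ A B C, ∃ L : V →L[ℝ] ℂ, (∀ D, L D = f A B C D) ∧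
      ‖L‖ ≤ c * ‖A‖ * ‖B‖ * ‖C‖ := fun A B C =>
    exists_clm _ (fun D D' => add4 A B C D D') (fun r D => sm4 r A B C D) _ (by positivity)
      fun D => hc A B C D
  choose l1 h1 n1 using L1
  have L2 : ∀ A B, ∃ L : V →L[ℝ] V →L[ℝ] ℂ, (∀ C, L C = l1 A B C) ∧
      ‖L‖ ≤ c * ‖A‖ * ‖B‖ := fun A B => by
    refine exists_clm _ (fun C C' => ?_) (fun r C => ?_) _ (by positivity) fun C => n1 A B C
    · ext1 D; rw [_root_.add_apply, h1, h1, h1, add3]
    · ext1 D; rw [_root_.smul_apply, h1, h1, sm3]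
  choose l2 h2 n2 using L2
  have L3 : ∀ A, ∃ L : V →L[ℝ] V →L[ℝ] V →L[ℝ] ℂ,
      (∀ B, L B = l2 A B) ∧ ‖L‖ ≤ c * ‖A‖ := fun A => by
    refine exists_clm _ (fun B B' => ?_) (fun r B => ?_) _ (by positivity) fun B => n2 A B
    · ext1 C; ext1 D
      rw [_root_.add_apply, _root_.add_apply, h2, h2, h2, h1, h1, h1, add2]
    · ext1 C; ext1 D
      rw [_root_.smul_apply, _root_.smul_apply, h2, h2, h1, h1, sm2]
  choose l3 h3 n3 using L3
  have L4 : ∃ L : V →L[ℝ] V →L[ℝ] V →L[ℝ] V →L[ℝ] ℂ,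
      (∀ A, L A = l3 A) ∧ ‖L‖ ≤ c := by
    refine exists_clm _ (fun A A' => ?_) (fun r A => ?_) _ hc0 fun A => n3 A
    · ext1 B; ext1 C; ext1 D
      rw [_root_.add_apply, _root_.add_apply,
        _root_.add_apply, h3, h3, h3, h2, h2, h2, h1, h1, h1, add1]
    · ext1 B; ext1 C; ext1 D
      rw [_root_.smul_apply, _root_.smul_apply,
        _root_.smul_apply, h3, h3, h2, h2, h1, h1, sm1]
  obtain ⟨τ, h4, -⟩ := L4
  exact ⟨τ, fun A B C D => by rw [h4, h3, h2, h1]⟩

variable {H : Type*} [NormedAddCommGroup H] [InnerProductSpace ℂ H] [CompleteSpace H]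

/-- some approximation number bound. -/
def Ap (T : H →L[ℂ] H) (a : ℝ) : Prop := ∃ c, App T c a

lemma Ap.mul {S T : H →L[ℂ] H} {a b : ℝ} (hS : Ap S a) (hT : Ap T b) (ha : 0 ≤ a) (hb : 0 ≤ b) :
    Ap (S * T) (a + b) := by
  obtain ⟨c, hc⟩ := hS
  obtain ⟨d, hd⟩ := hT
  exact ⟨_, hc.mul hd ha hb⟩

lemma Ap.left {T : H →L[ℂ] H} {a : ℝ} (hT : Ap T a) (A : H →L[ℂ] H) : Ap (A * T) a := by
  obtain ⟨c, hc⟩ := hT
  exact ⟨_, hc.left A⟩

lemma Ap.right {T : H →L[ℂ] H} {a : ℝ} (hT : Ap T a) (A : H →L[ℂ] H) : Ap (T * A) a := by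
  obtain ⟨c, hc⟩ := hT
  exact ⟨_, hc.right A⟩

lemma Ap.nuc {T : H →L[ℂ] H} {a : ℝ} (hT : Ap T a) (ha : 1 < a) : ∃ c, IsNuc T c := by
  obtain ⟨c, hc⟩ := hT
  exact ⟨_, hc.isNuc ha⟩

lemma Ap.sand {K : H →L[ℂ] H} (hK : Ap K (1 / 4)) (A : H →L[ℂ] H) : Ap (K * A * K) (1 / 2) := by
  have := (hK.right A).mul hK (by norm_num) (by norm_num)
  norm_num at this
  simpa using this

/-- three factors of exponent `1/2`, with bounded operators in between. -/
lemma Ap.three {A B C : H →L[ℂ] H} (hA : Ap A (1 / 2)) (hB : Ap B (1 / 2)) (hC : Ap C (1 / 2)) :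
    ∃ c, IsNuc (A * B * C) c := by
  have := (hA.mul hB (by norm_num) (by norm_num)).mul hC (by norm_num) (by norm_num)
  exact this.nuc (by norm_num)

lemma tr_cyc {T : H →L[ℂ] H} (hT : ∃ c, IsNuc T c) (A : H →L[ℂ] H) : tr (A * T) = tr (T * A) := by
  obtain ⟨c, hc⟩ := hT
  exact tr_comm hc A

/-- the functional `tr (K A K · K B K · K C K · D)`. -/
def T4 (K A B C D : H →L[ℂ] H) : H →L[ℂ] H :=
  (K * A * K) * (K * B * K) * (K * C * K) * D

lemma T4_nuc {K : H →L[ℂ] H} (hK : Ap K (1 / 4)) :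
    ∃ c, 0 ≤ c ∧ ∀ A B C D, IsNuc (T4 K A B C D) (c * ‖A‖ * ‖B‖ * ‖C‖ * ‖D‖) := by
  obtain ⟨c, hc⟩ := hK
  have h0 := hc.nonneg
  have h1 : ∀ A : H →L[ℂ] H, App (K * A * K) (c * ‖A‖ * c * 2 ^ (1 / 4 + 1 / 4 : ℝ)) (1 / 4 + 1 / 4) :=
    fun A => (hc.right A).mul hc (by norm_num) (by norm_num)
  have hn : 0 ≤ nucC (1 / 4 + 1 / 4 + (1 / 4 + 1 / 4) + (1 / 4 + 1 / 4)) := by
    unfold nucC
    exact tsum_nonneg fun k => by positivity
  refine ⟨c * c * 2 ^ (1 / 4 + 1 / 4 : ℝ) * (c * c * 2 ^ (1 / 4 + 1 / 4 : ℝ)) *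
    2 ^ (1 / 4 + 1 / 4 + (1 / 4 + 1 / 4) : ℝ) * (c * c * 2 ^ (1 / 4 + 1 / 4 : ℝ)) *
    2 ^ (1 / 4 + 1 / 4 + (1 / 4 + 1 / 4) + (1 / 4 + 1 / 4) : ℝ) *
    nucC (1 / 4 + 1 / 4 + (1 / 4 + 1 / 4) + (1 / 4 + 1 / 4)), by positivity, fun A B C D => ?_⟩
  have h2 := (((h1 A).mul (h1 B) (by norm_num) (by norm_num)).mul (h1 C) (by norm_num)
    (by norm_num)).isNuc (by norm_num)
  refine (h2.right D).mono (le_of_eq ?_)
  ring

/-- the four-linear functional. -/
lemma exists_tau {K : H →L[ℂ] H} (hK : Ap K (1 / 4)) :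
    ∃ τ : (H →L[ℂ] H) →L[ℝ] (H →L[ℂ] H) →L[ℝ] (H →L[ℂ] H) →L[ℝ] (H →L[ℂ] H) →L[ℝ] ℂ,
      ∀ A B C D, τ A B C D = tr (T4 K A B C D) := by
  obtain ⟨c, hc0, hc⟩ := T4_nuc hK
  have rs : ∀ (r : ℝ) (T : H →L[ℂ] H), tr (r • T) = r • tr T := by
    intro r T
    have : r • T = (r : ℂ) • T := by ext v; simp
    rw [this, tr_smul]; simp
  refine exists_quad (fun A B C D => tr (T4 K A B C D)) ?_ ?_ ?_ ?_ ?_ ?_ ?_ ?_ c hc0
    fun A B C D => (hc A B C D).norm_tr_le
  · intro A B C D D'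
    show tr _ = tr _ + tr _
    rw [← tr_add (hc A B C D) (hc A B C D')]
    congr 1; simp only [T4]; noncomm_ring
  · intro A B C C' D
    show tr _ = tr _ + tr _
    rw [← tr_add (hc A B C D) (hc A B C' D)]
    congr 1; simp only [T4]; noncomm_ring
  · intro A B B' C D
    show tr _ = tr _ + tr _
    rw [← tr_add (hc A B C D) (hc A B' C D)]
    congr 1; simp only [T4]; noncomm_ring
  · intro A A' B C D
    show tr _ = tr _ + tr _
    rw [← tr_add (hc A B C D) (hc A' B C D)]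
    congr 1; simp only [T4]; noncomm_ring
  · intro r A B C D
    show tr _ = r • tr _
    rw [← rs]; congr 1; simp only [T4, mul_smul_comm]
  · intro r A B C D
    show tr _ = r • tr _
    rw [← rs]; congr 1; simp only [T4, mul_smul_comm, smul_mul_assoc]
  · intro r A B C D
    show tr _ = r • tr _
    rw [← rs]; congr 1; simp only [T4, mul_smul_comm, smul_mul_assoc]
  · intro r A B C D
    show tr _ = r • tr _
    rw [← rs]; congr 1; simp only [T4, mul_smul_comm, smul_mul_assoc]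

/-! ### algebra of the closedness -/

section claims

variable {G G' : H →L[ℂ] H} {P P' : Fin 4 → H →L[ℂ] H}

lemma cl1 (an : ∀ a, P a * G = -(G * P a)) (hP : ∀ a, Ap (P a) (1 / 2)) (a b c d : Fin 4) :
    tr (P' a * P b * P c * (P d * G)) = - tr (P b * P c * P d * P' a * G) := by
  have e : P' a * P b * P c * (P d * G) = -((P' a * G) * (P b * P c * P d)) := by
    calc P' a * P b * P c * (P d * G) = P' a * (P b * (P c * (P d * G))) := by noncomm_ring
      _ = P' a * (P b * (P c * -(G * P d))) := by rw [an]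
      _ = -(P' a * (P b * ((P c * G) * P d))) := by noncomm_ring
      _ = -(P' a * (P b * (-(G * P c) * P d))) := by rw [an]
      _ = P' a * ((P b * G) * (P c * P d)) := by noncomm_ring
      _ = P' a * (-(G * P b) * (P c * P d)) := by rw [an]
      _ = _ := by noncomm_ring
  rw [e, tr_neg, tr_cyc (Ap.three (hP b) (hP c) (hP d))]
  congr 2

lemma cl2 (an : ∀ a, P a * G = -(G * P a)) (hP : ∀ a, Ap (P a) (1 / 2))
    (hP' : ∀ a, Ap (P' a) (1 / 2)) (a b c d : Fin 4) :
    tr (P a * P' b * P c * (P d * G)) = tr (P c * P d * P a * P' b * G) := by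
  have e : P a * P' b * P c * (P d * G) = (P a * (P' b * G) * P c) * P d := by
    calc P a * P' b * P c * (P d * G) = P a * P' b * (P c * (P d * G)) := by noncomm_ring
      _ = P a * P' b * (P c * -(G * P d)) := by rw [an]
      _ = -(P a * P' b * ((P c * G) * P d)) := by noncomm_ring
      _ = -(P a * P' b * (-(G * P c) * P d)) := by rw [an]
      _ = _ := by noncomm_ring
  have h1 : ∃ c', IsNuc (P a * (P' b * G) * P c) c' := Ap.three (hP a) ((hP' b).right G) (hP c)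
  rw [e, ← tr_cyc h1]
  have e2 : P d * (P a * (P' b * G) * P c) = (P d * P a * (P' b * G)) * P c := by noncomm_ring
  have h2 : ∃ c', IsNuc (P d * P a * (P' b * G)) c' := Ap.three (hP d) (hP a) ((hP' b).right G)
  rw [e2, ← tr_cyc h2]
  congr 1

lemma cl3 (an : ∀ a, P a * G = -(G * P a)) (hP : ∀ a, Ap (P a) (1 / 2))
    (hP' : ∀ a, Ap (P' a) (1 / 2)) (a b c d : Fin 4) :
    tr (P a * P b * P' c * (P d * G)) = - tr (P d * P a * P b * P' c * G) := by
  have e : P a * P b * P' c * (P d * G) = -((P a * P b * (P' c * G)) * P d) := by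
    rw [an]; noncomm_ring
  have h1 : ∃ c', IsNuc (P a * P b * (P' c * G)) c' := Ap.three (hP a) (hP b) ((hP' c).right G)
  rw [e, tr_neg, ← tr_cyc h1]
  congr 2

lemma cl5 (GG : G * G = 1) (an : ∀ a, P a * G = -(G * P a)) (an' : G' * G = -(G * G'))
    (hP : ∀ a, Ap (P a) (1 / 2)) (a b c d : Fin 4) :
    tr (P a * P b * P c * (P d * G')) = 0 := by
  set T := P a * P b * P c * (P d * G') with hT
  have h1 : T * G = -(G * T) := by
    rw [hT]
    calc P a * P b * P c * (P d * G') * G = P a * (P b * (P c * (P d * (G' * G)))) := by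
          noncomm_ring
      _ = P a * (P b * (P c * (P d * -(G * G')))) := by rw [an']
      _ = -(P a * (P b * (P c * ((P d * G) * G')))) := by noncomm_ring
      _ = -(P a * (P b * (P c * (-(G * P d) * G')))) := by rw [an]
      _ = P a * (P b * ((P c * G) * (P d * G'))) := by noncomm_ring
      _ = P a * (P b * (-(G * P c) * (P d * G'))) := by rw [an]
      _ = -(P a * ((P b * G) * (P c * (P d * G')))) := by noncomm_ring
      _ = -(P a * (-(G * P b) * (P c * (P d * G')))) := by rw [an]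
      _ = (P a * G) * (P b * (P c * (P d * G'))) := by noncomm_ring
      _ = -(G * P a) * (P b * (P c * (P d * G'))) := by rw [an]
      _ = _ := by noncomm_ring
  have h2 : ∃ c', IsNuc T c' := by
    have h3 := Ap.three (hP a) (hP b) ((hP c).right (P d * G'))
    have e : P a * P b * (P c * (P d * G')) = T := by rw [hT]; noncomm_ring
    rwa [e] at h3
  have h3 : ∃ c', IsNuc (T * G) c' := by
    obtain ⟨c', hc'⟩ := h2
    exact ⟨_, hc'.right G⟩
  have h4 : T = G * (G * T) := by rw [← mul_assoc, GG, one_mul]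
  have h5 : tr T = - tr T := by
    calc tr T = tr (G * (G * T)) := by rw [← h4]
      _ = tr (G * (-(T * G))) := by rw [h1, neg_neg]
      _ = - tr (G * (T * G)) := by rw [mul_neg, tr_neg]
      _ = - tr ((T * G) * G) := by rw [tr_cyc h3]
      _ = - tr T := by rw [mul_assoc, GG, mul_one]
  have h6 : (2 : ℂ) * tr T = 0 := by linear_combination h5
  simpa using h6

end claims

/-! ### alternating sums -/

lemma S_perm (π : Equiv.Perm (Fin 4)) (A : Fin 4 → Fin 4 → Fin 4 → Fin 4 → ℂ) :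
    ∑ σ : Equiv.Perm (Fin 4), ((Equiv.Perm.sign σ : ℤ) : ℂ) *
      A (σ (π 0)) (σ (π 1)) (σ (π 2)) (σ (π 3)) = ((Equiv.Perm.sign π : ℤ) : ℂ) * S A := by
  unfold S
  rw [← Equiv.sum_comp (Equiv.mulRight π) fun σ : Equiv.Perm (Fin 4) =>
    ((Equiv.Perm.sign σ : ℤ) : ℂ) * A (σ 0) (σ 1) (σ 2) (σ 3), Finset.mul_sum]
  refine Finset.sum_congr rfl fun σ _ => ?_
  simp only [Equiv.coe_mulRight, Equiv.Perm.mul_apply, Equiv.Perm.sign_mul]
  have h1 : ((Equiv.Perm.sign π : ℤ) : ℂ) * ((Equiv.Perm.sign π : ℤ) : ℂ) = 1 := by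
    rcases Int.units_eq_one_or (Equiv.Perm.sign π) with h | h <;> rw [h] <;> simp
  push_cast
  linear_combination (-((Equiv.Perm.sign σ : ℤ) : ℂ) *
    A (σ (π 0)) (σ (π 1)) (σ (π 2)) (σ (π 3))) * h1

lemma S_c1 (A : Fin 4 → Fin 4 → Fin 4 → Fin 4 → ℂ) : S (fun a b c d => A b c d a) = - S A := by
  have h := S_perm (finRotate 4) A
  have e0 : finRotate 4 0 = 1 := by decide
  have e1 : finRotate 4 1 = 2 := by decide
  have e2 : finRotate 4 2 = 3 := by decide
  have e3 : finRotate 4 3 = 0 := by decide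
  have es : Equiv.Perm.sign (finRotate 4) = -1 := by decide
  simp only [e0, e1, e2, e3, es] at h
  unfold S at h ⊢
  rw [h]; simp

lemma S_c2 (A : Fin 4 → Fin 4 → Fin 4 → Fin 4 → ℂ) : S (fun a b c d => A c d a b) = S A := by
  have h := S_c1 (fun a b c d => A b c d a)
  rw [S_c1 A, neg_neg] at h
  exact h

lemma S_c3 (A : Fin 4 → Fin 4 → Fin 4 → Fin 4 → ℂ) : S (fun a b c d => A d a b c) = - S A := by
  have h := S_c2 (fun a b c d => A b c d a)
  rw [S_c1 A] at h
  exact h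

lemma S_03 (A : Fin 4 → Fin 4 → Fin 4 → Fin 4 → ℂ) (hA : ∀ a b c d, A a b c d = A d b c a) :
    S A = 0 := by
  have h := S_perm (Equiv.swap 0 3) A
  have e0 : Equiv.swap (0 : Fin 4) 3 0 = 3 := by decide
  have e1 : Equiv.swap (0 : Fin 4) 3 1 = 1 := by decide
  have e2 : Equiv.swap (0 : Fin 4) 3 2 = 2 := by decide
  have e3 : Equiv.swap (0 : Fin 4) 3 3 = 0 := by decide
  have es : Equiv.Perm.sign (Equiv.swap (0 : Fin 4) 3) = -1 := Equiv.Perm.sign_swap (by decide)
  simp only [e0, e1, e2, e3, es] at h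
  have h2 : S A = - S A := by
    unfold S at h ⊢
    simp only [Units.val_neg, Units.val_one, Int.cast_neg, Int.cast_one, neg_one_mul] at h
    rw [← h]
    exact Finset.sum_congr rfl fun σ _ => by rw [hA]
  have h3 : (2 : ℂ) * S A = 0 := by linear_combination h2
  simpa using h3

lemma S_13 (A : Fin 4 → Fin 4 → Fin 4 → Fin 4 → ℂ) (hA : ∀ a b c d, A a b c d = A a d c b) :
    S A = 0 := by
  have h := S_perm (Equiv.swap 1 3) A
  have e0 : Equiv.swap (1 : Fin 4) 3 0 = 0 := by decide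
  have e1 : Equiv.swap (1 : Fin 4) 3 1 = 3 := by decide
  have e2 : Equiv.swap (1 : Fin 4) 3 2 = 2 := by decide
  have e3 : Equiv.swap (1 : Fin 4) 3 3 = 1 := by decide
  have es : Equiv.Perm.sign (Equiv.swap (1 : Fin 4) 3) = -1 := Equiv.Perm.sign_swap (by decide)
  simp only [e0, e1, e2, e3, es] at h
  have h2 : S A = - S A := by
    unfold S at h ⊢
    simp only [Units.val_neg, Units.val_one, Int.cast_neg, Int.cast_one, neg_one_mul] at h
    rw [← h]
    exact Finset.sum_congr rfl fun σ _ => by rw [hA]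
  have h3 : (2 : ℂ) * S A = 0 := by linear_combination h2
  simpa using h3

lemma S_23 (A : Fin 4 → Fin 4 → Fin 4 → Fin 4 → ℂ) (hA : ∀ a b c d, A a b c d = A a b d c) :
    S A = 0 := by
  have h2 : S A = - S A := by
    rw [← TorF_692.S_swap A]
    unfold S
    exact Finset.sum_congr rfl fun σ _ => by rw [hA]
  have h3 : (2 : ℂ) * S A = 0 := by linear_combination h2
  simpa using h3

/-! ### the theorem -/

/-- coordinate directions. -/
def va (a : Fin 4) : ℝ × (Fin 4 → ℝ) := (0, Pi.single a 1)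

/-- the direction of the parameter. -/
def v0 : ℝ × (Fin 4 → ℝ) := (1, 0)

/-- the density. -/
def f0 (F : ℝ × (Fin 4 → ℝ) → H →L[ℂ] H) (x : ℝ × (Fin 4 → ℝ)) : ℂ :=
  ∑ σ : Equiv.Perm (Fin 4), sg σ * tr (F x * D (va (σ 0)) F x * D (va (σ 1)) F x *
    D (va (σ 2)) F x * D (va (σ 3)) F x)

/-- the hypotheses of the Stokes theorem. -/
structure SD (K : H →L[ℂ] H) (F : ℝ × (Fin 4 → ℝ) → H →L[ℂ] H)
    (M : Fin 4 → ℝ × (Fin 4 → ℝ) → H →L[ℂ] H) (U Ui : Fin 4 → H →L[ℂ] H) : Prop where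
  hK : Ap K (1 / 4)
  hF : ContDiff ℝ ∞ F
  hM : ∀ a, ContDiff ℝ ∞ (M a)
  hFM : ∀ a x, D (va a) F x = K * M a x * K
  hFF : ∀ x, F x * F x = 1
  hU : ∀ j, Ui j * U j = 1
  hU' : ∀ j, U j * Ui j = 1
  per : ∀ j x, F (x + va j) * U j = U j * F x

lemma D_const {X W : Type*} [NormedAddCommGroup X] [NormedSpace ℝ X] [NormedAddCommGroup W]
    [NormedSpace ℝ W] (w : W) (v x : X) : D v (fun _ : X => w) x = 0 := by
  unfold D
  rw [fderiv_const_apply]
  rfl

lemma D_shift {X W : Type*} [NormedAddCommGroup X] [NormedSpace ℝ X] [NormedAddCommGroup W]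
    [NormedSpace ℝ W] (f : X → W) (v y x : X) : D v (fun x => f (x + y)) x = D v f (x + y) := by
  unfold D
  rw [fderiv_comp_add_right]

variable {K : H →L[ℂ] H} {F : ℝ × (Fin 4 → ℝ) → H →L[ℂ] H}
  {M : Fin 4 → ℝ × (Fin 4 → ℝ) → H →L[ℂ] H} {U Ui : Fin 4 → H →L[ℂ] H}

lemma SD.an (h : SD K F M U Ui) (v x : ℝ × (Fin 4 → ℝ)) : D v F x * F x = -(F x * D v F x) := by
  have h1 := D_mul h.hF h.hF v x
  have h2 : (fun x => F x * F x) = fun _ => (1 : H →L[ℂ] H) := funext h.hFF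
  rw [h2, D_const] at h1
  exact eq_neg_of_add_eq_zero_left h1.symm

lemma D_sand {f : ℝ × (Fin 4 → ℝ) → H →L[ℂ] H} (hf : ContDiff ℝ ∞ f) (K : H →L[ℂ] H)
    (v x : ℝ × (Fin 4 → ℝ)) : D v (fun x => K * f x * K) x = K * D v f x * K := by
  have h1 : ContDiff ℝ ∞ fun x => K * f x := contDiff_const.mul hf
  rw [D_mul h1 contDiff_const, D_const, D_mul contDiff_const hf, D_const]
  simp

lemma SD.hDF (h : SD K F M U Ui) (a : Fin 4) : D (va a) F = fun x => K * M a x * K :=
  funext (h.hFM a)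

lemma SD.DD (h : SD K F M U Ui) (v : ℝ × (Fin 4 → ℝ)) (a : Fin 4) (x : ℝ × (Fin 4 → ℝ)) :
    D v (D (va a) F) x = K * D v (M a) x * K := by
  rw [h.hDF a, D_sand (h.hM a)]

lemma SD.ap (h : SD K F M U Ui) (a : Fin 4) (x : ℝ × (Fin 4 → ℝ)) :
    Ap (D (va a) F x) (1 / 2) := by
  rw [h.hFM]; exact h.hK.sand _

lemma SD.ap' (h : SD K F M U Ui) (v : ℝ × (Fin 4 → ℝ)) (a : Fin 4) (x : ℝ × (Fin 4 → ℝ)) :
    Ap (D v (D (va a) F) x) (1 / 2) := by
  rw [h.DD]; exact h.hK.sand _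

lemma SD.f0_eq (h : SD K F M U Ui) (x : ℝ × (Fin 4 → ℝ)) :
    f0 F x = S fun a b c d => tr (T4 K (M a x) (M b x) (M c x) (D (va d) F x * F x)) := by
  unfold f0 S
  refine Finset.sum_congr rfl fun σ _ => ?_
  unfold sg
  congr 1
  have h1 : ∃ c, IsNuc (D (va (σ 0)) F x * D (va (σ 1)) F x * D (va (σ 2)) F x *
      D (va (σ 3)) F x) c := by
    obtain ⟨c, hc⟩ := Ap.three (h.ap (σ 0) x) (h.ap (σ 1) x) (h.ap (σ 2) x)
    exact ⟨_, hc.right _⟩
  have e : F x * D (va (σ 0)) F x * D (va (σ 1)) F x * D (va (σ 2)) F x * D (va (σ 3)) F x =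
      F x * (D (va (σ 0)) F x * D (va (σ 1)) F x * D (va (σ 2)) F x * D (va (σ 3)) F x) := by
    noncomm_ring
  rw [e, tr_cyc h1]
  congr 1
  simp only [T4, ← h.hFM]
  noncomm_ring

/-- the transgression form. -/
def eta (K : H →L[ℂ] H) (F : ℝ × (Fin 4 → ℝ) → H →L[ℂ] H)
    (M : Fin 4 → ℝ × (Fin 4 → ℝ) → H →L[ℂ] H) (a b c : Fin 4) (x : ℝ × (Fin 4 → ℝ)) : ℂ :=
  tr (T4 K (M a x) (M b x) (M c x) (D v0 F x * F x))

section tau

variable {τ : (H →L[ℂ] H) →L[ℝ] (H →L[ℂ] H) →L[ℝ] (H →L[ℂ] H) →L[ℝ] (H →L[ℂ] H) →L[ℝ] ℂ}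

lemma tau_smooth {A B C E : ℝ × (Fin 4 → ℝ) → H →L[ℂ] H} (hA : ContDiff ℝ ∞ A)
    (hB : ContDiff ℝ ∞ B) (hC : ContDiff ℝ ∞ C) (hE : ContDiff ℝ ∞ E) :
    ContDiff ℝ ∞ fun x => τ (A x) (B x) (C x) (E x) :=
  (((τ.contDiff.comp hA).clm_apply hB).clm_apply hC).clm_apply hE

lemma D_tau {A B C E : ℝ × (Fin 4 → ℝ) → H →L[ℂ] H} (hA : ContDiff ℝ ∞ A)
    (hB : ContDiff ℝ ∞ B) (hC : ContDiff ℝ ∞ C) (hE : ContDiff ℝ ∞ E) (v x : ℝ × (Fin 4 → ℝ)) :
    D v (fun x => τ (A x) (B x) (C x) (E x)) x =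
      τ (D v A x) (B x) (C x) (E x) + τ (A x) (D v B x) (C x) (E x) +
      τ (A x) (B x) (D v C x) (E x) + τ (A x) (B x) (C x) (D v E x) := by
  have h1 : ContDiff ℝ ∞ fun x => τ (A x) := τ.contDiff.comp hA
  have h2 : ContDiff ℝ ∞ fun x => τ (A x) (B x) := h1.clm_apply hB
  have h3 : ContDiff ℝ ∞ fun x => τ (A x) (B x) (C x) := h2.clm_apply hC
  rw [D_clm h3 hE, D_clm h2 hC, D_clm h1 hB, D_lin τ hA]
  simp only [_root_.add_apply]

end tau

lemma SD.smooth_f0 (h : SD K F M U Ui) : ContDiff ℝ ∞ (f0 F) := by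
  obtain ⟨τ, hτ⟩ := exists_tau h.hK
  have e : f0 F = fun x => S fun a b c d => τ (M a x) (M b x) (M c x) (D (va d) F x * F x) := by
    funext x; rw [h.f0_eq]; simp only [hτ]
  rw [e]
  unfold S
  refine ContDiff.sum fun σ _ => ?_
  exact contDiff_const.mul (tau_smooth (h.hM _) (h.hM _) (h.hM _) ((D_smooth h.hF _).mul h.hF))

lemma SD.smooth_eta (h : SD K F M U Ui) (a b c : Fin 4) : ContDiff ℝ ∞ (eta K F M a b c) := by
  obtain ⟨τ, hτ⟩ := exists_tau h.hK
  have e : eta K F M a b c = fun x => τ (M a x) (M b x) (M c x) (D v0 F x * F x) := by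
    funext x; simp only [hτ, eta]
  rw [e]
  exact tau_smooth (h.hM _) (h.hM _) (h.hM _) ((D_smooth h.hF _).mul h.hF)

lemma D_S {A : Fin 4 → Fin 4 → Fin 4 → Fin 4 → ℝ × (Fin 4 → ℝ) → ℂ}
    (hA : ∀ a b c d, ContDiff ℝ ∞ (A a b c d)) (v x : ℝ × (Fin 4 → ℝ)) :
    D v (fun x => S fun a b c d => A a b c d x) x = S fun a b c d => D v (A a b c d) x := by
  unfold S
  have h1 : HasFDerivAt (fun x => ∑ σ : Equiv.Perm (Fin 4), ((Equiv.Perm.sign σ : ℤ) : ℂ) *
      A (σ 0) (σ 1) (σ 2) (σ 3) x) (∑ σ : Equiv.Perm (Fin 4), ((Equiv.Perm.sign σ : ℤ) : ℂ) •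
      fderiv ℝ (A (σ 0) (σ 1) (σ 2) (σ 3)) x) x := by
    refine HasFDerivAt.fun_sum fun σ _ => ?_
    exact (hasD (hA _ _ _ _) x).const_mul _
  unfold D
  rw [h1.fderiv]
  simp

/-- **closedness**. -/
lemma SD.closed (h : SD K F M U Ui) (x : ℝ × (Fin 4 → ℝ)) :
    D v0 (f0 F) x = 4 * S fun a b c d => D (va d) (eta K F M a b c) x := by
  obtain ⟨τ, hτ⟩ := exists_tau h.hK
  set B : Fin 4 → Fin 4 → Fin 4 → Fin 4 → ℂ := fun a b c d =>
    tr (D (va a) F x * D (va b) F x * D (va c) F x * D v0 (D (va d) F) x * F x) with hB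
  have an : ∀ a, D (va a) F x * F x = -(F x * D (va a) F x) := fun a => h.an _ _
  have hP : ∀ a, Ap (D (va a) F x) (1 / 2) := fun a => h.ap a x
  have hP' : ∀ a, Ap (D v0 (D (va a) F) x) (1 / 2) := fun a => h.ap' v0 a x
  have eT : ∀ A B C E : H →L[ℂ] H, τ A B C E = tr ((K * A * K) * (K * B * K) * (K * C * K) * E) :=
    hτ
  -- the left side
  have e1 : f0 F = fun x => S fun a b c d => τ (M a x) (M b x) (M c x) (D (va d) F x * F x) := by
    funext x; rw [h.f0_eq]; simp only [hτ]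
  have hG : ∀ d, ContDiff ℝ ∞ fun x => D (va d) F x * F x := fun d => (D_smooth h.hF _).mul h.hF
  have l1 : D v0 (f0 F) x = S fun a b c d =>
      (- B b c d a + B c d a b - B d a b c + B a b c d) := by
    rw [e1, D_S fun a b c d => tau_smooth (h.hM _) (h.hM _) (h.hM _) (hG d)]
    congr 1
    funext a b c d
    rw [D_tau (h.hM _) (h.hM _) (h.hM _) (hG d), D_mul (D_smooth h.hF _) h.hF]
    rw [map_add]
    simp only [eT, ← h.DD, ← h.hFM]
    have c1 := cl1 (P' := fun a => D v0 (D (va a) F) x) an hP a b c d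
    have c2 := cl2 (P' := fun a => D v0 (D (va a) F) x) an hP hP' a b c d
    have c3 := cl3 (P' := fun a => D v0 (D (va a) F) x) an hP hP' a b c d
    have c5 := cl5 (h.hFF x) an (h.an v0 x) hP a b c d
    rw [c1, c2, c3, c5]
    have c4 : D (va a) F x * D (va b) F x * D (va c) F x * (D v0 (D (va d) F) x * F x) =
      D (va a) F x * D (va b) F x * D (va c) F x * D v0 (D (va d) F) x * F x := by noncomm_ring
    rw [c4]
    simp only [hB]
    ring
  have l2 : D v0 (f0 F) x = 4 * S B := by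
    rw [l1]
    have h1 : (S fun a b c d => (- B b c d a + B c d a b - B d a b c + B a b c d)) =
        - S (fun a b c d => B b c d a) + S (fun a b c d => B c d a b)
        - S (fun a b c d => B d a b c) + S B := by
      unfold S
      rw [← Finset.sum_neg_distrib, ← Finset.sum_add_distrib, ← Finset.sum_sub_distrib,
        ← Finset.sum_add_distrib]
      exact Finset.sum_congr rfl fun σ _ => by ring
    rw [h1, S_c1, S_c2, S_c3]
    ring
  -- the right side
  have r1 : (S fun a b c d => D (va d) (eta K F M a b c) x) = S B := by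
    have e2 : ∀ a b c, eta K F M a b c = fun x => τ (M a x) (M b x) (M c x) (D v0 F x * F x) := by
      intro a b c; funext x; simp only [hτ, eta]
    have hG' : ContDiff ℝ ∞ fun x => D v0 F x * F x := (D_smooth h.hF _).mul h.hF
    have e3 : ∀ a b c d, D (va d) (eta K F M a b c) x =
        tr (D (va d) (D (va a) F) x * D (va b) F x * D (va c) F x * (D v0 F x * F x)) +
        tr (D (va a) F x * D (va d) (D (va b) F) x * D (va c) F x * (D v0 F x * F x)) +
        tr (D (va a) F x * D (va b) F x * D (va d) (D (va c) F) x * (D v0 F x * F x)) +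
        B a b c d := by
      intro a b c d
      rw [e2, D_tau (h.hM _) (h.hM _) (h.hM _) hG', D_mul (D_smooth h.hF _) h.hF]
      rw [map_add]
      simp only [eT, ← h.DD, ← h.hFM]
      rw [D_symm h.hF (va d) v0 x]
      have c5 : tr (D (va a) F x * D (va b) F x * D (va c) F x * (D v0 F x * D (va d) F x)) = 0 := by
        have h3 : ∃ c', IsNuc (D (va a) F x * D (va b) F x * D (va c) F x * D v0 F x) c' := by
          obtain ⟨c', hc'⟩ := Ap.three (hP a) (hP b) (hP c)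
          exact ⟨_, hc'.right _⟩
        have e4 : D (va a) F x * D (va b) F x * D (va c) F x * (D v0 F x * D (va d) F x) =
          (D (va a) F x * D (va b) F x * D (va c) F x * D v0 F x) * D (va d) F x := by noncomm_ring
        rw [e4, ← tr_cyc h3, ← cl5 (h.hFF x) an (h.an v0 x) hP d a b c]
        congr 1
      rw [c5]
      have c4 : D (va a) F x * D (va b) F x * D (va c) F x * (D v0 (D (va d) F) x * F x) =
        D (va a) F x * D (va b) F x * D (va c) F x * D v0 (D (va d) F) x * F x := by noncomm_ring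
      rw [c4]
      simp only [hB]
      ring
    simp only [e3]
    rw [TorF_692.S_add, TorF_692.S_add, TorF_692.S_add]
    rw [S_03 (fun a b c d =>
      tr (D (va d) (D (va a) F) x * D (va b) F x * D (va c) F x * (D v0 F x * F x)))
      (fun a b c d => by rw [D_symm h.hF]),
      S_13 (fun a b c d =>
      tr (D (va a) F x * D (va d) (D (va b) F) x * D (va c) F x * (D v0 F x * F x)))
      (fun a b c d => by rw [D_symm h.hF]),
      S_23 (fun a b c d =>
      tr (D (va a) F x * D (va b) F x * D (va d) (D (va c) F) x * (D v0 F x * F x)))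
      (fun a b c d => by rw [D_symm h.hF])]
    ring
  rw [l2, r1]

lemma SD.D_per (h : SD K F M U Ui) (j : Fin 4) (v x : ℝ × (Fin 4 → ℝ)) :
    D v F (x + va j) = U j * D v F x * Ui j := by
  have h1 : (fun x => F (x + va j) * U j) = fun x => U j * F x := funext (h.per j)
  have h2 : ContDiff ℝ ∞ fun x => F (x + va j) := h.hF.comp (contDiff_id.add contDiff_const)
  have h3 := D_mul h2 (contDiff_const (c := U j)) v x
  have h4 := D_mul (contDiff_const (c := U j)) h.hF v x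
  rw [h1, h4, D_const, D_shift] at h3
  simp only [zero_mul, zero_add, mul_zero, add_zero] at h3
  rw [h3, mul_assoc, h.hU', mul_one]

lemma SD.F_per (h : SD K F M U Ui) (j : Fin 4) (x : ℝ × (Fin 4 → ℝ)) :
    F (x + va j) = U j * F x * Ui j := by
  rw [← h.per j x, mul_assoc, h.hU', mul_one]

lemma SD.eta_per (h : SD K F M U Ui) (a b c j : Fin 4) (x : ℝ × (Fin 4 → ℝ)) :
    eta K F M a b c (x + va j) = eta K F M a b c x := by
  unfold eta
  simp only [T4, ← h.hFM]
  have h1 : ∃ c', IsNuc (D (va a) F x * D (va b) F x * D (va c) F x * (D v0 F x * F x)) c' := by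
    obtain ⟨c', hc'⟩ := Ap.three (h.ap a x) (h.ap b x) (h.ap c x)
    exact ⟨_, hc'.right _⟩
  obtain ⟨c', hc'⟩ := h1
  have h2 := tr_conj hc' (U := U j) (W := Ui j) (h.hU j)
  rw [← h2]
  congr 1
  simp only [h.D_per, h.F_per]
  show _ = U j * (_ * Ui j)
  calc U j * D (va a) F x * Ui j * (U j * D (va b) F x * Ui j) * (U j * D (va c) F x * Ui j) *
        (U j * D v0 F x * Ui j * (U j * F x * Ui j))
      = U j * D (va a) F x * (Ui j * U j) * D (va b) F x * (Ui j * U j) * D (va c) F x *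
        (Ui j * U j) * D v0 F x * (Ui j * U j) * F x * Ui j := by noncomm_ring
    _ = _ := by rw [h.hU]; noncomm_ring

/-- **STOKES**. -/
theorem SD.const (h : SD K F M U Ui) (s : ℝ) :
    ∫ y in Icc (0 : Fin 4 → ℝ) 1, f0 F (s, y) = ∫ y in Icc (0 : Fin 4 → ℝ) 1, f0 F (0, y) := by
  have hs := h.smooth_f0
  have hd : ∀ t, HasDerivAt (fun t => ∫ y in Icc (0 : Fin 4 → ℝ) 1, f0 F (t, y)) 0 t := by
    intro t
    have h1 := TorF_692.hasDerivAt_cube (n := 4) (F := fun t y => f0 F (t, y))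
      (F' := fun t y => D v0 (f0 F) (t, y)) hs.continuous (D_smooth hs v0).continuous
      (fun t y => by
        have h2 : HasDerivAt (fun t : ℝ => (t, y)) ((1, 0) : ℝ × (Fin 4 → ℝ)) t :=
          (hasDerivAt_id t).prodMk (hasDerivAt_const t y)
        exact (hasD hs (t, y)).comp_hasDerivAt t h2) t
    have h3 : ∫ y in Icc (0 : Fin 4 → ℝ) 1, D v0 (f0 F) (t, y) = 0 := by
      simp only [h.closed]
      rw [integral_const_mul, TorF_692.S_integral]
      · have h4 : ∀ a b c d, ∫ y in Icc (0 : Fin 4 → ℝ) 1, D (va d) (eta K F M a b c) (t, y) = 0 := by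
          intro a b c d
          have h5 : ContDiff ℝ ∞ fun y : Fin 4 → ℝ => eta K F M a b c (t, y) :=
            (h.smooth_eta a b c).comp (contDiff_const.prodMk contDiff_id)
          have h6 := TorF_692.integral_fderiv_periodic (n := 3)
            (h5.of_le (by exact_mod_cast le_top)) d (fun y => by
              have := h.eta_per a b c d (t, y)
              simpa [va] using this)
          rw [← h6]
          congr 1
          funext y
          have h7 : HasFDerivAt (fun y : Fin 4 → ℝ => (t, y))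
              ((0 : (Fin 4 → ℝ) →L[ℝ] ℝ).prod (ContinuousLinearMap.id ℝ (Fin 4 → ℝ))) y :=
            (hasFDerivAt_const t y).prodMk (hasFDerivAt_id y)
          have h8 := (hasD (h.smooth_eta a b c) (t, y)).comp y h7
          have h9 : HasFDerivAt (fun y : Fin 4 → ℝ => eta K F M a b c (t, y)) _ y := h8
          rw [h9.fderiv]
          rfl
        simp only [h4]
        rw [TorF_692.S_zero, mul_zero]
      · intro a b c d
        refine TorF_692.int_of_cont ?_
        exact ((D_smooth (h.smooth_eta a b c) (va d)).continuous).comp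
          (continuous_const.prodMk continuous_id)
    rw [h3] at h1
    exact h1
  exact is_const_of_deriv_eq_zero (fun t => (hd t).differentiableAt) (fun t => (hd t).deriv) s 0

end

end Crest.Agent.R235.RCSt_746
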