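import Crest.Agent.R235.RCRes_746

/-!
Row 235, block FAM/RC (helper746): THE HALF `STK`:
`ch4 tr P = (1/2) ∫_cube dens g K V ε` for every `ε > 0`.
-/

set_option autoImplicit false
set_option maxSynthPendingDepth 3
set_option linter.unusedSectionVars false

open scoped InnerProductSpace Topology ContDiff
open Filter Set MeasureTheory Crest.Agent.R235.RCTr_746 Crest.Agent.R235.RCDefs_746
open Crest.Agent.R235.RCSt_746 Crest.Agent.R235.RCRes_746
open Crest.Agent.R235.FamDefs_307 (pdθ sg ch4)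
open Crest.Agent.R235.TorF_692 (S)

namespace Crest.Agent.R235.RCStk_746

noncomputable section

variable {H : Type*} [NormedAddCommGroup H] [InnerProductSpace ℂ H] [CompleteSpace H]

variable {g K : H →L[ℂ] H} {V P : (Fin 4 → ℝ) → H →L[ℂ] H} {b U : Fin 4 → H →L[ℂ] H}

lemma pt (hB : Base g K) (hF : Fam g K V b U) (hP : KerF g K V P) (h : Fin 4 → ℝ) :
    Pt g K (V h) (P h) :=
  ⟨hB, hF.gv h, hF.skew h, hP.idem h, hP.sa h, hP.gp h, hP.ker h, hP.ker' h⟩

/-- the resolvent family. -/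
def Rx (K : H →L[ℂ] H) (V P : (Fin 4 → ℝ) → H →L[ℂ] H) (x : ℝ × (Fin 4 → ℝ)) : H →L[ℂ] H :=
  RR K (V x.2) (P x.2) (x.1 ^ 2)

/-- the family `C`. -/
def Cx (K : H →L[ℂ] H) (V P : (Fin 4 → ℝ) → H →L[ℂ] H) (x : ℝ × (Fin 4 → ℝ)) : H →L[ℂ] H :=
  CC K (V x.2) (P x.2) (x.1 ^ 2)

/-- the family of involutions. -/
def Fx (g K : H →L[ℂ] H) (V P : (Fin 4 → ℝ) → H →L[ℂ] H) (x : ℝ × (Fin 4 → ℝ)) : H →L[ℂ] H :=
  g * ((2 : ℝ) • Cx K V P x - 1)

/-- the operator `W`. -/
def Wx (V P : (Fin 4 → ℝ) → H →L[ℂ] H) (x : ℝ × (Fin 4 → ℝ)) : H →L[ℂ] H :=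
  WW (V x.2) (P x.2) (x.1 ^ 2)

section smooth

variable (hB : Base g K) (hF : Fam g K V b U) (hP : KerF g K V P)
include hB hF hP

lemma smooth_V2 : ContDiff ℝ ∞ fun x : ℝ × (Fin 4 → ℝ) => V x.2 := hF.smooth.comp contDiff_snd

lemma smooth_P2 : ContDiff ℝ ∞ fun x : ℝ × (Fin 4 → ℝ) => P x.2 := hP.smooth.comp contDiff_snd

lemma smooth_W : ContDiff ℝ ∞ (Wx V P) := by
  unfold Wx WW
  exact ((((contDiff_fst.pow 2).sub contDiff_const).smul contDiff_const).add
    (smooth_V2 hB hF hP)).add (smooth_P2 hB hF hP)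

lemma smooth_R : ContDiff ℝ ∞ (Rx K V P) := by
  unfold Rx RR
  refine contDiff_const.mul ?_
  rw [contDiff_iff_contDiffAt]
  intro x
  obtain ⟨u, hu⟩ := (pt hB hF hP x.2).unitX (sq_nonneg x.1)
  have h := contDiffAt_ringInverse (n := ∞) ℝ u
  rw [hu] at h
  have h2 : ContDiff ℝ ∞ fun x : ℝ × (Fin 4 → ℝ) => 1 + Wx V P x * K :=
    contDiff_const.add ((smooth_W hB hF hP).mul contDiff_const)
  exact h.comp x h2.contDiffAt

lemma smooth_C : ContDiff ℝ ∞ (Cx K V P) := by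
  unfold Cx CC
  exact (smooth_P2 hB hF hP).add ((contDiff_fst.pow 2).smul
    ((smooth_R hB hF hP).mul (contDiff_const.sub (smooth_P2 hB hF hP))))

lemma smooth_F : ContDiff ℝ ∞ (Fx g K V P) := by
  unfold Fx
  exact contDiff_const.mul (((smooth_C hB hF hP).const_smul (2 : ℝ)).sub contDiff_const)

lemma smooth_Va (a : Fin 4) : ContDiff ℝ ∞ fun x : ℝ × (Fin 4 → ℝ) => pdθ a V x.2 := by
  have h : ContDiff ℝ ∞ (D (Pi.single a 1 : Fin 4 → ℝ) V) := D_smooth hF.smooth _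
  exact h.comp contDiff_snd

end smooth

lemma D_va {W : Type*} [NormedAddCommGroup W] [NormedSpace ℝ W] {f : ℝ × (Fin 4 → ℝ) → W}
    (hf : ContDiff ℝ ∞ f) (a : Fin 4) (x : ℝ × (Fin 4 → ℝ)) :
    D (va a) f x = D (Pi.single a 1 : Fin 4 → ℝ) (fun h => f (x.1, h)) x.2 := by
  have h7 : HasFDerivAt (fun y : Fin 4 → ℝ => (x.1, y))
      ((0 : (Fin 4 → ℝ) →L[ℝ] ℝ).prod (ContinuousLinearMap.id ℝ (Fin 4 → ℝ))) x.2 :=
    (hasFDerivAt_const x.1 x.2).prodMk (hasFDerivAt_id x.2)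
  have h8 := (hasD hf (x.1, x.2)).comp x.2 h7
  have h9 : HasFDerivAt (fun y : Fin 4 → ℝ => f (x.1, y)) _ x.2 := h8
  unfold D
  rw [h9.fderiv]
  rfl

lemma D_add {X W : Type*} [NormedAddCommGroup X] [NormedSpace ℝ X] [NormedAddCommGroup W]
    [NormedSpace ℝ W] {f f' : X → W} (hf : ContDiff ℝ ∞ f) (hf' : ContDiff ℝ ∞ f') (v x : X) :
    D v (fun x => f x + f' x) x = D v f x + D v f' x := by
  have := (hasD hf x).add (hasD hf' x)
  have h2 : HasFDerivAt (fun x => f x + f' x) _ x := this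
  unfold D
  rw [h2.fderiv]; rfl

/-- `g V_a g = - V_a`. -/
lemma gVa (hF : Fam g K V b U) (a : Fin 4) (h : Fin 4 → ℝ) :
    g * pdθ a V h * g = - pdθ a V h := by
  have h1 : (fun h => g * V h * g) = fun h => (-1 : H →L[ℂ] H) * V h := by
    funext h; rw [hF.gv h]; simp
  have h2 : ContDiff ℝ ∞ fun h => g * V h := contDiff_const.mul hF.smooth
  have h3 := D_mul h2 (contDiff_const (c := g)) (Pi.single a 1 : Fin 4 → ℝ) h
  rw [D_mul contDiff_const hF.smooth, D_const, h1, D_mul contDiff_const hF.smooth,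
    D_const] at h3
  have h4 : D (Pi.single a 1 : Fin 4 → ℝ) V h = pdθ a V h := rfl
  rw [h4] at h3
  simp only [zero_mul, zero_add, mul_zero, add_zero] at h3
  rw [← h3]; simp

section main

variable (hB : Base g K) (hF : Fam g K V b U) (hP : KerF g K V P)
include hB hF hP

lemma PVaP (a : Fin 4) (h : Fin 4 → ℝ) : P h * pdθ a V h * P h = 0 := by
  have hp := pt hB hF hP h
  have h1 : P h * pdθ a V h * P h = -(P h * pdθ a V h * P h) := by
    calc P h * pdθ a V h * P h = (P h * g) * pdθ a V h * (g * P h) := by rw [hp.pg, hp.gp]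
      _ = P h * (g * pdθ a V h * g) * P h := by noncomm_ring
      _ = -(P h * pdθ a V h * P h) := by rw [gVa hF]; noncomm_ring
  have h2 : (2 : ℝ) • (P h * pdθ a V h * P h) = 0 := by
    rw [two_smul]; nth_rewrite 1 [h1]; abel
  simpa using h2

/-- the derivative of `C`, multiplied by `d`. -/
lemma dC (a : Fin 4) (x : ℝ × (Fin 4 → ℝ)) (hx : x.1 ≠ 0) :
    (x.1 ^ 2) • D (va a) (Cx K V P) x = -(Cx K V P x * pdθ a V x.2 * Cx K V P x) := by
  set d := x.1 ^ 2 with hd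
  have hd0 : 0 < d := by positivity
  have hC := smooth_C hB hF hP
  have hCs : ContDiff ℝ ∞ fun h : Fin 4 → ℝ => Cx K V P (x.1, h) :=
    hC.comp (contDiff_const.prodMk contDiff_id)
  set e : Fin 4 → ℝ := Pi.single a 1 with he
  have hY : ContDiff ℝ ∞ fun h : Fin 4 → ℝ => (1 + (d - 1) • K) + V h * K :=
    contDiff_const.add (hF.smooth.mul contDiff_const)
  have h1 : (fun h : Fin 4 → ℝ => Cx K V P (x.1, h) * ((1 + (d - 1) • K) + V h * K)) =
      fun _ => d • K := by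
    funext h
    have := (pt hB hF hP h).CN hd0.le
    rw [← this]
    show CC K (V h) (P h) d * _ = _
    congr 1
    simp only [add_mul, smul_mul_assoc, one_mul]
    abel
  have h2 := D_mul hCs hY e x.2
  rw [h1, D_const, D_add contDiff_const (hF.smooth.mul contDiff_const), D_const,
    D_mul hF.smooth contDiff_const, D_const, mul_zero, add_zero, zero_add] at h2
  rw [D_va hC a x, ← he]
  have h3 : IsUnit (1 + ((d - 1) • 1 + V x.2) * K) := unitN hB (hF.skew _) hd0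
  have h4 : (1 + (d - 1) • K) + V x.2 * K = 1 + ((d - 1) • 1 + V x.2) * K := by
    simp only [add_mul, smul_mul_assoc, one_mul]; abel
  rw [h4] at h2
  have h5 := (pt hB hF hP x.2).CN hd0.le
  have h6 : (d • D e (fun h => Cx K V P (x.1, h)) x.2 +
      Cx K V P x * pdθ a V x.2 * Cx K V P x) * (1 + ((d - 1) • 1 + V x.2) * K) = 0 := by
    have h7 : Cx K V P x * (1 + ((d - 1) • 1 + V x.2) * K) = d • K := h5
    rw [add_mul, smul_mul_assoc, mul_assoc (Cx K V P x * pdθ a V x.2), h7, mul_smul_comm,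
      ← smul_add]
    have h8 : D e (fun h => Cx K V P (x.1, h)) x.2 * (1 + ((d - 1) • 1 + V x.2) * K) +
        Cx K V P x * pdθ a V x.2 * K = 0 := by
      rw [h2, mul_assoc]
      rfl
    rw [h8, smul_zero]
  have h7 := (h3.mul_left_eq_zero).1 h6
  exact eq_neg_of_add_eq_zero_left h7

/-- the derivative of `C` in terms of `R`. -/
def EE (K : H →L[ℂ] H) (V P : (Fin 4 → ℝ) → H →L[ℂ] H) (a : Fin 4) (x : ℝ × (Fin 4 → ℝ)) :
    H →L[ℂ] H :=
  -((x.1 ^ 2) • (Rx K V P x * pdθ a V x.2 * Rx K V P x)) -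
    (1 + x.1 ^ 2)⁻¹ • (Rx K V P x * pdθ a V x.2 * P x.2 + P x.2 * pdθ a V x.2 * Rx K V P x)

lemma cont_inv : ContDiff ℝ ∞ fun x : ℝ × (Fin 4 → ℝ) => (1 + x.1 ^ 2)⁻¹ := by
  refine ContDiff.inv (contDiff_const.add (contDiff_fst.pow 2)) fun x => ?_
  positivity

lemma smooth_EE (a : Fin 4) : ContDiff ℝ ∞ (EE K V P a) := by
  unfold EE
  have hR := smooth_R hB hF hP
  have hV := smooth_Va hB hF hP a
  have hP2 := smooth_P2 hB hF hP
  exact ((contDiff_fst.pow 2).smul ((hR.mul hV).mul hR)).neg.sub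
    ((cont_inv hB hF hP).smul (((hR.mul hV).mul hP2).add ((hP2.mul hV).mul hR)))

lemma DC_eq (a : Fin 4) (x : ℝ × (Fin 4 → ℝ)) : D (va a) (Cx K V P) x = EE K V P a x := by
  have h1 : Continuous (D (va a) (Cx K V P)) := (D_smooth (smooth_C hB hF hP) _).continuous
  have h2 : Continuous (EE K V P a) := (smooth_EE hB hF hP a).continuous
  have hd : Dense {x : ℝ × (Fin 4 → ℝ) | x.1 ≠ 0} := by
    have : Dense ({0}ᶜ : Set ℝ) := dense_compl_singleton 0
    exact this.preimage isOpenMap_fst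
  have h3 : EqOn (D (va a) (Cx K V P)) (EE K V P a) {x : ℝ × (Fin 4 → ℝ) | x.1 ≠ 0} := by
    intro x hx
    have hx : x.1 ≠ 0 := hx
    have h4 := dC hB hF hP a x hx
    set d := x.1 ^ 2 with hdd
    have hd0 : 0 < d := by positivity
    have h5 : Cx K V P x = d • Rx K V P x + (1 + d)⁻¹ • P x.2 :=
      (pt hB hF hP x.2).CC_eq hd0.le
    have h6 := PVaP hB hF hP a x.2
    have h7 : D (va a) (Cx K V P) x = d⁻¹ • (-(Cx K V P x * pdθ a V x.2 * Cx K V P x)) := by
      rw [← h4, inv_smul_smul₀ hd0.ne']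
    rw [h7, h5]
    have h8 : (d • Rx K V P x + (1 + d)⁻¹ • P x.2) * pdθ a V x.2 *
        (d • Rx K V P x + (1 + d)⁻¹ • P x.2) =
        (d * d) • (Rx K V P x * pdθ a V x.2 * Rx K V P x) + (d * (1 + d)⁻¹) •
        (Rx K V P x * pdθ a V x.2 * P x.2 + P x.2 * pdθ a V x.2 * Rx K V P x) +
        ((1 + d)⁻¹ * (1 + d)⁻¹) • (P x.2 * pdθ a V x.2 * P x.2) := by
      simp only [mul_add, add_mul, mul_smul_comm, smul_mul_assoc, smul_smul, smul_add]
      rw [mul_comm (1 + d)⁻¹ d]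
      abel
    rw [h8, h6, smul_zero, add_zero]
    unfold EE
    rw [← hdd, smul_neg, smul_add, smul_smul, smul_smul]
    have e1 : d⁻¹ * (d * d) = d := by field_simp
    have e2 : d⁻¹ * (d * (1 + d)⁻¹) = (1 + d)⁻¹ := by field_simp
    rw [e1, e2]
    abel
  exact congrFun (Continuous.ext_on hd h1 h2 h3) x

/-- the middle factor. -/
def MM (g K : H →L[ℂ] H) (V P : (Fin 4 → ℝ) → H →L[ℂ] H) (a : Fin 4) (x : ℝ × (Fin 4 → ℝ)) :
    H →L[ℂ] H :=
  (2 : ℝ) • (((2 : ℝ) • star K - 1) * g *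
    (-((x.1 ^ 2) • ((1 - Wx V P x * Rx K V P x) * pdθ a V x.2 * (1 - Rx K V P x * Wx V P x))) -
    (1 + x.1 ^ 2)⁻¹ • ((1 - Wx V P x * Rx K V P x) * pdθ a V x.2 * (P x.2 * (1 - V x.2)) +
      ((1 - V x.2) * P x.2) * pdθ a V x.2 * (1 - Rx K V P x * Wx V P x))))

lemma smooth_MM (a : Fin 4) : ContDiff ℝ ∞ (MM g K V P a) := by
  unfold MM
  have hR := smooth_R hB hF hP
  have hV := smooth_Va hB hF hP a
  have hP2 := smooth_P2 hB hF hP
  have hV2 := smooth_V2 hB hF hP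
  have hW := smooth_W hB hF hP
  have h1 : ContDiff ℝ ∞ fun x => 1 - Wx V P x * Rx K V P x := contDiff_const.sub (hW.mul hR)
  have h2 : ContDiff ℝ ∞ fun x => 1 - Rx K V P x * Wx V P x := contDiff_const.sub (hR.mul hW)
  have h3 : ContDiff ℝ ∞ fun x : ℝ × (Fin 4 → ℝ) => 1 - V x.2 := contDiff_const.sub hV2
  refine ContDiff.const_smul (2 : ℝ) (contDiff_const.mul ?_)
  exact ((contDiff_fst.pow 2).smul ((h1.mul hV).mul h2)).neg.sub
    ((cont_inv hB hF hP).smul (((h1.mul hV).mul (hP2.mul h3)).add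
      (((h3.mul hP2).mul hV).mul h2)))

lemma DF_eq (a : Fin 4) (x : ℝ × (Fin 4 → ℝ)) :
    D (va a) (Fx g K V P) x = (2 : ℝ) • (g * D (va a) (Cx K V P) x) := by
  have hC := smooth_C hB hF hP
  have e : Fx g K V P = fun x => ((2 : ℝ) • g) * Cx K V P x + -g := by
    funext x
    unfold Fx
    rw [mul_sub, mul_smul_comm, smul_mul_assoc, mul_one]; abel
  rw [e, D_add (contDiff_const.mul hC) contDiff_const, D_mul contDiff_const hC, D_const, D_const]
  simp only [zero_mul, zero_add, add_zero, smul_mul_assoc]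

lemma DF_sand (a : Fin 4) (x : ℝ × (Fin 4 → ℝ)) :
    D (va a) (Fx g K V P) x = K * MM g K V P a x * K := by
  rw [DF_eq hB hF hP, DC_eq hB hF hP]
  have hp := pt hB hF hP x.2
  have hu := hp.unitX (sq_nonneg x.1)
  have r1 : (1 - Rx K V P x * Wx V P x) * K = Rx K V P x := by
    have := R_one (V := V x.2) (P := P x.2) hu
    show (1 - RR K (V x.2) (P x.2) (x.1 ^ 2) * WW (V x.2) (P x.2) (x.1 ^ 2)) * K = _
    rw [sub_mul, one_mul]; nth_rewrite 1 [← this]; unfold Rx; abel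
  have r2 : K * (1 - Wx V P x * Rx K V P x) = Rx K V P x := by
    have := R_two (V := V x.2) (P := P x.2) hu
    show K * (1 - WW (V x.2) (P x.2) (x.1 ^ 2) * RR K (V x.2) (P x.2) (x.1 ^ 2)) = _
    rw [mul_sub, mul_one, ← mul_assoc]; nth_rewrite 1 [← this]; unfold Rx; abel
  have r3 : K * ((1 - V x.2) * P x.2) = P x.2 := by rw [← mul_assoc]; exact hp.ker
  have r4 : P x.2 * (1 - V x.2) * K = P x.2 := hp.pvk
  have k1 : K * ((2 : ℝ) • star K - 1) = star K := by
    have := hB.kk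
    have e2 : (2 : ℂ) • (K * star K) = (2 : ℝ) • (K * star K) := by
      rw [two_smul, two_smul]
    rw [e2] at this
    rw [mul_sub, mul_one, mul_smul_comm, ← this]; abel
  have k2 : K * (((2 : ℝ) • star K - 1) * g) = g * K := by
    rw [← mul_assoc, k1, ← hB.gk]
    calc g * K * g * g = g * K * (g * g) := by noncomm_ring
      _ = g * K := by rw [hB.gg, mul_one]
  have key : ∀ Z : H →L[ℂ] H, K * ((2 : ℝ) • (((2 : ℝ) • star K - 1) * g * Z)) * K =
      (2 : ℝ) • (g * (K * Z * K)) := by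
    intro Z
    rw [mul_smul_comm, smul_mul_assoc]
    congr 1
    calc K * (((2 : ℝ) • star K - 1) * g * Z) * K = (K * (((2 : ℝ) • star K - 1) * g)) * Z * K := by
          noncomm_ring
      _ = g * (K * Z * K) := by rw [k2]; noncomm_ring
  unfold MM
  rw [key]
  congr 2
  unfold EE
  have key2 : ∀ (X Y1 Y2 : H →L[ℂ] H) (d c : ℝ), K * (-(d • X) - c • (Y1 + Y2)) * K =
      -(d • (K * X * K)) - c • (K * Y1 * K + K * Y2 * K) := by
    intro X Y1 Y2 d c
    simp only [mul_sub, sub_mul, mul_neg, neg_mul, mul_smul_comm, smul_mul_assoc, mul_add, add_mul,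
      smul_add]
  rw [key2]
  have t1 : K * ((1 - Wx V P x * Rx K V P x) * pdθ a V x.2 * (1 - Rx K V P x * Wx V P x)) * K =
      Rx K V P x * pdθ a V x.2 * Rx K V P x := by
    calc _ = (K * (1 - Wx V P x * Rx K V P x)) * pdθ a V x.2 *
          ((1 - Rx K V P x * Wx V P x) * K) := by noncomm_ring
      _ = _ := by rw [r1, r2]
  have t2 : K * ((1 - Wx V P x * Rx K V P x) * pdθ a V x.2 * (P x.2 * (1 - V x.2))) * K =
      Rx K V P x * pdθ a V x.2 * P x.2 := by
    calc _ = (K * (1 - Wx V P x * Rx K V P x)) * pdθ a V x.2 * (P x.2 * (1 - V x.2) * K) := by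
          noncomm_ring
      _ = _ := by rw [r2, r4]
  have t3 : K * (((1 - V x.2) * P x.2) * pdθ a V x.2 * (1 - Rx K V P x * Wx V P x)) * K =
      P x.2 * pdθ a V x.2 * Rx K V P x := by
    calc _ = (K * ((1 - V x.2) * P x.2)) * pdθ a V x.2 *
          ((1 - Rx K V P x * Wx V P x) * K) := by noncomm_ring
      _ = _ := by rw [r1, r3]
  rw [t1, t2, t3]

/-- the Stokes data. -/
lemma sd : SD K (Fx g K V P) (MM g K V P) U (fun j => star (U j)) where
  hK := hB.app
  hF := smooth_F hB hF hP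
  hM := smooth_MM hB hF hP
  hFM := DF_sand hB hF hP
  hFF x := (pt hB hF hP x.2).FF (sq_nonneg x.1)
  hU := hF.uu
  hU' := hF.uu'
  per j x := by
    have h1 : (x + va j).1 = x.1 := by simp [va]
    have h2 : (x + va j).2 = x.2 + Pi.single j 1 := by simp [va]
    have h3 := inter_C (pt hB hF hP x.2) (pt hB hF hP (x.2 + Pi.single j 1)) (hF.gu j)
      (hF.per j x.2) (sq_nonneg x.1)
    unfold Fx Cx
    rw [h1, h2]
    set C' := CC K (V (x.2 + Pi.single j 1)) (P (x.2 + Pi.single j 1)) (x.1 ^ 2)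
    set C := CC K (V x.2) (P x.2) (x.1 ^ 2)
    calc g * ((2 : ℝ) • C' - 1) * U j = g * ((2 : ℝ) • (C' * U j) - U j) := by
          rw [mul_assoc, sub_mul, one_mul, smul_mul_assoc]
      _ = (g * U j) * ((2 : ℝ) • C - 1) := by
          rw [h3, mul_assoc]
          congr 1
          rw [mul_sub, mul_one, mul_smul_comm]
      _ = U j * (g * ((2 : ℝ) • C - 1)) := by rw [hF.gu, mul_assoc]

omit hF in
lemma gPa (a : Fin 4) (h : Fin 4 → ℝ) : g * pdθ a P h = pdθ a P h := by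
  have h1 : (fun h => g * P h) = P := funext hP.gp
  have h2 := D_mul (contDiff_const (c := g)) hP.smooth (Pi.single a 1 : Fin 4 → ℝ) h
  rw [h1, D_const, zero_mul, zero_add] at h2
  exact h2.symm

lemma Cx_zero (h : Fin 4 → ℝ) : Cx K V P (0, h) = P h := by
  unfold Cx CC
  simp

lemma D_zero (a : Fin 4) (h : Fin 4 → ℝ) :
    D (va a) (Fx g K V P) (0, h) = (2 : ℝ) • pdθ a P h := by
  rw [DF_eq hB hF hP, D_va (smooth_C hB hF hP)]
  have e : (fun h' : Fin 4 → ℝ => Cx K V P ((0 : ℝ × (Fin 4 → ℝ)).1, h')) = P :=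
    funext fun h' => Cx_zero hB hF hP h'
  have e2 : (fun h' : Fin 4 → ℝ => Cx K V P (((0 : ℝ), h).1, h')) = P :=
    funext fun h' => Cx_zero hB hF hP h'
  rw [e2]
  show (2 : ℝ) • (g * pdθ a P h) = _
  rw [gPa hB hP]

lemma apPa (a : Fin 4) (h : Fin 4 → ℝ) : Ap (pdθ a P h) (1 / 2) := by
  have h1 := (sd hB hF hP).ap a (0, h)
  rw [D_zero hB hF hP] at h1
  have h2 := h1.left ((2 : ℝ)⁻¹ • (1 : H →L[ℂ] H))
  have e : ((2 : ℝ)⁻¹ • (1 : H →L[ℂ] H)) * ((2 : ℝ) • pdθ a P h) = pdθ a P h := by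
    rw [smul_mul_assoc, one_mul, inv_smul_smul₀ (by norm_num)]
  rwa [e] at h2

omit hB hF hP in
lemma tr_rsmul (r : ℝ) (T : H →L[ℂ] H) : tr (r • T) = (r : ℂ) * tr T := by
  have : r • T = (r : ℂ) • T := by ext v; simp
  rw [this, tr_smul]

lemma nuc4 (a b' c d : Fin 4) (h : Fin 4 → ℝ) :
    ∃ c', IsNuc (pdθ a P h * pdθ b' P h * pdθ c P h * pdθ d P h) c' := by
  obtain ⟨c', hc'⟩ := Ap.three (apPa hB hF hP a h) (apPa hB hF hP b' h) (apPa hB hF hP c h)
  exact ⟨_, hc'.right _⟩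

/-- the value at `s = 0`. -/
lemma f0_zero (h : Fin 4 → ℝ) :
    f0 (Fx g K V P) (0, h) = 32 * ∑ σ : Equiv.Perm (Fin 4), sg σ *
      tr (P h * pdθ (σ 0) P h * pdθ (σ 1) P h * pdθ (σ 2) P h * pdθ (σ 3) P h) := by
  have e1 : ∀ a b' c d : Fin 4, tr (Fx g K V P (0, h) * D (va a) (Fx g K V P) (0, h) *
      D (va b') (Fx g K V P) (0, h) * D (va c) (Fx g K V P) (0, h) *
      D (va d) (Fx g K V P) (0, h)) =
      32 * tr (P h * pdθ a P h * pdθ b' P h * pdθ c P h * pdθ d P h) -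
      16 * tr (pdθ a P h * pdθ b' P h * pdθ c P h * pdθ d P h) := by
    intro a b' c d
    obtain ⟨c', hc'⟩ := nuc4 hB hF hP a b' c d h
    have hF0 : Fx g K V P (0, h) = (2 : ℝ) • P h - g := by
      unfold Fx
      rw [Cx_zero hB hF hP, mul_sub, mul_one, mul_smul_comm, hP.gp]
    rw [hF0]
    simp only [D_zero hB hF hP]
    have e2 : ((2 : ℝ) • P h - g) * ((2 : ℝ) • pdθ a P h) * ((2 : ℝ) • pdθ b' P h) *
        ((2 : ℝ) • pdθ c P h) * ((2 : ℝ) • pdθ d P h) =
        (32 : ℝ) • (P h * (pdθ a P h * pdθ b' P h * pdθ c P h * pdθ d P h)) -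
        (16 : ℝ) • (pdθ a P h * pdθ b' P h * pdθ c P h * pdθ d P h) := by
      have e3 : ((2 : ℝ) • P h - g) * ((2 : ℝ) • pdθ a P h) * ((2 : ℝ) • pdθ b' P h) *
          ((2 : ℝ) • pdθ c P h) * ((2 : ℝ) • pdθ d P h) =
          (32 : ℝ) • (P h * (pdθ a P h * pdθ b' P h * pdθ c P h * pdθ d P h)) -
          (16 : ℝ) • ((g * pdθ a P h) * pdθ b' P h * pdθ c P h * pdθ d P h) := by
        simp only [sub_mul, mul_smul_comm, smul_mul_assoc, smul_sub, smul_smul, mul_assoc]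
        norm_num
      rw [e3, gPa hB hP]
    rw [e2]
    have n1 : IsNuc ((32 : ℝ) • (P h * (pdθ a P h * pdθ b' P h * pdθ c P h * pdθ d P h)))
        (‖((32 : ℝ) : ℂ)‖ * (‖P h‖ * c')) := by
      have := (hc'.left (P h)).smul ((32 : ℝ) : ℂ)
      have e4 : ((32 : ℝ) : ℂ) • (P h ∘L (pdθ a P h * pdθ b' P h * pdθ c P h * pdθ d P h)) =
        (32 : ℝ) • (P h * (pdθ a P h * pdθ b' P h * pdθ c P h * pdθ d P h)) :=
        Complex.coe_smul _ _
      rwa [e4] at this
    have n2 : IsNuc ((16 : ℝ) • (pdθ a P h * pdθ b' P h * pdθ c P h * pdθ d P h))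
        (‖((16 : ℝ) : ℂ)‖ * c') := by
      have := hc'.smul ((16 : ℝ) : ℂ)
      have e4 : ((16 : ℝ) : ℂ) • (pdθ a P h * pdθ b' P h * pdθ c P h * pdθ d P h) =
        (16 : ℝ) • (pdθ a P h * pdθ b' P h * pdθ c P h * pdθ d P h) := Complex.coe_smul _ _
      rwa [e4] at this
    rw [tr_sub n1 n2, tr_rsmul, tr_rsmul]
    push_cast
    congr 3
  have z : S (fun a b' c d => tr (pdθ a P h * pdθ b' P h * pdθ c P h * pdθ d P h)) = 0 := by
    set A : Fin 4 → Fin 4 → Fin 4 → Fin 4 → ℂ := fun a b' c d =>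
      tr (pdθ a P h * pdθ b' P h * pdθ c P h * pdθ d P h) with hA
    have h1 : (fun a b' c d => A d a b' c) = A := by
      funext a b' c d
      have h2 := Ap.three (apPa hB hF hP a h) (apPa hB hF hP b' h) (apPa hB hF hP c h)
      simp only [hA]
      have e3 : pdθ d P h * pdθ a P h * pdθ b' P h * pdθ c P h =
        pdθ d P h * (pdθ a P h * pdθ b' P h * pdθ c P h) := by noncomm_ring
      rw [e3, tr_cyc h2]
    have h3 := S_c3 A
    rw [h1] at h3
    have h4 : (2 : ℂ) * S A = 0 := by linear_combination h3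
    simpa using h4
  unfold f0
  simp only [e1]
  unfold S at z
  have e5 : ∀ σ : Equiv.Perm (Fin 4), sg σ *
      (32 * tr (P h * pdθ (σ 0) P h * pdθ (σ 1) P h * pdθ (σ 2) P h * pdθ (σ 3) P h) -
      16 * tr (pdθ (σ 0) P h * pdθ (σ 1) P h * pdθ (σ 2) P h * pdθ (σ 3) P h)) =
      32 * (sg σ * tr (P h * pdθ (σ 0) P h * pdθ (σ 1) P h * pdθ (σ 2) P h * pdθ (σ 3) P h)) -
      16 * (((Equiv.Perm.sign σ : ℤ) : ℂ) *
        tr (pdθ (σ 0) P h * pdθ (σ 1) P h * pdθ (σ 2) P h * pdθ (σ 3) P h)) := by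
    intro σ
    show _ = _ - 16 * (sg σ * _)
    ring
  rw [Finset.sum_congr rfl fun σ _ => e5 σ, Finset.sum_sub_distrib, ← Finset.mul_sum,
    ← Finset.mul_sum, z, mul_zero, sub_zero]

/-- `C` as the resolvent `Cf`. -/
lemma Cx_eq (h : Fin 4 → ℝ) {ε : ℝ} (hε : 0 < ε) {s : ℝ} (hs : s ^ 2 = ε⁻¹) :
    Cx K V P (s, h) = Cf K (V h) ε := by
  have hd0 : 0 < ε⁻¹ := inv_pos.2 hε
  have h3 : IsUnit (1 + ((ε⁻¹ - 1) • 1 + V h) * K) := unitN hB (hF.skew _) hd0
  have h5 := (pt hB hF hP h).CN hd0.le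
  set Z : H →L[ℂ] H := (ε : ℂ) • (1 : H →L[ℂ] H) + ((1 - ε : ℝ) : ℂ) • K + (ε : ℂ) • (V h * K)
    with hZ
  have e1 : Z = ε • (1 + ((ε⁻¹ - 1) • 1 + V h) * K) := by
    have e2 : Z = ε • (1 : H →L[ℂ] H) + (1 - ε) • K + ε • (V h * K) := by
      rw [hZ, Complex.coe_smul, Complex.coe_smul, Complex.coe_smul]
    have e3 : ε • (1 + ((ε⁻¹ - 1) • 1 + V h) * K) = ε • (1 : H →L[ℂ] H) +
        (ε * (ε⁻¹ - 1)) • K + ε • (V h * K) := by
      simp only [add_mul, smul_mul_assoc, one_mul, smul_add, smul_smul]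
      abel
    rw [e2, e3]
    have e4 : ε * (ε⁻¹ - 1) = 1 - ε := by field_simp
    rw [e4]
  have e2 : IsUnit Z := by
    have e3 : Z = (ε • (1 : H →L[ℂ] H)) * (1 + ((ε⁻¹ - 1) • 1 + V h) * K) := by
      rw [e1, smul_mul_assoc, one_mul]
    rw [e3]
    refine IsUnit.mul ?_ h3
    refine ⟨⟨ε • 1, ε⁻¹ • 1, ?_, ?_⟩, rfl⟩
    · rw [smul_mul_smul_comm, mul_inv_cancel₀ hε.ne', one_smul, one_mul]
    · rw [smul_mul_smul_comm, inv_mul_cancel₀ hε.ne', one_smul, one_mul]
  have e3 : Cx K V P (s, h) * Z = K := by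
    show CC K (V h) (P h) (s ^ 2) * Z = K
    rw [hs, e1, mul_smul_comm, h5, smul_inv_smul₀ hε.ne']
  calc Cx K V P (s, h) = Cx K V P (s, h) * (Z * Ring.inverse Z) := by
        rw [Ring.mul_inverse_cancel _ e2, mul_one]
    _ = K * Ring.inverse Z := by rw [← mul_assoc, e3]
    _ = Cf K (V h) ε := rfl

/-- the value at `s ≠ 0`. -/
lemma f0_pos (h : Fin 4 → ℝ) {ε : ℝ} (hε : 0 < ε) {s : ℝ} (hs : s ^ 2 = ε⁻¹) :
    f0 (Fx g K V P) (s, h) = 16 * dens g K V ε h := by
  have hd0 : 0 < ε⁻¹ := inv_pos.2 hε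
  have hs0 : s ≠ 0 := by
    rintro rfl
    norm_num at hs
    exact hε.ne hs
  have hp := pt hB hF hP h
  have hC := Cx_eq hB hF hP h hε hs
  set C := Cf K (V h) ε with hCd
  have hCC : CC K (V h) (P h) (s ^ 2) = C := hC
  have hT : CT g K (V h) (P h) (s ^ 2) = star C := by rw [← hp.star_CC (sq_nonneg s), hCC]
  have c1 : C + star C = (2 : ℝ) • (star C * C) := by
    have := hp.CTC (sq_nonneg s)
    rwa [hT, hCC] at this
  have c2 : g * C * g = star C := by
    have := hp.gCg (s ^ 2)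
    rwa [hT, hCC] at this
  have hgg := hB.gg
  have c3 : g * star C * g = C := by rw [← c2]; exact gconj' hgg C
  have c4 : C * g = g * star C := by
    rw [← c2]
    calc C * g = (g * g) * C * g := by rw [hgg, one_mul]
      _ = g * (g * C * g) := by noncomm_ring
  have c5 : star C * C = C * star C := by
    have h1 := congrArg (fun T => g * T * g) c1
    simp only [mul_add, add_mul, mul_smul_comm, smul_mul_assoc] at h1
    rw [gconj hgg, c2, c3, add_comm, c1] at h1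
    exact smul_right_injective _ (two_ne_zero : (2 : ℝ) ≠ 0) h1
  set G := star C * C with hG
  have c6 : g * G * g = G := by
    rw [hG, gconj hgg, c2, c3]
    exact c5.symm
  have c7 : G * g = g * G := by
    calc G * g = (g * g) * (G * g) := by rw [hgg, one_mul]
      _ = g * (g * G * g) := by noncomm_ring
      _ = g * G := by rw [c6]
  have dF : ∀ a, D (va a) (Fx g K V P) (s, h) = (-(2 * ε)) • (g * (C * pdθ a V h * C)) := by
    intro a
    have h1 := dC hB hF hP a (s, h) hs0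
    simp only [hs, hC] at h1
    have h2 : D (va a) (Cx K V P) (s, h) = ε • -(C * pdθ a V h * C) := by
      rw [← h1, smul_inv_smul₀ hε.ne']
    rw [DF_eq hB hF hP, h2, mul_smul_comm, mul_neg, smul_neg, smul_neg, smul_smul, neg_smul]
  have gV : ∀ a, g * pdθ a V h * g = -pdθ a V h := fun a => gVa hF a h
  have F1 : ∀ X : H →L[ℂ] H, Fx g K V P (s, h) * (g * (C * X)) = star C * X := by
    intro X
    have h0 : Fx g K V P (s, h) = g * ((2 : ℝ) • C - 1) := by unfold Fx; rw [hC]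
    rw [h0]
    have h1 : g * ((2 : ℝ) • C - 1) * (g * (C * X)) =
        ((2 : ℝ) • ((g * C * g) * C) - (g * g) * C) * X := by
      simp only [mul_sub, sub_mul, mul_smul_comm, smul_mul_assoc, mul_one, mul_assoc]
    rw [h1, c2, hgg, one_mul, ← c1]
    congr 1; abel
  have key : ∀ a b' c d : Fin 4, Fx g K V P (s, h) * (g * (C * pdθ a V h * C)) *
      (g * (C * pdθ b' V h * C)) * (g * (C * pdθ c V h * C)) * (g * (C * pdθ d V h * C)) =
      g * C * pdθ a V h * G * pdθ b' V h * G * pdθ c V h * G * pdθ d V h * C := by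
    intro a b' c d
    have s1 : Fx g K V P (s, h) * (g * (C * pdθ a V h * C)) = star C * (pdθ a V h * C) := by
      rw [← F1]; noncomm_ring
    have s2 : C * (g * C) = g * G := by rw [← mul_assoc, c4, hG, mul_assoc]
    rw [s1]
    have gV' : ∀ a, pdθ a V h * g = -(g * pdθ a V h) := by
      intro a
      have := gV a
      calc pdθ a V h * g = (g * g) * (pdθ a V h * g) := by rw [hgg, one_mul]
        _ = g * (g * pdθ a V h * g) := by noncomm_ring
        _ = -(g * pdθ a V h) := by rw [this, mul_neg]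
    calc star C * (pdθ a V h * C) * (g * (C * pdθ b' V h * C)) * (g * (C * pdθ c V h * C)) *
          (g * (C * pdθ d V h * C))
        = star C * pdθ a V h * (C * (g * C)) * pdθ b' V h * (C * (g * C)) * pdθ c V h *
          (C * (g * C)) * pdθ d V h * C := by noncomm_ring
      _ = star C * (pdθ a V h * g) * G * (pdθ b' V h * g) * G * (pdθ c V h * g) * G *
          pdθ d V h * C := by rw [s2]; noncomm_ring
      _ = -(star C * g * pdθ a V h * (G * g) * pdθ b' V h * (G * g) * pdθ c V h * G *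
          pdθ d V h * C) := by rw [gV', gV', gV']; noncomm_ring
      _ = -((star C * g) * (pdθ a V h * g) * G * (pdθ b' V h * g) * G * pdθ c V h * G *
          pdθ d V h * C) := by rw [c7]; noncomm_ring
      _ = -((star C * g) * (g * pdθ a V h) * (G * g) * pdθ b' V h * G * pdθ c V h * G *
          pdθ d V h * C) := by rw [gV', gV']; noncomm_ring
      _ = -(star C * (g * g) * (pdθ a V h * g) * G * pdθ b' V h * G * pdθ c V h * G *
          pdθ d V h * C) := by rw [c7]; noncomm_ring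
      _ = star C * g * pdθ a V h * G * pdθ b' V h * G * pdθ c V h * G *
          pdθ d V h * C := by rw [hgg, gV']; noncomm_ring
      _ = _ := by
          have : star C * g = g * C := by
            rw [← c2]
            calc g * C * g * g = g * C * (g * g) := by noncomm_ring
              _ = g * C := by rw [hgg, mul_one]
          rw [this]
  unfold f0 dens
  rw [← hCd, ← hG, ← mul_assoc, Finset.mul_sum]
  refine Finset.sum_congr rfl fun σ _ => ?_
  simp only [dF]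
  have e1 : ∀ A X Y Z W : H →L[ℂ] H, A * ((-(2 * ε)) • X) * ((-(2 * ε)) • Y) * ((-(2 * ε)) • Z) *
      ((-(2 * ε)) • W) = (16 * ε ^ 4) • (A * X * Y * Z * W) := by
    intro A X Y Z W
    simp only [mul_smul_comm, smul_mul_assoc, smul_smul]
    congr 1; ring
  rw [e1, key, tr_rsmul]
  push_cast
  ring

end main

/-- **STK**. -/
theorem stk : STK := by
  intro H _ _ _ g K V P b U hB hF hP
  refine ⟨fun h => (pt hB hF hP h).apP.nuc (by norm_num), fun j h =>
    inter_eq (pt hB hF hP h) (pt hB hF hP _) (hF.gu j) (hF.per j h), fun ε hε => ?_⟩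
  have hs : (Real.sqrt ε⁻¹) ^ 2 = ε⁻¹ := Real.sq_sqrt (inv_pos.2 hε).le
  have h1 := (sd hB hF hP).const (Real.sqrt ε⁻¹)
  simp only [f0_zero hB hF hP, f0_pos hB hF hP _ hε hs] at h1
  rw [integral_const_mul, integral_const_mul] at h1
  unfold ch4
  linear_combination (-(1 / 32 : ℂ)) * h1

end

end Crest.Agent.R235.RCStk_746
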