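import Crest.Agent.R235.RSDefs_538

/-!
Row 235, package RS (helper538): basic facts on holomorphic atlases.
-/

set_option autoImplicit false

open Set Filter Topology Function

universe u v

namespace Crest.Agent.R235.RS

noncomputable section

namespace CAtl

variable {N : Type u} [TopologicalSpace N] (A : CAtl.{u, v} N)

theorem mem_dom {i j : A.ι} {z : ℂ} :
    z ∈ A.dom i j ↔ z ∈ (A.c i).target ∧ (A.c i).symm z ∈ (A.c j).source := Iff.rfl

theorem isOpen_dom (i j : A.ι) : IsOpen (A.dom i j) :=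
  (A.c i).isOpen_inter_preimage_symm (A.c j).open_source

theorem tr_diffOn (i j : A.ι) : DifferentiableOn ℂ (A.tr i j) (A.dom i j) := A.hol i j

theorem tr_diffAt {i j : A.ι} {z : ℂ} (hz : z ∈ A.dom i j) : DifferentiableAt ℂ (A.tr i j) z :=
  (A.tr_diffOn i j).differentiableAt ((A.isOpen_dom i j).mem_nhds hz)

theorem tr_analyticAt {i j : A.ι} {z : ℂ} (hz : z ∈ A.dom i j) : AnalyticAt ℂ (A.tr i j) z :=
  (A.tr_diffOn i j).analyticAt ((A.isOpen_dom i j).mem_nhds hz)

theorem c_mem_dom {i j : A.ι} {x : N} (hi : x ∈ (A.c i).source) (hj : x ∈ (A.c j).source) :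
    A.c i x ∈ A.dom i j :=
  ⟨(A.c i).map_source hi, by rwa [(A.c i).left_inv hi]⟩

theorem tr_c {i j : A.ι} {x : N} (hi : x ∈ (A.c i).source) :
    A.tr i j (A.c i x) = A.c j x := by
  unfold tr
  rw [(A.c i).left_inv hi]

theorem symm_tr {i j : A.ι} {z : ℂ} (hz : z ∈ A.dom i j) :
    (A.c j).symm (A.tr i j z) = (A.c i).symm z := (A.c j).left_inv hz.2

theorem tr_mem {i j : A.ι} {z : ℂ} (hz : z ∈ A.dom i j) : A.tr i j z ∈ A.dom j i := by
  refine ⟨(A.c j).map_source hz.2, ?_⟩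
  rw [A.symm_tr hz]
  exact (A.c i).map_target hz.1

theorem tr_tr {i j k : A.ι} {z : ℂ} (hz : z ∈ A.dom i j) :
    A.tr j k (A.tr i j z) = A.tr i k z := by
  have h : A.tr j k (A.tr i j z) = A.c k ((A.c j).symm (A.tr i j z)) := rfl
  rw [h, A.symm_tr hz]
  rfl

theorem tr_self {i : A.ι} {z : ℂ} (hz : z ∈ (A.c i).target) : A.tr i i z = z :=
  (A.c i).right_inv hz

theorem deriv_tr_mul {i j : A.ι} {z : ℂ} (hz : z ∈ A.dom i j) :
    deriv (A.tr j i) (A.tr i j z) * deriv (A.tr i j) z = 1 := by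
  have h1 := (A.tr_diffAt (A.tr_mem hz)).hasDerivAt
  have h2 := (A.tr_diffAt hz).hasDerivAt
  have h3 := h1.comp z h2
  have h4 : (A.tr j i ∘ A.tr i j) =ᶠ[𝓝 z] id := by
    filter_upwards [(A.isOpen_dom i j).mem_nhds hz] with w hw
    show A.tr j i (A.tr i j w) = w
    rw [A.tr_tr hw, A.tr_self hw.1]
  exact (h3.congr_of_eventuallyEq h4.symm).unique (hasDerivAt_id z)

theorem deriv_tr_ne {i j : A.ι} {z : ℂ} (hz : z ∈ A.dom i j) : deriv (A.tr i j) z ≠ 0 := by
  intro h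
  have h1 := A.deriv_tr_mul hz
  rw [h, mul_zero] at h1
  exact zero_ne_one h1

/-- the charts as a charted space structure give local connectedness etc.: a neighbourhood basis -/
theorem nhds_symm {i : A.ι} {x : N} (hi : x ∈ (A.c i).source) :
    Filter.map (A.c i).symm (𝓝 (A.c i x)) = 𝓝 x := by
  have h := (A.c i).symm.map_nhds_eq ((A.c i).map_source hi)
  rwa [(A.c i).left_inv hi] at h

theorem nhds_c {i : A.ι} {x : N} (hi : x ∈ (A.c i).source) :
    Filter.map (A.c i) (𝓝 x) = 𝓝 (A.c i x) := (A.c i).map_nhds_eq hi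

/-- holomorphic functions at a point -/
def HAt (f : N → ℂ) (x : N) : Prop :=
  ∃ i, x ∈ (A.c i).source ∧ AnalyticAt ℂ (fun z => f ((A.c i).symm z)) (A.c i x)

variable {A}

theorem HAt.all {f : N → ℂ} {x : N} (h : A.HAt f x) {i : A.ι} (hi : x ∈ (A.c i).source) :
    AnalyticAt ℂ (fun z => f ((A.c i).symm z)) (A.c i x) := by
  obtain ⟨j, hj, h⟩ := h
  have hd := A.c_mem_dom hi hj
  have h1 : AnalyticAt ℂ (fun z => f ((A.c j).symm (A.tr i j z))) (A.c i x) := by
    refine AnalyticAt.fun_comp (g := fun z => f ((A.c j).symm z)) (f := A.tr i j) ?_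
      (A.tr_analyticAt hd)
    rw [A.tr_c hi]
    exact h
  refine h1.congr ?_
  filter_upwards [(A.isOpen_dom i j).mem_nhds hd] with z hz
  rw [A.symm_tr hz]

theorem HAt.eventually {f : N → ℂ} {x : N} (h : A.HAt f x) : ∀ᶠ y in 𝓝 x, A.HAt f y := by
  obtain ⟨i, hi, h⟩ := h
  have h1 := h.eventually_analyticAt
  have h2 : Filter.Tendsto (A.c i) (𝓝 x) (𝓝 (A.c i x)) := (A.c i).continuousAt hi
  filter_upwards [h2.eventually h1, (A.c i).open_source.mem_nhds hi] with y hy hs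
  exact ⟨i, hs, hy⟩

theorem HAt.continuousAt {f : N → ℂ} {x : N} (h : A.HAt f x) : ContinuousAt f x := by
  obtain ⟨i, hi, h⟩ := h
  have h1 : ContinuousAt (fun y => f ((A.c i).symm (A.c i y))) x :=
    ContinuousAt.comp (g := fun z => f ((A.c i).symm z)) h.continuousAt ((A.c i).continuousAt hi)
  refine h1.congr ?_
  filter_upwards [(A.c i).open_source.mem_nhds hi] with y hy
  rw [(A.c i).left_inv hy]

theorem HAt.congr {f g : N → ℂ} {x : N} (h : A.HAt f x) (e : f =ᶠ[𝓝 x] g) : A.HAt g x := by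
  obtain ⟨i, hi, h⟩ := h
  refine ⟨i, hi, h.congr ?_⟩
  have h2 : Filter.Tendsto (A.c i).symm (𝓝 (A.c i x)) (𝓝 x) := by
    rw [Filter.Tendsto, A.nhds_symm hi]
  exact h2.eventually e

theorem HAt.sub_const {f : N → ℂ} {x : N} (h : A.HAt f x) (c : ℂ) :
    A.HAt (fun y => f y - c) x := by
  obtain ⟨i, hi, h⟩ := h
  exact ⟨i, hi, h.sub analyticAt_const⟩

end CAtl

end

end Crest.Agent.R235.RS
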