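import Crest.Agent.R235.RSBas_538

/-!
Row 235, package RS (helper538): Wirtinger calculus in the plane.
-/

set_option autoImplicit false

open Set Filter Topology Function Metric MeasureTheory

namespace Crest.Agent.R235.RS

noncomputable section

open Complex (I)

/-- `∂F/∂z̄` -/
def db (F : ℂ → ℂ) (z : ℂ) : ℂ := (fderiv ℝ F z 1 + I * fderiv ℝ F z I) / 2

/-- `∂F/∂z` -/
def dz (F : ℂ → ℂ) (z : ℂ) : ℂ := (fderiv ℝ F z 1 - I * fderiv ℝ F z I) / 2

theorem db_eq_zero_iff {F : ℂ → ℂ} {z : ℂ} (h : DifferentiableAt ℝ F z) :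
    db F z = 0 ↔ DifferentiableAt ℂ F z := by
  rw [differentiableAt_complex_iff_differentiableAt_real, and_iff_right h]
  unfold db
  rw [div_eq_zero_iff, or_iff_left (two_ne_zero), smul_eq_mul]
  constructor
  · intro h1
    linear_combination -I * h1 + (fderiv ℝ F z) I * Complex.I_mul_I
  · intro h1
    rw [h1]
    linear_combination (fderiv ℝ F z) 1 * Complex.I_mul_I

theorem db_congr {F G : ℂ → ℂ} {z : ℂ} (h : F =ᶠ[𝓝 z] G) : db F z = db G z := by
  unfold db; rw [h.fderiv_eq]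

theorem dz_congr {F G : ℂ → ℂ} {z : ℂ} (h : F =ᶠ[𝓝 z] G) : dz F z = dz G z := by
  unfold dz; rw [h.fderiv_eq]

theorem db_sub {F G : ℂ → ℂ} {z : ℂ} (hF : DifferentiableAt ℝ F z) (hG : DifferentiableAt ℝ G z) :
    db (fun w => F w - G w) z = db F z - db G z := by
  unfold db
  rw [fderiv_fun_sub hF hG]
  simp only [sub_apply]
  ring

theorem dz_sub {F G : ℂ → ℂ} {z : ℂ} (hF : DifferentiableAt ℝ F z) (hG : DifferentiableAt ℝ G z) :
    dz (fun w => F w - G w) z = dz F z - dz G z := by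
  unfold dz
  rw [fderiv_fun_sub hF hG]
  simp only [sub_apply]
  ring

/-- the real derivative of a holomorphic function -/
theorem fderiv_hol {T : ℂ → ℂ} {z : ℂ} (h : DifferentiableAt ℂ T z) (v : ℂ) :
    fderiv ℝ T z v = v * deriv T z := by
  have h1 : HasFDerivAt T ((ContinuousLinearMap.toSpanSingleton ℂ (deriv T z)).restrictScalars ℝ)
      z := (h.hasDerivAt.hasFDerivAt).restrictScalars ℝ
  rw [h1.fderiv]
  simp

/-- chain rule for `∂̄` -/
theorem db_comp {F T : ℂ → ℂ} {z : ℂ} (hF : DifferentiableAt ℝ F (T z))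
    (hT : DifferentiableAt ℂ T z) :
    db (fun w => F (T w)) z = db F (T z) * (starRingEnd ℂ) (deriv T z) := by
  have h1 : fderiv ℝ (fun w => F (T w)) z = (fderiv ℝ F (T z)).comp (fderiv ℝ T z) :=
    fderiv_comp (g := F) z hF (hT.restrictScalars ℝ)
  have h2 : ∀ v, fderiv ℝ (fun w => F (T w)) z v = fderiv ℝ F (T z) (v * deriv T z) := by
    intro v
    rw [h1, ContinuousLinearMap.comp_apply, fderiv_hol hT]
  have h3 : ∀ w : ℂ, fderiv ℝ F (T z) w =
      w.re * fderiv ℝ F (T z) 1 + w.im * fderiv ℝ F (T z) I := by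
    intro w
    have : w = w.re • (1 : ℂ) + w.im • I := by
      rw [Complex.real_smul, Complex.real_smul, mul_one]
      exact (Complex.re_add_im w).symm
    conv_lhs => rw [this]
    rw [map_add, map_smul, map_smul, Complex.real_smul, Complex.real_smul]
  unfold db
  rw [h2, h2, h3 (1 * _), h3 (I * _)]
  apply Complex.ext <;> simp <;> ring

/-- the conjugate of an antiholomorphic function -/
theorem diff_conj {F : ℂ → ℂ} {z : ℂ} (h : DifferentiableAt ℝ F z) (h0 : dz F z = 0) :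
    DifferentiableAt ℂ (fun w => (starRingEnd ℂ) (F w)) z := by
  have hd : HasFDerivAt (fun w => (starRingEnd ℂ) (F w))
      ((Complex.conjCLE : ℂ →L[ℝ] ℂ).comp (fderiv ℝ F z)) z :=
    (Complex.conjCLE : ℂ →L[ℝ] ℂ).hasFDerivAt.comp z h.hasFDerivAt
  rw [differentiableAt_complex_iff_differentiableAt_real]
  refine ⟨hd.differentiableAt, ?_⟩
  rw [hd.fderiv]
  have h1 : fderiv ℝ F z 1 = I * fderiv ℝ F z I := by
    unfold dz at h0
    rw [div_eq_zero_iff, or_iff_left (two_ne_zero), sub_eq_zero] at h0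
    exact h0
  simp only [ContinuousLinearMap.comp_apply, h1]
  apply Complex.ext <;> simp

/-- the complex Laplacian -/
def lapX (F : ℂ → ℂ) (z : ℂ) : ℂ :=
  iteratedFDeriv ℝ 2 F z ![1, 1] + iteratedFDeriv ℝ 2 F z ![I, I]

theorem fderiv_db {F : ℂ → ℂ} {z : ℂ} (hF : ContDiffAt ℝ 2 F z) :
    HasFDerivAt (db F) ((1 / 2 : ℂ) • ((ContinuousLinearMap.apply ℝ ℂ (1 : ℂ)).comp
      (fderiv ℝ (fderiv ℝ F) z) + I • (ContinuousLinearMap.apply ℝ ℂ I).comp
      (fderiv ℝ (fderiv ℝ F) z))) z := by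
  have h1 : DifferentiableAt ℝ (fderiv ℝ F) z :=
    (hF.fderiv_right (m := 1) (by norm_num)).differentiableAt (by norm_num)
  have h2 := h1.hasFDerivAt
  have h3 : HasFDerivAt (fun w => fderiv ℝ F w 1)
      ((ContinuousLinearMap.apply ℝ ℂ (1 : ℂ)).comp (fderiv ℝ (fderiv ℝ F) z)) z :=
    (ContinuousLinearMap.apply ℝ ℂ (1 : ℂ)).hasFDerivAt.comp z h2
  have h4 : HasFDerivAt (fun w => fderiv ℝ F w I)
      ((ContinuousLinearMap.apply ℝ ℂ I).comp (fderiv ℝ (fderiv ℝ F) z)) z :=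
    (ContinuousLinearMap.apply ℝ ℂ I).hasFDerivAt.comp z h2
  have h5 := (h3.add (h4.const_smul I)).const_smul (1 / 2 : ℂ)
  refine h5.congr_of_eventuallyEq (Filter.Eventually.of_forall fun w => ?_)
  simp only [db, Pi.smul_apply, Pi.add_apply, smul_eq_mul]
  ring

theorem dz_db {F : ℂ → ℂ} {z : ℂ} (hF : ContDiffAt ℝ 2 F z) : dz (db F) z = lapX F z / 4 := by
  have hs : IsSymmSndFDerivAt ℝ F z := hF.isSymmSndFDerivAt (by simp)
  unfold dz lapX
  rw [(fderiv_db hF).fderiv, iteratedFDeriv_two_apply, iteratedFDeriv_two_apply]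
  have h := hs 1 I
  simp only [smul_apply, add_apply,
    ContinuousLinearMap.comp_apply, ContinuousLinearMap.apply_apply, smul_eq_mul]
  simp only [Matrix.cons_val_zero, Matrix.cons_val_one]
  rw [h]
  linear_combination (-(fderiv ℝ (fderiv ℝ F) z I I) / 4) * Complex.I_mul_I

end

end Crest.Agent.R235.RS
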