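import Mathlib
import Crest.Agent.R240.Ch5
import Crest.Agent.R235.RSBas_538

/-!
Row 235 (S0364), package RS (helper910), RS-1: the conformal factor of a closed Riemann surface.

`A.Sp` : the smooth manifold of the atlas `A`.
`exists_lam` : positive smooth `lam i` on the chart targets with `lam i = |tr'|² (lam j ∘ tr)`.
-/

set_option autoImplicit false
set_option linter.unusedSectionVars false

open Set Filter Topology Metric Manifold Function
open scoped ContDiff Manifold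
open Crest.Agent.R240.Ch

noncomputable section

namespace Crest.Agent.R235.RS

namespace CAtl

universe u v

section General

variable {N : Type u} [TopologicalSpace N] (A : CAtl.{u, v} N)

theorem q_isOpen_dom (i j : A.ι) : IsOpen (A.dom i j) :=
  (A.c i).isOpen_inter_preimage_symm (A.c j).open_source

theorem q_mem_dom {i j : A.ι} {x : N} (hi : x ∈ (A.c i).source) (hj : x ∈ (A.c j).source) :
    A.c i x ∈ A.dom i j :=
  ⟨(A.c i).map_source hi, by rw [(A.c i).left_inv hi]; exact hj⟩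

theorem q_tr_c {i j : A.ι} {x : N} (hi : x ∈ (A.c i).source) : A.tr i j (A.c i x) = A.c j x := by
  rw [tr, (A.c i).left_inv hi]

theorem q_tr_mem {i j : A.ι} {z : ℂ} (hz : z ∈ A.dom i j) : A.tr i j z ∈ (A.c j).target :=
  (A.c j).map_source hz.2

theorem q_symm_tr {i j : A.ι} {z : ℂ} (hz : z ∈ A.dom i j) :
    (A.c j).symm (A.tr i j z) = (A.c i).symm z := (A.c j).left_inv hz.2

theorem q_tr_mem_dom {i j : A.ι} {z : ℂ} (hz : z ∈ A.dom i j) : A.tr i j z ∈ A.dom j i :=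
  ⟨A.q_tr_mem hz, by rw [A.q_symm_tr hz]; exact (A.c i).map_target hz.1⟩

theorem q_tr_tr {i j : A.ι} {z : ℂ} (hz : z ∈ A.dom i j) (k : A.ι) :
    A.tr j k (A.tr i j z) = A.tr i k z := by
  rw [tr, A.q_symm_tr hz]; rfl

theorem q_tr_self {i : A.ι} {z : ℂ} (hz : z ∈ (A.c i).target) : A.tr i i z = z :=
  (A.c i).right_inv hz

theorem q_diffAt_tr {i j : A.ι} {z : ℂ} (hz : z ∈ A.dom i j) :
    DifferentiableAt ℂ (A.tr i j) z :=
  (A.hol i j).differentiableAt ((A.q_isOpen_dom i j).mem_nhds hz)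

theorem q_deriv_tr_mul {i j k : A.ι} {z : ℂ} (hz : z ∈ A.dom i j) (hk : z ∈ A.dom i k) :
    deriv (A.tr i k) z = deriv (A.tr j k) (A.tr i j z) * deriv (A.tr i j) z := by
  have h1 : A.tr i j z ∈ A.dom j k := ⟨A.q_tr_mem hz, by rw [A.q_symm_tr hz]; exact hk.2⟩
  have h2 : A.tr i k =ᶠ[𝓝 z] fun w => A.tr j k (A.tr i j w) := by
    filter_upwards [(A.q_isOpen_dom i j).mem_nhds hz] with w hw
    exact (A.q_tr_tr hw k).symm
  rw [h2.deriv_eq]
  exact deriv_comp z (A.q_diffAt_tr h1) (A.q_diffAt_tr hz)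

theorem q_deriv_tr_self {i : A.ι} {z : ℂ} (hz : z ∈ (A.c i).target) : deriv (A.tr i i) z = 1 := by
  have h : A.tr i i =ᶠ[𝓝 z] id := by
    filter_upwards [(A.c i).open_target.mem_nhds hz] with w hw
    exact A.q_tr_self hw
  rw [h.deriv_eq, deriv_id]

theorem q_deriv_tr_ne {i j : A.ι} {z : ℂ} (hz : z ∈ A.dom i j) : deriv (A.tr i j) z ≠ 0 := by
  have hii : z ∈ A.dom i i := ⟨hz.1, (A.c i).map_target hz.1⟩
  have h := A.q_deriv_tr_mul hz hii
  rw [A.q_deriv_tr_self hz.1] at h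
  intro h0
  rw [h0, mul_zero] at h
  exact one_ne_zero h

theorem q_contDiffOn_tr (i j : A.ι) {n : WithTop ℕ∞} : ContDiffOn ℂ n (A.tr i j) (A.dom i j) :=
  DifferentiableOn.contDiffOn (A.hol i j) (A.q_isOpen_dom i j)

theorem q_contDiffAt_tr {i j : A.ι} {z : ℂ} (hz : z ∈ A.dom i j) {n : WithTop ℕ∞} :
    ContDiffAt ℝ n (A.tr i j) z :=
  ((A.q_contDiffOn_tr i j).contDiffAt ((A.q_isOpen_dom i j).mem_nhds hz)).restrict_scalars ℝ

theorem q_contDiffAt_deriv_tr {i j : A.ι} {z : ℂ} (hz : z ∈ A.dom i j) {n : WithTop ℕ∞} :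
    ContDiffAt ℝ n (deriv (A.tr i j)) z := by
  have h1 : DifferentiableOn ℂ (deriv (A.tr i j)) (A.dom i j) :=
    (A.hol i j).deriv (A.q_isOpen_dom i j)
  exact ((h1.contDiffOn (A.q_isOpen_dom i j)).contDiffAt
    ((A.q_isOpen_dom i j).mem_nhds hz)).restrict_scalars ℝ

end General

section Zero

variable {N : Type} [TopologicalSpace N] (A : CAtl.{0, 0} N)

/-- the manifold of the atlas `A` -/
def Sp (_A : CAtl.{0, 0} N) : Type := N

instance topSp : TopologicalSpace A.Sp := inferInstanceAs (TopologicalSpace N)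

instance [T2Space N] : T2Space A.Sp := inferInstanceAs (T2Space N)

instance [CompactSpace N] : CompactSpace A.Sp := inferInstanceAs (CompactSpace N)

/-- preferred chart -/
def ix (x : N) : A.ι := Classical.choose (A.cover x)

theorem ix_mem (x : N) : x ∈ (A.c (A.ix x)).source := Classical.choose_spec (A.cover x)

/-- the charts of `A.Sp` -/
def cs (i : A.ι) : OpenPartialHomeomorph A.Sp ℂ := A.c i

instance chSp : ChartedSpace ℂ A.Sp where
  atlas := range A.cs
  chartAt x := A.cs (A.ix x)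
  mem_chart_source x := A.ix_mem x
  chart_mem_atlas _ := ⟨_, rfl⟩

instance mfSp : IsManifold 𝓘(ℝ, ℂ) ∞ A.Sp := by
  refine isManifold_of_contDiffOn 𝓘(ℝ, ℂ) ∞ A.Sp ?_
  rintro e e' ⟨i, rfl⟩ ⟨j, rfl⟩
  have h : ContDiffOn ℝ ∞ (A.tr i j) (A.dom i j) := fun z hz =>
    (A.q_contDiffAt_tr hz).contDiffWithinAt
  refine (h.congr fun y hy => rfl).mono ?_
  rintro y ⟨hy, -⟩
  have h1 : y ∈ (A.cs i).target ∧ (A.cs i).symm y ∈ (A.cs j).source := by
    simpa [OpenPartialHomeomorph.trans_source] using hy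
  exact h1

theorem smooth_of_contMDiff {f : A.Sp → ℝ} (hf : ContMDiff 𝓘(ℝ, ℂ) 𝓘(ℝ, ℝ) ∞ f) :
    A.Smooth f := by
  intro i
  have h1 : A.cs i ∈ IsManifold.maximalAtlas 𝓘(ℝ, ℂ) ∞ A.Sp :=
    IsManifold.subset_maximalAtlas ⟨i, rfl⟩
  have h2 := contMDiffOn_symm_of_mem_maximalAtlas h1
  have h3 := hf.comp_contMDiffOn h2
  exact contMDiffOn_iff_contDiffOn.1 h3

variable [T2Space N] [CompactSpace N]

/-- **the conformal factor** -/
theorem exists_lam : ∃ lam : A.ι → ℂ → ℝ,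
    (∀ i, ContDiffOn ℝ ∞ (lam i) (A.c i).target) ∧
    (∀ i, ∀ z ∈ (A.c i).target, 0 < lam i z) ∧
    (∀ i j, ∀ z ∈ A.dom i j, lam i z = ‖deriv (A.tr i j) z‖ ^ 2 * lam j (A.tr i j z)) := by
  obtain ⟨F⟩ := exists_FA (E := ℂ) (M := A.Sp)
  -- the chart index of the `k`-th chart
  set κ : Fin F.n → A.ι := fun k => A.ix (F.c k) with hκ
  have hsrc : ∀ (k : Fin F.n) (x : N), x ∈ tsupport (F.χ k) → x ∈ (A.c (κ k)).source :=
    fun k x hx => (F.χ_supp k hx).1
  have hz0 : ∀ (k : Fin F.n) (x : N), x ∉ (A.c (κ k)).source → F.χ k x = 0 := fun k x hx =>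
    image_eq_zero_of_notMem_tsupport (f := F.χ k) fun h => hx (hsrc k x h)
  refine ⟨fun i z => ∑ k, F.χ k ((A.c i).symm z) * ‖deriv (A.tr i (κ k)) z‖ ^ 2, ?_, ?_, ?_⟩
  · intro i z hz
    refine ContDiffWithinAt.sum fun k _ => ?_
    refine ContDiffAt.contDiffWithinAt ?_
    by_cases hk : (A.c i).symm z ∈ (A.c (κ k)).source
    · have h1 : ContDiffAt ℝ ∞ (fun z => F.χ k ((A.c i).symm z)) z :=
        (A.smooth_of_contMDiff (F.χ_smooth k) i).contDiffAt ((A.c i).open_target.mem_nhds hz)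
      have h2 : ContDiffAt ℝ ∞ (deriv (A.tr i (κ k))) z := A.q_contDiffAt_deriv_tr ⟨hz, hk⟩
      exact h1.mul (h2.norm_sq ℝ)
    · have h1 : (A.c i).symm z ∉ tsupport (F.χ k) := fun h => hk (hsrc k _ h)
      have h2 : ∀ᶠ w in 𝓝 z, (A.c i).symm w ∉ tsupport (F.χ k) :=
        ((A.c i).continuousAt_symm hz).eventually
          ((isClosed_tsupport (F.χ k)).isOpen_compl.mem_nhds h1)
      refine (contDiffAt_const (c := (0 : ℝ))).congr_of_eventuallyEq ?_
      filter_upwards [h2] with w hw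
      rw [image_eq_zero_of_notMem_tsupport (f := F.χ k) hw, zero_mul]
  · intro i z hz
    have hx := F.χ_sum ((A.c i).symm z)
    obtain ⟨k, hk⟩ : ∃ k, 0 < F.χ k ((A.c i).symm z) := by
      by_contra hcon
      push Not at hcon
      have : ∑ k, F.χ k ((A.c i).symm z) ≤ 0 := Finset.sum_nonpos fun k _ => hcon k
      linarith
    have hks : (A.c i).symm z ∈ (A.c (κ k)).source := by
      by_contra h
      rw [hz0 k _ h] at hk
      exact lt_irrefl _ hk
    have h2 : 0 < F.χ k ((A.c i).symm z) * ‖deriv (A.tr i (κ k)) z‖ ^ 2 :=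
      mul_pos hk (pow_pos (norm_pos_iff.2 (A.q_deriv_tr_ne ⟨hz, hks⟩)) 2)
    refine lt_of_lt_of_le h2 (Finset.single_le_sum
      (f := fun k => F.χ k ((A.c i).symm z) * ‖deriv (A.tr i (κ k)) z‖ ^ 2) (fun l _ => ?_)
      (Finset.mem_univ k))
    exact mul_nonneg (F.χ_nonneg l _) (sq_nonneg _)
  · intro i j z hz
    rw [Finset.mul_sum]
    refine Finset.sum_congr rfl fun k _ => ?_
    rw [A.q_symm_tr hz]
    by_cases hk : (A.c i).symm z ∈ (A.c (κ k)).source
    · rw [A.q_deriv_tr_mul hz ⟨hz.1, hk⟩, norm_mul]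
      ring
    · rw [hz0 k _ hk]; ring

end Zero

end CAtl

end Crest.Agent.R235.RS
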