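import Mathlib
import Crest.Agent.R281.Ins2_615
import Crest.Agent.R235.RSPois1_910

/-!
Row 235 (S0364), package RS (helper910), RS-2a: the Riemannian manifold `L.R.M` of a conformal
metric on a Riemann surface and its Laplacian in the charts.
-/

set_option autoImplicit false
set_option linter.unusedSectionVars false

open Set Filter Topology Metric Manifold Function Bundle
open scoped ContDiff Manifold
open Crest.GeometryTopology.CoordMetric
open Crest.Agent.R273.RMan_798

noncomputable section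

namespace Crest.Agent.R235.RS

/-- the isometry `ℂ ≃ ℝ²` -/
def eC : ℂ ≃ₗᵢ[ℝ] EE 2 := Complex.orthonormalBasisOneI.repr

theorem eC_one : eC 1 = EuclideanSpace.single 0 1 := by
  have h := Complex.orthonormalBasisOneI.repr_self 0
  rw [show Complex.orthonormalBasisOneI 0 = 1 by simp] at h
  exact h

theorem eC_I : eC Complex.I = EuclideanSpace.single 1 1 := by
  have h := Complex.orthonormalBasisOneI.repr_self 1
  rw [show Complex.orthonormalBasisOneI 1 = Complex.I by simp] at h
  exact h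

theorem smul_one_bil (c : ℝ) (v w : EE 2) :
    ∑ a, ∑ b, (c • (1 : Matrix (Fin 2) (Fin 2) ℝ)) a b * v a * w b = c * inner ℝ v w := by
  have h : inner ℝ v w = ∑ a, v a * w a := by
    rw [PiLp.inner_apply]
    exact Finset.sum_congr rfl fun a _ => by simp [mul_comm]
  rw [h, Finset.mul_sum]
  refine Finset.sum_congr rfl fun a _ => ?_
  rw [Finset.sum_eq_single a]
  · simp [mul_assoc]
  · intro b _ hb
    simp [Matrix.one_apply_ne hb.symm]
  · simp

/-- the Laplace-Beltrami operator of a conformal metric in dimension two -/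
theorem laplaceBeltrami_conf {g : MetricField 2} {lam : EE 2 → ℝ} {y : EE 2}
    (hg : ∀ᶠ w in 𝓝 y, g w = lam w • (1 : Matrix (Fin 2) (Fin 2) ℝ) ∧ 0 < lam w)
    {f : EE 2 → ℝ} (hf : ContDiffAt ℝ 2 f y) :
    laplaceBeltrami g f y = (lam y)⁻¹ * CAtl.lap (fun z => f (eC z)) (eC.symm y) := by
  have hdet : ∀ w, g w = lam w • (1 : Matrix (Fin 2) (Fin 2) ℝ) → 0 < lam w →
      Real.sqrt (g w).det = lam w := by
    intro w hw hl
    rw [hw, Matrix.det_smul, Matrix.det_one, Fintype.card_fin, mul_one, Real.sqrt_sq hl.le]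
  have hin : ∀ w, g w = lam w • (1 : Matrix (Fin 2) (Fin 2) ℝ) → 0 < lam w → ∀ i,
      Real.sqrt (g w).det * ∑ j, inverseField g w i j * pderiv j f w = pderiv i f w := by
    intro w hw hl i
    have h1 : inverseField g w = (lam w)⁻¹ • (1 : Matrix (Fin 2) (Fin 2) ℝ) := by
      rw [inverseField, hw]
      refine Matrix.inv_eq_left_inv ?_
      rw [smul_mul_smul_comm, one_mul, inv_mul_cancel₀ hl.ne', one_smul]
    rw [hdet w hw hl, h1, Finset.sum_eq_single i]
    · simp only [Matrix.smul_apply, Matrix.one_apply_eq, smul_eq_mul, mul_one]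
      rw [← mul_assoc, mul_inv_cancel₀ hl.ne', one_mul]
    · intro j _ hj
      simp [Matrix.one_apply_ne hj.symm]
    · simp
  have hself := hg.self_of_nhds
  unfold laplaceBeltrami
  rw [hdet y hself.1 hself.2, one_div]
  congr 1
  have hp : ∀ i, pderiv i (fun w => Real.sqrt (g w).det * ∑ j, inverseField g w i j * pderiv j f w) y
      = iteratedFDeriv ℝ 2 f y ![EuclideanSpace.single i 1, EuclideanSpace.single i 1] := by
    intro i
    have h1 : (fun w => Real.sqrt (g w).det * ∑ j, inverseField g w i j * pderiv j f w) =ᶠ[𝓝 y]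
        fun w => fderiv ℝ f w (EuclideanSpace.single i 1) := by
      filter_upwards [hg] with w hw
      exact hin w hw.1 hw.2 i
    rw [pderiv, h1.fderiv_eq, iteratedFDeriv_two_apply]
    have h2 : DifferentiableAt ℝ (fderiv ℝ f) y :=
      (hf.fderiv_right (m := 1) (by norm_num)).differentiableAt (by norm_num)
    rw [fderiv_clm_apply h2 (differentiableAt_const _)]
    simp
  have hl : ∀ v, iteratedFDeriv ℝ 2 (fun z => f (eC z)) (eC.symm y) ![v, v] =
      iteratedFDeriv ℝ 2 f y ![eC v, eC v] := by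
    intro v
    have h1 := eC.toContinuousLinearEquiv.iteratedFDerivWithin_comp_right f uniqueDiffOn_univ
      (x := eC.symm y) (mem_univ _) 2
    rw [preimage_univ, iteratedFDerivWithin_univ, iteratedFDerivWithin_univ] at h1
    have h2 := congrArg (fun T => T ![v, v]) h1
    refine Eq.trans h2 ?_
    simp only [ContinuousMultilinearMap.compContinuousLinearMap_apply]
    have h3 : eC.toContinuousLinearEquiv (eC.symm y) = y := eC.apply_symm_apply y
    rw [h3]
    congr 1
    funext k
    fin_cases k <;> rfl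
  rw [Fin.sum_univ_two, hp, hp, CAtl.lap, hl, hl, eC_one, eC_I]

namespace CAtl

variable {N : Type} [TopologicalSpace N] (A : CAtl.{0, 0} N)

/-- a smooth conformal metric `lam i |dz|²` -/
structure CMet where
  lam : A.ι → ℂ → ℝ
  sm : ∀ i, ContDiffOn ℝ ∞ (lam i) (A.c i).target
  pos : ∀ i, ∀ z ∈ (A.c i).target, 0 < lam i z
  tr : ∀ i j, ∀ z ∈ A.dom i j, lam i z = ‖deriv (A.tr i j) z‖ ^ 2 * lam j (A.tr i j z)

theorem exists_cmet [T2Space N] [CompactSpace N] : Nonempty A.CMet := by
  obtain ⟨lam, h1, h2, h3⟩ := A.exists_lam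
  exact ⟨⟨lam, h1, h2, h3⟩⟩

/-- the charts into `ℝ²` -/
def cE (i : A.ι) : OpenPartialHomeomorph N (EE 2) := (A.c i).transHomeomorph eC.toHomeomorph

theorem cE_apply (i : A.ι) (x : N) : A.cE i x = eC (A.c i x) := rfl

theorem cE_symm (i : A.ι) (y : EE 2) : (A.cE i).symm y = (A.c i).symm (eC.symm y) := rfl

theorem cE_source (i : A.ι) : (A.cE i).source = (A.c i).source := rfl

theorem mem_cE_target {i : A.ι} {y : EE 2} : y ∈ (A.cE i).target ↔ eC.symm y ∈ (A.c i).target :=
  Iff.rfl

theorem cE_trans (i j : A.ι) : (fun y => A.cE j ((A.cE i).symm y)) =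
    fun y => eC (A.tr i j (eC.symm y)) := rfl

theorem fderiv_cE_trans {i j : A.ι} {y : EE 2} (hy : eC.symm y ∈ A.dom i j) (v : EE 2) :
    fderiv ℝ (fun y => A.cE j ((A.cE i).symm y)) y v =
      eC (deriv (A.tr i j) (eC.symm y) * eC.symm v) := by
  have h0 : DifferentiableAt ℂ (A.tr i j) (eC.symm y) := A.q_diffAt_tr hy
  have h1 : HasFDerivAt (A.tr i j)
      ((fderiv ℂ (A.tr i j) (eC.symm y)).restrictScalars ℝ) (eC.symm y) :=
    h0.hasFDerivAt.restrictScalars ℝ
  have h2 : HasFDerivAt (fun y : EE 2 => eC.symm y)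
      (eC.symm.toContinuousLinearEquiv : EE 2 →L[ℝ] ℂ) y :=
    (eC.symm.toContinuousLinearEquiv : EE 2 →L[ℝ] ℂ).hasFDerivAt
  have h3 := h1.comp y h2
  have h4 := (eC.toContinuousLinearEquiv : ℂ →L[ℝ] EE 2).hasFDerivAt.comp y h3
  rw [cE_trans]
  have h5 : HasFDerivAt (fun y => eC (A.tr i j (eC.symm y))) _ y := h4
  rw [h5.fderiv]
  show eC (fderiv ℂ (A.tr i j) (eC.symm y) (eC.symm v)) = _
  congr 1
  have h6 := (fderiv ℂ (A.tr i j) (eC.symm y)).map_smul (eC.symm v) 1
  rw [smul_eq_mul, mul_one] at h6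
  rw [h6, smul_eq_mul, mul_comm]
  rfl

variable {A}

/-- the Riemannian atlas of a conformal metric -/
def CMet.R (L : A.CMet) : RAtl 2 N where
  ι := A.ι
  c := A.cE
  cover := A.cover
  smt i j := by
    rintro y ⟨hy, hq⟩
    have h1 : ContDiffAt ℝ ∞ (A.tr i j) (eC.symm y) := A.q_contDiffAt_tr ⟨hy, hq⟩
    have h2 : ContDiffAt ℝ ∞ (fun y => eC (A.tr i j (eC.symm y))) y :=
      eC.contDiff.contDiffAt.comp y (h1.comp y eC.symm.contDiff.contDiffAt)
    exact h2.contDiffWithinAt
  G i y := L.lam i (eC.symm y) • 1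
  Gsm i a b := by
    have h1 : ContDiffOn ℝ ∞ (fun y => L.lam i (eC.symm y)) (A.cE i).target :=
      (L.sm i).comp eC.symm.contDiff.contDiffOn fun y hy => hy
    exact h1.mul contDiffOn_const
  Gpd i y hy := Matrix.PosDef.one.smul (L.pos i _ hy)
  Gtr i j x hx v w := by
    have hd : A.c i x ∈ A.dom i j := A.q_mem_dom hx.1 hx.2
    have e1 : eC.symm (A.cE i x) = A.c i x := eC.symm_apply_apply _
    have e2 : eC.symm (A.cE j x) = A.c j x := eC.symm_apply_apply _
    have hd' : eC.symm (A.cE i x) ∈ A.dom i j := by rw [e1]; exact hd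
    rw [smul_one_bil, smul_one_bil, A.fderiv_cE_trans hd', A.fderiv_cE_trans hd', e1, e2,
      L.tr i j _ hd, A.q_tr_c hx.1, LinearIsometryEquiv.inner_map_map]
    set a : ℂ := deriv (A.tr i j) (A.c i x)
    have h3 : inner ℝ (a * eC.symm v) (a * eC.symm w) = ‖a‖ ^ 2 * inner ℝ (eC.symm v) (eC.symm w) := by
      rw [← Complex.normSq_eq_norm_sq]
      simp only [Complex.inner, Complex.normSq_apply, map_mul, Complex.mul_re, Complex.mul_im,
        Complex.conj_re, Complex.conj_im]
      ring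
    rw [h3, LinearIsometryEquiv.inner_map_map]
    ring

end CAtl

end Crest.Agent.R235.RS
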