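import Mathlib
import Crest.Agent.R249.Grn6_324
import Crest.Agent.R235.RSPois2_910

/-!
Row 235 (S0364), package RS (helper910), RS-2b: Laplacian and volume of the conformal metric in an
arbitrary chart.

* `smooth_iff`, `mLap_eq`
* `restrict_eq_nu` : `μHE[2]` restricted to the chart domain is `lam i · Lebesgue`
* `integral_chart` : integrals over measurable subsets of a chart domain
-/

set_option autoImplicit false
set_option linter.unusedSectionVars false
set_option maxSynthPendingDepth 3

open Set Filter Topology Metric Manifold Function Bundle MeasureTheory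
open scoped ContDiff Manifold
open Crest.GeometryTopology.CoordMetric Crest.GeometryTopology.PointedLimit
open Crest.Agent.R273.RMan_798

noncomputable section

namespace Crest.Agent.R235.RS

theorem det_smulC (a : ℂ) :
    ((ContinuousLinearMap.mul ℝ ℂ a : ℂ →L[ℝ] ℂ)).det = ‖a‖ ^ 2 := by
  rw [← Complex.normSq_eq_norm_sq, ← Algebra.norm_complex_apply, Algebra.norm_apply]
  rfl

namespace CAtl

variable {N : Type} [TopologicalSpace N] {A : CAtl.{0, 0} N} (L : A.CMet)

theorem symm_chR (i : A.ι) (y : EE 2) : (L.R.ch i).symm y = (A.c i).symm (eC.symm y) := rfl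

/-- smoothness in the two languages -/
theorem smooth_iff {f : N → ℝ} :
    ContMDiff (𝓡 2) 𝓘(ℝ, ℝ) ∞ (fun p : L.R.M => f p) ↔ A.Smooth f := by
  constructor
  · intro h i z hz
    have hx : ((A.c i).symm z : N) ∈ (A.c i).source := (A.c i).map_target hz
    have h1 := (Crest.Agent.R281.Ins_615.contMDiffAt_iff L.R (le_refl _) (i := i)
      (x := ((A.c i).symm z : N)) hx).1 (h _)
    have h2 : L.R.ch i ((A.c i).symm z : N) = eC z := by
      show eC (A.c i ((A.c i).symm z)) = eC z
      rw [(A.c i).right_inv hz]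
    rw [h2] at h1
    have h3 : ContDiffAt ℝ ∞ (fun w => (fun y : EE 2 => f ((A.c i).symm (eC.symm y))) (eC w)) z :=
      h1.comp z eC.contDiff.contDiffAt
    simp only [LinearIsometryEquiv.symm_apply_apply] at h3
    exact h3.contDiffWithinAt
  · intro h
    rintro (x : N)
    obtain ⟨i, hi⟩ := A.cover x
    refine (Crest.Agent.R281.Ins_615.contMDiffAt_iff L.R (le_refl _) (i := i) (x := x) hi).2 ?_
    have h1 : ContDiffAt ℝ ∞ (fun z => f ((A.c i).symm z)) (A.c i x) :=
      (h i).contDiffAt ((A.c i).open_target.mem_nhds ((A.c i).map_source hi))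
    have h2 : ContDiffAt ℝ ∞ (fun z => f ((A.c i).symm z)) (eC.symm (L.R.ch i x)) := by
      show ContDiffAt ℝ ∞ (fun z => f ((A.c i).symm z)) (eC.symm (eC (A.c i x)))
      rw [eC.symm_apply_apply]; exact h1
    exact h2.comp _ eC.symm.contDiff.contDiffAt

/-- **the Laplacian in an arbitrary chart** -/
theorem mLap_eq {f : N → ℝ} (hf : A.Smooth f) {i : A.ι} {x : N} (hx : x ∈ (A.c i).source) :
    Crest.Agent.R247.Bo84.mLap 2 (fun p : L.R.M => f p) x = (L.lam i (A.c i x))⁻¹ * A.lapC f i x := by
  have hC : ContMDiffAt (𝓡 2) 𝓘(ℝ, ℝ) 2 (fun p : L.R.M => f p) x :=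
    (((smooth_iff L).2 hf) x).of_le Crest.Agent.R247.Bo84.two_le_infty
  rw [Crest.Agent.R281.Ins_615.mLap_chart L.R (i := i) hx hC]
  have hy : eC.symm (L.R.ch i x) = A.c i x := eC.symm_apply_apply _
  have h1 : ContDiffAt ℝ 2 (fun z => f ((A.c i).symm z)) (A.c i x) :=
    ((hf i).contDiffAt ((A.c i).open_target.mem_nhds ((A.c i).map_source hx))).of_le
      Crest.Agent.R247.Bo84.two_le_infty
  have h2 : ContDiffAt ℝ 2 (fun y : EE 2 => f ((L.R.ch i).symm y)) (L.R.ch i x) := by
    have h3 : ContDiffAt ℝ 2 (fun z => f ((A.c i).symm z)) (eC.symm (L.R.ch i x)) := by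
      rw [hy]; exact h1
    exact h3.comp _ eC.symm.contDiff.contDiffAt
  have hg : ∀ᶠ w in 𝓝 (L.R.ch i x), L.R.G i w = (fun y => L.lam i (eC.symm y)) w •
      (1 : Matrix (Fin 2) (Fin 2) ℝ) ∧ 0 < (fun y => L.lam i (eC.symm y)) w := by
    filter_upwards [(L.R.c i).open_target.mem_nhds ((L.R.c i).map_source hx)] with w hw
    exact ⟨rfl, L.pos i _ hw⟩
  rw [laplaceBeltrami_conf hg h2, hy]
  congr 1
  have h4 : (fun z => f ((L.R.ch i).symm (eC z))) = fun z => f ((A.c i).symm z) := by
    funext z
    show f ((A.c i).symm (eC.symm (eC z))) = _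
    rw [eC.symm_apply_apply]
  rw [h4]
  rfl

/-! ### the volume -/

/-- the preimage of a set in a chart target -/
def cim (A : CAtl.{0, 0} N) (i : A.ι) (E : Set N) : Set ℂ := (A.c i).target ∩ (A.c i).symm ⁻¹' E

theorem image_eq_cim {i : A.ι} {E : Set N} (hE : E ⊆ (A.c i).source) : A.c i '' E = A.cim i E := by
  ext z
  constructor
  · rintro ⟨x, hx, rfl⟩
    exact ⟨(A.c i).map_source (hE hx), by rw [mem_preimage, (A.c i).left_inv (hE hx)]; exact hx⟩
  · rintro ⟨hz, hzE⟩
    exact ⟨_, hzE, (A.c i).right_inv hz⟩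

variable [MeasurableSpace N] [BorelSpace N]

theorem measurableSet_cim (i : A.ι) {E : Set N} (hE : MeasurableSet E) :
    MeasurableSet (A.cim i E) := by
  have h := (A.c i).continuousOn_symm
  have hm : Measurable ((A.c i).target.domRestrict (A.c i).symm) :=
    (continuousOn_iff_continuous_domRestrict.mp h).measurable
  have h2 : A.cim i E =
      Subtype.val '' (((A.c i).target.domRestrict (A.c i).symm) ⁻¹' E) := by
    ext y
    constructor
    · rintro ⟨hy, hys⟩
      exact ⟨⟨y, hy⟩, hys, rfl⟩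
    · rintro ⟨⟨z, hz⟩, hzs, rfl⟩
      exact ⟨hz, hzs⟩
  rw [h2]
  exact MeasurableSet.subtype_image (A.c i).open_target.measurableSet (hm hE)

/-- change of charts -/
theorem lintegral_cim {i j : A.ι} {E : Set N} (hE : MeasurableSet E)
    (hi : E ⊆ (A.c i).source) (hj : E ⊆ (A.c j).source) :
    ∫⁻ z in A.cim i E, ENNReal.ofReal (L.lam i z) =
      ∫⁻ z in A.cim j E, ENNReal.ofReal (L.lam j z) := by
  have hd : ∀ z ∈ A.cim i E, z ∈ A.dom i j := fun z hz => ⟨hz.1, hj hz.2⟩
  have himg : A.cim j E = A.tr i j '' (A.cim i E) := by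
    ext w
    constructor
    · rintro ⟨hw, hwE⟩
      refine ⟨A.c i ((A.c j).symm w), ⟨(A.c i).map_source (hi hwE), ?_⟩, ?_⟩
      · rw [mem_preimage, (A.c i).left_inv (hi hwE)]; exact hwE
      · rw [A.q_tr_c (hi hwE), (A.c j).right_inv hw]
    · rintro ⟨z, hz, rfl⟩
      refine ⟨A.q_tr_mem (hd z hz), ?_⟩
      rw [mem_preimage, A.q_symm_tr (hd z hz)]; exact hz.2
  have hinj : InjOn (A.tr i j) (A.cim i E) := by
    intro y hy z hz hyz
    have h1 : (A.c i).symm y = (A.c i).symm z := by
      rw [← A.q_symm_tr (hd y hy), ← A.q_symm_tr (hd z hz), hyz]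
    exact (A.c i).symm.injOn hy.1 hz.1 h1
  have hder : ∀ z ∈ A.cim i E, HasFDerivWithinAt (A.tr i j)
      (ContinuousLinearMap.mul ℝ ℂ (deriv (A.tr i j) z)) (A.cim i E) z := by
    intro z hz
    have h1 : HasDerivAt (A.tr i j) (deriv (A.tr i j) z) z := (A.q_diffAt_tr (hd z hz)).hasDerivAt
    have h2 := h1.complexToReal_fderiv.hasFDerivWithinAt (s := A.cim i E)
    convert h2 using 1
    ext <;> simp
  rw [himg, lintegral_image_eq_lintegral_abs_det_fderiv_mul volume (measurableSet_cim i hE) hder hinj]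
  refine setLIntegral_congr_fun (measurableSet_cim i hE) fun z hz => ?_
  rw [det_smulC, abs_of_nonneg (sq_nonneg _), ← ENNReal.ofReal_mul (sq_nonneg _),
    ← L.tr i j z (hd z hz)]

/-- the density measure of a chart -/
def nu (i : A.ι) : Measure N :=
  Measure.map (A.c i).symm
    ((volume.restrict (A.c i).target).withDensity fun z => ENNReal.ofReal (L.lam i z))

theorem aemeas_symm (i : A.ι) : AEMeasurable (A.c i).symm
    ((volume.restrict (A.c i).target).withDensity fun z => ENNReal.ofReal (L.lam i z)) := by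
  have h : AEMeasurable (A.c i).symm (volume.restrict (A.c i).target) :=
    (A.c i).continuousOn_symm.aemeasurable (A.c i).open_target.measurableSet
  exact h.mono_ac (withDensity_absolutelyContinuous _ _)

theorem nu_apply (i : A.ι) {E : Set N} (hE : MeasurableSet E) :
    nu L i E = ∫⁻ z in A.cim i E, ENNReal.ofReal (L.lam i z) := by
  unfold nu
  rw [Measure.map_apply_of_aemeasurable (aemeas_symm L i) hE]
  set ν := (volume.restrict (A.c i).target).withDensity fun z => ENNReal.ofReal (L.lam i z) with hν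
  have h1 : ν ((A.c i).symm ⁻¹' E) = ν (A.cim i E) := by
    apply measure_congr
    have h0 : ∀ᵐ y ∂ν, y ∈ (A.c i).target := by
      have : ∀ᵐ y ∂(volume.restrict (A.c i).target), y ∈ (A.c i).target :=
        ae_restrict_mem (A.c i).open_target.measurableSet
      exact (withDensity_absolutelyContinuous _ _).ae_le this
    filter_upwards [h0] with y hy
    apply propext
    exact ⟨fun h => ⟨hy, h⟩, fun h => h.2⟩
  rw [h1, hν, withDensity_apply _ (measurableSet_cim i hE),
    Measure.restrict_restrict (measurableSet_cim i hE)]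
  congr 2
  ext y; constructor
  · rintro ⟨h, _⟩; exact h
  · intro h; exact ⟨h, h.1⟩

end CAtl

end Crest.Agent.R235.RS
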