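import Mathlib
import Crest.Agent.R235.RSPois3_910

/-!
Row 235 (S0364), package RS (helper910), RS-2c: the Riemannian volume of a conformal metric as a
measure on `N`, integrals over chart domains.

* `toM L : N ≃ₜ L.R.M`, `mu L : Measure N`
* `restrict_eq_nu` : `mu L` on the domain of chart `i` is `lam i · Lebesgue`
* `integral_chart`
-/

set_option autoImplicit false
set_option linter.unusedSectionVars false
set_option linter.style.haveILetI false
set_option maxSynthPendingDepth 3

open Set Filter Topology Metric Manifold Function Bundle MeasureTheory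
open scoped ContDiff Manifold
open Crest.GeometryTopology.CoordMetric Crest.GeometryTopology.PointedLimit
open Crest.Agent.R273.RMan_798

noncomputable section

namespace Crest.Agent.R235.RS

namespace CAtl

variable {N : Type} [TopologicalSpace N] {A : CAtl.{0, 0} N} (L : A.CMet)

/-- the identity `N → L.R.M` -/
def toM : N ≃ₜ L.R.M where
  toFun x := x
  invFun x := x
  left_inv _ := rfl
  right_inv _ := rfl
  continuous_toFun := continuous_id
  continuous_invFun := continuous_id

variable [MeasurableSpace N] [BorelSpace N]

theorem emb_toM : MeasurableEmbedding (toM L) := (toM L).measurableEmbedding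

theorem emb_toM_symm : MeasurableEmbedding (toM L).symm := (toM L).symm.measurableEmbedding

variable [T2Space N] [ConnectedSpace N]

/-- the Riemannian volume, as a measure on `N` -/
def mu : Measure N :=
  Measure.map (toM L).symm (Measure.euclideanHausdorffMeasure 2 : Measure L.R.M)

theorem mu_apply (F : Set N) :
    mu L F = (Measure.euclideanHausdorffMeasure 2 : Measure L.R.M) (toM L '' F) := by
  rw [mu, (emb_toM_symm L).map_apply]
  congr 1
  ext p
  constructor
  · intro hp
    exact ⟨_, hp, (toM L).apply_symm_apply p⟩
  · rintro ⟨q, hq, rfl⟩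
    rw [mem_preimage, (toM L).symm_apply_apply]
    exact hq

/-- the volume of a measurable subset of a preferred chart domain -/
theorem mu_pref (x : N) {F : Set N} (hF : MeasurableSet F)
    (hs : F ⊆ (A.c (L.R.idx x)).source) :
    mu L F = ∫⁻ z in A.cim (L.R.idx x) F, ENNReal.ofReal (L.lam (L.R.idx x) z) := by
  set j : A.ι := L.R.idx x with hj
  have hcm : MeasurableSet (A.cim j F) := measurableSet_cim j hF
  set B : Set (EE 2) := eC.symm ⁻¹' (A.cim j F) with hB
  have hBm : MeasurableSet B := eC.symm.continuous.measurable hcm
  have hBsub : B ⊆ (chartAt (EE 2) (toM L x)).target := fun a ha => ha.1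
  have himg : (chartAt (EE 2) (toM L x)).symm '' B = toM L '' F := by
    ext p
    constructor
    · rintro ⟨a, ha, rfl⟩
      exact ⟨_, ha.2, rfl⟩
    · rintro ⟨q, hq, rfl⟩
      refine ⟨eC (A.c j q), ?_, ?_⟩
      · show eC.symm (eC (A.c j q)) ∈ A.cim j F
        rw [eC.symm_apply_apply]
        exact ⟨(A.c j).map_source (hs hq), by rw [mem_preimage, (A.c j).left_inv (hs hq)]; exact hq⟩
      · have h1 : (chartAt (EE 2) (toM L x)).symm (eC (A.c j q)) =
            toM L ((A.c j).symm (eC.symm (eC (A.c j q)))) := rfl
        rw [h1, eC.symm_apply_apply, (A.c j).left_inv (hs hq)]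
  rw [mu_apply, ← himg, Crest.Agent.R247.Ms322.muHE_symm_image (toM L x) hBsub hBm]
  have hmp : MeasurePreserving (eC.symm : EE 2 → ℂ) volume volume := eC.symm.measurePreserving
  have hme : MeasurableEmbedding (eC.symm : EE 2 → ℂ) :=
    eC.symm.toHomeomorph.measurableEmbedding
  have h1 := hmp.setLIntegral_comp_preimage_emb hme (fun z => ENNReal.ofReal (L.lam j z)) (A.cim j F)
  rw [← h1]
  refine setLIntegral_congr_fun hBm fun a ha => ?_
  have h4 : Crest.Agent.R247.Ms322.dens (n := 2) (toM L x) a = L.lam j (eC.symm a) := by
    unfold Crest.Agent.R247.Ms322.dens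
    rw [L.R.chartMetric_eq (toM L x) (hBsub ha)]
    have h2 : L.R.G (L.R.idx (toM L x)) a =
      L.lam j (eC.symm a) • (1 : Matrix (Fin 2) (Fin 2) ℝ) := rfl
    have h3 : 0 < L.lam j (eC.symm a) := L.pos j _ ha.1
    rw [h2, Matrix.det_smul, Matrix.det_one, Fintype.card_fin, mul_one, Real.sqrt_sq h3.le]
  rw [h4]

variable [CompactSpace N]

/-- **the volume in an arbitrary chart** -/
theorem restrict_eq_nu (i : A.ι) : (mu L).restrict (A.c i).source = nu L i := by
  obtain ⟨t, ht⟩ := (isCompact_univ (X := N)).elim_finite_subcover
    (fun x : N => (A.c (L.R.idx x)).source) (fun x => (A.c _).open_source)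
    (fun x _ => mem_iUnion.2 ⟨x, L.R.idx_mem x⟩)
  have hcov : ⋃ x ∈ (t : Set N), (A.c (L.R.idx x)).source = univ := by
    refine eq_univ_of_forall fun x => ?_
    have := ht (mem_univ (x : N))
    simpa using this
  have hsm : ∀ k, MeasurableSet (A.c k).source := fun k => (A.c k).open_source.measurableSet
  have key : ∀ x ∈ (t : Set N),
      ((mu L).restrict (A.c i).source).restrict
        (A.c (L.R.idx x)).source = (nu L i).restrict (A.c (L.R.idx x)).source := by
    intro x _
    set j : A.ι := L.R.idx x with hj
    refine Measure.ext fun E hE => ?_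
    rw [Measure.restrict_apply hE, Measure.restrict_apply hE,
      Measure.restrict_apply (hE.inter (hsm j))]
    set F : Set N := E ∩ (A.c j).source ∩ (A.c i).source with hF
    have hFm : MeasurableSet F := (hE.inter (hsm j)).inter (hsm i)
    rw [mu_pref L x hFm (fun p hp => hp.1.2), nu_apply L i (hE.inter (hsm j))]
    have h1 : A.cim i (E ∩ (A.c j).source) = A.cim i F := by
      ext z
      constructor
      · rintro ⟨hz, hzE⟩
        exact ⟨hz, hzE, (A.c i).map_target hz⟩
      · rintro ⟨hz, hzE⟩
        exact ⟨hz, hzE.1⟩
    rw [h1]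
    exact (lintegral_cim L (i := i) (j := j) (E := F) hFm (fun p hp => hp.2) (fun p hp => hp.1.2)).symm
  have h1 := (Measure.restrict_biUnion_congr
    (μ := (mu L).restrict (A.c i).source)
    (ν := nu L i) (s := (t : Set N))
    (t := fun x : N => (A.c (L.R.idx x)).source) t.countable_toSet).2 key
  rwa [hcov, Measure.restrict_univ, Measure.restrict_univ] at h1

/-- **integrals over measurable subsets of a chart domain** -/
theorem integral_chart (i : A.ι) {E : Set N} (hE : MeasurableSet E)
    (hs : E ⊆ (A.c i).source) {h : N → ℝ} (hh : Continuous h) :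
    ∫ x in E, h x ∂(mu L) = ∫ z in A.cim i E, L.lam i z * h ((A.c i).symm z) := by
  have h0 : (mu L).restrict E = (nu L i).restrict E := by
    rw [← restrict_eq_nu, Measure.restrict_restrict hE, inter_eq_left.2 hs]
  rw [h0]
  have h1 := setIntegral_map (μ := (volume.restrict (A.c i).target).withDensity
    fun z => ENNReal.ofReal (L.lam i z)) (g := (A.c i).symm) (f := fun x : N => h x) hE
    hh.aestronglyMeasurable (aemeas_symm L i)
  refine Eq.trans h1 ?_
  have hτm : MeasurableSet (A.c i).target := (A.c i).open_target.measurableSet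
  have hcm : MeasurableSet (A.cim i E) := measurableSet_cim i hE
  have hlam : AEMeasurable (fun z => L.lam i z) (volume.restrict (A.c i).target) :=
    (L.sm i).continuousOn.aemeasurable hτm
  set ρ : ℂ → NNReal := fun z => Real.toNNReal (L.lam i z) with hρ
  have hρm : AEMeasurable ρ (volume.restrict (A.c i).target) := hlam.real_toNNReal
  -- replace the preimage by `cim`
  have h2 : ((volume.restrict (A.c i).target).withDensity
      fun z => ENNReal.ofReal (L.lam i z)).restrict ((A.c i).symm ⁻¹' E) =
      ((volume.restrict (A.cim i E)).withDensity fun z => (ρ z : ENNReal)) := by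
    have h3 : ((volume.restrict (A.c i).target).withDensity
        fun z => ENNReal.ofReal (L.lam i z)).restrict ((A.c i).symm ⁻¹' E) =
        ((volume.restrict (A.c i).target).withDensity
        fun z => ENNReal.ofReal (L.lam i z)).restrict (A.cim i E) := by
      refine Measure.restrict_congr_set ?_
      have h4 : ∀ᵐ y ∂((volume.restrict (A.c i).target).withDensity
          fun z => ENNReal.ofReal (L.lam i z)), y ∈ (A.c i).target :=
        (withDensity_absolutelyContinuous _ _).ae_le (ae_restrict_mem hτm)
      filter_upwards [h4] with y hy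
      apply propext
      exact ⟨fun h => ⟨hy, h⟩, fun h => h.2⟩
    rw [h3, restrict_withDensity hcm, Measure.restrict_restrict hcm]
    have h5 : A.cim i E ∩ (A.c i).target = A.cim i E := inter_eq_left.2 fun z hz => hz.1
    rw [h5]
    rfl
  rw [h2, integral_withDensity_eq_integral_smul₀]
  · refine setIntegral_congr_fun hcm fun z hz => ?_
    rw [hρ]
    simp only [NNReal.smul_def, Real.coe_toNNReal _ (L.pos i z hz.1).le, smul_eq_mul]
  · exact hρm.mono_measure (Measure.restrict_mono (fun z hz => hz.1) le_rfl)

end CAtl

end Crest.Agent.R235.RS
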