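import Mathlib
import Crest.Agent.R235.RSPois4_910

/-!
Row 235 (S0364), package RS (helper910), RS-2d: `POISSON` and `STOKES` for an atlas in the lowest
universe.
-/

set_option autoImplicit false
set_option linter.unusedSectionVars false
set_option linter.style.haveILetI false
set_option maxSynthPendingDepth 3

open Set Filter Topology Metric Manifold Function Bundle MeasureTheory
open scoped ContDiff Manifold
open Crest.GeometryTopology.CoordMetric Crest.GeometryTopology.PointedLimit
open Crest.Agent.R273.RMan_798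

noncomputable section

namespace Crest.Agent.R235.RS

namespace CAtl

variable {N : Type} [TopologicalSpace N] {A : CAtl.{0, 0} N} (L : A.CMet)
variable [T2Space N] [ConnectedSpace N] [CompactSpace N]

instance compR : CompactSpace L.R.M := inferInstanceAs (CompactSpace N)

/-- the Laplacian of the conformal metric -/
def mlap (f : N → ℝ) (x : N) : ℝ :=
  Crest.Agent.R247.Bo84.mLap 2 (fun p : L.R.M => f ((toM L).symm p)) (toM L x)

theorem mlap_eq {f : N → ℝ} (hf : A.Smooth f) {i : A.ι} {x : N} (hx : x ∈ (A.c i).source) :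
    mlap L f x = (L.lam i (A.c i x))⁻¹ * A.lapC f i x :=
  mLap_eq L hf hx

theorem contMDiff_of_smooth {f : N → ℝ} (hf : A.Smooth f) :
    ContMDiff (𝓡 2) 𝓘(ℝ, ℝ) ∞ (fun p : L.R.M => f ((toM L).symm p)) := (smooth_iff L).2 hf

theorem continuous_mlap {f : N → ℝ} (hf : A.Smooth f) : Continuous (mlap L f) := by
  have h1 := Crest.Agent.R249.Grn324.continuous_mLap (n := 2) (M := L.R.M)
    ((contMDiff_of_smooth L hf).of_le Crest.Agent.R247.Bo84.two_le_infty)
  exact h1.comp (toM L).continuous

theorem integral_mlap [MeasurableSpace N] [BorelSpace N] {f : N → ℝ} (hf : A.Smooth f) :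
    ∫ x, mlap L f x ∂(mu L) = 0 := by
  have h1 := Crest.Agent.R249.Grn324.integral_mLap (n := 2) (M := L.R.M)
    ((contMDiff_of_smooth L hf).of_le Crest.Agent.R247.Bo84.two_le_infty)
  rw [mu, (emb_toM_symm L).integral_map]
  exact h1

/-- **Stokes** -/
theorem stokes0 : A.STOKES := by
  intro S _ i K f hf hKc hKs hKd hz
  letI mN : MeasurableSpace N := borel N
  haveI bN : BorelSpace N := ⟨rfl⟩
  obtain ⟨L⟩ := A.exists_cmet
  have hKm : ∀ s, MeasurableSet (K s) := fun s => (hKc s).isClosed.measurableSet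
  have hcont := continuous_mlap L hf
  have hint : Integrable (mlap L f) (mu L) := by
    have h1 : Integrable (fun p : L.R.M => mlap L f ((toM L).symm p))
        (Measure.euclideanHausdorffMeasure 2 : Measure L.R.M) :=
      Crest.Agent.R249.Grn324.integrable_cont (n := 2) (hcont.comp (toM L).symm.continuous)
    rw [mu, (emb_toM_symm L).integrable_map_iff]
    exact h1
  have h0 : ∫ x, mlap L f x ∂(mu L) = ∫ x in ⋃ s, K s, mlap L f x ∂(mu L) := by
    refine (setIntegral_eq_integral_of_forall_compl_eq_zero fun x hx => ?_).symm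
    obtain ⟨j, hj⟩ := A.cover x
    rw [mlap_eq L hf hj, hz j x hj (fun s hs => hx (mem_iUnion.2 ⟨s, hs⟩)), mul_zero]
  rw [integral_mlap L hf, integral_iUnion_fintype hKm
    (fun s t hst => hKd s t hst) (fun s => hint.integrableOn)] at h0
  rw [h0]
  refine Finset.sum_congr rfl fun s _ => ?_
  rw [integral_chart L (i s) (hKm s) (hKs s) hcont, image_eq_cim (hKs s)]
  refine setIntegral_congr_fun (measurableSet_cim (i s) (hKm s)) fun z hz => ?_
  have hx : (A.c (i s)).symm z ∈ (A.c (i s)).source := (A.c (i s)).map_target hz.1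
  rw [mlap_eq L hf hx, lapC, (A.c (i s)).right_inv hz.1, ← mul_assoc,
    mul_inv_cancel₀ (L.pos _ _ hz.1).ne', one_mul]

/-- **Poisson** -/
theorem poisson0 : A.POISSON := by
  intro i ρ hρ hρc hρs hρ0
  letI mN : MeasurableSpace N := borel N
  haveI bN : BorelSpace N := ⟨rfl⟩
  obtain ⟨L⟩ := A.exists_cmet
  classical
  set g : N → ℝ := fun x => if x ∈ (A.c i).source then (L.lam i (A.c i x))⁻¹ * ρ (A.c i x) else 0
    with hg
  -- the compact support
  set Q : Set N := (A.c i).symm '' tsupport ρ with hQ
  have hQc : IsCompact Q := hρc.isCompact.image_of_continuousOn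
    ((A.c i).continuousOn_symm.mono hρs)
  have hgQ : ∀ x, x ∉ Q → g x = 0 := by
    intro x hx
    simp only [hg]
    split_ifs with h
    · have h1 : A.c i x ∉ tsupport ρ := fun h2 => hx ⟨_, h2, (A.c i).left_inv h⟩
      rw [image_eq_zero_of_notMem_tsupport h1, mul_zero]
    · rfl
  have hgs : A.Smooth g := by
    intro j z hz
    refine ContDiffAt.contDiffWithinAt ?_
    by_cases hx : (A.c j).symm z ∈ (A.c i).source
    · have hd : z ∈ A.dom j i := ⟨hz, hx⟩
      have h1 : ContDiffAt ℝ ∞ (A.tr j i) z := A.q_contDiffAt_tr hd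
      have h2 : ContDiffAt ℝ ∞ (L.lam i) (A.tr j i z) :=
        (L.sm i).contDiffAt ((A.c i).open_target.mem_nhds (A.q_tr_mem hd))
      have h3 : ContDiffAt ℝ ∞ (fun w => (L.lam i (A.tr j i w))⁻¹ * ρ (A.tr j i w)) z :=
        ((h2.comp z h1).inv (L.pos i _ (A.q_tr_mem hd)).ne').mul (hρ.contDiffAt.comp z h1)
      refine h3.congr_of_eventuallyEq ?_
      filter_upwards [(A.q_isOpen_dom j i).mem_nhds hd] with w hw
      simp only [hg]
      rw [if_pos hw.2]
      rfl
    · have h1 : (A.c j).symm z ∉ Q := by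
        rintro ⟨w, hw, hwz⟩
        exact hx (hwz ▸ (A.c i).map_target (hρs hw))
      have h2 : ∀ᶠ w in 𝓝 z, (A.c j).symm w ∉ Q :=
        ((A.c j).continuousAt_symm hz).eventually (hQc.isClosed.isOpen_compl.mem_nhds h1)
      refine (contDiffAt_const (c := (0 : ℝ))).congr_of_eventuallyEq ?_
      filter_upwards [h2] with w hw
      exact hgQ _ hw
  have hgM : ContMDiff (𝓡 2) 𝓘(ℝ, ℝ) ∞ (fun p : L.R.M => g ((toM L).symm p)) :=
    contMDiff_of_smooth L hgs
  have hgc : Continuous g := by
    have h1 := hgM.continuous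
    exact h1.comp (toM L).continuous
  have hg0 : ∫ p, g ((toM L).symm p) ∂(Measure.euclideanHausdorffMeasure 2 : Measure L.R.M) = 0 := by
    have h1 : ∫ x, g x ∂(mu L) =
        ∫ p, g ((toM L).symm p) ∂(Measure.euclideanHausdorffMeasure 2 : Measure L.R.M) := by
      rw [mu, (emb_toM_symm L).integral_map]
    rw [← h1]
    have h2 : ∫ x, g x ∂(mu L) = ∫ x in (A.c i).source, g x ∂(mu L) := by
      refine (setIntegral_eq_integral_of_forall_compl_eq_zero fun x hx => ?_).symm
      simp only [hg]
      rw [if_neg hx]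
    rw [h2, integral_chart L i (A.c i).open_source.measurableSet subset_rfl hgc]
    have h3 : A.cim i (A.c i).source = (A.c i).target := by
      ext z; constructor
      · exact fun h => h.1
      · exact fun h => ⟨h, (A.c i).map_target h⟩
    rw [h3]
    have h4 : ∫ z in (A.c i).target, L.lam i z * g ((A.c i).symm z) =
        ∫ z in (A.c i).target, ρ z := by
      refine setIntegral_congr_fun (A.c i).open_target.measurableSet fun z hz => ?_
      simp only [hg]
      rw [if_pos ((A.c i).map_target hz), (A.c i).right_inv hz, ← mul_assoc,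
        mul_inv_cancel₀ (L.pos i z hz).ne', one_mul]
    rw [h4, setIntegral_eq_integral_of_forall_compl_eq_zero, hρ0]
    intro z hz
    exact image_eq_zero_of_notMem_tsupport fun h => hz (hρs h)
  obtain ⟨u, hu, hlap, -⟩ := Crest.Agent.R249.Grn324.exists_poisson (n := 2) (M := L.R.M) hgM hg0
  have hus : A.Smooth (fun x : N => u (toM L x)) := (smooth_iff L).1 hu
  have hl : ∀ x, mlap L (fun x : N => u (toM L x)) x = g x := fun x => hlap (toM L x)
  have hlc : ∀ j, ∀ x ∈ (A.c j).source, A.lapC (fun x : N => u (toM L x)) j x =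
      L.lam j (A.c j x) * g x := by
    intro j x hx
    rw [← hl x, mlap_eq L hus hx, ← mul_assoc,
      mul_inv_cancel₀ (L.pos j _ ((A.c j).map_source hx)).ne', one_mul]
  refine ⟨fun x : N => u (toM L x), hus, fun x hx => ?_, fun j x hx hxi => ?_⟩
  · rw [hlc i x hx]
    simp only [hg]
    rw [if_pos hx, ← mul_assoc, mul_inv_cancel₀ (L.pos i _ ((A.c i).map_source hx)).ne', one_mul]
  · rw [hlc j x hx]
    simp only [hg]
    rw [if_neg hxi, mul_zero]

end CAtl

end Crest.Agent.R235.RS
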