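import Mathlib
import Crest.Agent.R235.RSPois5_910

/-!
Row 235 (S0364), package RS (helper910), RS-2e: `POISSON` and `STOKES` in all universes.
-/

set_option autoImplicit false
set_option linter.unusedSectionVars false
set_option linter.style.haveILetI false

open Set Filter Topology Metric Function MeasureTheory
open scoped ContDiff

noncomputable section

namespace Crest.Agent.R235.RS

universe u v

namespace CAtl

section Trans

variable {N : Type u} [TopologicalSpace N] (A : CAtl.{u, v} N)
variable {N' : Type} [TopologicalSpace N'] (h : N' ≃ₜ N)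

/-- the transported atlas; the index set is the set of charts -/
def pull : CAtl.{0, 0} N' where
  ι := {e : OpenPartialHomeomorph N' ℂ // ∃ i, h.transOpenPartialHomeomorph (A.c i) = e}
  c e := e.1
  cover x := by
    obtain ⟨i, hi⟩ := A.cover (h x)
    exact ⟨⟨_, i, rfl⟩, hi⟩
  hol := by
    rintro ⟨_, i, rfl⟩ ⟨_, j, rfl⟩
    refine ((A.hol i j).congr fun z hz => ?_).mono ?_
    · show A.c j (h (h.symm ((A.c i).symm z))) = A.c j ((A.c i).symm z)
      rw [h.apply_symm_apply]
    · rintro z ⟨hz, hzj⟩
      refine ⟨hz, ?_⟩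
      have h1 : h (h.symm ((A.c i).symm z)) ∈ (A.c j).source := hzj
      rwa [h.apply_symm_apply] at h1

/-- the index of the chart `i` -/
def pix (i : A.ι) : (A.pull h).ι := ⟨h.transOpenPartialHomeomorph (A.c i), i, rfl⟩

theorem pull_symm (i : A.ι) (z : ℂ) :
    h (((A.pull h).c (A.pix h i)).symm z) = (A.c i).symm z := by
  show h (h.symm ((A.c i).symm z)) = _
  rw [h.apply_symm_apply]

theorem smooth_pull {f : N → ℝ} (hf : A.Smooth f) : (A.pull h).Smooth (fun x => f (h x)) := by
  rintro ⟨_, i, rfl⟩
  refine (hf i).congr fun z hz => ?_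
  show f (h (h.symm ((A.c i).symm z))) = _
  rw [h.apply_symm_apply]

theorem smooth_of_pull {f : N' → ℝ} (hf : (A.pull h).Smooth f) :
    A.Smooth (fun x => f (h.symm x)) := fun i => hf (A.pix h i)

theorem lapC_pull (f : N → ℝ) (i : A.ι) (x : N) :
    (A.pull h).lapC (fun x => f (h x)) (A.pix h i) (h.symm x) = A.lapC f i x := by
  have h1 : (fun z => f (h (((A.pull h).c (A.pix h i)).symm z))) = fun z => f ((A.c i).symm z) := by
    funext z
    rw [A.pull_symm]
  unfold lapC
  rw [h1]
  show lap _ (A.c i (h (h.symm x))) = _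
  rw [h.apply_symm_apply]

theorem poisson_of_pull (H : (A.pull h).POISSON) : A.POISSON := by
  intro i ρ hρ hρc hρs hρ0
  obtain ⟨f, hf, h1, h2⟩ := H (A.pix h i) ρ hρ hρc hρs hρ0
  have hl : ∀ j x, A.lapC (fun x => f (h.symm x)) j x =
      (A.pull h).lapC f (A.pix h j) (h.symm x) := by
    intro j x
    rw [← A.lapC_pull h]
    simp only [Homeomorph.symm_apply_apply]
  refine ⟨fun x => f (h.symm x), A.smooth_of_pull h hf, fun x hx => ?_, fun j x hx hxi => ?_⟩
  · rw [hl]
    have hx' : h.symm x ∈ ((A.pull h).c (A.pix h i)).source := by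
      show h (h.symm x) ∈ (A.c i).source
      rwa [h.apply_symm_apply]
    rw [h1 _ hx']
    show ρ (A.c i (h (h.symm x))) = _
    rw [h.apply_symm_apply]
  · rw [hl]
    refine h2 (A.pix h j) _ ?_ ?_
    · show h (h.symm x) ∈ (A.c j).source
      rwa [h.apply_symm_apply]
    · show ¬ h (h.symm x) ∈ (A.c i).source
      rwa [h.apply_symm_apply]

theorem stokes_of_pull (H : (A.pull h).STOKES) : A.STOKES := by
  intro S _ i K f hf hKc hKs hKd hz
  have h0 := H S (fun s => A.pix h (i s)) (fun s => h ⁻¹' K s) (fun x => f (h x))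
    (A.smooth_pull h hf) (fun s => h.isCompact_preimage.2 (hKc s))
    (fun s x hx => hKs s hx) (fun s t hst => (hKd s t hst).preimage _) ?_
  · rw [← h0]
    refine Finset.sum_congr rfl fun s _ => ?_
    have e1 : ((A.pull h).c (A.pix h (i s))) '' (h ⁻¹' K s) = A.c (i s) '' K s := by
      ext z
      constructor
      · rintro ⟨x, hx, rfl⟩
        exact ⟨h x, hx, rfl⟩
      · rintro ⟨x, hx, rfl⟩
        refine ⟨h.symm x, ?_, ?_⟩
        · rw [mem_preimage, h.apply_symm_apply]; exact hx
        · show A.c (i s) (h (h.symm x)) = _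
          rw [h.apply_symm_apply]
    have e2 : (fun z => f (h (((A.pull h).c (A.pix h (i s))).symm z))) =
        fun z => f ((A.c (i s)).symm z) := by
      funext z
      rw [A.pull_symm]
    rw [e1, e2]
  · rintro ⟨_, j, rfl⟩ x hx hxK
    have h1 := hz j (h x) hx (fun s hs => hxK s hs)
    rw [← A.lapC_pull h, h.symm_apply_apply] at h1
    exact h1

end Trans

section Small

variable {N : Type u} [TopologicalSpace N] (A : CAtl.{u, v} N)

include A in
theorem small_of_compact [CompactSpace N] : Small.{0} N := by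
  obtain ⟨t, ht⟩ := (isCompact_univ (X := N)).elim_finite_subcover
    (fun i => (A.c i).source) (fun i => (A.c i).open_source)
    (fun x _ => mem_iUnion.2 (A.cover x))
  have hs : Surjective (fun p : Fin t.card × ℂ => (A.c (t.equivFin.symm p.1 : A.ι)).symm p.2) := by
    intro x
    have h1 := ht (mem_univ x)
    simp only [mem_iUnion, exists_prop] at h1
    obtain ⟨i, hi, hx⟩ := h1
    refine ⟨(t.equivFin ⟨i, hi⟩, A.c i x), ?_⟩
    simp only [Equiv.symm_apply_apply]
    exact (A.c i).left_inv hx
  exact small_of_surjective hs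

variable [T2Space N] [ConnectedSpace N] [CompactSpace N]

include A in
theorem exists_homeo : ∃ (N' : Type) (_ : TopologicalSpace N') (_ : T2Space N')
    (_ : ConnectedSpace N') (_ : CompactSpace N'), Nonempty (N' ≃ₜ N) := by
  haveI := A.small_of_compact
  letI tN : TopologicalSpace (Shrink.{0} N) := TopologicalSpace.induced (equivShrink N).symm inferInstance
  let e : Shrink.{0} N ≃ₜ N := (equivShrink N).symm.toHomeomorphOfIsInducing ⟨rfl⟩
  exact ⟨Shrink.{0} N, tN, e.symm.t2Space, e.symm.surjective.connectedSpace e.symm.continuous,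
    e.symm.compactSpace, ⟨e⟩⟩

/-- **POISSON** -/
theorem poisson : A.POISSON := by
  obtain ⟨N', i1, i2, i3, i4, ⟨e⟩⟩ := A.exists_homeo
  exact A.poisson_of_pull e poisson0

/-- **STOKES** -/
theorem stokes : A.STOKES := by
  obtain ⟨N', i1, i2, i3, i4, ⟨e⟩⟩ := A.exists_homeo
  exact A.stokes_of_pull e stokes0

end Small

end CAtl

end Crest.Agent.R235.RS
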