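import Crest.Agent.R235.RSMer2_538
import Crest.Agent.R235.RSPois6_910

/-!
Row 235, package RS (helper538, helper910): the trichotomy for closed Riemann surfaces.
-/

set_option autoImplicit false

open Set Filter Topology Function

universe u v

namespace Crest.Agent.R235.RS

namespace CAtl

variable {N : Type u} [TopologicalSpace N] [T2Space N] [CompactSpace N] [ConnectedSpace N]

/-- **closed Riemann surfaces**: the sphere, a torus `ℂ/Λ`, or a surface with a holomorphic
one-form with a non-empty finite set of zeros. -/
theorem rs_main (A : CAtl.{u, v} N) : A.MAIN := main_of_poisson A.poisson

end CAtl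

end Crest.Agent.R235.RS
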