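import Crest.Agent.R235.RSSph_538

/-!
Row 235, package RS (helper538): a closed Riemann surface with a meromorphic function which has
exactly one simple pole is the sphere, part 2.
-/

set_option autoImplicit false

open Set Filter Topology Function Metric

universe u v

namespace Crest.Agent.R235.RS

noncomputable section

namespace CAtl

variable {N : Type u} [TopologicalSpace N] {A : CAtl.{u, v} N}

/-- change of chart for maps from the plane -/
theorem diff_chart {φ : ℂ → N} {z : ℂ} (hc : ContinuousAt φ z) {i j : A.ι}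
    (hi : φ z ∈ (A.c i).source) (hj : φ z ∈ (A.c j).source) {d : ℂ}
    (hd : HasDerivAt (fun w => A.c i (φ w)) d z) :
    HasDerivAt (fun w => A.c j (φ w)) (deriv (A.tr i j) (A.c i (φ z)) * d) z := by
  have hdom := A.c_mem_dom hi hj
  have h1 := (A.tr_diffAt hdom).hasDerivAt
  have h2 := HasDerivAt.comp (h₂ := A.tr i j) z h1 hd
  refine h2.congr_of_eventuallyEq ?_
  filter_upwards [hc.eventually ((A.c i).open_source.mem_nhds hi)] with w hw
  show A.c j (φ w) = A.tr i j (A.c i (φ w))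
  rw [A.tr_c hw]

/-- `φ` is a local holomorphic coordinate at `z` -/
def Loc (A : CAtl.{u, v} N) (φ : ℂ → N) (z : ℂ) : Prop :=
  ∃ i, φ z ∈ (A.c i).source ∧ ∃ d : ℂ, d ≠ 0 ∧ HasDerivAt (fun w => A.c i (φ w)) d z

theorem hol_of_loc {φ : ℂ → N} (hc : Continuous φ) (h : ∀ z, A.Loc φ z) : A.Hol φ := by
  refine ⟨hc, fun i z hz => ?_⟩
  obtain ⟨j, hj, d, -, hd⟩ := h z
  exact (diff_chart hc.continuousAt hj hz hd).differentiableAt.differentiableWithinAt

theorem imm_of_loc {φ : ℂ → N} (hc : Continuous φ) (h : ∀ z, A.Loc φ z) : A.Imm φ := by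
  intro i z hz
  obtain ⟨j, hj, d, hd0, hd⟩ := h z
  rw [(diff_chart hc.continuousAt hj hz hd).deriv]
  exact mul_ne_zero (A.deriv_tr_ne (A.c_mem_dom hj hz)) hd0

namespace OnePole

variable {f : N → ℂ} {p0 : N} (Q : OnePole A f p0)

variable [T2Space N] [CompactSpace N] [PreconnectedSpace N]

include Q in
theorem exists_psi : ∃ ψ : ℂ → N, Continuous ψ ∧ (∀ c, ψ c ≠ p0) ∧ (∀ c, f (ψ c) = c) ∧
    ∀ x, x ≠ p0 → ψ (f x) = x := by
  have h : ∀ c : ℂ, ∃! x, x ≠ p0 ∧ f x = c := fun c => by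
    have : c ∈ E1 f p0 := by rw [Q.E1_univ]; trivial
    exact this
  choose ψ hψ hu using h
  have e1 : ∀ x, x ≠ p0 → ψ (f x) = x := fun x hx => (hu (f x) x ⟨hx, rfl⟩).symm
  refine ⟨ψ, ?_, fun c => (hψ c).1, fun c => (hψ c).2, e1⟩
  refine continuous_iff_isClosed.2 fun K hK => ?_
  have h1 : ψ ⁻¹' K = {c : ℂ | ∃ x ∈ K, x ≠ p0 ∧ f x = c} := by
    ext c
    constructor
    · intro hc
      exact ⟨ψ c, hc, (hψ c).1, (hψ c).2⟩
    · rintro ⟨x, hx, hxp, rfl⟩
      show ψ (f x) ∈ K
      rw [e1 x hxp]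
      exact hx
  rw [h1]
  exact Q.closed_image hK

include Q in
/-- the inverse is holomorphic -/
theorem loc_psi {ψ : ℂ → N} (hc : Continuous ψ) (hp : ∀ c, ψ c ≠ p0) (hf : ∀ c, f (ψ c) = c)
    (c : ℂ) : A.Loc ψ c := by
  -- points where the derivative of `f` does not vanish
  have reg : ∀ c, A.Reg f (ψ c) → A.Loc ψ c := by
    intro c hr
    obtain ⟨i, hi, hd⟩ := hr
    have ha := (Q.hf (ψ c) (hp c)).all hi
    refine ⟨i, hi, _, inv_ne_zero hd, ?_⟩
    have hcc : ContinuousAt (fun w => A.c i (ψ w)) c :=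
      ContinuousAt.comp (g := A.c i) ((A.c i).continuousAt hi) hc.continuousAt
    refine HasDerivAt.of_local_left_inverse (f := fun z => f ((A.c i).symm z)) hcc
      ha.differentiableAt.hasDerivAt hd ?_
    filter_upwards [hc.continuousAt.eventually ((A.c i).open_source.mem_nhds hi)] with w hw
    rw [(A.c i).left_inv hw, hf]
  -- finitely many other values
  have hfin : (f '' {x | x ≠ p0 ∧ ¬ A.Reg f x}).Finite := Q.finite_crit.image f
  have hev : ∀ᶠ w in 𝓝[≠] c, A.Reg f (ψ w) := by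
    have h1 : (f '' {x | x ≠ p0 ∧ ¬ A.Reg f x} \ {c})ᶜ ∈ 𝓝 c := by
      refine (hfin.subset sdiff_subset).isClosed.isOpen_compl.mem_nhds ?_
      intro h
      exact h.2 rfl
    rw [eventually_nhdsWithin_iff]
    filter_upwards [h1] with w hw hne
    by_contra h
    exact hw ⟨⟨ψ w, ⟨hp w, h⟩, hf w⟩, hne⟩
  obtain ⟨i, hi⟩ := A.cover (ψ c)
  have hcc : ContinuousAt (fun w => A.c i (ψ w)) c :=
    ContinuousAt.comp (g := A.c i) ((A.c i).continuousAt hi) hc.continuousAt
  have hs : ∀ᶠ w in 𝓝[≠] c, ψ w ∈ (A.c i).source :=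
    (hc.continuousAt.eventually ((A.c i).open_source.mem_nhds hi)).filter_mono
      nhdsWithin_le_nhds
  have hdiff : ∀ᶠ w in 𝓝[≠] c, DifferentiableAt ℂ (fun w => A.c i (ψ w)) w := by
    filter_upwards [hev, hs] with w hw hws
    obtain ⟨j, hj, d, -, hd⟩ := reg w hw
    exact (diff_chart hc.continuousAt hj hws hd).differentiableAt
  have ha := Complex.analyticAt_of_differentiable_on_punctured_nhds_of_continuousAt hdiff hcc
  refine ⟨i, hi, _, ?_, ha.differentiableAt.hasDerivAt⟩
  intro h0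
  have h1 := ((Q.hf (ψ c) (hp c)).all hi).differentiableAt.hasDerivAt
  have h2 := HasDerivAt.comp (h₂ := fun z => f ((A.c i).symm z)) c h1
    ha.differentiableAt.hasDerivAt
  rw [h0, mul_zero] at h2
  have h3 : ((fun z => f ((A.c i).symm z)) ∘ fun w => A.c i (ψ w)) =ᶠ[𝓝 c] id := by
    filter_upwards [hc.continuousAt.eventually ((A.c i).open_source.mem_nhds hi)] with w hw
    show f ((A.c i).symm (A.c i (ψ w))) = w
    rw [(A.c i).left_inv hw, hf]
  have h4 := (h2.congr_of_eventuallyEq h3.symm).unique (hasDerivAt_id c)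
  exact zero_ne_one h4

include Q in
/-- **a closed Riemann surface with a meromorphic function with one simple pole is the sphere** -/
theorem isSph : A.IsSph := by
  classical
  obtain ⟨ψ, hc, hp, hf, he⟩ := Q.exists_psi
  have hloc := Q.loc_psi hc hp hf
  set χ : ℂ → N := fun w => if w = 0 then p0 else ψ w⁻¹ with hχ
  have hχ0 : χ 0 = p0 := if_pos rfl
  have hχ1 : ∀ w, w ≠ 0 → χ w = ψ w⁻¹ := fun w hw => if_neg hw
  -- near zero
  have h0t : (0 : ℂ) ∈ Q.E.target := by rw [← Q.zero]; exact Q.E.map_source Q.memE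
  have hsz : Q.E.symm 0 = A.c Q.i p0 := by rw [← Q.zero, Q.E.left_inv Q.memE]
  have hnear : ∀ w ∈ Q.E.target, χ w = (A.c Q.i).symm (Q.E.symm w) := by
    intro w hw
    by_cases hw0 : w = 0
    · rw [hw0, hχ0, hsz, (A.c Q.i).left_inv Q.mem]
    · rw [hχ1 w hw0]
      have hz := Q.E.map_target hw
      have hEz : Q.E (Q.E.symm w) = w := Q.E.right_inv hw
      have hz0 : Q.E.symm w ≠ A.c Q.i p0 := by
        intro h
        rw [h, Q.zero] at hEz
        exact hw0 hEz.symm
      have h1 := Q.eq _ hz hz0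
      rw [hEz] at h1
      rw [← h1]
      refine he _ fun h => hz0 ?_
      have h5 := congrArg (A.c Q.i) h
      rwa [(A.c Q.i).right_inv (Q.sub hz)] at h5
  have hcχ : Continuous χ := by
    refine continuous_iff_continuousAt.2 fun w => ?_
    by_cases hw : w = 0
    · subst hw
      have h1 : ContinuousAt (fun w => (A.c Q.i).symm (Q.E.symm w)) 0 := by
        refine ContinuousAt.comp (g := (A.c Q.i).symm) ?_ (Q.E.symm.continuousAt h0t)
        exact (A.c Q.i).symm.continuousAt (Q.sub (Q.E.map_target h0t))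
      refine h1.congr ?_
      filter_upwards [Q.E.open_target.mem_nhds h0t] with w hw
      exact (hnear w hw).symm
    · have h1 : ContinuousAt (fun w => ψ w⁻¹) w :=
        ContinuousAt.comp (g := ψ) hc.continuousAt (continuousAt_inv₀ hw)
      refine h1.congr ?_
      filter_upwards [isOpen_ne.mem_nhds hw] with w' hw'
      exact (hχ1 w' hw').symm
  have hlχ : ∀ w, A.Loc χ w := by
    intro w
    by_cases hw : w = 0
    · subst hw
      refine ⟨Q.i, by rw [hχ0]; exact Q.mem, ?_⟩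
      obtain ⟨d, hd, hd'⟩ := Q.der _ Q.memE
      refine ⟨d⁻¹, inv_ne_zero hd, ?_⟩
      have h1 : HasDerivAt Q.E.symm d⁻¹ 0 := by
        refine Q.E.hasDerivAt_symm h0t hd ?_
        rw [hsz]
        exact hd'
      refine h1.congr_of_eventuallyEq ?_
      filter_upwards [Q.E.open_target.mem_nhds h0t] with w hw
      rw [hnear w hw, (A.c Q.i).right_inv (Q.sub (Q.E.map_target hw))]
    · obtain ⟨i, hi, d, hd, hd'⟩ := hloc w⁻¹
      refine ⟨i, by rw [hχ1 w hw]; exact hi, d * (-(w ^ 2)⁻¹), ?_, ?_⟩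
      · exact mul_ne_zero hd (neg_ne_zero.2 (inv_ne_zero (pow_ne_zero 2 hw)))
      · have h1 := HasDerivAt.comp (h₂ := fun w => A.c i (ψ w)) w hd' (hasDerivAt_inv hw)
        refine h1.congr_of_eventuallyEq ?_
        filter_upwards [isOpen_ne.mem_nhds hw] with w' hw'
        show A.c i (χ w') = A.c i (ψ w'⁻¹)
        rw [hχ1 w' hw']
  have hinjψ : Injective ψ := fun a b h => by rw [← hf a, ← hf b, h]
  refine ⟨ψ, χ, hol_of_loc hc hloc, hol_of_loc hcχ hlχ, imm_of_loc hc hloc, imm_of_loc hcχ hlχ,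
    hinjψ, ?_, ?_, ?_, ?_⟩
  · intro a b hab
    by_cases ha : a = 0
    · by_cases hb : b = 0
      · rw [ha, hb]
      · rw [ha, hχ0, hχ1 b hb] at hab
        exact absurd hab.symm (hp _)
    · by_cases hb : b = 0
      · rw [hb, hχ0, hχ1 a ha] at hab
        exact absurd hab (hp _)
      · rw [hχ1 a ha, hχ1 b hb] at hab
        exact inv_injective (hinjψ hab)
  · intro z hz
    rw [hχ1 _ (inv_ne_zero hz), inv_inv]
  · rw [hχ0]
    rintro ⟨c, hc⟩
    exact hp c hc
  · intro x
    by_cases hx : x = p0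
    · right; rw [hχ0, hx]
    · left; exact ⟨f x, he x hx⟩

end OnePole

end CAtl

end

end Crest.Agent.R235.RS
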