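import Crest.Agent.R235.RSDb_538
import Crest.Agent.R235.RSSph2_538

/-!
Row 235, package RS (helper538): if every holomorphic one-form vanishes, every `(0,1)`-form
supported in a chart is `∂̄` of a function (from `POISSON`).
-/

set_option autoImplicit false

open Set Filter Topology Function Metric MeasureTheory

universe u v

namespace Crest.Agent.R235.RS

noncomputable section

open Complex (I)

theorem integral_fderiv_zero {g : ℂ → ℂ} (hg : ContDiff ℝ 1 g)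
    (hc : HasCompactSupport g) (v : ℂ) : ∫ x, fderiv ℝ g x v = 0 := by
  have hcont : Continuous fun x => fderiv ℝ g x v :=
    (hg.continuous_fderiv one_ne_zero).clm_apply continuous_const
  have hcs : HasCompactSupport fun x => fderiv ℝ g x v := hc.fderiv_apply ℝ v
  have h := integral_smul_fderiv_eq_neg_fderiv_smul_of_integrable (μ := volume) (𝕜 := ℝ)
    (f := fun _ : ℂ => (1 : ℝ))
    (g := g) (v := v) (by simp) (by simpa using hcont.integrable_of_hasCompactSupport hcs)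
    (by simpa using hg.continuous.integrable_of_hasCompactSupport hc)
    (fun x _ => differentiableAt_const _)
    (fun x _ => (hg.differentiable one_ne_zero).differentiableAt)
  simpa using h

/-- `db` of a smooth function is smooth -/
theorem contDiff_db {F : ℂ → ℂ} (hF : ContDiff ℝ (⊤ : ℕ∞) F) : ContDiff ℝ (⊤ : ℕ∞) (db F) := by
  have h1 : ContDiff ℝ (⊤ : ℕ∞) (fderiv ℝ F) := hF.fderiv_right (by simp)
  unfold db
  exact ((h1.clm_apply contDiff_const).add
    (contDiff_const.mul (h1.clm_apply contDiff_const))).div_const 2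

theorem contDiff_dz {F : ℂ → ℂ} (hF : ContDiff ℝ (⊤ : ℕ∞) F) : ContDiff ℝ (⊤ : ℕ∞) (dz F) := by
  have h1 : ContDiff ℝ (⊤ : ℕ∞) (fderiv ℝ F) := hF.fderiv_right (by simp)
  unfold dz
  exact ((h1.clm_apply contDiff_const).sub
    (contDiff_const.mul (h1.clm_apply contDiff_const))).div_const 2

theorem tsupport_dz {F : ℂ → ℂ} : tsupport (dz F) ⊆ tsupport F := by
  refine closure_minimal (fun z hz => ?_) (isClosed_tsupport F)
  by_contra h
  apply hz
  have h1 : F =ᶠ[𝓝 z] fun _ => (0 : ℂ) := by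
    filter_upwards [(isClosed_tsupport F).isOpen_compl.mem_nhds h] with w hw
    exact image_eq_zero_of_notMem_tsupport hw
  show dz F z = 0
  rw [dz_congr h1]
  simp [dz]

theorem integral_dz {g : ℂ → ℂ} (hg : ContDiff ℝ (⊤ : ℕ∞) g) (hc : HasCompactSupport g) :
    ∫ x, dz g x = 0 := by
  have hg1 : ContDiff ℝ 1 g := hg.of_le (by exact_mod_cast le_top)
  have hcont : ∀ v : ℂ, Continuous fun x => fderiv ℝ g x v := fun v =>
    (hg1.continuous_fderiv one_ne_zero).clm_apply continuous_const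
  have hint : ∀ v : ℂ, Integrable fun x => fderiv ℝ g x v := fun v =>
    (hcont v).integrable_of_hasCompactSupport (hc.fderiv_apply ℝ v)
  have h1 : ∫ x, dz g x = (∫ x, (fderiv ℝ g x 1 - I * fderiv ℝ g x I)) / 2 := by
    unfold dz
    exact integral_div 2 _
  rw [h1, integral_sub (hint 1) ((hint I).const_mul I), integral_const_mul,
    integral_fderiv_zero hg1 hc, integral_fderiv_zero hg1 hc]
  simp

/-- the complex Laplacian from the real one -/
theorem lapX_cx {u₁ u₂ : ℂ → ℝ} {z : ℂ} (h₁ : ContDiffAt ℝ 2 u₁ z) (h₂ : ContDiffAt ℝ 2 u₂ z) :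
    lapX (fun w => (u₁ w : ℂ) + u₂ w * I) z = CAtl.lap u₁ z + CAtl.lap u₂ z * I := by
  set L1 : ℝ →L[ℝ] ℂ := Complex.ofRealCLM with hL1
  set L2 : ℝ →L[ℝ] ℂ := Complex.ofRealCLM.smulRight I with hL2
  have e : (fun w => (u₁ w : ℂ) + u₂ w * I) = (L1 ∘ u₁) + (L2 ∘ u₂) := by
    funext w
    simp [hL1, hL2]
  unfold lapX CAtl.lap
  rw [e, iteratedFDeriv_add_apply (L1.contDiff.contDiffAt.comp z h₁) (L2.contDiff.contDiffAt.comp z h₂),
    L1.iteratedFDeriv_comp_left h₁ le_rfl, L2.iteratedFDeriv_comp_left h₂ le_rfl]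
  simp [hL1, hL2]
  ring

namespace CAtl

variable {N : Type u} [TopologicalSpace N] {A : CAtl.{u, v} N}

/-- a complex valued function in the chart `j` -/
def UU (A : CAtl.{u, v} N) (u₁ u₂ : N → ℝ) (j : A.ι) (z : ℂ) : ℂ :=
  (u₁ ((A.c j).symm z) : ℂ) + u₂ ((A.c j).symm z) * I

theorem UU_smooth {u₁ u₂ : N → ℝ} (h₁ : A.Smooth u₁) (h₂ : A.Smooth u₂) {j : A.ι} {z : ℂ}
    (hz : z ∈ (A.c j).target) : ContDiffAt ℝ (⊤ : ℕ∞) (A.UU u₁ u₂ j) z := by
  have e1 := (h₁ j).contDiffAt ((A.c j).open_target.mem_nhds hz)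
  have e2 := (h₂ j).contDiffAt ((A.c j).open_target.mem_nhds hz)
  exact (Complex.ofRealCLM.contDiff.contDiffAt.comp z e1).add
    ((Complex.ofRealCLM.contDiff.contDiffAt.comp z e2).mul contDiffAt_const)

theorem UU_lap {u₁ u₂ : N → ℝ} (h₁ : A.Smooth u₁) (h₂ : A.Smooth u₂) {j : A.ι} {x : N}
    (hx : x ∈ (A.c j).source) : lapX (A.UU u₁ u₂ j) (A.c j x) =
      A.lapC u₁ j x + A.lapC u₂ j x * I := by
  have hz := (A.c j).map_source hx
  have e1 := ((h₁ j).contDiffAt ((A.c j).open_target.mem_nhds hz)).of_le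
    (show (2 : WithTop ℕ∞) ≤ ((⊤ : ℕ∞) : WithTop ℕ∞) from ENat.LEInfty.out)
  have e2 := ((h₂ j).contDiffAt ((A.c j).open_target.mem_nhds hz)).of_le
    (show (2 : WithTop ℕ∞) ≤ ((⊤ : ℕ∞) : WithTop ℕ∞) from ENat.LEInfty.out)
  exact lapX_cx e1 e2

theorem UU_diff {u₁ u₂ : N → ℝ} (h₁ : A.Smooth u₁) (h₂ : A.Smooth u₂) {j : A.ι} {z : ℂ}
    (hz : z ∈ (A.c j).target) : DifferentiableAt ℝ (A.UU u₁ u₂ j) z :=
  (UU_smooth h₁ h₂ hz).differentiableAt (by simp)

theorem UU_tr (u₁ u₂ : N → ℝ) {i j : A.ι} {z : ℂ}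
    (hz : z ∈ A.dom i j) : A.UU u₁ u₂ i =ᶠ[𝓝 z] fun w => A.UU u₁ u₂ j (A.tr i j w) := by
  filter_upwards [(A.isOpen_dom i j).mem_nhds hz] with w hw
  unfold UU
  rw [A.symm_tr hw]

theorem UU_db {u₁ u₂ : N → ℝ} (h₁ : A.Smooth u₁) (h₂ : A.Smooth u₂) {i j : A.ι} {z : ℂ}
    (hz : z ∈ A.dom i j) : db (A.UU u₁ u₂ i) z =
      db (A.UU u₁ u₂ j) (A.tr i j z) * (starRingEnd ℂ) (deriv (A.tr i j) z) := by
  rw [db_congr (UU_tr u₁ u₂ hz)]
  exact db_comp (UU_diff h₁ h₂ (A.tr_mem hz).1) (A.tr_diffAt hz)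

open Classical in
/-- the coefficient in the chart `j` of the `(0,1)`-form `g dz̄` of the chart `i` -/
def gf (A : CAtl.{u, v} N) (i : A.ι) (g : ℂ → ℂ) (j : A.ι) (z : ℂ) : ℂ :=
  if z ∈ A.dom j i then g (A.tr j i z) * (starRingEnd ℂ) (deriv (A.tr j i) z) else 0

theorem gf_self {i : A.ι} {g : ℂ → ℂ} {z : ℂ} (hz : z ∈ (A.c i).target) : A.gf i g i z = g z := by
  have h1 : z ∈ A.dom i i := ⟨hz, (A.c i).map_target hz⟩
  have h2 : A.tr i i =ᶠ[𝓝 z] id := by
    filter_upwards [(A.c i).open_target.mem_nhds hz] with w hw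
    exact A.tr_self hw
  unfold gf
  rw [if_pos h1, h2.deriv_eq, A.tr_self hz]
  simp

theorem dom_comp {i j k : A.ι} {z : ℂ} (hz : z ∈ A.dom i j) :
    A.tr i j z ∈ A.dom j k ↔ z ∈ A.dom i k := by
  constructor
  · intro h
    refine ⟨hz.1, ?_⟩
    have := h.2
    rwa [A.symm_tr hz] at this
  · intro h
    refine ⟨(A.tr_mem hz).1, ?_⟩
    rw [A.symm_tr hz]
    exact h.2

theorem deriv_tr_comp {i j k : A.ι} {z : ℂ} (hz : z ∈ A.dom i j) (hk : z ∈ A.dom i k) :
    deriv (A.tr i k) z = deriv (A.tr j k) (A.tr i j z) * deriv (A.tr i j) z := by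
  have h1 := (A.tr_diffAt ((dom_comp hz).2 hk)).hasDerivAt
  have h2 := (A.tr_diffAt hz).hasDerivAt
  have h3 := HasDerivAt.comp (h₂ := A.tr j k) z h1 h2
  have h4 : A.tr i k =ᶠ[𝓝 z] (A.tr j k ∘ A.tr i j) := by
    filter_upwards [(A.isOpen_dom i j).mem_nhds hz] with w hw
    exact (A.tr_tr hw).symm
  rw [h4.deriv_eq]
  exact h3.deriv

theorem gf_tr {k : A.ι} {g : ℂ → ℂ} {i j : A.ι} {z : ℂ} (hz : z ∈ A.dom i j) :
    A.gf k g i z = A.gf k g j (A.tr i j z) * (starRingEnd ℂ) (deriv (A.tr i j) z) := by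
  unfold gf
  by_cases h : z ∈ A.dom i k
  · rw [if_pos h, if_pos ((dom_comp hz).2 h), A.tr_tr hz, deriv_tr_comp hz h, map_mul]
    ring
  · rw [if_neg h, if_neg (fun h' => h ((dom_comp hz).1 h')), zero_mul]

theorem gf_zero [T2Space N] {k : A.ι} {g : ℂ → ℂ} (hc : HasCompactSupport g)
    (hs : tsupport g ⊆ (A.c k).target) {i : A.ι} {z : ℂ} (hz : z ∈ (A.c i).target)
    (hzk : z ∉ A.dom i k) : ∀ᶠ w in 𝓝 z, A.gf k g i w = 0 := by
  have hK : IsCompact ((A.c k).symm '' (tsupport g)) :=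
    IsCompact.image_of_continuousOn hc ((A.c k).continuousOn_symm.mono hs)
  have hx : (A.c i).symm z ∉ (A.c k).symm '' (tsupport g) := by
    rintro ⟨w, hw, hw'⟩
    apply hzk
    refine ⟨hz, ?_⟩
    rw [← hw']
    exact (A.c k).map_target (hs hw)
  have hc : ContinuousAt (A.c i).symm z := (A.c i).symm.continuousAt hz
  filter_upwards [hc.eventually (hK.isClosed.isOpen_compl.mem_nhds hx)] with w hw
  unfold gf
  split_ifs with h
  · rw [image_eq_zero_of_notMem_tsupport (f := g), zero_mul]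
    intro h1
    apply hw
    refine ⟨_, h1, ?_⟩
    exact A.symm_tr h
  · rfl

/-- the coefficient of the one-form `conj (∂̄u - g dz̄)` -/
def hf (A : CAtl.{u, v} N) (u₁ u₂ : N → ℝ) (k : A.ι) (g : ℂ → ℂ) (j : A.ι) (z : ℂ) : ℂ :=
  (starRingEnd ℂ) (db (A.UU u₁ u₂ j) z - A.gf k g j z)

theorem hf_tr {u₁ u₂ : N → ℝ} (h₁ : A.Smooth u₁) (h₂ : A.Smooth u₂) {k : A.ι} {g : ℂ → ℂ}
    {i j : A.ι} {z : ℂ} (hz : z ∈ A.dom i j) :
    A.hf u₁ u₂ k g i z = A.hf u₁ u₂ k g j (A.tr i j z) * deriv (A.tr i j) z := by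
  unfold hf
  rw [UU_db h₁ h₂ hz, gf_tr hz, ← sub_mul, map_mul, Complex.conj_conj]

/-- the form is holomorphic in the chart `k` -/
theorem hf_self {u₁ u₂ : N → ℝ} (h₁ : A.Smooth u₁) (h₂ : A.Smooth u₂) {k : A.ι} {g : ℂ → ℂ}
    (hg : ContDiff ℝ (⊤ : ℕ∞) g)
    (hl : ∀ x ∈ (A.c k).source, (A.lapC u₁ k x : ℂ) + A.lapC u₂ k x * I = 4 * dz g (A.c k x))
    {z : ℂ} (hz : z ∈ (A.c k).target) : DifferentiableAt ℂ (A.hf u₁ u₂ k g k) z := by
  have hU := UU_smooth h₁ h₂ hz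
  have hU2 : ContDiffAt ℝ 2 (A.UU u₁ u₂ k) z := hU.of_le ENat.LEInfty.out
  have hd1 := (fderiv_db hU2).differentiableAt
  have hd2 : DifferentiableAt ℝ g z := (hg.differentiable (by simp)).differentiableAt
  have h3 : DifferentiableAt ℂ
      (fun w => (starRingEnd ℂ) ((fun w => db (A.UU u₁ u₂ k) w - g w) w)) z := by
    refine diff_conj (hd1.sub hd2) ?_
    rw [dz_sub hd1 hd2]
    have h4 : dz (fun w => db (A.UU u₁ u₂ k) w) z = lapX (A.UU u₁ u₂ k) z / 4 := dz_db hU2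
    rw [h4]
    have h5 := UU_lap h₁ h₂ ((A.c k).map_target hz)
    rw [(A.c k).right_inv hz] at h5
    have h6 := hl _ ((A.c k).map_target hz)
    rw [(A.c k).right_inv hz] at h6
    rw [h5, h6]
    ring
  refine h3.congr_of_eventuallyEq ?_
  filter_upwards [(A.c k).open_target.mem_nhds hz] with w hw
  show (starRingEnd ℂ) (db (A.UU u₁ u₂ k) w - A.gf k g k w) = _
  rw [gf_self hw]

theorem hf_diff [T2Space N] {u₁ u₂ : N → ℝ} (h₁ : A.Smooth u₁) (h₂ : A.Smooth u₂) {k : A.ι}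
    {g : ℂ → ℂ} (hg : ContDiff ℝ (⊤ : ℕ∞) g) (hc : HasCompactSupport g)
    (hs : tsupport g ⊆ (A.c k).target)
    (hl : ∀ x ∈ (A.c k).source, (A.lapC u₁ k x : ℂ) + A.lapC u₂ k x * I = 4 * dz g (A.c k x))
    (hl1 : ∀ j, ∀ x ∈ (A.c j).source, x ∉ (A.c k).source → A.lapC u₁ j x = 0)
    (hl2 : ∀ j, ∀ x ∈ (A.c j).source, x ∉ (A.c k).source → A.lapC u₂ j x = 0)
    (j : A.ι) {z : ℂ} (hz : z ∈ (A.c j).target) : DifferentiableAt ℂ (A.hf u₁ u₂ k g j) z := by
  by_cases hzk : z ∈ A.dom j k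
  · have h3 := hf_self h₁ h₂ hg hl (A.tr_mem hzk).1
    have h4 : DifferentiableAt ℂ
        (fun w => A.hf u₁ u₂ k g k (A.tr j k w) * deriv (A.tr j k) w) z := by
      refine DifferentiableAt.mul ?_ (A.tr_analyticAt hzk).deriv.differentiableAt
      exact DifferentiableAt.comp (g := A.hf u₁ u₂ k g k) z h3 (A.tr_diffAt hzk)
    refine h4.congr_of_eventuallyEq ?_
    filter_upwards [(A.isOpen_dom j k).mem_nhds hzk] with w hw
    exact hf_tr h₁ h₂ hw
  · have hU := UU_smooth h₁ h₂ hz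
    have hU2 : ContDiffAt ℝ 2 (A.UU u₁ u₂ j) z := hU.of_le ENat.LEInfty.out
    have hd1 := (fderiv_db hU2).differentiableAt
    have hx : (A.c j).symm z ∉ (A.c k).source := fun h => hzk ⟨hz, h⟩
    have h3 : DifferentiableAt ℂ (fun w => (starRingEnd ℂ) (db (A.UU u₁ u₂ j) w)) z := by
      refine diff_conj hd1 ?_
      rw [dz_db hU2]
      have h5 := UU_lap h₁ h₂ ((A.c j).map_target hz)
      rw [(A.c j).right_inv hz, hl1 j _ ((A.c j).map_target hz) hx,
        hl2 j _ ((A.c j).map_target hz) hx] at h5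
      rw [h5]
      simp
    refine h3.congr_of_eventuallyEq ?_
    filter_upwards [gf_zero hc hs hz hzk] with w hw
    show (starRingEnd ℂ) (db (A.UU u₁ u₂ j) w - A.gf k g j w) = _
    rw [hw, sub_zero]

/-- **solution of the `∂̄` equation** -/
theorem exists_db [T2Space N] (hP : A.POISSON) (h0 : ∀ ω : A.HForm, ω.IsZero) (k : A.ι)
    {g : ℂ → ℂ} (hg : ContDiff ℝ (⊤ : ℕ∞) g) (hc : HasCompactSupport g)
    (hs : tsupport g ⊆ (A.c k).target) :
    ∃ u₁ u₂ : N → ℝ, A.Smooth u₁ ∧ A.Smooth u₂ ∧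
      ∀ j, ∀ z ∈ (A.c j).target, db (A.UU u₁ u₂ j) z = A.gf k g j z := by
  have hρ : ContDiff ℝ (⊤ : ℕ∞) (fun z => 4 * dz g z) := contDiff_const.mul (contDiff_dz hg)
  have hρs : tsupport (fun z => 4 * dz g z) ⊆ tsupport g := by
    refine (closure_mono ?_).trans tsupport_dz
    intro z hz h
    apply hz
    show 4 * dz g z = 0
    rw [h, mul_zero]
  have hρc : HasCompactSupport fun z => 4 * dz g z :=
    IsCompact.of_isClosed_subset hc (isClosed_tsupport _) hρs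
  have hint : ∫ z, 4 * dz g z = 0 := by
    rw [integral_const_mul, integral_dz hg hc, mul_zero]
  have hi : Integrable (fun z => 4 * dz g z) := hρ.continuous.integrable_of_hasCompactSupport hρc
  have hre : ∫ z, (4 * dz g z).re = 0 := by
    have h1 := Complex.reCLM.integral_comp_comm hi
    rw [hint, map_zero] at h1
    exact h1
  have him : ∫ z, (4 * dz g z).im = 0 := by
    have h1 := Complex.imCLM.integral_comp_comm hi
    rw [hint, map_zero] at h1
    exact h1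
  have s1 : tsupport (fun z => (4 * dz g z).re) ⊆ tsupport fun z => 4 * dz g z := by
    refine closure_mono fun z hz h => hz ?_
    show (4 * dz g z).re = 0
    have h' : 4 * dz g z = 0 := h
    rw [h', Complex.zero_re]
  have s2 : tsupport (fun z => (4 * dz g z).im) ⊆ tsupport fun z => 4 * dz g z := by
    refine closure_mono fun z hz h => hz ?_
    show (4 * dz g z).im = 0
    have h' : 4 * dz g z = 0 := h
    rw [h', Complex.zero_im]
  obtain ⟨u₁, h₁, hu1, hu1'⟩ := hP k (fun z => (4 * dz g z).re)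
    (Complex.reCLM.contDiff.comp hρ) (IsCompact.of_isClosed_subset hρc (isClosed_tsupport _) s1)
    ((s1.trans hρs).trans hs) hre
  obtain ⟨u₂, h₂, hu2, hu2'⟩ := hP k (fun z => (4 * dz g z).im)
    (Complex.imCLM.contDiff.comp hρ) (IsCompact.of_isClosed_subset hρc (isClosed_tsupport _) s2)
    ((s2.trans hρs).trans hs) him
  refine ⟨u₁, u₂, h₁, h₂, ?_⟩
  have hl : ∀ x ∈ (A.c k).source, (A.lapC u₁ k x : ℂ) + A.lapC u₂ k x * I =
      4 * dz g (A.c k x) := by
    intro x hx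
    rw [hu1 x hx, hu2 x hx]
    exact Complex.re_add_im _
  intro j z hz
  have h3 := h0 ⟨A.hf u₁ u₂ k g, fun i w hw =>
    (hf_diff h₁ h₂ hg hc hs hl hu1' hu2' i hw).differentiableWithinAt,
    fun i j w hw => hf_tr h₁ h₂ hw⟩ j z hz
  have h4 : (starRingEnd ℂ) (db (A.UU u₁ u₂ j) z - A.gf k g j z) = 0 := h3
  rw [map_eq_zero, sub_eq_zero] at h4
  exact h4

end CAtl

end

end Crest.Agent.R235.RS
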