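import Crest.Agent.R235.RSMer1_538

/-!
Row 235, package RS (helper538): if every holomorphic one-form vanishes there is a meromorphic
function with one simple pole; the trichotomy (from `POISSON`).
-/

set_option autoImplicit false

open Set Filter Topology Function Metric MeasureTheory

universe u v

namespace Crest.Agent.R235.RS

noncomputable section

open Complex (I)

/-- `∂̄ (F G)` for holomorphic `G` -/
theorem db_mul_hol {F G : ℂ → ℂ} {z : ℂ} (hF : DifferentiableAt ℝ F z)
    (hG : DifferentiableAt ℂ G z) : db (fun w => F w * G w) z = db F z * G z := by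
  have h1 := hF.hasFDerivAt.mul (hG.restrictScalars ℝ).hasFDerivAt
  have h2 : ∀ v, fderiv ℝ (fun w => F w * G w) z v = F z * (v * deriv G z) +
      G z * fderiv ℝ F z v := by
    intro v
    have h3 : fderiv ℝ (fun w => F w * G w) z = F z • fderiv ℝ G z + G z • fderiv ℝ F z :=
      h1.fderiv
    rw [h3, add_apply, smul_apply, smul_apply, smul_eq_mul, smul_eq_mul, fderiv_hol hG]
  unfold db
  rw [h2, h2]
  linear_combination (F z * deriv G z / 2) * Complex.I_mul_I

theorem db_hol {G : ℂ → ℂ} {z : ℂ} (hG : DifferentiableAt ℂ G z) : db G z = 0 :=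
  (db_eq_zero_iff (hG.restrictScalars ℝ)).2 hG

/-- functions with `∂̄ = 0` near a point are analytic -/
theorem analyticAt_of_db {F : ℂ → ℂ} {z : ℂ} (h : ∀ᶠ w in 𝓝 z, DifferentiableAt ℝ F w)
    (h0 : ∀ᶠ w in 𝓝 z, db F w = 0) : AnalyticAt ℂ F z := by
  have h1 : ∀ᶠ w in 𝓝 z, DifferentiableAt ℂ F w := by
    filter_upwards [h, h0] with w hw hw0
    exact (db_eq_zero_iff hw).1 hw0
  exact Complex.analyticAt_iff_eventually_differentiableAt.2 h1

namespace CAtl

variable {N : Type u} [TopologicalSpace N] {A : CAtl.{u, v} N}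

/-- construction of the one-pole structure -/
theorem exists_onePole {f : N → ℂ} {p0 : N} (hf : ∀ x, x ≠ p0 → A.HAt f x) {i : A.ι}
    (hi : p0 ∈ (A.c i).source) {G : ℂ → ℂ} (hG : AnalyticAt ℂ G (A.c i p0))
    (hfG : ∀ᶠ z in 𝓝 (A.c i p0), z ≠ A.c i p0 →
      f ((A.c i).symm z) = (z - A.c i p0)⁻¹ + G z) : Nonempty (OnePole A f p0) := by
  set z0 := A.c i p0 with hz0
  have hnz : ∀ᶠ z in 𝓝 z0, 1 + (z - z0) * G z ≠ 0 := by
    have h1 : ContinuousAt (fun z => 1 + (z - z0) * G z) z0 :=
      continuousAt_const.add ((continuousAt_id.sub continuousAt_const).mul hG.continuousAt)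
    refine h1.eventually_ne ?_
    simp
  have hall : ∀ᶠ z in 𝓝 z0, z ∈ (A.c i).target ∧ AnalyticAt ℂ G z ∧ 1 + (z - z0) * G z ≠ 0 ∧
      (z ≠ z0 → f ((A.c i).symm z) = (z - z0)⁻¹ + G z) := by
    filter_upwards [(A.c i).open_target.mem_nhds ((A.c i).map_source hi),
      hG.eventually_analyticAt, hnz, hfG] with z h1 h2 h3 h4
    exact ⟨h1, h2, h3, h4⟩
  obtain ⟨U, hU1, hU2, hU3⟩ := _root_.mem_nhds_iff.1 hall
  have hWd : ∀ z ∈ U, HasDerivAt (fun z => (z - z0) * (1 + (z - z0) * G z)⁻¹)
      (1 * (1 + (z - z0) * G z)⁻¹ + (z - z0) *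
        (-(1 * G z + (z - z0) * deriv G z) / (1 + (z - z0) * G z) ^ 2)) z := by
    intro z hz
    obtain ⟨-, h2, h3, -⟩ := hU1 hz
    have e1 : HasDerivAt (fun z => z - z0) 1 z := (hasDerivAt_id z).sub_const z0
    have e2 := (e1.mul h2.differentiableAt.hasDerivAt).const_add 1
    exact e1.mul (e2.fun_inv h3)
  have hW0 : deriv (fun z => (z - z0) * (1 + (z - z0) * G z)⁻¹) z0 ≠ 0 := by
    rw [(hWd z0 hU3).deriv]
    simp
  obtain ⟨E, hE0, hE1, hE2, hE3⟩ := hol_chart hU2
    (fun z hz => (hWd z hz).differentiableAt.differentiableWithinAt) hU3 hW0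
  refine ⟨⟨i, E, hf, hi, hE0, fun z hz => (hU1 (hE1 hz)).1, ?_, hE3, ?_⟩⟩
  · rw [hE2 _ hE0]
    simp
  · intro z hz hne
    obtain ⟨-, -, h3, h4⟩ := hU1 (hE1 hz)
    rw [h4 hne, hE2 z hz, mul_inv, inv_inv, mul_add, mul_one, ← mul_assoc,
      inv_mul_cancel₀ (sub_ne_zero.2 hne), one_mul]

/-- **no one-forms ⟹ a meromorphic function with one simple pole** -/
theorem exists_pole [T2Space N] (hP : A.POISSON) (h0 : ∀ ω : A.HForm, ω.IsZero) (p0 : N) :
    ∃ f : N → ℂ, Nonempty (OnePole A f p0) := by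
  classical
  obtain ⟨k, hk⟩ := A.cover p0
  set z0 := A.c k p0 with hz0
  have ht := (A.c k).map_source hk
  obtain ⟨r, hr, hb⟩ := Metric.nhds_basis_closedBall.mem_iff.1 ((A.c k).open_target.mem_nhds ht)
  let χ : ContDiffBump z0 := ⟨r / 2, r, half_pos hr, half_lt_self hr⟩
  set X : ℂ → ℂ := fun z => (χ z : ℂ) with hX
  have hXs : ContDiff ℝ (⊤ : ℕ∞) X := Complex.ofRealCLM.contDiff.comp χ.contDiff
  have hXsupp : tsupport X ⊆ closedBall z0 r := by
    refine (closure_mono ?_).trans χ.tsupport_eq.subset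
    intro z hz h
    apply hz
    show (χ z : ℂ) = 0
    have h' : χ z = 0 := h
    rw [h', Complex.ofReal_zero]
  have hX1 : ∀ z ∈ ball z0 (r / 2), X =ᶠ[𝓝 z] fun _ => (1 : ℂ) := by
    intro z hz
    filter_upwards [isOpen_ball.mem_nhds hz] with w hw
    show (χ w : ℂ) = 1
    rw [χ.one_of_mem_closedBall (ball_subset_closedBall hw), Complex.ofReal_one]
  have hXd : ∀ z, DifferentiableAt ℝ X z := fun z => (hXs.differentiable (by simp)).differentiableAt
  -- the form
  set g : ℂ → ℂ := fun z => db X z * (z - z0)⁻¹ with hg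
  have hg0 : ∀ z ∈ ball z0 (r / 2), g z = 0 := by
    intro z hz
    show db X z * (z - z0)⁻¹ = 0
    rw [db_congr (hX1 z hz)]
    simp [db]
  have hgs : ContDiff ℝ (⊤ : ℕ∞) g := by
    refine contDiff_iff_contDiffAt.2 fun z => ?_
    by_cases hz : z = z0
    · subst hz
      refine (contDiffAt_const (c := (0 : ℂ))).congr_of_eventuallyEq ?_
      filter_upwards [isOpen_ball.mem_nhds (mem_ball_self (half_pos hr))] with w hw
      exact hg0 w hw
    · refine (contDiff_db hXs).contDiffAt.mul ?_
      have h1 : ContDiffAt ℝ (⊤ : ℕ∞) (fun w : ℂ => w - z0) z :=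
        contDiffAt_id.sub contDiffAt_const
      exact h1.inv (sub_ne_zero.2 hz)
  have hgsupp : tsupport g ⊆ closedBall z0 r := by
    refine Subset.trans ?_ hXsupp
    refine closure_minimal (fun z hz => ?_) (isClosed_tsupport X)
    by_contra h
    apply hz
    have h1 : X =ᶠ[𝓝 z] fun _ => (0 : ℂ) := by
      filter_upwards [(isClosed_tsupport X).isOpen_compl.mem_nhds h] with w hw
      exact image_eq_zero_of_notMem_tsupport hw
    show db X z * (z - z0)⁻¹ = 0
    rw [db_congr h1]
    simp [db]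
  have hgc : HasCompactSupport g :=
    IsCompact.of_isClosed_subset (isCompact_closedBall z0 r) (isClosed_tsupport _) hgsupp
  obtain ⟨u₁, u₂, h₁, h₂, hdb⟩ := exists_db hP h0 k hgs hgc (hgsupp.trans hb)
  set kk : ℂ → ℂ := fun z => X z * (z - z0)⁻¹ with hkk
  set f : N → ℂ := fun x => if x ∈ (A.c k).source then
    kk (A.c k x) - A.UU u₁ u₂ k (A.c k x) else -((u₁ x : ℂ) + u₂ x * I) with hf
  have hfk : ∀ w ∈ (A.c k).target, f ((A.c k).symm w) = kk w - A.UU u₁ u₂ k w := by
    intro w hw
    show (if _ then _ else _) = _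
    rw [if_pos ((A.c k).map_target hw), (A.c k).right_inv hw]
  refine ⟨f, exists_onePole ?_ hk (G := fun w => -A.UU u₁ u₂ k w) ?_ ?_⟩
  · -- holomorphic outside the pole
    intro x hx
    by_cases hxk : x ∈ (A.c k).source
    · refine ⟨k, hxk, ?_⟩
      have hne : A.c k x ≠ z0 := fun h => hx ((A.c k).injOn hxk hk h)
      have hxt := (A.c k).map_source hxk
      have h1 : AnalyticAt ℂ (fun w => kk w - A.UU u₁ u₂ k w) (A.c k x) := by
        have hkd : ∀ w, w ≠ z0 → DifferentiableAt ℝ kk w := by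
          intro w hw
          exact (hXd w).mul (((differentiableAt_id.sub_const z0).inv
            (sub_ne_zero.2 hw)).restrictScalars ℝ (𝕜' := ℂ))
        refine analyticAt_of_db ?_ ?_
        · filter_upwards [(A.c k).open_target.mem_nhds hxt, isOpen_ne.mem_nhds hne] with w hw hw'
          exact (hkd w hw').sub (UU_diff h₁ h₂ hw)
        · filter_upwards [(A.c k).open_target.mem_nhds hxt, isOpen_ne.mem_nhds hne] with w hw hw'
          have e1 : db kk w = db X w * (w - z0)⁻¹ :=
            db_mul_hol (G := fun w => (w - z0)⁻¹) (hXd w)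
              ((differentiableAt_id.sub_const z0).inv (sub_ne_zero.2 hw'))
          rw [db_sub (hkd w hw') (UU_diff h₁ h₂ hw), hdb k w hw, gf_self hw, e1]
          exact sub_self _
      refine h1.congr ?_
      filter_upwards [(A.c k).open_target.mem_nhds hxt] with w hw
      exact (hfk w hw).symm
    · obtain ⟨j, hj⟩ := A.cover x
      refine ⟨j, hj, ?_⟩
      have hxt := (A.c j).map_source hj
      have hnd : A.c j x ∉ A.dom j k := by
        intro h
        have := h.2
        rw [(A.c j).left_inv hj] at this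
        exact hxk this
      have h1 : AnalyticAt ℂ (fun w => A.UU u₁ u₂ j w) (A.c j x) := by
        refine analyticAt_of_db ?_ ?_
        · filter_upwards [(A.c j).open_target.mem_nhds hxt] with w hw
          exact UU_diff h₁ h₂ hw
        · filter_upwards [(A.c j).open_target.mem_nhds hxt,
            gf_zero hgc (hgsupp.trans hb) hxt hnd] with w hw hw'
          exact (hdb j w hw).trans hw'
      refine h1.neg.congr ?_
      have hK : IsCompact ((A.c k).symm '' closedBall z0 r) :=
        (isCompact_closedBall z0 r).image_of_continuousOn ((A.c k).continuousOn_symm.mono hb)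
      have hxK : (A.c j).symm (A.c j x) ∉ (A.c k).symm '' closedBall z0 r := by
        rw [(A.c j).left_inv hj]
        rintro ⟨w, hw, hw'⟩
        exact hxk (hw' ▸ (A.c k).map_target (hb hw))
      have hcont : ContinuousAt (A.c j).symm (A.c j x) := (A.c j).symm.continuousAt hxt
      filter_upwards [hcont.eventually (hK.isClosed.isOpen_compl.mem_nhds hxK)] with w hw
      show -A.UU u₁ u₂ j w = f ((A.c j).symm w)
      show _ = (if _ then _ else _)
      split_ifs with h
      · have hX0 : X (A.c k ((A.c j).symm w)) = 0 := by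
          refine image_eq_zero_of_notMem_tsupport fun h2 => hw ⟨_, hXsupp h2, ?_⟩
          rw [(A.c k).left_inv h]
        show _ = X (A.c k ((A.c j).symm w)) * _ - _
        rw [hX0, zero_mul, zero_sub]
        unfold UU
        rw [(A.c k).left_inv h]
      · rfl
  · -- the regular part
    have h1 : AnalyticAt ℂ (fun w => A.UU u₁ u₂ k w) z0 := by
      refine analyticAt_of_db ?_ ?_
      · filter_upwards [(A.c k).open_target.mem_nhds ht] with w hw
        exact UU_diff h₁ h₂ hw
      · filter_upwards [(A.c k).open_target.mem_nhds ht,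
          isOpen_ball.mem_nhds (mem_ball_self (half_pos hr))] with w hw hw'
        exact (hdb k w hw).trans ((gf_self hw).trans (hg0 w hw'))
    exact h1.neg
  · filter_upwards [(A.c k).open_target.mem_nhds ht,
      isOpen_ball.mem_nhds (mem_ball_self (half_pos hr))] with w hw hw' hne
    rw [hfk w hw]
    show X w * (w - z0)⁻¹ - _ = _
    rw [(hX1 w hw').self_of_nhds, one_mul, sub_eq_add_neg]

/-! ### zeros of one-forms -/

theorem HForm.mem_Z {ω : A.HForm} {x : N} {i : A.ι} (hi : x ∈ (A.c i).source) :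
    x ∈ ω.Z ↔ ω.h i (A.c i x) = 0 := by
  constructor
  · rintro ⟨j, hj, h⟩
    have h1 := ω.tr i j _ (A.c_mem_dom hi hj)
    rw [A.tr_c hi, h, zero_mul] at h1
    exact h1
  · intro h
    exact ⟨i, hi, h⟩

theorem HForm.analyticAt (ω : A.HForm) {i : A.ι} {z : ℂ} (hz : z ∈ (A.c i).target) :
    AnalyticAt ℂ (ω.h i) z :=
  (ω.hol i).analyticAt ((A.c i).open_target.mem_nhds hz)

/-- a one-form which is not zero has finitely many zeros -/
theorem HForm.finite_Z [T2Space N] [CompactSpace N] [PreconnectedSpace N] {ω : A.HForm}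
    (h0 : ¬ ω.IsZero) : ω.Z.Finite := by
  -- the set of points near which the form vanishes
  set T : Set N := {x | ∀ᶠ y in 𝓝 x, y ∈ ω.Z} with hT
  have hTo : IsOpen T := isOpen_iff_mem_nhds.2 fun x hx => eventually_eventually_nhds.2 hx
  have key : ∀ x, x ∈ T ∨ ∀ᶠ y in 𝓝 x, y ≠ x → y ∉ ω.Z := by
    intro x
    obtain ⟨i, hi⟩ := A.cover x
    have ha := ω.analyticAt ((A.c i).map_source hi)
    have ht : Tendsto (A.c i) (𝓝 x) (𝓝 (A.c i x)) := (A.c i).continuousAt hi
    rcases ha.eventually_eq_zero_or_eventually_ne_zero with h1 | h1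
    · left
      show ∀ᶠ y in 𝓝 x, y ∈ ω.Z
      filter_upwards [ht.eventually h1, (A.c i).open_source.mem_nhds hi] with y hy hs
      exact ⟨i, hs, hy⟩
    · right
      rw [eventually_nhdsWithin_iff] at h1
      filter_upwards [ht.eventually h1, (A.c i).open_source.mem_nhds hi] with y hy hs hne hz
      rw [HForm.mem_Z hs] at hz
      exact hy (fun h4 => hne ((A.c i).injOn hs hi h4)) hz
  have hTc : IsClosed T := by
    rw [← isOpen_compl_iff]
    refine isOpen_iff_mem_nhds.2 fun x hx => ?_
    have h1 := (key x).resolve_left hx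
    filter_upwards [h1] with y hy hyT
    by_cases hyx : y = x
    · exact hx (hyx ▸ hyT)
    · exact hy hyx (show ∀ᶠ z in 𝓝 y, z ∈ ω.Z from hyT).self_of_nhds
  have hTe : T = ∅ := by
    by_contra hne
    obtain ⟨x, hx⟩ := nonempty_iff_ne_empty.2 hne
    have h1 := isPreconnected_univ.subset_isClopen (t := T) ⟨hTc, hTo⟩ ⟨x, mem_univ _, hx⟩
    apply h0
    intro i z hz
    have h2 : (A.c i).symm z ∈ ω.Z :=
      (show ∀ᶠ y in 𝓝 ((A.c i).symm z), y ∈ ω.Z from h1 (mem_univ _)).self_of_nhds
    rw [HForm.mem_Z ((A.c i).map_target hz), (A.c i).right_inv hz] at h2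
    exact h2
  have h : ((univ : Set N) ∩ ω.Z).Finite := by
    refine isCompact_univ.induction_on (p := fun s => (s ∩ ω.Z).Finite) ?_ ?_ ?_ ?_
    · simp
    · intro s t hst ht
      exact ht.subset (inter_subset_inter_left _ hst)
    · intro s t hs ht
      rw [union_inter_distrib_right]
      exact hs.union ht
    · intro x _
      have h1 : ∀ᶠ y in 𝓝 x, y ≠ x → y ∉ ω.Z :=
        (key x).resolve_left (by rw [hTe]; exact notMem_empty x)
      refine ⟨_, mem_nhdsWithin_of_mem_nhds h1, (finite_singleton x).subset ?_⟩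
      rintro y ⟨hy, hy1⟩
      by_contra hyx
      exact hy hyx hy1
  rwa [univ_inter] at h

/-- **the trichotomy, from `POISSON`** -/
theorem main_of_poisson [T2Space N] [CompactSpace N] [ConnectedSpace N] (hP : A.POISSON) :
    A.MAIN := by
  by_cases h0 : ∀ ω : A.HForm, ω.IsZero
  · left
    obtain ⟨p0⟩ := (inferInstance : Nonempty N)
    obtain ⟨f, ⟨Q⟩⟩ := exists_pole hP h0 p0
    exact Q.isSph
  · right
    push Not at h0
    obtain ⟨ω, hω⟩ := h0
    by_cases hZ : ω.Z.Nonempty
    · exact Or.inr ⟨ω, hZ, HForm.finite_Z hω⟩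
    · left
      refine isTor_of_nz (ω := ω) fun i z hz h => hZ ⟨(A.c i).symm z, i, (A.c i).map_target hz, ?_⟩
      rw [(A.c i).right_inv hz]
      exact h

end CAtl

end

end Crest.Agent.R235.RS
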