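import Crest.Agent.R235.Wind_688

/-!
# Row 235 (S0364), package ADJ, leaf W1, second part (helper688): asymptotics, change of variable,
integral formulas on circles, and the cut-off formula `∫ dχ ∧ dF/F = -2πi ∑ χ(p) n(p)`.
-/

set_option autoImplicit false

open Complex Set Filter Topology Metric MeasureTheory
open scoped Real

namespace Crest.Agent.R235.Wind_688

noncomputable section

/-! ### asymptotics -/

theorem IsW.zpow {F : ℂ → ℂ} {p : ℂ} {r : ℝ} {m : ℤ} (hF : IsW F p r m) (k : ℤ) :
    IsW (fun z => F z ^ k) p r (k * m) := by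
  obtain ⟨k, rfl | rfl⟩ := k.eq_nat_or_neg
  · simpa using hF.pow k
  · have := (hF.pow k).inv
    simpa using this

theorem isW_zpow {p : ℂ} {r : ℝ} (hr : 0 < r) (m : ℤ) : IsW (fun z => (z - p) ^ m) p r m := by
  simpa using (isW_sub (p := p) hr).zpow m

/-- radius independence in a punctured ball -/
theorem IsW.radius' {F : ℂ → ℂ} {p : ℂ} {R r s : ℝ} (hF : ContinuousOn F (ball p R \ {p}))
    (h0 : ∀ z ∈ ball p R, z ≠ p → F z ≠ 0) (hr : 0 < r) (hrR : r < R) (hs : 0 < s) (hsR : s < R)
    {n : ℤ} (h : IsW F p r n) : IsW F p s n := by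
  have key : ∀ z : ℂ, min r s ≤ ‖z - p‖ → ‖z - p‖ ≤ max r s → z ∈ ball p R \ {p} := by
    intro z h1 h2
    refine ⟨?_, ?_⟩
    · rw [mem_ball, dist_eq_norm]; exact h2.trans_lt (max_lt hrR hsR)
    · intro h3
      rw [mem_singleton_iff] at h3
      rw [h3, sub_self, norm_zero] at h1
      exact absurd h1 (not_le.2 (lt_min hr hs))
  exact IsW.radius hr.le hs.le (hF.mono fun z hz => key z hz.1 hz.2)
    (fun z h1 h2 => h0 z (key z h1 h2).1 (key z h1 h2).2) h

theorem isW_of_tendsto {F : ℂ → ℂ} {p c : ℂ} {m : ℤ} {R : ℝ}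
    (hF : ContinuousOn F (ball p R \ {p})) (h0 : ∀ z ∈ ball p R, z ≠ p → F z ≠ 0) (hc : c ≠ 0)
    (h : Tendsto (fun z => F z / (z - p) ^ m) (𝓝[≠] p) (𝓝 c)) {r : ℝ} (hr : 0 < r)
    (hrR : r < R) : IsW F p r m := by
  have h1 : ∀ᶠ z in 𝓝[≠] p, ‖F z / (z - p) ^ m - c‖ < ‖c‖ := by
    have := h.eventually (ball_mem_nhds c (norm_pos_iff.2 hc))
    filter_upwards [this] with z hz
    simpa [dist_eq_norm] using hz
  rw [eventually_nhdsWithin_iff, Metric.eventually_nhds_iff] at h1
  obtain ⟨ρ, hρ, h1⟩ := h1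
  obtain ⟨s, hs, hsρ, hsR⟩ : ∃ s : ℝ, 0 < s ∧ s < ρ ∧ s < R :=
    ⟨min ρ R / 2, by have := hr.trans hrR; positivity, by
      have := min_le_left ρ R; have := lt_min hρ (hr.trans hrR); linarith, by
      have := min_le_right ρ R; have := lt_min hρ (hr.trans hrR); linarith⟩
  refine IsW.radius' hF h0 hs hsR hr hrR ?_
  have h2 : IsW (fun z => c * (z - p) ^ m) p s m := by
    have := (isW_const (p := p) (r := s) hc).mul (isW_zpow hs m)
    rwa [zero_add] at this
  have hsp : ∀ z ∈ sphere p s, z ∈ ball p R \ {p} := by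
    intro z hz
    rw [mem_sphere] at hz
    refine ⟨by rw [mem_ball, hz]; exact hsR, fun h3 => ?_⟩
    rw [mem_singleton_iff] at h3
    rw [h3, dist_self] at hz
    exact hs.ne hz
  refine h2.rouche hs.le (hF.mono hsp) fun z hz => ?_
  have hzp : z - p ≠ 0 := sub_ne_zero.2 (hsp z hz).2
  have h3 := h1 (y := z) (by rw [mem_sphere.1 hz]; exact hsρ) (hsp z hz).2
  have h4 : F z - c * (z - p) ^ m = (F z / (z - p) ^ m - c) * (z - p) ^ m := by
    have := zpow_ne_zero m hzp
    field_simp
  rw [h4, norm_mul, norm_mul]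
  exact mul_lt_mul_of_pos_right h3 (norm_pos_iff.2 (zpow_ne_zero m hzp))

/-! ### change of variable -/

/-- the real linear map `v ↦ a v + b v̄` -/
def alin (a b : ℂ) (v : ℂ) : ℂ := a * v + b * (starRingEnd ℂ) v

/-- orientation preserving change of variable: `φ(z) = q + a(z-p) + b conj(z-p) + o(|z-p|)` with
`|b| < |a|`. -/
theorem IsW.comp {F φ : ℂ → ℂ} {p q a b : ℂ} {R : ℝ} {n : ℤ}
    (hF : ContinuousOn F (ball q R \ {q})) (h0 : ∀ z ∈ ball q R, z ≠ q → F z ≠ 0)
    (hab : ‖b‖ < ‖a‖) {O : Set ℂ} (hO : O ∈ 𝓝 p) (hφ : ContinuousOn φ O)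
    (hd : ∀ ε > 0, ∀ᶠ z in 𝓝 p, ‖φ z - q - alin a b (z - p)‖ ≤ ε * ‖z - p‖) {s : ℝ}
    (hs : 0 < s) (hsR : s < R) (h : IsW F q s n) :
    ∀ᶠ r in 𝓝[>] (0 : ℝ), IsW (fun z => F (φ z)) p r n := by
  have hR : 0 < R := hs.trans hsR
  set c : ℝ := ‖a‖ - ‖b‖ with hc
  have hc0 : 0 < c := sub_pos.2 hab
  have ha0 : 0 < ‖a‖ := (norm_nonneg b).trans_lt hab
  have h1 := (hd (c / 2) (half_pos hc0)).and hO
  rw [Metric.eventually_nhds_iff] at h1
  obtain ⟨ρ, hρ, h1⟩ := h1
  have h2 : ∀ᶠ r in 𝓝[>] (0 : ℝ), 0 < r ∧ r < ρ ∧ (‖a‖ + ‖b‖ + c) * r < R := by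
    have e1 : ∀ᶠ r in 𝓝[>] (0 : ℝ), 0 < r := eventually_mem_nhdsWithin
    have e2 : ∀ᶠ r in 𝓝[>] (0 : ℝ), r < ρ :=
      nhdsWithin_le_nhds (Iio_mem_nhds hρ)
    have e3 : ∀ᶠ r in 𝓝[>] (0 : ℝ), (‖a‖ + ‖b‖ + c) * r < R := by
      apply nhdsWithin_le_nhds
      have : Tendsto (fun r : ℝ => (‖a‖ + ‖b‖ + c) * r) (𝓝 0) (𝓝 ((‖a‖ + ‖b‖ + c) * 0)) := by
        exact (continuous_const.mul continuous_id).tendsto _
      rw [mul_zero] at this
      exact this.eventually (Iio_mem_nhds hR)
    filter_upwards [e1, e2, e3] with r h1 h2 h3 using ⟨h1, h2, h3⟩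
  filter_upwards [h2] with r hr
  obtain ⟨hr, hrρ, hrR⟩ := hr
  -- the circle
  have hz : ∀ t, ‖circleMap p r t - p‖ = r := fun t => by
    rw [circleMap_sub_center, norm_circleMap_zero, abs_of_pos hr]
  have hz' : ∀ t, dist (circleMap p r t) p < ρ := fun t => by
    rw [dist_eq_norm, hz]; exact hrρ
  -- bounds
  have hal : ∀ v : ℂ, c * ‖v‖ ≤ ‖alin a b v‖ := by
    intro v
    have e1 : ‖a * v‖ ≤ ‖alin a b v‖ + ‖b * (starRingEnd ℂ) v‖ := by
      have : a * v = alin a b v - b * (starRingEnd ℂ) v := by simp [alin]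
      rw [this]; exact norm_sub_le _ _
    rw [norm_mul, norm_mul, RCLike.norm_conj] at e1
    rw [hc]; linarith
  have hau : ∀ v : ℂ, ‖alin a b v‖ ≤ (‖a‖ + ‖b‖) * ‖v‖ := by
    intro v
    refine (norm_add_le _ _).trans ?_
    rw [norm_mul, norm_mul, RCLike.norm_conj]
    linarith
  -- first homotopy
  have hA : IsWL (fun t => F (q + a * circleMap 0 r t)) n := by
    have h3 : IsW F q (‖a‖ * r) n := IsW.radius' hF h0 hs hsR (by positivity) (by
      nlinarith [norm_nonneg b, hc0]) h
    have h4 := IsWL.shift h3 (Complex.arg a)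
    refine IsWL.congr h4 fun t => ?_
    congr 1
    simp only [circleMap, zero_add]
    have : a = ‖a‖ * exp (Complex.arg a * I) := (Complex.norm_mul_exp_arg_mul_I a).symm
    conv_rhs => rw [this]
    push_cast
    rw [add_mul, Complex.exp_add]
    ring
  have hcm0 : ∀ t, ‖circleMap 0 r t‖ = r := fun t => by
    rw [norm_circleMap_zero, abs_of_pos hr]
  have hB : IsWL (fun t => F (q + alin a b (circleMap 0 r t))) n := by
    have key := IsWL.homotopy_Icc (n := n)
      (fun u t => F (q + alin a (u * b) (circleMap 0 r t))) ?_ ?_ ?_ ?_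
    · simpa using key
    · refine hF.comp (f := fun x : ℝ × ℝ => q + alin a (x.1 * b) (circleMap 0 r x.2)) ?_ ?_
      · apply Continuous.continuousOn
        unfold alin circleMap
        fun_prop
      · intro x hx
        have e1 : ‖alin a (x.1 * b) (circleMap 0 r x.2)‖ ≤ (‖a‖ + ‖b‖) * r := by
          refine (norm_add_le _ _).trans ?_
          rw [norm_mul, norm_mul, RCLike.norm_conj, hcm0, norm_mul, Complex.norm_real,
            Real.norm_of_nonneg hx.1.1]
          nlinarith [mul_nonneg (norm_nonneg b) hr.le, hx.1.2, norm_nonneg b]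
        have e2 : c * r ≤ ‖alin a (x.1 * b) (circleMap 0 r x.2)‖ := by
          have e3 : ‖a * circleMap 0 r x.2‖ ≤ ‖alin a (x.1 * b) (circleMap 0 r x.2)‖ +
              ‖(x.1 * b) * (starRingEnd ℂ) (circleMap 0 r x.2)‖ := by
            have : a * circleMap 0 r x.2 = alin a (x.1 * b) (circleMap 0 r x.2) -
              (x.1 * b) * (starRingEnd ℂ) (circleMap 0 r x.2) := by simp [alin]
            rw [this]; exact norm_sub_le _ _
          rw [norm_mul, norm_mul, RCLike.norm_conj, hcm0, norm_mul, Complex.norm_real,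
            Real.norm_of_nonneg hx.1.1] at e3
          have := mul_nonneg (norm_nonneg b) hr.le
          rw [hc]
          nlinarith [hx.1.2]
        refine ⟨?_, ?_⟩
        · rw [mem_ball, dist_eq_norm, add_sub_cancel_left]
          nlinarith [mul_pos hc0 hr]
        · intro h5
          rw [mem_singleton_iff, add_eq_left] at h5
          rw [h5, norm_zero] at e2
          nlinarith [mul_pos hc0 hr]
    · intro u hu t
      have e2 : c * r ≤ ‖alin a (u * b) (circleMap 0 r t)‖ := by
        have e3 : ‖a * circleMap 0 r t‖ ≤ ‖alin a (u * b) (circleMap 0 r t)‖ +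
            ‖(u * b) * (starRingEnd ℂ) (circleMap 0 r t)‖ := by
          have : a * circleMap 0 r t = alin a (u * b) (circleMap 0 r t) -
            (u * b) * (starRingEnd ℂ) (circleMap 0 r t) := by simp [alin]
          rw [this]; exact norm_sub_le _ _
        rw [norm_mul, norm_mul, RCLike.norm_conj, hcm0, norm_mul, Complex.norm_real,
          Real.norm_of_nonneg hu.1] at e3
        have := mul_nonneg (norm_nonneg b) hr.le
        rw [hc]
        nlinarith [hu.2]
      have e1 : ‖alin a (u * b) (circleMap 0 r t)‖ ≤ (‖a‖ + ‖b‖) * r := by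
        refine (norm_add_le _ _).trans ?_
        rw [norm_mul, norm_mul, RCLike.norm_conj, hcm0, norm_mul, Complex.norm_real,
          Real.norm_of_nonneg hu.1]
        nlinarith [mul_nonneg (norm_nonneg b) hr.le, hu.2, norm_nonneg b]
      refine h0 _ ?_ ?_
      · rw [mem_ball, dist_eq_norm, add_sub_cancel_left]
        nlinarith [mul_pos hc0 hr]
      · intro h5
        rw [add_eq_left] at h5
        rw [h5, norm_zero] at e2
        nlinarith [mul_pos hc0 hr]
    · intro u _ t
      simp only [cm_per]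
    · refine IsWL.congr hA fun t => ?_
      simp [alin]
  -- second homotopy
  have hC := IsWL.homotopy_Icc (n := n) (fun u t => F (q + alin a b (circleMap 0 r t) +
      u * (φ (circleMap p r t) - q - alin a b (circleMap 0 r t)))) ?_ ?_ ?_ ?_
  · refine IsWL.congr hC fun t => ?_
    simp only [ofReal_one, one_mul]
    congr 1; ring
  · refine hF.comp (f := fun x : ℝ × ℝ => q + alin a b (circleMap 0 r x.2) +
      x.1 * (φ (circleMap p r x.2) - q - alin a b (circleMap 0 r x.2))) ?_ ?_
    · apply Continuous.continuousOn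
      have e1 : Continuous fun x : ℝ × ℝ => φ (circleMap p r x.2) :=
        hφ.comp_continuous ((continuous_circleMap p r).comp continuous_snd)
          fun x => (h1 (hz' x.2)).2
      have e2 : Continuous fun x : ℝ × ℝ => alin a b (circleMap 0 r x.2) := by
        unfold alin circleMap
        fun_prop
      have e3 : Continuous fun x : ℝ × ℝ => ((x.1 : ℝ) : ℂ) := by fun_prop
      exact (continuous_const.add e2).add (e3.mul ((e1.sub continuous_const).sub e2))
    · intro x hx
      have e0 := (h1 (hz' x.2)).1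
      rw [hz, circleMap_sub_center] at e0
      have e1 : ‖(x.1 : ℂ) * (φ (circleMap p r x.2) - q - alin a b (circleMap 0 r x.2))‖ ≤
          c / 2 * r := by
        rw [norm_mul, Complex.norm_real, Real.norm_of_nonneg hx.1.1]
        nlinarith [norm_nonneg (φ (circleMap p r x.2) - q - alin a b (circleMap 0 r x.2)),
          hx.1.2, hx.1.1]
      have e2 := hal (circleMap 0 r x.2)
      have e3 := hau (circleMap 0 r x.2)
      rw [hcm0] at e2 e3
      have hcr := mul_pos hc0 hr
      refine ⟨?_, ?_⟩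
      · rw [mem_ball, dist_eq_norm]
        beta_reduce
        rw [add_assoc, add_sub_cancel_left]
        refine (norm_add_le _ _).trans_lt ?_
        nlinarith
      · intro h5
        rw [mem_singleton_iff] at h5
        beta_reduce at h5
        rw [add_assoc, add_eq_left] at h5
        have e4 := eq_neg_of_add_eq_zero_left h5
        rw [e4, norm_neg] at e2
        linarith
  · intro u hu t
    have e0 := (h1 (hz' t)).1
    rw [hz, circleMap_sub_center] at e0
    have e1 : ‖(u : ℂ) * (φ (circleMap p r t) - q - alin a b (circleMap 0 r t))‖ ≤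
        c / 2 * r := by
      rw [norm_mul, Complex.norm_real, Real.norm_of_nonneg hu.1]
      nlinarith [norm_nonneg (φ (circleMap p r t) - q - alin a b (circleMap 0 r t)),
        hu.2, hu.1]
    have e2 := hal (circleMap 0 r t)
    have e3 := hau (circleMap 0 r t)
    rw [hcm0] at e2 e3
    have hcr := mul_pos hc0 hr
    refine h0 _ ?_ ?_
    · rw [mem_ball, dist_eq_norm, add_assoc, add_sub_cancel_left]
      refine (norm_add_le _ _).trans_lt ?_
      nlinarith
    · intro h5
      rw [add_assoc, add_eq_left] at h5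
      have e4 := eq_neg_of_add_eq_zero_left h5
      rw [e4, norm_neg] at e2
      linarith
  · intro u _ t
    simp only [cm_per]
  · refine IsWL.congr hB fun t => ?_
    simp

end

end Crest.Agent.R235.Wind_688
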