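import Crest.Agent.R235.RSMain_538
import Crest.Agent.R235.Wind2_688

/-!
Row 235, package RS (helper538): smooth sections of `K` and winding numbers, part 1: one-forms.
-/

set_option autoImplicit false

open Set Filter Topology Function Metric

universe u v

namespace Crest.Agent.R235.RS

noncomputable section

open Crest.Agent.R235.Wind_688

/-- winding number on all small circles (same as `Adj.WAt`) -/
def WA (F : ℂ → ℂ) (p : ℂ) (n : ℤ) : Prop := ∀ᶠ r in 𝓝[>] (0 : ℝ), IsW F p r n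

/-- winding number from an asymptotic formula -/
theorem wa_of_tendsto {F : ℂ → ℂ} {p c : ℂ} {m : ℤ} (hF : ∀ᶠ z in 𝓝[≠] p, ContinuousAt F z)
    (h0 : ∀ᶠ z in 𝓝[≠] p, F z ≠ 0) (hc : c ≠ 0)
    (h : Tendsto (fun z => F z / (z - p) ^ m) (𝓝[≠] p) (𝓝 c)) : WA F p m := by
  have h1 : ∀ᶠ z in 𝓝 p, z ≠ p → (ContinuousAt F z ∧ F z ≠ 0) := by
    have := hF.and h0
    rwa [eventually_nhdsWithin_iff] at this
  obtain ⟨R, hR, hb⟩ := Metric.eventually_nhds_iff_ball.1 h1
  have h2 : ∀ᶠ r in 𝓝[>] (0 : ℝ), r ∈ Ioo 0 R := Ioo_mem_nhdsGT hR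
  filter_upwards [h2] with r hr
  refine isW_of_tendsto (R := R) (fun z hz => ?_) (fun z hz hz' => (hb z hz hz').2) hc h hr.1 hr.2
  exact (hb z hz.1 hz.2).1.continuousWithinAt

theorem WA.conj {F : ℂ → ℂ} {p : ℂ} {n : ℤ} (h : WA F p n) :
    WA (fun z => (starRingEnd ℂ) (F z)) p (-n) := by
  filter_upwards [h] with r hr
  exact hr.conj

/-- slopes -/
theorem tendsto_slope' {f : ℂ → ℂ} {p d : ℂ} (h : HasDerivAt f d p) :
    Tendsto (fun z => (f z - f p) / (z - p)) (𝓝[≠] p) (𝓝 d) := by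
  have h1 := hasDerivAt_iff_tendsto_slope.1 h
  refine h1.congr fun z => ?_
  rw [slope_def_field]

namespace CAtl

variable {N : Type u} [TopologicalSpace N] {A : CAtl.{u, v} N}

/-- orders of one-forms -/
theorem HForm.exists_ord {ω : A.HForm} [T2Space N] [CompactSpace N] [PreconnectedSpace N]
    (h0 : ¬ ω.IsZero) (x : N) :
    ∃ n : ℤ, (x ∈ ω.Z → 1 ≤ n) ∧ ∀ i, x ∈ (A.c i).source → WA (ω.h i) (A.c i x) n := by
  obtain ⟨j, hj⟩ := A.cover x
  have ha := ω.analyticAt ((A.c j).map_source hj)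
  have hnz : ¬ ∀ᶠ z in 𝓝 (A.c j x), ω.h j z = 0 := by
    intro h1
    -- infinitely many zeros
    have hfin := HForm.finite_Z h0
    have h2 : ∀ᶠ z in 𝓝 (A.c j x), z ∈ (A.c j).target ∧ ω.h j z = 0 := by
      filter_upwards [h1, (A.c j).open_target.mem_nhds ((A.c j).map_source hj)] with z hz hz'
      exact ⟨hz', hz⟩
    have h3 : {z | z ∈ (A.c j).target ∧ ω.h j z = 0}.Infinite := infinite_of_mem_nhds _ h2
    apply h3
    refine Set.Finite.of_finite_image (f := (A.c j).symm) (hfin.subset ?_) ?_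
    · rintro y ⟨z, ⟨hz, hz'⟩, rfl⟩
      exact ⟨j, (A.c j).map_target hz, by rwa [(A.c j).right_inv hz]⟩
    · intro z hz w hw h
      exact (A.c j).symm.injOn hz.1 hw.1 h
  obtain ⟨n, g, hg, hg0, hgn⟩ := (ha.exists_eventuallyEq_pow_smul_nonzero_iff).2 hnz
  refine ⟨n, ?_, ?_⟩
  · intro hx
    rw [HForm.mem_Z hj] at hx
    have h1 := hgn.self_of_nhds
    rw [hx, sub_self, smul_eq_mul] at h1
    have h2 : n ≠ 0 := by
      rintro rfl
      rw [pow_zero, one_mul] at h1
      exact hg0 h1.symm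
    exact_mod_cast Nat.one_le_iff_ne_zero.2 h2
  · intro i hi
    have hd := A.c_mem_dom hi hj
    set p := A.c i x with hp
    set q := A.c j x with hq
    have htp : A.tr i j p = q := A.tr_c hi
    have hT := (A.tr_diffAt hd).hasDerivAt
    have hTc : Tendsto (A.tr i j) (𝓝 p) (𝓝 q) := by
      have := hT.continuousAt.tendsto
      rwa [htp] at this
    have hT' := A.deriv_tr_ne hd
    have hTd : Tendsto (deriv (A.tr i j)) (𝓝 p) (𝓝 (deriv (A.tr i j) p)) :=
      (A.tr_analyticAt hd).deriv.continuousAt.tendsto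
    have hgT : Tendsto (fun z => g (A.tr i j z)) (𝓝 p) (𝓝 (g q)) :=
      hg.continuousAt.tendsto.comp hTc
    have hform : ∀ᶠ z in 𝓝 p, ω.h i z =
        (A.tr i j z - q) ^ n * g (A.tr i j z) * deriv (A.tr i j) z := by
      filter_upwards [(A.isOpen_dom i j).mem_nhds hd, hTc.eventually hgn] with z hz hz'
      rw [ω.tr i j z hz, hz', smul_eq_mul]
    have hne : ∀ᶠ z in 𝓝[≠] p, ω.h i z ≠ 0 := by
      have h1 : ∀ᶠ z in 𝓝 p, g (A.tr i j z) ≠ 0 := hgT.eventually_ne hg0
      have h2 : ∀ᶠ z in 𝓝[≠] p, A.tr i j z ≠ q := by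
        have := hT.eventually_ne (c := q) hT'
        exact this
      filter_upwards [h2, h1.filter_mono nhdsWithin_le_nhds, hform.filter_mono nhdsWithin_le_nhds,
        ((A.isOpen_dom i j).mem_nhds hd : _ ∈ 𝓝 p) |> mem_nhdsWithin_of_mem_nhds] with z e1 e2 e3 e4
      rw [e3]
      exact mul_ne_zero (mul_ne_zero (pow_ne_zero _ (sub_ne_zero.2 e1)) e2) (A.deriv_tr_ne e4)
    refine wa_of_tendsto ?_ hne (c := (deriv (A.tr i j) p) ^ n * g q * deriv (A.tr i j) p) ?_ ?_
    · filter_upwards [((A.c i).open_target.mem_nhds ((A.c i).map_source hi) : _ ∈ 𝓝 p) |>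
        mem_nhdsWithin_of_mem_nhds] with z hz
      exact (ω.analyticAt hz).continuousAt
    · exact mul_ne_zero (mul_ne_zero (pow_ne_zero _ hT') hg0) hT'
    · have h1 : Tendsto (fun z => ((A.tr i j z - q) / (z - p)) ^ n * g (A.tr i j z) *
          deriv (A.tr i j) z) (𝓝[≠] p)
          (𝓝 ((deriv (A.tr i j) p) ^ n * g q * deriv (A.tr i j) p)) := by
        have h2 := tendsto_slope' hT
        rw [htp] at h2
        exact ((h2.pow n).mul (hgT.mono_left nhdsWithin_le_nhds)).mul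
          (hTd.mono_left nhdsWithin_le_nhds)
      refine h1.congr' ?_
      filter_upwards [hform.filter_mono nhdsWithin_le_nhds] with z hz
      rw [hz, zpow_natCast, div_pow]
      ring

/-- the refined trichotomy -/
theorem rs_cases [T2Space N] [CompactSpace N] [ConnectedSpace N] (A : CAtl.{u, v} N) :
    A.IsSph ∨ (A.IsTor ∧ ∃ ω : A.HForm, NZ ω) ∨
      ∃ ω : A.HForm, ω.Z.Nonempty ∧ ω.Z.Finite ∧ ¬ ω.IsZero := by
  by_cases h0 : ∀ ω : A.HForm, ω.IsZero
  · left
    obtain ⟨p0⟩ := (inferInstance : Nonempty N)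
    obtain ⟨f, ⟨Q⟩⟩ := exists_pole A.poisson h0 p0
    exact Q.isSph
  · right
    push Not at h0
    obtain ⟨ω, hω⟩ := h0
    by_cases hZ : ω.Z.Nonempty
    · exact Or.inr ⟨ω, hZ, HForm.finite_Z hω, hω⟩
    · left
      have hnz : NZ ω := by
        intro i z hz h
        refine hZ ⟨(A.c i).symm z, i, (A.c i).map_target hz, ?_⟩
        rw [(A.c i).right_inv hz]
        exact h
      exact ⟨isTor_of_nz hnz, ω, hnz⟩

end CAtl

end

end Crest.Agent.R235.RS
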