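import Crest.Agent.R235.RSSec1_538

/-!
Row 235, package RS (helper538): smooth sections of `K` and winding numbers, part 2: the section
`dt / (1 + |t|²)²` on the sphere.
-/

set_option autoImplicit false

open Set Filter Topology Function Metric

universe u v

namespace Crest.Agent.R235.RS

noncomputable section

open Crest.Agent.R235.Wind_688

namespace CAtl

variable {N : Type u} [TopologicalSpace N] {A : CAtl.{u, v} N}

/-- an injective holomorphic immersion of the plane is open -/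
theorem map_nhds_of_imm {φ : ℂ → N} (h : A.Hol φ) (h' : A.Imm φ) (z : ℂ) :
    map φ (𝓝 z) = 𝓝 (φ z) := by
  obtain ⟨i, hi⟩ := A.cover (φ z)
  have hV : φ ⁻¹' (A.c i).source ∈ 𝓝 z := h.cont.continuousAt ((A.c i).open_source.mem_nhds hi)
  have ha : AnalyticAt ℂ (fun w => A.c i (φ w)) z := (h.hol i).analyticAt hV
  have h1 : map (fun w => A.c i (φ w)) (𝓝 z) = 𝓝 (A.c i (φ z)) :=
    ha.hasStrictDerivAt.map_nhds_eq (h' i z hi)
  have h2 : map φ (𝓝 z) = map (A.c i).symm (map (fun w => A.c i (φ w)) (𝓝 z)) := by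
    rw [Filter.map_map]
    refine Filter.map_congr ?_
    filter_upwards [hV] with w hw
    show φ w = (A.c i).symm (A.c i (φ w))
    rw [(A.c i).left_inv hw]
  rw [h2, h1, A.nhds_symm hi]

variable {φ : ℂ → N}

theorem isOpen_range_imm (h : A.Hol φ) (h' : A.Imm φ) : IsOpen (range φ) := by
  refine isOpen_iff_mem_nhds.2 ?_
  rintro _ ⟨z, rfl⟩
  rw [← map_nhds_of_imm h h' z]
  exact range_mem_map

/-- the inverse in the chart `i` -/
def gi (A : CAtl.{u, v} N) (φ : ℂ → N) (i : A.ι) (w : ℂ) : ℂ := invFun φ ((A.c i).symm w)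

theorem gi_spec {i : A.ι} {w : ℂ} (hr : (A.c i).symm w ∈ range φ) :
    φ (A.gi φ i w) = (A.c i).symm w := invFun_eq hr

theorem ev_range (h : A.Hol φ) (h' : A.Imm φ) {i : A.ι} {w : ℂ}
    (hw : w ∈ (A.c i).target) (hr : (A.c i).symm w ∈ range φ) :
    ∀ᶠ y in 𝓝 w, y ∈ (A.c i).target ∧ (A.c i).symm y ∈ range φ := by
  have hc : ContinuousAt (A.c i).symm w := (A.c i).symm.continuousAt hw
  filter_upwards [(A.c i).open_target.mem_nhds hw,
    hc.eventually ((isOpen_range_imm h h').mem_nhds hr)] with y h1 h2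
  exact ⟨h1, h2⟩

theorem gi_cont (h : A.Hol φ) (h' : A.Imm φ) (hinj : Injective φ) {i : A.ι} {w : ℂ}
    (hw : w ∈ (A.c i).target) (hr : (A.c i).symm w ∈ range φ) : ContinuousAt (A.gi φ i) w := by
  have hc : ContinuousAt (A.c i).symm w := (A.c i).symm.continuousAt hw
  refine ContinuousAt.comp (g := invFun φ) ?_ hc
  obtain ⟨z, hz⟩ := hr
  rw [ContinuousAt, ← hz, ← map_nhds_of_imm h h' z, Filter.tendsto_map'_iff, invFun_comp hinj,
    leftInverse_invFun hinj z]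
  exact tendsto_id

theorem gi_deriv (h : A.Hol φ) (h' : A.Imm φ) (hinj : Injective φ) {i : A.ι} {w : ℂ}
    (hw : w ∈ (A.c i).target) (hr : (A.c i).symm w ∈ range φ) :
    ∃ d : ℂ, d ≠ 0 ∧ HasDerivAt (A.gi φ i) d w := by
  have hz : φ (A.gi φ i w) = (A.c i).symm w := gi_spec hr
  have hs : φ (A.gi φ i w) ∈ (A.c i).source := by rw [hz]; exact (A.c i).map_target hw
  have hV : φ ⁻¹' (A.c i).source ∈ 𝓝 (A.gi φ i w) :=
    h.cont.continuousAt ((A.c i).open_source.mem_nhds hs)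
  have ha : HasDerivAt (fun w => A.c i (φ w)) (deriv (fun w => A.c i (φ w)) (A.gi φ i w))
      (A.gi φ i w) := ((h.hol i).differentiableAt hV).hasDerivAt
  refine ⟨_, inv_ne_zero (h' i _ hs), HasDerivAt.of_local_left_inverse (gi_cont h h' hinj hw hr)
    ha (h' i _ hs) ?_⟩
  filter_upwards [ev_range h h' hw hr] with y hy
  rw [gi_spec hy.2, (A.c i).right_inv hy.1]

theorem gi_analyticAt (h : A.Hol φ) (h' : A.Imm φ) (hinj : Injective φ) {i : A.ι} {w : ℂ}
    (hw : w ∈ (A.c i).target) (hr : (A.c i).symm w ∈ range φ) : AnalyticAt ℂ (A.gi φ i) w := by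
  refine Complex.analyticAt_iff_eventually_differentiableAt.2 ?_
  filter_upwards [ev_range h h' hw hr] with y hy
  obtain ⟨d, -, hd⟩ := gi_deriv h h' hinj hy.1 hy.2
  exact hd.differentiableAt

theorem gi_deriv_ne (h : A.Hol φ) (h' : A.Imm φ) (hinj : Injective φ) {i : A.ι} {w : ℂ}
    (hw : w ∈ (A.c i).target) (hr : (A.c i).symm w ∈ range φ) : deriv (A.gi φ i) w ≠ 0 := by
  obtain ⟨d, hd, hd'⟩ := gi_deriv h h' hinj hw hr
  rwa [hd'.deriv]

theorem gi_tr {i j : A.ι} {z : ℂ} (hz : z ∈ A.dom i j) :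
    A.gi φ i =ᶠ[𝓝 z] fun w => A.gi φ j (A.tr i j w) := by
  filter_upwards [(A.isOpen_dom i j).mem_nhds hz] with w hw
  unfold gi
  rw [A.symm_tr hw]

theorem gi_deriv_tr (h : A.Hol φ) (h' : A.Imm φ) (hinj : Injective φ) {i j : A.ι} {z : ℂ}
    (hz : z ∈ A.dom i j) (hr : (A.c i).symm z ∈ range φ) :
    deriv (A.gi φ i) z = deriv (A.gi φ j) (A.tr i j z) * deriv (A.tr i j) z := by
  rw [(gi_tr hz).deriv_eq]
  have hr' : (A.c j).symm (A.tr i j z) ∈ range φ := by rwa [A.symm_tr hz]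
  have h1 := (gi_analyticAt h h' hinj (A.tr_mem hz).1 hr').differentiableAt.hasDerivAt
  exact (HasDerivAt.comp (h₂ := A.gi φ j) z h1 (A.tr_diffAt hz).hasDerivAt).deriv

open Classical in
/-- the section `dt/(1+|t|²)²` of `K` -/
def sec (A : CAtl.{u, v} N) (φ : ℂ → N) (i : A.ι) (w : ℂ) : ℂ :=
  if (A.c i).symm w ∈ range φ then
    deriv (A.gi φ i) w * (((1 + Complex.normSq (A.gi φ i w)) ^ 2 : ℝ) : ℂ)⁻¹ else 0

theorem sec_of {i : A.ι} {w : ℂ} (hr : (A.c i).symm w ∈ range φ) : A.sec φ i w =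
    deriv (A.gi φ i) w * (((1 + Complex.normSq (A.gi φ i w)) ^ 2 : ℝ) : ℂ)⁻¹ := if_pos hr

theorem q_ne (t : ℂ) : (((1 + Complex.normSq t) ^ 2 : ℝ) : ℂ) ≠ 0 := by
  have := Complex.normSq_nonneg t
  exact_mod_cast (show (0 : ℝ) < (1 + Complex.normSq t) ^ 2 by positivity).ne'

theorem q_smooth {g : ℂ → ℂ} {w : ℂ} (hg : ContDiffAt ℝ (⊤ : ℕ∞) g w) :
    ContDiffAt ℝ (⊤ : ℕ∞) (fun w => (((1 + Complex.normSq (g w)) ^ 2 : ℝ) : ℂ)⁻¹) w := by
  have h1 : ContDiffAt ℝ (⊤ : ℕ∞) (fun w => ((1 + Complex.normSq (g w)) ^ 2 : ℝ)) w := by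
    have h2 : ContDiffAt ℝ (⊤ : ℕ∞) (fun w => Complex.normSq (g w)) w := by
      have e : (fun w => Complex.normSq (g w)) = fun w => (g w).re * (g w).re +
          (g w).im * (g w).im := by
        funext w; exact Complex.normSq_apply _
      rw [e]
      have a1 := Complex.reCLM.contDiff.contDiffAt.comp w hg
      have a2 := Complex.imCLM.contDiff.contDiffAt.comp w hg
      exact (a1.mul a1).add (a2.mul a2)
    exact (contDiffAt_const.add h2).pow 2
  exact (Complex.ofRealCLM.contDiff.contDiffAt.comp w h1).inv (q_ne _)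

theorem contDiffAt_of_analyticAt {g : ℂ → ℂ} {w : ℂ} (hg : AnalyticAt ℂ g w) :
    ContDiffAt ℝ (⊤ : ℕ∞) g w := (hg.contDiffAt (n := (⊤ : ℕ∞))).restrict_scalars ℝ

variable {ψ : ℂ → N}

/-- near the point at infinity -/
theorem sec_infty (hψ : A.Hol ψ) (hψ' : A.Imm ψ)
    (iφ : Injective φ) (iψ : Injective ψ) (hg : ∀ z, z ≠ 0 → φ z = ψ z⁻¹) (h0 : ψ 0 ∉ range φ)
    {i : A.ι} {w0 : ℂ} (hw : w0 ∈ (A.c i).target) (hr : (A.c i).symm w0 = ψ 0) :
    ∀ᶠ w in 𝓝 w0, A.sec φ i w = -deriv (A.gi ψ i) w * (starRingEnd ℂ) (A.gi ψ i w) ^ 2 *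
      (((1 + Complex.normSq (A.gi ψ i w)) ^ 2 : ℝ) : ℂ)⁻¹ := by
  have hrψ : (A.c i).symm w0 ∈ range ψ := ⟨0, hr.symm⟩
  filter_upwards [eventually_eventually_nhds.2 (ev_range hψ hψ' hw hrψ)] with w hww
  obtain ⟨hwt, hwr⟩ := hww.self_of_nhds
  set b := A.gi ψ i w with hb
  have hψb : ψ b = (A.c i).symm w := gi_spec hwr
  by_cases hb0 : b = 0
  · have h1 : (A.c i).symm w ∉ range φ := by rw [← hψb, hb0]; exact h0
    unfold sec
    rw [if_neg h1, hb0]
    simp
  · have hφb : ∀ a : ℂ, a ≠ 0 → φ a⁻¹ = ψ a := fun a ha => by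
      rw [hg _ (inv_ne_zero ha), inv_inv]
    have h1 : (A.c i).symm w ∈ range φ := ⟨b⁻¹, by rw [hφb b hb0, hψb]⟩
    have h2 : A.gi φ i =ᶠ[𝓝 w] fun y => (A.gi ψ i y)⁻¹ := by
      have hbc : ContinuousAt (A.gi ψ i) w := gi_cont hψ hψ' iψ hwt hwr
      filter_upwards [hww, hbc.eventually_ne hb0] with y hy hy0
      have h3 : φ (A.gi ψ i y)⁻¹ = (A.c i).symm y := by rw [hφb _ hy0]; exact gi_spec hy.2
      have h4 : φ (A.gi φ i y) = (A.c i).symm y := gi_spec ⟨_, h3⟩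
      exact iφ (h4.trans h3.symm)
    have h3 : HasDerivAt (A.gi ψ i) (deriv (A.gi ψ i) w) w :=
      (gi_analyticAt hψ hψ' iψ hwt hwr).differentiableAt.hasDerivAt
    rw [sec_of h1, h2.deriv_eq, h2.self_of_nhds, (h3.fun_inv hb0).deriv]
    rw [← hb]
    have hn : (Complex.normSq b : ℂ) = (starRingEnd ℂ) b * b := by
      rw [Complex.normSq_eq_conj_mul_self]
    have hbn : (Complex.normSq b : ℂ) ≠ 0 := by
      rw [hn]; exact mul_ne_zero ((map_ne_zero _).2 hb0) hb0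
    have hq := q_ne b
    have hq' : (1 + (Complex.normSq b : ℂ)) ≠ 0 := by
      intro h
      apply hq
      push_cast
      rw [h]; ring
    have e1 : (((1 + Complex.normSq b⁻¹) ^ 2 : ℝ) : ℂ) =
        (1 + (Complex.normSq b : ℂ)) ^ 2 / (Complex.normSq b : ℂ) ^ 2 := by
      rw [map_inv₀]
      push_cast
      field_simp
      ring
    rw [e1]
    push_cast
    rw [inv_div]
    have e2 : (Complex.normSq b : ℂ) ^ 2 = (starRingEnd ℂ) b ^ 2 * b ^ 2 := by
      rw [hn]; ring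
    rw [e2]
    field_simp

/-- smoothness -/
theorem sec_smooth (hφ : A.Hol φ) (hφ' : A.Imm φ) (hψ : A.Hol ψ) (hψ' : A.Imm ψ)
    (iφ : Injective φ) (iψ : Injective ψ) (hg : ∀ z, z ≠ 0 → φ z = ψ z⁻¹) (h0 : ψ 0 ∉ range φ)
    (hcov : ∀ x, x ∈ range φ ∨ x = ψ 0) (i : A.ι) :
    ContDiffOn ℝ (⊤ : ℕ∞) (A.sec φ i) (A.c i).target := by
  intro w hw
  refine ContDiffAt.contDiffWithinAt ?_
  rcases hcov ((A.c i).symm w) with hr | hr
  · have ha := gi_analyticAt hφ hφ' iφ hw hr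
    refine ((contDiffAt_of_analyticAt ha.deriv).mul
      (q_smooth (contDiffAt_of_analyticAt ha))).congr_of_eventuallyEq ?_
    filter_upwards [ev_range hφ hφ' hw hr] with y hy
    exact sec_of hy.2
  · have hrψ : (A.c i).symm w ∈ range ψ := ⟨0, hr.symm⟩
    have ha := gi_analyticAt hψ hψ' iψ hw hrψ
    have hc : ContDiffAt ℝ (⊤ : ℕ∞) (fun w => (starRingEnd ℂ) (A.gi ψ i w)) w :=
      Complex.conjCLE.contDiff.contDiffAt.comp w (contDiffAt_of_analyticAt ha)
    refine (((contDiffAt_of_analyticAt ha.deriv).neg.mul (hc.pow 2)).mul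
      (q_smooth (contDiffAt_of_analyticAt ha))).congr_of_eventuallyEq ?_
    exact sec_infty hψ hψ' iφ iψ hg h0 hw hr

theorem sec_tr (hφ : A.Hol φ) (hφ' : A.Imm φ) (iφ : Injective φ) {i j : A.ι} {z : ℂ}
    (hz : z ∈ A.dom i j) : A.sec φ i z = A.sec φ j (A.tr i j z) * deriv (A.tr i j) z := by
  by_cases hr : (A.c i).symm z ∈ range φ
  · have hr' : (A.c j).symm (A.tr i j z) ∈ range φ := by rwa [A.symm_tr hz]
    rw [sec_of hr, sec_of hr', gi_deriv_tr hφ hφ' iφ hz hr, (gi_tr hz).self_of_nhds]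
    ring
  · have hr' : (A.c j).symm (A.tr i j z) ∉ range φ := by rwa [A.symm_tr hz]
    unfold sec
    rw [if_neg hr, if_neg hr', zero_mul]

theorem sec_ne (hφ : A.Hol φ) (hφ' : A.Imm φ) (iφ : Injective φ) {i : A.ι} {z : ℂ}
    (hz : z ∈ (A.c i).target) (hr : (A.c i).symm z ∈ range φ) : A.sec φ i z ≠ 0 := by
  rw [sec_of hr]
  exact mul_ne_zero (gi_deriv_ne hφ hφ' iφ hz hr) (inv_ne_zero (q_ne _))

/-- the winding number at infinity -/
theorem sec_wind (hφ : A.Hol φ) (hφ' : A.Imm φ) (hψ : A.Hol ψ) (hψ' : A.Imm ψ)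
    (iφ : Injective φ) (iψ : Injective ψ) (hg : ∀ z, z ≠ 0 → φ z = ψ z⁻¹) (h0 : ψ 0 ∉ range φ)
    {i : A.ι} {w0 : ℂ} (hw : w0 ∈ (A.c i).target) (hr : (A.c i).symm w0 = ψ 0) :
    WA (A.sec φ i) w0 (-2) := by
  have hrψ : (A.c i).symm w0 ∈ range ψ := ⟨0, hr.symm⟩
  have ha := gi_analyticAt hψ hψ' iψ hw hrψ
  have hd := ha.differentiableAt.hasDerivAt
  have hd0 := gi_deriv_ne hψ hψ' iψ hw hrψ
  have hev := sec_infty hψ hψ' iφ iψ hg h0 hw hr
  have hgi0 : A.gi ψ i w0 = 0 := iψ ((gi_spec hrψ).trans hr)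
  have key : WA (fun w => (starRingEnd ℂ) (A.sec φ i w)) w0 2 := by
    refine wa_of_tendsto (c := -(starRingEnd ℂ) (deriv (A.gi ψ i) w0) *
      (deriv (A.gi ψ i) w0) ^ 2) ?_ ?_ ?_ ?_
    · -- continuity
      have h1 : ∀ᶠ w in 𝓝 w0, ContinuousAt (A.gi ψ i) w ∧ ContinuousAt (deriv (A.gi ψ i)) w := by
        filter_upwards [ha.eventually_analyticAt] with w h
        exact ⟨h.continuousAt, h.deriv.continuousAt⟩
      refine Filter.Eventually.filter_mono nhdsWithin_le_nhds ?_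
      filter_upwards [h1, eventually_eventually_nhds.2 hev] with w hw1 hw2
      have h2 : ContinuousAt (fun w => -deriv (A.gi ψ i) w * (starRingEnd ℂ) (A.gi ψ i w) ^ 2 *
          (((1 + Complex.normSq (A.gi ψ i w)) ^ 2 : ℝ) : ℂ)⁻¹) w := by
        refine (hw1.2.neg.mul ?_).mul ?_
        · exact (Complex.continuous_conj.continuousAt.comp hw1.1).pow 2
        · refine ContinuousAt.inv₀ ?_ (q_ne _)
          refine Complex.continuous_ofReal.continuousAt.comp ?_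
          exact (continuousAt_const.add (Complex.continuous_normSq.continuousAt.comp hw1.1)).pow 2
      have h3 : ContinuousAt (A.sec φ i) w := h2.congr (by
        filter_upwards [hw2] with y hy using hy.symm)
      exact Complex.continuous_conj.continuousAt.comp h3
    · have h1 : ∀ᶠ w in 𝓝[≠] w0, A.gi ψ i w ≠ 0 := hd.eventually_ne hd0
      filter_upwards [h1, hev.filter_mono nhdsWithin_le_nhds,
        (ev_range hψ hψ' hw hrψ).filter_mono nhdsWithin_le_nhds] with w h2 h3 h4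
      rw [Ne, map_eq_zero, h3]
      exact mul_ne_zero (mul_ne_zero (neg_ne_zero.2 (gi_deriv_ne hψ hψ' iψ h4.1 h4.2))
        (pow_ne_zero 2 ((map_ne_zero _).2 h2))) (inv_ne_zero (q_ne _))
    · exact mul_ne_zero (neg_ne_zero.2 ((map_ne_zero _).2 hd0)) (pow_ne_zero 2 hd0)
    · have h1 := tendsto_slope' hd
      rw [hgi0] at h1
      simp only [sub_zero] at h1
      have h2 : Tendsto (fun w => (starRingEnd ℂ) (deriv (A.gi ψ i) w)) (𝓝 w0)
          (𝓝 ((starRingEnd ℂ) (deriv (A.gi ψ i) w0))) :=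
        (Complex.continuous_conj.continuousAt.comp ha.deriv.continuousAt).tendsto
      have h3 : Tendsto (fun w => (((1 + Complex.normSq (A.gi ψ i w)) ^ 2 : ℝ) : ℂ)⁻¹) (𝓝 w0)
          (𝓝 1) := by
        have h4 : ContinuousAt (fun w => (((1 + Complex.normSq (A.gi ψ i w)) ^ 2 : ℝ) : ℂ)⁻¹)
            w0 := (q_smooth (contDiffAt_of_analyticAt ha)).continuousAt
        have h5 := h4.tendsto
        rw [hgi0] at h5
        simpa using h5
      have h4 := ((h2.neg.mono_left nhdsWithin_le_nhds).mul (h1.pow 2)).mul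
        (h3.mono_left nhdsWithin_le_nhds)
      rw [mul_one] at h4
      refine h4.congr' ?_
      filter_upwards [hev.filter_mono nhdsWithin_le_nhds] with w hw1
      rw [hw1, map_mul, map_mul, map_neg, map_pow, Complex.conj_conj, map_inv₀,
        Complex.conj_ofReal, div_pow]
      rw [show ((w - w0) ^ (2 : ℤ) : ℂ) = (w - w0) ^ 2 by norm_cast]
      ring
  filter_upwards [key.conj] with r hr
  exact IsWL.congr hr fun t => Complex.conj_conj _

end CAtl

end

end Crest.Agent.R235.RS
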