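import Crest.Agent.R235.RSTor_538

/-!
Row 235, package RS (helper538): a closed Riemann surface with a meromorphic function which has
exactly one simple pole is the sphere.
-/

set_option autoImplicit false

open Set Filter Topology Function Metric

universe u v

namespace Crest.Agent.R235.RS

noncomputable section

/-- holomorphic charts of the plane -/
theorem hol_chart {U : Set ℂ} (hU : IsOpen U) {W : ℂ → ℂ} (hW : DifferentiableOn ℂ W U)
    {z0 : ℂ} (hz0 : z0 ∈ U) (hne : deriv W z0 ≠ 0) :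
    ∃ E : OpenPartialHomeomorph ℂ ℂ, z0 ∈ E.source ∧ E.source ⊆ U ∧
      (∀ z ∈ E.source, E z = W z) ∧ ∀ z ∈ E.source, ∃ d : ℂ, d ≠ 0 ∧ HasDerivAt E d z := by
  have hWa : AnalyticAt ℂ W z0 := hW.analyticAt (hU.mem_nhds hz0)
  have hs : HasStrictDerivAt W (deriv W z0) z0 := hWa.hasStrictDerivAt
  have hf := hs.hasStrictFDerivAt_equiv hne
  have hd : ContinuousAt (deriv W) z0 := hWa.deriv.continuousAt
  have hV : {z | z ∈ U ∧ deriv W z ≠ 0} ∈ 𝓝 z0 := by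
    filter_upwards [hU.mem_nhds hz0, hd.eventually_ne hne] with z h1 h2
    exact ⟨h1, h2⟩
  obtain ⟨V, hV1, hV2, hV3⟩ := _root_.mem_nhds_iff.1 hV
  refine ⟨(hf.toOpenPartialHomeomorph W).restrOpen V hV2, ?_, ?_, ?_, ?_⟩
  · exact ⟨hf.mem_toOpenPartialHomeomorph_source, hV3⟩
  · exact fun z hz => (hV1 hz.2).1
  · intro z hz
    rfl
  · intro z hz
    exact ⟨deriv W z, (hV1 hz.2).2,
      (hW.differentiableAt (hU.mem_nhds (hV1 hz.2).1)).hasDerivAt⟩

namespace CAtl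

variable {N : Type u} [TopologicalSpace N] {A : CAtl.{u, v} N}

/-- open mapping -/
theorem HAt.nhds_le {f : N → ℂ} {x : N} (h : A.HAt f x) (hn : ¬ ∀ᶠ y in 𝓝 x, f y = f x) :
    𝓝 (f x) ≤ map f (𝓝 x) := by
  obtain ⟨i, hi, h⟩ := h
  rcases h.eventually_constant_or_nhds_le_map_nhds with h1 | h1
  · exfalso
    apply hn
    have h2 : Tendsto (A.c i) (𝓝 x) (𝓝 (A.c i x)) := (A.c i).continuousAt hi
    filter_upwards [h2.eventually h1, (A.c i).open_source.mem_nhds hi] with y hy hs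
    rwa [(A.c i).left_inv hs, (A.c i).left_inv hi] at hy
  · simp only [(A.c i).left_inv hi] at h1
    refine h1.trans ?_
    rw [← A.nhds_symm hi, Filter.map_map]
    rfl

/-- nonzero derivative -/
def Reg (A : CAtl.{u, v} N) (f : N → ℂ) (x : N) : Prop :=
  ∃ i, x ∈ (A.c i).source ∧ deriv (fun z => f ((A.c i).symm z)) (A.c i x) ≠ 0

theorem Reg.not_const {f : N → ℂ} {x : N} (h : A.Reg f x) : ¬ ∀ᶠ y in 𝓝 x, f y = f x := by
  intro hc
  obtain ⟨i, hi, h⟩ := h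
  apply h
  have h2 : Tendsto (A.c i).symm (𝓝 (A.c i x)) (𝓝 x) := by
    rw [Filter.Tendsto, A.nhds_symm hi]
  have h3 : (fun z => f ((A.c i).symm z)) =ᶠ[𝓝 (A.c i x)] fun _ => f x := h2.eventually hc
  rw [h3.deriv_eq]
  exact deriv_const _ _

theorem HAt.eventually_reg {f : N → ℂ} {x : N} (h : A.HAt f x)
    (hn : ¬ ∀ᶠ y in 𝓝 x, f y = f x) : ∀ᶠ y in 𝓝 x, y ≠ x → A.Reg f y := by
  obtain ⟨i, hi, h⟩ := h
  have ht : Tendsto (A.c i) (𝓝 x) (𝓝 (A.c i x)) := (A.c i).continuousAt hi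
  rcases h.deriv.eventually_eq_zero_or_eventually_ne_zero with h1 | h1
  · exfalso
    apply hn
    have h2 : ∀ᶠ z in 𝓝 (A.c i x), HasDerivAt (fun z => f ((A.c i).symm z)) 0 z := by
      filter_upwards [h1, h.eventually_analyticAt] with z hz hz'
      have h3 := hz'.differentiableAt.hasDerivAt
      rwa [hz] at h3
    have h3 := eventually_const h2
    filter_upwards [ht.eventually h3, (A.c i).open_source.mem_nhds hi] with y hy hs
    rwa [(A.c i).left_inv hs, (A.c i).left_inv hi] at hy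
  · rw [eventually_nhdsWithin_iff] at h1
    filter_upwards [ht.eventually h1, (A.c i).open_source.mem_nhds hi] with y hy hs hne
    exact ⟨i, hs, hy fun h4 => hne ((A.c i).injOn hs hi h4)⟩

/-- a function with one simple pole `p0` -/
structure OnePole (A : CAtl.{u, v} N) (f : N → ℂ) (p0 : N) where
  /-- the chart at the pole -/
  i : A.ι
  /-- the local form of `1/f` -/
  E : OpenPartialHomeomorph ℂ ℂ
  hf : ∀ x, x ≠ p0 → A.HAt f x
  mem : p0 ∈ (A.c i).source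
  memE : A.c i p0 ∈ E.source
  sub : E.source ⊆ (A.c i).target
  zero : E (A.c i p0) = 0
  der : ∀ z ∈ E.source, ∃ d : ℂ, d ≠ 0 ∧ HasDerivAt E d z
  eq : ∀ z ∈ E.source, z ≠ A.c i p0 → f ((A.c i).symm z) = (E z)⁻¹

namespace OnePole

variable {f : N → ℂ} {p0 : N} (Q : OnePole A f p0)

/-- the neighbourhood of the pole -/
def D : Set N := {x | x ∈ (A.c Q.i).source ∧ A.c Q.i x ∈ Q.E.source}

theorem isOpen_D : IsOpen Q.D := (A.c Q.i).isOpen_inter_preimage Q.E.open_source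

theorem mem_D : p0 ∈ Q.D := ⟨Q.mem, Q.memE⟩

include Q in
theorem f_D {x : N} (hx : x ∈ Q.D) (hne : x ≠ p0) :
    Q.E (A.c Q.i x) ≠ 0 ∧ f x = (Q.E (A.c Q.i x))⁻¹ := by
  have h1 : A.c Q.i x ≠ A.c Q.i p0 := fun h => hne ((A.c Q.i).injOn hx.1 Q.mem h)
  have h2 := Q.eq _ hx.2 h1
  rw [(A.c Q.i).left_inv hx.1] at h2
  refine ⟨fun h3 => h1 (Q.E.injOn hx.2 Q.memE ?_), h2⟩
  rw [h3, Q.zero]

include Q in
theorem reg_D {x : N} (hx : x ∈ Q.D) (hne : x ≠ p0) : A.Reg f x := by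
  refine ⟨Q.i, hx.1, ?_⟩
  have h1 : A.c Q.i x ≠ A.c Q.i p0 := fun h => hne ((A.c Q.i).injOn hx.1 Q.mem h)
  have h2 : (fun z => f ((A.c Q.i).symm z)) =ᶠ[𝓝 (A.c Q.i x)] fun z => (Q.E z)⁻¹ := by
    filter_upwards [Q.E.open_source.mem_nhds hx.2, isOpen_ne.mem_nhds h1] with z hz hz'
    exact Q.eq z hz hz'
  rw [h2.deriv_eq]
  obtain ⟨d, hd, hd'⟩ := Q.der _ hx.2
  have h3 := (Q.f_D hx hne).1
  rw [(hd'.fun_inv h3).deriv]
  exact div_ne_zero (neg_ne_zero.2 hd) (pow_ne_zero 2 h3)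

include Q in
/-- the pole -/
theorem infty (R : ℝ) : ∀ᶠ x in 𝓝 p0, x ≠ p0 → R < ‖f x‖ := by
  have hc : ContinuousAt (fun x => Q.E (A.c Q.i x)) p0 :=
    ContinuousAt.comp (g := Q.E) (Q.E.continuousAt Q.memE) ((A.c Q.i).continuousAt Q.mem)
  have hpos : 0 < (|R| + 1)⁻¹ := inv_pos.2 (by positivity)
  have h1 : ∀ᶠ x in 𝓝 p0, ‖Q.E (A.c Q.i x)‖ < (|R| + 1)⁻¹ := by
    have h2 := hc.norm
    have h3 : ‖Q.E (A.c Q.i p0)‖ < (|R| + 1)⁻¹ := by rw [Q.zero, norm_zero]; exact hpos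
    exact h2.eventually (gt_mem_nhds h3)
  filter_upwards [h1, Q.isOpen_D.mem_nhds Q.mem_D] with x hx hxD hne
  obtain ⟨h2, h3⟩ := Q.f_D hxD hne
  rw [h3, norm_inv]
  have h4 : |R| + 1 < ‖Q.E (A.c Q.i x)‖⁻¹ := by
    rw [lt_inv_comm₀ (by positivity) (norm_pos_iff.2 h2)]
    exact hx
  linarith [le_abs_self R]

variable [T2Space N]

omit Q in
theorem isOpen_T : IsOpen {x | x ≠ p0 ∧ ∀ᶠ y in 𝓝 x, f y = f x} := by
  refine isOpen_iff_mem_nhds.2 fun x hx => ?_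
  have h1 := eventually_eventually_nhds.2 hx.2
  filter_upwards [h1, isOpen_ne.mem_nhds hx.1] with y hy hne
  refine ⟨hne, ?_⟩
  have h2 : f y = f x := hy.self_of_nhds
  rw [h2]
  exact hy

include Q in
theorem not_const [PreconnectedSpace N] {x : N} (hx : x ≠ p0) :
    ¬ ∀ᶠ y in 𝓝 x, f y = f x := by
  intro hc
  have hcl : IsClosed {x | x ≠ p0 ∧ ∀ᶠ y in 𝓝 x, f y = f x} := by
    rw [← isOpen_compl_iff]
    refine isOpen_iff_mem_nhds.2 fun y hy => ?_
    by_cases hyp : y = p0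
    · subst hyp
      filter_upwards [Q.isOpen_D.mem_nhds Q.mem_D] with z hz hz'
      exact (Q.reg_D hz hz'.1).not_const hz'.2
    · have h1 : ¬ ∀ᶠ z in 𝓝 y, f z = f y := fun h => hy ⟨hyp, h⟩
      filter_upwards [(Q.hf y hyp).eventually_reg h1] with z hz hz'
      by_cases hzy : z = y
      · subst hzy
        exact h1 hz'.2
      · exact (hz hzy).not_const hz'.2
  have h1 := isPreconnected_univ.subset_isClopen (t := {x | x ≠ p0 ∧ ∀ᶠ y in 𝓝 x, f y = f x})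
    ⟨hcl, isOpen_T⟩ ⟨x, mem_univ _, hx, hc⟩
  exact (h1 (mem_univ p0)).1 rfl

variable [CompactSpace N]

include Q in
/-- `f` is proper on the complement of the pole -/
theorem closed_image {K : Set N} (hK : IsClosed K) :
    IsClosed {c : ℂ | ∃ x ∈ K, x ≠ p0 ∧ f x = c} := by
  rw [← isOpen_compl_iff]
  refine isOpen_iff_mem_nhds.2 fun c hc => ?_
  obtain ⟨V, hV, hVo, hVp⟩ := _root_.mem_nhds_iff.1 (Q.infty (‖c‖ + 1))
  have hc1 : IsCompact (K \ V) := (hK.isCompact).diff hVo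
  have hcont : ContinuousOn f (K \ V) := by
    intro x hx
    have hxp : x ≠ p0 := fun h => hx.2 (h ▸ hVp)
    exact (Q.hf x hxp).continuousAt.continuousWithinAt
  have hcl : IsClosed (f '' (K \ V)) := (hc1.image_of_continuousOn hcont).isClosed
  have hcn : c ∉ f '' (K \ V) := by
    rintro ⟨x, hx, rfl⟩
    exact hc ⟨x, hx.1, fun h => hx.2 (h ▸ hVp), rfl⟩
  filter_upwards [hcl.isOpen_compl.mem_nhds hcn, ball_mem_nhds c one_pos] with d hd hd'
  rintro ⟨x, hx, hxp, rfl⟩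
  by_cases hxV : x ∈ V
  · have h1 := hV hxV hxp
    rw [mem_ball, dist_eq_norm] at hd'
    have h2 : ‖f x‖ ≤ ‖f x - c‖ + ‖c‖ := by
      simpa using norm_add_le (f x - c) c
    linarith
  · exact hd ⟨x, ⟨hx, hxV⟩, rfl⟩

include Q in
/-- finitely many critical points -/
theorem finite_crit [PreconnectedSpace N] : {x | x ≠ p0 ∧ ¬ A.Reg f x}.Finite := by
  have h : ((univ : Set N) ∩ {x | x ≠ p0 ∧ ¬ A.Reg f x}).Finite := by
    refine isCompact_univ.induction_on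
      (p := fun s => (s ∩ {x | x ≠ p0 ∧ ¬ A.Reg f x}).Finite) ?_ ?_ ?_ ?_
    · simp
    · intro s t hst ht
      exact ht.subset (inter_subset_inter_left _ hst)
    · intro s t hs ht
      rw [union_inter_distrib_right]
      exact hs.union ht
    · intro x _
      have h1 : ∀ᶠ y in 𝓝 x, y ≠ x → y ≠ p0 → A.Reg f y := by
        by_cases hx : x = p0
        · subst hx
          filter_upwards [Q.isOpen_D.mem_nhds Q.mem_D] with z hz h1 h2
          exact Q.reg_D hz h1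
        · filter_upwards [(Q.hf x hx).eventually_reg (Q.not_const hx)] with z hz h1 h2
          exact hz h1
      refine ⟨_, mem_nhdsWithin_of_mem_nhds h1, (finite_singleton x).subset ?_⟩
      rintro y ⟨hy, hy1, hy2⟩
      by_contra hyx
      exact hy2 (hy hyx hy1)
  rwa [univ_inter] at h

/-- values with exactly one preimage -/
def E1 (f : N → ℂ) (p0 : N) : Set ℂ := {c | ∃! x, x ≠ p0 ∧ f x = c}

include Q in
theorem large : ∃ R : ℝ, ∀ c : ℂ, R < ‖c‖ → c ∈ E1 f p0 := by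
  have hcK : IsCompact (Q.Dᶜ) := Q.isOpen_D.isClosed_compl.isCompact
  have hcont : ContinuousOn f Q.Dᶜ := by
    intro x hx
    have hxp : x ≠ p0 := fun h => hx (h ▸ Q.mem_D)
    exact (Q.hf x hxp).continuousAt.continuousWithinAt
  obtain ⟨M, hM⟩ := hcK.exists_bound_of_continuousOn hcont
  have h0 : (0 : ℂ) ∈ Q.E.target := by
    rw [← Q.zero]; exact Q.E.map_source Q.memE
  obtain ⟨ρ, hρ, hb⟩ := Metric.isOpen_iff.1 Q.E.open_target 0 h0
  refine ⟨max M ρ⁻¹, fun c hc => ?_⟩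
  have hcM : M < ‖c‖ := (le_max_left _ _).trans_lt hc
  have hcρ : ρ⁻¹ < ‖c‖ := (le_max_right _ _).trans_lt hc
  have hcpos : 0 < ‖c‖ := (inv_pos.2 hρ).trans hcρ
  have hc0 : c ≠ 0 := norm_pos_iff.1 hcpos
  have hci : c⁻¹ ∈ Q.E.target := by
    apply hb
    rw [mem_ball, dist_zero_right, norm_inv]
    rw [inv_lt_comm₀ hcpos hρ]
    exact hcρ
  have hz := Q.E.map_target hci
  have hEz : Q.E (Q.E.symm c⁻¹) = c⁻¹ := Q.E.right_inv hci
  have hz0 : Q.E.symm c⁻¹ ≠ A.c Q.i p0 := by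
    intro h
    rw [h, Q.zero] at hEz
    exact inv_ne_zero hc0 hEz.symm
  refine ⟨(A.c Q.i).symm (Q.E.symm c⁻¹), ⟨?_, ?_⟩, ?_⟩
  · intro h
    apply hz0
    have h5 := congrArg (A.c Q.i) h
    rwa [(A.c Q.i).right_inv (Q.sub hz)] at h5
  · rw [Q.eq _ hz hz0, hEz, inv_inv]
  · rintro y ⟨hy, hyc⟩
    have hyD : y ∈ Q.D := by
      by_contra h
      have := hM y h
      rw [hyc] at this
      linarith
    obtain ⟨h1, h2⟩ := Q.f_D hyD hy
    have h3 : Q.E (A.c Q.i y) = c⁻¹ := by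
      rw [← hyc, h2, inv_inv]
    have h4 : A.c Q.i y = Q.E.symm c⁻¹ := by
      rw [← h3, Q.E.left_inv hyD.2]
    rw [← h4, (A.c Q.i).left_inv hyD.1]

variable [PreconnectedSpace N]

include Q in
theorem isClosed_E1 : IsClosed (E1 f p0) := by
  rw [← isOpen_compl_iff]
  refine isOpen_iff_mem_nhds.2 fun c hc => ?_
  by_cases hex : ∃ x ∈ (univ : Set N), x ≠ p0 ∧ f x = c
  · obtain ⟨x, -, hx, hxc⟩ := hex
    have h1 : ∃ y, y ≠ p0 ∧ f y = c ∧ y ≠ x := by
      by_contra h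
      push Not at h
      exact hc ⟨x, ⟨hx, hxc⟩, fun y hy => h y hy.1 hy.2⟩
    obtain ⟨y, hy, hyc, hyx⟩ := h1
    obtain ⟨U, V, hU, hV, hxU, hyV, hUV⟩ := t2_separation hyx.symm
    have o1 : f '' (U ∩ {x | x ≠ p0}) ∈ 𝓝 c := by
      rw [← hxc]
      exact (Q.hf x hx).nhds_le (Q.not_const hx)
        (image_mem_map ((hU.inter isOpen_ne).mem_nhds ⟨hxU, hx⟩))
    have o2 : f '' (V ∩ {x | x ≠ p0}) ∈ 𝓝 c := by
      rw [← hyc]
      exact (Q.hf y hy).nhds_le (Q.not_const hy)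
        (image_mem_map ((hV.inter isOpen_ne).mem_nhds ⟨hyV, hy⟩))
    filter_upwards [o1, o2] with d hd1 hd2 hd
    obtain ⟨a, ⟨ha1, ha2⟩, ha3⟩ := hd1
    obtain ⟨b, ⟨hb1, hb2⟩, hb3⟩ := hd2
    have hab : a = b := hd.unique ⟨ha2, ha3⟩ ⟨hb2, hb3⟩
    exact hUV.le_bot ⟨ha1, by rw [hab]; exact hb1⟩
  · have h1 := (Q.closed_image isClosed_univ).isOpen_compl.mem_nhds hex
    filter_upwards [h1] with d hd hd'
    obtain ⟨x, hx, -⟩ := hd'
    exact hd ⟨x, mem_univ _, hx⟩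

include Q in
theorem E1_univ : E1 f p0 = univ := by
  set C : Set ℂ := f '' {x | x ≠ p0 ∧ ¬ A.Reg f x} with hC
  have hCf : C.Finite := Q.finite_crit.image f
  have hcon : IsConnected Cᶜ := hCf.countable.isConnected_compl_of_one_lt_rank (by
    rw [Complex.rank_real_complex]
    exact_mod_cast Nat.one_lt_two)
  have hden : Dense Cᶜ := hCf.countable.dense_compl ℝ
  have hopen : IsOpen (E1 f p0 ∩ Cᶜ) := by
    refine isOpen_iff_mem_nhds.2 fun c hc => ?_
    obtain ⟨⟨x, ⟨hx, hxc⟩, hu⟩, hcC⟩ := hc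
    have hreg : A.Reg f x := by
      by_contra h
      exact hcC ⟨x, ⟨hx, h⟩, hxc⟩
    -- f is injective near x
    have hinj : ∃ U : Set N, IsOpen U ∧ x ∈ U ∧ InjOn f U ∧ U ⊆ {x | x ≠ p0} := by
      obtain ⟨i, hi, hd⟩ := hreg
      have ha := (Q.hf x hx).all hi
      obtain ⟨E, hE0, hE1, hE2, hE3⟩ := hol_chart (U := {z | AnalyticAt ℂ
        (fun z => f ((A.c i).symm z)) z}) (isOpen_analyticAt ℂ _)
        (W := fun z => f ((A.c i).symm z))
        (fun z hz => (show AnalyticAt ℂ _ z from hz).differentiableAt.differentiableWithinAt)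
        (z0 := A.c i x) ha hd
      refine ⟨((A.c i).source ∩ (A.c i) ⁻¹' E.source) ∩ {x | x ≠ p0},
        ((A.c i).isOpen_inter_preimage E.open_source).inter isOpen_ne, ⟨⟨hi, hE0⟩, hx⟩, ?_,
        fun y hy => hy.2⟩
      rintro y ⟨⟨hy1, hy2⟩, -⟩ z ⟨⟨hz1, hz2⟩, -⟩ hyz
      apply (A.c i).injOn hy1 hz1
      apply E.injOn hy2 hz2
      rw [hE2 _ hy2, hE2 _ hz2, (A.c i).left_inv hy1, (A.c i).left_inv hz1]
      exact hyz
    obtain ⟨U, hU, hxU, hUi, hUp⟩ := hinj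
    have o1 : f '' U ∈ 𝓝 c := by
      rw [← hxc]
      exact (Q.hf x hx).nhds_le (Q.not_const hx) (image_mem_map (hU.mem_nhds hxU))
    have o2 : {c : ℂ | ∃ x ∈ Uᶜ, x ≠ p0 ∧ f x = c}ᶜ ∈ 𝓝 c := by
      refine (Q.closed_image hU.isClosed_compl).isOpen_compl.mem_nhds ?_
      rintro ⟨y, hy1, hy2, hy3⟩
      have : y = x := hu y ⟨hy2, hy3⟩
      exact hy1 (by rw [this]; exact hxU)
    have o3 : Cᶜ ∈ 𝓝 c := hCf.isClosed.isOpen_compl.mem_nhds hcC
    filter_upwards [o1, o2, o3] with d hd1 hd2 hd3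
    obtain ⟨y, hyU, hyd⟩ := hd1
    refine ⟨⟨y, ⟨hUp hyU, hyd⟩, ?_⟩, hd3⟩
    rintro z ⟨hz1, hz2⟩
    have hzU : z ∈ U := by
      by_contra h
      exact hd2 ⟨z, h, hz1, hz2⟩
    exact hUi hzU hyU (hz2.trans hyd.symm)
  have hne : (Cᶜ ∩ (E1 f p0 ∩ Cᶜ)).Nonempty := by
    obtain ⟨R, hR⟩ := Q.large
    obtain ⟨R', hR'⟩ := hCf.isBounded.exists_norm_le
    have h1 : ((max (max R R') 0 + 1 : ℝ) : ℂ) ∈ Cᶜ := by
      intro h
      have h2 := hR' _ h
      rw [Complex.norm_real, Real.norm_of_nonneg (by positivity)] at h2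
      have := (le_max_right R R').trans (le_max_left (max R R') 0)
      linarith
    refine ⟨_, h1, hR _ ?_, h1⟩
    rw [Complex.norm_real, Real.norm_of_nonneg (by positivity)]
    have := (le_max_left R R').trans (le_max_left (max R R') 0)
    linarith
  have hsub : Cᶜ ⊆ E1 f p0 ∩ Cᶜ := by
    refine hcon.isPreconnected.subset_left_of_subset_union hopen Q.isClosed_E1.isOpen_compl ?_ ?_
      hne
    · rw [Set.disjoint_left]
      intro c hc hc'
      exact hc' hc.1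
    · intro c hc
      by_cases h : c ∈ E1 f p0
      · exact Or.inl ⟨h, hc⟩
      · exact Or.inr h
  have h1 : closure Cᶜ ⊆ E1 f p0 :=
    Q.isClosed_E1.closure_subset_iff.2 fun c hc => (hsub hc).1
  rw [hden.closure_eq] at h1
  exact univ_subset_iff.1 h1

end OnePole

end CAtl

end

end Crest.Agent.R235.RS
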