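import Crest.Agent.R235.RSBas_538
import Crest.Agent.R272.TrTor1_732

/-!
Row 235, package RS (helper538): a closed Riemann surface with a holomorphic one-form without zeros
is a torus.  The primitives of the one-form are charts with locally translational transition maps;
`Crest.Agent.R272.TrTor1_732.exists_uniformization` does the rest.
-/

set_option autoImplicit false

open Set Filter Topology Function Metric

universe u v

namespace Crest.Agent.R235.RS

noncomputable section

/-- local coordinates adapted to `h dz` -/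
theorem prim_chart {U : Set ℂ} (hU : IsOpen U) {h : ℂ → ℂ} (hh : DifferentiableOn ℂ h U)
    {z0 : ℂ} (hz0 : z0 ∈ U) (hne : h z0 ≠ 0) :
    ∃ E : OpenPartialHomeomorph ℂ ℂ, z0 ∈ E.source ∧ E.source ⊆ U ∧ E z0 = 0 ∧
      ∀ z ∈ E.source, HasDerivAt E (h z) z := by
  obtain ⟨ρ, hρ, hb⟩ := Metric.isOpen_iff.1 hU z0 hz0
  obtain ⟨H, hH0, hH⟩ := ((hh.mono hb).isExactOn_ball).with_val_at z0 0
  have hHd : DifferentiableOn ℂ H (ball z0 ρ) :=
    fun z hz => (hH z hz).differentiableAt.differentiableWithinAt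
  have hHa : AnalyticAt ℂ H z0 := hHd.analyticAt (isOpen_ball.mem_nhds (mem_ball_self hρ))
  have hs : HasStrictDerivAt H (h z0) z0 := by
    have h1 := hHa.hasStrictDerivAt
    rwa [(hH z0 (mem_ball_self hρ)).deriv] at h1
  have hf := hs.hasStrictFDerivAt_equiv hne
  refine ⟨(hf.toOpenPartialHomeomorph H).restrOpen (ball z0 ρ) isOpen_ball, ?_, ?_, ?_, ?_⟩
  · exact ⟨hf.mem_toOpenPartialHomeomorph_source, mem_ball_self hρ⟩
  · exact fun z hz => hb hz.2
  · exact hH0
  · intro z hz
    exact hH z hz.2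

/-- a function with zero derivative near a point is locally constant -/
theorem eventually_const {F : ℂ → ℂ} {z0 : ℂ} (h : ∀ᶠ z in 𝓝 z0, HasDerivAt F 0 z) :
    ∀ᶠ z in 𝓝 z0, F z = F z0 := by
  obtain ⟨δ, hδ, hb⟩ := Metric.eventually_nhds_iff_ball.1 h
  refine Metric.eventually_nhds_iff_ball.2 ⟨δ, hδ, fun w hw => ?_⟩
  have hd : DifferentiableOn ℂ F (ball z0 δ) :=
    fun w hw => (hb w hw).differentiableAt.differentiableWithinAt
  refine (convex_ball z0 δ).is_const_of_fderivWithin_eq_zero (𝕜 := ℂ) hd (fun w hw => ?_) hw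
    (mem_ball_self hδ)
  rw [((hb w hw).hasFDerivAt.hasFDerivWithinAt).fderivWithin (isOpen_ball.uniqueDiffWithinAt hw)]
  ext
  simp

namespace CAtl

variable {N : Type u} [TopologicalSpace N] {A : CAtl.{u, v} N} {ω : A.HForm}

/-- ω has no zeros -/
def NZ (ω : A.HForm) : Prop := ∀ i, ∀ z ∈ (A.c i).target, ω.h i z ≠ 0

/-- a primitive chart at `x` -/
structure PChart (ω : A.HForm) (x : N) where
  /-- the index -/
  i : A.ι
  /-- the chart of the plane -/
  E : OpenPartialHomeomorph ℂ ℂ
  mem : x ∈ (A.c i).source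
  memE : A.c i x ∈ E.source
  sub : E.source ⊆ (A.c i).target
  der : ∀ z ∈ E.source, HasDerivAt E (ω.h i z) z

theorem exists_pchart (hnz : NZ ω) (x : N) : Nonempty (PChart ω x) := by
  obtain ⟨i, hi⟩ := A.cover x
  have ht := (A.c i).map_source hi
  obtain ⟨E, hE0, hEU, hE1, hE⟩ := prim_chart (A.c i).open_target (ω.hol i) ht (hnz i _ ht)
  exact ⟨⟨i, E, hi, hE0, hEU, hE⟩⟩

/-- the chart of `N` -/
def PChart.e {x : N} (p : PChart ω x) : OpenPartialHomeomorph N ℂ := (A.c p.i).trans p.E

theorem PChart.mem_e {x : N} (p : PChart ω x) : x ∈ p.e.source := ⟨p.mem, p.memE⟩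

theorem PChart.tr {x y : N} (p : PChart ω x) (q : PChart ω y) {w : N} (hp : w ∈ p.e.source)
    (hq : w ∈ q.e.source) : ∃ c : ℂ, ∀ᶠ y in 𝓝 w, q.e y = p.e y + c := by
  have hp1 : w ∈ (A.c p.i).source := hp.1
  have hp2 : A.c p.i w ∈ p.E.source := hp.2
  have hq1 : w ∈ (A.c q.i).source := hq.1
  have hq2 : A.c q.i w ∈ q.E.source := hq.2
  have hd := A.c_mem_dom hp1 hq1
  have h1 : ∀ᶠ z in 𝓝 (A.c p.i w),
      HasDerivAt (fun z => q.E (A.tr p.i q.i z) - p.E z) 0 z := by
    have hc : Tendsto (A.tr p.i q.i) (𝓝 (A.c p.i w)) (𝓝 (A.c q.i w)) := by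
      have := (A.tr_diffAt hd).continuousAt.tendsto
      rwa [A.tr_c hp1] at this
    filter_upwards [(A.isOpen_dom p.i q.i).mem_nhds hd, p.E.open_source.mem_nhds hp2,
      hc.eventually (q.E.open_source.mem_nhds hq2)] with z hz1 hz2 hz3
    have h2 := HasDerivAt.comp z (q.der _ hz3) (A.tr_diffAt hz1).hasDerivAt
    have h3 := h2.sub (p.der z hz2)
    rw [← ω.tr p.i q.i z hz1, sub_self] at h3
    exact h3
  have h2 := eventually_const h1
  have hcp : Tendsto (A.c p.i) (𝓝 w) (𝓝 (A.c p.i w)) := (A.c p.i).continuousAt hp1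
  refine ⟨q.E (A.tr p.i q.i (A.c p.i w)) - p.E (A.c p.i w), ?_⟩
  filter_upwards [hcp.eventually h2, (A.c p.i).open_source.mem_nhds hp1] with y hy1 hy2
  show q.E (A.c q.i y) = p.E (A.c p.i y) + _
  rw [← hy1, A.tr_c hy2]
  ring

/-- the translation atlas of a one-form without zeros -/
def tatl (hnz : NZ ω) : R272.TrTor1_732.TrAtl.{0, u, u} ℂ N where
  ι := N
  e := fun x => (Classical.choice (exists_pchart hnz x)).e
  cover := fun x => ⟨x, (Classical.choice (exists_pchart hnz x)).mem_e⟩
  tr := fun i j _ hi hj => (Classical.choice (exists_pchart hnz i)).tr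
    (Classical.choice (exists_pchart hnz j)) hi hj

/-- **a closed Riemann surface with a one-form without zeros is a torus.** -/
theorem isTor_of_nz [T2Space N] [CompactSpace N] [ConnectedSpace N] (hnz : NZ ω) : A.IsTor := by
  obtain ⟨x⟩ := (inferInstance : Nonempty N)
  obtain ⟨P, o, ho, -, hPc, -, hPs, hPe, hPt⟩ :=
    R272.TrTor1_732.exists_uniformization (tatl hnz) x Complex.finrank_real_complex
  -- the local form of `P`
  have hder : ∀ z i, P z ∈ (A.c i).source →
      ∃ c : ℂ, c ≠ 0 ∧ HasDerivAt (fun w => A.c i (P w)) c z := by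
    intro z i hi
    set p : PChart ω (P z) := Classical.choice (exists_pchart hnz (P z)) with hp
    have h1 := hPt z (P z) p.mem_e
    have hd := A.c_mem_dom p.mem hi
    have h2 : HasDerivAt (fun w => p.e (P z) + (w - z)) 1 z := by
      simpa using ((hasDerivAt_id z).sub_const z).const_add (p.e (P z))
    have hnz' : ω.h p.i (A.c p.i (P z)) ≠ 0 := hnz _ _ ((A.c p.i).map_source p.mem)
    have hpe : p.e (P z) = p.E (A.c p.i (P z)) := rfl
    have ht : p.E (A.c p.i (P z)) ∈ p.E.target := p.E.map_source p.memE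
    have h3 : HasDerivAt p.E.symm (ω.h p.i (A.c p.i (P z)))⁻¹ (p.E (A.c p.i (P z))) := by
      refine p.E.hasDerivAt_symm ht hnz' ?_
      rw [p.E.left_inv p.memE]
      exact p.der _ p.memE
    have h4 : HasDerivAt (A.tr p.i i) (deriv (A.tr p.i i) (A.c p.i (P z)))
        (A.c p.i (P z)) := (A.tr_diffAt hd).hasDerivAt
    have h5 : HasDerivAt (fun w => p.E.symm (p.e (P z) + (w - z)))
        ((ω.h p.i (A.c p.i (P z)))⁻¹ * 1) z := by
      refine HasDerivAt.comp (h₂ := p.E.symm) z ?_ h2
      simp only [sub_self, add_zero]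
      rw [hpe]
      exact h3
    have h6 : HasDerivAt (fun w => A.tr p.i i (p.E.symm (p.e (P z) + (w - z))))
        (deriv (A.tr p.i i) (A.c p.i (P z)) * ((ω.h p.i (A.c p.i (P z)))⁻¹ * 1)) z := by
      refine HasDerivAt.comp (h₂ := A.tr p.i i) z ?_ h5
      simp only [sub_self, add_zero]
      rw [hpe, p.E.left_inv p.memE]
      exact h4
    refine ⟨_, ?_, h6.congr_of_eventuallyEq ?_⟩
    · rw [mul_one]
      exact mul_ne_zero (A.deriv_tr_ne hd) (inv_ne_zero hnz')
    · filter_upwards [h1] with w hw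
      have hw1 : P w ∈ (A.c p.i).source := hw.1.1
      have hw2 : A.c p.i (P w) ∈ p.E.source := hw.1.2
      have hw3 : p.E (A.c p.i (P w)) = p.e (P z) + (w - z) := hw.2
      rw [← hw3, p.E.left_inv hw2, A.tr_c hw1]
  -- the lattice
  have hspan : ∀ z w, P z = P w ↔ ∃ m n : ℤ, w = z + m * o 0 + n * o 1 := by
    intro z w
    rw [hPe z w]
    have hr : range o = {o 0, o 1} := by
      ext y
      simp only [mem_range, mem_insert_iff, mem_singleton_iff]
      constructor
      · rintro ⟨i, rfl⟩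
        fin_cases i
        · left; rfl
        · right; rfl
      · rintro (h | h)
        · exact ⟨0, h.symm⟩
        · exact ⟨1, h.symm⟩
    rw [hr, Submodule.mem_span_pair]
    constructor
    · rintro ⟨m, n, h⟩
      refine ⟨-m, -n, ?_⟩
      simp only [zsmul_eq_mul] at h
      push_cast
      linear_combination h
    · rintro ⟨m, n, h⟩
      refine ⟨-m, -n, ?_⟩
      simp only [zsmul_eq_mul]
      push_cast
      linear_combination h
  have hHol : A.Hol P := by
    refine ⟨hPc, fun i z hz => ?_⟩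
    obtain ⟨c, -, hc⟩ := hder z i hz
    exact hc.differentiableAt.differentiableWithinAt
  have hImm : A.Imm P := by
    intro i z hz
    obtain ⟨c, hc0, hc⟩ := hder z i hz
    rw [hc.deriv]
    exact hc0
  -- orientation
  have hor : (star (o 0) * o 1).im ≠ 0 := by
    intro h
    have h2 : ∀ s t : ℝ, s • o 0 + t • o 1 = 0 → s = 0 ∧ t = 0 := by
      intro s t hst
      have h3 := Fintype.linearIndependent_iff.1 ho ![s, t] (by
        rw [Fin.sum_univ_two]
        exact hst)
      exact ⟨h3 0, h3 1⟩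
    have h1 : (o 0).re * (o 1).im - (o 0).im * (o 1).re = 0 := by
      have := h
      simp only [Complex.star_def, Complex.mul_im, Complex.conj_re, Complex.conj_im] at this
      linarith
    by_cases h0 : o 0 = 0
    · have := (h2 1 0 (by rw [h0]; simp)).1
      exact one_ne_zero this
    · have h3 := h2 ((star (o 0) * o 1).re) (-(Complex.normSq (o 0))) (by
        have e1 : ((star (o 0) * o 1).re : ℂ) = star (o 0) * o 1 := by
          apply Complex.ext
          · simp
          · rw [h]; simp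
        rw [Complex.real_smul, Complex.real_smul, e1]
        push_cast
        rw [← Complex.mul_conj, Complex.star_def]
        ring)
      have h4 := h3.2
      rw [neg_eq_zero, Complex.normSq_eq_zero] at h4
      exact h0 h4
  rcases lt_or_gt_of_ne hor with hlt | hgt
  · refine ⟨o 1, o 0, P, ?_, hHol, hImm, hPs, fun z w => ?_⟩
    · simp only [Complex.star_def, Complex.mul_im, Complex.conj_re, Complex.conj_im] at hlt ⊢
      linarith
    · rw [hspan]
      constructor
      · rintro ⟨m, n, h⟩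
        exact ⟨n, m, by rw [h]; ring⟩
      · rintro ⟨m, n, h⟩
        exact ⟨n, m, by rw [h]; ring⟩
  · exact ⟨o 0, o 1, P, hgt, hHol, hImm, hPs, hspan⟩

end CAtl

end

end Crest.Agent.R235.RS
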