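import Crest.Agent.R235.Rc0_820
import Crest.Agent.R235.RCDefs_746
import Crest.Agent.R235.FamP_151

/-!
Row 235, block FAM/RC (helper820), RC-ABS part 1: general lemmas.

* `cr_eq`    : `RCDefs_746.Cr (Cr j D 1) ε = Rc0_820.Cr j D ε`;
* `base`     : `Base (gr H0 H1) (Cr j D 1)`;
* `odR`      : `β ↦ od β` as a real continuous linear map; `od_rk`;
* `pj`       : smooth orthogonal projection onto the range of `T h = T h P h`;
* `dl`, `tr_dl`, `app_dl` : dilation `T ↦ ι T ι*` along an isometry.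
-/

set_option autoImplicit false
set_option linter.unusedSectionVars false

open scoped InnerProductSpace ContDiff Topology
open Complex Filter

namespace Crest.Agent.R235.Rc1_820

open Crest.Agent.R235.Rc0_820 Crest.Agent.R235.RCTr_746
open Crest.Agent.R235.FamR_151 (cd_comp cd_inv cd_adj)
open Crest.Agent.R235.RCDefs_746 (Base Fam KerF Inf Gr)

noncomputable section

local notation "⟪" x ", " y "⟫" => inner ℂ x y

section conv

variable {X H0 H1 : Type*} [NormedAddCommGroup X] [InnerProductSpace ℂ X] [CompleteSpace X]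
  [NormedAddCommGroup H0] [InnerProductSpace ℂ H0] [CompleteSpace H0]
  [NormedAddCommGroup H1] [InnerProductSpace ℂ H1] [CompleteSpace H1]
  {j : X →L[ℂ] H0} {D : X →L[ℂ] H1}

theorem cr_inv (hc : Coer j D) {ε : ℝ} (hε : ε ≠ 0) :
    ((ε : ℂ) • (1 : HT H0 H1 →L[ℂ] HT H0 H1) + ((1 - ε : ℝ) : ℂ) • Cr j D 1) *
        ((ε : ℂ)⁻¹ • ((1 : HT H0 H1 →L[ℂ] HT H0 H1) + ((ε : ℂ) - 1) • Cr j D ε)) = 1 ∧
    ((ε : ℂ)⁻¹ • ((1 : HT H0 H1 →L[ℂ] HT H0 H1) + ((ε : ℂ) - 1) • Cr j D ε)) *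
      ((ε : ℂ) • (1 : HT H0 H1 →L[ℂ] HT H0 H1) + ((1 - ε : ℝ) : ℂ) • Cr j D 1) = 1 ∧
    Cr j D 1 * ((ε : ℂ)⁻¹ • ((1 : HT H0 H1 →L[ℂ] HT H0 H1) + ((ε : ℂ) - 1) • Cr j D ε)) =
      Cr j D ε := by
  have hε' : (ε : ℂ) ≠ 0 := by exact_mod_cast hε
  have a1 := Cr_eps' (ε := ε) (δ := 1) hc hε one_ne_zero
  have a2 := Cr_eps' (ε := 1) (δ := ε) hc one_ne_zero hε
  simp only [ofReal_one, one_smul] at a1 a2
  set C := Cr j D ε with hC
  set C1 := Cr j D 1 with hC1
  have b1 : (ε : ℂ) • C = C1 + ((ε : ℂ) - 1) • (C1 * C) := by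
    rw [a1, mul_add, mul_one, mul_smul_comm]
  have b2 : C1 = (ε : ℂ) • C + (1 - (ε : ℂ)) • (C * C1) := by
    conv_lhs => rw [a2]
    rw [mul_add, mul_smul_comm, mul_one, mul_smul_comm]
  refine ⟨?_, ?_, ?_⟩
  · rw [mul_smul_comm, add_mul, mul_add, mul_add, mul_one, smul_mul_assoc, one_mul,
      smul_mul_assoc, mul_one, mul_smul_comm]
    have h3 : ((ε : ℂ) - 1) • ((ε : ℂ) • C) = ((ε : ℂ) - 1) • (C1 + ((ε : ℂ) - 1) • (C1 * C)) := by
      rw [← b1]
    have h4 : (ε : ℂ) • (1 : HT H0 H1 →L[ℂ] HT H0 H1) + (ε : ℂ) • (((ε : ℂ) - 1) • C) +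
        (((1 - ε : ℝ) : ℂ) • C1 + ((ε : ℂ) - 1) • (((1 - ε : ℝ) : ℂ) • (C1 * C))) =
        (ε : ℂ) • 1 := by
      have h5 : (ε : ℂ) • (((ε : ℂ) - 1) • C) = ((ε : ℂ) - 1) • C1 +
          (((ε : ℂ) - 1) * ((ε : ℂ) - 1)) • (C1 * C) := by
        rw [smul_comm, h3, smul_add, smul_smul]
      rw [h5]
      push_cast
      module
    rw [smul_mul_assoc, h4, smul_smul, inv_mul_cancel₀ hε', one_smul]
  · rw [smul_mul_assoc, add_mul, mul_add, mul_add, one_mul, one_mul, smul_mul_assoc,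
      mul_smul_comm, mul_one, smul_mul_assoc, mul_smul_comm]
    have h3 : (1 - (ε : ℂ)) • C1 = (1 - (ε : ℂ)) • ((ε : ℂ) • C + (1 - (ε : ℂ)) • (C * C1)) := by
      rw [← b2]
    have h4 : (ε : ℂ) • (1 : HT H0 H1 →L[ℂ] HT H0 H1) + ((1 - ε : ℝ) : ℂ) • C1 +
        (((ε : ℂ) - 1) • ((ε : ℂ) • C) + ((ε : ℂ) - 1) • (((1 - ε : ℝ) : ℂ) • (C * C1))) =
        (ε : ℂ) • 1 := by
      push_cast
      rw [h3]
      module
    rw [h4, smul_smul, inv_mul_cancel₀ hε', one_smul]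
  · rw [mul_smul_comm, mul_add, mul_one, mul_smul_comm, ← b1, smul_smul, inv_mul_cancel₀ hε',
      one_smul]

/-- the resolvents of `RCDefs_746`. -/
theorem cr_eq (hc : Coer j D) {ε : ℝ} (hε : ε ≠ 0) :
    RCDefs_746.Cr (Cr j D 1) ε = Cr j D ε := by
  obtain ⟨h1, h2, h3⟩ := cr_inv hc hε
  have hu : Ring.inverse ((ε : ℂ) • (1 : HT H0 H1 →L[ℂ] HT H0 H1) + ((1 - ε : ℝ) : ℂ) • Cr j D 1) =
      ((ε : ℂ)⁻¹ • ((1 : HT H0 H1 →L[ℂ] HT H0 H1) + ((ε : ℂ) - 1) • Cr j D ε)) := by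
    let u : (HT H0 H1 →L[ℂ] HT H0 H1)ˣ := ⟨_, _, h1, h2⟩
    have := Ring.inverse_unit u
    exact this
  unfold RCDefs_746.Cr
  rw [hu, h3]

theorem star_cr (hc : Coer j D) {ε : ℝ} (hε : ε ≠ 0) : star (Cr j D ε) = Cr j D (-ε) := by
  rw [ContinuousLinearMap.star_eq_adjoint, Cr_adj hc hε]

theorem star_gr : star (gr H0 H1) = gr H0 H1 := by
  rw [ContinuousLinearMap.star_eq_adjoint]
  symm
  rw [ContinuousLinearMap.eq_adjoint_iff]
  exact inner_gr

theorem base (hc : Coer j D) (hA : ∃ c, App (Cr j D 1) c (1 / 4)) :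
    Base (gr H0 H1) (Cr j D 1) where
  gg := gr_mul_gr
  gs := star_gr
  kk := by rw [star_cr hc one_ne_zero]; exact C_add_adj' hc one_ne_zero
  kk' := by rw [star_cr hc one_ne_zero]; exact C_add_adj hc one_ne_zero
  gk := by
    rw [star_cr hc one_ne_zero]
    ext1 x
    exact gCg hc one_ne_zero x
  app := hA

end conv

/-! ### off-diagonal operators -/

section odr

variable {H0 H1 : Type*}
  [NormedAddCommGroup H0] [InnerProductSpace ℂ H0] [CompleteSpace H0]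
  [NormedAddCommGroup H1] [InnerProductSpace ℂ H1] [CompleteSpace H1]

lemma od_add (β γ : H0 →L[ℂ] H1) : od (β + γ) = od β + od γ := by
  have := od_sub (β + γ) γ
  rw [add_sub_cancel_right] at this
  rw [this]; abel

lemma norm_od (β : H0 →L[ℂ] H1) : ‖od β‖ ≤ ‖β‖ := by
  refine ContinuousLinearMap.opNorm_le_bound _ (norm_nonneg _) fun x => ?_
  have h1 : ‖od β x‖ ^ 2 ≤ (‖β‖ * ‖x‖) ^ 2 := by
    rw [norm_HT, mul_pow, norm_HT x, od_fst, od_snd]
    have a := ContinuousLinearMap.le_opNorm (ContinuousLinearMap.adjoint β) x.snd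
    have b := ContinuousLinearMap.le_opNorm β x.fst
    rw [LinearIsometryEquiv.norm_map] at a
    have a' := pow_le_pow_left₀ (norm_nonneg _) a 2
    have b' := pow_le_pow_left₀ (norm_nonneg _) b 2
    rw [mul_pow] at a' b'
    nlinarith
  exact (pow_le_pow_iff_left₀ (norm_nonneg _) (by positivity) two_ne_zero).1 h1

/-- `β ↦ od β` as a real linear map. -/
def odR : (H0 →L[ℂ] H1) →L[ℝ] (HT H0 H1 →L[ℂ] HT H0 H1) :=
  LinearMap.mkContinuous
    { toFun := fun β => od β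
      map_add' := fun S T => od_add S T
      map_smul' := fun c T => by
        have h : c • T = (c : ℂ) • T := by ext v; simp
        rw [h]
        ext1 x
        refine ext_HT ?_ ?_
        · rw [od_fst, map_smulₛₗ]
          simp
        · simp } 1 (fun T => by
      show ‖od T‖ ≤ 1 * ‖T‖
      rw [one_mul]
      exact norm_od T)

@[simp] lemma odR_apply (β : H0 →L[ℂ] H1) : odR β = od β := rfl

lemma star_od (β : H0 →L[ℂ] H1) : star (od β) = od β := by
  rw [ContinuousLinearMap.star_eq_adjoint]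
  symm
  rw [ContinuousLinearMap.eq_adjoint_iff]
  exact inner_od β

lemma star_Iod (β : H0 →L[ℂ] H1) : star (I • od β) = - (I • od β) := by
  rw [star_smul, star_od, Complex.star_def, conj_I]
  ext1 x
  show (-I) • od β x = -(I • od β x)
  rw [neg_smul]

lemma gr_Iod (β : H0 →L[ℂ] H1) : gr H0 H1 * (I • od β) * gr H0 H1 = - (I • od β) := by
  ext1 x
  refine ext_HT ?_ ?_
  · show I • ContinuousLinearMap.adjoint β (-x.snd) = -(I • ContinuousLinearMap.adjoint β x.snd)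
    rw [map_neg, smul_neg]
  · rfl

/-- an operator which factors over a finite dimensional space. -/
lemma rk_of {H E : Type*} [NormedAddCommGroup H] [InnerProductSpace ℂ H]
    [AddCommGroup E] [Module ℂ E] [FiniteDimensional ℂ E] {F : H →L[ℂ] H} (G : E →ₗ[ℂ] H)
    (h : ∀ x, ∃ e, F x = G e) : Rk F (Module.finrank ℂ E) := by
  have h1 : LinearMap.range (F : H →ₗ[ℂ] H) ≤ LinearMap.range G := by
    rintro _ ⟨x, rfl⟩
    obtain ⟨e, he⟩ := h x
    exact ⟨e, he.symm⟩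
  have : FiniteDimensional ℂ (LinearMap.range (F : H →ₗ[ℂ] H)) :=
    Submodule.finiteDimensional_of_le h1
  exact ⟨this, (Submodule.finrank_mono h1).trans (LinearMap.finrank_range_le G)⟩

/-- `od (T ∘ snd)` for `T : W →L H1`, `W` finite dimensional. -/
lemma od_rk {W : Type*} [NormedAddCommGroup W] [InnerProductSpace ℂ W] [CompleteSpace W]
    [FiniteDimensional ℂ W] (T : W →L[ℂ] H1) :
    Rk (I • od (T ∘L p1 H0 W)) (Module.finrank ℂ (W × W)) := by
  refine rk_of (E := W × W)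
    ((I • (pr (pr (0 : W × W →L[ℂ] H0) (ContinuousLinearMap.fst ℂ W W))
      (T ∘L ContinuousLinearMap.snd ℂ W W)) : W × W →L[ℂ] HT (HT H0 W) H1) : W × W →ₗ[ℂ] _) ?_
  intro x
  refine ⟨(ContinuousLinearMap.adjoint T x.snd, x.fst.snd), ?_⟩
  refine ext_HT ?_ rfl
  show I • ContinuousLinearMap.adjoint (T ∘L p1 H0 W) x.snd =
    I • (pr (0 : W × W →L[ℂ] H0) (ContinuousLinearMap.fst ℂ W W)
      (ContinuousLinearMap.adjoint T x.snd, x.fst.snd))
  congr 1
  rw [ContinuousLinearMap.adjoint_comp]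
  show ContinuousLinearMap.adjoint (p1 H0 W) (ContinuousLinearMap.adjoint T x.snd) = _
  refine ext_inner_left ℂ fun v => ?_
  rw [ContinuousLinearMap.adjoint_inner_right, inner_HT]
  simp

end odr

/-! ### projection onto the range of `T` -/

section proj

variable {E H P : Type*} [NormedAddCommGroup E] [InnerProductSpace ℂ E] [CompleteSpace E]
  [FiniteDimensional ℂ E] [NormedAddCommGroup H] [InnerProductSpace ℂ H] [CompleteSpace H]
  [NormedAddCommGroup P] [NormedSpace ℝ P]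

/-- `T* T + (1 - p)`. -/
def Qp (p : E →L[ℂ] E) (T : E →L[ℂ] H) : E →L[ℂ] E :=
  (ContinuousLinearMap.adjoint T) ∘L T + (1 - p)

/-- the orthogonal projection onto the range of `T = T p`. -/
def pj (p : E →L[ℂ] E) (T : E →L[ℂ] H) : H →L[ℂ] H :=
  T ∘L (Ring.inverse (Qp p T)) ∘L (ContinuousLinearMap.adjoint T)

section one
variable {p : E →L[ℂ] E} {T : E →L[ℂ] H} (hp : ∀ v, p (p v) = p v)
  (hs : ∀ x y, ⟪p x, y⟫ = ⟪x, p y⟫) (hT : ∀ v, T (p v) = T v)
  (hi : ∀ v, T v = 0 → p v = 0)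
include hp hs hT hi

lemma Qp_unit : IsUnit (Qp p T) := by
  have hinj : Function.Injective (Qp p T) := by
    rw [injective_iff_map_eq_zero]
    intro v hv
    have h1 : ⟪v, Qp p T v⟫ = 0 := by rw [hv, inner_zero_right]
    have h2 : ⟪v, Qp p T v⟫ = ⟪T v, T v⟫ + ⟪v - p v, v - p v⟫ := by
      show ⟪v, ContinuousLinearMap.adjoint T (T v) + (v - p v)⟫ = _
      rw [inner_add_right, ContinuousLinearMap.adjoint_inner_right]
      congr 1
      have h3 : ⟪p v, v - p v⟫ = 0 := by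
        rw [hs, map_sub, hp, sub_self, inner_zero_right]
      rw [inner_sub_left, h3, sub_zero]
    rw [h1, inner_self_eq_norm_sq_to_K, inner_self_eq_norm_sq_to_K] at h2
    have h3 : ‖T v‖ ^ 2 + ‖v - p v‖ ^ 2 = 0 := by
      have := h2.symm
      simp only [coe_algebraMap] at this
      exact_mod_cast this
    have h4 : ‖T v‖ ^ 2 = 0 := by nlinarith [sq_nonneg ‖T v‖, sq_nonneg ‖v - p v‖]
    have h5 : ‖v - p v‖ ^ 2 = 0 := by nlinarith [sq_nonneg ‖T v‖, sq_nonneg ‖v - p v‖]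
    have h6 : T v = 0 := norm_eq_zero.1 (pow_eq_zero_iff two_ne_zero |>.1 h4)
    have h7 : v - p v = 0 := norm_eq_zero.1 (pow_eq_zero_iff two_ne_zero |>.1 h5)
    rw [hi v h6, sub_zero] at h7
    exact h7
  rw [ContinuousLinearMap.isUnit_iff_bijective]
  exact ⟨hinj, LinearMap.injective_iff_surjective.1 hinj⟩

lemma Qp_comp : (Qp p T) ∘L p = (ContinuousLinearMap.adjoint T) ∘L T := by
  ext1 v
  show ContinuousLinearMap.adjoint T (T (p v)) + (p v - p (p v)) = _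
  rw [hT, hp, sub_self, add_zero]; rfl

lemma pj_T (v : E) : pj p T (T v) = T v := by
  have h1 : ContinuousLinearMap.adjoint T (T v) = Qp p T (p v) := by
    have := congrArg (fun S : E →L[ℂ] E => S v) (Qp_comp hp hs hT hi)
    exact this.symm
  have h2 : Ring.inverse (Qp p T) * Qp p T = 1 := Ring.inverse_mul_cancel _ (Qp_unit hp hs hT hi)
  show T (Ring.inverse (Qp p T) (ContinuousLinearMap.adjoint T (T v))) = T v
  rw [h1]
  have h3 : Ring.inverse (Qp p T) (Qp p T (p v)) = p v :=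
    congrArg (fun S : E →L[ℂ] E => S (p v)) h2
  rw [h3, hT]

omit [FiniteDimensional ℂ E] hp hs hT hi in
lemma pj_mem (x : H) : ∃ v, pj p T x = T v := ⟨_, rfl⟩

lemma pj_idem (x : H) : pj p T (pj p T x) = pj p T x := by
  obtain ⟨v, hv⟩ := pj_mem (p := p) (T := T) x
  rw [hv, pj_T hp hs hT hi]

lemma star_Qp : star (Qp p T) = Qp p T := by
  rw [ContinuousLinearMap.star_eq_adjoint]
  symm
  rw [ContinuousLinearMap.eq_adjoint_iff]
  intro x y
  show ⟪ContinuousLinearMap.adjoint T (T x) + (x - p x), y⟫ =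
    ⟪x, ContinuousLinearMap.adjoint T (T y) + (y - p y)⟫
  rw [inner_add_left, inner_add_right, ContinuousLinearMap.adjoint_inner_left,
    ContinuousLinearMap.adjoint_inner_right, inner_sub_left, inner_sub_right, hs]

lemma star_pj : star (pj p T) = pj p T := by
  have h1 : star (Ring.inverse (Qp p T)) = Ring.inverse (Qp p T) := by
    rw [← Ring.inverse_star, star_Qp hp hs hT hi]
  rw [ContinuousLinearMap.star_eq_adjoint] at h1 ⊢
  unfold pj
  rw [ContinuousLinearMap.adjoint_comp, ContinuousLinearMap.adjoint_comp,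
    ContinuousLinearMap.adjoint_adjoint, h1]
  rfl

end one

lemma cd_pj {n : WithTop ℕ∞} {p : P → E →L[ℂ] E} {T : P → E →L[ℂ] H} (h1 : ContDiff ℝ n p)
    (h2 : ContDiff ℝ n T) (hu : ∀ x, IsUnit (Qp (p x) (T x))) :
    ContDiff ℝ n (fun x => pj (p x) (T x)) := by
  rw [contDiff_iff_contDiffAt]
  intro x
  rw [← contDiffWithinAt_univ]
  have a1 := h1.contDiffAt.contDiffWithinAt (x := x) (s := Set.univ)
  have a2 := h2.contDiffAt.contDiffWithinAt (x := x) (s := Set.univ)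
  have a3 : ContDiffWithinAt ℝ n (fun x => Qp (p x) (T x)) Set.univ x :=
    (cd_comp (cd_adj a2) a2).add (contDiffWithinAt_const.sub a1)
  exact cd_comp a2 (cd_comp (cd_inv a3 (hu x)) (cd_adj a2))

end proj

/-! ### dilation -/

section dil

variable {H K : Type*} [NormedAddCommGroup H] [InnerProductSpace ℂ H] [CompleteSpace H]
  [NormedAddCommGroup K] [InnerProductSpace ℂ K] [CompleteSpace K]

/-- `ι T ι*`. -/
def dl (i : H →L[ℂ] K) (T : H →L[ℂ] H) : K →L[ℂ] K := i ∘L T ∘L ContinuousLinearMap.adjoint i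

lemma dl_isNuc {i : H →L[ℂ] K} (hi : ∀ x y, ⟪i x, i y⟫ = ⟪x, y⟫) {T : H →L[ℂ] H} {c : ℝ}
    (hT : IsNuc T c) : IsNuc (dl i T) c ∧ tr (dl i T) = tr T := by
  obtain ⟨ι, u, v, h1, h2, h3⟩ := hT
  have hn : ∀ x, ‖i x‖ = ‖x‖ := by
    intro x
    have h := hi x x
    rw [inner_self_eq_norm_sq_to_K, inner_self_eq_norm_sq_to_K] at h
    have h' : ‖i x‖ ^ 2 = ‖x‖ ^ 2 := by exact_mod_cast h
    exact (pow_left_inj₀ (norm_nonneg _) (norm_nonneg _) two_ne_zero).1 h'
  have h4 : ∀ x, HasSum (fun k => ⟪i (v k), x⟫ • i (u k)) (dl i T x) := by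
    intro x
    have a := (h3 (ContinuousLinearMap.adjoint i x)).mapL i
    refine a.congr_fun fun k => ?_
    rw [map_smul, ContinuousLinearMap.adjoint_inner_right]
  have h5 : Summable (fun k => ‖i (u k)‖ * ‖i (v k)‖) := by simpa only [hn] using h1
  refine ⟨⟨ι, fun k => i (u k), fun k => i (v k), h5, by simpa only [hn] using h2, h4⟩, ?_⟩
  rw [tr_eq h5 h4, tr_eq h1 h3]
  simp only [hi]

lemma dl_rk {i : H →L[ℂ] K} {F : H →L[ℂ] H} {n : ℕ} (hF : Rk F n) : Rk (dl i F) n := by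
  have := hF.1
  have h1 : LinearMap.range ((dl i F : K →L[ℂ] K) : K →ₗ[ℂ] K) ≤
      (LinearMap.range (F : H →ₗ[ℂ] H)).map (i : H →ₗ[ℂ] K) := by
    rintro _ ⟨x, rfl⟩
    exact ⟨_, ⟨_, rfl⟩, rfl⟩
  have : FiniteDimensional ℂ (LinearMap.range ((dl i F : K →L[ℂ] K) : K →ₗ[ℂ] K)) :=
    Submodule.finiteDimensional_of_le h1
  exact ⟨this, (Submodule.finrank_mono h1).trans ((Submodule.finrank_map_le _ _).trans hF.2)⟩

end dil

end

end Crest.Agent.R235.Rc1_820
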