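import Crest.Agent.R235.Rc1_820

/-!
Row 235, block FAM/RC (helper820), RC-ABS part 2: from 151's `PFam` with an inclusion `j : X →L H0`
(`JF`) and a stabilising space `W` to the data of `RCDefs_746`.

* `JF Φ H0`   : `j`, `D h = D 0 + (∑ h_a B_a) j`, unitaries `V0 a` of `H0` with `j (U e_a x) = V0 a (j x)`;
* `HH`        : `(H0 × W) × Y`; `J.K`, `J.V`, `J.bb`, `J.UU`;
* `J.fam`     : `Fam (gr _ _) J.K J.V J.bb J.UU`;
* `J.PK fr`   : the projection onto `ker`; `J.kerF`.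
-/

set_option autoImplicit false
set_option linter.unusedSectionVars false

open scoped InnerProductSpace ContDiff Topology
open Complex Filter

namespace Crest.Agent.R235.Rc1_820

open Crest.Agent.R235.Rc0_820 Crest.Agent.R235.RCTr_746
open Crest.Agent.R235.FamR_151
open Crest.Agent.R235.FamDefs_307 (pdθ)
open Crest.Agent.R235.RCDefs_746 (Base Fam KerF Inf Gr)

noncomputable section

local notation "⟪" x ", " y "⟫" => inner ℂ x y

variable {b : ℕ} {X Y : Type*} [NormedAddCommGroup X] [InnerProductSpace ℂ X] [CompleteSpace X]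
  [NormedAddCommGroup Y] [InnerProductSpace ℂ Y] [CompleteSpace Y]

/-- a periodic family with an inclusion of the domain in a Hilbert space `H0`. -/
structure JF (Φ : PFam b X Y) (H0 : Type*) [NormedAddCommGroup H0] [InnerProductSpace ℂ H0]
    [CompleteSpace H0] where
  j : X →L[ℂ] H0
  B : Fin b → H0 →L[ℂ] Y
  V0 : (Fin b → ℤ) → H0 →L[ℂ] H0
  coer : Coer j (Φ.D 0)
  aff : ∀ h, Φ.D h = Φ.D 0 + (∑ a, ((h a : ℝ) : ℂ) • B a) ∘L j
  v0 : ∀ k, star (V0 k) * V0 k = 1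
  v0' : ∀ k, V0 k * star (V0 k) = 1
  j_U : ∀ k x, j (Φ.U k x) = V0 k (j x)

namespace JF

variable {Φ : PFam b X Y} {H0 : Type*} [NormedAddCommGroup H0] [InnerProductSpace ℂ H0]
  [CompleteSpace H0] (J : JF Φ H0) (W : Submodule ℂ Y) [FiniteDimensional ℂ W]

/-- the inclusion of the stabilised domain. -/
def jj : WithLp 2 (X × W) →L[ℂ] HT H0 W := pr (J.j ∘L p0 X W) (p1 X W)

@[simp] lemma jj_fst (z : WithLp 2 (X × W)) : (J.jj W z).fst = J.j z.fst := rfl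
@[simp] lemma jj_snd (z : WithLp 2 (X × W)) : (J.jj W z).snd = z.snd := rfl

variable (Φ) in
/-- the unperturbed operator. -/
def D0 : WithLp 2 (X × W) →L[ℂ] Y := Φ.D 0 ∘L p0 X W

@[simp] lemma D0_apply (z : WithLp 2 (X × W)) : D0 Φ W z = Φ.D 0 z.fst := rfl

/-- the bounded part. -/
def BB (h : Fin b → ℝ) : HT H0 W →L[ℂ] Y :=
  (∑ a, ((h a : ℝ) : ℂ) • (J.B a ∘L p0 H0 W)) + (Φ.Th h ∘L W.subtypeL) ∘L p1 H0 W

lemma BB_apply (h : Fin b → ℝ) (x : HT H0 W) :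
    J.BB W h x = (∑ a, ((h a : ℝ) : ℂ) • J.B a x.fst) + Φ.Th h (x.snd : Y) := by
  simp [BB, sum_apply]

lemma A_eq (h : Fin b → ℝ) (z : WithLp 2 (X × W)) :
    D0 Φ W z + J.BB W h (J.jj W z) = Φ.A W h z := by
  rw [PFam.A_apply, J.aff h, BB_apply, D0_apply, jj_fst, jj_snd, ← add_assoc]
  congr 1
  simp [sum_apply]

lemma coer' : Coer (J.jj W) (D0 Φ W) := by
  obtain ⟨c, hc⟩ := J.coer
  refine ⟨|c| + 1, fun x => ?_⟩
  have h1 := norm_HT (H0 := X) (H1 := W) x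
  have h2 := norm_HT (J.jj W x)
  rw [jj_fst, jj_snd] at h2
  rw [h1, h2, D0_apply]
  have h3 : ‖x.fst‖ ^ 2 ≤ |c| * (‖J.j x.fst‖ ^ 2 + ‖Φ.D 0 x.fst‖ ^ 2) :=
    (hc _).trans (mul_le_mul_of_nonneg_right (le_abs_self c) (by positivity))
  nlinarith [sq_nonneg ‖J.j x.fst‖, sq_nonneg ‖Φ.D 0 x.fst‖, sq_nonneg ‖x.snd‖, abs_nonneg c,
    mul_nonneg (abs_nonneg c) (sq_nonneg ‖x.snd‖)]

/-- the total space. -/
abbrev HH (_ : JF Φ H0) (W : Submodule ℂ Y) := HT (HT H0 W) Y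

/-- the base resolvent. -/
def K : J.HH W →L[ℂ] J.HH W := Cr (J.jj W) (D0 Φ W) 1

/-- the perturbation. -/
def V (h : Fin b → ℝ) : J.HH W →L[ℂ] J.HH W := I • od (J.BB W h)

/-- the constant part of the derivatives. -/
def bb (a : Fin b) : J.HH W →L[ℂ] J.HH W := I • od (J.B a ∘L p0 H0 W)

/-- the gauge transformations. -/
def UV (k : Fin b → ℤ) : J.HH W →L[ℂ] J.HH W :=
  pr (pr (J.V0 k ∘L p0 H0 W) (p1 H0 W) ∘L p0 (HT H0 W) Y) (Φ.Th (zv k) ∘L p1 (HT H0 W) Y)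

/-- the gauge transformations of the unit vectors. -/
abbrev UU (a : Fin b) : J.HH W →L[ℂ] J.HH W := J.UV W (Pi.single a 1)

lemma zv_single (a : Fin b) : zv (Pi.single a 1 : Fin b → ℤ) = Pi.single a 1 := by
  funext i
  rcases eq_or_ne i a with rfl | h
  · simp [zv]
  · simp [zv, Pi.single_eq_of_ne h]

lemma innerV (a : Fin b → ℤ) (x y : H0) : ⟪J.V0 a x, J.V0 a y⟫ = ⟪x, y⟫ := by
  have h := J.v0 a
  rw [ContinuousLinearMap.star_eq_adjoint] at h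
  rw [← ContinuousLinearMap.adjoint_inner_right]
  have := congrArg (fun T : H0 →L[ℂ] H0 => T y) h
  rw [show ContinuousLinearMap.adjoint (J.V0 a) (J.V0 a y) = y from this]

lemma innerU (a : Fin b → ℤ) (x y : J.HH W) : ⟪J.UV W a x, J.UV W a y⟫ = ⟪x, y⟫ := by
  rw [inner_HT, inner_HT x y]
  show ⟪pr (J.V0 a ∘L p0 H0 W) (p1 H0 W) x.fst, pr (J.V0 a ∘L p0 H0 W) (p1 H0 W) y.fst⟫ +
    ⟪Φ.Th _ x.snd, Φ.Th _ y.snd⟫ = _
  rw [Φ.Th_inner, inner_HT, inner_HT x.fst y.fst]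
  show ⟪J.V0 a _, J.V0 a _⟫ + _ + _ = _
  rw [innerV]
  rfl

lemma surjU (a : Fin b → ℤ) : Function.Surjective (J.UV W a) := by
  intro y
  have h := J.v0' a
  refine ⟨WithLp.toLp 2 (WithLp.toLp 2 (star (J.V0 a) y.fst.fst, y.fst.snd),
    Φ.Th (-zv a) y.snd), ?_⟩
  refine ext_HT (ext_HT ?_ rfl) ?_
  · show J.V0 a (star (J.V0 a) y.fst.fst) = y.fst.fst
    exact congrArg (fun T : H0 →L[ℂ] H0 => T y.fst.fst) h
  · exact Φ.Th_neg _ _

lemma uu (a : Fin b → ℤ) : star (J.UV W a) * J.UV W a = 1 := by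
  ext1 x
  refine ext_inner_left ℂ fun v => ?_
  show ⟪v, star (J.UV W a) (J.UV W a x)⟫ = ⟪v, x⟫
  rw [ContinuousLinearMap.star_eq_adjoint, ContinuousLinearMap.adjoint_inner_right, innerU]

lemma uu' (a : Fin b → ℤ) : J.UV W a * star (J.UV W a) = 1 := by
  ext1 y
  obtain ⟨x, rfl⟩ := J.surjU W a y
  have h := congrArg (fun T : J.HH W →L[ℂ] J.HH W => J.UV W a (T x)) (J.uu W a)
  exact h

/-- `J` intertwines the gauge transformations. -/
lemma jj_GU (a : Fin b → ℤ) (z : WithLp 2 (X × W)) :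
    J.jj W (Φ.GU W a z) = pr (J.V0 a ∘L p0 H0 W) (p1 H0 W) (J.jj W z) :=
  ext_HT (J.j_U a z.fst) rfl

/-- **covariance of the base resolvent**. -/
lemma UK (a : Fin b) (h : Fin b → ℝ) (x : J.HH W) :
    J.K W (J.UU W a x + J.UU W a (J.V W h (J.K W x)) -
      J.V W (h + Pi.single a 1) (J.UU W a (J.K W x))) = J.UU W a (J.K W x) := by
  have hw := Cr_WEq (J.coer' W) one_ne_zero x
  change WEq (J.jj W) (D0 Φ W) 1 x (J.K W x) _ at hw
  set y := J.K W x with hy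
  set u := So (J.jj W) (D0 Φ W) 1 x with hu
  have hA : Φ.A W (h + Pi.single a 1) (Φ.GU W (Pi.single a 1) u) =
      Φ.Th (zv (Pi.single a 1)) (Φ.A W h u) := by
    have := Φ.A_GU W h (Pi.single a 1) u
    rwa [zv_single] at this ⊢
  refine (Cr_eq (J.coer' W) one_ne_zero (u := Φ.GU W (Pi.single a 1) u) ⟨?_, ?_, fun v => ?_⟩).1
  · show pr (J.V0 (Pi.single a 1) ∘L p0 H0 W) (p1 H0 W) y.fst = _
    rw [hw.fst, jj_GU]
  · show Φ.Th (zv (Pi.single a 1)) y.snd = Φ.Th (zv (Pi.single a 1)) x.snd +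
      Φ.Th (zv (Pi.single a 1)) (I • J.BB W h y.fst) -
      I • J.BB W (h + Pi.single a 1) (pr (J.V0 (Pi.single a 1) ∘L p0 H0 W) (p1 H0 W) y.fst) -
      (I * ((1 : ℝ) : ℂ)) • D0 Φ W (Φ.GU W (Pi.single a 1) u)
    rw [hw.snd, hw.fst, ← jj_GU, map_sub, map_smul, map_smul]
    have e1 := J.A_eq W (h + Pi.single a 1) (Φ.GU W (Pi.single a 1) u)
    have e2 := J.A_eq W h u
    rw [hA, ← e2, map_add] at e1
    have e3 : J.BB W (h + Pi.single a 1) (J.jj W (Φ.GU W (Pi.single a 1) u)) =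
      Φ.Th (zv (Pi.single a 1)) (D0 Φ W u) + Φ.Th (zv (Pi.single a 1)) (J.BB W h (J.jj W u)) -
      D0 Φ W (Φ.GU W (Pi.single a 1) u) := by rw [← e1]; abel
    rw [e3]
    push_cast
    module
  · obtain ⟨v', rfl⟩ : ∃ v', v = Φ.GU W (Pi.single a 1) v' := by
      refine ⟨Φ.GU W (-Pi.single a 1) v, ?_⟩
      have h1 := Φ.GU_add W (Pi.single a 1) (-Pi.single a 1)
      rw [add_neg_cancel, Φ.GU_zero] at h1
      exact congrArg (fun T : WithLp 2 (X × W) →L[ℂ] WithLp 2 (X × W) => T v) h1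
    have e1 := J.A_eq W (h + Pi.single a 1) (Φ.GU W (Pi.single a 1) v')
    have e2 := J.A_eq W h v'
    have hA' : Φ.A W (h + Pi.single a 1) (Φ.GU W (Pi.single a 1) v') =
        Φ.Th (zv (Pi.single a 1)) (Φ.A W h v') := by
      have := Φ.A_GU W h (Pi.single a 1) v'
      rwa [zv_single] at this ⊢
    have hwk := hw.weak v'
    set Vp : HT H0 W →L[ℂ] HT H0 W := pr (J.V0 (Pi.single a 1) ∘L p0 H0 W) (p1 H0 W) with hVp
    set T := Φ.Th (zv (Pi.single a 1)) with hT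
    have hVi : ∀ p q, ⟪Vp p, Vp q⟫ = ⟪p, q⟫ := by
      intro p q
      rw [inner_HT, inner_HT p q]
      show ⟪J.V0 (Pi.single a 1) _, J.V0 (Pi.single a 1) _⟫ + _ = _
      rw [innerV]; rfl
    have hTi : ∀ p q, ⟪T p, T q⟫ = ⟪p, q⟫ := fun p q => Φ.Th_inner _ p q
    show ⟪J.jj W (Φ.GU W (Pi.single a 1) v'), Vp y.fst - (Vp x.fst +
      Vp (I • ContinuousLinearMap.adjoint (J.BB W h) y.snd) -
      I • ContinuousLinearMap.adjoint (J.BB W (h + Pi.single a 1)) (T y.snd))⟫ +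
      (I * ((1 : ℝ) : ℂ)) * ⟪D0 Φ W (Φ.GU W (Pi.single a 1) v'), T y.snd⟫ = 0
    have f1 : ⟪J.jj W (Φ.GU W (Pi.single a 1) v'),
        ContinuousLinearMap.adjoint (J.BB W (h + Pi.single a 1)) (T y.snd)⟫ =
        ⟪Φ.A W (h + Pi.single a 1) (Φ.GU W (Pi.single a 1) v'), T y.snd⟫ -
        ⟪D0 Φ W (Φ.GU W (Pi.single a 1) v'), T y.snd⟫ := by
      rw [ContinuousLinearMap.adjoint_inner_right, ← e1, inner_add_left]; ring
    rw [hA', hTi, ← e2, inner_add_left] at f1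
    simp only [inner_sub_right, inner_add_right, inner_smul_right] at hwk ⊢
    rw [f1, jj_GU, ← hVp, hVi, hVi, map_smul, inner_smul_right, hVi,
      ContinuousLinearMap.adjoint_inner_right]
    push_cast at hwk ⊢
    linear_combination hwk

end JF

end

end Crest.Agent.R235.Rc1_820
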