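import Crest.Agent.R235.Rc2_820

/-!
Row 235, block FAM/RC (helper820), RC-ABS part 3: `Fam` and `KerF` for the stabilised family.
-/

set_option autoImplicit false
set_option linter.unusedSectionVars false
set_option maxSynthPendingDepth 3

open scoped InnerProductSpace ContDiff Topology
open Complex Filter

namespace Crest.Agent.R235.Rc1_820

open Crest.Agent.R235.Rc0_820 Crest.Agent.R235.RCTr_746
open Crest.Agent.R235.FamR_151
open Crest.Agent.R235.FamDefs_307 (pdθ)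
open Crest.Agent.R235.RCDefs_746 (Base Fam KerF Inf Gr)

noncomputable section

local notation "⟪" x ", " y "⟫" => inner ℂ x y

lemma lin_aux {E : Type*} [NormedAddCommGroup E] [NormedSpace ℂ E] (K : E →L[ℂ] E) {p q r s : E}
    (h : K (p + q - r) = s) : K p - s = K (r - q) := by
  rw [← h, map_sub, map_add, map_sub]
  abel

lemma lin_aux2 {E : Type*} [NormedAddCommGroup E] [NormedSpace ℂ E] (K U V V' : E →L[ℂ] E)
    (h : ∀ x, K (U x + U (V (K x)) - V' (U (K x))) = U (K x)) :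
    K * U - U * K = K * (V' * U - U * V) * K := by
  refine ContinuousLinearMap.ext fun x => ?_
  rw [sub_apply, mul_apply_eq_comp, mul_apply_eq_comp, mul_apply_eq_comp, mul_apply_eq_comp,
    sub_apply, mul_apply_eq_comp, mul_apply_eq_comp]
  exact lin_aux _ (h x)

section gen

variable {H0 H1 G P : Type*} [NormedAddCommGroup H0] [InnerProductSpace ℂ H0] [CompleteSpace H0]
  [NormedAddCommGroup H1] [InnerProductSpace ℂ H1] [CompleteSpace H1]
  [NormedAddCommGroup G] [InnerProductSpace ℂ G] [CompleteSpace G]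
  [NormedAddCommGroup P] [NormedSpace ℝ P]

/-- `β ↦ i od β` as a real linear map. -/
def IodR : (H0 →L[ℂ] H1) →L[ℝ] (HT H0 H1 →L[ℂ] HT H0 H1) :=
  (((I • ContinuousLinearMap.id ℂ (HT H0 H1 →L[ℂ] HT H0 H1)) :
    (HT H0 H1 →L[ℂ] HT H0 H1) →L[ℂ] (HT H0 H1 →L[ℂ] HT H0 H1)).restrictScalars ℝ) ∘L odR

lemma IodR_apply (β : H0 →L[ℂ] H1) : IodR β = I • od β := rfl

lemma cd_Iod {n : WithTop ℕ∞} {β : P → H0 →L[ℂ] H1} (hβ : ContDiff ℝ n β) :
    ContDiff ℝ n (fun h => I • od (β h)) :=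
  (IodR (H0 := H0) (H1 := H1)).contDiff.comp hβ

lemma pd_Iod {b : ℕ} {β : (Fin b → ℝ) → H0 →L[ℂ] H1} (hβ : ContDiff ℝ ∞ β) (a : Fin b)
    (h : Fin b → ℝ) : pdθ a (fun h => I • od (β h)) h = I • od (pdθ a β h) := by
  have hB : DifferentiableAt ℝ β h := (hβ.differentiable (by simp)).differentiableAt
  have h1 : HasFDerivAt (fun h => I • od (β h)) (IodR ∘L fderiv ℝ β h) h :=
    (IodR (H0 := H0) (H1 := H1)).hasFDerivAt.comp h hB.hasFDerivAt
  unfold pdθ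
  rw [h1.fderiv]
  rfl

lemma cd_lin {b : ℕ} (B : Fin b → H0 →L[ℂ] H1) :
    ContDiff ℝ ∞ (fun h : Fin b → ℝ => ∑ a, ((h a : ℝ) : ℂ) • B a) := by
  refine ContDiff.sum fun a _ => ?_
  have h2 : (fun h : Fin b → ℝ => ((h a : ℝ) : ℂ) • B a) = fun h : Fin b → ℝ => (h a) • B a := by
    funext h
    ext x
    simp
  rw [h2]
  exact (contDiff_apply ℝ ℝ a).smul contDiff_const

lemma cd_aff {b : ℕ} (B : Fin b → H0 →L[ℂ] H1) {T : (Fin b → ℝ) → G →L[ℂ] H1}
    (hT : ContDiff ℝ ∞ T) (S : H0 →L[ℂ] G) :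
    ContDiff ℝ ∞ (fun h : Fin b → ℝ => (∑ a, ((h a : ℝ) : ℂ) • B a) + T h ∘L S) :=
  (cd_lin B).add (PFam.cd_const_comp hT S)

lemma pd_aff {b : ℕ} (B : Fin b → H0 →L[ℂ] H1) {T : (Fin b → ℝ) → G →L[ℂ] H1}
    (hT : ContDiff ℝ ∞ T) (S : H0 →L[ℂ] G) (a : Fin b) (h : Fin b → ℝ) :
    pdθ a (fun h : Fin b → ℝ => (∑ a, ((h a : ℝ) : ℂ) • B a) + T h ∘L S) h =
      B a + pdθ a T h ∘L S := by
  have hT : DifferentiableAt ℝ T h := (hT.differentiable (by simp)).differentiableAt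
  have h1 : HasFDerivAt (fun h : Fin b → ℝ => ∑ a, ((h a : ℝ) : ℂ) • B a)
      (∑ a, (ContinuousLinearMap.proj a : (Fin b → ℝ) →L[ℝ] ℝ).smulRight (B a)) h := by
    have h2 : (fun h : Fin b → ℝ => ∑ a, ((h a : ℝ) : ℂ) • B a) =
        fun h : Fin b → ℝ => ∑ a, (h a) • B a := by
      funext h
      refine Finset.sum_congr rfl fun a _ => ?_
      ext x
      simp
    rw [h2]
    refine HasFDerivAt.fun_sum fun a _ => ?_
    exact (hasFDerivAt_apply (𝕜 := ℝ) a h).smul_const _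
  let L : (G →L[ℂ] H1) →L[ℝ] (H0 →L[ℂ] H1) :=
    (((ContinuousLinearMap.compL ℂ H0 G H1).flip S) :
      (G →L[ℂ] H1) →L[ℂ] (H0 →L[ℂ] H1)).restrictScalars ℝ
  have h3 : HasFDerivAt (fun h => L (T h)) (L ∘L fderiv ℝ T h) h :=
    L.hasFDerivAt.comp h hT.hasFDerivAt
  have h4 : HasFDerivAt (fun h : Fin b → ℝ => (∑ a, ((h a : ℝ) : ℂ) • B a) + T h ∘L S) _ h :=
    h1.add h3
  unfold pdθ
  rw [h4.fderiv]
  show (∑ a, (ContinuousLinearMap.proj a : (Fin b → ℝ) →L[ℝ] ℝ).smulRight (B a))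
    (Pi.single a 1) + L (fderiv ℝ T h (Pi.single a 1)) = _
  congr 1
  rw [sum_apply, Finset.sum_eq_single a]
  · simp
  · intro c _ hc
    simp [Pi.single_eq_of_ne hc]
  · simp

/-- rank of `∂ V - b`. -/
lemma rk_diff {W : Type*} [NormedAddCommGroup W] [InnerProductSpace ℂ W] [CompleteSpace W]
    [FiniteDimensional ℂ W] {b : ℕ} (B : Fin b → HT H0 W →L[ℂ] H1)
    {T : (Fin b → ℝ) → W →L[ℂ] H1} (hT : ContDiff ℝ ∞ T) (a : Fin b) (h : Fin b → ℝ) :
    Rk (pdθ a (fun h => I • od ((∑ a, ((h a : ℝ) : ℂ) • B a) + T h ∘L p1 H0 W)) h -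
      I • od (B a)) (Module.finrank ℂ (W × W)) := by
  have h1 : pdθ a (fun h => I • od ((∑ a, ((h a : ℝ) : ℂ) • B a) + T h ∘L p1 H0 W)) h -
      I • od (B a) = I • od (pdθ a T h ∘L p1 H0 W) := by
    rw [pd_Iod (cd_aff B hT (p1 H0 W)), pd_aff B hT, od_add, smul_add, add_sub_cancel_left]
  rw [h1]
  exact od_rk _

end gen

variable {b : ℕ} {X Y : Type*} [NormedAddCommGroup X] [InnerProductSpace ℂ X] [CompleteSpace X]
  [NormedAddCommGroup Y] [InnerProductSpace ℂ Y] [CompleteSpace Y]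

namespace JF

variable {Φ : PFam b X Y} {H0 : Type*} [NormedAddCommGroup H0] [InnerProductSpace ℂ H0]
  [CompleteSpace H0] (J : JF Φ H0) (W : Submodule ℂ Y) [FiniteDimensional ℂ W]

lemma per (a : Fin b) (h : Fin b → ℝ) : J.K W * J.UU W a - J.UU W a * J.K W =
    J.K W * (J.V W (h + Pi.single a 1) * J.UU W a - J.UU W a * J.V W h) * J.K W :=
  lin_aux2 _ _ _ _ (J.UK W a h)

lemma gu (a : Fin b) : gr (HT H0 W) Y * J.UU W a = J.UU W a * gr (HT H0 W) Y := by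
  refine ContinuousLinearMap.ext fun x => ext_HT rfl ?_
  show -(Φ.Th _ x.snd) = Φ.Th _ (-x.snd)
  rw [map_neg]

lemma cd_V : ContDiff ℝ ∞ (J.V W) :=
  cd_Iod (cd_aff (fun a => J.B a ∘L p0 H0 W) (PFam.cd_const_comp Φ.smTh W.subtypeL) (p1 H0 W))

lemma rkV (a : Fin b) (h : Fin b → ℝ) : Rk (pdθ a (J.V W) h - J.bb W a)
    (Module.finrank ℂ (W × W)) :=
  rk_diff (fun a => J.B a ∘L p0 H0 W) (PFam.cd_const_comp Φ.smTh W.subtypeL) a h

end JF

theorem JF.fam {Φ : PFam 4 X Y} {H0 : Type*} [NormedAddCommGroup H0] [InnerProductSpace ℂ H0]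
    [CompleteSpace H0] (J : JF Φ H0) (W : Submodule ℂ Y) [FiniteDimensional ℂ W] :
    Fam (gr (HT H0 W) Y) (J.K W) (J.V W) (J.bb W) (J.UU W) where
  smooth := J.cd_V W
  gv _ := gr_Iod _
  skew _ := star_Iod _
  rk := ⟨_, fun a h => J.rkV W a h⟩
  gu a := J.gu W a
  uu _ := J.uu W _
  uu' _ := J.uu' W _
  per a h := J.per W a h

end

end Crest.Agent.R235.Rc1_820
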