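import Crest.Agent.R235.Rc3_820

/-!
Row 235, block FAM/RC (helper820), RC-ABS part 4: `KerF` and the link to the finite dimensional
projections of `PFam.Fr`.
-/

set_option autoImplicit false
set_option linter.unusedSectionVars false
set_option maxSynthPendingDepth 3

open scoped InnerProductSpace ContDiff Topology
open Complex Filter

namespace Crest.Agent.R235.Rc1_820

open Crest.Agent.R235.Rc0_820 Crest.Agent.R235.RCTr_746
open Crest.Agent.R235.FamR_151
open Crest.Agent.R235.FamDefs_307 (pdθ)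
open Crest.Agent.R235.RCDefs_746 (Base Fam KerF Inf Gr)

noncomputable section

local notation "⟪" x ", " y "⟫" => inner ℂ x y

section gen

variable {X H0 H1 E : Type*} [NormedAddCommGroup X] [InnerProductSpace ℂ X] [CompleteSpace X]
  [NormedAddCommGroup H0] [InnerProductSpace ℂ H0] [CompleteSpace H0]
  [NormedAddCommGroup H1] [InnerProductSpace ℂ H1] [CompleteSpace H1]
  [NormedAddCommGroup E] [InnerProductSpace ℂ E] [CompleteSpace E] [FiniteDimensional ℂ E]
  {j : X →L[ℂ] H0} {D : X →L[ℂ] H1}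

variable (H0 H1) in
/-- the first inclusion. -/
def i0 : H0 →L[ℂ] HT H0 H1 := pr (ContinuousLinearMap.id ℂ H0) 0

@[simp] lemma i0_fst (x : H0) : (i0 H0 H1 x).fst = x := rfl
@[simp] lemma i0_snd (x : H0) : (i0 H0 H1 x).snd = 0 := rfl

/-- a projection of `H0` extended by `0`. -/
def ex (A : H0 →L[ℂ] H0) : HT H0 H1 →L[ℂ] HT H0 H1 := i0 H0 H1 ∘L A ∘L p0 H0 H1

@[simp] lemma ex_fst (A : H0 →L[ℂ] H0) (x : HT H0 H1) : (ex A x).fst = A x.fst := rfl
@[simp] lemma ex_snd (A : H0 →L[ℂ] H0) (x : HT H0 H1) : (ex A x).snd = 0 := rfl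

lemma star_ex {A : H0 →L[ℂ] H0} (h : star A = A) :
    star (ex A : HT H0 H1 →L[ℂ] HT H0 H1) = ex A := by
  rw [ContinuousLinearMap.star_eq_adjoint] at h ⊢
  symm
  rw [ContinuousLinearMap.eq_adjoint_iff]
  intro x y
  rw [inner_HT, inner_HT, ex_fst, ex_snd, ex_fst, ex_snd, inner_zero_left, inner_zero_right,
    ← ContinuousLinearMap.adjoint_inner_right, h]

variable {β : H0 →L[ℂ] H1}

/-- solutions of `K (1 - V) u = u`, `V = i od β`. -/
lemma ker_iff (hc : Coer j D) (hs : ∀ y, ∃ z, D z + β (j z) = y) (u : HT H0 H1) :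
    Cr j D 1 (u - (I • od β) u) = u ↔ ∃ z, D z + β (j z) = 0 ∧ u = i0 H0 H1 (j z) := by
  constructor
  · intro h
    obtain ⟨z, hz⟩ := (Cr_iff hc one_ne_zero).1 h
    have h1 := hz.fst
    have h2 := hz.snd
    have h3 := hz.weak
    have e1 : (u - (I • od β) u).snd = u.snd - I • β u.fst := rfl
    have e2 : (u - (I • od β) u).fst = u.fst - I • ContinuousLinearMap.adjoint β u.snd := rfl
    rw [e1, h1] at h2
    rw [e2] at h3
    push_cast at h2 h3
    rw [mul_one] at h2 h3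
    have h4 : I • (D z + β (j z)) = 0 := by
      have : u.snd - (u.snd - I • β (j z) - I • D z) = 0 := by rw [← h2]; exact sub_self _
      rw [smul_add]
      rw [← this]; abel
    have h5 : D z + β (j z) = 0 := by
      rcases smul_eq_zero.1 h4 with h | h
      · exact absurd h I_ne_zero
      · exact h
    have h6 : ∀ v, ⟪D v + β (j v), u.snd⟫ = 0 := by
      intro v
      have a := h3 v
      rw [sub_sub_cancel, inner_smul_right, ContinuousLinearMap.adjoint_inner_right] at a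
      rw [inner_add_left]
      have : I * (⟪D v, u.snd⟫ + ⟪β (j v), u.snd⟫) = 0 := by linear_combination a
      rcases mul_eq_zero.1 this with h | h
      · exact absurd h I_ne_zero
      · exact h
    have h7 : u.snd = 0 := by
      obtain ⟨v, hv⟩ := hs u.snd
      have := h6 v
      rw [hv] at this
      exact inner_self_eq_zero.1 this
    exact ⟨z, h5, ext_HT h1 h7⟩
  · rintro ⟨z, hz, rfl⟩
    refine (Cr_iff hc one_ne_zero).2 ⟨z, ⟨rfl, ?_, fun v => ?_⟩⟩
    · show (0 : H1) = (0 - I • β (j z)) - (I * ((1 : ℝ) : ℂ)) • D z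
      have : D z = - β (j z) := eq_neg_of_add_eq_zero_left hz
      rw [this]
      push_cast
      module
    · show ⟪j v, j z - (j z - I • ContinuousLinearMap.adjoint β (0 : H1))⟫ +
        (I * ((1 : ℝ) : ℂ)) * ⟪D v, (0 : H1)⟫ = 0
      simp

end gen

section gen2

variable {X H0 H1 E : Type*} [NormedAddCommGroup X] [InnerProductSpace ℂ X] [CompleteSpace X]
  [NormedAddCommGroup H0] [InnerProductSpace ℂ H0] [CompleteSpace H0]
  [NormedAddCommGroup H1] [InnerProductSpace ℂ H1] [CompleteSpace H1]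
  [NormedAddCommGroup E] [InnerProductSpace ℂ E] [CompleteSpace E] [FiniteDimensional ℂ E]
  {j : X →L[ℂ] H0} {D : X →L[ℂ] H1}
  {β : (Fin 4 → ℝ) → H0 →L[ℂ] H1} {p : (Fin 4 → ℝ) → E →L[ℂ] E} {Jh : (Fin 4 → ℝ) → E →L[ℂ] X}

/-- the kernel projection. -/
theorem kerF_gen (hc : Coer j D) (hs : ∀ h y, ∃ z, D z + β h (j z) = y)
    (sp : ContDiff ℝ ∞ p) (sJ : ContDiff ℝ ∞ Jh) (hp : ∀ h v, p h (p h v) = p h v)
    (ha : ∀ h x y, ⟪p h x, y⟫ = ⟪x, p h y⟫) (hJ : ∀ h v, Jh h (p h v) = Jh h v)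
    (hi : ∀ h v, Jh h v = 0 → p h v = 0) (hA : ∀ h v, D (Jh h v) + β h (j (Jh h v)) = 0)
    (ho : ∀ h z, D z + β h (j z) = 0 → ∃ v, Jh h v = z) :
    KerF (gr H0 H1) (Cr j D 1) (fun h => I • od (β h))
      (fun h => ex (pj (p h) (j ∘L Jh h))) ∧
    ∀ h v, ex (pj (p h) (j ∘L Jh h)) (i0 H0 H1 (j (Jh h v))) = i0 H0 H1 (j (Jh h v)) := by
  have hi' : ∀ h v, (j ∘L Jh h) v = 0 → p h v = 0 := by
    intro h v hv
    refine hi h v ?_
    have hv' : j (Jh h v) = 0 := hv
    have h1 := hA h v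
    rw [hv', map_zero, add_zero] at h1
    obtain ⟨c, hc⟩ := hc
    have h2 := hc (Jh h v)
    rw [hv', h1] at h2
    have h3 : ‖Jh h v‖ ^ 2 = 0 := le_antisymm (by simpa using h2) (sq_nonneg _)
    exact norm_eq_zero.1 (pow_eq_zero_iff two_ne_zero |>.1 h3)
  have hT : ∀ h v, (j ∘L Jh h) (p h v) = (j ∘L Jh h) v := by
    intro h v
    show j (Jh h (p h v)) = j (Jh h v)
    rw [hJ]
  have hfix : ∀ h v, ex (pj (p h) (j ∘L Jh h)) (i0 H0 H1 (j (Jh h v))) = i0 H0 H1 (j (Jh h v)) := by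
    intro h v
    exact ext_HT (pj_T (hp h) (ha h) (hT h) (hi' h) v) rfl
  refine ⟨⟨?_, ?_, ?_, ?_, ?_, ?_⟩, hfix⟩
  · have h1 : ContDiff ℝ ∞ (fun h => pj (p h) (j ∘L Jh h)) := by
      refine cd_pj sp ?_ fun h => Qp_unit (hp h) (ha h) (hT h) (hi' h)
      exact (bil_comp (E := E) (F := X) (G := H0)).contDiff.comp (contDiff_const.prodMk sJ)
    have h2 : ContDiff ℝ ∞ (fun h => pj (p h) (j ∘L Jh h) ∘L p0 H0 H1) :=
      (bil_comp (E := HT H0 H1) (F := H0) (G := H0)).contDiff.comp (h1.prodMk contDiff_const)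
    exact (bil_comp (E := HT H0 H1) (F := H0) (G := HT H0 H1)).contDiff.comp
      (contDiff_const.prodMk h2)
  · intro h
    refine ContinuousLinearMap.ext fun x => ext_HT ?_ rfl
    exact pj_idem (hp h) (ha h) (hT h) (hi' h) x.fst
  · intro h
    exact star_ex (star_pj (hp h) (ha h) (hT h) (hi' h))
  · intro h
    refine ContinuousLinearMap.ext fun x => ext_HT rfl ?_
    show -(0 : H1) = 0
    exact neg_zero
  · intro h
    refine ContinuousLinearMap.ext fun x => ?_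
    obtain ⟨v, hv⟩ := pj_mem (p := p h) (T := j ∘L Jh h) x.fst
    have h1 : ex (pj (p h) (j ∘L Jh h)) x = i0 H0 H1 (j (Jh h v)) := ext_HT hv rfl
    have h2 := (ker_iff (β := β h) hc (hs h) (i0 H0 H1 (j (Jh h v)))).2 ⟨_, hA h v, rfl⟩
    rw [mul_apply_eq_comp, mul_apply_eq_comp, h1]
    exact h2
  · intro h u hu
    obtain ⟨z, hz, rfl⟩ := (ker_iff (β := β h) hc (hs h) u).1 hu
    obtain ⟨v, rfl⟩ := ho h z hz
    exact hfix h v

end gen2

variable {X Y : Type*} [NormedAddCommGroup X] [InnerProductSpace ℂ X] [CompleteSpace X]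
  [NormedAddCommGroup Y] [InnerProductSpace ℂ Y] [CompleteSpace Y]
  {Φ : PFam 4 X Y} {H0 : Type*} [NormedAddCommGroup H0] [InnerProductSpace ℂ H0]
  [CompleteSpace H0] (J : JF Φ H0) (W : Submodule ℂ Y) [FiniteDimensional ℂ W]

namespace JF

variable {n : ℕ} (fr : Φ.Fr W n)

/-- the projection onto the kernel bundle in `H`. -/
def PK (h : Fin 4 → ℝ) : J.HH W →L[ℂ] J.HH W :=
  ex (pj (fr.P h) (J.jj W ∘L fr.J h))

/-- the embedding of the finite dimensional bundle. -/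
def J2 (h : Fin 4 → ℝ) : EuclideanSpace ℂ (Fin n) →L[ℂ] J.HH W :=
  i0 (HT H0 W) Y ∘L J.jj W ∘L fr.J h

theorem kerF' (hs : ∀ h, Function.Surjective (Φ.A W h)) :
    KerF (gr (HT H0 W) Y) (J.K W) (J.V W) (J.PK W fr) ∧
      ∀ h v, J.PK W fr h (J.J2 W fr h v) = J.J2 W fr h v := by
  refine kerF_gen (J.coer' W) (fun h y => ?_) fr.smP fr.smJ fr.P_P fr.P_sa fr.J_P
    (fun h v hv => ?_) (fun h v => ?_) (fun h z hz => ?_)
  · obtain ⟨z, hz⟩ := hs h y
    exact ⟨z, (J.A_eq W h z).trans hz⟩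
  · rw [← fr.l_J, hv, map_zero]
  · rw [J.A_eq]
    exact fr.A_J h v
  · rw [J.A_eq] at hz
    exact ⟨fr.l h z, fr.J_l h z hz⟩

end JF

end

end Crest.Agent.R235.Rc1_820
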