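import Crest.Agent.R235.Rc4_820

/-!
Row 235, block FAM/RC (helper820), RC-ABS part 5: `Base` and `Inf` for the stabilised operator from the
unstabilised one, and the final form `JF.main`.
-/

set_option autoImplicit false
set_option linter.unusedSectionVars false
set_option maxSynthPendingDepth 3

open scoped InnerProductSpace ContDiff Topology
open Complex Filter

namespace Crest.Agent.R235.Rc1_820

open Crest.Agent.R235.Rc0_820 Crest.Agent.R235.RCTr_746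
open Crest.Agent.R235.FamR_151
open Crest.Agent.R235.FamDefs_307 (pdθ sg ch4)
open Crest.Agent.R235.RCDefs_746 (Base Fam KerF Inf Gr RC)

noncomputable section

local notation "⟪" x ", " y "⟫" => inner ℂ x y

section gen

variable {H K : Type*} [NormedAddCommGroup H] [InnerProductSpace ℂ H] [CompleteSpace H]
  [NormedAddCommGroup K] [InnerProductSpace ℂ K] [CompleteSpace K] {i : H →L[ℂ] K}

lemma adj_i (hi : ∀ x y, ⟪i x, i y⟫ = ⟪x, y⟫) (x : H) : ContinuousLinearMap.adjoint i (i x) = x := by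
  refine ext_inner_left ℂ fun v => ?_
  rw [ContinuousLinearMap.adjoint_inner_right, hi]

lemma dl_mul (hi : ∀ x y, ⟪i x, i y⟫ = ⟪x, y⟫) (A B : H →L[ℂ] H) : dl i A * dl i B = dl i (A * B) := by
  refine ContinuousLinearMap.ext fun x => ?_
  show i (A (ContinuousLinearMap.adjoint i (i (B (ContinuousLinearMap.adjoint i x))))) = _
  rw [adj_i hi]; rfl

lemma dl_add (A B : H →L[ℂ] H) : dl i (A + B) = dl i A + dl i B := by
  refine ContinuousLinearMap.ext fun x => ?_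
  show i (A _ + B _) = i (A _) + i (B _)
  rw [map_add]

lemma dl_smul (c : ℂ) (A : H →L[ℂ] H) : dl i (c • A) = c • dl i A := by
  refine ContinuousLinearMap.ext fun x => ?_
  show i (c • A _) = c • i (A _)
  rw [map_smul]

lemma dl_zero : dl i (0 : H →L[ℂ] H) = 0 := by
  refine ContinuousLinearMap.ext fun x => ?_
  show i ((0 : H →L[ℂ] H) (ContinuousLinearMap.adjoint i x)) = 0
  simp

lemma dl_sum {ι : Type*} (s : Finset ι) (A : ι → H →L[ℂ] H) : dl i (∑ k ∈ s, A k) = ∑ k ∈ s, dl i (A k) := by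
  classical
  induction s using Finset.induction_on with
  | empty => simp [dl_zero]
  | insert a s ha ih => rw [Finset.sum_insert ha, Finset.sum_insert ha, dl_add, ih]

lemma norm_i (hi : ∀ x y, ⟪i x, i y⟫ = ⟪x, y⟫) (x : H) : ‖i x‖ = ‖x‖ := by
  have h := hi x x
  rw [inner_self_eq_norm_sq_to_K, inner_self_eq_norm_sq_to_K] at h
  have h' : ‖i x‖ ^ 2 = ‖x‖ ^ 2 := by exact_mod_cast h
  exact (pow_left_inj₀ (norm_nonneg _) (norm_nonneg _) two_ne_zero).1 h'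

lemma norm_dl (hi : ∀ x y, ⟪i x, i y⟫ = ⟪x, y⟫) (A : H →L[ℂ] H) : ‖dl i A‖ ≤ ‖A‖ := by
  have h1 : ‖i‖ ≤ 1 := ContinuousLinearMap.opNorm_le_bound _ zero_le_one fun x => by
    rw [norm_i hi, one_mul]
  have h2 : ‖ContinuousLinearMap.adjoint i‖ ≤ 1 := by rwa [LinearIsometryEquiv.norm_map]
  calc ‖dl i A‖ ≤ ‖i‖ * ‖A ∘L ContinuousLinearMap.adjoint i‖ := ContinuousLinearMap.opNorm_comp_le _ _
    _ ≤ ‖i‖ * (‖A‖ * ‖ContinuousLinearMap.adjoint i‖) := by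
        gcongr; exact ContinuousLinearMap.opNorm_comp_le _ _
    _ ≤ 1 * (‖A‖ * 1) := by gcongr
    _ = ‖A‖ := by ring

/-- finite rank perturbation of a dilation. -/
lemma app_dl (hi : ∀ x y, ⟪i x, i y⟫ = ⟪x, y⟫) {A : H →L[ℂ] H} {c : ℝ} (hA : App A c (1 / 4))
    {Q : K →L[ℂ] K} {d : ℕ} (hQ : Rk Q d) : ∃ c', App (dl i A + Q) c' (1 / 4) := by
  have hc := hA.nonneg
  refine ⟨(c + ‖dl i A + Q‖) * ((d : ℝ) + 1), fun n => ?_⟩
  have hd : (1 : ℝ) ≤ (d : ℝ) + 1 := by linarith [(Nat.cast_nonneg d : (0 : ℝ) ≤ d)]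
  have hn0 : (0 : ℝ) < (n : ℝ) + 1 := by positivity
  by_cases hn : n < d
  · refine ⟨0, Rk.zero.mono (Nat.zero_le _), ?_⟩
    rw [sub_zero]
    have h1 : 1 ≤ ((d : ℝ) + 1) * ((n : ℝ) + 1) ^ (-(1 / 4) : ℝ) := by
      have h2 : (n : ℝ) + 1 ≤ (d : ℝ) + 1 := by
        have : (n : ℝ) < d := by exact_mod_cast hn
        linarith
      have h3 : ((d : ℝ) + 1) ^ (-1 : ℝ) ≤ ((n : ℝ) + 1) ^ (-(1 / 4) : ℝ) := by
        calc ((d : ℝ) + 1) ^ (-1 : ℝ) ≤ ((n : ℝ) + 1) ^ (-1 : ℝ) :=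
              Real.rpow_le_rpow_of_nonpos hn0 h2 (by norm_num)
          _ ≤ ((n : ℝ) + 1) ^ (-(1 / 4) : ℝ) :=
              Real.rpow_le_rpow_of_exponent_le (by linarith [(Nat.cast_nonneg n : (0 : ℝ) ≤ n)])
                (by norm_num)
      calc (1 : ℝ) = ((d : ℝ) + 1) * ((d : ℝ) + 1) ^ (-1 : ℝ) := by
            rw [Real.rpow_neg_one, mul_inv_cancel₀ (by positivity)]
        _ ≤ _ := mul_le_mul_of_nonneg_left h3 (by positivity)
    calc ‖dl i A + Q‖ ≤ (c + ‖dl i A + Q‖) * 1 := by linarith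
      _ ≤ (c + ‖dl i A + Q‖) * (((d : ℝ) + 1) * ((n : ℝ) + 1) ^ (-(1 / 4) : ℝ)) :=
          mul_le_mul_of_nonneg_left h1 (by positivity)
      _ = _ := by ring
  · push Not at hn
    obtain ⟨F, hF, hF2⟩ := hA (n - d)
    refine ⟨dl i F + Q, ((dl_rk hF).add hQ).mono (by omega), ?_⟩
    have e : dl i A + Q - (dl i F + Q) = dl i (A - F) := by
      refine ContinuousLinearMap.ext fun x => ?_
      show i (A _) + Q x - (i (F _) + Q x) = i (A _ - F _)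
      rw [map_sub]; abel
    rw [e]
    refine (norm_dl hi _).trans (hF2.trans ?_)
    have h1 : (((n - d : ℕ) : ℝ) + 1) ^ (-(1 / 4) : ℝ) ≤
        ((d : ℝ) + 1) * ((n : ℝ) + 1) ^ (-(1 / 4) : ℝ) := by
      have h2 : (n : ℝ) + 1 ≤ ((d : ℝ) + 1) * (((n - d : ℕ) : ℝ) + 1) := by
        have h3 : (n : ℝ) = ((n - d : ℕ) : ℝ) + d := by
          rw [Nat.cast_sub hn]; ring
        have h4 : (0 : ℝ) ≤ ((n - d : ℕ) : ℝ) := Nat.cast_nonneg _
        have h5 : (0 : ℝ) ≤ (d : ℝ) := Nat.cast_nonneg _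
        rw [h3]
        nlinarith
      have h3 : ((((d : ℝ) + 1) * (((n - d : ℕ) : ℝ) + 1))) ^ (-(1 / 4) : ℝ) ≤
          ((n : ℝ) + 1) ^ (-(1 / 4) : ℝ) := Real.rpow_le_rpow_of_nonpos hn0 h2 (by norm_num)
      rw [Real.mul_rpow (by positivity) (by positivity)] at h3
      have h4 : ((d : ℝ) + 1) ^ (-1 : ℝ) ≤ ((d : ℝ) + 1) ^ (-(1 / 4) : ℝ) :=
        Real.rpow_le_rpow_of_exponent_le hd (by norm_num)
      have h5 : (0 : ℝ) ≤ (((n - d : ℕ) : ℝ) + 1) ^ (-(1 / 4) : ℝ) := by positivity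
      calc (((n - d : ℕ) : ℝ) + 1) ^ (-(1 / 4) : ℝ) =
            ((d : ℝ) + 1) * (((d : ℝ) + 1) ^ (-1 : ℝ) * (((n - d : ℕ) : ℝ) + 1) ^ (-(1 / 4) : ℝ)) := by
              rw [Real.rpow_neg_one, ← mul_assoc, mul_inv_cancel₀ (by positivity), one_mul]
        _ ≤ ((d : ℝ) + 1) * (((d : ℝ) + 1) ^ (-(1 / 4) : ℝ) *
              (((n - d : ℕ) : ℝ) + 1) ^ (-(1 / 4) : ℝ)) := by gcongr
        _ ≤ _ := mul_le_mul_of_nonneg_left h3 (by positivity)
    calc c * (((n - d : ℕ) : ℝ) + 1) ^ (-(1 / 4) : ℝ) ≤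
          (c + ‖dl i A + Q‖) * (((d : ℝ) + 1) * ((n : ℝ) + 1) ^ (-(1 / 4) : ℝ)) :=
          mul_le_mul (by linarith [norm_nonneg (dl i A + Q)]) h1 (by positivity) (by positivity)
      _ = _ := by ring

/-- `G_ε⁴` is nuclear. -/
lemma nuc_G4 {g K0 : H →L[ℂ] H} (hB : Base g K0) (ε : ℝ) (A : H →L[ℂ] H) :
    ∃ c, IsNuc (A * (Gr K0 ε) ^ 4) c := by
  obtain ⟨c, hc⟩ := hB.app
  obtain ⟨c1, h1⟩ : ∃ c1, App (RCDefs_746.Cr K0 ε) c1 (1 / 4) := ⟨_, hc.right _⟩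
  have hs : star (RCDefs_746.Cr K0 ε) = Ring.inverse ((ε : ℂ) • (1 : H →L[ℂ] H) +
      ((1 - ε : ℝ) : ℂ) • star K0) * star K0 := by
    unfold RCDefs_746.Cr
    rw [star_mul, ← Ring.inverse_star, star_add, star_smul, star_smul, star_one]
    simp
  obtain ⟨c2, h2⟩ : ∃ c2, App (star (RCDefs_746.Cr K0 ε)) c2 (1 / 4) := by
    rw [hs, ← hB.gk]
    exact ⟨_, ((hc.left g).right g).left _⟩
  obtain ⟨c3, h3⟩ : ∃ c3, App (Gr K0 ε) c3 (1 / 2) := by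
    have := h2.mul h1 (by norm_num) (by norm_num)
    norm_num at this
    exact ⟨_, this⟩
  obtain ⟨c4, h4⟩ : ∃ c4, App ((Gr K0 ε) ^ 4) c4 2 := by
    have a := h3.mul h3 (by norm_num) (by norm_num)
    have b := a.mul a (by norm_num) (by norm_num)
    have e : (Gr K0 ε) ^ 4 = (Gr K0 ε ∘L Gr K0 ε) ∘L (Gr K0 ε ∘L Gr K0 ε) := by
      show (Gr K0 ε) ^ 4 = (Gr K0 ε * Gr K0 ε) * (Gr K0 ε * Gr K0 ε)
      rw [pow_succ, pow_succ, pow_succ, pow_one]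
      simp only [mul_assoc]
    rw [e]
    norm_num at b
    exact ⟨_, b⟩
  exact ⟨_, (h4.left A).isNuc (by norm_num)⟩

lemma pow4 {R : Type*} [Monoid R] (P x : R) : P * x ^ 4 = P * x * x * x * x := by
  rw [pow_succ, pow_succ, pow_succ, pow_one]
  simp only [mul_assoc]

/-- transfer of `Inf` along a dilation. -/
theorem inf_dl (hi : ∀ x y, ⟪i x, i y⟫ = ⟪x, y⟫) {g0 K0 : H →L[ℂ] H} {b0 : Fin 4 → H →L[ℂ] H}
    {L : ℂ} (hB : Base g0 K0) (hI : Inf g0 K0 b0 L) {g K' Q : K →L[ℂ] K} {b : Fin 4 → K →L[ℂ] K}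
    (hg : ∀ x, g (i x) = i (g0 x)) (hb : ∀ a, b a = dl i (b0 a))
    (hG : ∀ ε : ℝ, 0 < ε → Gr K' ε = dl i (Gr K0 ε) + Q) (hQi : ∀ x, Q (i x) = 0)
    (hiQ : ∀ x, ContinuousLinearMap.adjoint i (Q x) = 0) : Inf g K' b L where
  com a := by
    obtain ⟨c, hc⟩ := hI.com a
    refine ⟨c, fun ε h1 h2 => ?_⟩
    obtain ⟨Z, hZ, hZ2⟩ := hc ε h1 h2
    refine ⟨dl i Z, (norm_dl hi Z).trans hZ, ?_⟩
    rw [hb, hG ε h1]
    refine ContinuousLinearMap.ext fun x => ?_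
    have e := congrArg (fun T : H →L[ℂ] H => i (T (ContinuousLinearMap.adjoint i x))) hZ2
    simp only [mul_apply_eq_comp, add_apply, smul_apply, map_add, map_smul] at e
    show i (b0 a (ContinuousLinearMap.adjoint i (i (Gr K0 ε (ContinuousLinearMap.adjoint i x)) + Q x))) =
      (i (Gr K0 ε (ContinuousLinearMap.adjoint i (i (b0 a (ContinuousLinearMap.adjoint i x))))) +
        Q (i (b0 a (ContinuousLinearMap.adjoint i x)))) +
      (ε : ℂ) • (i (Gr K0 ε (ContinuousLinearMap.adjoint i (i (Z (ContinuousLinearMap.adjoint i x))))) +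
        Q (i (Z (ContinuousLinearMap.adjoint i x))))
    rw [map_add, hiQ, adj_i hi, adj_i hi, adj_i hi, hQi, hQi, add_zero, add_zero, add_zero]
    exact e
  weyl := by
    refine hI.weyl.congr' ?_
    filter_upwards [self_mem_nhdsWithin] with ε hε
    congr 1
    obtain ⟨c, hc⟩ := nuc_G4 hB ε (∑ σ : Equiv.Perm (Fin 4), sg σ •
      (g0 * b0 (σ 0) * b0 (σ 1) * b0 (σ 2) * b0 (σ 3)))
    rw [← (dl_isNuc hi hc).2]
    congr 1
    have hgd : ∀ A : H →L[ℂ] H, g * dl i A = dl i (g0 * A) := by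
      intro A
      refine ContinuousLinearMap.ext fun x => ?_
      exact hg _
    have hgQ : ∀ A : H →L[ℂ] H, dl i A * (dl i (Gr K0 ε) + Q) = dl i (A * Gr K0 ε) := by
      intro A
      refine ContinuousLinearMap.ext fun x => ?_
      show i (A (ContinuousLinearMap.adjoint i (i (Gr K0 ε (ContinuousLinearMap.adjoint i x)) + Q x))) = _
      rw [map_add, hiQ, adj_i hi, add_zero]; rfl
    have hσ : ∀ σ : Equiv.Perm (Fin 4), sg σ • (g * b (σ 0) * b (σ 1) * b (σ 2) * b (σ 3)) =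
        dl i (sg σ • (g0 * b0 (σ 0) * b0 (σ 1) * b0 (σ 2) * b0 (σ 3))) := by
      intro σ
      rw [hb, hb, hb, hb, hgd, dl_mul hi, dl_mul hi, dl_mul hi, dl_smul]
    simp only [hσ]
    rw [hG ε hε, ← dl_sum, pow4, pow4, hgQ, hgQ, hgQ, hgQ]

end gen

/-! ### the stabilised operator -/

section st

variable {X Y : Type*} [NormedAddCommGroup X] [InnerProductSpace ℂ X] [CompleteSpace X]
  [NormedAddCommGroup Y] [InnerProductSpace ℂ Y] [CompleteSpace Y]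
  {H0 W : Type*} [NormedAddCommGroup H0] [InnerProductSpace ℂ H0] [CompleteSpace H0]
  [NormedAddCommGroup W] [InnerProductSpace ℂ W] [CompleteSpace W] [FiniteDimensional ℂ W]

variable (H0 W Y) in
/-- `(x, y) ↦ ((x, 0), y)`. -/
def iw : HT H0 Y →L[ℂ] HT (HT H0 W) Y := pr (i0 H0 W ∘L p0 H0 Y) (p1 H0 Y)

lemma inner_iw (x y : HT H0 Y) : ⟪iw Y H0 W x, iw Y H0 W y⟫ = ⟪x, y⟫ := by
  rw [inner_HT, inner_HT x y]
  show ⟪i0 H0 W x.fst, i0 H0 W y.fst⟫ + ⟪x.snd, y.snd⟫ = _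
  rw [inner_HT]
  simp

lemma adj_iw (x : HT (HT H0 W) Y) : ContinuousLinearMap.adjoint (iw Y H0 W) x =
    WithLp.toLp 2 (x.fst.fst, x.snd) := by
  refine ext_inner_left ℂ fun v => ?_
  rw [ContinuousLinearMap.adjoint_inner_right, inner_HT, inner_HT]
  show ⟪i0 H0 W v.fst, x.fst⟫ + ⟪v.snd, x.snd⟫ = _
  rw [inner_HT]
  simp

variable (H0 W Y) in
/-- the projection onto `W`. -/
def qw : HT (HT H0 W) Y →L[ℂ] HT (HT H0 W) Y :=
  pr (pr 0 (p1 H0 W ∘L p0 (HT H0 W) Y)) 0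

lemma qw_rk : Rk (qw Y H0 W) (Module.finrank ℂ W) := by
  refine rk_of (E := W) ((i0 (HT H0 W) Y ∘L pr (0 : W →L[ℂ] H0) (ContinuousLinearMap.id ℂ W) :
    W →L[ℂ] HT (HT H0 W) Y) : W →ₗ[ℂ] _) fun x => ⟨x.fst.snd, ?_⟩
  exact ext_HT (ext_HT rfl rfl) rfl

/-- block form of the resolvent. -/
lemma cr_st {j : X →L[ℂ] H0} {D : X →L[ℂ] Y} (hc : Coer j D) {jj : HT X W →L[ℂ] HT H0 W}
    {DD : HT X W →L[ℂ] Y} (hj0 : ∀ z, (jj z).fst = j z.fst) (hj1 : ∀ z, (jj z).snd = z.snd)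
    (hD : ∀ z, DD z = D z.fst) (hc' : Coer jj DD) {ε : ℝ} (hε : ε ≠ 0) :
    Cr jj DD ε = dl (iw Y H0 W) (Cr j D ε) + qw Y H0 W := by
  refine ContinuousLinearMap.ext fun x => ?_
  set x0 : HT H0 Y := WithLp.toLp 2 (x.fst.fst, x.snd) with hx0
  have hw := Cr_WEq hc hε x0
  have e0 : (dl (iw Y H0 W) (Cr j D ε) + qw Y H0 W) x =
      WithLp.toLp 2 (WithLp.toLp 2 ((Cr j D ε x0).fst, x.fst.snd), (Cr j D ε x0).snd) := by
    show iw Y H0 W (Cr j D ε (ContinuousLinearMap.adjoint (iw Y H0 W) x)) + qw Y H0 W x = _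
    rw [adj_iw, ← hx0]
    refine ext_HT (ext_HT ?_ ?_) ?_
    · exact add_zero (Cr j D ε x0).fst
    · exact zero_add x.fst.snd
    · exact add_zero (Cr j D ε x0).snd
  rw [e0]
  refine (Cr_eq hc' hε (u := WithLp.toLp 2 (So j D ε x0, x.fst.snd)) ⟨?_, ?_, fun v => ?_⟩).1
  · refine ext_HT ?_ ?_
    · rw [hj0]; exact hw.fst
    · rw [hj1]; rfl
  · rw [hD]; exact hw.snd
  · have h1 := hw.weak v.fst
    rw [hD, inner_HT]
    show ⟪(jj v).fst, (Cr j D ε x0).fst - x.fst.fst⟫ + ⟪(jj v).snd, x.fst.snd - x.fst.snd⟫ +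
      (I * ε) * ⟪D v.fst, (Cr j D ε x0).snd⟫ = 0
    rw [hj0, sub_self, inner_zero_right, add_zero]
    exact h1

lemma gr_iw (x : HT H0 Y) : gr (HT H0 W) Y (iw Y H0 W x) = iw Y H0 W (gr H0 Y x) := ext_HT rfl rfl

lemma qw_iw (x : HT H0 Y) : qw Y H0 W (iw Y H0 W x) = 0 := ext_HT (ext_HT rfl rfl) rfl

lemma iw_qw (x : HT (HT H0 W) Y) : ContinuousLinearMap.adjoint (iw Y H0 W) (qw Y H0 W x) = 0 := by
  rw [adj_iw]; rfl

lemma qw_qw (x : HT (HT H0 W) Y) : qw Y H0 W (qw Y H0 W x) = qw Y H0 W x :=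
  ext_HT (ext_HT rfl rfl) rfl

lemma od_st (B : H0 →L[ℂ] Y) : I • od (B ∘L p0 H0 W) = dl (iw Y H0 W) (I • od B) := by
  refine ContinuousLinearMap.ext fun x => ?_
  show I • od (B ∘L p0 H0 W) x = iw Y H0 W (I • od B (ContinuousLinearMap.adjoint (iw Y H0 W) x))
  rw [adj_iw, map_smul]
  congr 1
  refine ext_HT ?_ rfl
  show ContinuousLinearMap.adjoint (B ∘L p0 H0 W) x.snd = i0 H0 W (ContinuousLinearMap.adjoint B x.snd)
  refine ext_inner_left ℂ fun v => ?_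
  rw [ContinuousLinearMap.adjoint_inner_right, inner_HT]
  show ⟪B v.fst, x.snd⟫ = ⟪v.fst, ContinuousLinearMap.adjoint B x.snd⟫ + ⟪v.snd, (0 : W)⟫
  rw [ContinuousLinearMap.adjoint_inner_right, inner_zero_right, add_zero]

end st

namespace JF

variable {X Y : Type*} [NormedAddCommGroup X] [InnerProductSpace ℂ X] [CompleteSpace X]
  [NormedAddCommGroup Y] [InnerProductSpace ℂ Y] [CompleteSpace Y]
  {Φ : PFam 4 X Y} {H0 : Type*} [NormedAddCommGroup H0] [InnerProductSpace ℂ H0]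
  [CompleteSpace H0] (J : JF Φ H0) (W : Submodule ℂ Y) [FiniteDimensional ℂ W]

/-- the unstabilised resolvent. -/
def K0 : HT H0 Y →L[ℂ] HT H0 Y := Cr J.j (Φ.D 0) 1

lemma cr_eq' {ε : ℝ} (hε : ε ≠ 0) : Cr (J.jj W) (D0 Φ W) ε =
    dl (iw Y H0 W) (Cr J.j (Φ.D 0) ε) + qw Y H0 W :=
  cr_st J.coer (fun _ => rfl) (fun _ => rfl) (fun _ => rfl) (J.coer' W) hε

theorem base' (hA : ∃ c, App J.K0 c (1 / 4)) : Base (gr (HT H0 W) Y) (J.K W) := by
  refine base (J.coer' W) ?_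
  obtain ⟨c, hc⟩ := hA
  rw [J.cr_eq' W one_ne_zero]
  exact app_dl inner_iw hc qw_rk

theorem inf' (hA : ∃ c, App J.K0 c (1 / 4)) {L : ℂ}
    (hI : Inf (gr H0 Y) J.K0 (fun a => I • od (J.B a)) L) :
    Inf (gr (HT H0 W) Y) (J.K W) (J.bb W) L := by
  refine inf_dl (i := iw Y H0 W) (Q := qw Y H0 W) inner_iw (base J.coer hA) hI gr_iw
    (fun a => od_st (J.B a)) (fun ε hε => ?_) qw_iw iw_qw
  unfold Gr
  show star (RCDefs_746.Cr (Cr (J.jj W) (D0 Φ W) 1) ε) * RCDefs_746.Cr (Cr (J.jj W) (D0 Φ W) 1) ε =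
    dl _ (star (RCDefs_746.Cr (Cr J.j (Φ.D 0) 1) ε) * RCDefs_746.Cr (Cr J.j (Φ.D 0) 1) ε) + _
  rw [cr_eq (J.coer' W) hε.ne', cr_eq J.coer hε.ne', star_cr (J.coer' W) hε.ne',
    star_cr J.coer hε.ne', J.cr_eq' W hε.ne', J.cr_eq' W (neg_ne_zero.2 hε.ne')]
  refine ContinuousLinearMap.ext fun x => ?_
  have h1 : ∀ (A B : HT H0 Y →L[ℂ] HT H0 Y),
      ((dl (iw Y H0 W) A + qw Y H0 W) * (dl (iw Y H0 W) B + qw Y H0 W)) x =
      (dl (iw Y H0 W) (A * B) + qw Y H0 W) x := by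
    intro A B
    show iw Y H0 W (A (ContinuousLinearMap.adjoint (iw Y H0 W)
        (iw Y H0 W (B (ContinuousLinearMap.adjoint (iw Y H0 W) x)) + qw Y H0 W x))) +
      qw Y H0 W (iw Y H0 W (B (ContinuousLinearMap.adjoint (iw Y H0 W) x)) + qw Y H0 W x) =
      iw Y H0 W (A (B (ContinuousLinearMap.adjoint (iw Y H0 W) x))) + qw Y H0 W x
    rw [map_add, iw_qw, adj_i inner_iw, add_zero, map_add, qw_iw, qw_qw, zero_add]
  exact h1 _ _

end JF

end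

end Crest.Agent.R235.Rc1_820
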