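import Crest.Agent.R235.Rn4_820
import Crest.Agent.R235.RcW_723

/-!
Row 235, block FAM/RC (helper820), RC-MAN: `wx : WX` from helper723's `RcW_723.W`; `rcman_of_p2`.
-/

set_option autoImplicit false
set_option linter.unusedSectionVars false
set_option maxSynthPendingDepth 3

open scoped ContDiff ENNReal NNReal Topology Manifold Bundle RealInnerProductSpace
open MeasureTheory Set Filter Metric Bundle Module

namespace Crest.Agent.R235.Rn_820

/-- **the weights.** -/
theorem wx : WX := by
  intro M _ _ _ _ _ _ _ _ _ _ _ _ _ κ0 κ1 κT _ _ _ S cc J1 j H C hj S0 S1 Bt hBt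
  obtain ⟨f0, h⟩ := RcW_723.W H C hj S0 S1 Bt hBt
  exact ⟨_, _, h⟩

/-- **RCMAN** from the commutator bounds. -/
theorem rcman_of_p2 (hP : P2X) : FamTop_307.RCMAN.{0} := rcman_of hP wx

end Crest.Agent.R235.Rn_820
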