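import Crest.Agent.R235.RcP2_215
import Crest.Agent.R235.RcWX_820

/-!
Row 235 (S0364), PACKAGE FAM: **RCMAN** (helper820), from P2X (helper215) and W (helper723).
-/

set_option autoImplicit false

namespace Crest.Agent.R235.RcFin_820

/-- **RCMAN**. -/
theorem rcman : FamTop_307.RCMAN.{0} := Rn_820.rcman_of_p2 RcP2_215.p2x

end Crest.Agent.R235.RcFin_820
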