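import Crest.Agent.R235.Rc5_820
import Crest.Agent.R235.FamEmb_192

/-!
Row 235, block FAM/RC (helper820), RC-ABS: OUTPUT.

`J : JF Φ H0` (151's `Φ : PFam 4 X Y` with the inclusion `j : X →L H0`), `W` with `A W h` onto,
`fr : Φ.Fr W n`.  `J.main`: `RC` gives `ch4 tr (J.PK W fr) = L / 2`, where `L` is the limit of `Inf`
for the unstabilised unperturbed operator.  `J.J2 W fr h : ℂⁿ →L H` is an isomorphism of
`range (fr.P h)` with `range (J.PK W fr h)`, periodic up to `J.UU`.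
-/

set_option autoImplicit false
set_option linter.unusedSectionVars false
set_option maxSynthPendingDepth 3

open scoped InnerProductSpace ContDiff Topology
open Complex Filter

namespace Crest.Agent.R235.Rc1_820

open Crest.Agent.R235.Rc0_820 Crest.Agent.R235.RCTr_746
open Crest.Agent.R235.FamR_151
open Crest.Agent.R235.FamDefs_307 (pdθ sg ch4)
open Crest.Agent.R235.RCDefs_746 (Base Fam KerF Inf Gr RC)

noncomputable section

local notation "⟪" x ", " y "⟫" => inner ℂ x y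

namespace JF

section link

variable {X Y : Type*} [NormedAddCommGroup X] [InnerProductSpace ℂ X] [CompleteSpace X]
  [NormedAddCommGroup Y] [InnerProductSpace ℂ Y] [CompleteSpace Y]
  {Φ : PFam 4 X Y} {H0 : Type*} [NormedAddCommGroup H0] [InnerProductSpace ℂ H0]
  [CompleteSpace H0] (J : JF Φ H0) (W : Submodule ℂ Y) [FiniteDimensional ℂ W]
  {n : ℕ} (fr : Φ.Fr W n)

lemma cd_J2 : ContDiff ℝ ∞ (J.J2 W fr) := by
  have h1 : ContDiff ℝ ∞ (fun h => J.jj W ∘L fr.J h) :=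
    (bil_comp (E := EuclideanSpace ℂ (Fin n)) (F := WithLp 2 (X × W)) (G := HT H0 W)).contDiff.comp
      (contDiff_const.prodMk fr.smJ)
  exact (bil_comp (E := EuclideanSpace ℂ (Fin n)) (F := HT H0 W) (G := HT (HT H0 W) Y)).contDiff.comp
      (contDiff_const.prodMk h1)

lemma J2_per (k : Fin 4 → ℤ) (h : Fin 4 → ℝ) (v : EuclideanSpace ℂ (Fin n)) :
    J.J2 W fr (h + zv k) v = J.UV W k (J.J2 W fr h v) := by
  have h1 := fr.J_per h k v
  show i0 (HT H0 W) Y (J.jj W (fr.J (h + zv k) v)) = _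
  rw [h1, jj_GU]
  refine ext_HT rfl ?_
  show (0 : Y) = Φ.Th _ (0 : Y)
  rw [map_zero]

lemma J2_P (h : Fin 4 → ℝ) (v : EuclideanSpace ℂ (Fin n)) :
    J.J2 W fr h (fr.P h v) = J.J2 W fr h v := by
  show i0 (HT H0 W) Y (J.jj W (fr.J h (fr.P h v))) = i0 (HT H0 W) Y (J.jj W (fr.J h v))
  rw [fr.J_P]

lemma J2_inj (h : Fin 4 → ℝ) (v : EuclideanSpace ℂ (Fin n)) (hv : J.J2 W fr h v = 0) :
    fr.P h v = 0 := by
  have h1 : J.jj W (fr.J h v) = 0 := congrArg (fun x : HT (HT H0 W) Y => x.fst) hv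
  have h2 := fr.A_J h v
  rw [← J.A_eq, h1, map_zero, add_zero] at h2
  obtain ⟨c, hc⟩ := J.coer' W
  have h3 := hc (fr.J h v)
  rw [h1, h2] at h3
  have h4 : ‖fr.J h v‖ ^ 2 = 0 := le_antisymm (by simpa using h3) (sq_nonneg _)
  have h5 : fr.J h v = 0 := norm_eq_zero.1 (pow_eq_zero_iff two_ne_zero |>.1 h4)
  rw [← fr.l_J, h5, map_zero]

lemma PK_mem (h : Fin 4 → ℝ) (x : J.HH W) : ∃ v, J.PK W fr h x = J.J2 W fr h v := by
  obtain ⟨v, hv⟩ := pj_mem (p := fr.P h) (T := J.jj W ∘L fr.J h) x.fst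
  exact ⟨v, ext_HT hv rfl⟩

/-- the input of 192's `EMB`. -/
theorem emb (hs : ∀ h, Function.Surjective (Φ.A W h)) :
    FamC_192.EmbData 4 (Module.finrank ℂ (kn (Φ.A W 0))) fr.P (J.PK W fr) (J.J2 W fr) (J.UV W) where
  proj := {
    smooth := fr.smP
    per := fun h k => fr.P_per h k
    idem := fr.P_P
    sa := fr.P_sa
    rank := fr.rank }
  smJ := J.cd_J2 W fr
  idem2 h y := by
    have h1 := (J.kerF' W fr hs).1.idem h
    exact congrArg (fun T : J.HH W →L[ℂ] J.HH W => T y) h1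
  sa2 h x y := by
    have h1 := (J.kerF' W fr hs).1.sa h
    rw [ContinuousLinearMap.star_eq_adjoint] at h1
    rw [← ContinuousLinearMap.adjoint_inner_right, h1]
  fix h x _ := (J.kerF' W fr hs).2 h x
  inj h x hx h0 := by rw [← hx]; exact J.J2_inj W fr h x h0
  surj h y := by
    obtain ⟨v, hv⟩ := J.PK_mem W fr h y
    exact ⟨fr.P h v, fr.P_P h v, by rw [J2_P, hv]⟩
  iso k x y := J.innerU W k x y
  per h k x _ := J.J2_per W fr k h x

end link

/-- **the output of RC-ABS.** -/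
theorem main (hRC : RC) {X Y H0 : Type} [NormedAddCommGroup X] [InnerProductSpace ℂ X]
    [CompleteSpace X] [NormedAddCommGroup Y] [InnerProductSpace ℂ Y] [CompleteSpace Y]
    {Φ : PFam 4 X Y} [NormedAddCommGroup H0] [InnerProductSpace ℂ H0] [CompleteSpace H0]
    (J : JF Φ H0) (W : Submodule ℂ Y) [FiniteDimensional ℂ W]
    (hs : ∀ h, Function.Surjective (Φ.A W h)) {n : ℕ} (fr : Φ.Fr W n)
    (hA : ∃ c, App J.K0 c (1 / 4)) {L : ℂ} (hI : Inf (gr H0 Y) J.K0 (fun a => I • od (J.B a)) L) :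
    (∀ h, ∃ c, IsNuc (J.PK W fr h) c) ∧
    (∀ a h, J.PK W fr (h + Pi.single a 1) * J.UU W a = J.UU W a * J.PK W fr h) ∧
    ch4 RCTr_746.tr (J.PK W fr) = L / 2 ∧ ch4 FamDefs_307.tr fr.P = L / 2 := by
  obtain ⟨h1, h2, h3⟩ := hRC _ _ _ _ _ _ _ _ (J.base' W hA) (J.fam W) (J.kerF' W fr hs).1
    (J.inf' W hA hI)
  refine ⟨h1, h2, h3, ?_⟩
  rw [← (J.emb W fr hs).ch4_eq (hb (J.HH W)), ← h3]
  rfl

end JF

end

end Crest.Agent.R235.Rc1_820
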