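import Crest.Agent.R235.RcX4_435
import Crest.Agent.R235.RC_746
import Crest.Agent.R235.FamTop_307

/-!
Row 235 (S0364), block FAM/RC, R6 (helper453): **RCMAN** from the two properties of the concrete family
`rj H C hj` (helper435): `AppR` (approximation numbers of `K0`) and `InfR` (`Inf` with the limit
`c0 * numJ`).
-/

set_option autoImplicit false
set_option maxSynthPendingDepth 3
set_option linter.unusedSectionVars false
set_option synthInstance.maxHeartbeats 400000

open scoped ContDiff InnerProductSpace Topology Manifold Bundle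
open Module MeasureTheory Bundle Filter

namespace Crest.Agent.R235.RcMan_453

open Crest.Agent.R235.FamR_151 Crest.Agent.R235.SWPf_435 Crest.Agent.R235.RcX_435
open Crest.Agent.R235.Rc0_820 Crest.Agent.R235.Rc1_820
open Crest.Agent.R235.RCTr_746 Crest.Agent.R235.RCDefs_746

noncomputable section

section gen

variable {V W V0 : Type} [NormedAddCommGroup V] [InnerProductSpace ℝ V]
    [CompleteSpace V] [NormedAddCommGroup W] [InnerProductSpace ℝ W] [CompleteSpace W]
    [NormedAddCommGroup V0] [InnerProductSpace ℝ V0] [CompleteSpace V0]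
    {Φ : RFam 4 V W V0}

/-- the approximation numbers of the resolvent. -/
def AppR (R : RJ Φ) : Prop := ∃ c, App R.jf.K0 c (1 / 4)

/-- the symbol hypotheses. -/
def InfR (R : RJ Φ) (L : ℂ) : Prop :=
  Inf (gr Φ.H Φ.Y) R.jf.K0 (fun a => Complex.I • od (R.jf.B a)) L

theorem mainR {R : RJ Φ} {L : ℂ} (hA : AppR R) (hI : InfR R L) (E : Submodule ℂ Φ.Y)
    [FiniteDimensional ℂ E] (n : ℕ) (fr : Φ.toP.Fr E n)
    (hs : ∀ h, Function.Surjective (Φ.toP.A E h)) :
    FamDefs_307.ch4 FamDefs_307.tr fr.P = L / 2 :=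
  (R.jf.main RC_746.rc E hs fr hA hI).2.2.2

end gen

open Crest.Agent.R249.Tv57 Crest.Agent.R247.Ms322 Crest.Agent.R247.Dir593
open Crest.Agent.R235.SWSym_451 Crest.Agent.R235.Fs4_546 Crest.Agent.R235.Fred_649
open Crest.Agent.R235.SWDefs_53 Crest.Agent.R235.FamTop_307

/-- approximation numbers of the resolvent (R2). -/
def APP : Prop :=
  ∀ (M : Type) [MetricSpace M] [CompactSpace M] [ConnectedSpace M]
    [ChartedSpace (EuclideanSpace ℝ (Fin 4)) M] [IsManifold (𝓡 4) ∞ M]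
    [RiemannianBundle (fun p : M => TangentSpace (𝓡 4) p)]
    [IsContMDiffRiemannianBundle (𝓡 4) ∞ (EuclideanSpace ℝ (Fin 4))
      (fun p : M => TangentSpace (𝓡 4) p)]
    [IsRiemannianManifold (𝓡 4) M] [MeasurableSpace M] [BorelSpace M]
    [SecondCountableTopology M] [Nonempty M] [IsFiniteMeasureOnCompacts (μHE[4] : Measure M)]
    (κ0 κ1 κT : Type) [Fintype κ0] [Fintype κ1] [Fintype κT]
    (S : SWS M κ0 κ1 κT) (cc : κ1 → κ0 → M → EuclideanSpace ℝ (Fin 4)) (J1 : κ1 → κ1 → M → ℝ)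
    (j : JD M κT 4) (H : Sym S cc) (C : CJ1 S cc J1) (hj : j.OK S), AppR (rj H C hj)

/-- the symbol hypotheses for `ε → 0` (R3, R4b, R5). -/
def INFM (c0 : ℝ) : Prop :=
  ∀ (M : Type) [MetricSpace M] [CompactSpace M] [ConnectedSpace M]
    [ChartedSpace (EuclideanSpace ℝ (Fin 4)) M] [IsManifold (𝓡 4) ∞ M]
    [RiemannianBundle (fun p : M => TangentSpace (𝓡 4) p)]
    [IsContMDiffRiemannianBundle (𝓡 4) ∞ (EuclideanSpace ℝ (Fin 4))
      (fun p : M => TangentSpace (𝓡 4) p)]
    [IsRiemannianManifold (𝓡 4) M] [MeasurableSpace M] [BorelSpace M]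
    [SecondCountableTopology M] [Nonempty M] [IsFiniteMeasureOnCompacts (μHE[4] : Measure M)]
    (κ0 κ1 κT : Type) [Fintype κ0] [Fintype κ1] [Fintype κT]
    (S : SWS M κ0 κ1 κT) (cc : κ1 → κ0 → M → EuclideanSpace ℝ (Fin 4)) (J1 : κ1 → κ1 → M → ℝ)
    (j : JD M κT 4) (H : Sym S cc) (C : CJ1 S cc J1) (hj : j.OK S), AppR (rj H C hj) →
    InfR (rj H C hj) ((c0 * numJ S j : ℝ) : ℂ)

/-- **RCMAN** from the two pieces. -/
theorem rcman_of {c0 : ℝ} (hc : c0 ≠ 0) (hA : APP) (hI : INFM c0) : RCMAN.{0} := by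
  refine ⟨((c0 / 2 : ℝ) : ℂ), Complex.ofReal_ne_zero.2 (div_ne_zero hc two_ne_zero), ?_⟩
  intro M _ _ _ _ _ _ _ _ _ _ _ _ _ κ0 κ1 κT _ _ _ S cc J1 j _ H C hj
  refine ⟨(RF H C hj).X, (RF H C hj).Y, inferInstance, inferInstance, inferInstance,
    inferInstance, inferInstance, inferInstance, (RF H C hj).toP, (RF H C hj).eX,
    (RF H C hj).eY, phi j, rep H C hj, ?_, ?_⟩
  · intro d0 h0 h1
    have e0 := index0 H C hj h0
    have e1 := index1 H C hj h1
    omega
  · intro E _ n fr hs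
    have hA' := hA M κ0 κ1 κT S cc J1 j H C hj
    rw [mainR hA' (hI M κ0 κ1 κT S cc J1 j H C hj hA') E n fr hs, Complex.ofReal_mul,
      Complex.ofReal_div]
    push_cast
    ring

end

end Crest.Agent.R235.RcMan_453
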