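import Crest.Agent.R235.FamTop_307
import Crest.Agent.R235.La4_291

/-!
Row 235 (S0364), block FAM / RCMAN, leaf P3 (text by helper820, typed by helper522): the pointwise
Clifford algebra of `RCMAN`: the alternating sum of `b_σ0ᵀ b_σ1 b_σ2ᵀ b_σ3` is `f0 • p₀` with a smooth
function `f0`, the one on the other side is `-f0 • p₁`.
-/

set_option autoImplicit false
set_option maxSynthPendingDepth 3
set_option linter.unusedSectionVars false

open scoped ContDiff ENNReal NNReal Topology Manifold Bundle RealInnerProductSpace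
open MeasureTheory Set Filter Metric Bundle Module

universe v

namespace Crest.Agent.R235.RcPt_522

open Crest.Agent.R235
open Crest.Agent.R249.Tv57 Crest.Agent.R247.Ms322 Crest.Agent.R247.Dir593
open Crest.Agent.R235.SWDefs_53 Crest.Agent.R235.SWSym_451
open Crest.Agent.R235.FamTop_307

noncomputable section

variable {M : Type v} [MetricSpace M] [CompactSpace M] [ConnectedSpace M]
  [ChartedSpace (EuclideanSpace ℝ (Fin 4)) M] [IsManifold (𝓡 4) ∞ M]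
  [RiemannianBundle (fun p : M => TangentSpace (𝓡 4) p)]
  [IsContMDiffRiemannianBundle (𝓡 4) ∞ (EuclideanSpace ℝ (Fin 4))
    (fun p : M => TangentSpace (𝓡 4) p)]
  [IsRiemannianManifold (𝓡 4) M] [MeasurableSpace M] [BorelSpace M]
  [SecondCountableTopology M] [Nonempty M]
  {κ0 κ1 κT : Type} [Fintype κ0] [Fintype κ1] [Fintype κT]
  {S : SWS M κ0 κ1 κT} {cc : κ1 → κ0 → M → EuclideanSpace ℝ (Fin 4)} {J1 : κ1 → κ1 → M → ℝ}
  {j : JD M κT 4}

/-- Clifford multiplication as a linear map to matrices. -/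
def cm (cc : κ1 → κ0 → M → EuclideanSpace ℝ (Fin 4)) (z : M) :
    EuclideanSpace ℝ (Fin 4) →ₗ[ℝ] Matrix κ1 κ0 ℝ where
  toFun X := Matrix.of fun x y => ⟪cc x y z, X⟫
  map_add' X Y := by
    ext x y
    simp only [Matrix.of_apply, Matrix.add_apply, inner_add_right]
  map_smul' c X := by
    ext x y
    simp only [Matrix.of_apply, Matrix.smul_apply, inner_smul_right, RingHom.id_apply, smul_eq_mul]

theorem cm_apply (z : M) (X : EuclideanSpace ℝ (Fin 4)) (x : κ1) (y : κ0) :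
    cm cc z X x y = ⟪cc x y z, X⟫ := rfl

def mp0 (S : SWS M κ0 κ1 κT) (z : M) : Matrix κ0 κ0 ℝ := Matrix.of fun y y' => S.D0.p y y' z
def mp1 (S : SWS M κ0 κ1 κT) (z : M) : Matrix κ1 κ1 ℝ := Matrix.of fun x x' => S.D1.p x x' z
def mJ (S : SWS M κ0 κ1 κT) (z : M) : Matrix κ0 κ0 ℝ := Matrix.of fun y y' => S.J y y' z
def mJ1 (J1 : κ1 → κ1 → M → ℝ) (z : M) : Matrix κ1 κ1 ℝ := Matrix.of fun x x' => J1 x x' z

/-- `b_i` as a matrix. -/
def mb (S : SWS M κ0 κ1 κT) (j : JD M κT 4) (z : M) (i : Fin 4) : Matrix κ1 κ0 ℝ :=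
  Matrix.of fun x y => bJ S j i x y z

/-- the vector field `2π al_i`. -/
def XX (S : SWS M κ0 κ1 κT) (j : JD M κT 4) (z : M) (i : Fin 4) : EuclideanSpace ℝ (Fin 4) :=
  (2 * Real.pi) • ∑ A, j.al i A z • S.s A z

theorem mb_eq (H : Sym S cc) (z : M) (i : Fin 4) :
    mb S j z i = cm cc z (XX S j z i) * mJ S z := by
  ext x y
  simp only [mb, mJ, XX, bJ, Matrix.mul_apply, Matrix.of_apply, cm_apply, inner_smul_right,
    inner_sum, H.cl_eq]
  rw [Finset.mul_sum]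
  simp only [Finset.mul_sum, Finset.sum_mul]
  rw [Finset.sum_comm]
  refine Finset.sum_congr rfl fun y' _ => Finset.sum_congr rfl fun A _ => ?_
  ring

open scoped Matrix

theorem pT0 (S : SWS M κ0 κ1 κT) (z : M) : (mp0 S z)ᵀ = mp0 S z := by
  ext y y'
  simp only [mp0, Matrix.transpose_apply, Matrix.of_apply]
  exact S.D0.symmp _ _ _

theorem pT1 (S : SWS M κ0 κ1 κT) (z : M) : (mp1 S z)ᵀ = mp1 S z := by
  ext y y'
  simp only [mp1, Matrix.transpose_apply, Matrix.of_apply]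
  exact S.D1.symmp _ _ _

theorem pp0 (S : SWS M κ0 κ1 κT) (z : M) : mp0 S z * mp0 S z = mp0 S z := by
  ext y y'
  simp only [mp0, Matrix.mul_apply, Matrix.of_apply]
  exact S.D0.idem _ _ _

theorem pp1 (S : SWS M κ0 κ1 κT) (z : M) : mp1 S z * mp1 S z = mp1 S z := by
  ext y y'
  simp only [mp1, Matrix.mul_apply, Matrix.of_apply]
  exact S.D1.idem _ _ _

theorem cm_p (H : Sym S cc) (z : M) (X : EuclideanSpace ℝ (Fin 4)) :
    cm cc z X * mp0 S z = cm cc z X := by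
  ext x y
  simp only [mp0, Matrix.mul_apply, Matrix.of_apply, cm_apply]
  rw [← H.cc_p x y z, sum_inner]
  exact Finset.sum_congr rfl fun y' _ => by rw [inner_smul_left]; simp [mul_comm]

theorem p_cm (H : Sym S cc) (z : M) (X : EuclideanSpace ℝ (Fin 4)) :
    mp1 S z * cm cc z X = cm cc z X := by
  ext x y
  simp only [mp1, Matrix.mul_apply, Matrix.of_apply, cm_apply]
  rw [← H.p_cc x y z, sum_inner]
  exact Finset.sum_congr rfl fun y' _ => by rw [inner_smul_left]; simp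

theorem cl0 (H : Sym S cc) (z : M) (X Y : EuclideanSpace ℝ (Fin 4)) :
    (cm cc z X)ᵀ * cm cc z Y + (cm cc z Y)ᵀ * cm cc z X = (2 * inner ℝ X Y) • mp0 S z := by
  ext y y'
  simp only [mp0, Matrix.mul_apply, Matrix.add_apply, Matrix.smul_apply, Matrix.transpose_apply,
    Matrix.of_apply, cm_apply, smul_eq_mul]
  rw [← Finset.sum_add_distrib]
  exact H.clif0 z X Y y y'

theorem cl1 (H : Sym S cc) (z : M) (X Y : EuclideanSpace ℝ (Fin 4)) :
    cm cc z X * (cm cc z Y)ᵀ + cm cc z Y * (cm cc z X)ᵀ = (2 * inner ℝ X Y) • mp1 S z := by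
  ext y y'
  simp only [mp1, Matrix.mul_apply, Matrix.add_apply, Matrix.smul_apply, Matrix.transpose_apply,
    Matrix.of_apply, cm_apply, smul_eq_mul]
  rw [← Finset.sum_add_distrib]
  exact H.clif1 z X Y y y'

theorem J1_cm (C : CJ1 S cc J1) (z : M) (X : EuclideanSpace ℝ (Fin 4)) :
    mJ1 J1 z * cm cc z X = cm cc z X * mJ S z := by
  ext x y
  simp only [mJ1, mJ, Matrix.mul_apply, Matrix.of_apply, cm_apply]
  have h := congrArg (fun v => ⟪v, X⟫) (C.cc x y z)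
  simp only [sum_inner, inner_smul_left, conj_trivial] at h
  rw [h]
  exact Finset.sum_congr rfl fun y' _ => mul_comm _ _

theorem JT (H : Sym S cc) (z : M) : (mJ S z)ᵀ = -mJ S z := by
  ext y y'
  simp only [mJ, Matrix.transpose_apply, Matrix.of_apply, Matrix.neg_apply]
  exact H.skewJ _ _ _

theorem J1T (C : CJ1 S cc J1) (z : M) : (mJ1 J1 z)ᵀ = -mJ1 J1 z := by
  ext y y'
  simp only [mJ1, Matrix.transpose_apply, Matrix.of_apply, Matrix.neg_apply]
  exact C.skew _ _ _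

theorem JJ (H : Sym S cc) (z : M) : mJ S z * mJ S z = -mp0 S z := by
  ext y y'
  simp only [mJ, mp0, Matrix.mul_apply, Matrix.of_apply, Matrix.neg_apply]
  exact H.Jsq _ _ _

theorem JJ1 (C : CJ1 S cc J1) (z : M) : mJ1 J1 z * mJ1 J1 z = -mp1 S z := by
  ext y y'
  simp only [mJ1, mp1, Matrix.mul_apply, Matrix.of_apply, Matrix.neg_apply]
  exact C.sq _ _ _

/-- `b_iᵀ b_k = c_iᵀ c_k`. -/
theorem bTb (H : Sym S cc) (C : CJ1 S cc J1) (z : M) (i k : Fin 4) :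
    (mb S j z i)ᵀ * mb S j z k = (cm cc z (XX S j z i))ᵀ * cm cc z (XX S j z k) := by
  rw [mb_eq H, mb_eq H, ← J1_cm C, ← J1_cm C, Matrix.transpose_mul, J1T C]
  calc (cm cc z (XX S j z i))ᵀ * -mJ1 J1 z * (mJ1 J1 z * cm cc z (XX S j z k)) =
      -((cm cc z (XX S j z i))ᵀ * ((mJ1 J1 z * mJ1 J1 z) * cm cc z (XX S j z k))) := by
        simp only [Matrix.mul_neg, Matrix.neg_mul, Matrix.mul_assoc]
    _ = _ := by
        rw [JJ1 C, Matrix.neg_mul, Matrix.mul_neg, neg_neg, p_cm H]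

/-- `b_i b_kᵀ = c_i c_kᵀ`. -/
theorem bbT (H : Sym S cc) (z : M) (i k : Fin 4) :
    mb S j z i * (mb S j z k)ᵀ = cm cc z (XX S j z i) * (cm cc z (XX S j z k))ᵀ := by
  rw [mb_eq H, mb_eq H, Matrix.transpose_mul, JT H]
  calc cm cc z (XX S j z i) * mJ S z * (-mJ S z * (cm cc z (XX S j z k))ᵀ) =
      -(cm cc z (XX S j z i) * (mJ S z * mJ S z) * (cm cc z (XX S j z k))ᵀ) := by
        simp only [Matrix.mul_neg, Matrix.neg_mul, Matrix.mul_assoc]
    _ = _ := by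
        rw [JJ H, Matrix.mul_neg, Matrix.neg_mul, neg_neg, cm_p H]

theorem L4_eq (S : SWS M κ0 κ1 κT) (j : JD M κT 4) (i k l m : Fin 4) (y y' : κ0) (z : M) :
    L4 S j i k l m y y' z = ((mb S j z i)ᵀ * mb S j z k * (mb S j z l)ᵀ * mb S j z m) y y' := by
  simp only [L4, mb, Matrix.mul_apply, Matrix.transpose_apply, Matrix.of_apply, Finset.sum_mul]
  symm
  rw [Finset.sum_comm]
  rw [Finset.sum_congr rfl fun y1 _ => Finset.sum_comm]
  rw [Finset.sum_comm]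

theorem R4_eq (S : SWS M κ0 κ1 κT) (j : JD M κT 4) (i k l m : Fin 4) (x x' : κ1) (z : M) :
    (∑ y, ∑ x1, ∑ y1, bJ S j i x y z * bJ S j k x1 y z * bJ S j l x1 y1 z * bJ S j m x' y1 z) =
      (mb S j z i * (mb S j z k)ᵀ * mb S j z l * (mb S j z m)ᵀ) x x' := by
  simp only [mb, Matrix.mul_apply, Matrix.transpose_apply, Matrix.of_apply, Finset.sum_mul]
  symm
  rw [Finset.sum_comm]
  rw [Finset.sum_congr rfl fun y1 _ => Finset.sum_comm]
  rw [Finset.sum_comm]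

/-- pointwise form. -/
theorem pw (H : Sym S cc) (C : CJ1 S cc J1) (z : M) : ∃ r : ℝ,
    (∀ y y', ∑ σ : Equiv.Perm (Fin 4), ((Equiv.Perm.sign σ : ℤ) : ℝ) *
      L4 S j (σ 0) (σ 1) (σ 2) (σ 3) y y' z = r * S.D0.p y y' z) ∧
    (∀ x x', ∑ σ : Equiv.Perm (Fin 4), ((Equiv.Perm.sign σ : ℤ) : ℝ) *
      (∑ y, ∑ x1, ∑ y1, bJ S j (σ 0) x y z * bJ S j (σ 1) x1 y z * bJ S j (σ 2) x1 y1 z *
        bJ S j (σ 3) x' y1 z) = -r * S.D1.p x x' z) := by
  classical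
  have t0 : (mp0 S z).trace = 4 := by
    simp only [Matrix.trace, Matrix.diag_apply, mp0, Matrix.of_apply]
    exact H.rk0 z
  obtain ⟨r, h0, h1⟩ := La4_291.la4 (cm cc z) (mp0 S z) (mp1 S z) (pT0 S z) (pT1 S z) (pp0 S z)
    (pp1 S z) (cm_p H z) (p_cm H z) (cl0 H z) (cl1 H z) t0 (XX S j z)
  refine ⟨r, fun y y' => ?_, fun x x' => ?_⟩
  · have e := congrFun (congrFun h0 y) y'
    simp only [Matrix.sum_apply, Matrix.smul_apply, smul_eq_mul] at e
    rw [show S.D0.p y y' z = mp0 S z y y' from rfl, ← e]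
    refine Finset.sum_congr rfl fun σ _ => ?_
    rw [L4_eq, Matrix.mul_assoc, bTb H C, bTb H C, ← Matrix.mul_assoc]
  · have e := congrFun (congrFun h1 x) x'
    simp only [Matrix.sum_apply, Matrix.smul_apply, smul_eq_mul] at e
    rw [show S.D1.p x x' z = mp1 S z x x' from rfl, ← e]
    refine Finset.sum_congr rfl fun σ _ => ?_
    rw [R4_eq, Matrix.mul_assoc, bbT H, bbT H, ← Matrix.mul_assoc]

theorem sm_bJ (hS : S.OK) (hj : j.OK S) (i : Fin 4) (x : κ1) (y : κ0) :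
    ContMDiff (𝓡 4) 𝓘(ℝ, ℝ) ∞ (bJ S j i x y) := by
  unfold bJ
  exact contMDiff_const.mul (ContMDiff.sum fun A _ => (hj.sm i A).mul (hS.smcl A x y))

theorem sm_L4 (hS : S.OK) (hj : j.OK S) (i k l m : Fin 4) (y y' : κ0) :
    ContMDiff (𝓡 4) 𝓘(ℝ, ℝ) ∞ (L4 S j i k l m y y') := by
  unfold L4
  exact ContMDiff.sum fun x _ => ContMDiff.sum fun y1 _ => ContMDiff.sum fun x1 _ =>
    (((sm_bJ hS hj i x y).mul (sm_bJ hS hj k x y1)).mul (sm_bJ hS hj l x1 y1)).mul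
      (sm_bJ hS hj m x1 y')

/-- **P3** (text by helper820). -/
theorem pt (hS : S.OK) (H : Sym S cc) (C : CJ1 S cc J1) (hj : j.OK S) :
    ∃ f0 : M → ℝ, ContMDiff (𝓡 4) 𝓘(ℝ, ℝ) ∞ f0 ∧
      (∀ z y y', ∑ σ : Equiv.Perm (Fin 4), ((Equiv.Perm.sign σ : ℤ) : ℝ) *
        L4 S j (σ 0) (σ 1) (σ 2) (σ 3) y y' z = f0 z * S.D0.p y y' z) ∧
      (∀ z x x', ∑ σ : Equiv.Perm (Fin 4), ((Equiv.Perm.sign σ : ℤ) : ℝ) *
        (∑ y, ∑ x1, ∑ y1, bJ S j (σ 0) x y z * bJ S j (σ 1) x1 y z * bJ S j (σ 2) x1 y1 z *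
          bJ S j (σ 3) x' y1 z) = -(f0 z) * S.D1.p x x' z) ∧
      (∀ z, 4 * f0 z = ∑ σ : Equiv.Perm (Fin 4), ((Equiv.Perm.sign σ : ℤ) : ℝ) *
        ∑ y, L4 S j (σ 0) (σ 1) (σ 2) (σ 3) y y z) := by
  choose r h0 h1 using fun z => pw (j := j) H C z
  have key : ∀ z, 4 * r z = ∑ σ : Equiv.Perm (Fin 4), ((Equiv.Perm.sign σ : ℤ) : ℝ) *
      ∑ y, L4 S j (σ 0) (σ 1) (σ 2) (σ 3) y y z := by
    intro z
    rw [← H.rk0 z, Finset.sum_mul]
    simp only [Finset.mul_sum]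
    rw [Finset.sum_comm]
    refine Finset.sum_congr rfl fun y _ => ?_
    rw [h0 z y y, mul_comm]
  refine ⟨r, ?_, h0, h1, key⟩
  have e : r = fun z => (1 / 4 : ℝ) * ∑ σ : Equiv.Perm (Fin 4),
      ((Equiv.Perm.sign σ : ℤ) : ℝ) * ∑ y, L4 S j (σ 0) (σ 1) (σ 2) (σ 3) y y z := by
    funext z
    rw [← key z]
    ring
  rw [e]
  exact contMDiff_const.mul (ContMDiff.sum fun σ _ => contMDiff_const.mul
    (ContMDiff.sum fun y _ => sm_L4 hS hj _ _ _ _ _ _))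

end

end Crest.Agent.R235.RcPt_522
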