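import Crest.Agent.R235.RcR5_723
import Crest.Agent.R235.SWPfC_435

/-!
Row 235 (S0364), block FAM, RCMAN (P3) (helper723): `pt`, helper820's exact text.
-/

set_option autoImplicit false
set_option maxSynthPendingDepth 3
set_option linter.unusedSectionVars false

open scoped ContDiff ENNReal NNReal Topology Manifold Bundle RealInnerProductSpace
open MeasureTheory Set Filter Metric Bundle

universe v

namespace Crest.Agent.R235.RcR5_723

open Crest.Agent.R249.Tv57 (Dat OpPair SmF SmV)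
open Crest.Agent.R235.SWDefs_53 Crest.Agent.R235.SWSym_451
open Crest.Agent.R235.FamTop_307 (bJ L4 numJ)

noncomputable section

variable {M : Type v} [MetricSpace M] [CompactSpace M] [ConnectedSpace M]
  [ChartedSpace (EuclideanSpace ℝ (Fin 4)) M] [IsManifold (𝓡 4) ∞ M]
  [RiemannianBundle (fun p : M => TangentSpace (𝓡 4) p)]
  [IsContMDiffRiemannianBundle (𝓡 4) ∞ (EuclideanSpace ℝ (Fin 4))
    (fun p : M => TangentSpace (𝓡 4) p)]
  [IsRiemannianManifold (𝓡 4) M] [MeasurableSpace M] [BorelSpace M]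
  [SecondCountableTopology M] [Nonempty M] [IsFiniteMeasureOnCompacts (μHE[4] : Measure M)]
  {κ0 κ1 κT : Type} [Fintype κ0] [Fintype κ1] [Fintype κT]
  {S : SWS M κ0 κ1 κT} {cc : κ1 → κ0 → M → EuclideanSpace ℝ (Fin 4)} {J1 : κ1 → κ1 → M → ℝ}
  {j : JD M κT 4}

theorem sm_bJ (H : Sym S cc) (hj : j.OK S) (i : Fin 4) (x : κ1) (y : κ0) :
    ContMDiff (𝓡 4) 𝓘(ℝ, ℝ) ∞ (bJ S j i x y) := by
  unfold bJ
  exact contMDiff_const.mul (contMDiff_finsetSum fun A _ =>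
    (hj.sm i A).mul (SWPf_435.smcl H A x y))

theorem sm_L4 (H : Sym S cc) (hj : j.OK S) (i k l m : Fin 4) (y y' : κ0) :
    ContMDiff (𝓡 4) 𝓘(ℝ, ℝ) ∞ (L4 S j i k l m y y') := by
  unfold L4
  exact contMDiff_finsetSum fun x _ => contMDiff_finsetSum fun y1 _ => contMDiff_finsetSum fun x1 _ =>
    (((sm_bJ H hj i x y).mul (sm_bJ H hj k x y1)).mul (sm_bJ H hj l x1 y1)).mul
      (sm_bJ H hj m x1 y')

theorem sm_rr (H : Sym S cc) (hj : j.OK S) : ContMDiff (𝓡 4) 𝓘(ℝ, ℝ) ∞ (rr S j) := by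
  unfold rr
  exact contMDiff_const.mul (contMDiff_finsetSum fun σ _ => contMDiff_const.mul
    (contMDiff_finsetSum fun y _ => sm_L4 H hj _ _ _ _ y y))

/-- **P3**. -/
theorem pt (H : Sym S cc) (hj : j.OK S) : ∃ f0 : M → ℝ, ContMDiff (𝓡 4) 𝓘(ℝ, ℝ) ∞ f0 ∧
    (∀ z y y', ∑ σ : Equiv.Perm (Fin 4), ((Equiv.Perm.sign σ : ℤ) : ℝ) *
      L4 S j (σ 0) (σ 1) (σ 2) (σ 3) y y' z = f0 z * S.D0.p y y' z) ∧
    (∀ z x x', ∑ σ : Equiv.Perm (Fin 4), ((Equiv.Perm.sign σ : ℤ) : ℝ) *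
      (∑ y, ∑ x1, ∑ y1, bJ S j (σ 0) x y z * bJ S j (σ 1) x1 y z * bJ S j (σ 2) x1 y1 z *
        bJ S j (σ 3) x' y1 z) = -(f0 z) * S.D1.p x x' z) ∧
    (∀ z, 4 * f0 z = ∑ σ : Equiv.Perm (Fin 4), ((Equiv.Perm.sign σ : ℤ) : ℝ) *
      ∑ y, L4 S j (σ 0) (σ 1) (σ 2) (σ 3) y y z) := by
  refine ⟨rr S j, sm_rr H hj, sum_L4 H j, sum_L4' H j, fun z => ?_⟩
  unfold rr
  ring

end

end Crest.Agent.R235.RcR5_723
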