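import Crest.Agent.R235.Fs4_546
import Crest.Agent.R249.Tof_352
import Crest.Agent.R249.Vf2_281
import Crest.Agent.R249.DicB_129
import Crest.Agent.R249.Ker57a_57

/-!
Row 235 (S0364), PACKAGE FAM, RCMAN, piece (P2) (helper215): commutator estimate.

`D0, D1 : Dat 4 M _`, `P : OpPair D0 D1`, `β : κ1 → κ0 → M → ℝ` a smooth bundle map,
`b u = β u`, `bᵀ w = βᵀ w`:

`|⟨A*(b u), A* w⟩ - ⟨A u, A(bᵀ w)⟩| ≤ K ‖u‖_W ‖w‖` and `≤ K ‖u‖ ‖w‖_W`.
-/

set_option autoImplicit false
set_option maxSynthPendingDepth 3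
set_option linter.unusedSectionVars false

open scoped ContDiff ENNReal NNReal Topology Manifold Bundle RealInnerProductSpace
open MeasureTheory Set Filter Metric Bundle

universe v

namespace Crest.Agent.R235.RcQ_215

open Crest.Agent.R249.Tv57 Crest.Agent.R247.Ms322 Crest.Agent.R247.Dir593
open Crest.Agent.R247.Frd657 Crest.Agent.R235.Fs4_546
open Crest.GeometryTopology.CoordMetric Crest.GeometryTopology.ChartCurvature
open Crest.Agent.R249.Vf281 (VSm vCh mDiv)
open Crest.Agent.R249.Tof352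

noncomputable section

variable {n : ℕ} {M : Type v} [MetricSpace M] [ChartedSpace (EuclideanSpace ℝ (Fin n)) M]
  [IsManifold (𝓡 n) ∞ M]
  [RiemannianBundle (fun p : M => TangentSpace (𝓡 n) p)]
  [IsContMDiffRiemannianBundle (𝓡 n) ∞ (EuclideanSpace ℝ (Fin n)) (fun p : M => TangentSpace (𝓡 n) p)]
  [IsRiemannianManifold (𝓡 n) M] [MeasurableSpace M] [BorelSpace M]
  [SecondCountableTopology M] [Nonempty M]

local notation "𝔼" => EuclideanSpace ℝ (Fin n)

/-- smooth frame fields are smooth vector fields. -/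
theorem vsm_ofF {N : M → EuclideanSpace ℝ (Fin n)} (hN : SmF N) (z : M) :
    VSm n ∞ (fun q => ((toF n q).symm (N q) : TangentSpace (𝓡 n) q)) z := by
  have hz := mem_chart_source 𝔼 z
  have hb := (chartAt 𝔼 z).map_source hz
  have hg := isRiemannianOn_chartMetric (n := n) z
  have h1 : ∀ i : Fin n, ContDiffOn ℝ ∞ (fun b => ∑ j, cf z j N b *
      inverseField (chartMetric n M z) b i j) (chartAt 𝔼 z).target := fun i =>
    ContDiffOn.sum fun j _ => (hN z j).mul (Crest.Agent.R202.Tens.contDiffOn_inv_entry hg i j)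
  have h2 : ∀ i : Fin n, ∀ b ∈ (chartAt 𝔼 z).target,
      (vCh n z (fun q => ((toF n q).symm (N q) : TangentSpace (𝓡 n) q)) b) i =
        ∑ j, cf z j N b * inverseField (chartMetric n M z) b i j := by
    intro i b hb
    unfold vCh
    rw [← inner_dxf_toF z ((chartAt 𝔼 z).map_target hb), LinearIsometryEquiv.apply_symm_apply,
      expand_cf z N hb, inner_sum]
    refine Finset.sum_congr rfl fun j _ => ?_
    rw [real_inner_smul_right, inner_dxf' z hb]
  have h3 : ContDiffOn ℝ ∞ (vCh n z (fun q => ((toF n q).symm (N q) : TangentSpace (𝓡 n) q)))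
      (chartAt 𝔼 z).target := by
    rw [contDiffOn_euclidean]
    intro i
    exact (h1 i).congr fun b hb => h2 i b hb
  exact h3.contDiffAt ((chartAt 𝔼 z).open_target.mem_nhds hb)

variable [CompactSpace M]

/-- integration by parts against a smooth frame field. -/
theorem ibp {N : M → EuclideanSpace ℝ (Fin n)} (hN : SmF N) : ∃ dN : M → ℝ, Continuous dN ∧
    ∀ f : M → ℝ, ContMDiff (𝓡 n) 𝓘(ℝ, ℝ) ∞ f →
      ∫ z, (⟪N z, Gr (n := n) f z⟫ : ℝ) ∂(μHE[n] : Measure M) =
        - ∫ z, dN z * f z ∂(μHE[n] : Measure M) := by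
  refine ⟨mDiv n (fun q => ((toF n q).symm (N q) : TangentSpace (𝓡 n) q)),
    (Crest.Agent.R249.Sg129.contMDiff_mDiv fun q => vsm_ofF hN q).continuous, fun f hf => ?_⟩
  have h1 := Crest.Agent.R249.Vf281.ibp_mDiv (n := n) isOpen_univ
    (X := fun q => ((toF n q).symm (N q) : TangentSpace (𝓡 n) q))
    (fun z _ => (vsm_ofF hN z).of_le (by simp)) (locLip_of_contMDiff (n := n) (hf.of_le (by simp)))
    (HasCompactSupport.of_compactSpace f) (subset_univ _)
  rw [show (fun z => mDiv n (fun q => ((toF n q).symm (N q) : TangentSpace (𝓡 n) q)) z * f z) =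
    fun z => f z * mDiv n (fun q => ((toF n q).symm (N q) : TangentSpace (𝓡 n) q)) z from
      funext fun z => mul_comm _ _, ← h1]
  refine integral_congr_ae (Eventually.of_forall fun z => ?_)
  show (⟪N z, Gr (n := n) f z⟫ : ℝ) = Crest.Agent.R247.Bo84.dM n f z ((toF n z).symm (N z))
  rw [← Crest.Agent.R247.Bo84.inner_mgrad', ← inner_toF, LinearIsometryEquiv.apply_symm_apply,
    real_inner_comm, toF_mgrad]

/-! ### Cauchy-Schwarz -/

variable [IsFiniteMeasureOnCompacts (μHE[n] : Measure M)]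

theorem intg {f : M → ℝ} (hf : Continuous f) : Integrable f (μHE[n] : Measure M) :=
  hf.integrable_of_hasCompactSupport (HasCompactSupport.of_compactSpace f)

/-- `∫ |f| ≤ C √a √b` if `|f|² ≤ C² A B` pointwise. -/
theorem cs_int {f A B : M → ℝ} (hf : Continuous f) (hA : Continuous A) (hB : Continuous B)
    (hA0 : ∀ z, 0 ≤ A z) (hB0 : ∀ z, 0 ≤ B z) {C : ℝ} (hC : 0 ≤ C)
    (h : ∀ z, |f z| ≤ C * (√(A z) * √(B z))) :
    |∫ z, f z ∂(μHE[n] : Measure M)| ≤ C * (√(∫ z, A z ∂(μHE[n] : Measure M)) *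
      √(∫ z, B z ∂(μHE[n] : Measure M))) := by
  set a := ∫ z, A z ∂(μHE[n] : Measure M) with ha
  set b := ∫ z, B z ∂(μHE[n] : Measure M) with hb
  have ha0 : 0 ≤ a := integral_nonneg hA0
  have hb0 : 0 ≤ b := integral_nonneg hB0
  -- for every `s > 0`
  have key : ∀ s : ℝ, 0 < s → |∫ z, f z ∂(μHE[n] : Measure M)| ≤ C * ((s * a + s⁻¹ * b) / 2) := by
    intro s hs
    have h1 : |∫ z, f z ∂(μHE[n] : Measure M)| ≤ ∫ z, |f z| ∂(μHE[n] : Measure M) :=
      abs_integral_le_integral_abs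
    refine h1.trans ?_
    have h2 : C * ((s * a + s⁻¹ * b) / 2) =
        ∫ z, C * ((s * A z + s⁻¹ * B z) / 2) ∂(μHE[n] : Measure M) := by
      rw [integral_const_mul, integral_div, integral_add ((intg hA).const_mul s)
        ((intg hB).const_mul s⁻¹), integral_const_mul, integral_const_mul]
    rw [h2]
    refine integral_mono (intg hf.abs) (intg (continuous_const.mul
      (((continuous_const.mul hA).add (continuous_const.mul hB)).div_const 2))) fun z => ?_
    refine (h z).trans (mul_le_mul_of_nonneg_left ?_ hC)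
    have h3 := Real.sq_sqrt (hA0 z)
    have h4 := Real.sq_sqrt (hB0 z)
    have h5 : s * s⁻¹ = 1 := mul_inv_cancel₀ hs.ne'
    have h6 : 0 ≤ s * (√(A z) - s⁻¹ * √(B z)) ^ 2 := by positivity
    have h7 : s * (√(A z) - s⁻¹ * √(B z)) ^ 2 =
        s * √(A z) ^ 2 - 2 * (s * s⁻¹) * (√(A z) * √(B z)) + (s * s⁻¹) * s⁻¹ * √(B z) ^ 2 := by
      ring
    rw [h7, h5, h3, h4] at h6
    linarith
  rcases hC.eq_or_lt with hC0 | hC0
  · have := key 1 one_pos
    rw [← hC0] at this ⊢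
    simpa using this
  set t := |∫ z, f z ∂(μHE[n] : Measure M)| / C with ht
  have ht0 : 0 ≤ t := div_nonneg (abs_nonneg _) hC
  have key' : ∀ s : ℝ, 0 < s → t ≤ (s * a + s⁻¹ * b) / 2 := by
    intro s hs
    rw [ht, div_le_iff₀ hC0, mul_comm]
    exact key s hs
  have hgoal : t ≤ √a * √b := by
    have hsq : t ^ 2 ≤ a * b := by
      by_contra hcon
      rw [not_le] at hcon
      have ht1 : 0 < t := by
        rcases ht0.eq_or_lt with h0 | h0
        · rw [← h0] at hcon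
          have := mul_nonneg ha0 hb0
          linarith
        · exact h0
      rcases ha0.eq_or_lt with h0 | h0
      · -- `a = 0` : let `s → ∞`
        have := key' ((b + 1) / t) (by positivity)
        rw [← h0, mul_zero, zero_add, inv_div] at this
        have h8 : t / (b + 1) * b ≤ t := by
          rw [div_mul_eq_mul_div, div_le_iff₀ (by positivity)]
          nlinarith
        linarith
      · have := key' (t / a) (by positivity)
        rw [inv_div, div_mul_cancel₀ _ h0.ne'] at this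
        have h9 : a / t * b < t := by
          rw [div_mul_eq_mul_div, div_lt_iff₀ ht1]
          nlinarith
        linarith
    rw [← Real.sqrt_mul ha0]
    exact Real.le_sqrt_of_sq_le hsq
  have : |∫ z, f z ∂(μHE[n] : Measure M)| = C * t := by
    rw [ht]
    field_simp
  rw [this]
  exact mul_le_mul_of_nonneg_left hgoal hC

/-! ### the two maps -/

variable {κ κ' : Type} [Fintype κ] [Fintype κ']

/-- `b u`. -/
def bU (β : κ' → κ → M → ℝ) (u : κ → M → ℝ) : κ' → M → ℝ := fun x z => ∑ y, β x y z * u y z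

/-- `bᵀ w`. -/
def bT (β : κ' → κ → M → ℝ) (w : κ' → M → ℝ) : κ → M → ℝ := fun y z => ∑ x, β x y z * w x z

/-- the covariant derivative of `β`. -/
def NN (D0 : Dat n M κ) (D1 : Dat n M κ') (β : κ' → κ → M → ℝ) (x : κ') (y : κ) (z : M) :
    EuclideanSpace ℝ (Fin n) :=
  Gr (n := n) (β x y) z + ∑ x', β x' y z • D1.X x x' z - ∑ y', β x y' z • D0.X y' y z

variable {D0 : Dat n M κ} {D1 : Dat n M κ'} {β : κ' → κ → M → ℝ}

section
omit [CompactSpace M] [IsFiniteMeasureOnCompacts (μHE[n] : Measure M)]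

theorem sm_bU (hβ : ∀ x y, ContMDiff (𝓡 n) 𝓘(ℝ, ℝ) ∞ (β x y)) {u : κ → M → ℝ}
    (hu : SmV (n := n) u) : SmV (n := n) (bU β u) := fun x =>
  contMDiff_finsetSum fun y _ => (hβ x y).mul (hu y)

theorem sm_bT (hβ : ∀ x y, ContMDiff (𝓡 n) 𝓘(ℝ, ℝ) ∞ (β x y)) {w : κ' → M → ℝ}
    (hw : SmV (n := n) w) : SmV (n := n) (bT β w) := fun y =>
  contMDiff_finsetSum fun x _ => (hβ x y).mul (hw x)

theorem smF_NN (hβ : ∀ x y, ContMDiff (𝓡 n) 𝓘(ℝ, ℝ) ∞ (β x y)) (x : κ') (y : κ) :
    SmF (NN D0 D1 β x y) :=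
  ((smF_Gr (hβ x y)).add (SmF.sum _ fun x' _ => SmF.smul (hβ x' y) (D1.smX x x'))).sub
    (SmF.sum _ fun y' _ => SmF.smul (hβ x y') (D0.smX y' y))

theorem cv_bU (hβ : ∀ x y, ContMDiff (𝓡 n) 𝓘(ℝ, ℝ) ∞ (β x y)) {u : κ → M → ℝ}
    (hu : SmV (n := n) u) (x : κ') (z : M) : D1.cv (bU β u) x z =
      ∑ y, β x y z • D0.cv u y z + ∑ y, u y z • NN D0 D1 β x y z := by
  have h1 : Gr (n := n) (bU β u x) z =
      ∑ y, (β x y z • Gr (n := n) (u y) z + u y z • Gr (n := n) (β x y) z) := by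
    have := Crest.Agent.R249.Ker57.Gr_sum' (n := n) Finset.univ
      (f := fun y q => β x y q * u y q) (fun y _ => (hβ x y).mul (hu y)) z
    refine this.trans (Finset.sum_congr rfl fun y _ => ?_)
    exact Gr_mul ((hβ x y z).mdifferentiableAt (by simp)) ((hu y z).mdifferentiableAt (by simp))
  unfold Dat.cv NN
  rw [h1]
  have h2 : ∑ y, β x y z • ∑ y', u y' z • D0.X y y' z =
      ∑ y, u y z • ∑ y', β x y' z • D0.X y' y z := by
    simp only [Finset.smul_sum]
    rw [Finset.sum_comm]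
    refine Finset.sum_congr rfl fun y _ => Finset.sum_congr rfl fun y' _ => ?_
    rw [smul_smul, smul_smul, mul_comm]
  have h3 : ∑ x', bU β u x' z • D1.X x x' z = ∑ y, u y z • ∑ x', β x' y z • D1.X x x' z := by
    simp only [bU, Finset.sum_smul, Finset.smul_sum]
    rw [Finset.sum_comm]
    refine Finset.sum_congr rfl fun y _ => Finset.sum_congr rfl fun x' _ => ?_
    rw [smul_smul, mul_comm]
  simp only [smul_add, smul_sub, Finset.sum_add_distrib, Finset.sum_sub_distrib]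
  rw [h2, h3]
  abel

theorem cv_bT (hβ : ∀ x y, ContMDiff (𝓡 n) 𝓘(ℝ, ℝ) ∞ (β x y)) {w : κ' → M → ℝ}
    (hw : SmV (n := n) w) (y : κ) (z : M) : D0.cv (bT β w) y z =
      ∑ x, β x y z • D1.cv w x z + ∑ x, w x z • NN D0 D1 β x y z := by
  have h1 : Gr (n := n) (bT β w y) z =
      ∑ x, (β x y z • Gr (n := n) (w x) z + w x z • Gr (n := n) (β x y) z) := by
    have := Crest.Agent.R249.Ker57.Gr_sum' (n := n) Finset.univ
      (f := fun x q => β x y q * w x q) (fun x _ => (hβ x y).mul (hw x)) z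
    refine this.trans (Finset.sum_congr rfl fun x _ => ?_)
    exact Gr_mul ((hβ x y z).mdifferentiableAt (by simp)) ((hw x z).mdifferentiableAt (by simp))
  unfold Dat.cv NN
  rw [h1]
  have h2 : ∑ x, β x y z • ∑ x', w x' z • D1.X x x' z =
      - ∑ x, w x z • ∑ x', β x' y z • D1.X x x' z := by
    simp only [Finset.smul_sum]
    rw [Finset.sum_comm, ← Finset.sum_neg_distrib]
    refine Finset.sum_congr rfl fun x _ => ?_
    rw [← Finset.sum_neg_distrib]
    refine Finset.sum_congr rfl fun x' _ => ?_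
    rw [D1.skew x' x z, smul_smul, smul_smul, smul_neg, mul_comm]
  have h3 : ∑ y', bT β w y' z • D0.X y y' z =
      - ∑ x, w x z • ∑ y', β x y' z • D0.X y' y z := by
    simp only [bT, Finset.sum_smul, Finset.smul_sum]
    rw [Finset.sum_comm, ← Finset.sum_neg_distrib]
    refine Finset.sum_congr rfl fun x _ => ?_
    rw [← Finset.sum_neg_distrib]
    refine Finset.sum_congr rfl fun y' _ => ?_
    rw [D0.skew y y' z, smul_smul, smul_neg, mul_comm]
  simp only [smul_add, smul_sub, Finset.sum_add_distrib, Finset.sum_sub_distrib]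
  rw [h2, h3]
  abel

end

/-- `∑ u_y ⟨N_xy, V_x⟩`. -/
def R1 (N : κ' → κ → M → EuclideanSpace ℝ (Fin n)) (u : κ → M → ℝ)
    (V : κ' → M → EuclideanSpace ℝ (Fin n)) (z : M) : ℝ :=
  ∑ x, ∑ y, u y z * (⟪N x y z, V x z⟫ : ℝ)

/-- `∑ w_x ⟨N_xy, V_y⟩`. -/
def R2 (N : κ' → κ → M → EuclideanSpace ℝ (Fin n)) (w : κ' → M → ℝ)
    (V : κ → M → EuclideanSpace ℝ (Fin n)) (z : M) : ℝ :=
  ∑ x, ∑ y, w x z * (⟪N x y z, V y z⟫ : ℝ)

/-- `∑ c_xy u_y w_x`. -/
def Z0 (c : κ' → κ → M → ℝ) (u : κ → M → ℝ) (w : κ' → M → ℝ) (z : M) : ℝ :=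
  ∑ x, ∑ y, c x y z * (u y z * w x z)

/-- the coefficients of order zero. -/
def c1 (D0 : Dat n M κ) (D1 : Dat n M κ') (β : κ' → κ → M → ℝ) (x : κ') (y : κ) (z : M) : ℝ :=
  ∑ x', D1.Q x x' z * β x' y z - ∑ y', D0.Q y' y z * β x y' z

theorem ed_diff (hβ : ∀ x y, ContMDiff (𝓡 n) 𝓘(ℝ, ℝ) ∞ (β x y)) {u : κ → M → ℝ}
    (hu : SmV (n := n) u) {w : κ' → M → ℝ} (hw : SmV (n := n) w) (z : M) :
    D1.ed (bU β u) w z - D0.ed u (bT β w) z =
      R1 (NN D0 D1 β) u (D1.cv w) z - R2 (NN D0 D1 β) w (D0.cv u) z +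
        Z0 (c1 D0 D1 β) u w z := by
  have e1 : ∑ x, (⟪D1.cv (bU β u) x z, D1.cv w x z⟫ : ℝ) =
      ∑ x, ∑ y, β x y z * (⟪D0.cv u y z, D1.cv w x z⟫ : ℝ) +
        R1 (NN D0 D1 β) u (D1.cv w) z := by
    unfold R1
    rw [← Finset.sum_add_distrib]
    refine Finset.sum_congr rfl fun x _ => ?_
    rw [cv_bU (D0 := D0) hβ hu, inner_add_left, sum_inner, sum_inner]
    simp only [real_inner_smul_left]
  have e2 : ∑ y, (⟪D0.cv u y z, D0.cv (bT β w) y z⟫ : ℝ) =
      ∑ x, ∑ y, β x y z * (⟪D0.cv u y z, D1.cv w x z⟫ : ℝ) +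
        R2 (NN D0 D1 β) w (D0.cv u) z := by
    unfold R2
    rw [Finset.sum_comm (f := fun x y => β x y z * (⟪D0.cv u y z, D1.cv w x z⟫ : ℝ)),
      Finset.sum_comm (f := fun x y => w x z * (⟪NN D0 D1 β x y z, D0.cv u y z⟫ : ℝ)),
      ← Finset.sum_add_distrib]
    refine Finset.sum_congr rfl fun y _ => ?_
    rw [cv_bT (D1 := D1) hβ hw, inner_add_right, inner_sum, inner_sum]
    simp only [real_inner_smul_right]
    congr 1
    exact Finset.sum_congr rfl fun x _ => by rw [real_inner_comm]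
  have e3 : ∑ x, ∑ x', D1.Q x x' z * bU β u x' z * w x z -
      ∑ y, ∑ y', D0.Q y y' z * u y' z * bT β w y z = Z0 (c1 D0 D1 β) u w z := by
    have f1 : ∑ x, ∑ x', D1.Q x x' z * bU β u x' z * w x z =
        ∑ x, ∑ y, (∑ x', D1.Q x x' z * β x' y z) * (u y z * w x z) := by
      refine Finset.sum_congr rfl fun x _ => ?_
      simp only [bU, Finset.mul_sum, Finset.sum_mul]
      rw [Finset.sum_comm]
      exact Finset.sum_congr rfl fun y _ => Finset.sum_congr rfl fun x' _ => by ring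
    have f2 : ∑ y, ∑ y', D0.Q y y' z * u y' z * bT β w y z =
        ∑ x, ∑ y, (∑ y', D0.Q y' y z * β x y' z) * (u y z * w x z) := by
      simp only [bT, Finset.mul_sum, Finset.sum_mul]
      rw [Finset.sum_comm]
      rw [Finset.sum_comm (f := fun x y => ∑ y', D0.Q y' y z * β x y' z * (u y z * w x z))]
      refine Finset.sum_congr rfl fun y _ => ?_
      rw [Finset.sum_comm]
      exact Finset.sum_congr rfl fun x _ => Finset.sum_congr rfl fun y' _ => by ring
    rw [f1, f2]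
    unfold Z0 c1
    simp only [sub_mul, Finset.sum_sub_distrib]
  unfold Dat.ed
  rw [e1, e2, ← e3]
  ring

/-- `R1 + R2` is a divergence up to order zero. -/
def c2 (D0 : Dat n M κ) (D1 : Dat n M κ') (N : κ' → κ → M → EuclideanSpace ℝ (Fin n)) (x : κ')
    (y : κ) (z : M) : ℝ :=
  ∑ x', (⟪N x' y z, D1.X x' x z⟫ : ℝ) + ∑ y', (⟪N x y' z, D0.X y' y z⟫ : ℝ)

theorem R_add {N : κ' → κ → M → EuclideanSpace ℝ (Fin n)} {u : κ → M → ℝ}
    (hu : SmV (n := n) u) {w : κ' → M → ℝ} (hw : SmV (n := n) w) (z : M) :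
    R1 N u (D1.cv w) z + R2 N w (D0.cv u) z =
      ∑ x, ∑ y, (⟪N x y z, Gr (n := n) (fun q => u y q * w x q) z⟫ : ℝ) +
        Z0 (c2 D0 D1 N) u w z := by
  have e0 : ∀ x y, (⟪N x y z, Gr (n := n) (fun q => u y q * w x q) z⟫ : ℝ) =
      u y z * (⟪N x y z, Gr (n := n) (w x) z⟫ : ℝ) +
        w x z * (⟪N x y z, Gr (n := n) (u y) z⟫ : ℝ) := by
    intro x y
    rw [Gr_mul ((hu y z).mdifferentiableAt (by simp)) ((hw x z).mdifferentiableAt (by simp)),
      inner_add_right, real_inner_smul_right, real_inner_smul_right]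
  have e1 : R1 N u (D1.cv w) z = ∑ x, ∑ y, u y z * (⟪N x y z, Gr (n := n) (w x) z⟫ : ℝ) +
      ∑ x, ∑ y, (∑ x', (⟪N x' y z, D1.X x' x z⟫ : ℝ)) * (u y z * w x z) := by
    unfold R1 Dat.cv
    have f1 : ∑ x, ∑ y, (∑ x', (⟪N x' y z, D1.X x' x z⟫ : ℝ)) * (u y z * w x z) =
        ∑ x, ∑ y, u y z * (⟪N x y z, ∑ x', w x' z • D1.X x x' z⟫ : ℝ) := by
      simp only [inner_sum, real_inner_smul_right, Finset.mul_sum, Finset.sum_mul]
      rw [Finset.sum_comm]
      rw [Finset.sum_comm (f := fun x y => ∑ x', u y z * (w x' z * (⟪N x y z, D1.X x x' z⟫ : ℝ)))]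
      refine Finset.sum_congr rfl fun y _ => ?_
      rw [Finset.sum_comm]
      exact Finset.sum_congr rfl fun x _ => Finset.sum_congr rfl fun x' _ => by ring
    rw [f1, ← Finset.sum_add_distrib]
    refine Finset.sum_congr rfl fun x _ => ?_
    rw [← Finset.sum_add_distrib]
    refine Finset.sum_congr rfl fun y _ => ?_
    rw [inner_add_right, mul_add]
  have e2 : R2 N w (D0.cv u) z = ∑ x, ∑ y, w x z * (⟪N x y z, Gr (n := n) (u y) z⟫ : ℝ) +
      ∑ x, ∑ y, (∑ y', (⟪N x y' z, D0.X y' y z⟫ : ℝ)) * (u y z * w x z) := by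
    unfold R2 Dat.cv
    have f1 : ∑ x, ∑ y, (∑ y', (⟪N x y' z, D0.X y' y z⟫ : ℝ)) * (u y z * w x z) =
        ∑ x, ∑ y, w x z * (⟪N x y z, ∑ y', u y' z • D0.X y y' z⟫ : ℝ) := by
      simp only [inner_sum, real_inner_smul_right, Finset.mul_sum, Finset.sum_mul]
      refine Finset.sum_congr rfl fun x _ => ?_
      rw [Finset.sum_comm]
      exact Finset.sum_congr rfl fun y _ => Finset.sum_congr rfl fun y' _ => by ring
    rw [f1, ← Finset.sum_add_distrib]
    refine Finset.sum_congr rfl fun x _ => ?_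
    rw [← Finset.sum_add_distrib]
    refine Finset.sum_congr rfl fun y _ => ?_
    rw [inner_add_right, mul_add]
  rw [e1, e2]
  simp only [e0]
  unfold Z0 c2
  simp only [add_mul, Finset.sum_add_distrib]
  ring

/-! ### bounds -/

section bd

variable {u : κ → M → ℝ} {w : κ' → M → ℝ}

theorem cont_sq {ι : Type} [Fintype ι] {v : ι → M → ℝ} (hv : SmV (n := n) v) :
    Continuous fun z => ∑ y, v y z ^ 2 :=
  continuous_finsetSum _ fun y _ => (hv y).continuous.pow 2

theorem cont_nsq {ι : Type} [Fintype ι] {V : ι → M → EuclideanSpace ℝ (Fin n)}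
    (hV : ∀ x, SmF (V x)) : Continuous fun z => ∑ x, ‖V x z‖ ^ 2 := by
  refine continuous_finsetSum _ fun x _ => ?_
  have := ((hV x).inner (hV x)).continuous
  simpa only [real_inner_self_eq_norm_sq] using this

theorem abs_le_sq {ι : Type} [Fintype ι] (v : ι → ℝ) (y : ι) : |v y| ≤ √(∑ y, v y ^ 2) := by
  refine Real.abs_le_sqrt ?_
  exact Finset.single_le_sum (f := fun y => v y ^ 2) (fun y _ => sq_nonneg _) (Finset.mem_univ y)

theorem norm_le_sq {ι : Type} [Fintype ι] (V : ι → EuclideanSpace ℝ (Fin n)) (x : ι) :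
    ‖V x‖ ≤ √(∑ x, ‖V x‖ ^ 2) := by
  refine Real.le_sqrt_of_sq_le ?_
  exact Finset.single_le_sum (f := fun x => ‖V x‖ ^ 2) (fun y _ => sq_nonneg _)
    (Finset.mem_univ x)

/-- a uniform bound for finitely many continuous functions. -/
theorem exists_bd {ι ι' : Type} [Fintype ι] [Fintype ι'] {c : ι → ι' → M → ℝ}
    (hc : ∀ x y, Continuous (c x y)) : ∃ B : ℝ, 0 ≤ B ∧ ∀ x y z, |c x y z| ≤ B := by
  have h1 : ∀ x y, ∃ B : ℝ, 0 ≤ B ∧ ∀ z, |c x y z| ≤ B := by
    intro x y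
    obtain ⟨B, hB⟩ := isCompact_univ.exists_bound_of_continuousOn (hc x y).continuousOn
    exact ⟨max B 0, le_max_right _ _, fun z => (hB z (mem_univ z)).trans (le_max_left _ _)⟩
  choose B hB0 hB using h1
  refine ⟨∑ x, ∑ y, B x y, Finset.sum_nonneg fun x _ => Finset.sum_nonneg fun y _ => hB0 x y,
    fun x y z => (hB x y z).trans ?_⟩
  refine (Finset.single_le_sum (f := fun y => B x y) (fun y _ => hB0 x y)
    (Finset.mem_univ y)).trans ?_
  exact Finset.single_le_sum (f := fun x => ∑ y, B x y)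
    (fun x _ => Finset.sum_nonneg fun y _ => hB0 x y) (Finset.mem_univ x)

theorem exists_bdF {ι ι' : Type} [Fintype ι] [Fintype ι']
    {N : ι → ι' → M → EuclideanSpace ℝ (Fin n)} (hN : ∀ x y, SmF (N x y)) :
    ∃ B : ℝ, 0 ≤ B ∧ ∀ x y z, ‖N x y z‖ ≤ B := by
  obtain ⟨B, hB0, hB⟩ := exists_bd (c := fun x y z => (⟪N x y z, N x y z⟫ : ℝ))
    fun x y => ((hN x y).inner (hN x y)).continuous
  refine ⟨√B, Real.sqrt_nonneg _, fun x y z => Real.le_sqrt_of_sq_le ?_⟩
  have := hB x y z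
  rw [real_inner_self_eq_norm_sq, abs_of_nonneg (sq_nonneg _)] at this
  exact this

variable (κ κ') in
/-- number of entries. -/
def crd : ℝ := (Fintype.card κ' : ℝ) * (Fintype.card κ : ℝ)

theorem sum_sum_const (a : ℝ) : ∑ _x : κ', ∑ _y : κ, a = crd κ κ' * a := by
  simp only [Finset.sum_const, Finset.card_univ, nsmul_eq_mul, crd]
  ring

theorem bd_Z0 {c : κ' → κ → M → ℝ} (hc : ∀ x y, Continuous (c x y)) : ∃ K : ℝ, 0 ≤ K ∧
    ∀ (u : κ → M → ℝ) (w : κ' → M → ℝ), SmV (n := n) u → SmV (n := n) w →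
      |∫ z, Z0 c u w z ∂(μHE[n] : Measure M)| ≤
        K * (√(∫ z, ∑ y, u y z ^ 2 ∂(μHE[n] : Measure M)) *
          √(∫ z, ∑ x, w x z ^ 2 ∂(μHE[n] : Measure M))) := by
  obtain ⟨B, hB0, hB⟩ := exists_bd hc
  have hcrd : 0 ≤ crd κ κ' := by unfold crd; positivity
  refine ⟨crd κ κ' * B, by positivity, fun u w hu hw => ?_⟩
  refine cs_int ?_ (cont_sq hu) (cont_sq hw) (fun z => Finset.sum_nonneg fun y _ => sq_nonneg _)
    (fun z => Finset.sum_nonneg fun y _ => sq_nonneg _) (by positivity) fun z => ?_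
  · exact continuous_finsetSum _ fun x _ => continuous_finsetSum _ fun y _ =>
      (hc x y).mul ((hu y).continuous.mul (hw x).continuous)
  · unfold Z0
    refine (Finset.abs_sum_le_sum_abs _ _).trans ?_
    refine (Finset.sum_le_sum fun x _ => Finset.abs_sum_le_sum_abs _ _).trans ?_
    rw [mul_assoc, ← sum_sum_const]
    refine Finset.sum_le_sum fun x _ => Finset.sum_le_sum fun y _ => ?_
    rw [abs_mul, abs_mul]
    exact mul_le_mul (hB x y z) (mul_le_mul (abs_le_sq (fun y => u y z) y)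
      (abs_le_sq (fun x => w x z) x) (abs_nonneg _) (Real.sqrt_nonneg _)) (by positivity) hB0

theorem cont_R1 {N : κ' → κ → M → EuclideanSpace ℝ (Fin n)} (hN : ∀ x y, SmF (N x y))
    (hu : SmV (n := n) u) {V : κ' → M → EuclideanSpace ℝ (Fin n)} (hV : ∀ x, SmF (V x)) :
    Continuous (R1 N u V) :=
  continuous_finsetSum _ fun x _ => continuous_finsetSum _ fun y _ =>
    (hu y).continuous.mul ((hN x y).inner (hV x)).continuous

theorem cont_R2 {N : κ' → κ → M → EuclideanSpace ℝ (Fin n)} (hN : ∀ x y, SmF (N x y))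
    (hw : SmV (n := n) w) {V : κ → M → EuclideanSpace ℝ (Fin n)} (hV : ∀ x, SmF (V x)) :
    Continuous (R2 N w V) :=
  continuous_finsetSum _ fun x _ => continuous_finsetSum _ fun y _ =>
    (hw x).continuous.mul ((hN x y).inner (hV y)).continuous

theorem bd_R1 {N : κ' → κ → M → EuclideanSpace ℝ (Fin n)} (hN : ∀ x y, SmF (N x y)) :
    ∃ K : ℝ, 0 ≤ K ∧ ∀ (u : κ → M → ℝ) (V : κ' → M → EuclideanSpace ℝ (Fin n)),
      SmV (n := n) u → (∀ x, SmF (V x)) → |∫ z, R1 N u V z ∂(μHE[n] : Measure M)| ≤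
        K * (√(∫ z, ∑ y, u y z ^ 2 ∂(μHE[n] : Measure M)) *
          √(∫ z, ∑ x, ‖V x z‖ ^ 2 ∂(μHE[n] : Measure M))) := by
  obtain ⟨B, hB0, hB⟩ := exists_bdF hN
  have hcrd : 0 ≤ crd κ κ' := by unfold crd; positivity
  refine ⟨crd κ κ' * B, by positivity, fun u V hu hV => ?_⟩
  refine cs_int (cont_R1 hN hu hV) (cont_sq hu) (cont_nsq hV)
    (fun z => Finset.sum_nonneg fun y _ => sq_nonneg _)
    (fun z => Finset.sum_nonneg fun y _ => sq_nonneg _) (by positivity) fun z => ?_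
  unfold R1
  refine (Finset.abs_sum_le_sum_abs _ _).trans ?_
  refine (Finset.sum_le_sum fun x _ => Finset.abs_sum_le_sum_abs _ _).trans ?_
  rw [mul_assoc, ← sum_sum_const]
  refine Finset.sum_le_sum fun x _ => Finset.sum_le_sum fun y _ => ?_
  rw [abs_mul]
  have h1 := abs_le_sq (fun y => u y z) y
  have h2 := (abs_real_inner_le_norm (N x y z) (V x z)).trans
    (mul_le_mul (hB x y z) (norm_le_sq (fun x => V x z) x) (norm_nonneg _) hB0)
  refine (mul_le_mul h1 h2 (abs_nonneg _) (Real.sqrt_nonneg _)).trans (le_of_eq ?_)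
  ring

theorem bd_R2 {N : κ' → κ → M → EuclideanSpace ℝ (Fin n)} (hN : ∀ x y, SmF (N x y)) :
    ∃ K : ℝ, 0 ≤ K ∧ ∀ (w : κ' → M → ℝ) (V : κ → M → EuclideanSpace ℝ (Fin n)),
      SmV (n := n) w → (∀ x, SmF (V x)) → |∫ z, R2 N w V z ∂(μHE[n] : Measure M)| ≤
        K * (√(∫ z, ∑ x, w x z ^ 2 ∂(μHE[n] : Measure M)) *
          √(∫ z, ∑ y, ‖V y z‖ ^ 2 ∂(μHE[n] : Measure M))) := by
  obtain ⟨B, hB0, hB⟩ := exists_bdF hN
  have hcrd : 0 ≤ crd κ κ' := by unfold crd; positivity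
  refine ⟨crd κ κ' * B, by positivity, fun w V hw hV => ?_⟩
  refine cs_int (cont_R2 hN hw hV) (cont_sq hw) (cont_nsq hV)
    (fun z => Finset.sum_nonneg fun y _ => sq_nonneg _)
    (fun z => Finset.sum_nonneg fun y _ => sq_nonneg _) (by positivity) fun z => ?_
  unfold R2
  refine (Finset.abs_sum_le_sum_abs _ _).trans ?_
  refine (Finset.sum_le_sum fun x _ => Finset.abs_sum_le_sum_abs _ _).trans ?_
  rw [mul_assoc, ← sum_sum_const]
  refine Finset.sum_le_sum fun x _ => Finset.sum_le_sum fun y _ => ?_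
  rw [abs_mul]
  have h1 := abs_le_sq (fun x => w x z) x
  have h2 := (abs_real_inner_le_norm (N x y z) (V y z)).trans
    (mul_le_mul (hB x y z) (norm_le_sq (fun y => V y z) y) (norm_nonneg _) hB0)
  refine (mul_le_mul h1 h2 (abs_nonneg _) (Real.sqrt_nonneg _)).trans (le_of_eq ?_)
  ring

/-- `∫ R1 + ∫ R2 = ∫ (c2 - dN) u w`. -/
theorem int_R {N : κ' → κ → M → EuclideanSpace ℝ (Fin n)} (hN : ∀ x y, SmF (N x y)) :
    ∃ c : κ' → κ → M → ℝ, (∀ x y, Continuous (c x y)) ∧ ∀ (u : κ → M → ℝ) (w : κ' → M → ℝ),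
      SmV (n := n) u → SmV (n := n) w →
      ∫ z, R1 N u (D1.cv w) z ∂(μHE[n] : Measure M) +
        ∫ z, R2 N w (D0.cv u) z ∂(μHE[n] : Measure M) =
          ∫ z, Z0 c u w z ∂(μHE[n] : Measure M) := by
  choose dN hdN hibp using fun x y => ibp (hN x y)
  have hc2 : ∀ x y, Continuous (c2 D0 D1 N x y) := fun x y =>
    (continuous_finsetSum _ fun x' _ => ((hN x' y).inner (D1.smX x' x)).continuous).add
      (continuous_finsetSum _ fun y' _ => ((hN x y').inner (D0.smX y' y)).continuous)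
  refine ⟨fun x y z => c2 D0 D1 N x y z - dN x y z, fun x y => (hc2 x y).sub (hdN x y),
    fun u w hu hw => ?_⟩
  have cz : ∀ c : κ' → κ → M → ℝ, (∀ x y, Continuous (c x y)) → Continuous (Z0 c u w) :=
    fun c hc => continuous_finsetSum _ fun x _ => continuous_finsetSum _ fun y _ =>
      (hc x y).mul ((hu y).continuous.mul (hw x).continuous)
  have csm : ∀ x y, ContMDiff (𝓡 n) 𝓘(ℝ, ℝ) ∞ fun q => u y q * w x q := fun x y =>
    (hu y).mul (hw x)
  have cin : ∀ x y, Continuous fun z =>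
      (⟪N x y z, Gr (n := n) (fun q => u y q * w x q) z⟫ : ℝ) := fun x y =>
    ((hN x y).inner (smF_Gr (csm x y))).continuous
  rw [← integral_add (intg (cont_R1 hN hu fun x => smF_cv D1 hw x))
    (intg (cont_R2 hN hw fun y => smF_cv D0 hu y))]
  simp only [R_add (D0 := D0) (D1 := D1) (N := N) hu hw]
  rw [integral_add (intg (continuous_finsetSum _ fun x _ => continuous_finsetSum _ fun y _ =>
    cin x y)) (intg (cz _ hc2))]
  have h1 : ∫ z, ∑ x, ∑ y, (⟪N x y z, Gr (n := n) (fun q => u y q * w x q) z⟫ : ℝ)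
      ∂(μHE[n] : Measure M) = - ∫ z, Z0 dN u w z ∂(μHE[n] : Measure M) := by
    unfold Z0
    have cdu : ∀ x y, Continuous fun z => dN x y z * (u y z * w x z) := fun x y =>
      (hdN x y).mul ((hu y).continuous.mul (hw x).continuous)
    rw [integral_finsetSum _ fun x _ => intg (continuous_finsetSum _ fun y _ => cin x y)]
    rw [integral_finsetSum _ fun x _ => intg (continuous_finsetSum _ fun y _ => cdu x y)]
    rw [← Finset.sum_neg_distrib]
    refine Finset.sum_congr rfl fun x _ => ?_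
    rw [integral_finsetSum _ fun y _ => intg (cin x y)]
    rw [integral_finsetSum _ fun y _ => intg (cdu x y)]
    rw [← Finset.sum_neg_distrib]
    exact Finset.sum_congr rfl fun y _ => hibp x y _ (csm x y)
  rw [h1]
  have h2 : ∫ z, Z0 (fun x y z => c2 D0 D1 N x y z - dN x y z) u w z ∂(μHE[n] : Measure M) =
      ∫ z, Z0 (c2 D0 D1 N) u w z ∂(μHE[n] : Measure M) -
        ∫ z, Z0 dN u w z ∂(μHE[n] : Measure M) := by
    rw [← integral_sub (intg (cz _ hc2)) (intg (cz _ hdN))]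
    refine integral_congr_ae (Eventually.of_forall fun z => ?_)
    show Z0 (fun x y z => c2 D0 D1 N x y z - dN x y z) u w z =
      Z0 (c2 D0 D1 N) u w z - Z0 dN u w z
    unfold Z0
    simp only [sub_mul, Finset.sum_sub_distrib]
  rw [h2]
  ring

end bd

end

end Crest.Agent.R235.RcQ_215
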