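import Crest.Agent.R235.RcQ_215

/-!
Row 235 (S0364), PACKAGE FAM, RCMAN, piece (P2), part 2 (helper215): norms, bounded operators,
the commutator estimate on `W^{1,2}`.
-/

set_option autoImplicit false
set_option maxSynthPendingDepth 3
set_option linter.unusedSectionVars false

open scoped ContDiff ENNReal NNReal Topology Manifold Bundle RealInnerProductSpace
open MeasureTheory Set Filter Metric Bundle

universe v

namespace Crest.Agent.R235.RcQ_215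

open Crest.Agent.R249.Tv57 Crest.Agent.R247.Ms322 Crest.Agent.R247.Dir593
open Crest.Agent.R247.Frd657 Crest.Agent.R235.Fs4_546

noncomputable section

variable {n : ℕ} {M : Type v} [MetricSpace M] [ChartedSpace (EuclideanSpace ℝ (Fin n)) M]
  [IsManifold (𝓡 n) ∞ M]
  [RiemannianBundle (fun p : M => TangentSpace (𝓡 n) p)]
  [IsContMDiffRiemannianBundle (𝓡 n) ∞ (EuclideanSpace ℝ (Fin n)) (fun p : M => TangentSpace (𝓡 n) p)]
  [IsRiemannianManifold (𝓡 n) M] [MeasurableSpace M] [BorelSpace M]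
  [SecondCountableTopology M] [Nonempty M] [CompactSpace M]
  [IsFiniteMeasureOnCompacts (μHE[n] : Measure M)]
  {κ κ' : Type} [Fintype κ] [Fintype κ']
  {D0 : Dat n M κ} {D1 : Dat n M κ'} {β : κ' → κ → M → ℝ}

/-! ### norms -/

theorem ar1 {K c2 e X fa s F W J : ℝ} (hK : 0 ≤ K) (h1 : -(K * c2) ≤ e - X) (h2 : fa = e + s)
    (h3 : fa ≤ F * W) (h5 : c2 ≤ J * W) (h6 : 0 ≤ s) : X ≤ (F + K * J) * W := by
  have h7 := mul_le_mul_of_nonneg_left h5 hK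
  have h8 : (F + K * J) * W = F * W + K * (J * W) := by ring
  rw [h8]
  linarith

theorem ar2 {K c2 e X fa s c W : ℝ} (hK : 0 ≤ K) (hs : 0 ≤ s) (hX : 0 ≤ X)
    (h1 : e - X ≤ K * c2) (h2 : fa = e + s * c2) (h8 : c * W ≤ fa + c2) :
    c * W ≤ (K + s + 1) * (X + c2) := by
  have h9 := mul_nonneg hK hX
  have h10 := mul_nonneg hs hX
  have h11 : (K + s + 1) * (X + c2) = K * X + s * X + X + K * c2 + s * c2 + c2 := by ring
  rw [h11]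
  linarith

theorem norm_cH_sq {ι : Type} [Fintype ι] (D : Dat n M ι) (u : SmS D) :
    ‖cH D u‖ ^ 2 = ∫ z, ∑ a, u.1 a z ^ 2 ∂(μHE[n] : Measure M) := by
  rw [← real_inner_self_eq_norm_sq, inner_cH]
  unfold ip
  exact integral_congr_ae (Eventually.of_forall fun z => Finset.sum_congr rfl fun a _ => by
    show u.1 a z * u.1 a z = _
    ring)

theorem norm_cH_eq {ι : Type} [Fintype ι] (D : Dat n M ι) (u : SmS D) :
    ‖cH D u‖ = √(∫ z, ∑ a, u.1 a z ^ 2 ∂(μHE[n] : Measure M)) := by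
  rw [← norm_cH_sq, Real.sqrt_sq (norm_nonneg _)]

/-- `∫ ed u u = ∫ |cv u|² + O(|u|²)`. -/
theorem ed_cmp {ι : Type} [Fintype ι] (D : Dat n M ι) : ∃ K : ℝ, 0 ≤ K ∧ ∀ u : SmS D,
    |∫ z, D.ed u.1 u.1 z ∂(μHE[n] : Measure M) -
      ∫ z, ∑ a, ‖D.cv u.1 a z‖ ^ 2 ∂(μHE[n] : Measure M)| ≤ K * ‖cH D u‖ ^ 2 := by
  obtain ⟨K, hK0, hK⟩ := bd_Z0 (n := n) (κ := ι) (κ' := ι) (c := D.Q)
    fun a b => (D.smQ a b).continuous
  refine ⟨K, hK0, fun u => ?_⟩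
  have h1 : Continuous (D.ed u.1 u.1) := (smooth_ed D u.2.1 u.2.1).continuous
  have h2 : Continuous fun z => ∑ a, ‖D.cv u.1 a z‖ ^ 2 :=
    cont_nsq fun a => smF_cv D u.2.1 a
  rw [← integral_sub (intg h1) (intg h2)]
  have e : (fun z => D.ed u.1 u.1 z - ∑ a, ‖D.cv u.1 a z‖ ^ 2) = Z0 D.Q u.1 u.1 := by
    funext z
    unfold Dat.ed Z0
    simp only [real_inner_self_eq_norm_sq, add_sub_cancel_left]
    exact Finset.sum_congr rfl fun a _ => Finset.sum_congr rfl fun b _ => by ring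
  have h3 := hK u.1 u.1 u.2.1 u.2.1
  rw [← e, ← norm_cH_eq] at h3
  refine h3.trans (le_of_eq ?_)
  ring

theorem en_le {ι : Type} [Fintype ι] (D : Dat n M ι) : ∃ K : ℝ, 0 ≤ K ∧ ∀ u : SmS D,
    √(∫ z, ∑ a, ‖D.cv u.1 a z‖ ^ 2 ∂(μHE[n] : Measure M)) ≤ K * ‖cW D u‖ := by
  obtain ⟨K, hK0, hK⟩ := ed_cmp D
  set Q : ℝ := ‖D.toAD.form.a‖ + K * ‖D.toAD.jj‖ ^ 2 with hQ
  have hQ0 : 0 ≤ Q := by positivity
  refine ⟨√Q, Real.sqrt_nonneg _, fun u => ?_⟩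
  have h1 := (abs_le.1 (hK u)).1
  have h2 := form_cW D u u
  have h3 : D.toAD.form.a (cW D u) (cW D u) ≤ ‖D.toAD.form.a‖ * ‖cW D u‖ ^ 2 := by
    refine (le_abs_self _).trans ?_
    refine ((D.toAD.form.a (cW D u)).le_opNorm (cW D u)).trans ?_
    have h := mul_le_mul_of_nonneg_right (D.toAD.form.a.le_opNorm (cW D u))
      (norm_nonneg (cW D u))
    refine h.trans (le_of_eq ?_)
    ring
  have h4 : ‖cH D u‖ ≤ ‖D.toAD.jj‖ * ‖cW D u‖ := by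
    rw [← jj_cW]
    exact D.toAD.jj.le_opNorm _
  have h5 : ‖cH D u‖ ^ 2 ≤ ‖D.toAD.jj‖ ^ 2 * ‖cW D u‖ ^ 2 := by
    rw [← mul_pow]
    exact pow_le_pow_left₀ (norm_nonneg _) h4 2
  have h6 : 0 ≤ D.toAD.shift * ip n u.1 u.1 := by
    rw [← inner_cH, real_inner_self_eq_norm_sq]
    exact mul_nonneg D.toAD.shift_nonneg (sq_nonneg _)
  have h7 : ∫ z, ∑ a, ‖D.cv u.1 a z‖ ^ 2 ∂(μHE[n] : Measure M) ≤ Q * ‖cW D u‖ ^ 2 :=
    ar1 hK0 h1 h2 h3 h5 h6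
  have h9 : √Q * ‖cW D u‖ = √(Q * ‖cW D u‖ ^ 2) := by
    rw [Real.sqrt_mul hQ0, Real.sqrt_sq (norm_nonneg _)]
  rw [h9]
  exact Real.sqrt_le_sqrt h7

theorem le_en {ι : Type} [Fintype ι] (D : Dat n M ι) : ∃ K : ℝ, 0 ≤ K ∧ ∀ u : SmS D,
    ‖cW D u‖ ^ 2 ≤ K * (∫ z, ∑ a, ‖D.cv u.1 a z‖ ^ 2 ∂(μHE[n] : Measure M) +
      ∫ z, ∑ a, u.1 a z ^ 2 ∂(μHE[n] : Measure M)) := by
  obtain ⟨K, hK0, hK⟩ := ed_cmp D
  have hc := D.toAD.form.c_pos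
  have hs := D.toAD.shift_nonneg
  refine ⟨(K + D.toAD.shift + 1) / D.toAD.form.c, by positivity, fun u => ?_⟩
  have h1 := (abs_le.1 (hK u)).2
  have h2 := form_cW D u u
  have h3 := D.toAD.form.coer (cW D u)
  have h4 : ip n u.1 u.1 = ‖cH D u‖ ^ 2 := by rw [← inner_cH, real_inner_self_eq_norm_sq]
  have h5 : ‖D.toAD.jj (cW D u)‖ ^ 2 = ‖cH D u‖ ^ 2 := by rw [jj_cW]
  have h6 : 0 ≤ ∫ z, ∑ a, ‖D.cv u.1 a z‖ ^ 2 ∂(μHE[n] : Measure M) :=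
    integral_nonneg fun z => Finset.sum_nonneg fun a _ => sq_nonneg _
  rw [← norm_cH_sq, div_mul_eq_mul_div, le_div_iff₀ hc]
  have h8 : D.toAD.form.c * ‖cW D u‖ ^ 2 ≤
      D.toAD.form.a (cW D u) (cW D u) + ‖D.toAD.jj (cW D u)‖ ^ 2 := h3
  rw [h5] at h8
  rw [h4] at h2
  rw [mul_comm]
  exact ar2 hK0 hs h6 h1 h2 h8

end

end Crest.Agent.R235.RcQ_215
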