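import Crest.Agent.R235.RcQb_215

/-!
Row 235 (S0364), PACKAGE FAM, RCMAN, piece (P2), part 3 (helper215): the bounded operators
`W^{1,2}(D0) → W^{1,2}(D1)`, `W^{1,2}(D1) → W^{1,2}(D0)` and the commutator estimate.
-/

set_option autoImplicit false
set_option maxSynthPendingDepth 3
set_option linter.unusedSectionVars false

open scoped ContDiff ENNReal NNReal Topology Manifold Bundle RealInnerProductSpace
open MeasureTheory Set Filter Metric Bundle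

universe v

namespace Crest.Agent.R235.RcQ_215

open Crest.Agent.R249.Tv57 Crest.Agent.R247.Ms322 Crest.Agent.R247.Dir593
open Crest.Agent.R247.Frd657 Crest.Agent.R235.Fs4_546

noncomputable section

variable {n : ℕ} {M : Type v} [MetricSpace M] [ChartedSpace (EuclideanSpace ℝ (Fin n)) M]
  [IsManifold (𝓡 n) ∞ M]
  [RiemannianBundle (fun p : M => TangentSpace (𝓡 n) p)]
  [IsContMDiffRiemannianBundle (𝓡 n) ∞ (EuclideanSpace ℝ (Fin n)) (fun p : M => TangentSpace (𝓡 n) p)]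
  [IsRiemannianManifold (𝓡 n) M] [MeasurableSpace M] [BorelSpace M]
  [SecondCountableTopology M] [Nonempty M] [CompactSpace M]
  [IsFiniteMeasureOnCompacts (μHE[n] : Measure M)]
  {κ κ' : Type} [Fintype κ] [Fintype κ']
  {D0 : Dat n M κ} {D1 : Dat n M κ'} {β : κ' → κ → M → ℝ}

/-- a smooth bundle map `D0 → D1`. -/
structure BMap (D0 : Dat n M κ) (D1 : Dat n M κ') (β : κ' → κ → M → ℝ) : Prop where
  sm : ∀ x y, ContMDiff (𝓡 n) 𝓘(ℝ, ℝ) ∞ (β x y)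
  p1 : ∀ x y z, ∑ x', D1.p x x' z * β x' y z = β x y z
  p0 : ∀ x y z, ∑ y', β x y' z * D0.p y' y z = β x y z

/-- the transposed map. -/
def tr (β : κ' → κ → M → ℝ) : κ → κ' → M → ℝ := fun y x z => β x y z

theorem BMap.tr (h : BMap D0 D1 β) : BMap D1 D0 (tr β) where
  sm y x := h.sm x y
  p1 y x z := by
    show ∑ y', D0.p y y' z * β x y' z = β x y z
    rw [← h.p0 x y z]
    exact Finset.sum_congr rfl fun y' _ => by rw [D0.symmp y y' z, mul_comm]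
  p0 y x z := by
    show ∑ x', β x' y z * D1.p x' x z = β x y z
    rw [← h.p1 x y z]
    exact Finset.sum_congr rfl fun x' _ => by rw [D1.symmp x' x z, mul_comm]

theorem bU_tr (β : κ' → κ → M → ℝ) (w : κ' → M → ℝ) : bU (tr β) w = bT β w := rfl

/-- the map on smooth sections. -/
def bS (h : BMap D0 D1 β) : SmS D0 →ₗ[ℝ] SmS D1 where
  toFun u := ⟨bU β u.1, sm_bU h.sm u.2.1, fun x z => by
    show ∑ x', D1.p x x' z * ∑ y, β x' y z * u.1 y z = ∑ y, β x y z * u.1 y z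
    simp only [Finset.mul_sum]
    rw [Finset.sum_comm]
    refine Finset.sum_congr rfl fun y _ => ?_
    rw [← h.p1 x y z, Finset.sum_mul]
    exact Finset.sum_congr rfl fun x' _ => by ring⟩
  map_add' u v := Subtype.ext (by
    funext x z
    show ∑ y, β x y z * (u.1 y z + v.1 y z) = ∑ y, β x y z * u.1 y z + ∑ y, β x y z * v.1 y z
    rw [← Finset.sum_add_distrib]
    exact Finset.sum_congr rfl fun y _ => by ring)
  map_smul' c u := Subtype.ext (by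
    funext x z
    show ∑ y, β x y z * (c * u.1 y z) = c * ∑ y, β x y z * u.1 y z
    rw [Finset.mul_sum]
    exact Finset.sum_congr rfl fun y _ => by ring)

theorem coe_bS (h : BMap D0 D1 β) (u : SmS D0) : (bS h u).1 = bU β u.1 := rfl

/-- the map is bounded on `W^{1,2}`. -/
theorem exists_bd_bS (h : BMap D0 D1 β) : ∃ K : ℝ, ∀ u : SmS D0,
    ‖((cW D1).comp (bS h)) u‖ ≤ K * ‖cW D0 u‖ := by
  obtain ⟨K1, hK1, hE1⟩ := le_en (n := n) D1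
  obtain ⟨K0, hK0, hE0⟩ := en_le (n := n) D0
  obtain ⟨B, hB0, hB⟩ := exists_bd (c := β) fun x y => (h.sm x y).continuous
  obtain ⟨B', hB0', hB'⟩ := exists_bdF (N := NN D0 D1 β) fun x y => smF_NN h.sm x y
  set c0 : ℝ := (Fintype.card κ' : ℝ) with hc0
  set c1' : ℝ := (Fintype.card κ : ℝ) with hc1
  have hc0' : 0 ≤ c0 := by positivity
  have hc1' : 0 ≤ c1' := by positivity
  -- pointwise
  have p1 : ∀ (u : SmS D0) (x : κ') (z : M), ‖D1.cv (bU β u.1) x z‖ ^ 2 ≤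
      2 * (c1' * B) ^ 2 * (∑ y, ‖D0.cv u.1 y z‖ ^ 2) +
        2 * (c1' * B') ^ 2 * ∑ y, u.1 y z ^ 2 := by
    intro u x z
    rw [cv_bU (D0 := D0) h.sm u.2.1]
    have h1 : ‖∑ y, β x y z • D0.cv u.1 y z‖ ≤ c1' * B * √(∑ y, ‖D0.cv u.1 y z‖ ^ 2) := by
      refine (norm_sum_le _ _).trans ?_
      have : c1' * B * √(∑ y, ‖D0.cv u.1 y z‖ ^ 2) =
          ∑ _y : κ, B * √(∑ y, ‖D0.cv u.1 y z‖ ^ 2) := by
        rw [Finset.sum_const, Finset.card_univ, nsmul_eq_mul]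
        ring
      rw [this]
      refine Finset.sum_le_sum fun y _ => ?_
      rw [norm_smul, Real.norm_eq_abs]
      exact mul_le_mul (hB x y z) (norm_le_sq (fun y => D0.cv u.1 y z) y) (norm_nonneg _) hB0
    have h2 : ‖∑ y, u.1 y z • NN D0 D1 β x y z‖ ≤ c1' * B' * √(∑ y, u.1 y z ^ 2) := by
      refine (norm_sum_le _ _).trans ?_
      have : c1' * B' * √(∑ y, u.1 y z ^ 2) = ∑ _y : κ, √(∑ y, u.1 y z ^ 2) * B' := by
        rw [Finset.sum_const, Finset.card_univ, nsmul_eq_mul]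
        ring
      rw [this]
      refine Finset.sum_le_sum fun y _ => ?_
      rw [norm_smul, Real.norm_eq_abs]
      exact mul_le_mul (abs_le_sq (fun y => u.1 y z) y) (hB' x y z) (norm_nonneg _)
        (Real.sqrt_nonneg _)
    have h3 := (norm_add_le (∑ y, β x y z • D0.cv u.1 y z)
      (∑ y, u.1 y z • NN D0 D1 β x y z)).trans (add_le_add h1 h2)
    have h4 := pow_le_pow_left₀ (norm_nonneg _) h3 2
    refine h4.trans ?_
    have e1 : 0 ≤ ∑ y, ‖D0.cv u.1 y z‖ ^ 2 := Finset.sum_nonneg fun y _ => sq_nonneg _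
    have e2 : 0 ≤ ∑ y, u.1 y z ^ 2 := Finset.sum_nonneg fun y _ => sq_nonneg _
    have e3 := Real.sq_sqrt e1
    have e4 := Real.sq_sqrt e2
    generalize √(∑ y, ‖D0.cv u.1 y z‖ ^ 2) = s1 at *
    generalize √(∑ y, u.1 y z ^ 2) = s2 at *
    rw [← e3, ← e4]
    nlinarith [sq_nonneg (c1' * B * s1 - c1' * B' * s2)]
  have p2 : ∀ (u : SmS D0) (x : κ') (z : M), bU β u.1 x z ^ 2 ≤
      (c1' * B) ^ 2 * ∑ y, u.1 y z ^ 2 := by
    intro u x z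
    have h1 : |bU β u.1 x z| ≤ c1' * B * √(∑ y, u.1 y z ^ 2) := by
      unfold bU
      refine (Finset.abs_sum_le_sum_abs _ _).trans ?_
      have : c1' * B * √(∑ y, u.1 y z ^ 2) = ∑ _y : κ, B * √(∑ y, u.1 y z ^ 2) := by
        rw [Finset.sum_const, Finset.card_univ, nsmul_eq_mul]
        ring
      rw [this]
      refine Finset.sum_le_sum fun y _ => ?_
      rw [abs_mul]
      exact mul_le_mul (hB x y z) (abs_le_sq (fun y => u.1 y z) y) (abs_nonneg _) hB0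
    have h2 := pow_le_pow_left₀ (abs_nonneg _) h1 2
    rw [sq_abs, mul_pow, Real.sq_sqrt (Finset.sum_nonneg fun y _ => sq_nonneg _)] at h2
    exact h2
  -- integrals
  set Q1 : ℝ := c0 * (2 * (c1' * B) ^ 2) with hQ1
  set Q2 : ℝ := c0 * (2 * (c1' * B') ^ 2) + c0 * (c1' * B) ^ 2 with hQ2
  have hQ10 : 0 ≤ Q1 := by positivity
  have hQ20 : 0 ≤ Q2 := by positivity
  refine ⟨√(K1 * (Q1 * K0 ^ 2 + Q2 * ‖D0.toAD.jj‖ ^ 2)), fun u => ?_⟩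
  have i1 : ∫ z, ∑ x, ‖D1.cv (bU β u.1) x z‖ ^ 2 ∂(μHE[n] : Measure M) +
      ∫ z, ∑ x, bU β u.1 x z ^ 2 ∂(μHE[n] : Measure M) ≤
      Q1 * ∫ z, ∑ y, ‖D0.cv u.1 y z‖ ^ 2 ∂(μHE[n] : Measure M) +
        Q2 * ∫ z, ∑ y, u.1 y z ^ 2 ∂(μHE[n] : Measure M) := by
    have cA : Continuous fun z => ∑ x, ‖D1.cv (bU β u.1) x z‖ ^ 2 :=
      cont_nsq fun x => smF_cv D1 (sm_bU h.sm u.2.1) x
    have cB : Continuous fun z => ∑ x, bU β u.1 x z ^ 2 := cont_sq (sm_bU h.sm u.2.1)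
    have cC : Continuous fun z => ∑ y, ‖D0.cv u.1 y z‖ ^ 2 :=
      cont_nsq fun x => smF_cv D0 u.2.1 x
    have cD : Continuous fun z => ∑ y, u.1 y z ^ 2 := cont_sq u.2.1
    rw [← integral_const_mul, ← integral_const_mul, ← integral_add (intg cA) (intg cB),
      ← integral_add ((intg cC).const_mul _) ((intg cD).const_mul _)]
    refine integral_mono ((intg cA).add (intg cB)) (((intg cC).const_mul _).add
      ((intg cD).const_mul _)) fun z => ?_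
    show ∑ x, ‖D1.cv (bU β u.1) x z‖ ^ 2 + ∑ x, bU β u.1 x z ^ 2 ≤
      Q1 * ∑ y, ‖D0.cv u.1 y z‖ ^ 2 + Q2 * ∑ y, u.1 y z ^ 2
    have s1 := Finset.sum_le_sum fun (x : κ') (_ : x ∈ Finset.univ) => p1 u x z
    have s2 := Finset.sum_le_sum fun (x : κ') (_ : x ∈ Finset.univ) => p2 u x z
    simp only [Finset.sum_const, Finset.card_univ, nsmul_eq_mul, ← hc0] at s1 s2
    refine (add_le_add s1 s2).trans (le_of_eq ?_)
    rw [hQ1, hQ2]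
    ring
  have i2 : √(∫ z, ∑ y, ‖D0.cv u.1 y z‖ ^ 2 ∂(μHE[n] : Measure M)) ≤ K0 * ‖cW D0 u‖ := hE0 u
  have i3 : ∫ z, ∑ y, ‖D0.cv u.1 y z‖ ^ 2 ∂(μHE[n] : Measure M) ≤ K0 ^ 2 * ‖cW D0 u‖ ^ 2 := by
    have h1 := pow_le_pow_left₀ (Real.sqrt_nonneg _) i2 2
    rw [Real.sq_sqrt (integral_nonneg fun z => Finset.sum_nonneg fun y _ => sq_nonneg _),
      mul_pow] at h1
    exact h1
  have i4 : ∫ z, ∑ y, u.1 y z ^ 2 ∂(μHE[n] : Measure M) ≤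
      ‖D0.toAD.jj‖ ^ 2 * ‖cW D0 u‖ ^ 2 := by
    rw [← norm_cH_sq, ← mul_pow, ← jj_cW]
    exact pow_le_pow_left₀ (norm_nonneg _) (D0.toAD.jj.le_opNorm _) 2
  have i5 : ‖cW D1 (bS h u)‖ ^ 2 ≤
      K1 * (Q1 * K0 ^ 2 + Q2 * ‖D0.toAD.jj‖ ^ 2) * ‖cW D0 u‖ ^ 2 := by
    refine (hE1 (bS h u)).trans ?_
    refine (mul_le_mul_of_nonneg_left i1 hK1).trans ?_
    have e2 := add_le_add (mul_le_mul_of_nonneg_left i3 hQ10)
      (mul_le_mul_of_nonneg_left i4 hQ20)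
    refine (mul_le_mul_of_nonneg_left e2 hK1).trans (le_of_eq ?_)
    ring
  have hQ : 0 ≤ K1 * (Q1 * K0 ^ 2 + Q2 * ‖D0.toAD.jj‖ ^ 2) := by positivity
  have e1 : √(K1 * (Q1 * K0 ^ 2 + Q2 * ‖D0.toAD.jj‖ ^ 2)) * ‖cW D0 u‖ =
      √(K1 * (Q1 * K0 ^ 2 + Q2 * ‖D0.toAD.jj‖ ^ 2) * ‖cW D0 u‖ ^ 2) := by
    rw [Real.sqrt_mul hQ, Real.sqrt_sq (norm_nonneg _)]
  rw [e1]
  exact Real.le_sqrt_of_sq_le i5

/-- the bounded operator. -/
def BW (h : BMap D0 D1 β) : D0.toAD.WE →L[ℝ] D1.toAD.WE :=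
  ((cW D1).comp (bS h)).extendOfNorm (cW D0)

theorem BW_cW (hd : Dns D0) (h : BMap D0 D1 β) (u : SmS D0) :
    BW h (cW D0 u) = cW D1 (bS h u) :=
  LinearMap.extendOfNorm_eq hd (exists_bd_bS h) u

theorem jj_BW (hd : Dns D0) (h : BMap D0 D1 β) {CB : D0.toAD.HE →L[ℝ] D1.toAD.HE}
    (hC : ∀ u : SmS D0, CB (cH D0 u) = cH D1 (bS h u)) (v : D0.toAD.WE) :
    D1.toAD.jj (BW h v) = CB (D0.toAD.jj v) := by
  have h1 : Continuous fun v => D1.toAD.jj (BW h v) := by fun_prop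
  have h2 : Continuous fun v => CB (D0.toAD.jj v) := by fun_prop
  refine congrFun (hd.equalizer h1 h2 ?_) v
  funext u
  show D1.toAD.jj (BW h (cW D0 u)) = CB (D0.toAD.jj (cW D0 u))
  rw [BW_cW hd, jj_cW, jj_cW, hC]

/-! ### the commutator -/

variable {P : OpPair D0 D1}

/-- the commutator on smooth sections. -/
def TT (P : OpPair D0 D1) (h : BMap D0 D1 β) (u : SmS D0) (w : SmS D1) : ℝ :=
  ⟪cH D0 (lA P.swap (bS h u)), cH D0 (lA P.swap w)⟫ -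
    ⟪cH D1 (lA P u), cH D1 (lA P (bS h.tr w))⟫

theorem TT_eq (h : BMap D0 D1 β) (u : SmS D0) (w : SmS D1) : TT P h u w =
    ∫ z, (R1 (NN D0 D1 β) u.1 (D1.cv w.1) z - R2 (NN D0 D1 β) w.1 (D0.cv u.1) z +
        Z0 (c1 D0 D1 β) u.1 w.1 z) ∂(μHE[n] : Measure M) := by
  have e1 : ⟪cH D0 (lA P.swap (bS h u)), cH D0 (lA P.swap w)⟫ =
      ∫ z, D1.ed (bU β u.1) w.1 z ∂(μHE[n] : Measure M) := by
    rw [inner_cH]
    exact (P.enB _ _ (bS h u).2.1 (bS h u).2.2 w.2.1 w.2.2).symm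
  have e2 : ⟪cH D1 (lA P u), cH D1 (lA P (bS h.tr w))⟫ =
      ∫ z, D0.ed u.1 (bT β w.1) z ∂(μHE[n] : Measure M) := by
    rw [inner_cH]
    exact (P.enA _ _ u.2.1 u.2.2 (bS h.tr w).2.1 (bS h.tr w).2.2).symm
  unfold TT
  rw [e1, e2, ← integral_sub
    (intg (smooth_ed D1 (sm_bU h.sm u.2.1) w.2.1).continuous)
    (intg (smooth_ed D0 u.2.1 (sm_bT h.sm w.2.1)).continuous)]
  exact integral_congr_ae (Eventually.of_forall fun z => ed_diff h.sm u.2.1 w.2.1 z)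

theorem TT_split (h : BMap D0 D1 β) (u : SmS D0) (w : SmS D1) : TT P h u w =
    ∫ z, R1 (NN D0 D1 β) u.1 (D1.cv w.1) z ∂(μHE[n] : Measure M) -
      ∫ z, R2 (NN D0 D1 β) w.1 (D0.cv u.1) z ∂(μHE[n] : Measure M) +
      ∫ z, Z0 (c1 D0 D1 β) u.1 w.1 z ∂(μHE[n] : Measure M) := by
  have hN : ∀ x y, SmF (NN D0 D1 β x y) := fun x y => smF_NN h.sm x y
  have cc1 : ∀ x y, Continuous (c1 D0 D1 β x y) := fun x y =>
    (continuous_finsetSum _ fun x' _ => (D1.smQ x x').continuous.mul (h.sm x' y).continuous).sub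
      (continuous_finsetSum _ fun y' _ => (D0.smQ y' y).continuous.mul (h.sm x y').continuous)
  have cR1 := cont_R1 hN u.2.1 fun x => smF_cv D1 w.2.1 x
  have cR2 := cont_R2 hN w.2.1 fun x => smF_cv D0 u.2.1 x
  have cZ : Continuous (Z0 (c1 D0 D1 β) u.1 w.1) :=
    continuous_finsetSum _ fun x _ => continuous_finsetSum _ fun y _ =>
      (cc1 x y).mul ((u.2.1 y).continuous.mul (w.2.1 x).continuous)
  have k1 : Integrable (fun z => R1 (NN D0 D1 β) u.1 (D1.cv w.1) z) (μHE[n] : Measure M) :=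
    intg cR1
  have k2 : Integrable (fun z => R2 (NN D0 D1 β) w.1 (D0.cv u.1) z) (μHE[n] : Measure M) :=
    intg cR2
  have k3 : Integrable (fun z => Z0 (c1 D0 D1 β) u.1 w.1 z) (μHE[n] : Measure M) := intg cZ
  have k4 : Integrable (fun z => R1 (NN D0 D1 β) u.1 (D1.cv w.1) z -
    R2 (NN D0 D1 β) w.1 (D0.cv u.1) z) (μHE[n] : Measure M) := k1.sub k2
  rw [TT_eq, integral_add k4 k3, integral_sub k1 k2]

theorem arith1 {t r1 r2 z1 z2 K1 K2 K3 K4 E0 E1 h0 h1 w0 j0 j1 : ℝ} (hT : t = r1 - r2 + z1)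
    (hI : r1 + r2 = z2) (hK1 : 0 ≤ K1) (hK3 : 0 ≤ K3) (hK4 : 0 ≤ K4) (hE1 : 0 ≤ E1)
    (a1 : 0 ≤ h1) (a2 : 0 ≤ w0) (a5 : 0 ≤ j1) (n0 : h0 ≤ j0 * w0)
    (b2' : |r2| ≤ K2 * (h1 * (E0 * w0))) (b3 : |z2| ≤ K3 * (h0 * h1))
    (b4 : |z1| ≤ K4 * (h0 * h1)) :
    |t| ≤ (2 * K1 * E1 + 2 * K2 * E0 + (K3 + K4) * (j0 + j1)) * (w0 * h1) := by
  have e : t = -2 * r2 + z2 + z1 := by linarith
  have f1 : |t| ≤ 2 * |r2| + |z2| + |z1| := by
    rw [e]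
    refine (abs_add_le _ _).trans (add_le_add ((abs_add_le _ _).trans (add_le_add ?_ le_rfl))
      le_rfl)
    rw [abs_mul]
    norm_num
  have g1 : h0 * h1 ≤ j0 * (w0 * h1) := by
    calc h0 * h1 ≤ (j0 * w0) * h1 := mul_le_mul_of_nonneg_right n0 a1
      _ = j0 * (w0 * h1) := by ring
  have g2 : 0 ≤ w0 * h1 := mul_nonneg a2 a1
  have g3 := mul_le_mul_of_nonneg_left g1 hK3
  have g4 := mul_le_mul_of_nonneg_left g1 hK4
  have g5 : 0 ≤ K1 * E1 * (w0 * h1) := mul_nonneg (mul_nonneg hK1 hE1) g2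
  have g6 : 0 ≤ (K3 + K4) * j1 * (w0 * h1) :=
    mul_nonneg (mul_nonneg (add_nonneg hK3 hK4) a5) g2
  have g7 : (2 * K1 * E1 + 2 * K2 * E0 + (K3 + K4) * (j0 + j1)) * (w0 * h1) =
      2 * (K1 * E1 * (w0 * h1)) + 2 * (K2 * (h1 * (E0 * w0))) + K3 * (j0 * (w0 * h1)) +
        K4 * (j0 * (w0 * h1)) + (K3 + K4) * j1 * (w0 * h1) := by ring
  rw [g7]
  linarith

theorem bd_TT (P : OpPair D0 D1) (h : BMap D0 D1 β) : ∃ K : ℝ, 0 ≤ K ∧
    ∀ (u : SmS D0) (w : SmS D1), |TT P h u w| ≤ K * (‖cW D0 u‖ * ‖cH D1 w‖) ∧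
      |TT P h u w| ≤ K * (‖cH D0 u‖ * ‖cW D1 w‖) := by
  have hN : ∀ x y, SmF (NN D0 D1 β x y) := fun x y => smF_NN h.sm x y
  obtain ⟨c, hc, hint⟩ := int_R (D0 := D0) (D1 := D1) hN
  have cc1 : ∀ x y, Continuous (c1 D0 D1 β x y) := fun x y =>
    (continuous_finsetSum _ fun x' _ => (D1.smQ x x').continuous.mul (h.sm x' y).continuous).sub
      (continuous_finsetSum _ fun y' _ => (D0.smQ y' y).continuous.mul (h.sm x y').continuous)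
  obtain ⟨K1, hK1, hB1⟩ := bd_R1 hN
  obtain ⟨K2, hK2, hB2⟩ := bd_R2 hN
  obtain ⟨K3, hK3, hB3⟩ := bd_Z0 (n := n) hc
  obtain ⟨K4, hK4, hB4⟩ := bd_Z0 (n := n) cc1
  obtain ⟨E0, hE0, hEn0⟩ := en_le (n := n) D0
  obtain ⟨E1, hE1, hEn1⟩ := en_le (n := n) D1
  refine ⟨2 * K1 * E1 + 2 * K2 * E0 + (K3 + K4) * (‖D0.toAD.jj‖ + ‖D1.toAD.jj‖), by positivity,
    fun u w => ?_⟩
  have hT := TT_split (P := P) h u w
  have hI := hint u.1 w.1 u.2.1 w.2.1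
  have b1 := hB1 u.1 (D1.cv w.1) u.2.1 fun x => smF_cv D1 w.2.1 x
  have b2 := hB2 w.1 (D0.cv u.1) w.2.1 fun x => smF_cv D0 u.2.1 x
  have b3 := hB3 u.1 w.1 u.2.1 w.2.1
  have b4 := hB4 u.1 w.1 u.2.1 w.2.1
  rw [← norm_cH_eq D0 u, ← norm_cH_eq D1 w] at b3 b4
  rw [← norm_cH_eq D0 u] at b1
  rw [← norm_cH_eq D1 w] at b2
  have n0 : ‖cH D0 u‖ ≤ ‖D0.toAD.jj‖ * ‖cW D0 u‖ := by
    rw [← jj_cW]
    exact D0.toAD.jj.le_opNorm _
  have n1 : ‖cH D1 w‖ ≤ ‖D1.toAD.jj‖ * ‖cW D1 w‖ := by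
    rw [← jj_cW]
    exact D1.toAD.jj.le_opNorm _
  have b1' := b1.trans (mul_le_mul_of_nonneg_left (mul_le_mul_of_nonneg_left (hEn1 w)
    (norm_nonneg (cH D0 u))) hK1)
  have b2' := b2.trans (mul_le_mul_of_nonneg_left (mul_le_mul_of_nonneg_left (hEn0 u)
    (norm_nonneg (cH D1 w))) hK2)
  have a0 : 0 ≤ ‖cH D0 u‖ := norm_nonneg _
  have a1 : 0 ≤ ‖cH D1 w‖ := norm_nonneg _
  have a2 : 0 ≤ ‖cW D0 u‖ := norm_nonneg _
  have a3 : 0 ≤ ‖cW D1 w‖ := norm_nonneg _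
  have a4 : 0 ≤ ‖D0.toAD.jj‖ := norm_nonneg _
  have a5 : 0 ≤ ‖D1.toAD.jj‖ := norm_nonneg _
  refine ⟨arith1 hT hI hK1 hK3 hK4 hE1 a1 a2 a5 n0 b2' b3 b4, ?_⟩
  have hT' : -TT P h u w = ∫ z, R2 (NN D0 D1 β) w.1 (D0.cv u.1) z ∂(μHE[n] : Measure M) -
      ∫ z, R1 (NN D0 D1 β) u.1 (D1.cv w.1) z ∂(μHE[n] : Measure M) +
      -∫ z, Z0 (c1 D0 D1 β) u.1 w.1 z ∂(μHE[n] : Measure M) := by
    rw [hT]; ring
  rw [add_comm] at hI
  rw [mul_comm ‖cH D0 u‖ ‖cH D1 w‖] at b3 b4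
  rw [← abs_neg] at b4
  have := arith1 hT' hI hK2 hK3 hK4 hE0 a0 a3 a4 n1 b1' b3 b4
  rw [abs_neg] at this
  refine this.trans (le_of_eq ?_)
  ring

end

end Crest.Agent.R235.RcQ_215
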