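import Crest.Agent.R235.La4_291
import Crest.Agent.R235.FamTop_307

/-!
Row 235 (S0364), block FAM, RCMAN (R5) (helper723): the alternating sum of
`b_{σ0}ᵀ b_{σ1} b_{σ2}ᵀ b_{σ3}` (`b_i = c(2π al_i) i`) is `r(z) p₀`, the one of
`b_{σ0} b_{σ1}ᵀ b_{σ2} b_{σ3}ᵀ` is `- r(z) p₁`, `r` smooth, and `numJ S j = 4 ∫ r`.
-/

set_option autoImplicit false
set_option maxSynthPendingDepth 3
set_option linter.unusedSectionVars false

open scoped ContDiff ENNReal NNReal Topology Manifold Bundle RealInnerProductSpace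
open MeasureTheory Set Filter Metric Bundle
open Matrix hiding J

universe v

namespace Crest.Agent.R235.RcR5_723

open Crest.Agent.R249.Tv57 (Dat OpPair SmF SmV)
open Crest.Agent.R235.SWDefs_53 Crest.Agent.R235.SWSym_451
open Crest.Agent.R235.FamTop_307 (bJ L4 numJ)

noncomputable section

variable {M : Type v} [MetricSpace M] [CompactSpace M] [ConnectedSpace M]
  [ChartedSpace (EuclideanSpace ℝ (Fin 4)) M] [IsManifold (𝓡 4) ∞ M]
  [RiemannianBundle (fun p : M => TangentSpace (𝓡 4) p)]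
  [IsContMDiffRiemannianBundle (𝓡 4) ∞ (EuclideanSpace ℝ (Fin 4))
    (fun p : M => TangentSpace (𝓡 4) p)]
  [IsRiemannianManifold (𝓡 4) M] [MeasurableSpace M] [BorelSpace M]
  [SecondCountableTopology M] [Nonempty M]
  {κ0 κ1 κT : Type} [Fintype κ0] [Fintype κ1] [Fintype κT]

/-- the matrix of `b_i b_kᵀ b_l b_mᵀ`. -/
def L4' (S : SWS M κ0 κ1 κT) (j : JD M κT 4) (i k l m : Fin 4) (x x' : κ1) (z : M) : ℝ :=
  ∑ y, ∑ x1, ∑ y1, bJ S j i x y z * bJ S j k x1 y z * bJ S j l x1 y1 z * bJ S j m x' y1 z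

/-- the matrix of `b_i`. -/
def Bm (S : SWS M κ0 κ1 κT) (j : JD M κT 4) (z : M) (i : Fin 4) : Matrix κ1 κ0 ℝ :=
  Matrix.of fun x y => bJ S j i x y z

theorem L4_mul (S : SWS M κ0 κ1 κT) (j : JD M κT 4) (i k l m : Fin 4) (y y' : κ0) (z : M) :
    L4 S j i k l m y y' z =
      ((Bm S j z i)ᵀ * Bm S j z k * (Bm S j z l)ᵀ * Bm S j z m) y y' := by
  have h : ((Bm S j z i)ᵀ * Bm S j z k * (Bm S j z l)ᵀ * Bm S j z m) y y' =
      ∑ x, ∑ y1, ∑ x1, bJ S j i x y z * bJ S j k x y1 z * bJ S j l x1 y1 z *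
        bJ S j m x1 y' z := by
    rw [Matrix.mul_apply]
    simp only [Matrix.mul_apply, Matrix.transpose_apply, Finset.sum_mul]
    have e1 : ∀ x1 : κ1, ∑ y1, ∑ x, Bm S j z i x y * Bm S j z k x y1 * Bm S j z l x1 y1 *
        Bm S j z m x1 y' = ∑ x, ∑ y1, Bm S j z i x y * Bm S j z k x y1 * Bm S j z l x1 y1 *
        Bm S j z m x1 y' := fun x1 => Finset.sum_comm
    simp only [e1]
    rw [Finset.sum_comm]
    exact Finset.sum_congr rfl fun x _ => Finset.sum_comm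
  exact h.symm

theorem L4'_mul (S : SWS M κ0 κ1 κT) (j : JD M κT 4) (i k l m : Fin 4) (x x' : κ1) (z : M) :
    L4' S j i k l m x x' z =
      (Bm S j z i * (Bm S j z k)ᵀ * Bm S j z l * (Bm S j z m)ᵀ) x x' := by
  have h : (Bm S j z i * (Bm S j z k)ᵀ * Bm S j z l * (Bm S j z m)ᵀ) x x' =
      ∑ y, ∑ x1, ∑ y1, bJ S j i x y z * bJ S j k x1 y z * bJ S j l x1 y1 z *
        bJ S j m x' y1 z := by
    rw [Matrix.mul_apply]
    simp only [Matrix.mul_apply, Matrix.transpose_apply, Finset.sum_mul]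
    have e1 : ∀ y1 : κ0, ∑ x1, ∑ y, Bm S j z i x y * Bm S j z k x1 y * Bm S j z l x1 y1 *
        Bm S j z m x' y1 = ∑ y, ∑ x1, Bm S j z i x y * Bm S j z k x1 y * Bm S j z l x1 y1 *
        Bm S j z m x' y1 := fun y1 => Finset.sum_comm
    simp only [e1]
    rw [Finset.sum_comm]
    exact Finset.sum_congr rfl fun y _ => Finset.sum_comm
  exact h.symm

/-! ### the pointwise Clifford module -/

section pt

variable {S : SWS M κ0 κ1 κT} {cc : κ1 → κ0 → M → EuclideanSpace ℝ (Fin 4)}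

/-- Clifford multiplication as a linear map to matrices. -/
def cm (cc : κ1 → κ0 → M → EuclideanSpace ℝ (Fin 4)) (z : M) :
    EuclideanSpace ℝ (Fin 4) →ₗ[ℝ] Matrix κ1 κ0 ℝ where
  toFun X := Matrix.of fun x y => inner ℝ (cc x y z) X
  map_add' X Y := by ext x y; exact inner_add_right (cc x y z) X Y
  map_smul' a X := by ext x y; exact real_inner_smul_right (cc x y z) X a

theorem cm_apply (z : M) (X : EuclideanSpace ℝ (Fin 4)) (x : κ1) (y : κ0) :
    cm cc z X x y = inner ℝ (cc x y z) X := rfl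

/-- `p₀`. -/
def p0m (S : SWS M κ0 κ1 κT) (z : M) : Matrix κ0 κ0 ℝ := Matrix.of fun y y' => S.D0.p y y' z

/-- `p₁`. -/
def p1m (S : SWS M κ0 κ1 κT) (z : M) : Matrix κ1 κ1 ℝ := Matrix.of fun x x' => S.D1.p x x' z

/-- `J`. -/
def Jm (S : SWS M κ0 κ1 κT) (z : M) : Matrix κ0 κ0 ℝ := Matrix.of fun y y' => S.J y y' z

theorem p0_T (z : M) : (p0m S z)ᵀ = p0m S z := by
  ext y y'; exact S.D0.symmp y' y z

theorem p1_T (z : M) : (p1m S z)ᵀ = p1m S z := by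
  ext y y'; exact S.D1.symmp y' y z

theorem p0_sq (z : M) : p0m S z * p0m S z = p0m S z := by
  ext y y'
  rw [Matrix.mul_apply]
  exact S.D0.idem y y' z

theorem p1_sq (z : M) : p1m S z * p1m S z = p1m S z := by
  ext y y'
  rw [Matrix.mul_apply]
  exact S.D1.idem y y' z

variable (H : Sym S cc)
include H

theorem cm_p (z : M) (X : EuclideanSpace ℝ (Fin 4)) : cm cc z X * p0m S z = cm cc z X := by
  ext x y
  rw [Matrix.mul_apply, cm_apply, ← H.cc_p x y z, sum_inner]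
  refine Finset.sum_congr rfl fun y' _ => ?_
  rw [real_inner_smul_left]
  show inner ℝ (cc x y' z) X * S.D0.p y' y z = _
  ring

theorem p_cm (z : M) (X : EuclideanSpace ℝ (Fin 4)) : p1m S z * cm cc z X = cm cc z X := by
  ext x y
  rw [Matrix.mul_apply, cm_apply, ← H.p_cc x y z, sum_inner]
  refine Finset.sum_congr rfl fun y' _ => ?_
  rw [real_inner_smul_left]
  rfl

theorem cl0 (z : M) (X Y : EuclideanSpace ℝ (Fin 4)) :
    (cm cc z X)ᵀ * cm cc z Y + (cm cc z Y)ᵀ * cm cc z X = (2 * inner ℝ X Y) • p0m S z := by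
  ext y y'
  rw [Matrix.add_apply, Matrix.mul_apply, Matrix.mul_apply, ← Finset.sum_add_distrib]
  exact H.clif0 z X Y y y'

theorem cl1 (z : M) (X Y : EuclideanSpace ℝ (Fin 4)) :
    cm cc z X * (cm cc z Y)ᵀ + cm cc z Y * (cm cc z X)ᵀ = (2 * inner ℝ X Y) • p1m S z := by
  ext y y'
  rw [Matrix.add_apply, Matrix.mul_apply, Matrix.mul_apply, ← Finset.sum_add_distrib]
  exact H.clif1 z X Y y y'

theorem tr0 (z : M) : (p0m S z).trace = 4 := H.rk0 z

/-- the vector fields `X_i = 2π ∑ al_i A s_A`. -/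
def Xv (S : SWS M κ0 κ1 κT) (j : JD M κT 4) (z : M) (i : Fin 4) : EuclideanSpace ℝ (Fin 4) :=
  (2 * Real.pi) • ∑ A, j.al i A z • S.s A z

theorem Bm_eq (j : JD M κT 4) (z : M) (i : Fin 4) :
    Bm S j z i = cm cc z (Xv S j z i) * Jm S z := by
  ext x y
  rw [Matrix.mul_apply]
  show bJ S j i x y z = ∑ y', inner ℝ (cc x y' z) (Xv S j z i) * S.J y' y z
  unfold bJ Xv
  simp only [H.cl_eq, real_inner_smul_right, inner_sum]
  rw [Finset.mul_sum]
  have h1 : ∀ A, 2 * Real.pi * (j.al i A z * ∑ y', inner ℝ (cc x y' z) (S.s A z) * S.J y' y z) =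
      ∑ y', 2 * Real.pi * (j.al i A z * inner ℝ (cc x y' z) (S.s A z)) * S.J y' y z := by
    intro A
    rw [Finset.mul_sum, Finset.mul_sum]
    exact Finset.sum_congr rfl fun y' _ => by ring
  simp only [h1]
  rw [Finset.sum_comm]
  refine Finset.sum_congr rfl fun y' _ => ?_
  rw [Finset.mul_sum, Finset.sum_mul]

theorem J_T (z : M) : (Jm S z)ᵀ = - Jm S z := by
  ext y y'
  show S.J y' y z = - S.J y y' z
  rw [H.skewJ y' y z]

theorem J_sq (z : M) : Jm S z * Jm S z = - p0m S z := by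
  ext y y'
  rw [Matrix.mul_apply]
  exact H.Jsq y y' z

/-- `cᵀ c` commutes with `J`. -/
theorem cc_J (z : M) (X Y : EuclideanSpace ℝ (Fin 4)) :
    Jm S z * ((cm cc z X)ᵀ * cm cc z Y) = (cm cc z X)ᵀ * cm cc z Y * Jm S z := by
  obtain ⟨J1, h1, h2⟩ := H.exJ1 z
  set Q : Matrix κ1 κ1 ℝ := Matrix.of J1 with hQ
  have hT : Qᵀ = -Q := by ext x x'; exact h1 x' x
  have hc : ∀ X, Q * cm cc z X = cm cc z X * Jm S z := by
    intro X
    ext x y
    rw [Matrix.mul_apply, Matrix.mul_apply]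
    have h3 := congrArg (fun v => inner ℝ v X) (h2 x y)
    simp only [sum_inner, real_inner_smul_left] at h3
    refine h3.trans (Finset.sum_congr rfl fun y' _ => ?_)
    show S.J y' y z * inner ℝ (cc x y' z) X = inner ℝ (cc x y' z) X * S.J y' y z
    ring
  have hc' : ∀ X, (cm cc z X)ᵀ * Q = Jm S z * (cm cc z X)ᵀ := by
    intro X
    have h3 := congrArg Matrix.transpose (hc X)
    rw [Matrix.transpose_mul, Matrix.transpose_mul, hT, J_T H, Matrix.mul_neg,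
      Matrix.neg_mul] at h3
    exact neg_injective h3
  rw [← Matrix.mul_assoc, ← hc', Matrix.mul_assoc, hc, Matrix.mul_assoc]

theorem bTb (j : JD M κT 4) (z : M) (i k : Fin 4) :
    (Bm S j z i)ᵀ * Bm S j z k = (cm cc z (Xv S j z i))ᵀ * cm cc z (Xv S j z k) := by
  rw [Bm_eq H, Bm_eq H, Matrix.transpose_mul, J_T H, Matrix.neg_mul, Matrix.neg_mul,
    ← Matrix.mul_assoc, Matrix.mul_assoc (Jm S z), cc_J H, Matrix.mul_assoc _ (Jm S z), J_sq H,
    Matrix.mul_neg, neg_neg, Matrix.mul_assoc, cm_p H]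

theorem bbT (j : JD M κT 4) (z : M) (i k : Fin 4) :
    Bm S j z i * (Bm S j z k)ᵀ = cm cc z (Xv S j z i) * (cm cc z (Xv S j z k))ᵀ := by
  rw [Bm_eq H, Bm_eq H, Matrix.transpose_mul, J_T H, Matrix.mul_assoc, ← Matrix.mul_assoc (Jm S z),
    Matrix.mul_neg, J_sq H, neg_neg, ← p0_T, ← Matrix.transpose_mul, cm_p H]

theorem exists_pt (j : JD M κT 4) (z : M) :
    ∃ r : ℝ, (∑ σ : Equiv.Perm (Fin 4), ((Equiv.Perm.sign σ : ℤ) : ℝ) •
        ((Bm S j z (σ 0))ᵀ * Bm S j z (σ 1) * (Bm S j z (σ 2))ᵀ * Bm S j z (σ 3))) =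
          r • p0m S z ∧
      (∑ σ : Equiv.Perm (Fin 4), ((Equiv.Perm.sign σ : ℤ) : ℝ) •
        (Bm S j z (σ 0) * (Bm S j z (σ 1))ᵀ * Bm S j z (σ 2) * (Bm S j z (σ 3))ᵀ)) =
          (-r) • p1m S z := by
  classical
  obtain ⟨r, h1, h2⟩ := La4_291.la4 (cm cc z) (p0m S z) (p1m S z) (p0_T z) (p1_T z) (p0_sq z)
    (p1_sq z) (cm_p H z) (p_cm H z) (cl0 H z) (cl1 H z) (tr0 H z) (Xv S j z)
  refine ⟨r, ?_, ?_⟩
  · rw [← h1]
    refine Finset.sum_congr rfl fun σ _ => ?_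
    rw [Matrix.mul_assoc ((Bm S j z (σ 0))ᵀ * Bm S j z (σ 1)), bTb H, bTb H, ← Matrix.mul_assoc]
  · rw [← h2]
    refine Finset.sum_congr rfl fun σ _ => ?_
    rw [Matrix.mul_assoc (Bm S j z (σ 0) * (Bm S j z (σ 1))ᵀ), bbT H, bbT H, ← Matrix.mul_assoc]

end pt

/-! ### the function `r` -/

/-- `r = (1/4) ∑ sgn tr (b_σ0^T b_σ1 b_σ2^T b_σ3)`. -/
def rr (S : SWS M κ0 κ1 κT) (j : JD M κT 4) (z : M) : ℝ :=
  (1 / 4) * ∑ σ : Equiv.Perm (Fin 4), ((Equiv.Perm.sign σ : ℤ) : ℝ) *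
    ∑ y, L4 S j (σ 0) (σ 1) (σ 2) (σ 3) y y z

theorem numJ_rr (S : SWS M κ0 κ1 κT) (j : JD M κT 4) :
    numJ S j = 4 * ∫ z, rr S j z ∂(μHE[4] : Measure M) := by
  unfold numJ rr
  rw [integral_const_mul]
  ring

section main

variable {S : SWS M κ0 κ1 κT} {cc : κ1 → κ0 → M → EuclideanSpace ℝ (Fin 4)}
  (H : Sym S cc) (j : JD M κT 4)
include H

theorem rr_mat (z : M) :
    (∑ σ : Equiv.Perm (Fin 4), ((Equiv.Perm.sign σ : ℤ) : ℝ) •
        ((Bm S j z (σ 0))ᵀ * Bm S j z (σ 1) * (Bm S j z (σ 2))ᵀ * Bm S j z (σ 3))) =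
          rr S j z • p0m S z ∧
      (∑ σ : Equiv.Perm (Fin 4), ((Equiv.Perm.sign σ : ℤ) : ℝ) •
        (Bm S j z (σ 0) * (Bm S j z (σ 1))ᵀ * Bm S j z (σ 2) * (Bm S j z (σ 3))ᵀ)) =
          (-rr S j z) • p1m S z := by
  obtain ⟨r, h1, h2⟩ := exists_pt H j z
  have hr : rr S j z = r := by
    have h3 := congrArg Matrix.trace h1
    rw [Matrix.trace_sum, Matrix.trace_smul, tr0 H z, smul_eq_mul] at h3
    have h4 : ∑ σ : Equiv.Perm (Fin 4), ((Equiv.Perm.sign σ : ℤ) : ℝ) *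
        ∑ y, L4 S j (σ 0) (σ 1) (σ 2) (σ 3) y y z = r * 4 := by
      rw [← h3]
      refine Finset.sum_congr rfl fun σ _ => ?_
      rw [Matrix.trace_smul, smul_eq_mul]
      congr 1
      exact Finset.sum_congr rfl fun y _ => L4_mul S j _ _ _ _ y y z
    unfold rr
    rw [h4]
    ring
  rw [hr]
  exact ⟨h1, h2⟩

/-- **R5 on `D0`**. -/
theorem sum_L4 (z : M) (y y' : κ0) :
    ∑ σ : Equiv.Perm (Fin 4), ((Equiv.Perm.sign σ : ℤ) : ℝ) *
      L4 S j (σ 0) (σ 1) (σ 2) (σ 3) y y' z = rr S j z * S.D0.p y y' z := by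
  have h := congrFun (congrFun (rr_mat H j z).1 y) y'
  rw [Matrix.sum_apply] at h
  refine (Finset.sum_congr rfl fun σ _ => ?_).trans h
  rw [L4_mul]
  rfl

/-- **R5 on `D1`**. -/
theorem sum_L4' (z : M) (x x' : κ1) :
    ∑ σ : Equiv.Perm (Fin 4), ((Equiv.Perm.sign σ : ℤ) : ℝ) *
      L4' S j (σ 0) (σ 1) (σ 2) (σ 3) x x' z = - rr S j z * S.D1.p x x' z := by
  have h := congrFun (congrFun (rr_mat H j z).2 x) x'
  rw [Matrix.sum_apply] at h
  refine (Finset.sum_congr rfl fun σ _ => ?_).trans h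
  rw [L4'_mul]
  rfl

end main

end

end Crest.Agent.R235.RcR5_723
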