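import Crest.Agent.R235.Rn4_820
import Crest.Agent.R235.RcW_723

/-!
Row 235 (S0364), block FAM/RC (helper723): `Rn_820.WX`, the weights of RCMAN.
-/

set_option autoImplicit false
set_option maxSynthPendingDepth 3

namespace Crest.Agent.R235.RcW_723

/-- **WX**. -/
theorem wx : Rn_820.WX := by
  intro M _ _ _ _ _ _ _ _ _ _ _ _ _ κ0 κ1 κT _ _ _ S cc J1 j H C hj S0 S1 Bt hBt
  exact ⟨_, _, h0 hBt H hj S0, h0' hBt H hj S0, h1 hBt H hj S1, h1' hBt H hj C S1, L0 H hj S0,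
    L1 H hj S1⟩

end Crest.Agent.R235.RcW_723
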