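import Crest.Agent.R235.RcMain_820
import Crest.Agent.R235.RC_746

/-!
Row 235, block FAM/RC (helper746), leaf R3 of RCMAN: the leading asymptotics `Inf.weyl` of the
resolvent trace from real eigenbases of `D* D` on `H0` and `D D*` on `Y`.

* `gr_eig0`, `gr_eig1` : `G_ε (φ, 0) = (1 + ε² μ)⁻¹ (φ, 0)`, `G_ε (0, ψ) = (1 + ε² ν)⁻¹ (0, ψ)`;
* `weyl_abs`           : `ε⁴ tr (N G_ε⁴) → (L₀ + L₁) / 2`.
-/

set_option autoImplicit false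
set_option linter.unusedSectionVars false

open scoped InnerProductSpace ContDiff Topology
open Complex Filter

namespace Crest.Agent.R235.RcWeyl_746

open Crest.Agent.R235.Rc0_820 Crest.Agent.R235.RCTr_746 Crest.Agent.R235.Rc1_820

noncomputable section

local notation "⟪" x ", " y "⟫" => inner ℂ x y

variable {X H0 Y : Type*} [NormedAddCommGroup X] [InnerProductSpace ℂ X] [CompleteSpace X]
  [NormedAddCommGroup H0] [InnerProductSpace ℂ H0] [CompleteSpace H0]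
  [NormedAddCommGroup Y] [InnerProductSpace ℂ Y] [CompleteSpace Y]
  {j : X →L[ℂ] H0} {D : X →L[ℂ] Y}

/-- `(x, 0)` -/
def in0 (x : H0) : HT H0 Y := WithLp.toLp 2 (x, 0)

/-- `(0, y)` -/
def in1 (y : Y) : HT H0 Y := WithLp.toLp 2 (0, y)

@[simp] lemma in0_fst (x : H0) : (in0 x : HT H0 Y).fst = x := rfl
@[simp] lemma in0_snd (x : H0) : (in0 x : HT H0 Y).snd = 0 := rfl
@[simp] lemma in1_fst (y : Y) : (in1 y : HT H0 Y).fst = 0 := rfl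
@[simp] lemma in1_snd (y : Y) : (in1 y : HT H0 Y).snd = y := rfl

/-- the value of `Gr` -/
lemma gr_apply (hc : Coer j D) {ε : ℝ} (hε : ε ≠ 0) (x : HT H0 Y) :
    RCDefs_746.Gr (Cr j D 1) ε x = Cr j D (-ε) (Cr j D ε x) := by
  unfold RCDefs_746.Gr
  rw [cr_eq hc hε, star_cr hc hε]
  rfl

lemma one_add_ne {ε μ : ℝ} (hμ : 0 ≤ μ) : (1 + ε ^ 2 * μ : ℝ) ≠ 0 := by positivity

/-- the resolvent on the eigenvectors of `D* D`. -/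
lemma gr_eig0 (hc : Coer j D) {ε : ℝ} (hε : ε ≠ 0) {u : X} {μ : ℝ} (hμ : 0 ≤ μ)
    (h : ∀ v, ⟪D v, D u⟫ = μ * ⟪j v, j u⟫) :
    RCDefs_746.Gr (Cr j D 1) ε (in0 (j u)) = (((1 + ε ^ 2 * μ)⁻¹ : ℝ) : ℂ) • in0 (j u) := by
  rw [gr_apply hc hε]
  set c : ℂ := (((1 + ε ^ 2 * μ)⁻¹ : ℝ) : ℂ) with hcd
  have hne : (1 + (ε : ℂ) ^ 2 * μ) ≠ 0 := by
    have := one_add_ne (ε := ε) hμ
    exact_mod_cast this
  have hc1 : c * (1 + (ε : ℂ) ^ 2 * μ) = 1 := by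
    rw [hcd]; push_cast
    exact inv_mul_cancel₀ hne
  -- first step
  have e1 : Cr j D ε (in0 (j u)) = WithLp.toLp 2 (j (c • u), -(I * ε) • D (c • u)) := by
    refine (Cr_eq hc hε (u := c • u) ⟨rfl, ?_, fun v => ?_⟩).1
    · show -(I * ε) • D (c • u) = (0 : Y) - (I * ε) • D (c • u)
      rw [zero_sub, neg_smul]
    · show ⟪j v, j (c • u) - j u⟫ + (I * ε) * ⟪D v, -(I * ε) • D (c • u)⟫ = 0
      rw [inner_smul_right, map_smul, map_smul, inner_sub_right, inner_smul_right,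
        inner_smul_right, h v]
      linear_combination ⟪j v, j u⟫ * hc1 - (ε : ℂ) ^ 2 * c * μ * ⟪j v, j u⟫ * I_sq
  rw [e1]
  refine (Cr_eq hc (neg_ne_zero.2 hε) (u := c • u) ⟨?_, ?_, fun v => ?_⟩).1
  · show c • j u = j (c • u)
    rw [map_smul]
  · show c • (0 : Y) = -(I * ε) • D (c • u) - (I * ((-ε : ℝ) : ℂ)) • D (c • u)
    push_cast
    module
  · show ⟪j v, c • j u - j (c • u)⟫ + (I * ((-ε : ℝ) : ℂ)) * ⟪D v, c • (0 : Y)⟫ = 0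
    rw [map_smul, sub_self, smul_zero, inner_zero_right, inner_zero_right]
    simp

/-- the resolvent on the eigenvectors of `D D*`. -/
lemma gr_eig1 (hc : Coer j D) {ε : ℝ} (hε : ε ≠ 0) {w : X} {ψ : Y} {μ : ℝ} (hμ : 0 ≤ μ)
    (h : ∀ v, ⟪D v, ψ⟫ = ⟪j v, j w⟫) (hw : D w = (μ : ℂ) • ψ) :
    RCDefs_746.Gr (Cr j D 1) ε (in1 ψ) = (((1 + ε ^ 2 * μ)⁻¹ : ℝ) : ℂ) • in1 ψ := by
  rw [gr_apply hc hε]
  set c : ℂ := (((1 + ε ^ 2 * μ)⁻¹ : ℝ) : ℂ) with hcd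
  have hne : (1 + (ε : ℂ) ^ 2 * μ) ≠ 0 := by
    have := one_add_ne (ε := ε) hμ
    exact_mod_cast this
  have hc1 : c * (1 + (ε : ℂ) ^ 2 * μ) = 1 := by
    rw [hcd]; push_cast
    exact inv_mul_cancel₀ hne
  have e1 : Cr j D ε (in1 ψ) = WithLp.toLp 2 (j ((-(I * ε) * c) • w), c • ψ) := by
    refine (Cr_eq hc hε (u := (-(I * ε) * c) • w) ⟨rfl, ?_, fun v => ?_⟩).1
    · show c • ψ = ψ - (I * ε) • D ((-(I * ε) * c) • w)
      rw [map_smul, hw]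
      have e2 : c = 1 - I * ε * (-(I * ε) * c) * μ := by
        linear_combination hc1 - (ε : ℂ) ^ 2 * c * μ * I_sq
      have e3 : c • ψ = (1 - I * ε * (-(I * ε) * c) * μ) • ψ := congrArg (fun z : ℂ => z • ψ) e2
      rw [e3]
      module
    · show ⟪j v, j ((-(I * ε) * c) • w) - 0⟫ + (I * ε) * ⟪D v, c • ψ⟫ = 0
      rw [sub_zero, map_smul, inner_smul_right, inner_smul_right, h v]
      ring
  rw [e1]
  refine (Cr_eq hc (neg_ne_zero.2 hε) (u := 0) ⟨?_, ?_, fun v => ?_⟩).1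
  · show c • (0 : H0) = j 0
    rw [map_zero, smul_zero]
  · show c • ψ = c • ψ - (I * ((-ε : ℝ) : ℂ)) • D 0
    rw [map_zero, smul_zero, sub_zero]
  · show ⟪j v, c • (0 : H0) - j ((-(I * ε) * c) • w)⟫ + (I * ((-ε : ℝ) : ℂ)) * ⟪D v, c • ψ⟫ = 0
    rw [smul_zero, zero_sub, map_smul, inner_neg_right, inner_smul_right, inner_smul_right, h v]
    push_cast
    ring

/-! ### the trace -/

/-- the real eigenbasis of the sum. -/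
lemma pars_sum {κ0 κ1 : Type*} {φ : κ0 → H0} {ψ : κ1 → Y}
    (hφ : ∀ x y : H0, HasSum (fun k => (⟪x, φ k⟫).re * (⟪φ k, y⟫).re) (⟪x, y⟫).re)
    (hψ : ∀ x y : Y, HasSum (fun k => (⟪x, ψ k⟫).re * (⟪ψ k, y⟫).re) (⟪x, y⟫).re) (x y : HT H0 Y) :
    HasSum (fun k : κ0 ⊕ κ1 => (⟪x, Sum.elim (fun k => in0 (φ k)) (fun k => in1 (ψ k)) k⟫).re *
      (⟪(Sum.elim (fun k => in0 (φ k)) (fun k => in1 (ψ k)) k : HT H0 Y), y⟫).re) (⟪x, y⟫).re := by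
  have h0 := hφ x.fst y.fst
  have h1 := hψ x.snd y.snd
  rw [inner_HT, add_re]
  refine HasSum.sum ?_ ?_
  · refine (congrArg (fun f => HasSum f _) (funext fun k => ?_)).mp h0
    show (⟪x.fst, φ k⟫).re * (⟪φ k, y.fst⟫).re = (⟪x, in0 (φ k)⟫).re * (⟪(in0 (φ k) : HT H0 Y), y⟫).re
    rw [inner_HT, inner_HT]
    simp
  · refine (congrArg (fun f => HasSum f _) (funext fun k => ?_)).mp h1
    show (⟪x.snd, ψ k⟫).re * (⟪ψ k, y.snd⟫).re = (⟪x, in1 (ψ k)⟫).re * (⟪(in1 (ψ k) : HT H0 Y), y⟫).re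
    rw [inner_HT, inner_HT]
    simp

lemma tr_star {H : Type*} [NormedAddCommGroup H] [InnerProductSpace ℂ H] [CompleteSpace H]
    (T : H →L[ℂ] H) : tr (star T) = (starRingEnd ℂ) (tr T) := by
  unfold tr
  rw [Complex.conj_tsum]
  refine tsum_congr fun i => ?_
  rw [ContinuousLinearMap.star_eq_adjoint, ContinuousLinearMap.adjoint_inner_right,
    inner_conj_symm]

lemma star_Gr {H : Type*} [NormedAddCommGroup H] [InnerProductSpace ℂ H] [CompleteSpace H]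
    (K : H →L[ℂ] H) (ε : ℝ) : star (RCDefs_746.Gr K ε) = RCDefs_746.Gr K ε := by
  unfold RCDefs_746.Gr
  rw [star_mul, star_star]

/-- the trace is real. -/
lemma tr_im {H : Type*} [NormedAddCommGroup H] [InnerProductSpace ℂ H] [CompleteSpace H]
    {g K N : H →L[ℂ] H} (hB : RCDefs_746.Base g K) (hN : star N = N) (ε : ℝ) :
    (tr (N * (RCDefs_746.Gr K ε) ^ 4)).im = 0 := by
  obtain ⟨c, hc⟩ := nuc_G4 hB ε (1 : H →L[ℂ] H)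
  rw [one_mul] at hc
  have h1 := tr_comm hc N
  change tr (N * (RCDefs_746.Gr K ε) ^ 4) = tr ((RCDefs_746.Gr K ε) ^ 4 * N) at h1
  have h2 := tr_star (N * (RCDefs_746.Gr K ε) ^ 4)
  rw [star_mul, star_pow, star_Gr, hN, ← h1] at h2
  have h3 := congrArg Complex.im h2
  rw [Complex.conj_im] at h3
  linarith

lemma pow_eig {H : Type*} [NormedAddCommGroup H] [InnerProductSpace ℂ H] {G : H →L[ℂ] H} {c : ℂ}
    {x : H} (h : G x = c • x) (n : ℕ) : (G ^ n) x = c ^ n • x := by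
  induction n with
  | zero => simp
  | succ n ih =>
    rw [pow_succ]
    show (G ^ n) (G x) = _
    rw [h, map_smul, ih, smul_smul, pow_succ]
    ring_nf

/-- **the trace as a sum over the real eigenbases.** -/
theorem hasSum_tr (hc : Coer j D) (hA : ∃ c, App (Cr j D 1) c (1 / 4)) {ε : ℝ} (hε : ε ≠ 0)
    {κ0 κ1 : Type*} {φ : κ0 → H0} {u : κ0 → X} {μ : κ0 → ℝ} {ψ : κ1 → Y} {w : κ1 → X} {ν : κ1 → ℝ}
    (hφ : ∀ x y : H0, HasSum (fun k => (⟪x, φ k⟫).re * (⟪φ k, y⟫).re) (⟪x, y⟫).re)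
    (hu : ∀ k, j (u k) = φ k) (hμ : ∀ k, 0 ≤ μ k)
    (hD : ∀ k v, ⟪D v, D (u k)⟫ = μ k * ⟪j v, φ k⟫)
    (hψ : ∀ x y : Y, HasSum (fun k => (⟪x, ψ k⟫).re * (⟪ψ k, y⟫).re) (⟪x, y⟫).re)
    (hν : ∀ k, 0 ≤ ν k) (hw : ∀ k v, ⟪D v, ψ k⟫ = ⟪j v, j (w k)⟫)
    (hDw : ∀ k, D (w k) = (ν k : ℂ) • ψ k)
    {N : HT H0 Y →L[ℂ] HT H0 Y} {N0 : H0 →L[ℂ] H0} {N1 : Y →L[ℂ] Y}
    (hN0 : ∀ x, (N x).fst = N0 x.fst) (hN1 : ∀ x, (N x).snd = N1 x.snd) :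
    HasSum (Sum.elim (fun k => ((1 + ε ^ 2 * μ k)⁻¹) ^ 4 * (⟪φ k, N0 (φ k)⟫).re)
      (fun k => ((1 + ε ^ 2 * ν k)⁻¹) ^ 4 * (⟪ψ k, N1 (ψ k)⟫).re))
      (2 * (tr (N * (RCDefs_746.Gr (Cr j D 1) ε) ^ 4)).re) := by
  have h1 := RC_746.re_tr_real (nuc_G4 (base hc hA) ε N) _ (pars_sum hφ hψ)
  refine (congrArg (fun f => HasSum f _) (funext ?_)).mp h1
  rintro (k | k)
  · have e1 : RCDefs_746.Gr (Cr j D 1) ε (in0 (φ k)) =
        (((1 + ε ^ 2 * μ k)⁻¹ : ℝ) : ℂ) • in0 (φ k) := by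
      rw [← hu k]
      exact gr_eig0 hc hε (hμ k) fun v => by rw [hD k v, hu k]
    have e2 : (N * (RCDefs_746.Gr (Cr j D 1) ε) ^ 4) (in0 (φ k)) =
        (((1 + ε ^ 2 * μ k)⁻¹ : ℝ) : ℂ) ^ 4 • N (in0 (φ k)) := by
      rw [ContinuousLinearMap.mul_apply, pow_eig e1, map_smul]
    simp only [Sum.elim_inl]
    rw [e2, inner_smul_right, inner_HT, hN0, in0_fst, in0_snd, inner_zero_left,
      add_zero, ← ofReal_pow, re_ofReal_mul]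
  · have e1 := gr_eig1 hc hε (hν k) (hw k) (hDw k)
    have e2 : (N * (RCDefs_746.Gr (Cr j D 1) ε) ^ 4) (in1 (ψ k)) =
        (((1 + ε ^ 2 * ν k)⁻¹ : ℝ) : ℂ) ^ 4 • N (in1 (ψ k)) := by
      rw [ContinuousLinearMap.mul_apply, pow_eig e1, map_smul]
    simp only [Sum.elim_inr]
    rw [e2, inner_smul_right, inner_HT, hN1, in1_fst, in1_snd, inner_zero_left,
      zero_add, ← ofReal_pow, re_ofReal_mul]

lemma key {κ : Type*} {m a : κ → ℝ} {ε : ℝ} (hε : ε ≠ 0) :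
    ((ε ^ 2)⁻¹) ^ 2 * ∑' k, ((((ε ^ 2)⁻¹) + m k) ^ 4)⁻¹ * a k =
      ε ^ 4 * ∑' k, ((1 + ε ^ 2 * m k)⁻¹) ^ 4 * a k := by
  rw [← tsum_mul_left, ← tsum_mul_left]
  refine tsum_congr fun k => ?_
  have e1 : (ε ^ 2)⁻¹ + m k = (ε ^ 2)⁻¹ * (1 + ε ^ 2 * m k) := by
    rw [mul_add, mul_one, ← mul_assoc, inv_mul_cancel₀ (pow_ne_zero 2 hε), one_mul]
  have e2 : ((ε ^ 2)⁻¹) ^ 2 * (((ε ^ 2)⁻¹) ^ 4)⁻¹ = ε ^ 4 := by
    field_simp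
  rw [e1, mul_pow, mul_inv, ← mul_assoc, ← mul_assoc, e2, ← inv_pow, ← mul_assoc]

/-- **the leading asymptotics.** -/
theorem weyl_abs (hc : Coer j D) (hA : ∃ c, App (Cr j D 1) c (1 / 4))
    {κ0 κ1 : Type*} {φ : κ0 → H0} {u : κ0 → X} {μ : κ0 → ℝ} {ψ : κ1 → Y} {w : κ1 → X} {ν : κ1 → ℝ}
    (hφ : ∀ x y : H0, HasSum (fun k => (⟪x, φ k⟫).re * (⟪φ k, y⟫).re) (⟪x, y⟫).re)
    (hu : ∀ k, j (u k) = φ k) (hμ : ∀ k, 0 ≤ μ k)
    (hD : ∀ k v, ⟪D v, D (u k)⟫ = μ k * ⟪j v, φ k⟫)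
    (hψ : ∀ x y : Y, HasSum (fun k => (⟪x, ψ k⟫).re * (⟪ψ k, y⟫).re) (⟪x, y⟫).re)
    (hν : ∀ k, 0 ≤ ν k) (hw : ∀ k v, ⟪D v, ψ k⟫ = ⟪j v, j (w k)⟫)
    (hDw : ∀ k, D (w k) = (ν k : ℂ) • ψ k)
    {N : HT H0 Y →L[ℂ] HT H0 Y} {N0 : H0 →L[ℂ] H0} {N1 : Y →L[ℂ] Y}
    (hN0 : ∀ x, (N x).fst = N0 x.fst) (hN1 : ∀ x, (N x).snd = N1 x.snd) (hNs : star N = N)
    {L0 L1 : ℝ}
    (h0 : Tendsto (fun l : ℝ => l ^ 2 * ∑' k, ((l + μ k) ^ 4)⁻¹ * (⟪φ k, N0 (φ k)⟫).re) atTop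
      (𝓝 L0))
    (h1 : Tendsto (fun l : ℝ => l ^ 2 * ∑' k, ((l + ν k) ^ 4)⁻¹ * (⟪ψ k, N1 (ψ k)⟫).re) atTop
      (𝓝 L1)) :
    Tendsto (fun ε : ℝ => (ε : ℂ) ^ 4 * tr (N * (RCDefs_746.Gr (Cr j D 1) ε) ^ 4)) (𝓝[>] 0)
      (𝓝 ((((L0 + L1) / 2 : ℝ)) : ℂ)) := by
  have ht : Tendsto (fun ε : ℝ => (ε ^ 2)⁻¹) (𝓝[>] 0) atTop := by
    have h2 : Tendsto (fun ε : ℝ => ε ^ 2) (𝓝[>] 0) (𝓝[>] 0) := by
      rw [tendsto_nhdsWithin_iff]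
      refine ⟨?_, ?_⟩
      · have : Tendsto (fun ε : ℝ => ε ^ 2) (𝓝 0) (𝓝 (0 ^ 2)) := (continuous_pow 2).tendsto 0
        rw [zero_pow two_ne_zero] at this
        exact this.mono_left nhdsWithin_le_nhds
      · filter_upwards [self_mem_nhdsWithin] with ε hε
        exact pow_pos (Set.mem_Ioi.1 hε) 2
    exact tendsto_inv_nhdsGT_zero.comp h2
  have h2 := ((h0.comp ht).add (h1.comp ht)).div_const 2
  have h3 := (Complex.continuous_ofReal.tendsto _).comp h2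
  refine h3.congr' ?_
  filter_upwards [self_mem_nhdsWithin] with ε hε
  have hε' : ε ≠ 0 := ne_of_gt hε
  have hs := hasSum_tr hc hA hε' hφ hu hμ hD hψ hν hw hDw hN0 hN1
  have him := tr_im (base hc hA) hNs ε
  have hsum := Summable.tsum_sum (hs.summable.comp_injective Sum.inl_injective)
    (hs.summable.comp_injective Sum.inr_injective)
  rw [hs.tsum_eq] at hsum
  simp only [Sum.elim_inl, Sum.elim_inr] at hsum
  show (((((((ε ^ 2)⁻¹) ^ 2 * ∑' k, ((((ε ^ 2)⁻¹) + μ k) ^ 4)⁻¹ * (⟪φ k, N0 (φ k)⟫).re +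
    ((ε ^ 2)⁻¹) ^ 2 * ∑' k, ((((ε ^ 2)⁻¹) + ν k) ^ 4)⁻¹ * (⟪ψ k, N1 (ψ k)⟫).re) / 2) : ℝ)) : ℂ) = _
  rw [key hε', key hε', ← mul_add, ← hsum]
  apply Complex.ext
  · rw [Complex.ofReal_re, ← Complex.ofReal_pow, Complex.re_ofReal_mul]
    ring
  · rw [Complex.ofReal_im, ← Complex.ofReal_pow, Complex.im_ofReal_mul, him, mul_zero]

end

end Crest.Agent.R235.RcWeyl_746
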