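import Crest.Agent.R235.SWPfx_435
import Crest.Agent.R235.RcMain_820

/-!
Row 235 (S0364), block FAM/RC, leaf R4 of RCMAN (helper435), part a: the structure `JF` of `Rc2_820` for the
Dirac family over the Jacobian torus.

* `RJ Φ`     : for `Φ : RFam b V W V0`: `B a : V0 →L W` commuting with the complex structures,
               `D h = D 0 + ∑ h_a B_a jj`, coercivity;
* `R.jf`     : `JF Φ.toP Φ.H`; `eY_cB`;
* `rj H C hj : RJ (RF H C hj)`, `jf H C hj : JF (RF H C hj).toP (RF H C hj).H`.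
-/

set_option autoImplicit false
set_option maxSynthPendingDepth 3
set_option linter.unusedSectionVars false

open scoped ContDiff InnerProductSpace Topology Manifold Bundle
open Module MeasureTheory Bundle

universe v

namespace Crest.Agent.R235.RcX_435

open Crest.Agent.R235.Cx_172 Crest.Agent.R235.FamR_151 Crest.Agent.R235.SWPf_435
open Crest.Agent.R235.Rc0_820 Crest.Agent.R235.Rc1_820

noncomputable section

section gen

variable {b : ℕ} {V W V0 : Type*} [NormedAddCommGroup V] [InnerProductSpace ℝ V]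
    [CompleteSpace V] [NormedAddCommGroup W] [InnerProductSpace ℝ W] [CompleteSpace W]
    [NormedAddCommGroup V0] [InnerProductSpace ℝ V0] [CompleteSpace V0]

/-- the derivatives of the family. -/
structure RJ (Φ : RFam b V W V0) where
  B : Fin b → V0 →L[ℝ] W
  B_J : ∀ a x, B a (Φ.J0 x) = Φ.J' (B a x)
  aff : ∀ h x, Φ.D h x = Φ.D 0 x + ∑ a, h a • B a (Φ.jj x)
  coer : ∃ c : ℝ, ∀ x, ‖x‖ ^ 2 ≤ c * (‖Φ.jj x‖ ^ 2 + ‖Φ.D 0 x‖ ^ 2)

variable {Φ : RFam b V W V0} (R : RJ Φ)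

/-- the operator `B a`. -/
def RJ.cB (a : Fin b) : Φ.H →L[ℂ] Φ.Y :=
  (liftL (R.B a) (R.B_J a) : CX V0 Φ.J0 Φ.hJ0 →L[ℂ] CX W Φ.J' Φ.hJ')

theorem RJ.eY_cB (a : Fin b) (x : Φ.H) : Φ.eY (R.cB a x) = R.B a (Φ.eH x) := rfl

include R in
theorem RJ.coer' : Coer Φ.incl (Φ.toP.D 0) := by
  obtain ⟨c, hc⟩ := R.coer
  refine ⟨(1 + ‖Φ.J‖) ^ 2 * |c|, fun x => ?_⟩
  have h1 : ‖x‖ ≤ (1 + ‖Φ.J‖) * ‖Φ.eX x‖ := norm_le_e (hJ := Φ.hJ) x
  have h2 := hc (Φ.eX x)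
  have h3 : ‖Φ.incl x‖ = ‖Φ.jj (Φ.eX x)‖ := by rw [← Φ.norm_eH, Φ.eH_incl]
  have h4 : ‖Φ.toP.D 0 x‖ = ‖Φ.D 0 (Φ.eX x)‖ := by rw [← Φ.norm_eY, Φ.eY_D]
  rw [h3, h4, mul_assoc]
  have h5 : ‖x‖ ^ 2 ≤ ((1 + ‖Φ.J‖) * ‖Φ.eX x‖) ^ 2 := pow_le_pow_left₀ (norm_nonneg _) h1 2
  refine h5.trans ?_
  rw [mul_pow]
  refine mul_le_mul_of_nonneg_left (h2.trans ?_) (sq_nonneg _)
  exact mul_le_mul_of_nonneg_right (le_abs_self c) (by positivity)

theorem eY_smul (r : ℝ) (y : Φ.Y) : Φ.eY ((r : ℂ) • y) = r • Φ.eY y := by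
  rw [← map_smul]
  rfl

theorem v0_UH (k : Fin b → ℤ) : star (Φ.UH k) * Φ.UH k = 1 := by
  rw [ContinuousLinearMap.star_eq_adjoint]
  exact (ContinuousLinearMap.norm_map_iff_adjoint_comp_self (Φ.UH k)).1 (Φ.norm_UH k)

theorem v0_UH' (k : Fin b → ℤ) : Φ.UH k * star (Φ.UH k) = 1 := by
  have h1 : Φ.UH k * Φ.UH (-k) = 1 := by
    have := Φ.UH_add k (-k)
    rw [add_neg_cancel, Φ.UH_zero] at this
    exact this.symm
  have h2 : star (Φ.UH k) = Φ.UH (-k) := by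
    calc star (Φ.UH k) = star (Φ.UH k) * (Φ.UH k * Φ.UH (-k)) := by rw [h1, mul_one]
      _ = Φ.UH (-k) := by rw [← mul_assoc, v0_UH, one_mul]
  rw [h2, h1]

/-- **the data of `Rc2_820`**. -/
def RJ.jf : JF Φ.toP Φ.H where
  j := Φ.incl
  B := R.cB
  V0 := Φ.UH
  coer := R.coer'
  aff h := by
    refine ContinuousLinearMap.ext fun x => Φ.eY.injective ?_
    have h1 : (Φ.toP.D 0 + (∑ a, ((h a : ℝ) : ℂ) • R.cB a) ∘L Φ.incl) x =
        Φ.toP.D 0 x + ∑ a, ((h a : ℝ) : ℂ) • R.cB a (Φ.incl x) := by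
      simp [sum_apply]
    rw [h1, map_add, map_sum, Φ.eY_D, R.aff, Φ.eY_D]
    congr 1
    refine Finset.sum_congr rfl fun a _ => ?_
    rw [eY_smul, R.eY_cB, Φ.eH_incl]
  v0 := v0_UH
  v0' := v0_UH'
  j_U := Φ.incl_U

end gen

section fam

open Crest.Agent.R249.Tv57 Crest.Agent.R247.Ms322 Crest.Agent.R247.Dir593
open Crest.Agent.R235.SWSym_451 Crest.Agent.R235.Fs4_546 Crest.Agent.R235.Fred_649
open Crest.Agent.R235.SWDefs_53

variable {M : Type v} [MetricSpace M] [CompactSpace M] [ConnectedSpace M]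
  [ChartedSpace (EuclideanSpace ℝ (Fin 4)) M] [IsManifold (𝓡 4) ∞ M]
  [RiemannianBundle (fun p : M => TangentSpace (𝓡 4) p)]
  [IsContMDiffRiemannianBundle (𝓡 4) ∞ (EuclideanSpace ℝ (Fin 4))
    (fun p : M => TangentSpace (𝓡 4) p)]
  [IsRiemannianManifold (𝓡 4) M] [MeasurableSpace M] [BorelSpace M]
  [SecondCountableTopology M] [Nonempty M] [IsFiniteMeasureOnCompacts (μHE[4] : Measure M)]
  {κ0 κ1 κT : Type} [Fintype κ0] [Fintype κ1] [Fintype κT]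
  {S : SWS M κ0 κ1 κT} {cc : κ1 → κ0 → M → EuclideanSpace ℝ (Fin 4)} {J1 : κ1 → κ1 → M → ℝ}
  {b : ℕ} {j : JD M κT b}

/-- **the derivatives of the Dirac family**: multiplication by `c(2π al_a) i`. -/
def rj (H : Sym S cc) (C : CJ1 S cc J1) (hj : j.OK S) : RJ (RF H C hj) where
  B a := CH H (sm_ei hj a)
  B_J a := CH_JH H C (sm_ei hj a)
  aff h x := by
    show DR H hj h x = DR H hj 0 x + ∑ a, h a • CH H (sm_ei hj a) (S.D0.toAD.jj x)
    rw [DR_zero]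
    exact DR_apply H hj h x
  coer := by
    obtain ⟨c, hc, h⟩ := garding (P := S.P) (dns4 S.D0)
    refine ⟨c, fun x => ?_⟩
    have h1 : (RF H C hj).D 0 = Ah S.P := DR_zero H hj
    rw [h1]
    refine (h x).trans (le_of_eq ?_)
    rw [add_comm]
    rfl

/-- **R4a** -/
def jf (H : Sym S cc) (C : CJ1 S cc J1) (hj : j.OK S) : JF (RF H C hj).toP (RF H C hj).H :=
  (rj H C hj).jf

end fam

end

end Crest.Agent.R235.RcX_435
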