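import Crest.Agent.R235.SWPfC_435
import Crest.Agent.R235.Cx_172

/-!
Row 235 (S0364), block FAM/RC, leaf R4b of RCMAN (helper435), part a: bounds for the commutator of the
Dirac operator with a smooth matrix.

* `dvg H hV`  : the divergence of a smooth frame field (from the adjointness of the Dirac operator);
* `Th m`      : `∇ m`; `cv1_mu`, `cv0_mt`: Leibniz rules;
* `E_eq`      : `∫ ed1 (m u) w - ∫ ed0 u (mᵀ w)` is of first order;
* `mulR`      : rectangular smooth matrices on `W^{1,2}`.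
-/

set_option autoImplicit false
set_option maxSynthPendingDepth 3
set_option linter.unusedSectionVars false

open scoped ContDiff ENNReal NNReal Topology Manifold Bundle RealInnerProductSpace
open MeasureTheory Set Filter Metric Bundle Module

universe v

namespace Crest.Agent.R235.RcX5_435

open Crest.Agent.R249.Tv57 Crest.Agent.R247.Ms322 Crest.Agent.R247.Dir593
open Crest.Agent.R247.Frd657
open Crest.Agent.R235.SWSym_451 Crest.Agent.R235.Fs4_546 Crest.Agent.R235.Fred_649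
open Crest.Agent.R235.FamR_151 Crest.Agent.R235.SWDefs_53 Crest.Agent.R235.L4_433
open Crest.Agent.R235.Cpt_755 Crest.Agent.R275 Crest.Agent.R235.SWPfA_435
open Crest.Agent.R235.SWPf_435 Crest.Agent.R235.Dens_433

noncomputable section

section abs

variable {V V1 H0 H1 S0 S1 : Type*} [NormedAddCommGroup V] [InnerProductSpace ℝ V]
  [NormedAddCommGroup V1] [InnerProductSpace ℝ V1] [NormedAddCommGroup H0] [InnerProductSpace ℝ H0]
  [NormedAddCommGroup H1] [InnerProductSpace ℝ H1] {c0 : S0 → V} {c1 : S1 → V1}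
  {T : V →L[ℝ] H1} {T' : V1 →L[ℝ] H0} {bu : V →L[ℝ] V1} {bv : V1 →L[ℝ] V}
  {jj : V →L[ℝ] H0} {jj1 : V1 →L[ℝ] H1} {K : ℝ}

theorem ext0 (h0 : DenseRange c0) (h1 : DenseRange c1)
    (h : ∀ s t, |⟪T' (bu (c0 s)), T' (c1 t)⟫ - ⟪T (c0 s), T (bv (c1 t))⟫| ≤
      K * (‖c0 s‖ * ‖jj1 (c1 t)‖)) (v : V) (w : V1) :
    |⟪T' (bu v), T' w⟫ - ⟪T v, T (bv w)⟫| ≤ K * (‖v‖ * ‖jj1 w‖) := by
  refine h1.induction_on (p := fun w => |⟪T' (bu v), T' w⟫ - ⟪T v, T (bv w)⟫| ≤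
    K * (‖v‖ * ‖jj1 w‖)) w (isClosed_le (by fun_prop) (by fun_prop)) fun t => ?_
  exact h0.induction_on (p := fun v => |⟪T' (bu v), T' (c1 t)⟫ - ⟪T v, T (bv (c1 t))⟫| ≤
    K * (‖v‖ * ‖jj1 (c1 t)‖)) v (isClosed_le (by fun_prop) (by fun_prop)) fun s => h s t

theorem ext1 (h0 : DenseRange c0) (h1 : DenseRange c1)
    (h : ∀ s t, |⟪T' (bu (c0 s)), T' (c1 t)⟫ - ⟪T (c0 s), T (bv (c1 t))⟫| ≤
      K * (‖jj (c0 s)‖ * ‖c1 t‖)) (v : V) (w : V1) :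
    |⟪T' (bu v), T' w⟫ - ⟪T v, T (bv w)⟫| ≤ K * (‖jj v‖ * ‖w‖) := by
  refine h1.induction_on (p := fun w => |⟪T' (bu v), T' w⟫ - ⟪T v, T (bv w)⟫| ≤
    K * (‖jj v‖ * ‖w‖)) w (isClosed_le (by fun_prop) (by fun_prop)) fun t => ?_
  exact h0.induction_on (p := fun v => |⟪T' (bu v), T' (c1 t)⟫ - ⟪T v, T (bv (c1 t))⟫| ≤
    K * (‖jj v‖ * ‖c1 t‖)) v (isClosed_le (by fun_prop) (by fun_prop)) fun s => h s t

end abs

section gen

variable {M : Type v} [MetricSpace M] [CompactSpace M] [ConnectedSpace M]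
  [ChartedSpace (EuclideanSpace ℝ (Fin 4)) M] [IsManifold (𝓡 4) ∞ M]
  [RiemannianBundle (fun p : M => TangentSpace (𝓡 4) p)]
  [IsContMDiffRiemannianBundle (𝓡 4) ∞ (EuclideanSpace ℝ (Fin 4))
    (fun p : M => TangentSpace (𝓡 4) p)]
  [IsRiemannianManifold (𝓡 4) M] [MeasurableSpace M] [BorelSpace M]
  [SecondCountableTopology M] [Nonempty M] [IsFiniteMeasureOnCompacts (μHE[4] : Measure M)]
  {κ0 κ1 κT : Type} [Fintype κ0] [Fintype κ1] [Fintype κT]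

local notation "μM" => (μHE[4] : Measure M)
local notation "𝔼" => EuclideanSpace ℝ (Fin 4)

theorem int_sm {f : M → ℝ} (hf : ContMDiff (𝓡 4) 𝓘(ℝ, ℝ) ∞ f) : Integrable f μM :=
  hf.continuous.integrable_of_hasCompactSupport (HasCompactSupport.of_compactSpace f)

theorem smm {f g : M → ℝ} (hf : ContMDiff (𝓡 4) 𝓘(ℝ, ℝ) ∞ f) (hg : ContMDiff (𝓡 4) 𝓘(ℝ, ℝ) ∞ g) :
    ContMDiff (𝓡 4) 𝓘(ℝ, ℝ) ∞ fun z => f z * g z := hf.mul hg

/-! ### the divergence -/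

section div

variable {S : SWS M κ0 κ1 κT} {cc : κ1 → κ0 → M → EuclideanSpace ℝ (Fin 4)}

/-- **the divergence of a smooth frame field**. -/
theorem dvg (H : Sym S cc) {V : M → 𝔼} (hV : SmF V) : ∃ d : M → ℝ,
    ContMDiff (𝓡 4) 𝓘(ℝ, ℝ) ∞ d ∧ ∀ f : M → ℝ, ContMDiff (𝓡 4) 𝓘(ℝ, ℝ) ∞ f →
      ∫ z, ⟪V z, Gr (n := 4) f z⟫ ∂μM = ∫ z, d z * f z ∂μM := by
  set u : κ0 → κ0 → M → ℝ := fun y a z => S.D0.p a y z with hu
  set w : κ0 → κ1 → M → ℝ := fun y x z => ⟪V z, cc x y z⟫ with hw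
  have hus : ∀ y, SmV (n := 4) (u y) := fun y a => S.D0.smp a y
  have hu2 : ∀ y, S.D0.Sec (u y) := fun y a z => S.D0.idem a y z
  have hws : ∀ y, SmV (n := 4) (w y) := fun y x => hV.inner (H.smcc x y)
  have hw2 : ∀ y, S.D1.Sec (w y) := fun y x z => by
    have h1 : ⟪V z, ∑ x', S.D1.p x x' z • cc x' y z⟫ = ⟪V z, cc x y z⟫ := by rw [H.p_cc]
    rw [inner_sum] at h1
    simp only [real_inner_smul_right] at h1
    exact h1
  have hA : ∀ y, SmV (n := 4) (S.P.A (u y)) := fun y => S.P.smA _ (hus y) (hu2 y)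
  have hB : ∀ y, SmV (n := 4) (S.P.B (w y)) := fun y => S.P.smB _ (hws y) (hw2 y)
  set e : κ0 → M → ℝ := fun y z =>
    ∑ a, u y a z * S.P.B (w y) a z - ∑ x, S.P.A (u y) x z * w y x z with he
  have hes : ∀ y, ContMDiff (𝓡 4) 𝓘(ℝ, ℝ) ∞ (e y) := fun y =>
    (contMDiff_finsetSum fun a _ => (hus y a).mul (hB y a)).sub
      (contMDiff_finsetSum fun x _ => (hA y x).mul (hws y x))
  refine ⟨fun z => 1 / 4 * ∑ y, e y z, contMDiff_const.mul (contMDiff_finsetSum fun y _ => hes y),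
    fun f hf => ?_⟩
  have hVf : ContMDiff (𝓡 4) 𝓘(ℝ, ℝ) ∞ fun z => ⟪V z, Gr (n := 4) f z⟫ := hV.inner (smF_Gr hf)
  -- one column
  have h1 : ∀ y, ∫ z, ⟪V z, Gr (n := 4) f z⟫ * S.D0.p y y z ∂μM = ∫ z, f z * e y z ∂μM := by
    intro y
    have hfu : SmV (n := 4) fun a z => f z * u y a z := fun a => hf.mul (hus y a)
    have hfs : S.D0.Sec fun a z => f z * u y a z := fun a z => by
      have h3 : ∀ b, S.D0.p a b z * (f z * u y b z) = f z * (S.D0.p a b z * u y b z) :=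
        fun b => by ring
      simp only [h3, ← Finset.mul_sum]
      rw [hu2 y a z]
    have h2 := S.P.adj _ _ hfu hfs (hws y) (hw2 y)
    have h3 : ∀ x z, S.P.A (fun a z => f z * u y a z) x z =
        f z * S.P.A (u y) x z + ⟪Gr (n := 4) f z, cc x y z⟫ := by
      intro x z
      rw [A_mul H hf (hus y) (hu2 y)]
      congr 1
      have h4 : ⟪Gr (n := 4) f z, ∑ y', S.D0.p y' y z • cc x y' z⟫ =
          ⟪Gr (n := 4) f z, cc x y z⟫ := by rw [H.cc_p]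
      rw [inner_sum] at h4
      simp only [real_inner_smul_right] at h4
      exact h4
    have h5 : ∀ z, ∑ x, ⟪Gr (n := 4) f z, cc x y z⟫ * w y x z =
        ⟪V z, Gr (n := 4) f z⟫ * S.D0.p y y z := by
      intro z
      have h6 := H.clif0 z (Gr (n := 4) f z) (V z) y y
      rw [Finset.sum_add_distrib] at h6
      have h7 : ∑ x, ⟪cc x y z, V z⟫ * ⟪cc x y z, Gr (n := 4) f z⟫ =
          ∑ x, ⟪cc x y z, Gr (n := 4) f z⟫ * ⟪cc x y z, V z⟫ :=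
        Finset.sum_congr rfl fun x _ => mul_comm _ _
      rw [h7] at h6
      have h8 : ∑ x, ⟪Gr (n := 4) f z, cc x y z⟫ * w y x z =
          ∑ x, ⟪cc x y z, Gr (n := 4) f z⟫ * ⟪cc x y z, V z⟫ :=
        Finset.sum_congr rfl fun x _ => by
          rw [hw]
          simp only
          rw [real_inner_comm, real_inner_comm (cc x y z) (V z)]
      rw [h8, real_inner_comm (Gr (n := 4) f z) (V z)]
      linarith
    have h20 : (∫ z, ∑ x, S.P.A (fun a z => f z * u y a z) x z * w y x z ∂μM) =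
      ∫ z, ∑ a, f z * u y a z * S.P.B (w y) a z ∂μM := h2
    simp only [h3, add_mul, Finset.sum_add_distrib, h5] at h20
    have i1 : Integrable (fun z => ∑ x, f z * S.P.A (u y) x z * w y x z) μM :=
      int_sm (contMDiff_finsetSum fun x _ => (hf.mul (hA y x)).mul (hws y x))
    have i2 : Integrable (fun z => ⟪V z, Gr (n := 4) f z⟫ * S.D0.p y y z) μM :=
      int_sm (hVf.mul (S.D0.smp y y))
    have i3 : Integrable (fun z => ∑ a, f z * u y a z * S.P.B (w y) a z) μM :=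
      int_sm (contMDiff_finsetSum fun a _ => (hf.mul (hus y a)).mul (hB y a))
    rw [integral_add i1 i2] at h20
    have h9 : ∫ z, f z * e y z ∂μM = (∫ z, ∑ a, f z * u y a z * S.P.B (w y) a z ∂μM) -
        ∫ z, ∑ x, f z * S.P.A (u y) x z * w y x z ∂μM := by
      rw [← integral_sub i3 i1]
      refine integral_congr_ae (Eventually.of_forall fun z => ?_)
      simp only [he, mul_sub, Finset.mul_sum, mul_assoc]
    rw [h9]
    linarith
  have h2 : ∫ z, (1 / 4 * ∑ y, e y z) * f z ∂μM = 1 / 4 * ∑ y, ∫ z, f z * e y z ∂μM := by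
    rw [← integral_finsetSum _ fun y _ => int_sm (smm hf (hes y)), ← integral_const_mul]
    refine integral_congr_ae (Eventually.of_forall fun z => ?_)
    simp only [Finset.mul_sum, Finset.sum_mul]
    exact Finset.sum_congr rfl fun y _ => by ring
  have h3 : ∑ y, ∫ z, ⟪V z, Gr (n := 4) f z⟫ * S.D0.p y y z ∂μM =
      4 * ∫ z, ⟪V z, Gr (n := 4) f z⟫ ∂μM := by
    rw [← integral_finsetSum _ fun y _ => int_sm (smm hVf (S.D0.smp y y)), ← integral_const_mul]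
    refine integral_congr_ae (Eventually.of_forall fun z => ?_)
    simp only
    rw [← Finset.mul_sum, H.rk0 z]
    ring
  rw [h2, ← Finset.sum_congr rfl fun y _ => h1 y, h3]
  ring

/-- integration by parts. -/
theorem ibp (H : Sym S cc) {V : M → 𝔼} (hV : SmF V) : ∃ d : M → ℝ,
    ContMDiff (𝓡 4) 𝓘(ℝ, ℝ) ∞ d ∧ ∀ f g : M → ℝ, ContMDiff (𝓡 4) 𝓘(ℝ, ℝ) ∞ f →
      ContMDiff (𝓡 4) 𝓘(ℝ, ℝ) ∞ g → (∫ z, f z * ⟪V z, Gr (n := 4) g z⟫ ∂μM) +
        ∫ z, g z * ⟪V z, Gr (n := 4) f z⟫ ∂μM = ∫ z, d z * (f z * g z) ∂μM := by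
  obtain ⟨d, hd, h⟩ := dvg H hV
  refine ⟨d, hd, fun f g hf hg => ?_⟩
  rw [← h _ (smm hf hg), ← integral_add (int_sm (smm hf (hV.inner (smF_Gr hg))))
    (int_sm (smm hg (hV.inner (smF_Gr hf))))]
  refine integral_congr_ae (Eventually.of_forall fun z => ?_)
  simp only
  have h1 : Gr (n := 4) (fun z => f z * g z) z =
      f z • Gr (n := 4) g z + g z • Gr (n := 4) f z := Gr_mul (md hf z) (md hg z)
  show _ = ⟪V z, Gr (n := 4) (fun z => f z * g z) z⟫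
  rw [h1, inner_add_right, real_inner_smul_right, real_inner_smul_right]

end div

/-! ### the Leibniz rule for a matrix -/

section leib

variable {α β : Type} [Fintype α] [Fintype β] (D0 : Dat 4 M α) (D1 : Dat 4 M β)
  (m : β → α → M → ℝ)

/-- `∇ m`. -/
def Th (x : β) (y : α) (z : M) : 𝔼 :=
  Gr (n := 4) (m x y) z + ∑ x', m x' y z • D1.X x x' z - ∑ y', m x y' z • D0.X y' y z

/-- `m u`. -/
def mu (u : α → M → ℝ) : β → M → ℝ := fun x z => ∑ y, m x y z * u y z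

/-- the transposed matrix. -/
def tr (m : β → α → M → ℝ) : α → β → M → ℝ := fun y x z => m x y z

variable {m} (hm : ∀ x y, ContMDiff (𝓡 4) 𝓘(ℝ, ℝ) ∞ (m x y))

theorem Th_tr (x : β) (y : α) (z : M) : Th D1 D0 (tr m) y x z = Th D0 D1 m x y z := by
  unfold Th tr
  have h1 : ∑ y', m x y' z • D0.X y y' z = - ∑ y', m x y' z • D0.X y' y z := by
    rw [← Finset.sum_neg_distrib]
    refine Finset.sum_congr rfl fun y' _ => ?_
    rw [D0.skew y y' z, smul_neg]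
  have h2 : ∑ x', m x' y z • D1.X x' x z = - ∑ x', m x' y z • D1.X x x' z := by
    rw [← Finset.sum_neg_distrib]
    refine Finset.sum_congr rfl fun x' _ => ?_
    rw [D1.skew x' x z, smul_neg]
  rw [h1, h2]
  abel

include hm in
theorem smTh (x : β) (y : α) : SmF (Th D0 D1 m x y) :=
  ((smF_Gr (hm x y)).add (SmF.sum _ fun x' _ => SmF.smul (hm x' y) (D1.smX x x'))).sub
    (SmF.sum _ fun y' _ => SmF.smul (hm x y') (D0.smX y' y))

include hm in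
theorem sm_mu {u : α → M → ℝ} (hu : SmV (n := 4) u) : SmV (n := 4) (mu m u) := fun x =>
  contMDiff_finsetSum fun y _ => (hm x y).mul (hu y)

include hm in
theorem cv_mu {u : α → M → ℝ} (hu : SmV (n := 4) u) (x : β) (z : M) :
    D1.cv (mu m u) x z = ∑ y, (m x y z • D0.cv u y z + u y z • Th D0 D1 m x y z) := by
  have h1 : Gr (n := 4) (mu m u x) z =
      ∑ y, (m x y z • Gr (n := 4) (u y) z + u y z • Gr (n := 4) (m x y) z) := by
    have h2 : mu m u x = fun z => ∑ y, m x y z * u y z := rfl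
    rw [h2, SWTd_451.Gr_sum' (f := fun y z => m x y z * u y z) Finset.univ
      (fun y _ => (hm x y).mul (hu y))]
    exact Finset.sum_congr rfl fun y _ => Gr_mul (md (hm x y) z) (md (hu y) z)
  have h3 : ∑ x', mu m u x' z • D1.X x x' z = ∑ y, ∑ x', (u y z * m x' y z) • D1.X x x' z := by
    unfold mu
    simp only [Finset.sum_smul]
    rw [Finset.sum_comm]
    exact Finset.sum_congr rfl fun y _ => Finset.sum_congr rfl fun x' _ => by rw [mul_comm]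
  have h4 : ∑ y, ∑ y', (m x y z * u y' z) • D0.X y y' z =
      ∑ y, ∑ y', (u y z * m x y' z) • D0.X y' y z := by
    rw [Finset.sum_comm]
    exact Finset.sum_congr rfl fun y _ => Finset.sum_congr rfl fun y' _ => by rw [mul_comm]
  unfold Dat.cv Th
  rw [h1, h3]
  simp only [smul_add, smul_sub, Finset.sum_add_distrib, Finset.sum_sub_distrib, Finset.smul_sum,
    smul_smul]
  rw [h4]
  abel

/-- the coefficient of order 0. -/
def s0 (m : β → α → M → ℝ) (x : β) (y : α) (z : M) : ℝ :=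
  (∑ x', ⟪Th D0 D1 m x' y z, D1.X x' x z⟫ - ∑ y', ⟪Th D0 D1 m x y' z, D0.X y' y z⟫) +
    (∑ x', D1.Q x x' z * m x' y z - ∑ y', D0.Q y' y z * m x y' z)

include hm in
theorem sm_s0 (x : β) (y : α) : ContMDiff (𝓡 4) 𝓘(ℝ, ℝ) ∞ (s0 D0 D1 m x y) :=
  ((contMDiff_finsetSum fun x' _ => (smTh D0 D1 hm x' y).inner (D1.smX x' x)).sub
    (contMDiff_finsetSum fun y' _ => (smTh D0 D1 hm x y').inner (D0.smX y' y))).add
  ((contMDiff_finsetSum fun x' _ => (D1.smQ x x').mul (hm x' y)).sub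
    (contMDiff_finsetSum fun y' _ => (D0.smQ y' y).mul (hm x y')))

include hm in
theorem ed_sub {u : α → M → ℝ} (hu : SmV (n := 4) u) {w : β → M → ℝ} (hw : SmV (n := 4) w)
    (z : M) : D1.ed (mu m u) w z - D0.ed u (mu (tr m) w) z =
      ∑ x, ∑ y, (u y z * ⟪Th D0 D1 m x y z, Gr (n := 4) (w x) z⟫ -
        w x z * ⟪Th D0 D1 m x y z, Gr (n := 4) (u y) z⟫ + s0 D0 D1 m x y z * (u y z * w x z)) := by
  have hm' : ∀ y x, ContMDiff (𝓡 4) 𝓘(ℝ, ℝ) ∞ (tr m y x) := fun y x => hm x y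
  have h1 : ∑ x, ⟪D1.cv (mu m u) x z, D1.cv w x z⟫ =
      ∑ x, ∑ y, (m x y z * ⟪D0.cv u y z, D1.cv w x z⟫ + u y z * ⟪Th D0 D1 m x y z, D1.cv w x z⟫) := by
    refine Finset.sum_congr rfl fun x _ => ?_
    rw [cv_mu D0 D1 hm hu, sum_inner]
    exact Finset.sum_congr rfl fun y _ => by
      rw [inner_add_left, real_inner_smul_left, real_inner_smul_left]
  have h2 : ∑ y, ⟪D0.cv u y z, D0.cv (mu (tr m) w) y z⟫ =
      ∑ x, ∑ y, (m x y z * ⟪D0.cv u y z, D1.cv w x z⟫ + w x z * ⟪Th D0 D1 m x y z, D0.cv u y z⟫) := by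
    rw [Finset.sum_comm]
    refine Finset.sum_congr rfl fun y _ => ?_
    rw [cv_mu D1 D0 hm' hw, inner_sum]
    refine Finset.sum_congr rfl fun x _ => ?_
    rw [inner_add_right, real_inner_smul_right, real_inner_smul_right, Th_tr,
      real_inner_comm (Th D0 D1 m x y z)]
    rfl
  have h3 : ∑ x, ∑ y, u y z * ⟪Th D0 D1 m x y z, D1.cv w x z⟫ =
      ∑ x, ∑ y, (u y z * ⟪Th D0 D1 m x y z, Gr (n := 4) (w x) z⟫ +
        (∑ x', ⟪Th D0 D1 m x' y z, D1.X x' x z⟫) * (u y z * w x z)) := by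
    have h4 : ∑ x, ∑ y, ∑ x', u y z * (w x' z * ⟪Th D0 D1 m x y z, D1.X x x' z⟫) =
        ∑ x, ∑ y, ∑ x', ⟪Th D0 D1 m x' y z, D1.X x' x z⟫ * (u y z * w x z) := by
      calc ∑ x, ∑ y, ∑ x', u y z * (w x' z * ⟪Th D0 D1 m x y z, D1.X x x' z⟫)
          = ∑ x, ∑ x', ∑ y, u y z * (w x' z * ⟪Th D0 D1 m x y z, D1.X x x' z⟫) :=
            Finset.sum_congr rfl fun x _ => Finset.sum_comm
        _ = ∑ x', ∑ x, ∑ y, u y z * (w x' z * ⟪Th D0 D1 m x y z, D1.X x x' z⟫) := Finset.sum_comm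
        _ = ∑ x', ∑ y, ∑ x, u y z * (w x' z * ⟪Th D0 D1 m x y z, D1.X x x' z⟫) :=
            Finset.sum_congr rfl fun x _ => Finset.sum_comm
        _ = _ := Finset.sum_congr rfl fun x _ => Finset.sum_congr rfl fun y _ =>
            Finset.sum_congr rfl fun x' _ => by ring
    unfold Dat.cv
    simp only [inner_add_right, inner_sum, real_inner_smul_right, mul_add, Finset.mul_sum,
      Finset.sum_add_distrib, Finset.sum_mul]
    rw [h4]
  have h5 : ∑ x, ∑ y, w x z * ⟪Th D0 D1 m x y z, D0.cv u y z⟫ =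
      ∑ x, ∑ y, (w x z * ⟪Th D0 D1 m x y z, Gr (n := 4) (u y) z⟫ +
        (∑ y', ⟪Th D0 D1 m x y' z, D0.X y' y z⟫) * (u y z * w x z)) := by
    have h4 : ∑ x, ∑ y, ∑ y', w x z * (u y' z * ⟪Th D0 D1 m x y z, D0.X y y' z⟫) =
        ∑ x, ∑ y, ∑ y', ⟪Th D0 D1 m x y' z, D0.X y' y z⟫ * (u y z * w x z) := by
      refine Finset.sum_congr rfl fun x _ => ?_
      rw [Finset.sum_comm]
      exact Finset.sum_congr rfl fun y _ => Finset.sum_congr rfl fun y' _ => by ring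
    unfold Dat.cv
    simp only [inner_add_right, inner_sum, real_inner_smul_right, mul_add, Finset.mul_sum,
      Finset.sum_add_distrib, Finset.sum_mul]
    rw [h4]
  have h6 : ∑ x, ∑ x', D1.Q x x' z * mu m u x' z * w x z =
      ∑ x, ∑ y, (∑ x', D1.Q x x' z * m x' y z) * (u y z * w x z) := by
    refine Finset.sum_congr rfl fun x _ => ?_
    unfold mu
    simp only [Finset.mul_sum, Finset.sum_mul]
    rw [Finset.sum_comm]
    exact Finset.sum_congr rfl fun y _ => Finset.sum_congr rfl fun x' _ => by ring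
  have h7 : ∑ y, ∑ y', D0.Q y y' z * u y' z * mu (tr m) w y z =
      ∑ x, ∑ y, (∑ y', D0.Q y' y z * m x y' z) * (u y z * w x z) := by
    unfold mu tr
    simp only [Finset.mul_sum, Finset.sum_mul]
    calc ∑ y, ∑ y', ∑ x, D0.Q y y' z * u y' z * (m x y z * w x z)
        = ∑ y', ∑ y, ∑ x, D0.Q y y' z * u y' z * (m x y z * w x z) := Finset.sum_comm
      _ = ∑ y', ∑ x, ∑ y, D0.Q y y' z * u y' z * (m x y z * w x z) :=
          Finset.sum_congr rfl fun y' _ => Finset.sum_comm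
      _ = ∑ x, ∑ y', ∑ y, D0.Q y y' z * u y' z * (m x y z * w x z) := Finset.sum_comm
      _ = _ := Finset.sum_congr rfl fun x _ => Finset.sum_congr rfl fun y _ =>
          Finset.sum_congr rfl fun y' _ => by ring
  unfold Dat.ed
  rw [h1, h2, h6, h7]
  unfold s0
  simp only [Finset.sum_add_distrib, Finset.sum_sub_distrib, add_mul, sub_mul] at h3 h5 ⊢
  rw [h3, h5]
  ring

end leib

/-! ### estimates -/

section est

variable {S : SWS M κ0 κ1 κT} {cc : κ1 → κ0 → M → EuclideanSpace ℝ (Fin 4)}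
  {m : κ1 → κ0 → M → ℝ} (hm : ∀ x y, ContMDiff (𝓡 4) 𝓘(ℝ, ℝ) ∞ (m x y))

include hm in
theorem int_ed {u : κ0 → M → ℝ} (hu : SmV (n := 4) u) {w : κ1 → M → ℝ} (hw : SmV (n := 4) w) :
    (∫ z, S.D1.ed (mu m u) w z ∂μM) - ∫ z, S.D0.ed u (mu (tr m) w) z ∂μM =
      ∑ x, ∑ y, ((∫ z, u y z * ⟪Th S.D0 S.D1 m x y z, Gr (n := 4) (w x) z⟫ ∂μM) -
        (∫ z, w x z * ⟪Th S.D0 S.D1 m x y z, Gr (n := 4) (u y) z⟫ ∂μM) +
          ∫ z, s0 S.D0 S.D1 m x y z * (u y z * w x z) ∂μM) := by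
  have hm' : ∀ y x, ContMDiff (𝓡 4) 𝓘(ℝ, ℝ) ∞ (tr m y x) := fun y x => hm x y
  have i1 : ∀ x y, Integrable (fun z => u y z * ⟪Th S.D0 S.D1 m x y z, Gr (n := 4) (w x) z⟫) μM :=
    fun x y => int_sm (smm (hu y) ((smTh S.D0 S.D1 hm x y).inner (smF_Gr (hw x))))
  have i2 : ∀ x y, Integrable (fun z => w x z * ⟪Th S.D0 S.D1 m x y z, Gr (n := 4) (u y) z⟫) μM :=
    fun x y => int_sm (smm (hw x) ((smTh S.D0 S.D1 hm x y).inner (smF_Gr (hu y))))
  have i3 : ∀ x y, Integrable (fun z => s0 S.D0 S.D1 m x y z * (u y z * w x z)) μM :=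
    fun x y => int_sm (smm (sm_s0 S.D0 S.D1 hm x y) (smm (hu y) (hw x)))
  rw [← integral_sub (int_sm (smooth_ed S.D1 (sm_mu hm hu) hw))
    (int_sm (smooth_ed S.D0 hu (sm_mu hm' hw)))]
  simp only [ed_sub S.D0 S.D1 hm hu hw]
  have i4 : ∀ x y, Integrable (fun z => u y z * ⟪Th S.D0 S.D1 m x y z, Gr (n := 4) (w x) z⟫ -
      w x z * ⟪Th S.D0 S.D1 m x y z, Gr (n := 4) (u y) z⟫ +
        s0 S.D0 S.D1 m x y z * (u y z * w x z)) μM := fun x y =>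
    ((i1 x y).sub (i2 x y)).add (i3 x y)
  rw [integral_finsetSum _ fun x _ => integrable_finsetSum _ fun y _ => i4 x y]
  refine Finset.sum_congr rfl fun x _ => ?_
  rw [integral_finsetSum _ fun y _ => i4 x y]
  refine Finset.sum_congr rfl fun y _ => ?_
  have i5 : Integrable (fun z => u y z * ⟪Th S.D0 S.D1 m x y z, Gr (n := 4) (w x) z⟫ -
      w x z * ⟪Th S.D0 S.D1 m x y z, Gr (n := 4) (u y) z⟫) μM := (i1 x y).sub (i2 x y)
  rw [integral_add i5 (i3 x y), integral_sub (i1 x y) (i2 x y)]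

theorem norm_clH_le {κ : Type} [Fintype κ] {D : Dat 4 M κ} (u : SmS D) (a : κ) :
    ‖clH u.1 u.2.1 a‖ ≤ ‖cH D u‖ := PiLp.norm_apply_le (clH u.1 u.2.1) a

theorem norm_D_le {κ : Type} [Fintype κ] {D : Dat 4 M κ} (u : SmS D) (a : κ) :
    ‖(gradS 4 M).D (clH u.1 u.2.1 a)‖ ≤ ‖cW D u‖ :=
  (PiLp.norm_apply_le ((cW D u : D.toAD.Amb).snd) a).trans (WithLp.norm_snd_le _ _)

theorem norm_cH_le {κ : Type} [Fintype κ] {D : Dat 4 M κ} (u : SmS D) :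
    ‖cH D u‖ ≤ ‖cW D u‖ := WithLp.norm_fst_le _ (cW D u : D.toAD.Amb)

theorem bnd1 {V : M → 𝔼} (hV : SmF V) : ∃ C : ℝ, 0 ≤ C ∧ ∀ {κ κ' : Type} [Fintype κ] [Fintype κ']
    (D : Dat 4 M κ) (D' : Dat 4 M κ') (u : SmS D) (w : SmS D') (a : κ) (b : κ'),
    |∫ z, w.1 b z * ⟪V z, Gr (n := 4) (u.1 a) z⟫ ∂μM| ≤ C * (‖cW D u‖ * ‖cH D' w‖) := by
  refine ⟨‖(mulF hV.bm : Lp ℝ 2 μM →L[ℝ] Lp 𝔼 2 μM)‖, norm_nonneg _, ?_⟩
  intro κ κ' _ _ D D' u w a b
  have h1 : ∫ z, w.1 b z * ⟪V z, Gr (n := 4) (u.1 a) z⟫ ∂μM =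
      ⟪(mulF hV.bm (clH w.1 w.2.1 b) : Lp 𝔼 2 μM), (gradS 4 M).D (clH u.1 u.2.1 a)⟫ := by
    rw [L2.inner_def]
    refine integral_congr_ae ?_
    filter_upwards [coe_mulF hV.bm (clH w.1 w.2.1 b), coe_clH w.1 w.2.1, D_clH u.1 u.2.1]
      with z e1 e2 e3
    rw [e1, e2 b, e3 a, real_inner_smul_left]
  rw [h1]
  refine (abs_real_inner_le_norm _ _).trans ?_
  calc ‖(mulF hV.bm (clH w.1 w.2.1 b) : Lp 𝔼 2 μM)‖ * ‖(gradS 4 M).D (clH u.1 u.2.1 a)‖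
      ≤ (‖(mulF hV.bm : Lp ℝ 2 μM →L[ℝ] Lp 𝔼 2 μM)‖ * ‖cH D' w‖) * ‖cW D u‖ :=
        mul_le_mul (((mulF hV.bm : Lp ℝ 2 μM →L[ℝ] Lp 𝔼 2 μM).le_opNorm _).trans
          (mul_le_mul_of_nonneg_left (norm_clH_le w b) (norm_nonneg _))) (norm_D_le u a)
          (norm_nonneg _) (by positivity)
    _ = _ := by ring

theorem bnd0 {s : M → ℝ} (hs : ContMDiff (𝓡 4) 𝓘(ℝ, ℝ) ∞ s) : ∃ C : ℝ, 0 ≤ C ∧
    ∀ {κ κ' : Type} [Fintype κ] [Fintype κ']
    (D : Dat 4 M κ) (D' : Dat 4 M κ') (u : SmS D) (w : SmS D') (a : κ) (b : κ'),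
    |∫ z, s z * (u.1 a z * w.1 b z) ∂μM| ≤ C * (‖cH D u‖ * ‖cH D' w‖) := by
  have hb : BM μM s := bm_smooth hs
  refine ⟨‖(mulF hb : Lp ℝ 2 μM →L[ℝ] Lp ℝ 2 μM)‖, norm_nonneg _, ?_⟩
  intro κ κ' _ _ D D' u w a b
  have h1 : ∫ z, s z * (u.1 a z * w.1 b z) ∂μM =
      ⟪(mulF hb (clH u.1 u.2.1 a) : Lp ℝ 2 μM), clH w.1 w.2.1 b⟫ := by
    rw [L2.inner_def]
    refine integral_congr_ae ?_
    filter_upwards [coe_mulF hb (clH u.1 u.2.1 a), coe_clH w.1 w.2.1, coe_clH u.1 u.2.1]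
      with z e1 e2 e3
    rw [e1, e2 b, e3 a, real_inner_smul_left, Real.inner_apply]
    ring
  rw [h1]
  refine (abs_real_inner_le_norm _ _).trans ?_
  calc ‖(mulF hb (clH u.1 u.2.1 a) : Lp ℝ 2 μM)‖ * ‖clH w.1 w.2.1 b‖
      ≤ (‖(mulF hb : Lp ℝ 2 μM →L[ℝ] Lp ℝ 2 μM)‖ * ‖cH D u‖) * ‖cH D' w‖ :=
        mul_le_mul (((mulF hb : Lp ℝ 2 μM →L[ℝ] Lp ℝ 2 μM).le_opNorm _).trans
          (mul_le_mul_of_nonneg_left (norm_clH_le u a) (norm_nonneg _))) (norm_clH_le w b)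
          (norm_nonneg _) (by positivity)
    _ = _ := by ring

include hm in
/-- **the two estimates on smooth sections**. -/
theorem est (H : Sym S cc) : ∃ K : ℝ, 0 ≤ K ∧ ∀ (u : SmS S.D0) (w : SmS S.D1),
    |(∫ z, S.D1.ed (mu m u.1) w.1 z ∂μM) - ∫ z, S.D0.ed u.1 (mu (tr m) w.1) z ∂μM| ≤
      K * (‖cW S.D0 u‖ * ‖cH S.D1 w‖) ∧
    |(∫ z, S.D1.ed (mu m u.1) w.1 z ∂μM) - ∫ z, S.D0.ed u.1 (mu (tr m) w.1) z ∂μM| ≤
      K * (‖cH S.D0 u‖ * ‖cW S.D1 w‖) := by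
  have hTh := smTh S.D0 S.D1 hm
  choose d hd hibp using fun x y => ibp H (hTh x y)
  choose C1 hC1 hb1 using fun x y => bnd1 (hTh x y)
  choose C2 hC2 hb2 using fun x y => bnd0 ((hd x y).add (sm_s0 S.D0 S.D1 hm x y))
  choose C3 hC3 hb3 using fun x y => bnd0 ((sm_s0 S.D0 S.D1 hm x y).sub (hd x y))
  refine ⟨∑ x, ∑ y, (2 * C1 x y + C2 x y + C3 x y), Finset.sum_nonneg fun x _ =>
    Finset.sum_nonneg fun y _ => by
      have := hC1 x y
      have := hC2 x y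
      have := hC3 x y
      positivity, fun u w => ?_⟩
  rw [int_ed hm u.2.1 w.2.1]
  have i0 : ∀ x y, Integrable (fun z => s0 S.D0 S.D1 m x y z * (u.1 y z * w.1 x z)) μM :=
    fun x y => int_sm (smm (sm_s0 S.D0 S.D1 hm x y) (smm (u.2.1 y) (w.2.1 x)))
  have i1 : ∀ x y, Integrable (fun z => d x y z * (u.1 y z * w.1 x z)) μM :=
    fun x y => int_sm (smm (hd x y) (smm (u.2.1 y) (w.2.1 x)))
  constructor
  · refine (Finset.abs_sum_le_sum_abs _ _).trans ?_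
    rw [Finset.sum_mul]
    refine Finset.sum_le_sum fun x _ => ?_
    refine (Finset.abs_sum_le_sum_abs _ _).trans ?_
    rw [Finset.sum_mul]
    refine Finset.sum_le_sum fun y _ => ?_
    have e1 := hibp x y (u.1 y) (w.1 x) (u.2.1 y) (w.2.1 x)
    have e2 := hb1 x y S.D0 S.D1 u w y x
    have e3 := hb2 x y S.D0 S.D1 u w y x
    have e4 : ∫ z, (d x y + s0 S.D0 S.D1 m x y) z * (u.1 y z * w.1 x z) ∂μM =
        (∫ z, d x y z * (u.1 y z * w.1 x z) ∂μM) +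
          ∫ z, s0 S.D0 S.D1 m x y z * (u.1 y z * w.1 x z) ∂μM := by
      rw [← integral_add (i1 x y) (i0 x y)]
      refine integral_congr_ae (Eventually.of_forall fun z => ?_)
      simp only [Pi.add_apply]
      ring
    rw [e4] at e3
    rw [abs_le] at e2 e3 ⊢
    have h0 : ‖cH S.D0 u‖ * ‖cH S.D1 w‖ ≤ ‖cW S.D0 u‖ * ‖cH S.D1 w‖ :=
      mul_le_mul_of_nonneg_right (norm_cH_le u) (norm_nonneg _)
    have h2 := mul_le_mul_of_nonneg_left h0 (hC2 x y)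
    have h3 : 0 ≤ C3 x y * (‖cW S.D0 u‖ * ‖cH S.D1 w‖) := mul_nonneg (hC3 x y) (by positivity)
    constructor <;> nlinarith [e2.1, e2.2, e3.1, e3.2, e1]
  · refine (Finset.abs_sum_le_sum_abs _ _).trans ?_
    rw [Finset.sum_mul]
    refine Finset.sum_le_sum fun x _ => ?_
    refine (Finset.abs_sum_le_sum_abs _ _).trans ?_
    rw [Finset.sum_mul]
    refine Finset.sum_le_sum fun y _ => ?_
    have e1 := hibp x y (u.1 y) (w.1 x) (u.2.1 y) (w.2.1 x)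
    have e2 := hb1 x y S.D1 S.D0 w u x y
    have e3 := hb3 x y S.D0 S.D1 u w y x
    have e4 : ∫ z, (s0 S.D0 S.D1 m x y z - d x y z) * (u.1 y z * w.1 x z) ∂μM =
        (∫ z, s0 S.D0 S.D1 m x y z * (u.1 y z * w.1 x z) ∂μM) -
          ∫ z, d x y z * (u.1 y z * w.1 x z) ∂μM := by
      rw [← integral_sub (i0 x y) (i1 x y)]
      refine integral_congr_ae (Eventually.of_forall fun z => ?_)
      simp only
      ring
    rw [e4] at e3
    rw [abs_le] at e2 e3 ⊢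
    have h0 : ‖cH S.D0 u‖ * ‖cH S.D1 w‖ ≤ ‖cH S.D0 u‖ * ‖cW S.D1 w‖ :=
      mul_le_mul_of_nonneg_left (norm_cH_le w) (norm_nonneg _)
    have h2 := mul_le_mul_of_nonneg_left h0 (hC3 x y)
    have h3 : 0 ≤ C2 x y * (‖cH S.D0 u‖ * ‖cW S.D1 w‖) := mul_nonneg (hC2 x y) (by positivity)
    constructor <;> nlinarith [e2.1, e2.2, e3.1, e3.2, e1]

end est

/-! ### rectangular matrices on `W^{1,2}` -/

section rect

variable {α β : Type} [Fintype α] [Fintype β] (D0 : Dat 4 M α) (D1 : Dat 4 M β)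
  {m : β → α → M → ℝ} (hm : ∀ x y, ContMDiff (𝓡 4) 𝓘(ℝ, ℝ) ∞ (m x y))
  (hp : ∀ x y z, ∑ x', D1.p x x' z * m x' y z = m x y z)

include hp in
theorem P_matR (f : HH μM α) : D1.toAD.P (matR (fun x y => bm_smooth (hm x y)) f) =
    matR (fun x y => bm_smooth (hm x y)) f := by
  ext x
  filter_upwards [D1.toAD.coe_P (matR (fun x y => bm_smooth (hm x y)) f),
    coe_matR (fun x y => bm_smooth (hm x y)) f] with z e1 e2
  rw [e1 x, e2 x]
  simp only [e2, Finset.mul_sum]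
  rw [Finset.sum_comm]
  refine Finset.sum_congr rfl fun y _ => ?_
  rw [← hp x y z, Finset.mul_sum]
  exact Finset.sum_congr rfl fun x' _ => by
    show D1.p x x' z * _ = _
    ring

/-- `m` on `L²`. -/
def mulH : D0.toAD.HE →L[ℝ] D1.toAD.HE :=
  ((matR fun x y => bm_smooth (hm x y)).comp D0.toAD.HE.subtypeL).codRestrict D1.toAD.HE fun _ =>
    P_matR D1 hm hp _

theorem coe_mulH (f : D0.toAD.HE) :
    ∀ᵐ z ∂μM, ∀ x, rf (mulH D0 D1 hm hp f) x z = ∑ y, m x y z * rf f y z := by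
  filter_upwards [coe_matR (fun x y => bm_smooth (hm x y)) (f : HH μM α)] with z e1 x
  refine (e1 x).trans ?_
  exact Finset.sum_congr rfl fun y _ => mul_comm _ _

/-- `m` on `W^{1,2}`, linear. -/
def mulWl : D0.toAD.WE →ₗ[ℝ] D1.toAD.WE where
  toFun w := D1.toAD.mkW (matR (fun x y => bm_smooth (hm x y)) (D0.toAD.i1 w))
    (fun x => by
      rw [matR_apply]
      exact (gradS 4 M).V.sum_mem fun y _ =>
        (mulF_mem (bm_smooth (hm x y)) (isT_smooth (hm x y))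
          ((gradS 4 M).mem_V.2 ⟨_, w.2.1 y⟩)).1) (P_matR D1 hm hp _)
  map_add' u v := D1.toAD.jj_injective (Subtype.ext (by
    show matR _ (D0.toAD.i1 (u + v)) = matR _ (D0.toAD.i1 u) + matR _ (D0.toAD.i1 v)
    rw [map_add, map_add]))
  map_smul' c u := D1.toAD.jj_injective (Subtype.ext (by
    show matR _ (D0.toAD.i1 (c • u)) = c • matR _ (D0.toAD.i1 u)
    rw [map_smul, map_smul]))

theorem i1_mulWl (w : D0.toAD.WE) : D1.toAD.i1 (mulWl D0 D1 hm hp w) =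
    matR (fun x y => bm_smooth (hm x y)) (D0.toAD.i1 w) := rfl

/-- `m` on `W^{1,2}`. -/
def mulR : D0.toAD.WE →L[ℝ] D1.toAD.WE where
  toLinearMap := mulWl D0 D1 hm hp
  cont := by
    refine LinearMap.continuous_of_seq_closed_graph _ fun u x y hu hy => ?_
    refine i1_injective D1.toAD ?_
    rw [i1_mulWl]
    have h1 : Tendsto (fun n => D1.toAD.i1 (mulWl D0 D1 hm hp (u n))) atTop (𝓝 (D1.toAD.i1 y)) :=
      (D1.toAD.i1.continuous.tendsto _).comp hy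
    have h2 : Tendsto (fun n => D1.toAD.i1 (mulWl D0 D1 hm hp (u n))) atTop
        (𝓝 (matR (fun x y => bm_smooth (hm x y)) (D0.toAD.i1 x))) := by
      simp only [i1_mulWl]
      exact ((matR (fun x y => bm_smooth (hm x y))).continuous.tendsto _).comp
        ((D0.toAD.i1.continuous.tendsto _).comp hu)
    exact tendsto_nhds_unique h1 h2

theorem jj_mulR (w : D0.toAD.WE) :
    D1.toAD.jj (mulR D0 D1 hm hp w) = mulH D0 D1 hm hp (D0.toAD.jj w) := rfl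

/-- `m` on smooth sections. -/
def muS (u : SmS D0) : SmS D1 := ⟨mu m u.1, sm_mu hm u.2.1, fun x z => by
  unfold mu
  simp only [Finset.mul_sum]
  rw [Finset.sum_comm]
  refine Finset.sum_congr rfl fun y _ => ?_
  rw [← hp x y z, Finset.sum_mul]
  exact Finset.sum_congr rfl fun x' _ => by ring⟩

theorem mulR_cW (u : SmS D0) : mulR D0 D1 hm hp (cW D0 u) = cW D1 (muS D0 D1 hm hp u) := by
  apply D1.toAD.jj_injective
  rw [jj_mulR, jj_cW, jj_cW]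
  refine HE_ext ?_
  filter_upwards [coe_mulH D0 D1 hm hp (cH D0 u), rf_cH u, rf_cH (muS D0 D1 hm hp u)]
    with z e1 e2 e3 x
  rw [e1 x, e3 x]
  simp only [e2]
  rfl

end rect

/-! ### the real commutator data -/

section fin

variable {S : SWS M κ0 κ1 κT} {cc : κ1 → κ0 → M → EuclideanSpace ℝ (Fin 4)} {J1 : κ1 → κ1 → M → ℝ}

/-- adjointness. -/
theorem inner_mulH {α β : Type} [Fintype α] [Fintype β] (D0 : Dat 4 M α) (D1 : Dat 4 M β)
    {m : β → α → M → ℝ} (hm : ∀ x y, ContMDiff (𝓡 4) 𝓘(ℝ, ℝ) ∞ (m x y))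
    (hp : ∀ x y z, ∑ x', D1.p x x' z * m x' y z = m x y z)
    (hm' : ∀ y x, ContMDiff (𝓡 4) 𝓘(ℝ, ℝ) ∞ (tr m y x))
    (hp' : ∀ y x z, ∑ y', D0.p y y' z * tr m y' x z = tr m y x z)
    (f : D0.toAD.HE) (g : D1.toAD.HE) :
    ⟪mulH D0 D1 hm hp f, g⟫ = ⟪f, mulH D1 D0 hm' hp' g⟫ := by
  have h1 : ⟪mulH D0 D1 hm hp f, g⟫ = ∫ z, ∑ x, (∑ y, m x y z * rf f y z) * rf g x z ∂μM :=
    inner_HH (mulH D0 D1 hm hp f : HH μM β) (g : HH μM β) (coe_mulH D0 D1 hm hp f)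
      (Eventually.of_forall fun _ _ => rfl)
  have h2 : ⟪f, mulH D1 D0 hm' hp' g⟫ = ∫ z, ∑ y, rf f y z * ∑ x, tr m y x z * rf g x z ∂μM :=
    inner_HH (f : HH μM α) (mulH D1 D0 hm' hp' g : HH μM α) (Eventually.of_forall fun _ _ => rfl)
      (coe_mulH D1 D0 hm' hp' g)
  rw [h1, h2]
  refine integral_congr_ae (Eventually.of_forall fun z => ?_)
  simp only [Finset.mul_sum, Finset.sum_mul]
  rw [Finset.sum_comm]
  refine Finset.sum_congr rfl fun y _ => Finset.sum_congr rfl fun x _ => ?_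
  unfold tr
  ring

theorem p_mth (H : Sym S cc) (θ : κT → M → ℝ) (x : κ1) (y : κ0) (z : M) :
    ∑ x', S.D1.p x x' z * mth S θ x' y z = mth S θ x y z := by
  unfold mth
  simp only [Finset.mul_sum]
  rw [Finset.sum_comm]
  refine Finset.sum_congr rfl fun A _ => ?_
  rw [← clsec H A x y z, Finset.mul_sum]
  exact Finset.sum_congr rfl fun x' _ => by ring

theorem mth_p (H : Sym S cc) (θ : κT → M → ℝ) (y : κ0) (x : κ1) (z : M) :
    ∑ y', S.D0.p y y' z * tr (mth S θ) y' x z = tr (mth S θ) y x z := by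
  have h1 : ∀ A, ∑ y', S.D0.p y y' z * S.cl A x y' z = S.cl A x y z := by
    intro A
    simp only [H.cl_eq, Finset.mul_sum]
    rw [Finset.sum_comm]
    refine Finset.sum_congr rfl fun y'' _ => ?_
    have h2 : ∑ y', S.D0.p y y' z * S.J y'' y' z = S.J y'' y z := by
      rw [H.skewJ y'' y z, ← H.pJ y y'' z, ← Finset.sum_neg_distrib]
      refine Finset.sum_congr rfl fun y' _ => ?_
      rw [H.skewJ y'' y' z]
      ring
    rw [← h2, Finset.mul_sum]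
    exact Finset.sum_congr rfl fun y' _ => by ring
  unfold tr mth
  simp only [Finset.mul_sum]
  rw [Finset.sum_comm]
  refine Finset.sum_congr rfl fun A _ => ?_
  rw [← h1 A, Finset.mul_sum]
  exact Finset.sum_congr rfl fun y' _ => by ring

theorem sm_tr (H : Sym S cc) {θ : κT → M → ℝ} (hθ : SmV (n := 4) θ) (y : κ0) (x : κ1) :
    ContMDiff (𝓡 4) 𝓘(ℝ, ℝ) ∞ (tr (mth S θ) y x) := sm_mth H hθ x y

/-- `c(θ) i` on `W^{1,2}`. -/
def bu (H : Sym S cc) {θ : κT → M → ℝ} (hθ : SmV (n := 4) θ) :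
    S.D0.toAD.WE →L[ℝ] S.D1.toAD.WE := mulR S.D0 S.D1 (sm_mth H hθ) (p_mth H θ)

/-- the adjoint of `c(θ) i` on `W^{1,2}`. -/
def bv (H : Sym S cc) {θ : κT → M → ℝ} (hθ : SmV (n := 4) θ) :
    S.D1.toAD.WE →L[ℝ] S.D0.toAD.WE := mulR S.D1 S.D0 (sm_tr H hθ) (mth_p H θ)

/-- the adjoint of `c(θ) i` on `L²`. -/
def Bt (H : Sym S cc) {θ : κT → M → ℝ} (hθ : SmV (n := 4) θ) :
    S.D1.toAD.HE →L[ℝ] S.D0.toAD.HE := mulH S.D1 S.D0 (sm_tr H hθ) (mth_p H θ)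

theorem coe_Bt (H : Sym S cc) {θ : κT → M → ℝ} (hθ : SmV (n := 4) θ) (f : S.D1.toAD.HE) :
    ∀ᵐ z ∂μM, ∀ y, rf (Bt H hθ f) y z = ∑ x, mth S θ x y z * rf f x z :=
  coe_mulH S.D1 S.D0 (sm_tr H hθ) (mth_p H θ) f

theorem inner_CH (H : Sym S cc) {θ : κT → M → ℝ} (hθ : SmV (n := 4) θ) (f : S.D0.toAD.HE)
    (g : S.D1.toAD.HE) : ⟪CH H hθ f, g⟫ = ⟪f, Bt H hθ g⟫ :=
  inner_mulH S.D0 S.D1 (sm_mth H hθ) (p_mth H θ) (sm_tr H hθ) (mth_p H θ) f g

theorem jj_bu (H : Sym S cc) {θ : κT → M → ℝ} (hθ : SmV (n := 4) θ) (v : S.D0.toAD.WE) :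
    S.D1.toAD.jj (bu H hθ v) = CH H hθ (S.D0.toAD.jj v) := rfl

theorem jj_bv (H : Sym S cc) {θ : κT → M → ℝ} (hθ : SmV (n := 4) θ) (w : S.D1.toAD.WE) :
    S.D0.toAD.jj (bv H hθ w) = Bt H hθ (S.D1.toAD.jj w) := rfl

theorem skew_JH {κ : Type} [Fintype κ] {D : Dat 4 M κ} {J : κ → κ → M → ℝ} (H : CS D J)
    (f g : D.toAD.HE) : ⟪JH H f, g⟫ = - ⟪f, JH H g⟫ :=
  Crest.Agent.R235.Cx_172.inner_J_left (JH_JH H) (norm_JH H) f g

theorem Bt_JH (H : Sym S cc) (C : CJ1 S cc J1) {θ : κT → M → ℝ} (hθ : SmV (n := 4) θ)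
    (g : S.D1.toAD.HE) : Bt H hθ (JH (cs1 C) g) = JH (cs0 H) (Bt H hθ g) := by
  refine ext_inner_left ℝ fun f => ?_
  have h1 := skew_JH (cs1 C) (CH H hθ f) g
  have h2 := skew_JH (cs0 H) f (Bt H hθ g)
  rw [← inner_CH, CH_JH H C] at h2
  rw [← inner_CH]
  linarith

theorem bu_JW (H : Sym S cc) (C : CJ1 S cc J1) {θ : κT → M → ℝ} (hθ : SmV (n := 4) θ)
    (v : S.D0.toAD.WE) : bu H hθ (JW (cs0 H) v) = JW (cs1 C) (bu H hθ v) := by
  apply S.D1.toAD.jj_injective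
  rw [jj_bu, jj_JW, CH_JH H C, jj_JW, jj_bu]

theorem bv_JW (H : Sym S cc) (C : CJ1 S cc J1) {θ : κT → M → ℝ} (hθ : SmV (n := 4) θ)
    (w : S.D1.toAD.WE) : bv H hθ (JW (cs1 C) w) = JW (cs0 H) (bv H hθ w) := by
  apply S.D0.toAD.jj_injective
  rw [jj_bv, jj_JW, Bt_JH H C, jj_JW, jj_bv]

set_option maxHeartbeats 4000000 in
/-- **the commutator estimates**. -/
theorem com (H : Sym S cc) {θ : κT → M → ℝ} (hθ : SmV (n := 4) θ) : ∃ K : ℝ, 0 ≤ K ∧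
    (∀ v w, |⟪Ah S.P.swap (bu H hθ v), Ah S.P.swap w⟫ - ⟪Ah S.P v, Ah S.P (bv H hθ w)⟫| ≤
      K * (‖v‖ * ‖S.D1.toAD.jj w‖)) ∧
    (∀ v w, |⟪Ah S.P.swap (bu H hθ v), Ah S.P.swap w⟫ - ⟪Ah S.P v, Ah S.P (bv H hθ w)⟫| ≤
      K * (‖S.D0.toAD.jj v‖ * ‖w‖)) := by
  obtain ⟨K, hK, h⟩ := est (sm_mth H hθ) H
  have h1 : ∀ (u : SmS S.D0) (w : SmS S.D1),
      ⟪Ah S.P.swap (bu H hθ (cW S.D0 u)), Ah S.P.swap (cW S.D1 w)⟫ -
        ⟪Ah S.P (cW S.D0 u), Ah S.P (bv H hθ (cW S.D1 w))⟫ =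
      (∫ z, S.D1.ed (mu (mth S θ) u.1) w.1 z ∂μM) -
        ∫ z, S.D0.ed u.1 (mu (tr (mth S θ)) w.1) z ∂μM := by
    intro u w
    have e1 : bu H hθ (cW S.D0 u) = cW S.D1 (muS S.D0 S.D1 (sm_mth H hθ) (p_mth H θ) u) :=
      mulR_cW _ _ _ _ u
    have e2 : bv H hθ (cW S.D1 w) = cW S.D0 (muS S.D1 S.D0 (sm_tr H hθ) (mth_p H θ) w) :=
      mulR_cW _ _ _ _ w
    rw [e1, e2, Ah_cW (dns4 S.D1), Ah_cW (dns4 S.D1), Ah_cW (dns4 S.D0), Ah_cW (dns4 S.D0),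
      inner_cH, inner_cH]
    have e3 := S.P.enB _ _ (muS S.D0 S.D1 (sm_mth H hθ) (p_mth H θ) u).2.1
      (muS S.D0 S.D1 (sm_mth H hθ) (p_mth H θ) u).2.2 w.2.1 w.2.2
    have e4 := S.P.enA _ _ u.2.1 u.2.2 (muS S.D1 S.D0 (sm_tr H hθ) (mth_p H θ) w).2.1
      (muS S.D1 S.D0 (sm_tr H hθ) (mth_p H θ) w).2.2
    exact (congrArg₂ (· - ·) e3 e4).symm
  have h2 : ∀ (u : SmS S.D0) (w : SmS S.D1),
      |⟪Ah S.P.swap (bu H hθ (cW S.D0 u)), Ah S.P.swap (cW S.D1 w)⟫ -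
        ⟪Ah S.P (cW S.D0 u), Ah S.P (bv H hθ (cW S.D1 w))⟫| ≤
      K * (‖cW S.D0 u‖ * ‖S.D1.toAD.jj (cW S.D1 w)‖) := fun u w => by
    rw [h1 u w, jj_cW]
    exact (h u w).1
  have h3 : ∀ (u : SmS S.D0) (w : SmS S.D1),
      |⟪Ah S.P.swap (bu H hθ (cW S.D0 u)), Ah S.P.swap (cW S.D1 w)⟫ -
        ⟪Ah S.P (cW S.D0 u), Ah S.P (bv H hθ (cW S.D1 w))⟫| ≤
      K * (‖S.D0.toAD.jj (cW S.D0 u)‖ * ‖cW S.D1 w‖) := fun u w => by
    rw [h1 u w, jj_cW]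
    exact (h u w).2
  exact ⟨K, hK, ext0 (dns4 S.D0) (dns4 S.D1) h2, ext1 (dns4 S.D0) (dns4 S.D1) h3⟩

end fin

end gen

end

end Crest.Agent.R235.RcX5_435
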