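import Crest.Agent.R235.Top_844

/-!
Row 235 (S0364), helper844: REACH for an abstract set `Q` of triples (e.g. the even triples of a
manifold with involution).
-/

set_option autoImplicit false
set_option maxSynthPendingDepth 3

open Set Function Filter MeasureTheory
open scoped Manifold ContDiff Topology

universe u

namespace Crest.Agent.R235

open Crest.Agent.R240 Crest.Agent.R240.Ch Crest.Agent.R240.Int

noncomputable section

/-! ### abstract version -/

namespace Mv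

section Abs

variable {X H : Type*} [AddCommGroup X] [Module ℝ X] [NormedAddCommGroup H]
    [NormedSpace ℝ H] [FiniteDimensional ℝ H]

/-- REACH for a set `P` of triples, stable under recombinations, such that elementary moves
allowed by the class condition stay in `P`. -/
theorem reach_set (P : Set (Fin 3 → X)) (hP : Inv P) (cl : X →ₗ[ℝ] H)
    (B : H →ₗ[ℝ] H →ₗ[ℝ] ℝ) (hBs : ∀ a b, B a b = B b a) (R : Set H) (hR : R.Countable)
    (hpos : ∀ w ∈ P, PosF B (fun i => cl (w i)))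
    (hswb : ∀ w ∈ P, ∀ d ∈ R, ∃ i, B d (cl (w i)) ≠ 0)
    (hcone : ∀ w ∈ P, ∀ k, ∀ c : H, CC B R (fun i => cl (w i)) k c →
      ∃ x, Seg P w (update w k x) ∧ cl x = c)
    {w : Fin 3 → X} (hw : w ∈ P) {cs : Fin 3 → H} (hcs : PosF B cs)
    (hgen : ∀ d ∈ R, B d (cs 0) ≠ 0)
    (hdet : 0 < (Matrix.of fun i j => B (cl (w i)) (cs j)).det) :
    ∃ w' ∈ P, Relation.ReflTransGen (Seg P) w w' ∧ (fun i => cl (w' i)) = cs := by
  obtain ⟨g, hg, h⟩ := Mv.reach hBs hR (hpos w hw) hcs (hswb w hw) hgen hdet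
  have h1 := good_of_det_pos (P := P) hP g hg w hw
  have h2 : act g w ∈ P := hP g w hg.ne' hw
  have hact : (fun i => cl (act g w i)) = act g (fun i => cl (w i)) := by
    funext i; simp [act]
  rw [← hact] at h
  have key : ∃ w' ∈ P, Relation.ReflTransGen (Seg P) (act g w) w' ∧
      (fun i => cl (w' i)) = cs := by
    clear h1 hcs hgen hdet
    induction h with
    | refl => exact ⟨_, h2, Relation.ReflTransGen.refl, rfl⟩
    | tail _ h2 ih =>
      obtain ⟨w', hw', h1, h3⟩ := ih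
      obtain ⟨k, x, hcc, rfl⟩ := h2
      rw [← h3] at hcc ⊢
      obtain ⟨y, hy, rfl⟩ := hcone w' hw' k x hcc
      refine ⟨update w' k y, Seg.right hy, h1.tail hy, ?_⟩
      funext i
      by_cases h : i = k
      · subst h; simp
      · simp [update_of_ne h]
  obtain ⟨w', hw', h3, h4⟩ := key
  exact ⟨w', hw', h1.trans h3, h4⟩

end Abs

end Mv

/-! ### geometric version -/

section Geo

variable {M : Type u} [TopologicalSpace M] [T2Space M] [CompactSpace M] [ConnectedSpace M]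
  [ChartedSpace E4 M] [IsManifold 𝓘(ℝ, E4) ∞ M]

set_option maxHeartbeats 1600000 in
/-- REACH inside a set `Q` of positive triples of orientation `F`: `Q` is stable under
recombinations, and every class move allowed by the class condition can be made inside `Q`.
(For `Q = PO F` this is what CONE gives; for even triples average the form over the involution.) -/
theorem reach_Q' {F : Z2 M} (hF : Vol (F.1.1 : F2 E4 M)) (hty : K3Type F ∨ T4Type F)
    {n : ℕ} (E : H2 M ≃ₗ[ℝ] (Fin n → ℝ))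
    (hroot : ∀ w : Trip M, Pos3 w → K3Type (w 0) → ∀ d ∈ Root (w 0),
      ∃ i, ip (w 0) d (cls (w i)) ≠ 0)
    (Q : Set (Trip M)) (hQP : Q ⊆ PO F)
    (hQa : ∀ (g : Matrix (Fin 3) (Fin 3) ℝ) (w : Trip M), g.det ≠ 0 → w ∈ Q →
      (fun i => ∑ j, g i j • w j) ∈ Q)
    (hQc : ∀ w ∈ Q, ∀ (k : Fin 3) (x : H2 M), CCond (w 0) (clw w) k x →
      ∃ a : Z2 M, cls a = x ∧ ∀ t : ℝ, 0 ≤ t → t ≤ 1 → seg w (update w k a) t ∈ Q)
    {w : Trip M} (hw : w ∈ Q) {b : Fin 3 → H2 M} (hb : PosCls F b)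
    (hgen : ∀ e ∈ HZ M, e ≠ 0 → ip F e (b 0) ≠ 0)
    (hdet : 0 < (Matrix.of fun i j => ip F (b i) (cls (w j))).det) :
    ∃ w' ∈ Q, Relation.ReflTransGen
      (fun u v : Trip M => ∀ t : ℝ, 0 ≤ t → t ≤ 1 → seg u v t ∈ Q) w w' ∧
      ∀ i, cls (w' i) = b i := by
  have h1 : Mv.PosF (Bt F hF E) (fun i => E (b i)) := by
    intro a ha
    have h1 := hb a ha
    rw [Bt_apply, symm_comb]
    exact h1
  have h2 : ∀ d ∈ E '' Dg F, Bt F hF E d (E (b 0)) ≠ 0 := by
    rintro _ ⟨e, he, rfl⟩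
    rw [Bt_apply, E.symm_apply_apply, E.symm_apply_apply]
    exact hgen e he.1 he.2.1
  have h3 : 0 < (Matrix.of fun i j => Bt F hF E (clt E (w i)) (E (b j))).det := by
    rw [← Matrix.det_transpose]
    have e : (Matrix.of fun i j => Bt F hF E (clt E (w i)) (E (b j))).transpose =
        Matrix.of fun i j => ip F (b i) (cls (w j)) := by
      ext i j
      rw [Matrix.transpose_apply, Matrix.of_apply, Matrix.of_apply, Bt_apply, clt_apply,
        E.symm_apply_apply, E.symm_apply_apply, ip_comm]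
    rw [e]
    exact hdet
  have k1 : ∀ a b, Bt F hF E a b = Bt F hF E b a := fun a b => ip_comm F _ _
  have k2 : (E '' Dg F).Countable := ((HZ_countable hty).mono fun e he => he.1).image _
  have k3 : ∀ w ∈ Q, Mv.PosF (Bt F hF E) (fun i => clt E (w i)) :=
    fun w hw => pos_of hF E (hQP hw)
  have k4 : ∀ w ∈ Q, ∀ d ∈ E '' Dg F, ∃ i, Bt F hF E d (clt E (w i)) ≠ 0 :=
    fun w hw => swb_of hF E hty hroot (hQP hw)
  have k5 : ∀ w ∈ Q, ∀ k, ∀ c : Fin n → ℝ,
      Mv.CC (Bt F hF E) (E '' Dg F) (fun i => clt E (w i)) k c →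
      ∃ x, Mv.Seg Q w (update w k x) ∧ clt E x = c := by
    intro w hw k c hc
    obtain ⟨a, ha, hs⟩ := hQc w hw k (E.symm c) (ccond_of hF E (hQP hw) hc)
    exact ⟨a, fun t ht => hs t ht.1 ht.2, by rw [clt_apply, ha, E.apply_symm_apply]⟩
  obtain ⟨w', hw', h4, h5⟩ := Mv.reach_set Q hQa (clt E) (Bt F hF E) k1 (E '' Dg F) k2 k3 k4 k5
    hw h1 h2 h3
  refine ⟨w', hw', ?_, fun i => E.injective (congrFun h5 i)⟩
  clear h5
  induction h4 with
  | refl => exact Relation.ReflTransGen.refl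
  | tail _ h2 ih => exact (ih h2.left).tail fun t h0 h1 => h2 t ⟨h0, h1⟩

theorem reach_Q {F : Z2 M} (hF : Vol (F.1.1 : F2 E4 M)) (hty : K3Type F ∨ T4Type F)
    (hroot : ∀ w : Trip M, Pos3 w → K3Type (w 0) → ∀ d ∈ Root (w 0),
      ∃ i, ip (w 0) d (cls (w i)) ≠ 0)
    (Q : Set (Trip M)) (hQP : Q ⊆ PO F)
    (hQa : ∀ (g : Matrix (Fin 3) (Fin 3) ℝ) (w : Trip M), g.det ≠ 0 → w ∈ Q →
      (fun i => ∑ j, g i j • w j) ∈ Q)
    (hQc : ∀ w ∈ Q, ∀ (k : Fin 3) (x : H2 M), CCond (w 0) (clw w) k x →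
      ∃ a : Z2 M, cls a = x ∧ ∀ t : ℝ, 0 ≤ t → t ≤ 1 → seg w (update w k a) t ∈ Q)
    {w : Trip M} (hw : w ∈ Q) {b : Fin 3 → H2 M} (hb : PosCls F b)
    (hgen : ∀ e ∈ HZ M, e ≠ 0 → ip F e (b 0) ≠ 0)
    (hdet : 0 < (Matrix.of fun i j => ip F (b i) (cls (w j))).det) :
    ∃ w' ∈ Q, Relation.ReflTransGen
      (fun u v : Trip M => ∀ t : ℝ, 0 ≤ t → t ≤ 1 → seg u v t ∈ Q) w w' ∧
      ∀ i, cls (w' i) = b i := by
  have hfin : Module.Finite ℝ (H2 M) := finite_H2 hty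
  exact reach_Q' hF hty (Module.finBasis ℝ (H2 M)).equivFun hroot Q hQP hQa hQc hw hb hgen hdet

/-- REACH from CONE (`Q` = all positive triples). -/
theorem reach_all {F : Z2 M} (hF : Vol (F.1.1 : F2 E4 M)) (hty : K3Type F ∨ T4Type F)
    (hroot : ∀ w : Trip M, Pos3 w → K3Type (w 0) → ∀ d ∈ Root (w 0),
      ∃ i, ip (w 0) d (cls (w i)) ≠ 0)
    (hcone : ∀ w : Trip M, Pos3 w → ∀ (k : Fin 3) (x : H2 M), CCond (w 0) (clw w) k x →
      ∃ a : Z2 M, cls a = x ∧ Seg w (update w k a))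
    {w : Trip M} (hw : w ∈ PO F) {b : Fin 3 → H2 M} (hb : PosCls F b)
    (hgen : ∀ e ∈ HZ M, e ≠ 0 → ip F e (b 0) ≠ 0)
    (hdet : 0 < (Matrix.of fun i j => ip F (b i) (cls (w j))).det) :
    ∃ w' ∈ PO F, PL w w' ∧ ∀ i, cls (w' i) = b i := by
  obtain ⟨w', hw', h1, h2⟩ := reach_Q hF hty hroot (PO F) subset_rfl
    (fun g w hg hw => so_linear hw hg) (by
      intro w hw k x hx
      obtain ⟨a, ha, hs⟩ := hcone w hw.1 k x hx
      refine ⟨a, ha, fun t h0 h1 => ?_⟩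
      have := (mvSeg_iff hw).2 hs
      exact this t ⟨h0, h1⟩) hw hb hgen hdet
  refine ⟨w', hw', ?_, h2⟩
  clear h2 hw'
  induction h1 with
  | refl => exact Relation.ReflTransGen.refl
  | tail _ h2 ih => exact ih.tail fun t h0 h1 => (h2 t h0 h1).1

end Geo

end

end Crest.Agent.R235
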