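import Mathlib
import Crest.Agent.R096.BelA_205

/-!
Row 235, package REG, part B (planar): the Puiseux theorem for `k`-valued `J`-graphs.
helper522: definitions and exact statements of the leaves.

Base variable `t ∈ ℂ`, fibre variable `z ∈ ℂ`.  A `J`-graph is `z = g t` with
`∂̄ g = μ(t,g) ∂ g - β(t,g)`.
-/

set_option autoImplicit false

open Set Metric MeasureTheory Filter Topology
open scoped ContDiff ComplexConjugate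
open Crest.Agent.R096.BelA_205 (dz dzb ker)

namespace Crest.Agent.R235.RegB_522

noncomputable section

/-! ### weak derivatives, Morrey functions, Hölder functions -/

/-- `h` continuous on `U`, weak `∂̄ h = hb ∈ L²` (`C¹` test functions). -/
structure WDb (U : Set ℂ) (h hb : ℂ → ℂ) : Prop where
  cont : ContinuousOn h U
  mb : MemLp hb 2 (volume.restrict U)
  wb : ∀ φ : ℂ → ℂ, ContDiff ℝ 1 φ → HasCompactSupport φ → tsupport φ ⊆ U →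
    ∫ t, h t * dzb φ t = - ∫ t, hb t * φ t

/-- `h` continuous on `U`, weak `∂ h = hz`, `∂̄ h = hb`, both in `L²`. -/
structure WD (U : Set ℂ) (h hz hb : ℂ → ℂ) : Prop extends WDb U h hb where
  mz : MemLp hz 2 (volume.restrict U)
  wz : ∀ φ : ℂ → ℂ, ContDiff ℝ 1 φ → HasCompactSupport φ → tsupport φ ⊆ U →
    ∫ t, h t * dz φ t = - ∫ t, hz t * φ t

/-- Morrey condition on discs of all centres. -/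
structure Mor (g : ℂ → ℝ) (C b : ℝ) : Prop where
  meas : Measurable g
  nonneg : ∀ t, 0 ≤ g t
  bd : ∀ (c : ℂ) (ρ : ℝ), 0 < ρ →
    ∫⁻ t in ball c ρ, ENNReal.ofReal (g t ^ 2) ≤ ENNReal.ofReal (C * ρ ^ (2 * b))

/-- Hölder condition. -/
def Hol (U : Set ℂ) (h : ℂ → ℂ) (C b : ℝ) : Prop :=
  ∀ s ∈ U, ∀ t ∈ U, ‖h s - h t‖ ≤ C * ‖s - t‖ ^ b

/-- the alternative: zero near `0`, or `P t = t ^ n (a + o(1))`, `a ≠ 0`. -/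
def Alt {N : ℕ} (P : ℂ → Fin N → ℂ) : Prop :=
  (∃ ρ > 0, ∀ t ∈ ball (0 : ℂ) ρ, P t = 0) ∨
    ∃ (n : ℕ) (a : Fin N → ℂ), a ≠ 0 ∧ Tendsto (fun t => (t ^ n)⁻¹ • P t) (𝓝[≠] (0 : ℂ)) (𝓝 a)

/-! ### analytic leaves -/

/-- (B01) Cauchy transform of a Morrey function with support in the unit disc. -/
def CauchyMor : Prop := ∀ b : ℝ, 0 < b → b < 1 → ∃ K : ℝ, 0 < K ∧
  ∀ (C : ℝ) (A : ℂ → ℂ) (g : ℂ → ℝ), 0 ≤ C → Measurable A → Mor g C b → (∀ t, ‖A t‖ ≤ g t) →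
    (∀ t, 1 ≤ ‖t‖ → A t = 0) →
    (∀ t, Integrable fun ζ => ker (t - ζ) * A ζ) ∧
    Continuous (fun t => ∫ ζ, ker (t - ζ) * A ζ) ∧
    (∀ t, ‖∫ ζ, ker (t - ζ) * A ζ‖ ≤ K * Real.sqrt C) ∧
    ∀ R, WDb (ball 0 R) (fun t => ∫ ζ, ker (t - ζ) * A ζ) A

/-- (B02) product rule. -/
def MulB : Prop := ∀ (r : ℝ) (h hb g gb : ℂ → ℂ), WDb (ball 0 r) h hb → WDb (ball 0 r) g gb →
  (∃ M, ∀ t ∈ ball (0 : ℂ) r, ‖h t‖ ≤ M ∧ ‖g t‖ ≤ M) →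
  WDb (ball 0 r) (fun t => h t * g t) (fun t => hb t * g t + h t * gb t)

/-- (B02') product rule for both derivatives. -/
def MulWD : Prop := ∀ (U : Set ℂ) (h hz hb g gz gb : ℂ → ℂ), IsOpen U → WD U h hz hb →
  WD U g gz gb → (∃ M, ∀ t ∈ U, ‖h t‖ ≤ M ∧ ‖g t‖ ≤ M) →
  WD U (fun t => h t * g t) (fun t => hz t * g t + h t * gz t) (fun t => hb t * g t + h t * gb t)

/-- (B03) Weyl's lemma for `∂̄`. -/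
def WeylB : Prop := ∀ (r : ℝ) (h hb : ℂ → ℂ), WDb (ball 0 r) h hb →
  (∀ᵐ t, t ∈ ball (0 : ℂ) r → hb t = 0) → DifferentiableOn ℂ h (ball 0 r)

/-- (B04) matrix gauge `∂̄ Ψ = - Ψ A`. -/
def Gauge : Prop := ∀ (N : ℕ) (b : ℝ), 0 < b → b < 1 → ∃ ε > 0,
  ∀ (A : ℂ → Matrix (Fin N) (Fin N) ℂ) (g : ℂ → ℝ), (∀ i j, Measurable fun t => A t i j) →
    Mor g ε b → (∀ t i j, ‖A t i j‖ ≤ g t) → (∀ t, 1 ≤ ‖t‖ → A t = 0) →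
    ∃ Ψ : ℂ → Matrix (Fin N) (Fin N) ℂ,
      (∀ i j, Continuous fun t => Ψ t i j) ∧
      (∀ i j, WDb (ball 0 1) (fun t => Ψ t i j) (fun t => -(Ψ t * A t) i j)) ∧
      (∀ t, IsUnit (Ψ t).det) ∧ ∀ t i j, ‖Ψ t i j - (1 : Matrix (Fin N) (Fin N) ℂ) i j‖ ≤ 1

/-- (B05) similarity principle, standard complex structure. -/
def SimV0 : Prop := ∀ (N : ℕ) (b r C : ℝ) (P Pb : ℂ → Fin N → ℂ) (g : ℂ → ℝ),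
  0 < b → b < 1 → 0 < r → 0 ≤ C → Mor g C b →
  (∀ i, WDb (ball 0 r) (fun t => P t i) (fun t => Pb t i)) →
  (∀ᵐ t, t ∈ ball (0 : ℂ) r → ∀ i, ‖Pb t i‖ ≤ g t * ‖P t‖) → Alt P

/-- (B06) Beltrami equation with small Hölder coefficient. -/
def Bel : Prop := ∀ b : ℝ, 0 < b → b < 1 → ∃ ε > 0, ∀ μ : ℂ → ℂ,
  (∀ s t, ‖μ s - μ t‖ ≤ ε * ‖s - t‖ ^ b) → (∀ t, 2 ≤ ‖t‖ → μ t = 0) →
  ∃ χ : ℂ → ℂ, ContDiff ℝ 1 χ ∧ χ 0 = 0 ∧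
    (∀ t, ‖fderiv ℝ χ t - ContinuousLinearMap.id ℝ ℂ‖ ≤ 1 / 2) ∧
    ∀ t, dzb χ t = μ t * dz χ t

/-- (B07) change of variables: `P = Q ∘ χ`, `χ` as in `Bel`. -/
def Chg : Prop := ∀ (r : ℝ) (χ μ h hz hb : ℂ → ℂ), 0 < r → ContDiff ℝ 1 χ → χ 0 = 0 →
  (∀ t, ‖fderiv ℝ χ t - ContinuousLinearMap.id ℝ ℂ‖ ≤ 1 / 2) →
  (∀ t, dzb χ t = μ t * dz χ t) → WD (ball 0 r) h hz hb →
  ∃ (θ qb : ℂ → ℂ), Continuous θ ∧ (∀ t, θ (χ t) = t) ∧ (∀ t, χ (θ t) = t) ∧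
    WDb (ball 0 (r / 2)) (fun s => h (θ s)) qb ∧
    ∀ᵐ s, s ∈ ball (0 : ℂ) (r / 2) → ‖qb s‖ ≤ 4 * ‖hb (θ s) - μ (θ s) * hz (θ s)‖

/-- (B08) similarity principle, Hölder Beltrami coefficient vanishing at `0`. -/
def SimV : Prop := ∀ (N : ℕ) (b r C : ℝ) (P Pz Pb : ℂ → Fin N → ℂ) (μ : ℂ → ℂ) (g : ℂ → ℝ),
  0 < b → b < 1 → 0 < r → 0 ≤ C → Mor g C b → Hol (ball 0 r) μ C b → μ 0 = 0 →
  (∀ i, WD (ball 0 r) (fun t => P t i) (fun t => Pz t i) (fun t => Pb t i)) →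
  (∀ᵐ t, t ∈ ball (0 : ℂ) r → ∀ i, ‖Pb t i - μ t * Pz t i‖ ≤ g t * ‖P t‖) → Alt P

/-- (B08') the same with `‖μ 0‖ < 1`: isolated zero or zero near `0`. -/
def SimI : Prop := ∀ (N : ℕ) (b r C : ℝ) (P Pz Pb : ℂ → Fin N → ℂ) (μ : ℂ → ℂ) (g : ℂ → ℝ),
  0 < b → b < 1 → 0 < r → 0 ≤ C → Mor g C b → Hol (ball 0 r) μ C b → ‖μ 0‖ < 1 →
  (∀ i, WD (ball 0 r) (fun t => P t i) (fun t => Pz t i) (fun t => Pb t i)) →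
  (∀ᵐ t, t ∈ ball (0 : ℂ) r → ∀ i, ‖Pb t i - μ t * Pz t i‖ ≤ g t * ‖P t‖) →
  ∃ ρ > 0, (∀ t ∈ ball (0 : ℂ) ρ, P t = 0) ∨ (∀ t ∈ ball (0 : ℂ) ρ, t ≠ 0 → P t ≠ 0)

/-- (B09) Morrey's lemma. -/
def MorHol : Prop := ∀ b : ℝ, 0 < b → b < 1 → ∃ K > 0,
  ∀ (r C : ℝ) (g : ℂ → ℝ) (h hz hb : ℂ → ℂ), 0 < r → 0 ≤ C → WD (ball 0 r) h hz hb → Mor g C b →
    (∀ᵐ t, t ∈ ball (0 : ℂ) r → ‖hz t‖ ≤ g t ∧ ‖hb t‖ ≤ g t) →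
    Hol (ball 0 (r / 2)) h (K * Real.sqrt C) b

/-- (B10) countable closed sets are removable. -/
def RemC : Prop := ∀ (r : ℝ) (B : Set ℂ) (h : ℂ → ℂ) (g : ℂ → ℝ), 0 < r → IsClosed B →
  B.Countable → ContinuousOn h (ball 0 r) → ContDiffOn ℝ 1 h (ball 0 r \ B) →
  MemLp g 2 (volume.restrict (ball (0 : ℂ) r)) → (∀ t ∈ ball (0 : ℂ) r \ B, ‖fderiv ℝ h t‖ ≤ g t) →
  WD (ball 0 r) h (dz h) (dzb h)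

/-! ### multivalued graphs -/

/-- the twisted coefficients after `t = s ^ q`. -/
def muq (μ : ℂ → ℂ → ℂ) (q : ℕ) (s z : ℂ) : ℂ := μ (s ^ q) z * (conj s / s) ^ (q - 1)

/-- the twisted inhomogeneity after `t = s ^ q`. -/
def beq (β : ℂ → ℂ → ℂ) (q : ℕ) (s z : ℂ) : ℂ := β (s ^ q) z * (q * (conj s) ^ (q - 1))

/-- Lipschitz coefficients, normalised at the origin. -/
structure Cof (μ β : ℂ → ℂ → ℂ) (L κ : ℝ) : Prop where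
  L0 : 0 ≤ L
  κ0 : 0 ≤ κ
  κ1 : κ < 1
  bd : ∀ t ∈ ball (0 : ℂ) 1, ∀ z ∈ ball (0 : ℂ) 1, ‖μ t z‖ ≤ κ
  lm : ∀ t ∈ ball (0 : ℂ) 1, ∀ z ∈ ball (0 : ℂ) 1, ∀ t' ∈ ball (0 : ℂ) 1, ∀ z' ∈ ball (0 : ℂ) 1,
    ‖μ t z - μ t' z'‖ ≤ L * (‖t - t'‖ + ‖z - z'‖)
  lb : ∀ t ∈ ball (0 : ℂ) 1, ∀ z ∈ ball (0 : ℂ) 1, ∀ t' ∈ ball (0 : ℂ) 1, ∀ z' ∈ ball (0 : ℂ) 1,
    ‖β t z - β t' z'‖ ≤ L * (‖t - t'‖ + ‖z - z'‖)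

/-- separated sheets `g i` over the open set `U`, for the multivalued function `f`. -/
structure Sheets (m c : ℂ → ℂ → ℂ) (U : Set ℂ) {k : ℕ} (f : ℂ → Fin k → ℂ)
    (g : Fin k → ℂ → ℂ) : Prop where
  smooth : ∀ i, ContDiffOn ℝ 1 (g i) U
  ne : ∀ t ∈ U, ∀ i j, i ≠ j → g i t ≠ g j t
  perm : ∀ t ∈ U, ∃ σ : Equiv.Perm (Fin k), ∀ i, f t (σ i) = g i t
  pde : ∀ t ∈ U, ∀ i, dzb (g i) t = m t (g i t) * dz (g i) t - c t (g i t)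

/-- common part: `k`-valued continuous function, separated `J`-sheets off the closed set `B`,
Morrey gradient bound `G`. -/
structure KV0 (m c : ℂ → ℂ → ℂ) (k : ℕ) (r : ℝ) (B : Set ℂ) (G : ℂ → ℝ) (C b : ℝ)
    (f : ℂ → Fin k → ℂ) : Prop where
  r0 : 0 < r
  r1 : r ≤ 1
  b0 : 0 < b
  b1 : b < 1
  C0 : 0 ≤ C
  closed : IsClosed B
  vals : ∀ t ∈ ball (0 : ℂ) r, ∀ i, f t i ∈ ball (0 : ℂ) 1
  cont : ∀ φ : ℂ → ℂ, Continuous φ → ContinuousOn (fun t => ∑ i, φ (f t i)) (ball 0 r)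
  reg : ∀ t₀ ∈ ball (0 : ℂ) r, t₀ ∉ B → ∃ U : Set ℂ, IsOpen U ∧ t₀ ∈ U ∧ U ⊆ ball 0 r ∧
    Disjoint U B ∧ ∃ g : Fin k → ℂ → ℂ, Sheets m c U f g ∧
      ∀ t ∈ U, ∀ i, ‖fderiv ℝ (g i) t‖ ≤ G t
  mor : Mor G C b

/-- stage 2: the bad set is countable. -/
structure KV (m c : ℂ → ℂ → ℂ) (k : ℕ) (r : ℝ) (B : Set ℂ) (G : ℂ → ℝ) (C b : ℝ)
    (f : ℂ → Fin k → ℂ) : Prop extends KV0 m c k r B G C b f where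
  countable : B.Countable

/-- stage 1: the bad set is a null set, and the symmetric functions are weakly differentiable. -/
structure KV1 (m c : ℂ → ℂ → ℂ) (k : ℕ) (r : ℝ) (B : Set ℂ) (G : ℂ → ℝ) (C b : ℝ)
    (f : ℂ → Fin k → ℂ) : Prop extends KV0 m c k r B G C b f where
  null : volume B = 0
  weak : ∀ φ : ℂ → ℂ, ContDiff ℝ ∞ φ → ∃ hz hb, WD (ball 0 r) (fun t => ∑ i, φ (f t i)) hz hb

/-- the mean. -/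
def avg {k : ℕ} (x : Fin k → ℂ) : ℂ := (∑ i, x i) / k

/-- the vector of normalised centred moments, homogeneous of degree `k!`. -/
def PI {k : ℕ} (x : Fin k → ℂ) : Fin k → ℂ :=
  fun i => (∑ j, (x j - avg x) ^ ((i : ℕ) + 1)) ^ (k.factorial / ((i : ℕ) + 1))

/-! ### algebraic and elementary leaves -/

/-- (B11) lower bound for `PI`. -/
def PiLow : Prop := ∀ k : ℕ, 1 ≤ k → ∃ c > 0, ∀ x : Fin k → ℂ,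
  ∀ i, c * ‖x i - avg x‖ ^ k.factorial ≤ ‖PI x‖

/-- (B12) continuity of the roots as functions of the power sums. -/
def RootCont : Prop := ∀ (k : ℕ) (l : Filter ℂ) (ξ : ℂ → Fin k → ℂ) (c : ℕ → ℂ), l.NeBot →
  (∀ m, 1 ≤ m → m ≤ k → Tendsto (fun s => ∑ i, ξ s i ^ m) l (𝓝 (c m))) →
  ∃ w : Fin k → ℂ, (∀ m, 1 ≤ m → m ≤ k → ∑ i, w i ^ m = c m) ∧
    ∀ ε > 0, ∀ᶠ s in l, ∃ σ : Equiv.Perm (Fin k), ∀ i, ‖ξ s (σ i) - w i‖ < ε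

/-- (B13) continuous branch of a root. -/
def Branch : Prop := ∀ (r : ℝ) (N : ℕ) (h : ℂ → ℂ) (a : ℂ), 0 < r → 1 ≤ N →
  ContinuousOn h (ball 0 r \ {0}) → Tendsto (fun s => h s ^ N) (𝓝[≠] 0) (𝓝 a) →
  ∃ c, c ^ N = a ∧ Tendsto h (𝓝[≠] 0) (𝓝 c)

/-- (B14) the differential inequality for `PI` on separated sheets (pointwise). -/
def PiIneq : Prop := ∀ k : ℕ, 1 ≤ k → ∃ K : ℝ, 0 < K ∧
  ∀ (m c : ℂ → ℂ → ℂ) (L : ℝ) (U : Set ℂ) (f : ℂ → Fin k → ℂ) (g : Fin k → ℂ → ℂ) (G : ℝ) (t : ℂ),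
    0 ≤ L → IsOpen U → t ∈ U → Sheets m c U f g → (∀ i, ‖g i t‖ ≤ 1) →
    (∀ i, ‖fderiv ℝ (g i) t‖ ≤ G) →
    (∀ i, ‖m t (g i t) - m t (avg fun j => g j t)‖ ≤ L * ‖g i t - avg fun j => g j t‖) →
    (∀ i, ‖c t (g i t) - c t (avg fun j => g j t)‖ ≤ L * ‖g i t - avg fun j => g j t‖) →
    ∀ i, DifferentiableAt ℝ (fun s => PI (f s) i) t ∧
      ‖fderiv ℝ (fun s => PI (f s) i) t‖ ≤ K * G ∧
      ‖dzb (fun s => PI (f s) i) t - m t (avg (f t)) * dz (fun s => PI (f s) i) t‖ ≤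
        K * L * (1 + G) * ‖PI (f t)‖

/-- (B15) Hölder continuity of the twisted Beltrami coefficient along a Hölder curve. -/
def HolMuq : Prop := ∀ (μ β : ℂ → ℂ → ℂ) (L κ : ℝ), Cof μ β L κ → ∀ (q : ℕ) (r C b : ℝ) (z : ℂ → ℂ),
  1 ≤ q → 0 < r → r ≤ 1 → 0 ≤ C → 0 < b → b < 1 → Hol (ball 0 r) z C b →
  (∀ s ∈ ball (0 : ℂ) r, z s ∈ ball (0 : ℂ) 1) →
  (q ≠ 1 → μ 0 (z 0) = 0) →
  ∃ C', 0 ≤ C' ∧ Hol (ball 0 r) (fun s => muq μ q s (z s)) C' b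

/-- (B16) pull back of `KV` by a power. -/
def KVpow : Prop := ∀ (μ β : ℂ → ℂ → ℂ) (L κ : ℝ), Cof μ β L κ →
  ∀ (q k : ℕ) (r C b : ℝ) (B : Set ℂ) (G : ℂ → ℝ) (f : ℂ → Fin k → ℂ), 1 ≤ q →
  KV (muq μ q) (beq β q) k r B G C b f → ∀ Q : ℕ, 1 ≤ Q →
  ∃ (r' C' : ℝ) (G' : ℂ → ℝ), r' ^ Q ≤ r ∧
    KV (muq μ (q * Q)) (beq β (q * Q)) k r' ({0} ∪ {s | s ^ Q ∈ B}) G' C' b (fun s => f (s ^ Q))

/-- (B17) splitting into two clusters. -/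
def Split : Prop := ∀ (m c : ℂ → ℂ → ℂ) (k k₁ k₂ : ℕ) (r C b : ℝ) (B : Set ℂ) (G : ℂ → ℝ)
  (f : ℂ → Fin k → ℂ) (θ : ℂ → ℂ → ℝ), KV m c k r B G C b f → k = k₁ + k₂ →
  ContinuousOn (fun p : ℂ × ℂ => θ p.1 p.2) ((ball 0 r \ {0}) ×ˢ univ) →
  (∀ s ∈ ball (0 : ℂ) r \ {0}, (∀ i, θ s (f s i) ≠ 0) ∧
    (Finset.univ.filter fun i => 0 < θ s (f s i)).card = k₁) → (∀ i, f 0 i = 0) →
  ∃ (f₁ : ℂ → Fin k₁ → ℂ) (f₂ : ℂ → Fin k₂ → ℂ),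
    KV m c k₁ r (B ∪ {0}) G C b f₁ ∧ KV m c k₂ r (B ∪ {0}) G C b f₂ ∧
    (∀ i, f₁ 0 i = 0) ∧ (∀ i, f₂ 0 i = 0) ∧
    (∀ s ∈ ball (0 : ℂ) r \ {0}, (∀ i, 0 < θ s (f₁ s i)) ∧ (∀ i, θ s (f₂ s i) < 0)) ∧
    ∀ s, ∃ σ : Fin k₁ ⊕ Fin k₂ ≃ Fin k, (∀ i, f s (σ (Sum.inl i)) = f₁ s i) ∧
      ∀ i, f s (σ (Sum.inr i)) = f₂ s i

/-! ### results of part B -/

/-- (B-PUI) Puiseux theorem. -/
def Puiseux : Prop := ∀ (μ β : ℂ → ℂ → ℂ) (L κ : ℝ), Cof μ β L κ → μ 0 0 = 0 →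
  ∀ (q k : ℕ) (r C b : ℝ) (B : Set ℂ) (G : ℂ → ℝ) (f : ℂ → Fin k → ℂ), 1 ≤ q → 1 ≤ k →
  KV (muq μ q) (beq β q) k r B G C b f → (∀ i, f 0 i = 0) →
  ∃ (Q : ℕ) (ρ : ℝ) (z : Fin k → ℂ → ℂ), 1 ≤ Q ∧ 0 < ρ ∧ ρ ≤ 1 ∧ ρ ^ Q ≤ r ∧
    (∀ i, ContinuousOn (z i) (ball 0 ρ)) ∧ (∀ i, z i 0 = 0) ∧
    (∀ s ∈ ball (0 : ℂ) ρ, s ≠ 0 → ∀ i j, i ≠ j → z i s ≠ z j s) ∧
    (∀ s ∈ ball (0 : ℂ) ρ, ∃ σ : Equiv.Perm (Fin k), ∀ i, f (s ^ Q) (σ i) = z i s) ∧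
    ∃ (B' : Set ℂ) (G' : ℂ → ℝ) (C' : ℝ), ∀ i,
      KV (muq μ (q * Q)) (beq β (q * Q)) 1 ρ B' G' C' b (fun s _ => z i s)

/-- (B-COUNT) in stage 1 the set of non-separated fibres is countable. -/
def Count : Prop := ∀ (μ β : ℂ → ℂ → ℂ) (L κ : ℝ), Cof μ β L κ →
  ∀ (k : ℕ) (r C b : ℝ) (B : Set ℂ) (G : ℂ → ℝ) (f : ℂ → Fin k → ℂ), 1 ≤ k →
  KV1 μ β k r B G C b f →
  {t | t ∈ ball (0 : ℂ) r ∧ ∃ i j, i ≠ j ∧ f t i = f t j}.Countable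

end

end Crest.Agent.R235.RegB_522
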