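import Crest.Agent.R235.CylDef2_522
import Crest.Agent.R235.T1_195
import Crest.Agent.R240.En4F

/-!
Row 235, PACKAGE REG, node REGC (helper522), part 1: the support of a closed positive current is
the support of its trace measure.
-/

set_option autoImplicit false
set_option maxSynthPendingDepth 3

open MeasureTheory Metric Set Filter
open scoped ContDiff Topology Manifold

universe u

namespace Crest.Agent.R235.RegC1_522

open Crest.Agent.R240 Crest.Agent.R240.Ch
open Crest.Agent.R235.Reg_522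

noncomputable section

variable {M : Type u} [MetricSpace M] [CompactSpace M] [ChartedSpace E4 M]
  [IsManifold 𝓘(ℝ, E4) ∞ M] [MeasurableSpace M] [BorelSpace M]

theorem eq_zero_of_null {D : Dat M} {C : X2 M →ₗ[ℝ] ℝ} {s : Measure M} (h : T1_195.Cur D C s)
    {U : Set M} (hU : s U = 0) {b : X2 M} (hb : ∀ y ∉ U, at2 (b.1 : F2 E4 M) y = 0) : C b = 0 := by
  have h1 := h.rm.bound b
  rw [← h.inv b] at h1
  have h2 : ∫ x, D.nr (b : F2 E4 M) x ∂s = 0 := by
    apply integral_eq_zero_of_ae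
    have : ∀ᵐ x ∂s, x ∉ U := measure_eq_zero_iff_ae_notMem.1 hU
    filter_upwards [this] with x hx
    have h3 := hb x hx
    show D.nr (b.1 : F2 E4 M) x = 0
    have h4 : D.nr (b.1 : F2 E4 M) x = D.nr (0 : F2 E4 M) x := by
      unfold Dat.nr nrG
      rw [h3]
      rfl
    rw [h4, NM.nr_zero]
  rw [h2, mul_zero] at h1
  exact abs_nonpos_iff.1 h1

theorem null_of_eq_zero {D : Dat M} {C : X2 M →ₗ[ℝ] ℝ} {s : Measure M} (h : T1_195.Cur D C s)
    {W : Set M} (hW : IsOpen W) {x : M} (hx : x ∈ W)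
    (h0 : ∀ b : X2 M, (∀ y ∉ W, at2 (b.1 : F2 E4 M) y = 0) → C b = 0) :
    ∃ U : Set M, IsOpen U ∧ x ∈ U ∧ s U = 0 := by
  obtain ⟨f, hf, hf0, hfx, hfU⟩ := En4.exists_bump hW hx
  have hfc : Continuous f := En4.sF_continuous hf
  have := h.rm.fin
  have hsm : Smooth2 (fmul f D.F) := (Int.dat_smF D).fmul hf
  have h1 := h.rm.trace f hf ⟨fmul f D.F, hsm⟩ rfl
  have h2 : C ⟨fmul f D.F, hsm⟩ = 0 := by
    apply h0
    intro y hy
    show f y • at2 D.F y = 0
    rw [hfU y hy, zero_smul]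
  rw [h2] at h1
  have hint : Integrable f s := hfc.integrable_of_hasCompactSupport (HasCompactSupport.of_compactSpace _)
  have h3 := (integral_eq_zero_iff_of_nonneg (fun z => hf0 z) hint).1 h1.symm
  refine ⟨{z | f z ≠ 0}, isOpen_ne_fun hfc continuous_const, by simp [hfx], ?_⟩
  exact h3

theorem suppC_eq {D : Dat M} {C : X2 M →ₗ[ℝ] ℝ} {s : Measure M} (h : T1_195.Cur D C s) :
    suppC C = {x | ∀ U : Set M, IsOpen U → x ∈ U → 0 < s U} := by
  ext x
  constructor
  · intro hx U hU hxU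
    obtain ⟨b, hb, hne⟩ := hx U hU hxU
    rw [pos_iff_ne_zero]
    intro h0
    exact hne (eq_zero_of_null h h0 hb)
  · intro hx W hW hxW
    by_contra hcon
    push Not at hcon
    obtain ⟨U, hU, hxU, h0⟩ := null_of_eq_zero h hW hxW hcon
    exact (hx U hU hxU).ne' h0

theorem isClosed_suppC (C : X2 M →ₗ[ℝ] ℝ) : IsClosed (suppC C) := by
  rw [← isOpen_compl_iff, isOpen_iff_mem_nhds]
  intro x hx
  simp only [suppC, mem_compl_iff, mem_ofPred_eq, not_forall] at hx
  obtain ⟨W, hW, hxW, hno⟩ := hx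
  filter_upwards [hW.mem_nhds hxW] with y hy hcon
  exact hno (hcon W hW hy)

end

end Crest.Agent.R235.RegC1_522
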