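import Crest.Agent.R235.CylDef2_522

/-!
Row 235, REG A1.0c (helper83): at a good point of density one the form is degenerate.
-/

set_option autoImplicit false
set_option maxSynthPendingDepth 3

open MeasureTheory Metric Set Filter
open scoped ContDiff Topology Manifold

namespace Crest.Agent.R235.RegFWDEG_83

open Crest.Agent.R240 Crest.Agent.R240.Pot
open Crest.Agent.R235.CurDefs_132 Crest.Agent.R235.Reg_522

noncomputable section

/-- a definite form is bounded below. -/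
theorem exists_lower {J : E4 →L[ℝ] E4} {φ : Bil} (h : ∀ v, v ≠ 0 → 0 < φ v (J v)) :
    ∃ c > 0, ∀ v, c * ‖v‖ ^ 2 ≤ φ v (J v) := by
  have hcont : Continuous fun v : E4 => φ v (J v) := by fun_prop
  have hne : (sphere (0 : E4) 1).Nonempty := NormedSpace.sphere_nonempty.2 zero_le_one
  obtain ⟨v0, hv0, hmin⟩ := (isCompact_sphere (0 : E4) 1).exists_isMinOn hne hcont.continuousOn
  have hv0n : v0 ≠ 0 := by
    rintro rfl
    simp at hv0
  refine ⟨φ v0 (J v0), h v0 hv0n, fun v => ?_⟩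
  by_cases hv : v = 0
  · subst hv; simp
  · have hn : 0 < ‖v‖ := norm_pos_iff.2 hv
    have h1 : ‖v‖⁻¹ • v ∈ sphere (0 : E4) 1 := by
      rw [mem_sphere_zero_iff_norm, norm_smul, norm_inv, norm_norm, inv_mul_cancel₀ hn.ne']
    have h2 : φ v0 (J v0) ≤ φ (‖v‖⁻¹ • v) (J (‖v‖⁻¹ • v)) := hmin h1
    have h3 : φ (‖v‖⁻¹ • v) (J (‖v‖⁻¹ • v)) = (‖v‖ ^ 2)⁻¹ * φ v (J v) := by
      simp only [map_smul, smul_apply, smul_eq_mul]
      field_simp
    rw [h3, inv_mul_eq_div, le_div_iff₀ (by positivity)] at h2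
    exact h2

/-- **FWDEG**. -/
theorem fwdeg : FWDEG := by
  intro D x hx hG hden
  by_contra hcon
  have hpos : ∀ v, v ≠ 0 → 0 < D.φ x v (D.J x v) := fun v hv =>
    lt_of_le_of_ne ((D.pos x).nonneg v) fun h => hcon ⟨v, hv, h.symm⟩
  obtain ⟨c, hc, hcl⟩ := exists_lower hpos
  have := D.fin
  have hbd := D.bd x
  have hm := hbd.m_pos
  have hM := hbd.M_pos
  have hlo : ∀ v, D.m * ‖v‖ ^ 2 ≤ D.G x v v := fun v => hbd.lo v
  have hhi : ∀ v, D.G x v v ≤ D.M * ‖v‖ ^ 2 := fun v => hbd.hi v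
  set K : ℝ := 1 / √D.m with hK
  set ε : ℝ := 1 / (2 * √D.M) with hε
  have hKp : 0 < K := by positivity
  have hεp : 0 < ε := by positivity
  set g : ℝ → ℝ := fun r => D.s.real {y | D.G x (y - x) (y - x) < r ^ 2} with hg
  have hGc : Continuous fun y : E4 => D.G x (y - x) (y - x) := by fun_prop
  have hms : ∀ r : ℝ, MeasurableSet {y | D.G x (y - x) (y - x) < r ^ 2} := fun r =>
    (isOpen_lt hGc continuous_const).measurableSet
  have h1 : Tendsto (fun r : ℝ => g r / (Real.pi * r ^ 2)) (𝓝[>] 0) (𝓝 1) := hden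
  have hhalf : Tendsto (fun r : ℝ => r / 2) (𝓝[>] 0) (𝓝[>] 0) := by
    refine tendsto_nhdsWithin_of_tendsto_nhds_of_eventually_within _ ?_ ?_
    · have : Tendsto (fun r : ℝ => r / 2) (𝓝 0) (𝓝 (0 / 2)) := tendsto_id.div_const 2
      rw [zero_div] at this
      exact this.mono_left nhdsWithin_le_nhds
    · filter_upwards [self_mem_nhdsWithin] with r hr
      exact half_pos (mem_Ioi.1 hr)
  have h2 : Tendsto (fun r : ℝ => g (r / 2) / (Real.pi * (r / 2) ^ 2)) (𝓝[>] 0) (𝓝 1) :=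
    h1.comp hhalf
  have h3 : Tendsto (fun r : ℝ => (r ^ 2)⁻¹ * (g r - g (r / 2))) (𝓝[>] 0)
      (𝓝 (Real.pi * 1 - Real.pi / 4 * 1)) := by
    refine ((h1.const_mul Real.pi).sub (h2.const_mul (Real.pi / 4))).congr' ?_
    filter_upwards [self_mem_nhdsWithin] with r hr
    have hr' : r ≠ 0 := (mem_Ioi.1 hr).ne'
    have hpi := Real.pi_ne_zero
    field_simp
    ring
  have hfc : Continuous fun y : E4 => D.φ x (y - x) (D.J x (y - x)) := by fun_prop
  have h4 : ∀ r : ℝ, 0 < r → c * ε ^ 2 * ((r ^ 2)⁻¹ * (g r - g (r / 2))) ≤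
      (r ^ 4)⁻¹ * ∫ y in ball x (K * r), D.φ x (y - x) (D.J x (y - x)) ∂D.s := by
    intro r hr
    set A : Set E4 := {y | D.G x (y - x) (y - x) < r ^ 2} \
      {y | D.G x (y - x) (y - x) < (r / 2) ^ 2} with hA
    have hAm : MeasurableSet A := (hms r).diff (hms (r / 2))
    have hsub : {y | D.G x (y - x) (y - x) < (r / 2) ^ 2} ⊆
        {y | D.G x (y - x) (y - x) < r ^ 2} := by
      intro y hy
      have hy' : D.G x (y - x) (y - x) < (r / 2) ^ 2 := hy
      show D.G x (y - x) (y - x) < r ^ 2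
      nlinarith
    have hdiff : g r - g (r / 2) = D.s.real A := by
      rw [hA, measureReal_sdiff hsub (hms _)]
    have hAb : A ⊆ ball x (K * r) := by
      intro y hy
      have hy1 : D.G x (y - x) (y - x) < r ^ 2 := hy.1
      rw [mem_ball, dist_eq_norm]
      have h5 := hlo (y - x)
      have h6 : ‖y - x‖ ^ 2 < (K * r) ^ 2 := by
        have h7 : (K * r) ^ 2 = r ^ 2 / D.m := by
          rw [hK, mul_pow, div_pow, Real.sq_sqrt hm.le]; ring
        rw [h7, lt_div_iff₀ hm]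
        linarith
      exact lt_of_pow_lt_pow_left₀ 2 (by positivity) h6
    have hAl : ∀ y ∈ A, c * ε ^ 2 * r ^ 2 ≤ D.φ x (y - x) (D.J x (y - x)) := by
      intro y hy
      have hy2 : (r / 2) ^ 2 ≤ D.G x (y - x) (y - x) := not_lt.1 hy.2
      have h5 := hhi (y - x)
      have h6 : ε ^ 2 * r ^ 2 ≤ ‖y - x‖ ^ 2 := by
        have h7 : ε ^ 2 * r ^ 2 = (r / 2) ^ 2 / D.M := by
          rw [hε, div_pow, mul_pow, Real.sq_sqrt hM.le]; field_simp
        rw [h7, div_le_iff₀ hM]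
        linarith
      calc c * ε ^ 2 * r ^ 2 = c * (ε ^ 2 * r ^ 2) := by ring
        _ ≤ c * ‖y - x‖ ^ 2 := by gcongr
        _ ≤ _ := hcl _
    have hint : IntegrableOn (fun y : E4 => D.φ x (y - x) (D.J x (y - x))) (ball x (K * r)) D.s :=
      (hfc.continuousOn.integrableOn_compact (isCompact_closedBall x (K * r))).mono_set
        ball_subset_closedBall
    have h5 : c * ε ^ 2 * r ^ 2 * D.s.real A ≤ ∫ y in A, D.φ x (y - x) (D.J x (y - x)) ∂D.s :=
      setIntegral_ge_of_const_le_real hAm (measure_ne_top _ _) hAl (hint.mono_set hAb)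
    have h6 : ∫ y in A, D.φ x (y - x) (D.J x (y - x)) ∂D.s ≤
        ∫ y in ball x (K * r), D.φ x (y - x) (D.J x (y - x)) ∂D.s :=
      setIntegral_mono_set hint (Eventually.of_forall fun y => (D.pos x).nonneg _)
        (LE.le.eventuallyLE hAb)
    rw [hdiff]
    have h7 : c * ε ^ 2 * ((r ^ 2)⁻¹ * D.s.real A) = (r ^ 4)⁻¹ * (c * ε ^ 2 * r ^ 2 * D.s.real A) := by
      field_simp
    rw [h7]
    exact mul_le_mul_of_nonneg_left (h5.trans h6) (by positivity)
  have h5 : c * ε ^ 2 * (Real.pi * 1 - Real.pi / 4 * 1) ≤ 0 := by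
    refine le_of_tendsto_of_tendsto (h3.const_mul (c * ε ^ 2)) (hG.conc K) ?_
    filter_upwards [self_mem_nhdsWithin] with r hr using h4 r hr
  have h6 : 0 < c * ε ^ 2 * (Real.pi * 1 - Real.pi / 4 * 1) := by
    have := Real.pi_pos
    have h7 : Real.pi * 1 - Real.pi / 4 * 1 = 3 / 4 * Real.pi := by ring
    rw [h7]
    positivity
  linarith

end

end Crest.Agent.R235.RegFWDEG_83
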