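import Crest.Agent.R235.CylDef2_522
import Crest.Agent.R235.FlatLeb_504

/-!
Row 235 (S0364), REG A1.0b FWGOOD (helper504): almost every point is good.  Reduction to
`Flat.LEBP` (`FlatLeb_504`) and `Flat.DEFZ`.
-/

set_option autoImplicit false
set_option maxSynthPendingDepth 3

open Set Function Filter MeasureTheory Metric
open scoped ContDiff ENNReal Manifold Topology

namespace Crest.Agent.R235.Reg_FWGOOD_504

open Crest.Agent.R240 Crest.Agent.R240.En Crest.Agent.R240.Pot
open Crest.Agent.R235.CurDefs_132 Crest.Agent.R235.Flat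

/-- change of the radius. -/
theorem scale {h : E4 → ℝ} {s : Measure E4} {x : E4} {p : ℕ} (h0 : ∀ y, 0 ≤ h y)
    (hi : ∀ r, IntegrableOn h (closedBall x r) s)
    (ht : Tendsto (fun r : ℝ => (r ^ p)⁻¹ * ∫ y in closedBall x r, h y ∂s) (𝓝[>] 0) (𝓝 0))
    (K : ℝ) :
    Tendsto (fun r : ℝ => (r ^ p)⁻¹ * ∫ y in ball x (K * r), h y ∂s) (𝓝[>] 0) (𝓝 0) := by
  rcases le_or_gt K 0 with hK | hK
  · refine tendsto_const_nhds.congr' ?_
    filter_upwards [self_mem_nhdsWithin] with r hr
    have h1 : ball x (K * r) = ∅ := by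
      rw [ball_eq_empty]
      exact mul_nonpos_of_nonpos_of_nonneg hK (le_of_lt hr)
    rw [h1, Measure.restrict_empty, integral_zero_measure, mul_zero]
  · have h1 : Tendsto (fun r : ℝ => K * r) (𝓝[>] 0) (𝓝[>] 0) := by
      refine tendsto_nhdsWithin_iff.2 ⟨?_, ?_⟩
      · have h2 : Tendsto (fun r : ℝ => K * r) (𝓝 0) (𝓝 (K * 0)) := tendsto_id.const_mul K
        rw [mul_zero] at h2
        exact h2.mono_left nhdsWithin_le_nhds
      · filter_upwards [self_mem_nhdsWithin] with r hr
        exact mul_pos hK hr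
    have h2 := (ht.comp h1).const_mul (K ^ p)
    rw [mul_zero] at h2
    refine squeeze_zero' ?_ ?_ h2
    · filter_upwards [self_mem_nhdsWithin] with r hr
      have hr' : (0 : ℝ) < r := hr
      exact mul_nonneg (by positivity) (integral_nonneg h0)
    · filter_upwards [self_mem_nhdsWithin] with r hr
      have hr' : (0 : ℝ) < r := hr
      have h3 : ∫ y in ball x (K * r), h y ∂s ≤ ∫ y in closedBall x (K * r), h y ∂s :=
        setIntegral_mono_set (hi _) (Eventually.of_forall h0)
          (LE.le.eventuallyLE ball_subset_closedBall)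
      have h4 : K ^ p * (((K * r) ^ p)⁻¹ * ∫ y in closedBall x (K * r), h y ∂s) =
          (r ^ p)⁻¹ * ∫ y in closedBall x (K * r), h y ∂s := by
        rw [mul_pow]
        have h5 : K ^ p ≠ 0 := by positivity
        have h6 : r ^ p ≠ 0 := by positivity
        field_simp
      simp only [comp_apply]
      rw [h4]
      exact mul_le_mul_of_nonneg_left h3 (by positivity)

theorem fwgood_of (h : MON → DEFZ) : Reg_522.FWGOOD := by
  intro hM D
  have := D.fin
  filter_upwards [FlatLeb_504.lebp D] with x hx hx3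
  have hd := h hM D x hx3 hx
  refine ⟨fun K => ?_, fun K => ?_⟩
  · exact scale (fun _ => norm_nonneg _)
      (fun r => ((FlatLeb_504.integrable_phi D).sub (integrable_const _)).norm.integrableOn) hx K
  · refine scale (fun y => (D.pos x).nonneg _) (fun r => ?_) hd K
    have hc : Continuous fun y => D.φ x (y - x) (D.J x (y - x)) := by fun_prop
    exact hc.continuousOn.integrableOn_compact (isCompact_closedBall x r)

end Crest.Agent.R235.Reg_FWGOOD_504
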