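import Crest.Agent.R235.Reg_FLATW_843
import Crest.Agent.R235.Reg_FWGOOD_504
import Crest.Agent.R235.Reg_FWDEG_83
import Crest.Agent.R235.Reg_FWLOW_356
import Crest.Agent.R235.Reg_FWALG_347
import Crest.Agent.R235.FlatPt_856
import Crest.Agent.R235.FlatTrans_82
import Crest.Agent.R235.FlatRadi_125
import Crest.Agent.R235.FlatPlane_291
import Crest.Agent.R235.FlatLink_181
import Crest.Agent.R235.FlatDefz_463
import Crest.Agent.R235.FlatLeb_504
import Crest.Agent.R235.CurLin1_785
import Crest.Agent.R235.CurLin4_253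

/-!
Row 235, PACKAGE REG, A1.0 (helper460): `Reg_522.FLATW`, unconditional, from the leaves FLAT of
helper607's block and the assembly of helper843.
-/

set_option autoImplicit false
set_option maxSynthPendingDepth 3

open MeasureTheory Metric Set Filter
open scoped ContDiff Topology Manifold ENNReal NNReal

namespace Crest.Agent.R235.RegFlat_460

open Crest.Agent.R240 Crest.Agent.R235.CurDefs_132 Crest.Agent.R235.Reg_522
open Crest.Agent.R235.Reg_FLATW_843

noncomputable section

theorem flp : Flat.FLP :=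
  FlatPt_856.flp FlatLink_181.link (FlatTrans_82.trans FlatLink_181.link CurLin4_253.LIN4_proof)
    FlatRadi_125.radi FlatPlane_291.plane

/-- flatness at a good point. -/
theorem flatE2 (D : LC) {p : E4}
    (hd : ∀ᵐ x ∂D.s, x ∈ Reg_FLATW_843.B2 D → Deg (D.J x) (D.F x) (D.φ x) (XX D x))
    (hp : p ∈ Reg_FLATW_843.B2 D) (hleb : Flat.LebPt D p) (hdef : Flat.DefPt D p)
    (hden : IsDenE (D.G p) D.s p 1) (hdeg : Deg (D.J p) (D.F p) (D.φ p) (XX D p)) :
    FlatE (mm D) (XX D) (fun q => D.J q (XX D q)) p := by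
  intro g hg hgc ha
  have h1 := flp D p hp hleb hdef hden (XX D p) ⟨norm_XX D p, hdeg.zero⟩ g hg hgc
    (fun z v => ha z v)
  obtain ⟨K0, hK0⟩ := hgc.isCompact.isBounded.subset_ball (0 : E4)
  have hK : ∀ z, max K0 1 ≤ ‖z‖ → g z = 0 := by
    intro z hz
    by_contra hne
    have h3 := hK0 (subset_tsupport g hne)
    rw [mem_ball_zero_iff] at h3
    linarith [le_max_left K0 1]
  have hK1 : (0 : ℝ) < max K0 1 := lt_of_lt_of_le one_pos (le_max_right _ _)
  refine h1.congr' ?_
  obtain ⟨δ, hδ, hsub⟩ := exists_ball_sub D hp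
  have h4 : ∀ᶠ r : ℝ in 𝓝[>] 0, r < δ / max K0 1 :=
    (eventually_lt_nhds (div_pos hδ hK1)).filter_mono nhdsWithin_le_nhds
  filter_upwards [h4, self_mem_nhdsWithin] with r hr hr0
  have hr0' : 0 < r := hr0
  congr 1
  symm
  refine integral_mm' D hd (β := fun y => g (r⁻¹ • (y - p))) (fun y => ha _) fun y hy => ?_
  apply hK
  have h5 : δ ≤ dist y p := by
    by_contra h6
    exact hy (hsub (mem_ball.2 (not_le.1 h6)))
  rw [dist_eq_norm] at h5
  rw [norm_smul, norm_inv, Real.norm_eq_abs, abs_of_pos hr0', ← div_eq_inv_mul,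
    le_div_iff₀ hr0']
  rw [lt_div_iff₀ hK1] at hr
  linarith

/-- (A1.0) density one ⟹ flat current. -/
theorem flatw : FLATW := by
  intro hMon D hden
  have hR := D.R_pos
  have h23 : Reg_FLATW_843.B2 D ⊆ ball D.x0 (3 * D.R) := ball_subset_ball (by linarith)
  have h24 : Reg_FLATW_843.B2 D ⊆ ball D.x0 (4 * D.R) := ball_subset_ball (by linarith)
  have hdefz : Flat.DEFZ := FlatDefz_463.defz CurLin1_785.lin1 CurLin4_253.LIN4_proof hMon
  have hGood : FWGOOD := Reg_FWGOOD_504.fwgood_of fun _ => hdefz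
  have hall : ∀ᵐ x ∂D.s, x ∈ Reg_FLATW_843.B2 D → (Flat.LebPt D x ∧ Flat.DefPt D x) ∧
      IsDenE (D.G x) D.s x 1 ∧ Deg (D.J x) (D.F x) (D.φ x) (XX D x) := by
    filter_upwards [hGood hMon D, hden, FlatLeb_504.lebp D] with x h1 h2 hl hx
    have h3 := h1 (h23 hx)
    have h4 := h2 (h23 hx)
    exact ⟨⟨hl, hdefz D x (h23 hx) hl⟩, h4,
      deg_XX D RegFWALG_347.fwalg (RegFWDEG_83.fwdeg D x (h24 hx) h3 h4)⟩
  have hd : ∀ᵐ x ∂D.s, x ∈ Reg_FLATW_843.B2 D → Deg (D.J x) (D.F x) (D.φ x) (XX D x) := by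
    filter_upwards [hall] with x hx hxB
    exact (hx hxB).2.2
  refine ⟨mm D, XX D, 4 * D.C / D.m, ?_, ?_, ?_⟩
  · exact
      { openU := isOpen_ball
        smJ := D.smJ.contDiffOn
        sqJ := fun x _ => (D.bd x).sq
        fin := fin_mm D
        mX := meas_XX D
        nX := norm_XX D
        supp := ae_mem D
        closed := closed_mm D hd
        up := up_mm D
        low := low_mm D (Reg_FWLOW_356.fwlow hMon D hden)
        flat := by
          refine ae_mm D ?_
          filter_upwards [hall] with x hx hxB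
          exact flatE2 D hd hxB (hx hxB).1.1 (hx hxB).1.2 (hx hxB).2.1 (hx hxB).2.2 }
  · intro x hx
    exact ⟨suppE_of_mm D, suppE_mm D hx⟩
  · intro b _ hb hQ
    obtain ⟨Q, hQs, -, hQ0⟩ := hQ
    symm
    exact integral_mm' D hd hb fun x hx => hQ0 x fun h => hx (hQs h)

end

end Crest.Agent.R235.RegFlat_460
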