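import Crest.Agent.R235.CylDef2_522

/-!
Row 235, PACKAGE REG (helper522), leaf A1.2 BOXEX (helper52): assembly cylinder + box current.
Reusable: `fd_symm_fd`, `fd_fd_symm` (derivatives of a smooth `OpenPartialHomeomorph`), `pushJ`
(the push-forward structure), `exists_restr` (restriction to an open subset of the target).
-/

set_option autoImplicit false
set_option maxSynthPendingDepth 3
set_option linter.unusedSectionVars false

open MeasureTheory Metric Set Filter
open scoped ContDiff Topology Manifold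

namespace Crest.Agent.R235.Reg_BOXEX_52

open Crest.Agent.R240 Crest.Agent.R240.Ch
open Crest.Agent.R235.Loc Crest.Agent.R235.Cyl Crest.Agent.R235.CurDefs_132
open Crest.Agent.R235.NWDefs_334 Crest.Agent.R235.Reg_522

noncomputable section

section gen

variable {E E' : Type*} [NormedAddCommGroup E] [NormedSpace ℝ E] [NormedAddCommGroup E']
  [NormedSpace ℝ E']

/-- restriction to an open subset of the target -/
theorem exists_restr (e : OpenPartialHomeomorph E E') {V : Set E'} (hV : IsOpen V)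
    (hVt : V ⊆ e.target) : ∃ e' : OpenPartialHomeomorph E E', (e' : E → E') = e ∧
      (e'.symm : E' → E) = e.symm ∧ e'.target = V ∧ e'.source = e.source ∩ e ⁻¹' V := by
  refine ⟨(e.symm.restrOpen V hV).symm, rfl, rfl, ?_, ?_⟩
  · show e.target ∩ V = V
    exact inter_eq_self_of_subset_right hVt
  · show (e.symm.restrOpen V hV).target = e.source ∩ e ⁻¹' V
    rfl

theorem fd_symm_fd {e : OpenPartialHomeomorph E E'} (h1 : ContDiffOn ℝ ∞ e e.source)
    (h2 : ContDiffOn ℝ ∞ e.symm e.target) {x : E} (hx : x ∈ e.source) (v : E) :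
    fderiv ℝ e.symm (e x) (fderiv ℝ e x v) = v := by
  have a1 : DifferentiableAt ℝ e x :=
    (h1.contDiffAt (e.open_source.mem_nhds hx)).differentiableAt (by simp)
  have a2 : DifferentiableAt ℝ e.symm (e x) :=
    (h2.contDiffAt (e.open_target.mem_nhds (e.map_source hx))).differentiableAt (by simp)
  have a3 := (a2.hasFDerivAt.comp x a1.hasFDerivAt)
  have a4 : HasFDerivAt (e.symm ∘ e) (ContinuousLinearMap.id ℝ E) x := by
    refine (hasFDerivAt_id x).congr_of_eventuallyEq ?_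
    filter_upwards [e.open_source.mem_nhds hx] with y hy
    exact e.left_inv hy
  have a5 := a3.unique a4
  exact congrArg (fun A : E →L[ℝ] E => A v) a5

theorem fd_fd_symm {e : OpenPartialHomeomorph E E'} (h1 : ContDiffOn ℝ ∞ e e.source)
    (h2 : ContDiffOn ℝ ∞ e.symm e.target) {y : E'} (hy : y ∈ e.target) (v : E') :
    fderiv ℝ e (e.symm y) (fderiv ℝ e.symm y v) = v :=
  fd_symm_fd (e := e.symm) h2 h1 hy v

/-- the push-forward of the structure `J` -/
def pushJ (e : OpenPartialHomeomorph E E') (J : E → E →L[ℝ] E) (p : E') : E' →L[ℝ] E' :=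
  (fderiv ℝ e (e.symm p)).comp ((J (e.symm p)).comp (fderiv ℝ e.symm p))

theorem pushJ_apply (e : OpenPartialHomeomorph E E') (J : E → E →L[ℝ] E) (p v : E') :
    pushJ e J p v = fderiv ℝ e (e.symm p) (J (e.symm p) (fderiv ℝ e.symm p v)) := rfl

theorem pushJ_smooth {e : OpenPartialHomeomorph E E'} (h1 : ContDiffOn ℝ ∞ e e.source)
    (h2 : ContDiffOn ℝ ∞ e.symm e.target) {J : E → E →L[ℝ] E} (hJ : ContDiffOn ℝ ∞ J e.source) :
    ContDiffOn ℝ ∞ (pushJ e J) e.target := by
  have m1 : MapsTo e.symm e.target e.source := fun y hy => e.map_target hy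
  have a1 : ContDiffOn ℝ ∞ (fun p => fderiv ℝ e (e.symm p)) e.target :=
    (h1.fderiv_of_isOpen e.open_source (m := ∞) (by simp)).comp h2 m1
  have a2 : ContDiffOn ℝ ∞ (fun p => J (e.symm p)) e.target := hJ.comp h2 m1
  have a3 : ContDiffOn ℝ ∞ (fun p => fderiv ℝ e.symm p) e.target :=
    h2.fderiv_of_isOpen e.open_target (m := ∞) (by simp)
  exact a1.clm_comp (a2.clm_comp a3)

theorem pushJ_sq {e : OpenPartialHomeomorph E E'} (h1 : ContDiffOn ℝ ∞ e e.source)
    (h2 : ContDiffOn ℝ ∞ e.symm e.target) {J : E → E →L[ℝ] E}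
    (hJ : ∀ x ∈ e.source, ∀ v, J x (J x v) = -v) {p : E'} (hp : p ∈ e.target) (v : E') :
    pushJ e J p (pushJ e J p v) = -v := by
  have hx : e.symm p ∈ e.source := e.map_target hp
  have h3 := fd_symm_fd h1 h2 hx (J (e.symm p) (fderiv ℝ e.symm p v))
  rw [e.right_inv hp] at h3
  rw [pushJ_apply, pushJ_apply, h3, hJ _ hx, map_neg, fd_fd_symm h1 h2 hp]

theorem pushJ_fd {e : OpenPartialHomeomorph E E'} (h1 : ContDiffOn ℝ ∞ e e.source)
    (h2 : ContDiffOn ℝ ∞ e.symm e.target) (J : E → E →L[ℝ] E) {x : E} (hx : x ∈ e.source)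
    (v : E) : pushJ e J (e x) (fderiv ℝ e x v) = fderiv ℝ e x (J x v) := by
  rw [pushJ_apply, e.left_inv hx, fd_symm_fd h1 h2 hx]

end gen

theorem boxex : CYLEX → MUBETA → PUSH → BOXOF → BOXEX := by
  intro hC hM hP hB J r hJ m X K hF
  obtain ⟨e, R, ρ₀, ρ₁, hR, hρ₀, hρ, hs, ht, h0, he0, hsm, hsm', hv, hq, hsupp⟩ :=
    hC J r hJ m X K hF
  set R' : ℝ := R / 2 with hR'
  set ρ' : ℝ := (ρ₀ + ρ₁) / 2 with hρ'
  have hR'0 : 0 < R' := by positivity
  have hR'R : R' < R := by rw [hR']; linarith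
  have hρ0' : ρ₀ < ρ' := by rw [hρ']; linarith
  have hρ1' : ρ' < ρ₁ := by rw [hρ']; linarith
  set V : Set CC := ball (0 : ℂ) R' ×ˢ ball (0 : ℂ) ρ' with hVd
  set Q : Set CC := closedBall (0 : ℂ) R' ×ˢ closedBall (0 : ℂ) ρ' with hQd
  have hVo : IsOpen V := isOpen_ball.prod isOpen_ball
  have hQc : IsCompact Q := (isCompact_closedBall _ _).prod (isCompact_closedBall _ _)
  have hVQ : V ⊆ Q := prod_mono ball_subset_closedBall ball_subset_closedBall
  have hQt : Q ⊆ e.target := by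
    rw [ht]
    exact prod_mono (closedBall_subset_ball hR'R) (closedBall_subset_ball hρ1')
  have hVt : V ⊆ e.target := hVQ.trans hQt
  have hclV : closure V ⊆ Q := closure_minimal hVQ hQc.isClosed
  have hclc : IsCompact (closure V) := hQc.of_isClosed_subset isClosed_closure hclV
  have hsmJ : ContDiffOn ℝ ∞ J e.source := hF.smJ.mono hs
  have hsqJ : ∀ x ∈ e.source, ∀ v, J x (J x v) = -v := fun x hx => hF.sqJ x (hs hx)
  have hJ2s : ContDiffOn ℝ ∞ (pushJ e J) e.target := pushJ_smooth hsm hsm' hsmJ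
  obtain ⟨μ, β, κ, L, hS, hrel⟩ := hM (pushJ e J) e.target e.open_target hJ2s
    (fun p hp v => pushJ_sq hsm hsm' hsqJ hp v)
    (fun p hp v => by
      rw [pushJ_apply, ← hv p hp v, fd_fd_symm hsm hsm' hp])
    (fun p hp v => hq p hp v) Q hQc hQt
  obtain ⟨m', X', K', hF', hsup', hform⟩ := hP CC CC J (ball 0 r) m X K hF e hs hsm hsm'
    (pushJ e J) (fun x hx v => pushJ_fd hsm hsm' J hx v) V hVo hclc (hclV.trans hQt)
  obtain ⟨X'', Y'', K'', hBox, hXY⟩ := hB μ β κ L hS (pushJ e J) R' ρ₀ ρ' hR'0 hρ₀ hρ0'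
    (fun p hp v => hrel p (hVQ hp) v) m' X' K' hF'
    (fun p hp hp' => hsupp p (hVt hp) ((hsup' p hp).1 hp'))
  obtain ⟨e', he1, he2, he3, he4⟩ := exists_restr e hVo hVt
  have hsub : e'.source ⊆ e.source := by rw [he4]; exact inter_subset_left
  have h00 : (0 : CC) ∈ V := ⟨mem_ball_self hR'0, mem_ball_self (hρ₀.trans hρ0')⟩
  refine ⟨μ, β, κ, L, R', ρ₀, ρ', K'', m', X'', Y'', e', hS, hR'0, hρ₀, hρ0', hBox,
    hsub.trans hs, he3, ?_, ?_, ?_, ?_, ?_, ?_, ?_⟩
  · rw [he4]
    refine ⟨h0, ?_⟩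
    show e 0 ∈ V
    rw [he0]; exact h00
  · rw [he1]; exact he0
  · rw [he1]; exact hsm.mono hsub
  · rw [he2, he3]; exact hsm'.mono hVt
  · intro x hx v
    rw [he4] at hx
    have h1 := hrel (e x) (hVQ hx.2) (fderiv ℝ e x v)
    rw [pushJ_fd hsm hsm' J hx.1] at h1
    rw [he1]
    exact h1
  · intro y hy
    rw [he3] at hy
    rw [he2]
    exact hsup' y hy
  · intro b hb hb' hbQ
    rw [he3] at hbQ
    obtain ⟨T, hTV, hTc, hT0⟩ := hbQ
    have h1 := hform b hb hb' ⟨T, hTV, hTc, hT0⟩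
    have h2 : ∫ x in e'.source, b (e' x) (fderiv ℝ e' x (X x)) (fderiv ℝ e' x (J x (X x))) ∂m =
        ∫ x in e.source, b (e x) (fderiv ℝ e x (X x)) (fderiv ℝ e x (J x (X x))) ∂m := by
      rw [he1]
      refine (setIntegral_eq_of_subset_of_forall_sdiff_eq_zero e.open_source.measurableSet hsub
        ?_).symm
      intro x hx
      have h3 : e x ∉ V := fun h => hx.2 (by rw [he4]; exact ⟨hx.1, h⟩)
      rw [hT0 _ (fun h => h3 (hTV h))]
      rfl
    rw [h2, h1]
    refine integral_congr_ae (Eventually.of_forall fun y => ?_)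
    by_cases hy : y ∈ V
    · have h4 := hXY y hy
      show b y (X' y) (pushJ e J y (X' y)) = b y (X'' y) (Y'' y)
      rw [h4.1, h4.2]
    · show b y (X' y) (pushJ e J y (X' y)) = b y (X'' y) (Y'' y)
      rw [hT0 y (fun h => hy (hTV h))]
      rfl

end

end Crest.Agent.R235.Reg_BOXEX_52
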