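import Crest.Agent.R235.CylDef2_522

/-!
Row 235 (S0364), PACKAGE REG, A7a (helper437, task 410): `CYLF → END → BOXLF`.
-/

set_option autoImplicit false
set_option maxSynthPendingDepth 3

open MeasureTheory Metric Set Filter
open scoped ContDiff Topology Manifold

namespace Crest.Agent.R235.Reg_BOXLF_437

open Crest.Agent.R235.Loc Crest.Agent.R235.Cyl Crest.Agent.R235.Reg_522

noncomputable section

/-- **BOXLF.** -/
theorem boxlf (hC : CYLF) (hE : End.END) : BOXLF := by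
  intro μ β κ L hB R ρ K m X Y hR hm p O hO hp hOs
  obtain ⟨k, S, e, hKG, hDec, -, hS, hnd, hform⟩ := hC μ β κ L hB 0 R ρ K m X Y hm hR
  have hp1 : p.1 ∈ ball (0 : ℂ) R := (hOs hp).1
  have hcl : ∃ C b r : ℝ, 0 < b ∧ 0 < r ∧ ∀ z ∈ ball p.1 r, ∀ z' ∈ ball p.1 r,
      Close (C * dist z z' ^ b) (S z) (S z') := by
    have h1 := mem_ball.1 hp1
    obtain ⟨C, b, r₀, -, hb, -, -, -, -, h⟩ := hDec ((dist p.1 0 + R) / 2) (by linarith)
    refine ⟨C, b, (R - dist p.1 0) / 2, hb, by linarith, fun z hz z' hz' => h z ?_ z' ?_⟩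
    · have h2 := mem_ball.1 hz
      have h3 := dist_triangle z p.1 0
      rw [mem_closedBall]; linarith
    · have h2 := mem_ball.1 hz'
      have h3 := dist_triangle z' p.1 0
      rw [mem_closedBall]; linarith
  obtain ⟨U, n, u, hP⟩ := hE μ β κ L hB.box hB.smμ hB.smβ 0 R k S e hKG p.1 hp1 hcl
    (hnd p.1 hp1) p.2 O hO hp hOs
  refine ⟨U, n, u, hP.sub, ?_, ?_⟩
  · refine ⟨hP.openU, hP.mem, fun j => (hP.disc j).smooth, fun j z hz v =>
      ⟨(hP.disc j).jz z hz v, (hP.disc j).jw z hz v⟩, fun j => (hP.disc j).inj,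
      fun j => (hP.disc j).imm, hP.centre, hP.disj, ?_, hP.proper⟩
    rw [← hP.supp]
    ext q
    constructor
    · rintro ⟨h1, h2⟩
      exact ⟨(hS q.1 (hOs (hP.sub h2)).1 q.2).2 h1, h2⟩
    · rintro ⟨h1, h2⟩
      exact ⟨(hS q.1 (hOs (hP.sub h2)).1 q.2).1 h1, h2⟩
  · intro b hb hb0 hQ
    obtain ⟨Q, hQU, hQc, hQ0⟩ := hQ
    have hQ0' : ∀ q : CC, q.1 ∉ Prod.fst '' Q → b q = 0 := fun q hq =>
      hQ0 q fun h => hq ⟨q, h, rfl⟩
    have hTs : Prod.fst '' Q ⊆ ball (0 : ℂ) R := by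
      rintro _ ⟨q, hq, rfl⟩
      exact (hOs (hP.sub (hQU hq))).1
    obtain ⟨-, h1⟩ := hform b hb ⟨Prod.fst '' Q, hTs, hQc.image continuous_fst, hQ0'⟩ hb0
    obtain ⟨-, -, h2⟩ := hP.cur b hb hb0 ⟨Q, hQU, hQc, hQ0⟩
    change ∫ q, b q (X q) (Y q) ∂m = _
    rw [h1, ← h2]
    refine setIntegral_eq_integral_of_forall_compl_eq_zero fun z hz => ?_
    refine Finset.sum_eq_zero fun w _ => ?_
    rw [hQ0' (z, w) fun h => hz (hTs h)]
    simp

end

end Crest.Agent.R235.Reg_BOXLF_437
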