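import Mathlib
import Crest.Agent.R235.CylDef2_522

/-!
Row 235 (S0364), PACKAGE REG, A1.2e (helper679): a flat current in a cylinder is a `BoxCur`.
-/

set_option autoImplicit false
set_option maxSynthPendingDepth 3

open MeasureTheory Metric Set Filter
open scoped ContDiff Topology

namespace Crest.Agent.R235.Reg_BOXOF_679

open Crest.Agent.R235.Loc Crest.Agent.R235.Cyl Crest.Agent.R235.Reg_522

noncomputable section

/-- the first component of `J X`. -/
def y1 (μ : CC → ℂ) (X : CC → CC) (p : CC) : ℂ :=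
  (Complex.I * thz μ p (X p) - μ p * (starRingEnd ℂ) (Complex.I * thz μ p (X p))) /
    (((1 - ‖μ p‖ ^ 2 : ℝ)) : ℂ)

/-- `J X`, defined everywhere. -/
def Yp (μ β : CC → ℂ) (X : CC → CC) (p : CC) : CC :=
  (y1 μ X p, Complex.I * thw β p (X p) - β p * (starRingEnd ℂ) (y1 μ X p))

theorem uniq {m Z : ℂ} (h : ‖m‖ < 1) (hz : Z + m * (starRingEnd ℂ) Z = 0) : Z = 0 := by
  have h1 : ‖Z‖ = ‖m‖ * ‖Z‖ := by
    have h2 : Z = - (m * (starRingEnd ℂ) Z) := eq_neg_of_add_eq_zero_left hz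
    calc ‖Z‖ = ‖-(m * (starRingEnd ℂ) Z)‖ := by rw [← h2]
      _ = ‖m‖ * ‖Z‖ := by rw [norm_neg, norm_mul, RCLike.norm_conj]
  have h2 : (1 - ‖m‖) * ‖Z‖ = 0 := by linarith
  rcases mul_eq_zero.1 h2 with h3 | h3
  · linarith
  · exact norm_eq_zero.1 h3

theorem y1_eq {μ : CC → ℂ} {X : CC → CC} {p : CC} (h : ‖μ p‖ < 1) :
    y1 μ X p + μ p * (starRingEnd ℂ) (y1 μ X p) = Complex.I * thz μ p (X p) := by
  have hr : (1 - ‖μ p‖ ^ 2 : ℝ) ≠ 0 := by
    have := norm_nonneg (μ p)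
    nlinarith
  have hD : (((1 - ‖μ p‖ ^ 2 : ℝ)) : ℂ) ≠ 0 := by exact_mod_cast hr
  have hm : μ p * (starRingEnd ℂ) (μ p) = ((‖μ p‖ ^ 2 : ℝ) : ℂ) := by
    rw [Complex.mul_conj, Complex.normSq_eq_norm_sq]
  unfold y1
  generalize Complex.I * thz μ p (X p) = a
  rw [map_div₀, map_sub, map_mul, Complex.conj_ofReal, Complex.conj_conj]
  rw [mul_div_assoc', ← add_div, div_eq_iff hD]
  have e1 : a - μ p * (starRingEnd ℂ) a + μ p * ((starRingEnd ℂ) a - (starRingEnd ℂ) (μ p) * a) =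
      a * (1 - μ p * (starRingEnd ℂ) (μ p)) := by ring
  rw [e1, hm]
  push_cast
  ring

theorem jz' {μ : CC → ℂ} (β : CC → ℂ) {X : CC → CC} {p : CC} (h : ‖μ p‖ < 1) :
    thz μ p (Yp μ β X p) = Complex.I * thz μ p (X p) := y1_eq h

theorem jw' {μ β : CC → ℂ} {X : CC → CC} {p : CC} :
    thw β p (Yp μ β X p) = Complex.I * thw β p (X p) := by
  change Complex.I * thw β p (X p) - β p * (starRingEnd ℂ) (y1 μ X p) +
    β p * (starRingEnd ℂ) (y1 μ X p) = _
  ring

theorem eq_of {μ β : CC → ℂ} {X : CC → CC} {p Y : CC} (h : ‖μ p‖ < 1)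
    (h1 : thz μ p Y = Complex.I * thz μ p (X p)) (h2 : thw β p Y = Complex.I * thw β p (X p)) :
    Yp μ β X p = Y := by
  have e1 : y1 μ X p = Y.1 := by
    have h3 := y1_eq (X := X) h
    rw [← h1] at h3
    unfold thz at h3
    have h4 : (y1 μ X p - Y.1) + μ p * (starRingEnd ℂ) (y1 μ X p - Y.1) = 0 := by
      rw [map_sub]
      linear_combination h3
    exact sub_eq_zero.1 (uniq h h4)
  have e2 : Complex.I * thw β p (X p) - β p * (starRingEnd ℂ) (y1 μ X p) = Y.2 := by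
    rw [e1, ← h2]
    unfold thw
    ring
  exact Prod.ext e1 e2

theorem measurable_Yp {μ β : CC → ℂ} {X : CC → CC} (hμ : Measurable μ) (hβ : Measurable β)
    (hX : Measurable X) : Measurable (Yp μ β X) := by
  have hc : Measurable (starRingEnd ℂ) := Complex.continuous_conj.measurable
  have ha : Measurable fun p => Complex.I * thz μ p (X p) := by
    unfold thz
    exact measurable_const.mul (hX.fst.add (hμ.mul (hc.comp hX.fst)))
  have hb : Measurable fun p => Complex.I * thw β p (X p) := by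
    unfold thw
    exact measurable_const.mul (hX.snd.add (hβ.mul (hc.comp hX.fst)))
  have h1 : Measurable (y1 μ X) := by
    unfold y1
    exact (ha.sub (hμ.mul (hc.comp ha))).div
      (Complex.measurable_ofReal.comp (measurable_const.sub (hμ.norm.pow_const 2)))
  exact h1.prodMk (hb.sub (hβ.mul (hc.comp h1)))

theorem norm_y1_le {μ : CC → ℂ} {X : CC → CC} {p : CC} {κ : ℝ} (h : ‖μ p‖ ≤ κ) (hκ : κ < 1)
    (hX : ‖X p‖ = 1) : ‖y1 μ X p‖ ≤ 2 / (1 - κ) := by
  have h0 := norm_nonneg (μ p)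
  have h1 := y1_eq (X := X) (h.trans_lt hκ)
  have hX1 : ‖(X p).1‖ ≤ 1 := (norm_fst_le (X p)).trans hX.le
  have h2 : ‖Complex.I * thz μ p (X p)‖ ≤ 2 := by
    rw [norm_mul, Complex.norm_I, one_mul]
    unfold thz
    calc ‖(X p).1 + μ p * (starRingEnd ℂ) (X p).1‖ ≤ ‖(X p).1‖ + ‖μ p‖ * ‖(X p).1‖ := by
          refine (norm_add_le _ _).trans ?_
          rw [norm_mul, RCLike.norm_conj]
      _ ≤ 1 + 1 * 1 := by gcongr; linarith
      _ = 2 := by norm_num
  have h3 : ‖y1 μ X p‖ - κ * ‖y1 μ X p‖ ≤ 2 := by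
    have h4 : ‖y1 μ X p‖ ≤ ‖Complex.I * thz μ p (X p)‖ + ‖μ p * (starRingEnd ℂ) (y1 μ X p)‖ := by
      have h5 : y1 μ X p = Complex.I * thz μ p (X p) - μ p * (starRingEnd ℂ) (y1 μ X p) := by
        rw [← h1]; ring
      calc ‖y1 μ X p‖ = ‖Complex.I * thz μ p (X p) - μ p * (starRingEnd ℂ) (y1 μ X p)‖ := by
            rw [← h5]
        _ ≤ _ := norm_sub_le _ _
    rw [norm_mul (μ p), RCLike.norm_conj] at h4
    have h6 : ‖μ p‖ * ‖y1 μ X p‖ ≤ κ * ‖y1 μ X p‖ := by gcongr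
    linarith
  rw [le_div_iff₀ (by linarith)]
  linarith

theorem norm_Yp_le {μ β : CC → ℂ} {X : CC → CC} {p : CC} {κ L : ℝ} (h : ‖μ p‖ ≤ κ) (hκ : κ < 1)
    (hL : 0 ≤ L) (hβ : ‖β p‖ ≤ L) (hX : ‖X p‖ = 1) :
    ‖Yp μ β X p‖ ≤ (1 + L) * (1 + 2 / (1 - κ)) := by
  have hk : 0 ≤ 2 / (1 - κ) := div_nonneg (by norm_num) (by linarith)
  have h1 := norm_y1_le h hκ hX
  have hX1 : ‖(X p).1‖ ≤ 1 := (norm_fst_le (X p)).trans hX.le
  have hX2 : ‖(X p).2‖ ≤ 1 := (norm_snd_le (X p)).trans hX.le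
  have h2 : ‖Complex.I * thw β p (X p) - β p * (starRingEnd ℂ) (y1 μ X p)‖ ≤
      (1 + L) + L * (2 / (1 - κ)) := by
    refine (norm_sub_le _ _).trans (add_le_add ?_ ?_)
    · rw [norm_mul, Complex.norm_I, one_mul]
      unfold thw
      calc ‖(X p).2 + β p * (starRingEnd ℂ) (X p).1‖ ≤ ‖(X p).2‖ + ‖β p‖ * ‖(X p).1‖ := by
            refine (norm_add_le _ _).trans ?_
            rw [norm_mul, RCLike.norm_conj]
        _ ≤ 1 + L * 1 := by gcongr
        _ = 1 + L := by ring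
    · rw [norm_mul, RCLike.norm_conj]
      gcongr
  rw [Yp, Prod.norm_def]
  refine max_le ?_ ?_
  · dsimp only
    nlinarith [mul_nonneg hL hk]
  · dsimp only
    nlinarith [mul_nonneg hL hk]

theorem ae_supp (m : Measure CC) : ∀ᵐ p ∂m, SuppE m p := by
  have h1 : m {p | ¬ SuppE m p} = 0 := by
    refine measure_null_of_locally_null _ fun p hp => ?_
    have hp' : ∃ r > 0, ¬ 0 < m (ball p r) := by
      by_contra hcon
      push Not at hcon
      exact hp fun r hr => hcon r hr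
    obtain ⟨r, hr, h⟩ := hp'
    exact ⟨ball p r, mem_nhdsWithin_of_mem_nhds (ball_mem_nhds p hr), by simpa using h⟩
  exact h1

/-- **(A1.2e)**. -/
theorem boxof : BOXOF := by
  intro μ β κ L hb J R ρ₀ ρ₁ hR hρ₀ hρ hJ m X K hF hsupp
  have hκ0 := hb.box.κ0
  have hκ1 := hb.box.κ1
  have hL0 := hb.box.L0
  have hm1 : ∀ p, ‖μ p‖ < 1 := fun p => (hb.box.bμ p).trans_lt hκ1
  have hfin := hF.fin
  have hY : ∀ p ∈ ball (0 : ℂ) R ×ˢ ball (0 : ℂ) ρ₁, Yp μ β X p = J p (X p) := fun p hp =>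
    eq_of (hm1 p) (hJ p hp (X p)).1 (hJ p hp (X p)).2
  set K' : ℝ := max K ((1 + L) * (1 + 2 / (1 - κ))) with hK'
  have hae : ∀ᵐ p ∂m, p ∈ ball (0 : ℂ) R ×ˢ ball (0 : ℂ) ρ₁ ∧ ‖p.2‖ ≤ ρ₀ := by
    filter_upwards [hF.supp, ae_supp m] with p h1 h2
    exact ⟨h1, hsupp p h1 h2⟩
  refine ⟨X, Yp μ β X, K', ?_, fun p hp => ⟨rfl, hY p hp⟩⟩
  refine
    { fin := hfin
      mX := hF.mX
      mY := measurable_Yp hb.smμ.continuous.measurable hb.smβ.continuous.measurable hF.mX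
      nX := hF.nX
      nY := fun p => (norm_Yp_le (hb.box.bμ p) hκ1 hL0 (hb.bβ p) (hF.nX p)).trans (le_max_right _ _)
      jz := fun p => jz' β (hm1 p)
      jw := fun p => jw'
      supp := ?_
      closed := ?_
      up := ?_
      low := ?_
      flat := ?_ }
  · filter_upwards [hae] with p hp
    exact ⟨hp.1.1, hp.2⟩
  · intro l hl hlc hls
    let χ : ContDiffBump (0 : ℂ) :=
      { rIn := (2 * ρ₀ + ρ₁) / 3
        rOut := (ρ₀ + 2 * ρ₁) / 3
        rIn_pos := by linarith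
        rIn_lt_rOut := by linarith }
    have hχ : ContDiff ℝ ∞ (fun p : CC => χ p.2) := χ.contDiff.comp contDiff_snd
    set l' : CC → (CC →L[ℝ] ℝ) := fun p => χ p.2 • l p with hl'
    have h1 : ContDiff ℝ ∞ l' := hχ.smul hl
    have hs1 : Function.support l' ⊆ Function.support l := by
      intro p hp h0
      exact hp (by change χ p.2 • l p = 0; rw [h0, smul_zero])
    have hs2 : Function.support l' ⊆ {q : CC | q.2 ∈ closedBall (0 : ℂ) ((ρ₀ + 2 * ρ₁) / 3)} := by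
      intro p hp
      by_contra hcon
      refine hp ?_
      have h0 : χ p.2 = 0 := by
        by_contra h00
        have hq' : p.2 ∈ Function.support χ := h00
        rw [χ.support_eq] at hq'
        exact hcon (ball_subset_closedBall hq')
      change χ p.2 • l p = 0
      rw [h0, zero_smul]
    have h2 : HasCompactSupport l' := hlc.mono hs1
    have h3 : tsupport l' ⊆ ball (0 : ℂ) R ×ˢ ball (0 : ℂ) ρ₁ := by
      intro p hp
      have a1 : p ∈ tsupport l := closure_mono hs1 hp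
      have a3 : p.2 ∈ closedBall (0 : ℂ) ((ρ₀ + 2 * ρ₁) / 3) := by
        have hcl : IsClosed {q : CC | q.2 ∈ closedBall (0 : ℂ) ((ρ₀ + 2 * ρ₁) / 3)} :=
          isClosed_closedBall.preimage continuous_snd
        exact closure_minimal hs2 hcl hp
      refine ⟨(hls a1).1, ?_⟩
      rw [mem_closedBall] at a3
      rw [mem_ball]
      linarith
    have h4 := hF.closed l' h1 h2 h3
    rw [← h4]
    refine integral_congr_ae ?_
    filter_upwards [hae] with p hp
    have e : l' =ᶠ[𝓝 p] l := by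
      have e1 : p.2 ∈ ball (0 : ℂ) χ.rIn := by
        rw [mem_ball_zero_iff]
        change ‖p.2‖ < (2 * ρ₀ + ρ₁) / 3
        linarith [hp.2]
      have e2 : ∀ᶠ q : CC in 𝓝 p, q.2 ∈ ball (0 : ℂ) χ.rIn :=
        continuous_snd.continuousAt.eventually_mem (isOpen_ball.mem_nhds e1)
      filter_upwards [e2] with q hq
      have e3 : χ q.2 = 1 := χ.one_of_mem_closedBall (ball_subset_closedBall hq)
      simp only [hl', e3, one_smul]
    rw [e.fderiv_eq, hY p hp.1]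
  · intro p r hr
    refine (hF.up p r hr).trans ?_
    gcongr
    exact le_max_left _ _
  · intro R' hR'
    obtain ⟨c₀, hc₀, r₀, hr₀, h⟩ := hF.low (closedBall 0 R' ×ˢ closedBall 0 ρ₀) (by
      refine Set.prod_mono (closedBall_subset_ball hR') (closedBall_subset_ball hρ))
      ((isCompact_closedBall _ _).prod (isCompact_closedBall _ _))
    refine ⟨c₀, hc₀, r₀, hr₀, fun p hp hps r hr hrr => h p ⟨hp, ?_⟩ hps r hr hrr⟩
    rw [mem_closedBall_zero_iff]
    by_contra hcon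
    push Not at hcon
    have hz : m (ball p (‖p.2‖ - ρ₀)) = 0 := by
      refine measure_mono_null (t := {q | ¬ (q ∈ ball (0 : ℂ) R ×ˢ ball (0 : ℂ) ρ₁ ∧ ‖q.2‖ ≤ ρ₀)})
        (fun q hq hq2 => ?_) hae
      rw [mem_ball, dist_eq_norm] at hq
      have h5 : ‖p.2‖ ≤ ‖q.2‖ + ‖q - p‖ := by
        calc ‖p.2‖ = ‖q.2 - (q - p).2‖ := by rw [Prod.snd_sub]; congr 1; ring
          _ ≤ ‖q.2‖ + ‖(q - p).2‖ := norm_sub_le _ _
          _ ≤ ‖q.2‖ + ‖q - p‖ := by gcongr; exact norm_snd_le _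
      linarith [hq2.2]
    exact (hps (‖p.2‖ - ρ₀) (by linarith)).ne' hz
  · filter_upwards [hF.flat, hF.supp] with p hp hps
    intro g hg hgc hga
    have h1 := hp g hg hgc hga
    rw [hY p hps]
    refine h1.congr fun r => ?_
    congr 1
    refine integral_congr_ae ?_
    filter_upwards [hF.supp] with q hq
    rw [hY q hq]

end

end Crest.Agent.R235.Reg_BOXOF_679
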