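import Crest.Agent.R235.CylDef2_522

/-!
Row 235, PACKAGE REG, A1.2c (helper464): a `J`-cylinder at `0` whose vertical boundary misses the
support: `cylex : POLFOL → GOODDIR → CYLEX`.
-/

set_option autoImplicit false
set_option maxSynthPendingDepth 3

open MeasureTheory Metric Set Filter
open scoped ContDiff Topology NNReal

namespace Crest.Agent.R235.Reg_CYLEX_464

open Crest.Agent.R235.Cyl Crest.Agent.R235.NWDefs_334 Crest.Agent.R235.Reg_522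

noncomputable section

/-! ### the model `(θ, s, z) ↦ (s + θ z, z)` -/

/-- the model -/
def P (x : ℂ × ℂ × ℂ) : ℂ × ℂ := (x.2.1 + x.1 * x.2.2, x.2.2)

/-- the derivative of the model -/
def DP (x : ℂ × ℂ × ℂ) : ℂ × ℂ × ℂ →L[ℝ] ℂ × ℂ :=
  ((ContinuousLinearMap.fst ℝ ℂ ℂ).comp (ContinuousLinearMap.snd ℝ ℂ (ℂ × ℂ)) +
    (x.1 • (ContinuousLinearMap.snd ℝ ℂ ℂ).comp (ContinuousLinearMap.snd ℝ ℂ (ℂ × ℂ)) +
      x.2.2 • ContinuousLinearMap.fst ℝ ℂ (ℂ × ℂ))).prod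
    ((ContinuousLinearMap.snd ℝ ℂ ℂ).comp (ContinuousLinearMap.snd ℝ ℂ (ℂ × ℂ)))

theorem DP_apply (x a : ℂ × ℂ × ℂ) :
    DP x a = (x.2.2 * a.1 + a.2.1 + x.1 * a.2.2, a.2.2) := by
  simp only [DP, ContinuousLinearMap.prod_apply, add_apply, ContinuousLinearMap.comp_apply,
    ContinuousLinearMap.coe_fst', ContinuousLinearMap.coe_snd', smul_apply, smul_eq_mul]
  congr 1
  ring

theorem hasFDerivAt_P (x : ℂ × ℂ × ℂ) : HasFDerivAt P (DP x) x := by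
  have h1 : HasFDerivAt (fun x : ℂ × ℂ × ℂ => x.1) (ContinuousLinearMap.fst ℝ ℂ (ℂ × ℂ)) x :=
    hasFDerivAt_fst
  have h2 : HasFDerivAt (fun x : ℂ × ℂ × ℂ => x.2.1)
      ((ContinuousLinearMap.fst ℝ ℂ ℂ).comp (ContinuousLinearMap.snd ℝ ℂ (ℂ × ℂ))) x :=
    ((ContinuousLinearMap.fst ℝ ℂ ℂ).comp (ContinuousLinearMap.snd ℝ ℂ (ℂ × ℂ))).hasFDerivAt
  have h3 : HasFDerivAt (fun x : ℂ × ℂ × ℂ => x.2.2)
      ((ContinuousLinearMap.snd ℝ ℂ ℂ).comp (ContinuousLinearMap.snd ℝ ℂ (ℂ × ℂ))) x :=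
    ((ContinuousLinearMap.snd ℝ ℂ ℂ).comp (ContinuousLinearMap.snd ℝ ℂ (ℂ × ℂ))).hasFDerivAt
  exact (h2.add (h1.mul h3)).prodMk h3

/-- the domain -/
def Dm : Set (ℂ × ℂ × ℂ) := ball 0 (1 / 4) ×ˢ (ball 0 (1 / 4) ×ˢ ball 0 1)

theorem isOpen_Dm : IsOpen Dm := isOpen_ball.prod (isOpen_ball.prod isOpen_ball)

theorem convex_Dm : Convex ℝ Dm :=
  (convex_ball _ _).prod ((convex_ball _ _).prod (convex_ball _ _))

/-- the Lipschitz estimate -/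
theorem lip {Ψ : ℂ × ℂ × ℂ → ℂ × ℂ} {δ : ℝ} (hδ : 0 ≤ δ) (hΨ : ContDiffOn ℝ ∞ Ψ Dm)
    (hd : ∀ x ∈ Dm, ∀ a : ℂ × ℂ × ℂ,
      ‖fderiv ℝ Ψ x a - (x.2.2 * a.1 + a.2.1 + x.1 * a.2.2, a.2.2)‖ ≤ δ * ‖a‖)
    {x y : ℂ × ℂ × ℂ} (hx : x ∈ Dm) (hy : y ∈ Dm) :
    ‖Ψ x - Ψ y - (P x - P y)‖ ≤ δ * ‖x - y‖ := by
  have hdΨ : ∀ x ∈ Dm, DifferentiableAt ℝ Ψ x := fun x hx =>
    (hΨ.contDiffAt (isOpen_Dm.mem_nhds hx)).differentiableAt (by simp)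
  have h1 : ∀ x ∈ Dm, HasFDerivWithinAt (fun x => Ψ x - P x) (fderiv ℝ Ψ x - DP x) Dm x :=
    fun x hx => ((hdΨ x hx).hasFDerivAt.sub (hasFDerivAt_P x)).hasFDerivWithinAt
  have h2 : ∀ x ∈ Dm, ‖fderiv ℝ Ψ x - DP x‖ ≤ δ := fun x hx =>
    ContinuousLinearMap.opNorm_le_bound _ hδ fun a => by
      rw [sub_apply, DP_apply]
      exact hd x hx a
  have h3 := convex_Dm.norm_image_sub_le_of_norm_hasFDerivWithin_le h1 h2 hy hx
  have e : Ψ x - Ψ y - (P x - P y) = (Ψ x - P x) - (Ψ y - P y) := by abel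
  rw [e]
  exact h3

/-! ### the linear isomorphism `(s, z) ↦ (s + θ z, z)` -/

/-- the linear isomorphism -/
def T (θ : ℂ) : (ℂ × ℂ) ≃L[ℝ] (ℂ × ℂ) :=
  ContinuousLinearEquiv.equivOfInverse
    ((ContinuousLinearMap.fst ℝ ℂ ℂ + θ • ContinuousLinearMap.snd ℝ ℂ ℂ).prod
      (ContinuousLinearMap.snd ℝ ℂ ℂ))
    ((ContinuousLinearMap.fst ℝ ℂ ℂ - θ • ContinuousLinearMap.snd ℝ ℂ ℂ).prod
      (ContinuousLinearMap.snd ℝ ℂ ℂ))
    (fun x => by ext <;> simp) (fun x => by ext <;> simp)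

@[simp] theorem T_apply (θ : ℂ) (x : ℂ × ℂ) : T θ x = (x.1 + θ * x.2, x.2) := rfl

@[simp] theorem T_symm_apply (θ : ℂ) (x : ℂ × ℂ) : (T θ).symm x = (x.1 - θ * x.2, x.2) := rfl

theorem norm_pair_le {a b : ℂ} {C : ℝ} (h1 : ‖a‖ ≤ C) (h2 : ‖b‖ ≤ C) : ‖((a, b) : ℂ × ℂ)‖ ≤ C :=
  max_le h1 h2

theorem T_le {θ : ℂ} (hθ : ‖θ‖ ≤ 1 / 4) (x : ℂ × ℂ) : ‖T θ x‖ ≤ 5 / 4 * ‖x‖ := by
  have h1 : ‖x.1‖ ≤ ‖x‖ := norm_fst_le x
  have h2 : ‖x.2‖ ≤ ‖x‖ := norm_snd_le x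
  have h3 : 0 ≤ ‖x‖ := norm_nonneg x
  refine norm_pair_le ?_ (by show ‖x.2‖ ≤ _; linarith)
  calc ‖x.1 + θ * x.2‖ ≤ ‖x.1‖ + ‖θ‖ * ‖x.2‖ := (norm_add_le _ _).trans (by rw [norm_mul])
    _ ≤ ‖x‖ + 1 / 4 * ‖x‖ := by gcongr
    _ = _ := by ring

theorem T_symm_le {θ : ℂ} (hθ : ‖θ‖ ≤ 1 / 4) (x : ℂ × ℂ) : ‖(T θ).symm x‖ ≤ 5 / 4 * ‖x‖ := by
  have h1 : ‖x.1‖ ≤ ‖x‖ := norm_fst_le x
  have h2 : ‖x.2‖ ≤ ‖x‖ := norm_snd_le x
  have h3 : 0 ≤ ‖x‖ := norm_nonneg x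
  refine norm_pair_le ?_ (by show ‖x.2‖ ≤ _; linarith)
  calc ‖x.1 - θ * x.2‖ ≤ ‖x.1‖ + ‖θ‖ * ‖x.2‖ := (norm_sub_le _ _).trans (by rw [norm_mul])
    _ ≤ ‖x‖ + 1 / 4 * ‖x‖ := by gcongr
    _ = _ := by ring

theorem T_ge {θ : ℂ} (hθ : ‖θ‖ ≤ 1 / 4) (x : ℂ × ℂ) : 4 / 5 * ‖x‖ ≤ ‖T θ x‖ := by
  have h := T_symm_le hθ (T θ x)
  rw [ContinuousLinearEquiv.symm_apply_apply] at h
  linarith

theorem T_symm_norm {θ : ℂ} (hθ : ‖θ‖ ≤ 1 / 4) :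
    ‖((T θ).symm : (ℂ × ℂ) →L[ℝ] (ℂ × ℂ))‖ ≤ 5 / 4 :=
  ContinuousLinearMap.opNorm_le_bound _ (by norm_num) (T_symm_le hθ)

/-- the lower bound for `GOODDIR` -/
theorem P_ge {θ θ' z z' : ℂ} (hθ' : ‖θ'‖ ≤ 1 / 4) (hz : 1 / 2 ≤ ‖z‖) :
    1 / 4 * max ‖θ - θ'‖ ‖z - z'‖ ≤ max ‖θ * z - θ' * z'‖ ‖z - z'‖ := by
  have h1 : θ * z - θ' * z' = (θ - θ') * z + θ' * (z - z') := by ring
  have h2 : ‖θ - θ'‖ * ‖z‖ - ‖θ'‖ * ‖z - z'‖ ≤ ‖θ * z - θ' * z'‖ := by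
    rw [h1, ← norm_mul, ← norm_mul]
    have := norm_sub_norm_le ((θ - θ') * z) (-(θ' * (z - z')))
    rw [norm_neg, sub_neg_eq_add] at this
    exact this
  have h3 : ‖θ - θ'‖ * (1 / 2) ≤ ‖θ - θ'‖ * ‖z‖ := by gcongr
  have h4 : ‖θ'‖ * ‖z - z'‖ ≤ 1 / 4 * ‖z - z'‖ := by gcongr
  have hA := norm_nonneg (θ - θ')
  have hB := norm_nonneg (z - z')
  rcases le_total (‖θ - θ'‖ / 4) ‖z - z'‖ with h | h
  · refine le_trans ?_ (le_max_right _ _)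
    rcases max_choice ‖θ - θ'‖ ‖z - z'‖ with e | e <;> rw [e] <;> linarith
  · refine le_trans ?_ (le_max_left _ _)
    rcases max_choice ‖θ - θ'‖ ‖z - z'‖ with e | e <;> rw [e] <;> linarith

/-- the set of points outside the support is open. -/
theorem isOpen_notSupp (m : Measure CC) : IsOpen {p : CC | ¬ SuppE m p} := by
  rw [Metric.isOpen_iff]
  intro p hp
  simp only [SuppE, mem_setOf_eq, not_forall, not_lt, nonpos_iff_eq_zero] at hp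
  obtain ⟨r, hr, h0⟩ := hp
  refine ⟨r, hr, fun q hq h => ?_⟩
  have h1 := h (r - dist q p) (sub_pos.2 hq)
  have h2 : ball q (r - dist q p) ⊆ ball p r := ball_subset_ball' (by linarith)
  exact (h1.trans_le (measure_mono h2)).ne' h0

/-- a bounded below endomorphism as an equivalence. -/
theorem exists_equiv (A : CC →L[ℝ] CC) {c : ℝ} (hc : 0 < c) (hA : ∀ v, c * ‖v‖ ≤ ‖A v‖) :
    ∃ B : CC ≃L[ℝ] CC, (B : CC →L[ℝ] CC) = A := by
  have hinj : Function.Injective (A : CC →ₗ[ℝ] CC) := by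
    rw [← LinearMap.ker_eq_bot, LinearMap.ker_eq_bot']
    intro v hv
    have h1 := hA v
    have h2 : A v = 0 := hv
    rw [h2, norm_zero] at h1
    have h3 : ‖v‖ ≤ 0 := by
      by_contra h
      push Not at h
      have := mul_pos hc h
      linarith
    exact norm_le_zero_iff.1 h3
  refine ⟨(LinearEquiv.ofInjectiveEndo (A : CC →ₗ[ℝ] CC) hinj).toContinuousLinearEquiv, ?_⟩
  ext v <;> rfl

/-- `R • T` -/
def TR (θ : ℂ) {R : ℝ} (hR : R ≠ 0) : CC ≃L[ℝ] CC :=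
  ContinuousLinearEquiv.equivOfInverse (R • (T θ : CC →L[ℝ] CC))
    (R⁻¹ • ((T θ).symm : CC →L[ℝ] CC))
    (fun x => by
      show R⁻¹ • (T θ).symm (R • T θ x) = x
      rw [map_smul, ContinuousLinearEquiv.symm_apply_apply, smul_smul, inv_mul_cancel₀ hR,
        one_smul])
    (fun x => by
      show R • T θ (R⁻¹ • (T θ).symm x) = x
      rw [map_smul, ContinuousLinearEquiv.apply_symm_apply, smul_smul, mul_inv_cancel₀ hR,
        one_smul])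

theorem TR_apply (θ : ℂ) {R : ℝ} (hR : R ≠ 0) (x : CC) : TR θ hR x = R • T θ x := rfl

theorem TR_symm_norm {θ : ℂ} (hθ : ‖θ‖ ≤ 1 / 4) {R : ℝ} (hR : 0 < R) :
    ‖((TR θ hR.ne').symm : CC →L[ℝ] CC)‖ ≤ 5 / (4 * R) := by
  refine ContinuousLinearMap.opNorm_le_bound _ (by positivity) fun x => ?_
  have h : ((TR θ hR.ne').symm : CC →L[ℝ] CC) x = R⁻¹ • (T θ).symm x := rfl
  rw [h, norm_smul, Real.norm_of_nonneg (inv_nonneg.2 hR.le)]
  calc R⁻¹ * ‖(T θ).symm x‖ ≤ R⁻¹ * (5 / 4 * ‖x‖) := by gcongr; exact T_symm_le hθ x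
    _ = 5 / (4 * R) * ‖x‖ := by field_simp

theorem cylex (hP : POLFOL) (hG : GOODDIR) : CYLEX := by
  intro J r hJ m X K hm
  have hr := hJ.pos
  obtain ⟨δ, hδ, hδ1, hδ2⟩ : ∃ δ : ℝ, 0 < δ ∧ δ ≤ 1 / 100 ∧ δ ≤ r / 20 :=
    ⟨min (1 / 100) (r / 20), lt_min (by norm_num) (by positivity), min_le_left _ _,
      min_le_right _ _⟩
  obtain ⟨R, hR, hRδ, Ψ, hΨ, hΨ0, hΨJ, hΨb⟩ := hP J r hJ δ hδ
  have hR2 : 2 * R < r := by linarith
  have hL : ∀ {x y : ℂ × ℂ × ℂ}, x ∈ Dm → y ∈ Dm →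
      ‖Ψ x - Ψ y - (P x - P y)‖ ≤ δ * ‖x - y‖ := fun {x y} hx hy =>
    lip hδ.le hΨ (fun x hx a => (hΨb x.1 hx.1 x.2.1 hx.2.1 x.2.2 hx.2.2).2.2 a) hx hy
  -- the sup bound
  have hbd : ∀ x ∈ Dm, ‖Ψ x‖ ≤ 2 := by
    rintro ⟨θ, s, z⟩ ⟨hθ, hs, hz⟩
    have h1 := hL (x := (θ, s, z)) (y := (θ, 0, 0)) ⟨hθ, hs, hz⟩
      ⟨hθ, mem_ball_self (by norm_num), mem_ball_self one_pos⟩
    rw [mem_ball_zero_iff] at hθ hs hz
    rw [hΨ0 θ (mem_ball_zero_iff.2 hθ)] at h1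
    have h2 : P (θ, 0, 0) = 0 := by simp [P]
    rw [h2, sub_zero, sub_zero] at h1
    have h3 : ‖((θ, s, z) : ℂ × ℂ × ℂ) - (θ, 0, 0)‖ ≤ 1 := by
      have e : ((θ, s, z) : ℂ × ℂ × ℂ) - (θ, 0, 0) = (0, s, z) := by
        simp
      rw [e]
      refine max_le (by simp) (max_le ?_ ?_)
      · show ‖s‖ ≤ 1
        linarith
      · show ‖z‖ ≤ 1
        linarith
    have h4 : ‖P (θ, s, z)‖ ≤ 1 := by
      refine norm_pair_le ?_ hz.le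
      calc ‖s + θ * z‖ ≤ ‖s‖ + ‖θ‖ * ‖z‖ := (norm_add_le _ _).trans (by rw [norm_mul])
        _ ≤ 1 / 4 + 1 / 4 * 1 := by gcongr
        _ ≤ 1 := by norm_num
    have h5 : ‖Ψ (θ, s, z)‖ ≤ ‖Ψ (θ, s, z) - P (θ, s, z)‖ + ‖P (θ, s, z)‖ := by
      have := norm_add_le (Ψ (θ, s, z) - P (θ, s, z)) (P (θ, s, z))
      rwa [sub_add_cancel] at this
    have h6 : δ * ‖((θ, s, z) : ℂ × ℂ × ℂ) - (θ, 0, 0)‖ ≤ δ * 1 := by gcongr
    linarith
  -- a good direction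
  set Q : Set CC := closedBall 0 (2 * R) with hQ
  have hQsub : Q ⊆ ball 0 r := closedBall_subset_ball hR2
  obtain ⟨c₀, hc₀, r₀, hr₀, hlow⟩ := hm.low Q hQsub (isCompact_closedBall _ _)
  have hQm : ∀ x ∈ Dm, R • Ψ x ∈ Q := by
    intro x hx
    rw [hQ, mem_closedBall_zero_iff, norm_smul, Real.norm_of_nonneg hR.le]
    have := hbd x hx
    nlinarith
  obtain ⟨θ, hθ, ρ, hρ, hmiss⟩ := hG m c₀ r₀ {p | p ∈ Q ∧ SuppE m p} hm.fin hc₀ hr₀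
    (fun p hp r hr hr' => hlow p hp.1 hp.2 r hr hr') (fun q => R • Ψ (q.1, 0, q.2)) (1 / 4) (1 / 2)
    (3 / 4) (R / 8) (by norm_num) (by norm_num) (by norm_num) (by positivity) (by
      rintro ⟨θ, z⟩ ⟨hθ, hz⟩ ⟨θ', z'⟩ ⟨hθ', hz'⟩
      have h1 := hL (x := (θ, 0, z)) (y := (θ', 0, z'))
        ⟨hθ, mem_ball_self (by norm_num), mem_ball_zero_iff.2 (by have := hz.2; simp at this; linarith)⟩
        ⟨hθ', mem_ball_self (by norm_num), mem_ball_zero_iff.2 (by have := hz'.2; simp at this; linarith)⟩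
      have e1 : ‖((θ, 0, z) : ℂ × ℂ × ℂ) - (θ', 0, z')‖ = max ‖θ - θ'‖ ‖z - z'‖ := by
        simp [Prod.norm_def]
      have e2 : ‖P (θ, 0, z) - P (θ', 0, z')‖ = max ‖θ * z - θ' * z'‖ ‖z - z'‖ := by
        simp [P, Prod.norm_def]
      have h2 := P_ge (θ := θ) (z' := z') (mem_ball_zero_iff.1 hθ').le hz.1.le
      rw [e1] at h1
      rw [← e2] at h2
      have h3 : dist ((θ, z) : ℂ × ℂ) (θ', z') = max ‖θ - θ'‖ ‖z - z'‖ := by
        simp [dist_eq_norm]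
      rw [h3, dist_eq_norm, ← smul_sub, norm_smul, Real.norm_of_nonneg hR.le]
      have h4 : ‖P (θ, 0, z) - P (θ', 0, z')‖ ≤ ‖Ψ (θ, 0, z) - Ψ (θ', 0, z')‖
          + ‖Ψ (θ, 0, z) - Ψ (θ', 0, z') - (P (θ, 0, z) - P (θ', 0, z'))‖ := by
        have := norm_sub_le (Ψ (θ, 0, z) - Ψ (θ', 0, z'))
          (Ψ (θ, 0, z) - Ψ (θ', 0, z') - (P (θ, 0, z) - P (θ', 0, z')))
        rwa [sub_sub_cancel] at this
      set A := max ‖θ - θ'‖ ‖z - z'‖ with hA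
      have hA0 : 0 ≤ A := (norm_nonneg _).trans (le_max_left _ _)
      have h5 : δ * A ≤ 1 / 100 * A := by gcongr
      have h6 : 1 / 8 * A ≤ ‖Ψ (θ, 0, z) - Ψ (θ', 0, z')‖ := by linarith
      calc R / 8 * A = R * (1 / 8 * A) := by ring
        _ ≤ _ := by gcongr)
  have hθn : ‖θ‖ ≤ 1 / 4 := (mem_ball_zero_iff.1 hθ).le
  -- the map
  set V : Set CC := ball 0 (1 / 4) ×ˢ ball 0 1 with hV
  have hVo : IsOpen V := isOpen_ball.prod isOpen_ball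
  have hVD : ∀ p ∈ V, (θ, p) ∈ Dm := fun p hp => ⟨hθ, hp.1, hp.2⟩
  set H : CC → CC := fun p => R • Ψ (θ, p) with hH
  have hHc : ContDiffOn ℝ ∞ H V := by
    refine ContDiffOn.const_smul R ?_
    exact hΨ.comp (contDiff_const.prodMk contDiff_id).contDiffOn hVD
  have hΨd : ∀ p ∈ V, HasFDerivAt Ψ (fderiv ℝ Ψ (θ, p)) (θ, p) := fun p hp =>
    ((hΨ.contDiffAt (isOpen_Dm.mem_nhds (hVD p hp))).differentiableAt (by simp)).hasFDerivAt
  set A : CC → CC →L[ℝ] CC := fun p =>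
    R • (fderiv ℝ Ψ (θ, p)).comp (ContinuousLinearMap.inr ℝ ℂ (ℂ × ℂ)) with hA
  have hHd : ∀ p ∈ V, HasFDerivAt H (A p) p := by
    intro p hp
    have h1 : HasFDerivAt (fun p : CC => ((θ, p) : ℂ × ℂ × ℂ))
        (ContinuousLinearMap.inr ℝ ℂ (ℂ × ℂ)) p :=
      (hasFDerivAt_const θ p).prodMk (hasFDerivAt_id p)
    exact ((hΨd p hp).comp p h1).const_smul R
  have hE : ∀ p ∈ V, ∀ v : CC, ‖A p v - R • T θ v‖ ≤ R * (δ * ‖v‖) := by
    intro p hp v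
    have h1 := (hΨb θ hθ p.1 hp.1 p.2 hp.2).2.2 (0, v)
    have e1 : A p v - R • T θ v
        = R • (fderiv ℝ Ψ (θ, p.1, p.2) (0, v) - (p.2 * 0 + v.1 + θ * v.2, v.2)) := by
      rw [smul_sub]
      simp only [mul_zero, zero_add]
      rfl
    have e2 : ‖((0, v) : ℂ × ℂ × ℂ)‖ = ‖v‖ := by simp [Prod.norm_def]
    rw [e1, norm_smul, Real.norm_of_nonneg hR.le]
    rw [e2] at h1
    exact mul_le_mul_of_nonneg_left h1 hR.le
  have hTle := T_le hθn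
  have hTge := T_ge hθn
  have hAge : ∀ p ∈ V, ∀ v : CC, R / 2 * ‖v‖ ≤ ‖A p v‖ := by
    intro p hp v
    have h1 := hE p hp v
    have h2 : ‖R • T θ v‖ ≤ ‖A p v‖ + ‖A p v - R • T θ v‖ := by
      have := norm_sub_le (A p v) (A p v - R • T θ v)
      rwa [sub_sub_cancel] at this
    rw [norm_smul, Real.norm_of_nonneg hR.le] at h2
    have h3 : R * (4 / 5 * ‖v‖) ≤ R * ‖T θ v‖ := by gcongr; exact hTge v
    have h4 : R * (δ * ‖v‖) ≤ R * (1 / 100 * ‖v‖) := by gcongr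
    have h5 : 0 ≤ R * ‖v‖ := by positivity
    nlinarith
  have hAle : ∀ p ∈ V, ∀ v : CC, ‖A p v‖ ≤ R * (2 * ‖v‖) := by
    intro p hp v
    have h1 := hE p hp v
    have h2 : ‖A p v‖ ≤ ‖A p v - R • T θ v‖ + ‖R • T θ v‖ := by
      have := norm_add_le (A p v - R • T θ v) (R • T θ v)
      rwa [sub_add_cancel] at this
    rw [norm_smul, Real.norm_of_nonneg hR.le] at h2
    have h3 : R * ‖T θ v‖ ≤ R * (5 / 4 * ‖v‖) := by gcongr; exact hTle v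
    have h4 : R * (δ * ‖v‖) ≤ R * (1 / 100 * ‖v‖) := by gcongr
    have h5 : 0 ≤ R * ‖v‖ := by positivity
    nlinarith
  -- the width
  set W : Set CC := V ∩ H ⁻¹' {p : CC | ¬ SuppE m p} with hW
  have hWo : IsOpen W := hHc.continuousOn.isOpen_inter_preimage hVo (isOpen_notSupp m)
  have hρ1 : 1 / 2 < ρ := hρ.1
  have hρ2 : ρ < 3 / 4 := hρ.2
  have hCW : ({0} : Set ℂ) ×ˢ sphere (0 : ℂ) ρ ⊆ W := by
    rintro ⟨s, z⟩ ⟨hs, hz⟩
    rw [mem_singleton_iff] at hs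
    subst hs
    have hz' : ‖z‖ = ρ := mem_sphere_zero_iff_norm.1 hz
    have hzV : ((0, z) : ℂ × ℂ) ∈ V :=
      ⟨mem_ball_self (by norm_num), mem_ball_zero_iff.2 (by rw [hz']; linarith)⟩
    refine ⟨hzV, fun h => hmiss z hz' ⟨hQm _ (hVD _ hzV), h⟩⟩
  obtain ⟨ε₁, hε₁, hth⟩ := (isCompact_singleton.prod (isCompact_sphere (0 : ℂ)
    ρ)).exists_thickening_subset_open hWo hCW
  obtain ⟨ε, hε, hε1, hε2⟩ : ∃ ε : ℝ, 0 < ε ∧ ε ≤ ε₁ ∧ ε ≤ 1 / 8 :=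
    ⟨min ε₁ (1 / 8), lt_min hε₁ (by norm_num), min_le_left _ _, min_le_right _ _⟩
  set V' : Set CC := ball 0 ε ×ˢ ball 0 (ρ + ε) with hV'
  have hV'o : IsOpen V' := isOpen_ball.prod isOpen_ball
  have hV'V : V' ⊆ V := prod_mono (ball_subset_ball (by linarith)) (ball_subset_ball (by linarith))
  have hmiss2 : ∀ p ∈ V', ρ < ‖p.2‖ → ¬ SuppE m (H p) := by
    rintro ⟨s, z⟩ ⟨hs, hz⟩ hz2
    rw [mem_ball_zero_iff] at hs hz
    have hz0 : 0 < ‖z‖ := by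
      have : ρ < ‖z‖ := hz2
      linarith
    have hmem : ((s, z) : CC) ∈ thickening ε₁ (({0} : Set ℂ) ×ˢ sphere (0 : ℂ) ρ) := by
      rw [mem_thickening_iff]
      refine ⟨(0, ((ρ / ‖z‖ : ℝ) : ℂ) * z), ⟨rfl, ?_⟩, ?_⟩
      · rw [mem_sphere_zero_iff_norm, norm_mul, Complex.norm_real, Real.norm_of_nonneg
          (by positivity)]
        field_simp
      · rw [Prod.dist_eq]
        refine max_lt ?_ ?_
        · rw [dist_zero_right]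
          show ‖s‖ < ε₁
          linarith
        · show dist z (((ρ / ‖z‖ : ℝ) : ℂ) * z) < ε₁
          have e : z - ((ρ / ‖z‖ : ℝ) : ℂ) * z = ((1 - ρ / ‖z‖ : ℝ) : ℂ) * z := by
            push_cast; ring
          rw [dist_eq_norm, e, norm_mul, Complex.norm_real, Real.norm_of_nonneg (by
            rw [sub_nonneg, div_le_one hz0]; exact hz2.le), sub_mul, one_mul,
            div_mul_cancel₀ _ hz0.ne']
          have : ‖z‖ < ρ + ε := hz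
          linarith
    exact (hth hmem).2
  -- the homeomorphism
  obtain ⟨cc, hcc⟩ : ∃ cc : ℝ≥0, (cc : ℝ) = R * δ := ⟨⟨R * δ, by positivity⟩, rfl⟩
  have happ : ApproximatesLinearOn H (TR θ hR.ne' : CC →L[ℝ] CC) V' cc := by
    intro x hx y hy
    have h1 := hL (hVD x (hV'V hx)) (hVD y (hV'V hy))
    have e1 : H x - H y - (TR θ hR.ne' : CC →L[ℝ] CC) (x - y)
        = R • (Ψ (θ, x) - Ψ (θ, y) - (P (θ, x) - P (θ, y))) := by
      show R • Ψ (θ, x) - R • Ψ (θ, y) - R • T θ (x - y) = _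
      rw [← smul_sub, ← smul_sub]
      congr 2
      simp only [P, T_apply, Prod.fst_sub, Prod.snd_sub, Prod.mk_sub_mk]
      congr 1
      ring
    have e2 : ‖((θ, x) : ℂ × ℂ × ℂ) - (θ, y)‖ = ‖x - y‖ := by simp [Prod.norm_def]
    rw [e2] at h1
    rw [e1, norm_smul, Real.norm_of_nonneg hR.le]
    rw [hcc, mul_assoc]
    gcongr
  have hc : cc < ‖((TR θ hR.ne').symm : CC →L[ℝ] CC)‖₊⁻¹ := by
    have hpos := (TR θ hR.ne').norm_symm_pos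
    have h1 := TR_symm_norm hθn hR
    rw [← NNReal.coe_lt_coe, hcc]
    show R * δ < ‖((TR θ hR.ne').symm : CC →L[ℝ] CC)‖⁻¹
    have h2 : (5 / (4 * R))⁻¹ ≤ ‖((TR θ hR.ne').symm : CC →L[ℝ] CC)‖⁻¹ := inv_anti₀ hpos h1
    refine lt_of_lt_of_le ?_ h2
    rw [inv_div]
    have : R * δ ≤ R * (1 / 100) := by gcongr
    linarith
  set e0 := happ.toOpenPartialHomeomorph H V' (Or.inr hc) hV'o with he0
  have he0c : ∀ p, e0 p = H p := fun p => rfl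
  have he0s : e0.source = V' := rfl
  have he0t : e0.target = H '' V' := rfl
  have hHV : ∀ p ∈ V', e0.symm (H p) = p := fun p hp => e0.left_inv hp
  have hder : ∀ p ∈ V', ∃ B : CC ≃L[ℝ] CC, (B : CC →L[ℝ] CC) = A p := fun p hp =>
    exists_equiv (A p) (by positivity) (hAge p (hV'V hp))
  have h0V' : (0 : CC) ∈ V' := ⟨mem_ball_self hε, mem_ball_self (by linarith)⟩
  have hH0 : H 0 = 0 := by
    show R • Ψ (θ, 0, 0) = 0
    rw [hΨ0 θ hθ, smul_zero]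
  refine ⟨e0.symm, ε, ρ, ρ + ε, hε, by linarith, by linarith, ?_, rfl, ?_, ?_, ?_, ?_, ?_, ?_, ?_⟩
  · -- source
    show H '' V' ⊆ _
    rintro _ ⟨p, hp, rfl⟩
    exact (hΨb θ hθ p.1 (hV'V hp).1 p.2 (hV'V hp).2).1
  · exact ⟨0, h0V', hH0⟩
  · have := hHV 0 h0V'
    rwa [hH0] at this
  · -- smoothness of the chart
    show ContDiffOn ℝ ∞ e0.symm (H '' V')
    rintro _ ⟨p, hp, rfl⟩
    obtain ⟨B, hB⟩ := hder p hp
    refine (e0.contDiffAt_symm (f₀' := B) ⟨p, hp, rfl⟩ ?_ ?_).contDiffWithinAt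
    · rw [hHV p hp, hB]
      exact hHd p (hV'V hp)
    · rw [hHV p hp]
      exact hHc.contDiffAt (hVo.mem_nhds (hV'V hp))
  · show ContDiffOn ℝ ∞ H V'
    exact hHc.mono hV'V
  · -- vertical lines
    intro p hp v
    show fderiv ℝ H p (0, Complex.I * v) = J (H p) (fderiv ℝ H p (0, v))
    have hpV := hV'V hp
    have hj := hΨJ θ hθ p.1 hpV.1 p.2 hpV.2
    have h1 : HasFDerivAt (fun z => Ψ (θ, p.1, z))
        ((fderiv ℝ Ψ (θ, p)).comp ((ContinuousLinearMap.inr ℝ ℂ (ℂ × ℂ)).comp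
          (ContinuousLinearMap.inr ℝ ℂ ℂ))) p.2 := by
      have h2 : HasFDerivAt (fun z : ℂ => ((θ, p.1, z) : ℂ × ℂ × ℂ))
          ((ContinuousLinearMap.inr ℝ ℂ (ℂ × ℂ)).comp (ContinuousLinearMap.inr ℝ ℂ ℂ)) p.2 := by
        refine ((hasFDerivAt_const θ p.2).prodMk ((hasFDerivAt_const p.1 p.2).prodMk
          (hasFDerivAt_id p.2))).congr_fderiv ?_
        ext <;> simp
      exact (hΨd p hpV).comp p.2 h2
    have h3 := hj.2 v
    rw [h1.fderiv] at h3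
    rw [(hHd p hpV).fderiv]
    show R • fderiv ℝ Ψ (θ, p) (0, 0, Complex.I * v) =
      J (R • Ψ (θ, p)) (R • fderiv ℝ Ψ (θ, p) (0, 0, v))
    rw [map_smul]
    congr 1
  · -- the estimate
    intro p hp v
    have hpV := hV'V hp
    obtain ⟨B, hB⟩ := hder p hp
    have hd1 : fderiv ℝ e0.symm (H p) = (B.symm : CC →L[ℝ] CC) := by
      refine (e0.hasFDerivAt_symm (f' := B) ⟨p, hp, rfl⟩ ?_).fderiv
      rw [hHV p hp, hB]
      exact hHd p hpV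
    show ‖fderiv ℝ e0.symm (H p) (J (H p) (fderiv ℝ H p v)) - Complex.I • v‖ ≤ _
    rw [hd1, (hHd p hpV).fderiv]
    set u := A p v with hu
    set w : CC := B.symm (J (H p) u) - Complex.I • v with hw
    have hBA : ∀ x, B x = A p x := fun x => by rw [← hB]; rfl
    have h1 : A p w = (J (H p) u - Complex.I • u) + (Complex.I • u - A p (Complex.I • v)) := by
      rw [hw, map_sub, ← hBA, ContinuousLinearEquiv.apply_symm_apply]
      abel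
    have h2 : ‖J (H p) u - Complex.I • u‖ ≤ δ * ‖u‖ :=
      (hΨb θ hθ p.1 hpV.1 p.2 hpV.2).2.1 u
    have h3 : Complex.I • u - A p (Complex.I • v) =
        Complex.I • (A p v - R • T θ v) - (A p (Complex.I • v) - R • T θ (Complex.I • v)) := by
      have e : T θ (Complex.I • v) = Complex.I • T θ v := by
        simp only [T_apply, Prod.smul_fst, Prod.smul_snd, Prod.smul_mk, smul_eq_mul]
        congr 1
        ring
      rw [e, smul_sub, smul_comm Complex.I R, hu]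
      abel
    have hI : ∀ x : CC, ‖Complex.I • x‖ = ‖x‖ := fun x => by rw [norm_smul, Complex.norm_I, one_mul]
    have h4 : ‖Complex.I • u - A p (Complex.I • v)‖ ≤ R * (δ * ‖v‖) + R * (δ * ‖v‖) := by
      rw [h3]
      refine (norm_sub_le _ _).trans (add_le_add ?_ ?_)
      · rw [hI]; exact hE p hpV v
      · have := hE p hpV (Complex.I • v)
        rwa [hI] at this
    have h5 : ‖A p w‖ ≤ δ * ‖u‖ + (R * (δ * ‖v‖) + R * (δ * ‖v‖)) := by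
      rw [h1]
      exact (norm_add_le _ _).trans (add_le_add h2 h4)
    have h6 := hAle p hpV v
    have h7 := hAge p hpV w
    have h8 : δ * ‖u‖ ≤ 1 / 100 * (R * (2 * ‖v‖)) := by gcongr
    have h9 : R * (δ * ‖v‖) ≤ R * (1 / 100 * ‖v‖) := by gcongr
    have h10 : R / 2 * ‖w‖ ≤ R * (4 / 100 * ‖v‖) := by linarith
    have h11 : ‖w‖ ≤ 8 / 100 * ‖v‖ := by
      have : R * (‖w‖ / 2) ≤ R * (4 / 100 * ‖v‖) := by linarith
      have := le_of_mul_le_mul_left this hR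
      linarith
    show ‖w‖ ≤ 1 / 4 * ‖v‖
    have := norm_nonneg v
    linarith
  · -- the support
    intro p hp hs
    by_contra hcon
    push Not at hcon
    exact hmiss2 p hp hcon hs

end

end Crest.Agent.R235.Reg_CYLEX_464
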