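import Crest.Agent.R235.CylDef2_522
import Crest.Agent.R240.DensM

/-!
Row 235 (S0364), PACKAGE REG, A7d (task 413, helper918): node `FREP`: local data `LC` of density one
give a flat current in the chart.
-/

set_option autoImplicit false
set_option maxSynthPendingDepth 3
set_option linter.unusedSectionVars false

open MeasureTheory Metric Set Filter
open scoped ContDiff Topology Manifold

universe u

namespace Crest.Agent.R235.Reg_FREP_918

open Crest.Agent.R240 Crest.Agent.R240.Ch
open Crest.Agent.R235.CurDefs_132 Crest.Agent.R235.Reg_522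

noncomputable section

/-- a flat current only depends on the structure in the open set. -/
theorem fcur_congr {E : Type*} [NormedAddCommGroup E] [NormedSpace ℝ E] [MeasurableSpace E]
    {J J' : E → E →L[ℝ] E} {U : Set E} {m : Measure E} {X : E → E} {K : ℝ}
    (h : FCur J U m X K) (hJ : ∀ y ∈ U, J' y = J y) : FCur J' U m X K where
  openU := h.openU
  smJ := h.smJ.congr hJ
  sqJ := fun x hx v => by rw [hJ x hx]; exact h.sqJ x hx v
  fin := h.fin
  mX := h.mX
  nX := h.nX
  supp := h.supp
  closed := fun l hl hc hs => by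
    rw [← h.closed l hl hc hs]
    refine integral_congr_ae ?_
    filter_upwards [h.supp] with p hp
    rw [hJ p hp]
  up := h.up
  low := h.low
  flat := by
    filter_upwards [h.flat, h.supp] with p hp hpU
    intro g hg hgc hga
    have h1 := hp g hg hgc hga
    have e1 : ∀ r : ℝ, ∫ q, g (r⁻¹ • (q - p)) (X q) (J' q (X q)) ∂m =
        ∫ q, g (r⁻¹ • (q - p)) (X q) (J q (X q)) ∂m := fun r => integral_congr_ae (by
      filter_upwards [h.supp] with q hq
      rw [hJ q hq])
    simp only [e1, hJ p hpU]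
    exact h1

section Mfd

variable {M : Type u} [TopologicalSpace M] [T2Space M] [ChartedSpace E4 M]
  [IsManifold 𝓘(ℝ, E4) ∞ M]

/-- a form zero off the core is zero in the chart. -/
theorem rep_zero {p : M} {b : F2 E4 M} {Q : Set E4} (hQ : Q ⊆ (chartAt E4 p).target)
    (hb : ∀ x ∉ (chartAt E4 p).symm '' Q, at2 b x = 0) {y : E4}
    (hy : y ∈ (chartAt E4 p).target) (hyQ : y ∉ Q) : rep p b y = 0 := by
  have h1 : (chartAt E4 p).symm y ∉ (chartAt E4 p).symm '' Q := by
    rintro ⟨z, hz, hzy⟩
    have h2 := congrArg (chartAt E4 p) hzy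
    rw [(chartAt E4 p).right_inv (hQ hz), (chartAt E4 p).right_inv hy] at h2
    exact hyQ (h2 ▸ hz)
  ext u v
  rw [rep_apply, hb _ h1]
  rfl

/-- the formula for the current in the chart. -/
theorem cur_formula {J : EndF E4 M} {C : X2 M →ₗ[ℝ] ℝ} {p : M} {D : LC} (h : LCRep J C p D)
    {m : Measure E4} {X : E4 → E4} {K : ℝ} (hF : FCur D.J (ball D.x0 (2 * D.R)) m X K)
    (hC : ∀ b : E4 → Bil, Continuous b → (∀ x, Alt (b x)) →
      (∃ Q ⊆ ball D.x0 (2 * D.R), IsCompact Q ∧ ∀ y ∉ Q, b y = 0) →
      ∫ x, q (D.F x) (D.φ x) (b x) ∂D.s = ∫ x, b x (X x) (D.J x (X x)) ∂m)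
    (b : X2 M) {Q : Set E4} (hQ : Q ⊆ ball D.x0 (2 * D.R)) (hQc : IsCompact Q)
    (hb : ∀ x ∉ (chartAt E4 p).symm '' Q, at2 (b.1 : F2 E4 M) x = 0) :
    C b = ∫ y, rep p (b.1 : F2 E4 M) y (X y) (repJ p J y (X y)) ∂m := by
  classical
  have hR := D.R_pos
  have h23 : ball D.x0 (2 * D.R) ⊆ ball D.x0 (3 * D.R) := ball_subset_ball (by linarith)
  have h34 : ball D.x0 (3 * D.R) ⊆ ball D.x0 (4 * D.R) := ball_subset_ball (by linarith)
  have h3t : ball D.x0 (3 * D.R) ⊆ (chartAt E4 p).target := h34.trans h.sub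
  have h2t : ball D.x0 (2 * D.R) ⊆ (chartAt E4 p).target := h23.trans h3t
  let bt : E4 → Bil := fun y => if y ∈ ball D.x0 (2 * D.R) then rep p (b.1 : F2 E4 M) y else 0
  have hbt1 : ∀ y ∈ ball D.x0 (2 * D.R), bt y = rep p (b.1 : F2 E4 M) y := fun y hy => if_pos hy
  have hbt0 : ∀ y ∉ Q, bt y = 0 := by
    intro y hy
    by_cases hy2 : y ∈ ball D.x0 (2 * D.R)
    · rw [hbt1 y hy2]
      exact rep_zero (hQ.trans h2t) hb (h2t hy2) hy
    · exact if_neg hy2
  have hbtc : Continuous bt := by
    rw [continuous_iff_continuousAt]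
    intro y
    by_cases hy : y ∈ Q
    · have h1 : ContinuousAt (rep p (b.1 : F2 E4 M)) y :=
        ((b.2.2 p).continuousOn).continuousAt ((chartAt E4 p).open_target.mem_nhds (h2t (hQ hy)))
      refine h1.congr ?_
      filter_upwards [isOpen_ball.mem_nhds (hQ hy)] with z hz
      exact (hbt1 z hz).symm
    · refine (continuousAt_const (y := (0 : Bil))).congr ?_
      filter_upwards [hQc.isClosed.isOpen_compl.mem_nhds hy] with z hz
      exact (hbt0 z hz).symm
  have hbta : ∀ y, Alt (bt y) := by
    intro y v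
    by_cases hy : y ∈ ball D.x0 (2 * D.R)
    · rw [hbt1 y hy, rep_apply]
      exact b.2.1 _ _
    · have : bt y = 0 := if_neg hy
      rw [this]
      rfl
  have e1 := h.cur b ⟨Q, hQ.trans h23, hQc, hb⟩
  have e2 := hC bt hbtc hbta ⟨Q, hQ, hQc, hbt0⟩
  have hq0 : ∀ y, q (D.F y) (D.φ y) (0 : Bil) = 0 := by
    intro y
    unfold q W
    simp [ent_zero]
  have e3 : ∫ y in ball D.x0 (3 * D.R), q (D.F y) (D.φ y) (rep p (b.1 : F2 E4 M) y) ∂D.s =
      ∫ y in ball D.x0 (3 * D.R), q (D.F y) (D.φ y) (bt y) ∂D.s := by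
    refine setIntegral_congr_fun measurableSet_ball fun y hy => ?_
    by_cases hyQ : y ∈ Q
    · simp only [hbt1 y (hQ hyQ)]
    · simp only [hbt0 y hyQ, rep_zero (hQ.trans h2t) hb (h3t hy) hyQ]
  have e4 : ∫ y in ball D.x0 (3 * D.R), q (D.F y) (D.φ y) (bt y) ∂D.s =
      ∫ y, q (D.F y) (D.φ y) (bt y) ∂D.s := by
    refine setIntegral_eq_integral_of_forall_compl_eq_zero fun y hy => ?_
    rw [hbt0 y fun hyQ => hy (h23 (hQ hyQ)), hq0]
  rw [e1, e3, e4, e2]
  refine integral_congr_ae ?_
  filter_upwards [hF.supp] with y hy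
  rw [hbt1 y hy, h.J y (h34 (h23 hy))]

end Mfd

/-- **FREP**. -/
theorem frep : FREP.{u} := by
  intro hFW hMON M _ _ _ _ _ J hJ hJJ C p D h hd
  obtain ⟨m, X, K, hF, hS, hC⟩ := hFW hMON D hd
  have hR := D.R_pos
  have h23 : ball D.x0 (2 * D.R) ⊆ ball D.x0 (3 * D.R) := ball_subset_ball (by linarith)
  have h34 : ball D.x0 (3 * D.R) ⊆ ball D.x0 (4 * D.R) := ball_subset_ball (by linarith)
  have h2t : ball D.x0 (2 * D.R) ⊆ (chartAt E4 p).target := h23.trans (h34.trans h.sub)
  refine ⟨ball D.x0 (2 * D.R), m, X, K, isOpen_ball, ?_, h2t, ?_, ?_, ?_⟩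
  · rw [← h.x0]
    exact mem_ball_self (by linarith)
  · exact fcur_congr hF fun y hy => (h.J y (h34 (h23 hy))).symm
  · intro y hy
    constructor
    · -- a point of the support of the measure
      intro hm W hW hyW
      have hs := (hS y hy).1 hm
      have hO : IsOpen (ball D.x0 (2 * D.R) ∩
          ((chartAt E4 p).target ∩ (chartAt E4 p).symm ⁻¹' W)) :=
        isOpen_ball.inter ((chartAt E4 p).isOpen_inter_preimage_symm hW)
      obtain ⟨r, hr, hrO⟩ := (nhds_basis_closedBall (x := y)).mem_iff.1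
        (hO.mem_nhds ⟨hy, h2t hy, hyW⟩)
      let f : ContDiffBump y := ⟨r / 2, r, by linarith, by linarith⟩
      let β : E4 → Bil := fun z => f z • D.F z
      have hf0 : ∀ z ∉ closedBall y r, f z = 0 := by
        intro z hz
        refine f.zero_of_le_dist ?_
        rw [mem_closedBall, not_le] at hz
        exact hz.le
      have hβ0 : ∀ z ∉ closedBall y r, β z = 0 := fun z hz => by
        show f z • D.F z = 0
        rw [hf0 z hz, zero_smul]
      have hβs : ContDiff ℝ ∞ β := f.contDiff.smul D.smF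
      have hβa : ∀ z, Alt (β z) := by
        intro z v
        show f z * D.F z v v = 0
        rw [(D.bd z).spos.alt v, mul_zero]
      have hrt : closedBall y r ⊆ (chartAt E4 p).target := fun z hz => (hrO hz).2.1
      let _ : MeasurableSpace M := borel M
      have : BorelSpace M := ⟨rfl⟩
      have hsm : Smooth2 (ext2 p β) :=
        DensM.smooth2_ext2 hβs.contDiffOn hβa (isCompact_closedBall y r) hrt hβ0
      have hz : ∀ x ∉ (chartAt E4 p).symm '' closedBall y r, at2 (ext2 p β) x = 0 := by
        intro x hx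
        by_cases hxs : x ∈ (chartAt E4 p).source
        · refine DensM.at2_ext2_zero (hβ0 _ fun hcon => hx ?_)
          exact ⟨_, hcon, (chartAt E4 p).left_inv hxs⟩
        · exact DensM.at2_ext2_notMem hxs β
      have hr3 : closedBall y r ⊆ ball D.x0 (3 * D.R) := fun z hz => h23 (hrO hz).1
      refine ⟨⟨ext2 p β, hsm⟩, fun x hx => hz x ?_, ?_⟩
      · rintro ⟨z, hz1, rfl⟩
        exact hx (hrO hz1).2.2
      · have e1 := h.cur ⟨ext2 p β, hsm⟩ ⟨closedBall y r, hr3, isCompact_closedBall y r, hz⟩
        have e2 : ∫ z in ball D.x0 (3 * D.R), q (D.F z) (D.φ z)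
            (rep p (ext2 p β : F2 E4 M) z) ∂D.s = ∫ z in ball D.x0 (3 * D.R), f z ∂D.s := by
          refine setIntegral_congr_fun measurableSet_ball fun z hz => ?_
          have h1 : rep p (ext2 p β : F2 E4 M) z = f z • D.F z :=
            DensM.rep_ext2_self (h.sub (h34 hz)) β
          have h2 : q (D.F z) (D.φ z) (f z • D.F z) = f z * q (D.F z) (D.φ z) (D.F z) := by
            unfold q
            rw [W_smul_right, mul_div_assoc]
          simp only [h1, h2, D.nrm, mul_one]
        have hfin := D.fin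
        have hint : IntegrableOn (fun z => f z) (ball D.x0 (3 * D.R)) D.s := by
          refine Integrable.integrableOn ?_
          exact f.continuous.integrable_of_hasCompactSupport f.hasCompactSupport
        have e3 : D.s.real (ball y (r / 2)) ≤ ∫ z in ball D.x0 (3 * D.R), f z ∂D.s := by
          have h1 : ball y (r / 2) ⊆ ball D.x0 (3 * D.R) :=
            (ball_subset_closedBall.trans (closedBall_subset_closedBall (by linarith))).trans hr3
          have h2 : ∫ z in ball y (r / 2), f z ∂D.s ≤ ∫ z in ball D.x0 (3 * D.R), f z ∂D.s :=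
            setIntegral_mono_set hint (ae_of_all _ fun z => f.nonneg)
              (LE.le.eventuallyLE h1)
          have h3 : ∫ z in ball y (r / 2), f z ∂D.s = D.s.real (ball y (r / 2)) := by
            have h4 : ∫ z in ball y (r / 2), f z ∂D.s = ∫ z in ball y (r / 2), (1 : ℝ) ∂D.s := by
              refine setIntegral_congr_fun measurableSet_ball fun z hz => ?_
              exact f.one_of_mem_closedBall (ball_subset_closedBall hz)
            rw [h4]
            simp
          rw [← h3]
          exact h2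
        have e4 : 0 < D.s.real (ball y (r / 2)) := by
          rw [measureReal_def, ENNReal.toReal_pos_iff]
          exact ⟨hs (r / 2) (by linarith), measure_lt_top _ _⟩
        have e5 : C ⟨ext2 p β, hsm⟩ = ∫ z in ball D.x0 (3 * D.R), f z ∂D.s := e1.trans e2
        rw [e5]
        exact (e4.trans_le e3).ne'
    · -- a point of the support of the functional
      intro hsupp
      by_contra hcon
      unfold SuppE at hcon
      push Not at hcon
      obtain ⟨r, hr, hm⟩ := hcon
      have hm0 : m (ball y r) = 0 := le_antisymm hm zero_le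
      obtain ⟨δ, hδ, hδO⟩ := (nhds_basis_closedBall (x := y)).mem_iff.1
        ((isOpen_ball.inter isOpen_ball).mem_nhds (⟨hy, mem_ball_self hr⟩ :
          y ∈ ball D.x0 (2 * D.R) ∩ ball y r))
      have hWo : IsOpen ((chartAt E4 p).source ∩ (chartAt E4 p) ⁻¹' ball y δ) :=
        (chartAt E4 p).isOpen_inter_preimage isOpen_ball
      have hyW : (chartAt E4 p).symm y ∈
          (chartAt E4 p).source ∩ (chartAt E4 p) ⁻¹' ball y δ := by
        refine ⟨symm_mem (h2t hy), ?_⟩
        show chartAt E4 p ((chartAt E4 p).symm y) ∈ ball y δ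
        rw [(chartAt E4 p).right_inv (h2t hy)]
        exact mem_ball_self hδ
      obtain ⟨b, hb, hCb⟩ := hsupp _ hWo hyW
      have hQ : closedBall y δ ⊆ ball D.x0 (2 * D.R) := fun z hz => (hδO hz).1
      have hb' : ∀ x ∉ (chartAt E4 p).symm '' closedBall y δ, at2 (b.1 : F2 E4 M) x = 0 := by
        intro x hx
        refine hb x fun hxW => hx ?_
        exact ⟨_, ball_subset_closedBall hxW.2, (chartAt E4 p).left_inv hxW.1⟩
      have e1 := cur_formula h hF hC b hQ (isCompact_closedBall y δ) hb'
      refine hCb (e1.trans ?_)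
      refine integral_eq_zero_of_ae ?_
      filter_upwards [hF.supp, measure_eq_zero_iff_ae_notMem.1 hm0] with z hz hz2
      rw [rep_zero (hQ.trans h2t) hb' (h2t hz) fun hz3 => hz2 (hδO hz3).2]
      rfl
  · rintro b ⟨Q, hQ, hQc, hb⟩
    exact cur_formula h hF hC b hQ hQc hb

end

end Crest.Agent.R235.Reg_FREP_918
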