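import Crest.Agent.R235.CylDef2_522

/-!
Row 235 (S0364), package REG, part A1.2b (task 405), helper936: a good direction and a good radius
(pure counting argument).
-/

set_option autoImplicit false

open MeasureTheory Metric Set Filter
open scoped Topology

namespace Crest.Agent.R235.Reg_GOODDIR_936

open Crest.Agent.R235.Loc Crest.Agent.R235.Cyl Crest.Agent.R235.Reg_522

noncomputable section

/-- the grid of directions. -/
def th (η : ℝ) (n : ℕ) (j k : Fin n) : ℂ :=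
  ((η / 2 * ((j : ℕ) / (n : ℝ)) : ℝ) : ℂ) + ((η / 2 * ((k : ℕ) / (n : ℝ)) : ℝ) : ℂ) * Complex.I

theorem th_re (η : ℝ) (n : ℕ) (j k : Fin n) : (th η n j k).re = η / 2 * ((j : ℕ) / (n : ℝ)) := by
  simp [th]

theorem th_im (η : ℝ) (n : ℕ) (j k : Fin n) : (th η n j k).im = η / 2 * ((k : ℕ) / (n : ℝ)) := by
  simp [th]

/-- the grid of radii. -/
def rh (a b : ℝ) (n : ℕ) (l : Fin n) : ℝ := a + (b - a) * (((l : ℕ) + 1) / ((n : ℝ) + 1))

theorem frac_lt {n : ℕ} (j : Fin n) : ((j : ℕ) : ℝ) / (n : ℝ) < 1 := by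
  have h1 : ((j : ℕ) : ℝ) < (n : ℝ) := by exact_mod_cast j.2
  have h0 : (0 : ℝ) ≤ ((j : ℕ) : ℝ) := Nat.cast_nonneg _
  rw [div_lt_one (by linarith)]
  exact h1

theorem frac_nonneg {n : ℕ} (j : Fin n) : 0 ≤ ((j : ℕ) : ℝ) / (n : ℝ) := by positivity

theorem th_mem {η : ℝ} (hη : 0 < η) {n : ℕ} (j k : Fin n) : th η n j k ∈ ball (0 : ℂ) η := by
  rw [mem_ball_zero_iff]
  have h1 := Complex.norm_le_abs_re_add_abs_im (th η n j k)
  rw [th_re, th_im, abs_of_nonneg (mul_nonneg (by linarith) (frac_nonneg j)),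
    abs_of_nonneg (mul_nonneg (by linarith) (frac_nonneg k))] at h1
  have h2 := mul_lt_mul_of_pos_left (frac_lt j) (half_pos hη)
  have h3 := mul_lt_mul_of_pos_left (frac_lt k) (half_pos hη)
  linarith

theorem rh_mem {a b : ℝ} (hab : a < b) {n : ℕ} (l : Fin n) : rh a b n l ∈ Ioo a b := by
  have h1 : ((l : ℕ) : ℝ) < (n : ℝ) := by exact_mod_cast l.2
  have h0 : (0 : ℝ) ≤ ((l : ℕ) : ℝ) := Nat.cast_nonneg _
  have h2 : 0 < (((l : ℕ) : ℝ) + 1) / ((n : ℝ) + 1) := by positivity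
  have h3 : (((l : ℕ) : ℝ) + 1) / ((n : ℝ) + 1) < 1 := by
    rw [div_lt_one (by linarith)]
    linarith
  have hb : 0 < b - a := by linarith
  constructor
  · have := mul_pos hb h2
    unfold rh
    linarith
  · have := mul_lt_mul_of_pos_left h3 hb
    unfold rh
    linarith

/-- different integers differ by at least one. -/
theorem one_le_abs {i j : ℕ} (h : i ≠ j) : (1 : ℝ) ≤ |(i : ℝ) - j| := by
  have h1 : (1 : ℤ) ≤ |(i : ℤ) - j| := Int.one_le_abs (sub_ne_zero.2 (by exact_mod_cast h))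
  exact_mod_cast h1

theorem sep {η a b : ℝ} (hη : 0 < η) (hab : a < b) {n : ℕ} (hn : 0 < n)
    {p p' : Fin n × Fin n × Fin n} (hp : p ≠ p') {z z' : ℂ} (hz : ‖z‖ = rh a b n p.2.2)
    (hz' : ‖z'‖ = rh a b n p'.2.2) :
    min (η / 2) ((b - a) / 2) / n ≤ dist (th η n p.1 p.2.1, z) (th η n p'.1 p'.2.1, z') := by
  have hn' : (0 : ℝ) < n := by exact_mod_cast hn
  have hn1 : (1 : ℝ) ≤ n := by exact_mod_cast hn
  rw [Prod.dist_eq]
  have hcase : p.1 ≠ p'.1 ∨ p.2.1 ≠ p'.2.1 ∨ p.2.2 ≠ p'.2.2 := by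
    by_contra hcon
    push Not at hcon
    exact hp (Prod.ext hcon.1 (Prod.ext hcon.2.1 hcon.2.2))
  have key : ∀ i j : Fin n, i ≠ j → η / 2 / n ≤ |η / 2 * ((i : ℕ) / (n : ℝ)) - η / 2 * ((j : ℕ) / (n : ℝ))| := by
    intro i j hij
    have h1 : (1 : ℝ) ≤ |((i : ℕ) : ℝ) - (j : ℕ)| := one_le_abs fun h => hij (Fin.ext h)
    have e : η / 2 * ((i : ℕ) / (n : ℝ)) - η / 2 * ((j : ℕ) / (n : ℝ)) =
        η / 2 / n * (((i : ℕ) : ℝ) - (j : ℕ)) := by
      field_simp
    rw [e, abs_mul, abs_of_pos (by positivity)]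
    exact le_mul_of_one_le_right (by positivity) h1
  rcases hcase with h | h | h
  · refine le_trans (div_le_div_of_nonneg_right (min_le_left _ _) hn'.le) (le_trans (key _ _ h) ?_)
    refine le_max_of_le_left ?_
    rw [dist_eq_norm]
    have h2 := Complex.abs_re_le_norm (th η n p.1 p.2.1 - th η n p'.1 p'.2.1)
    rwa [Complex.sub_re, th_re, th_re] at h2
  · refine le_trans (div_le_div_of_nonneg_right (min_le_left _ _) hn'.le) (le_trans (key _ _ h) ?_)
    refine le_max_of_le_left ?_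
    rw [dist_eq_norm]
    have h2 := Complex.abs_im_le_norm (th η n p.1 p.2.1 - th η n p'.1 p'.2.1)
    rwa [Complex.sub_im, th_im, th_im] at h2
  · refine le_max_of_le_right ?_
    rw [dist_eq_norm]
    have h2 := abs_norm_sub_norm_le z z'
    rw [hz, hz'] at h2
    refine le_trans ?_ h2
    have h1 : (1 : ℝ) ≤ |((p.2.2 : ℕ) : ℝ) - (p'.2.2 : ℕ)| := one_le_abs fun h' => h (Fin.ext h')
    have e : rh a b n p.2.2 - rh a b n p'.2.2 =
        (b - a) / (n + 1) * (((p.2.2 : ℕ) : ℝ) - (p'.2.2 : ℕ)) := by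
      unfold rh
      field_simp
      ring
    have hba : 0 < b - a := by linarith
    rw [e, abs_mul, abs_of_pos (by positivity)]
    have h3 : (b - a) / 2 / n ≤ (b - a) / (n + 1) := by
      rw [div_div]
      exact div_le_div_of_nonneg_left hba.le (by positivity) (by linarith)
    calc min (η / 2) ((b - a) / 2) / n ≤ (b - a) / 2 / n :=
          div_le_div_of_nonneg_right (min_le_right _ _) hn'.le
      _ ≤ (b - a) / (n + 1) := h3
      _ ≤ _ := le_mul_of_one_le_right (by positivity) h1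

/-- **GOODDIR**. -/
theorem gooddir : GOODDIR := by
  intro m c₀ r₀ T hm hc₀ hr₀ hlow G η a b c hη ha hab hc hG
  by_contra hcon
  push Not at hcon
  have hba : 0 < b - a := by linarith
  set σ : ℝ := min (η / 2) ((b - a) / 2) with hσ
  have hσ0 : 0 < σ := lt_min (by linarith) (by linarith)
  -- the scale
  let C : ℝ := c * σ / 2
  have hC : 0 < C := by positivity
  obtain ⟨n, hn⟩ := exists_nat_gt (max (C / r₀) (m.real univ / (c₀ * C ^ 2)))
  have hn1 : C / r₀ < n := lt_of_le_of_lt (le_max_left _ _) hn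
  have hn2 : m.real univ / (c₀ * C ^ 2) < n := lt_of_le_of_lt (le_max_right _ _) hn
  have hn0 : (0 : ℝ) < n := lt_trans (by positivity) hn1
  have hnN : 0 < n := by exact_mod_cast hn0
  have hr : C / n ≤ r₀ := by
    rw [div_le_iff₀ hn0]
    rw [div_lt_iff₀ hr₀] at hn1
    linarith
  -- the points
  have hz : ∀ p : Fin n × Fin n × Fin n, ∃ z : ℂ, ‖z‖ = rh a b n p.2.2 ∧
      G (th η n p.1 p.2.1, z) ∈ T := fun p =>
    hcon _ (th_mem hη p.1 p.2.1) _ (rh_mem hab p.2.2)
  choose z hz hzT using hz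
  let P : Fin n × Fin n × Fin n → CC := fun p => G (th η n p.1 p.2.1, z p)
  have hmem : ∀ p, (th η n p.1 p.2.1, z p) ∈ ball (0 : ℂ) η ×ˢ {z : ℂ | a < ‖z‖ ∧ ‖z‖ < b} := by
    intro p
    refine ⟨th_mem hη _ _, ?_⟩
    show a < ‖z p‖ ∧ ‖z p‖ < b
    rw [hz]
    exact rh_mem hab _
  have hdisj : Pairwise (Function.onFun Disjoint fun p => ball (P p) (C / n)) := by
    intro p p' hpp
    refine ball_disjoint_ball ?_
    have h1 := sep hη hab hnN hpp (hz p) (hz p')
    have h2 := hG _ (hmem p) _ (hmem p')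
    have h3 := mul_le_mul_of_nonneg_left h1 hc.le
    have e : C / n + C / n = c * (σ / n) := by
      show c * σ / 2 / n + c * σ / 2 / n = c * (σ / n)
      ring
    rw [e]
    exact h3.trans h2
  have hsum : ∑ p : Fin n × Fin n × Fin n, m.real (ball (P p) (C / n)) ≤ m.real univ := by
    rw [← measureReal_biUnion_finset (fun p _ p' _ h => hdisj h) (fun p _ => measurableSet_ball)]
    exact measureReal_mono (subset_univ _)
  have hle : (n : ℝ) ^ 3 * (c₀ * (C / n) ^ 2) ≤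
      ∑ p : Fin n × Fin n × Fin n, m.real (ball (P p) (C / n)) := by
    have h1 : ∑ p : Fin n × Fin n × Fin n, c₀ * (C / n) ^ 2 = (n : ℝ) ^ 3 * (c₀ * (C / n) ^ 2) := by
      rw [Finset.sum_const, Finset.card_univ, Fintype.card_prod, Fintype.card_prod,
        Fintype.card_fin, nsmul_eq_mul]
      push_cast
      ring
    rw [← h1]
    exact Finset.sum_le_sum fun p _ => hlow _ (hzT p) _ (by positivity) hr
  have e : (n : ℝ) ^ 3 * (c₀ * (C / n) ^ 2) = n * (c₀ * C ^ 2) := by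
    field_simp
  rw [e] at hle
  rw [div_lt_iff₀ (by positivity)] at hn2
  linarith

end

end Crest.Agent.R235.Reg_GOODDIR_936
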