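import Crest.Agent.R235.CylDef2_522
import Crest.Agent.R235.Pull_129

/-!
Row 235, PACKAGE REG, leaf A7e LFMFD (helper842): from the local form in the chart to `LocForm` of
helper370 on the manifold.
-/

set_option autoImplicit false
set_option maxSynthPendingDepth 3

open MeasureTheory Metric Set Filter
open scoped ContDiff Topology Manifold

universe u

namespace Crest.Agent.R235.Reg_LFMFD_842

open Crest.Agent.R240 Crest.Agent.R240.Ch
open Crest.Agent.R235.Loc Crest.Agent.R235.Cyl Crest.Agent.R235.CurDefs_132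
open Crest.Agent.R235.NWDefs_334 Crest.Agent.R235.Reg_522 Crest.Agent.R235.Pull_129

noncomputable section

variable {M : Type u} [TopologicalSpace M] [ChartedSpace E4 M] [IsManifold 𝓘(ℝ, E4) ∞ M]

/-- the lifted map. -/
def lift (p : M) (f : ℂ → E4) (z : ℂ) : M := (chartAt E4 p).symm (f z)

theorem lift_smooth {p : M} {f : ℂ → E4} {O : Set ℂ} (hf : ContDiffOn ℝ ∞ f O)
    (hO : ∀ z ∈ O, f z ∈ (chartAt E4 p).target) :
    ContMDiffOn 𝓘(ℝ, ℂ) 𝓘(ℝ, E4) ∞ (lift p f) O :=
  (contMDiffOn_chart_symm (I := 𝓘(ℝ, E4)) (x := p)).comp hf.contMDiffOn hO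

theorem fderiv_lift {p : M} {f : ℂ → E4} {O : Set ℂ} (hOo : IsOpen O) (hf : ContDiffOn ℝ ∞ f O)
    (hO : ∀ z ∈ O, f z ∈ (chartAt E4 p).target) {z : ℂ} (hz : z ∈ O) (v : ℂ) :
    tcc (lift p f z) p (lift p f z) (dmap (lift p f) z v) = fderiv ℝ f z v := by
  have hs : ContMDiffAt 𝓘(ℝ, ℂ) 𝓘(ℝ, E4) ∞ (lift p f) z :=
    (lift_smooth hf hO).contMDiffAt (hOo.mem_nhds hz)
  have h1 := fderiv_inC (p := p) hs (symm_mem (hO z hz)) v
  have h2 : inC (E := E4) p (lift p f) =ᶠ[𝓝 z] f := by
    filter_upwards [hOo.mem_nhds hz] with w hw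
    exact (chartAt E4 p).right_inv (hO w hw)
  rw [h2.fderiv_eq] at h1
  exact h1.symm

theorem lfmfd : LFMFD.{u} := by
  intro M _ _ _ _ _ J hJ hJ2 C p V m X K hF U' n w hUV hLF hCur
  set c := chartAt E4 p with hc
  have hUt : U' ⊆ c.target := hUV.trans hF.sub
  have hw : ∀ j, ∀ z ∈ ball (0 : ℂ) 1, w j z ∈ U' := by
    intro j z hz
    have h1 : w j z ∈ ⋃ j, w j '' ball (0 : ℂ) 1 := mem_iUnion.2 ⟨j, z, hz, rfl⟩
    rw [← hLF.supp] at h1
    exact h1.2
  have hwt : ∀ j, ∀ z ∈ ball (0 : ℂ) 1, w j z ∈ (chartAt E4 p).target := fun j z hz =>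
    hUt (hw j z hz)
  have hcl : ∀ y ∈ c.target, c (c.symm y) = y := fun y hy => c.right_inv hy
  have hinj : ∀ y ∈ c.target, ∀ y' ∈ c.target, c.symm y = c.symm y' → y = y' := by
    intro y hy y' hy' h
    rw [← hcl y hy, ← hcl y' hy', h]
  let L : Glob_370.LocForm J (suppC C) p :=
    { U := c.symm '' U'
      openU := c.symm.isOpen_image_of_subset_source hLF.openU hUt
      mem := ⟨c p, hLF.mem, c.left_inv (mem_chart_source E4 p)⟩
      n := n
      u := fun j => lift p (w j)
      disc := fun j =>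
        { hol :=
            { smooth := lift_smooth (hLF.smooth j) (hwt j)
              jhol := by
                intro z hz v
                have hs : lift p (w j) z ∈ (chartAt E4 p).source := symm_mem (hwt j z hz)
                refine tcc_inj hs ?_
                rw [apply_eq_repJ hs, fderiv_lift isOpen_ball (hLF.smooth j) (hwt j) hz,
                  fderiv_lift isOpen_ball (hLF.smooth j) (hwt j) hz]
                have h1 : chartAt E4 p (lift p (w j) z) = w j z := hcl _ (hwt j z hz)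
                rw [h1]
                exact hLF.jhol j z hz v }
          inj := by
            intro z hz z' hz' h
            exact hLF.inj j hz hz' (hinj _ (hwt j z hz) _ (hwt j z' hz') h)
          imm := by
            intro z hz hz0 v hv
            refine hLF.imm j z hz hz0 v ?_
            rw [← fderiv_lift isOpen_ball (hLF.smooth j) (hwt j) hz, hv, map_zero] }
      centre := by
        intro j
        show (chartAt E4 p).symm (w j 0) = p
        rw [hLF.centre j]
        exact c.left_inv (mem_chart_source E4 p)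
      disj := by
        intro i j hij z hz z' hz' h
        exact hLF.disj i j hij z hz z' hz' (hinj _ (hwt i z hz) _ (hwt j z' hz') h)
      supp := by
        ext x
        constructor
        · rintro ⟨hx, y, hy, rfl⟩
          have h1 : SuppE m y := (hF.supp y (hUV hy)).2 hx
          have h2 : y ∈ {x | SuppE m x} ∩ U' := ⟨h1, hy⟩
          rw [hLF.supp] at h2
          obtain ⟨j, z, hz, rfl⟩ := mem_iUnion.1 h2
          exact mem_iUnion.2 ⟨j, z, hz, rfl⟩
        · intro hx
          obtain ⟨j, z, hz, rfl⟩ := mem_iUnion.1 hx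
          have h1 : w j z ∈ ⋃ j, w j '' ball (0 : ℂ) 1 := mem_iUnion.2 ⟨j, z, hz, rfl⟩
          rw [← hLF.supp] at h1
          exact ⟨(hF.supp _ (hUV h1.2)).1 h1.1, w j z, h1.2, rfl⟩
      proper := by
        intro j Q hQ hQU
        have hQs : Q ⊆ c.source := by
          intro x hx
          obtain ⟨y, hy, rfl⟩ := hQU hx
          exact c.map_target (hUt hy)
        have hQc : IsCompact (c '' Q) := hQ.image_of_continuousOn (c.continuousOn.mono hQs)
        obtain ⟨r, hr, hr2⟩ := hLF.proper j (c '' Q) hQc (by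
          rintro _ ⟨x, hx, rfl⟩
          obtain ⟨y, hy, rfl⟩ := hQU hx
          rw [hcl y (hUt hy)]; exact hy)
        refine ⟨r, hr, fun z hz hzQ => hr2 z hz ⟨_, hzQ, hcl _ (hwt j z hz)⟩⟩ }
  refine ⟨L, ?_⟩
  intro b Q hQ hQU hb
  have hQU' : Q ⊆ c.symm '' U' := hQU
  have hQs : Q ⊆ c.source := by
    intro x hx
    obtain ⟨y, hy, rfl⟩ := hQU' hx
    exact c.map_target (hUt hy)
  have hQc : IsCompact (c '' Q) := hQ.image_of_continuousOn (c.continuousOn.mono hQs)
  have hQ1 : c '' Q ⊆ U' := by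
    rintro _ ⟨x, hx, rfl⟩
    obtain ⟨y, hy, rfl⟩ := hQU' hx
    rw [hcl y (hUt hy)]; exact hy
  have hzero : ∀ y ∈ c.target, y ∉ c '' Q → rep p (b.1 : F2 E4 M) y = 0 := by
    intro y hy hyQ
    have h1 : at2 (b.1 : F2 E4 M) (c.symm y) = 0 := hb _ (fun h => hyQ ⟨_, h, hcl y hy⟩)
    ext u v
    rw [rep_apply]
    change at2 (b.1 : F2 E4 M) (c.symm y) _ _ = _
    rw [h1]; simp
  classical
  set bt : E4 → (E4 →L[ℝ] E4 →L[ℝ] ℝ) := fun y => if y ∈ U' then rep p (b.1 : F2 E4 M) y else 0
    with hbt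
  have hbt0 : ∀ y ∉ c '' Q, bt y = 0 := by
    intro y hy
    simp only [hbt]
    split_ifs with h
    · exact hzero y (hUt h) hy
    · rfl
  have hbtc : Continuous bt := by
    rw [continuous_iff_continuousAt]
    intro y
    by_cases hy : y ∈ c '' Q
    · have hyU := hQ1 hy
      have h1 : ContinuousAt (rep p (b.1 : F2 E4 M)) y :=
        ((b.2.2 p).contDiffAt (c.open_target.mem_nhds (hUt hyU))).continuousAt
      refine h1.congr ?_
      filter_upwards [hLF.openU.mem_nhds hyU] with y' hy'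
      simp only [hbt, if_pos hy']
    · have h1 : bt =ᶠ[𝓝 y] fun _ => 0 := by
        filter_upwards [hQc.isClosed.isOpen_compl.mem_nhds hy] with y' hy'
        exact hbt0 y' hy'
      exact continuousAt_const.congr h1.symm
  have hbta : ∀ q v, bt q v v = 0 := by
    intro q v
    simp only [hbt]
    split_ifs with h
    · rw [rep_apply]; exact b.2.1 _ _
    · simp
  have hC1 := hF.cur b ⟨c '' Q, hQ1.trans hUV, hQc, by
    intro x hx
    refine hb x (fun h => hx ⟨c x, ⟨x, h, rfl⟩, c.left_inv (hQs h)⟩)⟩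
  have hC2 := hCur bt hbtc hbta ⟨c '' Q, hQ1, hQc, hbt0⟩
  rw [hC1]
  have e1 : ∫ y, rep p (b.1 : F2 E4 M) y (X y) (repJ p J y (X y)) ∂m =
      ∫ y, bt y (X y) (repJ p J y (X y)) ∂m := by
    refine integral_congr_ae ?_
    filter_upwards [hF.fc.supp] with y hy
    by_cases hyU : y ∈ U'
    · simp only [hbt, if_pos hyU]
    · have : y ∉ c '' Q := fun h => hyU (hQ1 h)
      rw [hzero y (hF.sub hy) this, hbt0 y this]
  rw [e1]
  refine hC2.trans ?_
  refine Finset.sum_congr rfl fun j _ => ?_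
  refine setIntegral_congr_fun measurableSet_ball fun z hz => ?_
  have hs : lift p (w j) z ∈ (chartAt E4 p).source := symm_mem (hwt j z hz)
  have h1 : chartAt E4 p (lift p (w j) z) = w j z := hcl _ (hwt j z hz)
  show bt (w j z) (fderiv ℝ (w j) z 1) (fderiv ℝ (w j) z Complex.I) =
    at2 (b.1 : F2 E4 M) (lift p (w j) z) (dmap (lift p (w j)) z 1) (dmap (lift p (w j)) z Complex.I)
  rw [apply_eq_rep hs, fderiv_lift isOpen_ball (hLF.smooth j) (hwt j) hz,
    fderiv_lift isOpen_ball (hLF.smooth j) (hwt j) hz, h1]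
  simp only [hbt, if_pos (hw j z hz)]

end

end Crest.Agent.R235.Reg_LFMFD_842
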