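import Crest.Agent.R235.CylDef2_522

/-!
Row 235 (S0364), package REG, leaf A7b LFPULL (helper133): transport of a local form by a
diffeomorphism.
-/

set_option autoImplicit false
set_option maxSynthPendingDepth 3

open MeasureTheory Metric Set Filter
open scoped ContDiff Topology Manifold

namespace Crest.Agent.R235.Reg_LFPULL_133

open Crest.Agent.R235.Reg_522

noncomputable section

section aux

variable {E E' : Type*} [NormedAddCommGroup E] [NormedSpace ℝ E] [NormedAddCommGroup E']
  [NormedSpace ℝ E'] (e : OpenPartialHomeomorph E E') (h1 : ContDiffOn ℝ ∞ e e.source)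
  (h2 : ContDiffOn ℝ ∞ e.symm e.target)

include h1 in
theorem e_diff {x : E} (hx : x ∈ e.source) : HasFDerivAt e (fderiv ℝ e x) x :=
  ((h1.contDiffAt (e.open_source.mem_nhds hx)).differentiableAt (by simp)).hasFDerivAt

include h2 in
theorem es_diff {y : E'} (hy : y ∈ e.target) : HasFDerivAt e.symm (fderiv ℝ e.symm y) y :=
  ((h2.contDiffAt (e.open_target.mem_nhds hy)).differentiableAt (by simp)).hasFDerivAt

include h1 h2 in
theorem ses {x : E} (hx : x ∈ e.source) (v : E) :
    fderiv ℝ e.symm (e x) (fderiv ℝ e x v) = v := by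
  have a := e_diff e h1 hx
  have b := es_diff e h2 (e.map_source hx)
  have c := b.comp x a
  have d : (e.symm ∘ e) =ᶠ[𝓝 x] id := by
    filter_upwards [e.open_source.mem_nhds hx] with z hz
    exact e.left_inv hz
  have f := (c.congr_of_eventuallyEq d.symm).unique (hasFDerivAt_id x)
  have g := congrArg (fun L : E →L[ℝ] E => L v) f
  simpa using g

include h1 h2 in
theorem ess {y : E'} (hy : y ∈ e.target) (v : E') :
    fderiv ℝ e (e.symm y) (fderiv ℝ e.symm y v) = v := by
  have a := es_diff e h2 hy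
  have b := e_diff e h1 (e.map_target hy)
  have c := b.comp y a
  have d : (e ∘ e.symm) =ᶠ[𝓝 y] id := by
    filter_upwards [e.open_target.mem_nhds hy] with z hz
    exact e.right_inv hz
  have f := (c.congr_of_eventuallyEq d.symm).unique (hasFDerivAt_id y)
  have g := congrArg (fun L : E' →L[ℝ] E' => L v) f
  simpa using g

end aux

theorem lfpull : LFPULL := by
  intro E E' _ _ _ _ _ _ R R' S S' e h1 h2 hR hS T T' hT p U' n u' hp hU' H HC
  -- the discs stay in `U'`
  have hu : ∀ j, ∀ z ∈ ball (0 : ℂ) 1, u' j z ∈ U' := by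
    intro j z hz
    have : u' j z ∈ S' ∩ U' := by
      rw [H.supp]; exact mem_iUnion.2 ⟨j, mem_image_of_mem _ hz⟩
    exact this.2
  have hut : ∀ j, ∀ z ∈ ball (0 : ℂ) 1, u' j z ∈ e.target := fun j z hz => hU' (hu j z hz)
  have hd' : ∀ j, ∀ z ∈ ball (0 : ℂ) 1, HasFDerivAt (u' j) (fderiv ℝ (u' j) z) z :=
    fun j z hz => (((H.smooth j).contDiffAt (isOpen_ball.mem_nhds hz)).differentiableAt
      (by simp)).hasFDerivAt
  have hd : ∀ j, ∀ z ∈ ball (0 : ℂ) 1, ∀ v : ℂ, fderiv ℝ (fun z => e.symm (u' j z)) z v =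
      fderiv ℝ e.symm (u' j z) (fderiv ℝ (u' j) z v) := by
    intro j z hz v
    have a := (es_diff e h2 (hut j z hz)).comp z (hd' j z hz)
    have b : fderiv ℝ (fun z => e.symm (u' j z)) z
        = (fderiv ℝ e.symm (u' j z)).comp (fderiv ℝ (u' j) z) := a.fderiv
    rw [b]; rfl
  have hed : ∀ j, ∀ z ∈ ball (0 : ℂ) 1, ∀ v : ℂ, fderiv ℝ e (e.symm (u' j z))
      (fderiv ℝ (fun z => e.symm (u' j z)) z v) = fderiv ℝ (u' j) z v := by
    intro j z hz v
    rw [hd j z hz, ess e h1 h2 (hut j z hz)]
  have hinj : ∀ {a b : E'}, a ∈ e.target → b ∈ e.target → e.symm a = e.symm b → a = b :=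
    fun {a b} ha hb h => e.symm.injOn ha hb h
  refine ⟨⟨?_, ?_, ?_, ?_, ?_, ?_, ?_, ?_, ?_, ?_⟩, ?_⟩
  · exact e.symm.isOpen_image_of_subset_source H.openU hU'
  · exact ⟨e p, H.mem, e.left_inv hp⟩
  · intro j
    exact h2.comp (H.smooth j) (fun z hz => hut j z hz)
  · intro j z hz v
    apply hR _ (e.map_target (hut j z hz))
    rw [hed j z hz, hed j z hz, e.right_inv (hut j z hz)]
    exact H.jhol j z hz v
  · intro j z hz w hw h
    exact H.inj j hz hw (hinj (hut j z hz) (hut j w hw) h)
  · intro j z hz hz0 v hv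
    apply H.imm j z hz hz0 v
    rw [← hed j z hz, hv, map_zero]
  · intro j
    change e.symm (u' j 0) = p
    rw [H.centre j, e.left_inv hp]
  · intro i j hij z hz w hw h
    exact H.disj i j hij z hz w hw (hinj (hut i z hz) (hut j w hw) h)
  · ext x
    constructor
    · rintro ⟨hxS, y, hy, rfl⟩
      have hyS : y ∈ S' ∩ U' := ⟨(hS y (hU' hy)).2 hxS, hy⟩
      rw [H.supp] at hyS
      obtain ⟨j, z, hz, rfl⟩ := mem_iUnion.1 hyS
      exact mem_iUnion.2 ⟨j, z, hz, rfl⟩
    · intro hx
      obtain ⟨j, z, hz, rfl⟩ := mem_iUnion.1 hx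
      have : u' j z ∈ S' ∩ U' := by
        rw [H.supp]; exact mem_iUnion.2 ⟨j, mem_image_of_mem _ hz⟩
      exact ⟨(hS _ (hut j z hz)).1 this.1, u' j z, this.2, rfl⟩
  · intro j Q hQ hQU
    have hQs : Q ⊆ e.source := by
      intro x hx
      obtain ⟨y, hy, rfl⟩ := hQU hx
      exact e.map_target (hU' hy)
    have hQ' : IsCompact (e '' Q) := hQ.image_of_continuousOn (e.continuousOn.mono hQs)
    have hQU' : e '' Q ⊆ U' := by
      rintro _ ⟨x, hx, rfl⟩
      obtain ⟨y, hy, rfl⟩ := hQU hx
      rwa [e.right_inv (hU' hy)]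
    obtain ⟨r, hr, h⟩ := H.proper j (e '' Q) hQ' hQU'
    refine ⟨r, hr, fun z hz hzQ => h z hz ⟨e.symm (u' j z), hzQ, e.right_inv (hut j z hz)⟩⟩
  · -- the current
    rintro b hb hba ⟨Q0, hQ0, hQ0c, hb0⟩
    classical
    have hQs : Q0 ⊆ e.source := by
      intro x hx
      obtain ⟨y, hy, rfl⟩ := hQ0 hx
      exact e.map_target (hU' hy)
    have hQc : IsCompact (e '' Q0) := hQ0c.image_of_continuousOn (e.continuousOn.mono hQs)
    have hQU : e '' Q0 ⊆ U' := by
      rintro _ ⟨x, hx, rfl⟩
      obtain ⟨y, hy, rfl⟩ := hQ0 hx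
      rwa [e.right_inv (hU' hy)]
    have hQt : e '' Q0 ⊆ e.target := hQU.trans hU'
    set c : E' → (E' →L[ℝ] E' →L[ℝ] ℝ) := fun y =>
      (b (e.symm y)).bilinearComp (fderiv ℝ e.symm y) (fderiv ℝ e.symm y) with hc
    set b' : E' → (E' →L[ℝ] E' →L[ℝ] ℝ) := fun y => if y ∈ e.target then c y else 0 with hb'
    have hb't : ∀ y ∈ e.target, b' y = c y := fun y hy => if_pos hy
    have hb'0 : ∀ y ∉ e '' Q0, b' y = 0 := by
      intro y hy
      by_cases hyt : y ∈ e.target
      · rw [hb't y hyt]
        have : b (e.symm y) = 0 := by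
          apply hb0
          intro h
          exact hy ⟨e.symm y, h, e.right_inv hyt⟩
        simp only [hc, this]
        ext v w
        simp
      · exact if_neg hyt
    have hcc : ContinuousOn c e.target := by
      have k1 : ContinuousOn (fun y => b (e.symm y)) e.target :=
        hb.comp_continuousOn e.symm.continuousOn
      have k2 : ContinuousOn (fun y => fderiv ℝ e.symm y) e.target :=
        h2.continuousOn_fderiv_of_isOpen e.open_target (by simp)
      have k3 : c = fun y => ((ContinuousLinearMap.compL ℝ E' E ℝ).flip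
          (fderiv ℝ e.symm y)).comp ((b (e.symm y)).comp (fderiv ℝ e.symm y)) := by
        funext y
        ext v w
        simp [hc]
      rw [k3]
      exact ((ContinuousLinearMap.continuous _).comp_continuousOn k2).clm_comp (k1.clm_comp k2)
    have hb'c : Continuous b' := by
      rw [continuous_iff_continuousAt]
      intro y
      by_cases hy : y ∈ e.target
      · have : b' =ᶠ[𝓝 y] c := by
          filter_upwards [e.open_target.mem_nhds hy] with z hz
          exact hb't z hz
        exact (hcc.continuousAt (e.open_target.mem_nhds hy)).congr this.symm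
      · have hyQ : y ∈ (e '' Q0)ᶜ := fun h => hy (hQt h)
        have : b' =ᶠ[𝓝 y] fun _ => 0 := by
          filter_upwards [hQc.isClosed.isOpen_compl.mem_nhds hyQ] with z hz
          exact hb'0 z hz
        exact continuousAt_const.congr this.symm
    have hb'a : ∀ q v, b' q v v = 0 := by
      intro q v
      by_cases hq : q ∈ e.target
      · rw [hb't q hq]
        simp [hc, hba]
      · have : b' q = 0 := if_neg hq
        rw [this]; rfl
    have hcv : ∀ y ∈ e.target, ∀ v w, b' y v w =
        b (e.symm y) (fderiv ℝ e.symm y v) (fderiv ℝ e.symm y w) := by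
      intro y hy v w
      rw [hb't y hy]
      simp [hc]
    have hse : e.symm '' (e '' Q0) = Q0 := by
      rw [image_image]
      ext x
      constructor
      · rintro ⟨z, hz, rfl⟩
        change e.symm (e z) ∈ Q0
        rwa [e.left_inv (hQs hz)]
      · intro hx
        exact ⟨x, hx, e.left_inv (hQs hx)⟩
    have hTT : T b = T' b' := by
      apply hT b b' hb hb'c hba hb'a
      · refine ⟨e '' Q0, hQt, hQc, hb'0, ?_⟩
        rw [hse]
        exact hb0
      · intro x hx v w
        rw [hcv _ (e.map_source hx), e.left_inv hx, ses e h1 h2 hx, ses e h1 h2 hx]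
    rw [hTT, HC b' hb'c hb'a ⟨e '' Q0, hQU, hQc, hb'0⟩]
    refine Finset.sum_congr rfl fun j _ => ?_
    refine setIntegral_congr_fun measurableSet_ball fun z hz => ?_
    change b' (u' j z) (fderiv ℝ (u' j) z 1) (fderiv ℝ (u' j) z Complex.I) =
      b (e.symm (u' j z)) (fderiv ℝ (fun z => e.symm (u' j z)) z 1)
        (fderiv ℝ (fun z => e.symm (u' j z)) z Complex.I)
    rw [hcv _ (hut j z hz), hd j z hz, hd j z hz]

end

end Crest.Agent.R235.Reg_LFPULL_133
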