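import Crest.Agent.R235.CylDef2_522

/-!
Row 235 (S0364), PACKAGE REG, leaf A1.2a POLFOL (helper659): discs in all directions near the
vertical one, each with a transversal foliation.
-/

set_option autoImplicit false
set_option maxSynthPendingDepth 3

open MeasureTheory Metric Set Filter
open scoped ContDiff Topology

namespace Crest.Agent.R235.Reg_POLFOL_659

open Crest.Agent.R235.NWDefs_334 Crest.Agent.R235.Reg_522 Crest.Agent.R235.Cyl

noncomputable section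

/-! ### fixed points -/

section Fix

variable {E : Type*} [NormedAddCommGroup E] [CompleteSpace E]

theorem fix {T : E → E} {a : ℝ} (ha : 0 ≤ a)
    (hT : ∀ x ∈ closedBall (0 : E) a, T x ∈ closedBall (0 : E) a)
    (hl : ∀ x ∈ closedBall (0 : E) a, ∀ y ∈ closedBall (0 : E) a,
      dist (T x) (T y) ≤ 1 / 2 * dist x y) : ∃ x ∈ closedBall (0 : E) a, T x = x := by
  have hm : MapsTo T (closedBall (0 : E) a) (closedBall (0 : E) a) := hT
  have hc : ContractingWith (1 / 2 : NNReal) (hm.restrict T _ _) := by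
    refine ⟨by norm_num, LipschitzWith.of_dist_le_mul fun x y => ?_⟩
    have e : ((1 / 2 : NNReal) : ℝ) = 1 / 2 := by norm_num
    rw [e]
    exact hl x.1 x.2 y.1 y.2
  obtain ⟨y, hy, hfy, -⟩ := hc.exists_fixedPoint' isClosed_closedBall.isComplete hm
    (x := 0) (mem_closedBall_self ha) (edist_ne_top _ _)
  exact ⟨y, hy, hfy⟩

variable [NormedSpace ℝ E]

/-- a map close to the identity has a zero. -/
theorem exists_zero {F : E → E} {δ R : ℝ} (hδ : 0 ≤ δ) (hδ1 : δ ≤ 1 / 2) (hR : δ < R)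
    (hd : ∀ x ∈ ball (0 : E) R, DifferentiableAt ℝ F x)
    (h1 : ∀ x ∈ ball (0 : E) R, ‖F x - x‖ ≤ δ)
    (h2 : ∀ x ∈ ball (0 : E) R, ‖fderiv ℝ F x - ContinuousLinearMap.id ℝ E‖ ≤ δ) :
    ∃ x : E, ‖x‖ ≤ δ ∧ F x = 0 := by
  have hsub : closedBall (0 : E) δ ⊆ ball (0 : E) R := closedBall_subset_ball hR
  obtain ⟨x, hx, hfx⟩ := fix (T := fun x => x - F x) hδ (fun x hx => by
      rw [mem_closedBall_zero_iff, norm_sub_rev]
      exact h1 x (hsub hx)) (fun x hx y hy => by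
      have h3 := (convex_ball (0 : E) R).norm_image_sub_le_of_norm_fderiv_le' hd h2 (hsub hy)
        (hsub hx)
      rw [dist_eq_norm, dist_eq_norm]
      have e : x - F x - (y - F y) = -(F x - F y - (ContinuousLinearMap.id ℝ E) (x - y)) := by
        simp only [ContinuousLinearMap.id_apply]; abel
      rw [e, norm_neg]
      exact h3.trans (mul_le_mul_of_nonneg_right hδ1 (norm_nonneg _)))
  refine ⟨x, mem_closedBall_zero_iff.1 hx, ?_⟩
  have h4 : x - F x = x := hfx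
  have h5 : F x = x - (x - F x) := by abel
  rw [h5, h4, sub_self]

end Fix

/-! ### a quantitative implicit function theorem -/

section Impl

variable {E P : Type*} [NormedAddCommGroup E] [NormedSpace ℝ E] [CompleteSpace E]
  [NormedAddCommGroup P] [NormedSpace ℝ P] [CompleteSpace P]

omit [CompleteSpace E] [CompleteSpace P] in
theorem impl_lip {G : E × P → E} {δ : ℝ}
    (hG : ∀ p ∈ ball (0 : E × P) 1, DifferentiableAt ℝ G p)
    (hd : ∀ p ∈ ball (0 : E × P) 1, ∀ v, ‖fderiv ℝ G p v - v.1‖ ≤ δ * ‖v‖) (hδ : 0 ≤ δ)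
    {p q : E × P} (hp : p ∈ ball (0 : E × P) 1) (hq : q ∈ ball (0 : E × P) 1) :
    ‖G p - G q - (p.1 - q.1)‖ ≤ δ * ‖p - q‖ :=
  (convex_ball (0 : E × P) 1).norm_image_sub_le_of_norm_fderiv_le'
    (φ := ContinuousLinearMap.fst ℝ E P) hG
    (fun x hx => ContinuousLinearMap.opNorm_le_bound _ hδ fun v => hd x hx v) hq hp

theorem implicit {G : E × P → E} {δ : ℝ} (hδ : 0 ≤ δ) (hδ1 : δ ≤ 1 / 4)
    (hG : ContDiffOn ℝ ∞ G (ball 0 1)) (h0 : G 0 = 0)
    (hd : ∀ p ∈ ball (0 : E × P) 1, ∀ v, ‖fderiv ℝ G p v - v.1‖ ≤ δ * ‖v‖) :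
    ∃ c : P → E, ContDiffOn ℝ ∞ c (ball 0 (1 / 4)) ∧ c 0 = 0 ∧
      (∀ t ∈ ball (0 : P) (1 / 4), ‖c t‖ ≤ 1 / 4 ∧ G (c t, t) = 0) ∧
      ∀ t ∈ ball (0 : P) (1 / 4), ∀ v, ‖fderiv ℝ c t v‖ ≤ δ * ‖v‖ := by
  have hGd : ∀ p ∈ ball (0 : E × P) 1, ContDiffAt ℝ ∞ G p := fun p hp =>
    hG.contDiffAt (isOpen_ball.mem_nhds hp)
  have hGd' : ∀ p ∈ ball (0 : E × P) 1, DifferentiableAt ℝ G p := fun p hp =>
    (hGd p hp).differentiableAt (by simp)
  have hmem : ∀ (x : E) (t : P), ‖x‖ < 1 → ‖t‖ < 1 → (x, t) ∈ ball (0 : E × P) 1 := by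
    intro x t hx ht
    rw [mem_ball_zero_iff, Prod.norm_def]
    exact max_lt hx ht
  have h01 : (0 : E × P) ∈ ball (0 : E × P) 1 := mem_ball_self one_pos
  -- existence
  have hex : ∀ t : P, t ∈ ball (0 : P) (1 / 4) → ∃ x : E, ‖x‖ ≤ 1 / 4 ∧ G (x, t) = 0 := by
    intro t ht
    rw [mem_ball_zero_iff] at ht
    obtain ⟨x, hx, hfx⟩ := fix (E := E) (T := fun x => x - G (x, t)) (a := 1 / 4) (by norm_num)
      (fun x hx => by
        rw [mem_closedBall_zero_iff] at hx ⊢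
        have h1 := impl_lip hGd' hd hδ (hmem x t (by linarith) (by linarith)) h01
        rw [h0, sub_zero, sub_zero, Prod.fst_zero, sub_zero] at h1
        have h2 : ‖((x, t) : E × P)‖ ≤ 1 / 4 := by
          rw [Prod.norm_def]; exact max_le hx ht.le
        have h3 : δ * ‖((x, t) : E × P)‖ ≤ 1 / 4 * (1 / 4) :=
          mul_le_mul hδ1 h2 (norm_nonneg _) (by norm_num)
        rw [norm_sub_rev]
        have h4 : ‖G (x, t) - x‖ ≤ δ * ‖((x, t) : E × P)‖ := h1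
        linarith)
      (fun x hx y hy => by
        rw [mem_closedBall_zero_iff] at hx hy
        have h1 := impl_lip hGd' hd hδ (hmem x t (by linarith) (by linarith))
          (hmem y t (by linarith) (by linarith))
        have h2 : ‖((x, t) : E × P) - (y, t)‖ = ‖x - y‖ := by
          rw [Prod.mk_sub_mk, sub_self, Prod.norm_def]
          simp
        rw [h2] at h1
        rw [dist_eq_norm, dist_eq_norm]
        have e : x - G (x, t) - (y - G (y, t)) = -(G (x, t) - G (y, t) - (x - y)) := by abel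
        rw [e, norm_neg]
        have h3 : ‖G (x, t) - G (y, t) - (x - y)‖ ≤ δ * ‖x - y‖ := h1
        nlinarith [norm_nonneg (x - y)])
    refine ⟨x, mem_closedBall_zero_iff.1 hx, ?_⟩
    have h4 : x - G (x, t) = x := hfx
    have h5 : G (x, t) = x - (x - G (x, t)) := by abel
    rw [h5, h4, sub_self]
  -- uniqueness
  have huniq : ∀ (t : P) (x y : E), ‖t‖ < 1 → ‖x‖ < 1 → ‖y‖ < 1 → G (x, t) = 0 → G (y, t) = 0 →
      x = y := by
    intro t x y ht hx hy h1 h2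
    have h3 := impl_lip hGd' hd hδ (hmem x t hx ht) (hmem y t hy ht)
    have h4 : ‖((x, t) : E × P) - (y, t)‖ = ‖x - y‖ := by
      rw [Prod.mk_sub_mk, sub_self, Prod.norm_def]
      simp
    rw [h4, h1, h2, sub_self, zero_sub, norm_neg] at h3
    have h5 : ‖x - y‖ ≤ δ * ‖x - y‖ := h3
    have h6 : ‖x - y‖ ≤ 0 := by nlinarith [norm_nonneg (x - y)]
    exact sub_eq_zero.1 (norm_le_zero_iff.1 h6)
  choose! c hc using hex
  have hcs : ∀ t ∈ ball (0 : P) (1 / 4), ContDiffAt ℝ ∞ c t := by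
    intro t ht
    have ht' := mem_ball_zero_iff.1 ht
    obtain ⟨hc1, hc2⟩ := hc t ht
    set p : E × P := (c t, t) with hp
    have hpm : p ∈ ball (0 : E × P) 1 := hmem _ _ (by linarith) (by linarith)
    set H : E × P → E × P := fun q => (G q, q.2) with hH
    have hHs : ContDiffAt ℝ ∞ H p := (hGd p hpm).prodMk contDiffAt_snd
    set A : E × P →L[ℝ] E × P := (fderiv ℝ G p).prod (ContinuousLinearMap.snd ℝ E P) with hA
    have hHd : HasFDerivAt H A p := (hGd' p hpm).hasFDerivAt.prodMk hasFDerivAt_snd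
    have hsmall : ‖ContinuousLinearMap.id ℝ (E × P) - A‖ < 1 := by
      refine lt_of_le_of_lt (ContinuousLinearMap.opNorm_le_bound _ hδ fun v => ?_)
        (show δ < 1 by linarith)
      have e : (ContinuousLinearMap.id ℝ (E × P) - A) v = (v.1 - fderiv ℝ G p v, 0) := by
        rw [hA]
        simp [Prod.ext_iff]
      rw [e, Prod.norm_def]
      simp only [norm_zero, sup_le_iff]
      refine ⟨?_, by positivity⟩
      rw [norm_sub_rev]
      exact hd p hpm v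
    have hunit : IsUnit A := by
      have h1 := (Units.oneSub (1 - A) hsmall).isUnit
      have h2 : ((Units.oneSub (1 - A) hsmall : (E × P →L[ℝ] E × P)ˣ) : E × P →L[ℝ] E × P) = A := by
        simp
      rwa [h2] at h1
    obtain ⟨uA, huA⟩ := hunit
    set L : (E × P) ≃L[ℝ] (E × P) := ContinuousLinearEquiv.ofUnit uA with hL
    have hLA : ((L : (E × P) ≃L[ℝ] (E × P)) : E × P →L[ℝ] E × P) = A := by
      rw [← huA]
      exact ContinuousLinearMap.ext fun v => rfl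
    have hHd' : HasFDerivAt H (L : E × P →L[ℝ] E × P) p := by rw [hLA]; exact hHd
    have hinf : (∞ : WithTop ℕ∞) ≠ 0 := by simp
    have hinv := hHs.to_localInverse hHd' hinf
    set g := hHs.localInverse hHd' hinf with hg
    have hHp : H p = (0, t) := by
      show (G p, t) = (0, t)
      rw [hc2]
    rw [hHp] at hinv
    have hri : ∀ᶠ y in 𝓝 ((0 : E), t), H (g y) = y := by
      have := (hHs.hasStrictFDerivAt' hHd' hinf).eventually_right_inverse
      rw [hHp] at this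
      exact this
    have hgp : g (0, t) = p := by
      have := hHs.localInverse_apply_image hHd' hinf
      rw [hHp] at this
      exact this
    have hgc : ContinuousAt g ((0 : E), t) := hinv.continuousAt
    have hι : ContDiff ℝ ∞ fun s : P => ((0 : E), s) := contDiff_const.prodMk contDiff_id
    have hιc : Tendsto (fun s : P => ((0 : E), s)) (𝓝 t) (𝓝 ((0 : E), t)) :=
      hι.continuous.tendsto t
    have hnear : ∀ᶠ s in 𝓝 t, (g (0, s)).1 ∈ ball (0 : E) 1 := by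
      have h1 : Tendsto (fun s : P => (g (0, s)).1) (𝓝 t) (𝓝 (g (0, t)).1) :=
        (continuous_fst.tendsto _).comp (hgc.tendsto.comp hιc)
      refine h1.eventually (isOpen_ball.mem_nhds ?_)
      rw [hgp, mem_ball_zero_iff]
      show ‖c t‖ < 1
      linarith
    have heq : c =ᶠ[𝓝 t] fun s => (g (0, s)).1 := by
      filter_upwards [hnear, hιc.eventually hri, isOpen_ball.mem_nhds ht] with s h1 h2 h3
      have h3' := mem_ball_zero_iff.1 h3
      obtain ⟨hs1, hs2⟩ := hc s h3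
      have h4 : (g (0, s)).2 = s := congrArg Prod.snd h2
      have h5 : G (g (0, s)) = 0 := congrArg Prod.fst h2
      have h6 : g (0, s) = ((g (0, s)).1, s) := by
        conv_lhs => rw [← Prod.mk.eta (p := g (0, s)), h4]
      rw [h6] at h5
      exact huniq s _ _ (by linarith) (by linarith) (mem_ball_zero_iff.1 h1) hs2 h5
    exact (contDiffAt_fst.comp t (ContDiffAt.comp t hinv hι.contDiffAt)).congr_of_eventuallyEq heq
  have hzero : c 0 = 0 := by
    have h1 : (0 : P) ∈ ball (0 : P) (1 / 4) := mem_ball_self (by norm_num)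
    obtain ⟨h2, h3⟩ := hc 0 h1
    exact huniq 0 _ _ (by simp) (by linarith) (by simp) h3 h0
  refine ⟨c, fun t ht => (hcs t ht).contDiffWithinAt, hzero, hc, fun t ht v => ?_⟩
  have ht' := mem_ball_zero_iff.1 ht
  obtain ⟨hc1, hc2⟩ := hc t ht
  have hpm : ((c t, t) : E × P) ∈ ball (0 : E × P) 1 := hmem _ _ (by linarith) (by linarith)
  have hcd : HasFDerivAt c (fderiv ℝ c t) t := ((hcs t ht).differentiableAt (by simp)).hasFDerivAt
  have h1 : HasFDerivAt (fun s => G (c s, s))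
      ((fderiv ℝ G (c t, t)).comp ((fderiv ℝ c t).prod (ContinuousLinearMap.id ℝ P))) t :=
    HasFDerivAt.comp t (hGd' _ hpm).hasFDerivAt (hcd.prodMk (hasFDerivAt_id t))
  have h2 : (fun s => G (c s, s)) =ᶠ[𝓝 t] fun _ => 0 := by
    filter_upwards [isOpen_ball.mem_nhds ht] with s hs
    exact (hc s hs).2
  have h3 := h1.unique ((hasFDerivAt_const (0 : E) t).congr_of_eventuallyEq h2)
  have h4 : fderiv ℝ G (c t, t) (fderiv ℝ c t v, v) = 0 := by
    have := DFunLike.congr_fun h3 v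
    simpa using this
  have h5 := hd _ hpm (fderiv ℝ c t v, v)
  rw [h4, zero_sub, norm_neg] at h5
  have h6 : ‖fderiv ℝ c t v‖ ≤ δ * max ‖fderiv ℝ c t v‖ ‖v‖ := by
    rw [Prod.norm_def] at h5
    exact h5
  rcases le_total ‖fderiv ℝ c t v‖ ‖v‖ with h7 | h7
  · rwa [max_eq_right h7] at h6
  · rw [max_eq_left h7] at h6
    have h8 : ‖fderiv ℝ c t v‖ ≤ 0 := by nlinarith [norm_nonneg (fderiv ℝ c t v)]
    exact h8.trans (by positivity)

end Impl

/-! ### exchange of derivatives -/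

theorem symm_est {B : Type*} [NormedAddCommGroup B] [NormedSpace ℝ B] {E : Type*}
    [NormedAddCommGroup E] [NormedSpace ℝ E] {U : B × ℂ → E}
    (hU : ContDiffOn ℝ ∞ U (ball 0 1 ×ˢ ball 0 1)) {b : B} (hb : b ∈ ball (0 : B) 1) {z : ℂ}
    (hz : z ∈ ball (0 : ℂ) 1) (w : ℂ) {P : ℂ → E} {M : ℝ} (hP : DifferentiableAt ℝ P z)
    (hd : ∀ t ∈ Icc (0 : ℝ) 1,
      ‖fderiv ℝ (fun y => fderiv ℝ U (t • b, y) (b, 0) - P y) z w‖ ≤ M) :
    ‖fderiv ℝ U (b, z) (0, w) - fderiv ℝ U (0, z) (0, w) - fderiv ℝ P z w‖ ≤ M := by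
  have hO : IsOpen (ball (0 : B) 1 ×ˢ ball (0 : ℂ) 1) := isOpen_ball.prod isOpen_ball
  have hmem : ∀ t ∈ Icc (0 : ℝ) 1, ((t • b, z) : B × ℂ) ∈ ball (0 : B) 1 ×ˢ ball (0 : ℂ) 1 := by
    intro t ht
    refine ⟨?_, hz⟩
    rw [mem_ball_zero_iff] at hb ⊢
    rw [norm_smul, Real.norm_of_nonneg ht.1]
    nlinarith [norm_nonneg b, ht.2, ht.1]
  have hD : ∀ t ∈ Icc (0 : ℝ) 1, HasFDerivAt (fderiv ℝ U) (fderiv ℝ (fderiv ℝ U) (t • b, z))
      (t • b, z) := fun t ht =>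
    (((hU.contDiffAt (hO.mem_nhds (hmem t ht))).fderiv_right (m := ∞) (by simp)).differentiableAt
      (by simp)).hasFDerivAt
  have hsymm : ∀ t ∈ Icc (0 : ℝ) 1, ∀ v v' : B × ℂ,
      fderiv ℝ (fderiv ℝ U) (t • b, z) v v' = fderiv ℝ (fderiv ℝ U) (t • b, z) v' v := by
    intro t ht v v'
    exact (hU.contDiffAt (hO.mem_nhds (hmem t ht))).isSymmSndFDerivAt
      (by rw [minSmoothness_of_isRCLikeNormedField]; exact ENat.LEInfty.out) v v'
  -- the function of `t`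
  have h1 : ∀ t ∈ Icc (0 : ℝ) 1, HasDerivWithinAt
      (fun t : ℝ => fderiv ℝ U (t • b, z) (0, w) - t • fderiv ℝ P z w)
      (fderiv ℝ (fderiv ℝ U) (t • b, z) (b, 0) (0, w) - fderiv ℝ P z w) (Icc 0 1) t := by
    intro t ht
    have h2 : HasDerivAt (fun t : ℝ => ((t • b, z) : B × ℂ)) (b, 0) t := by
      have h3 : HasDerivAt (fun t : ℝ => t • b) b t := by
        simpa using (hasDerivAt_id t).smul_const b
      exact h3.prodMk (hasDerivAt_const t z)
    have h4 : HasDerivAt (fun t : ℝ => fderiv ℝ U (t • b, z))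
        (fderiv ℝ (fderiv ℝ U) (t • b, z) (b, 0)) t := (hD t ht).comp_hasDerivAt t h2
    have h5 : HasDerivAt (fun t : ℝ => fderiv ℝ U (t • b, z) (0, w))
        (fderiv ℝ (fderiv ℝ U) (t • b, z) (b, 0) (0, w)) t := by
      simpa using h4.clm_apply (hasDerivAt_const t ((0, w) : B × ℂ))
    have h6 : HasDerivAt (fun t : ℝ => t • fderiv ℝ P z w) (fderiv ℝ P z w) t := by
      simpa using (hasDerivAt_id t).smul_const (fderiv ℝ P z w)
    exact (h5.sub h6).hasDerivWithinAt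
  have h2 : ∀ t ∈ Icc (0 : ℝ) 1,
      ‖fderiv ℝ (fderiv ℝ U) (t • b, z) (b, 0) (0, w) - fderiv ℝ P z w‖ ≤ M := by
    intro t ht
    have h3 : HasFDerivAt (fun y : ℂ => ((t • b, y) : B × ℂ))
        (ContinuousLinearMap.inr ℝ B ℂ) z := hasFDerivAt_prodMk_right (t • b) z
    have h4 : HasFDerivAt (fun y : ℂ => fderiv ℝ U (t • b, y))
        ((fderiv ℝ (fderiv ℝ U) (t • b, z)).comp (ContinuousLinearMap.inr ℝ B ℂ)) z :=
      HasFDerivAt.comp z (hD t ht) h3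
    have h5 : HasFDerivAt (fun y : ℂ => fderiv ℝ U (t • b, y) (b, 0))
        (((ContinuousLinearMap.apply ℝ E ((b, 0) : B × ℂ))).comp
          ((fderiv ℝ (fderiv ℝ U) (t • b, z)).comp (ContinuousLinearMap.inr ℝ B ℂ))) z :=
      (ContinuousLinearMap.apply ℝ E ((b, 0) : B × ℂ)).hasFDerivAt.comp z h4
    have h6 := (h5.fun_sub hP.hasFDerivAt).fderiv
    have h7 := hd t ht
    rw [h6] at h7
    have h8 : fderiv ℝ (fderiv ℝ U) (t • b, z) (b, 0) (0, w) =
        fderiv ℝ (fderiv ℝ U) (t • b, z) (0, w) (b, 0) := hsymm t ht _ _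
    rw [h8]
    exact h7
  have h3 := norm_image_sub_le_of_norm_deriv_le_segment_01' h1
    fun t ht => h2 t (Ico_subset_Icc_self ht)
  simp only [one_smul, zero_smul, sub_zero] at h3
  have e : fderiv ℝ U (b, z) (0, w) - fderiv ℝ U (0, z) (0, w) - fderiv ℝ P z w =
      fderiv ℝ U (b, z) (0, w) - fderiv ℝ P z w - fderiv ℝ U (0, z) (0, w) := by abel
  rw [e]
  exact h3

/-! ### the base disc -/

theorem base (hF : FolStmt) {J : CC → CC →L[ℝ] CC} {r : ℝ} (hJ : ACS J r) {δ : ℝ} (hδ : 0 < δ)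
    (hδ1 : δ ≤ 1 / 2) : ∃ (r1 : ℝ) (u : ℂ → CC), 0 < r1 ∧ ContDiffOn ℝ ∞ u (ball 0 r1) ∧ u 0 = 0 ∧
      (∀ z ∈ ball (0 : ℂ) r1, u z ∈ ball (0 : CC) r) ∧ JHol J u (ball 0 r1) ∧
      ∀ z ∈ ball (0 : ℂ) r1, ∀ v : ℂ, ‖fderiv ℝ u z v - (0, v)‖ ≤ δ * ‖v‖ := by
  obtain ⟨R, hR, hRr, h⟩ := hF J r hJ δ hδ
  obtain ⟨F, hFs, hFe, hFJ⟩ := h R hR le_rfl
  have hFc : ∀ x ∈ ball (0 : CC) 4, ContDiffAt ℝ ∞ F x := fun x hx =>
    hFs.contDiffAt (isOpen_ball.mem_nhds hx)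
  have hFd : ∀ x ∈ ball (0 : CC) 4, DifferentiableAt ℝ F x := fun x hx =>
    (hFc x hx).differentiableAt (by simp)
  obtain ⟨⟨s0, z0⟩, hx0, hF0⟩ := exists_zero hδ.le hδ1 (R := 4) (by linarith) hFd
    (fun x hx => (hFe x hx).1) (fun x hx => (hFe x hx).2)
  rw [Prod.norm_def, max_le_iff] at hx0
  obtain ⟨hs0, hz0⟩ := hx0
  simp only at hs0 hz0
  have hs4 : s0 ∈ ball (0 : ℂ) 4 := by rw [mem_ball_zero_iff]; linarith
  set m : ℂ → ℂ := fun z => z0 + R⁻¹ • z with hm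
  have hm4 : ∀ z ∈ ball (0 : ℂ) R, m z ∈ ball (0 : ℂ) 4 := by
    intro z hz
    rw [mem_ball_zero_iff] at hz ⊢
    have h1 : ‖R⁻¹ • z‖ < 1 := by
      rw [norm_smul, norm_inv, Real.norm_of_nonneg hR.le, inv_mul_lt_iff₀ hR, mul_one]
      exact hz
    calc ‖m z‖ ≤ ‖z0‖ + ‖R⁻¹ • z‖ := norm_add_le _ _
      _ < 4 := by linarith
  have hmm : ∀ z ∈ ball (0 : ℂ) R, ((s0, m z) : CC) ∈ ball (0 : CC) 4 := by
    intro z hz
    rw [mem_ball_zero_iff, Prod.norm_def]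
    exact max_lt (mem_ball_zero_iff.1 hs4) (mem_ball_zero_iff.1 (hm4 z hz))
  have hms : ContDiff ℝ ∞ fun z : ℂ => ((s0, m z) : CC) :=
    contDiff_const.prodMk (contDiff_const.add (contDiff_id.const_smul R⁻¹))
  have hFv : ∀ w ∈ ball (0 : ℂ) 4, ∀ v : ℂ, fderiv ℝ (fun z => F (s0, z)) w v =
      fderiv ℝ F (s0, w) (0, v) := by
    intro w hw v
    have hmem : ((s0, w) : CC) ∈ ball (0 : CC) 4 := by
      rw [mem_ball_zero_iff, Prod.norm_def]
      exact max_lt (mem_ball_zero_iff.1 hs4) (mem_ball_zero_iff.1 hw)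
    have h1 : HasFDerivAt (fun z => F (s0, z))
        ((fderiv ℝ F (s0, w)).comp (ContinuousLinearMap.inr ℝ ℂ ℂ)) w :=
      HasFDerivAt.comp w (hFd _ hmem).hasFDerivAt (hasFDerivAt_prodMk_right s0 w)
    rw [h1.fderiv]
    rfl
  have hud : ∀ z ∈ ball (0 : ℂ) R, HasFDerivAt (fun z => R • F (s0, m z))
      ((fderiv ℝ F (s0, m z)).comp (ContinuousLinearMap.inr ℝ ℂ ℂ)) z := by
    intro z hz
    have h1 : HasFDerivAt m (R⁻¹ • ContinuousLinearMap.id ℝ ℂ) z :=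
      (((hasFDerivAt_id z : HasFDerivAt (fun y : ℂ => y) (ContinuousLinearMap.id ℝ ℂ) z).const_smul
        R⁻¹).const_add z0)
    have h2 : HasFDerivAt (fun z : ℂ => ((s0, m z) : CC))
        ((ContinuousLinearMap.inr ℝ ℂ ℂ).comp (R⁻¹ • ContinuousLinearMap.id ℝ ℂ)) z :=
      HasFDerivAt.comp z (hasFDerivAt_prodMk_right s0 (m z)) h1
    have h3 := (HasFDerivAt.comp z (hFd _ (hmm z hz)).hasFDerivAt h2).const_smul R
    refine h3.congr_fderiv ?_
    ext v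
    all_goals
      simp only [ContinuousLinearMap.comp_apply, smul_apply, map_smul,
        ContinuousLinearMap.id_apply]
      rw [smul_smul, mul_inv_cancel₀ hR.ne', one_smul]
  refine ⟨R, fun z => R • F (s0, m z), hR, ?_, ?_, ?_, ?_, ?_⟩
  · intro z hz
    exact (((hFc _ (hmm z hz)).comp z hms.contDiffAt).const_smul R).contDiffWithinAt
  · show R • F (s0, z0 + R⁻¹ • (0 : ℂ)) = 0
    rw [smul_zero, add_zero, hF0, smul_zero]
  · intro z hz
    rw [mem_ball_zero_iff, norm_smul, Real.norm_of_nonneg hR.le]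
    have h1 := (hFe _ (hmm z hz)).1
    have h2 := mem_ball_zero_iff.1 (hmm z hz)
    have h3 : ‖F (s0, m z)‖ < 4 * (1 + δ) := by
      calc ‖F (s0, m z)‖ = ‖(F (s0, m z) - (s0, m z)) + (s0, m z)‖ := by rw [sub_add_cancel]
        _ ≤ ‖F (s0, m z) - (s0, m z)‖ + ‖((s0, m z) : CC)‖ := norm_add_le _ _
        _ < 4 * (1 + δ) := by linarith
    calc R * ‖F (s0, m z)‖ ≤ R * (4 * (1 + δ)) := by gcongr
      _ < r := hRr
  · intro z hz
    refine ⟨(hud z hz).differentiableAt, fun v => ?_⟩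
    obtain ⟨-, h1⟩ := hFJ s0 hs4 (m z) (hm4 z hz)
    have h2 := h1 v
    rw [hFv _ (hm4 z hz), hFv _ (hm4 z hz)] at h2
    rw [(hud z hz).fderiv]
    exact h2
  · intro z hz v
    rw [(hud z hz).fderiv]
    have h1 := (hFe _ (hmm z hz)).2
    have h2 := (fderiv ℝ F (s0, m z) - ContinuousLinearMap.id ℝ _).le_of_opNorm_le h1 (0, v)
    have h3 : ‖((0, v) : CC)‖ = ‖v‖ := by
      rw [Prod.norm_def]; simp
    rw [h3] at h2
    exact h2

/-! ### the family -/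

/-- the coefficients `(x, (θ, 0))`. -/
def KL : CC × ℂ →L[ℝ] (Fin 2 → CC) :=
  ContinuousLinearMap.pi ![ContinuousLinearMap.fst ℝ CC ℂ,
    (ContinuousLinearMap.inl ℝ ℂ ℂ).comp (ContinuousLinearMap.snd ℝ CC ℂ)]

theorem KL_zero (p : CC × ℂ) : KL p 0 = p.1 := rfl

theorem KL_one (p : CC × ℂ) : KL p 1 = (p.2, 0) := rfl

theorem KL_norm (p : CC × ℂ) : ‖KL p‖ ≤ ‖p‖ := by
  rw [pi_norm_le_iff_of_nonneg (norm_nonneg _), Fin.forall_fin_two, KL_zero, KL_one]
  refine ⟨norm_fst_le p, ?_⟩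
  rw [Prod.norm_def]
  simp only [norm_zero, sup_le_iff, norm_nonneg, and_true]
  exact norm_snd_le p

theorem KL_sum (z : ℂ) (b : Fin 2 → CC) : ∑ k : Fin 2, z ^ (k : ℕ) • b k = b 0 + z • b 1 := by
  rw [Fin.sum_univ_two]
  simp

theorem polfol (hF : FolStmt) (hV : VarStmt) : POLFOL := by
  intro J r hJ δ hδ
  set ε : ℝ := min (δ / 8) (1 / 8) with hε
  have hε0 : 0 < ε := lt_min (by linarith) (by norm_num)
  have hε1 : ε ≤ δ / 8 := min_le_left _ _
  have hε2 : ε ≤ 1 / 8 := min_le_right _ _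
  obtain ⟨r1, u, hr1, hus, hu0, hur, huJ, hud⟩ := base hF hJ hε0 (by linarith)
  obtain ⟨R0, hR0, hR01, hV'⟩ := hV J r hJ u r1 hr1 hus hu0 hur huJ 2 ε hε0
  -- continuity of `J` at `0`
  obtain ⟨ρ, hρ, hρJ⟩ : ∃ ρ > 0, ∀ x ∈ ball (0 : CC) ρ, ‖J x - J 0‖ < δ := by
    have h1 : ContinuousAt J 0 :=
      (hJ.smooth.contDiffAt (isOpen_ball.mem_nhds (mem_ball_self hJ.pos))).continuousAt
    obtain ⟨ρ, hρ, h⟩ := Metric.continuousAt_iff.1 h1 δ hδ
    exact ⟨ρ, hρ, fun x hx => by rw [← dist_eq_norm]; exact h hx⟩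
  set R : ℝ := min R0 (min δ (ρ / 4)) with hRdef
  have hR : 0 < R := lt_min hR0 (lt_min hδ (by linarith))
  have hRR : R ≤ R0 := min_le_left _ _
  have hRδ : R ≤ δ := (min_le_right _ _).trans (min_le_left _ _)
  have hRρ : R ≤ ρ / 4 := (min_le_right _ _).trans (min_le_right _ _)
  obtain ⟨U, hUs, hU0, hUr, hUJ, hUd⟩ := hV' R hR hRR
  have hO : IsOpen (ball (0 : Fin 2 → CC) 1 ×ˢ ball (0 : ℂ) 1) := isOpen_ball.prod isOpen_ball
  have hUc : ∀ b ∈ ball (0 : Fin 2 → CC) 1, ∀ z ∈ ball (0 : ℂ) 1, ContDiffAt ℝ ∞ U (b, z) :=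
    fun b hb z hz => hUs.contDiffAt (hO.mem_nhds ⟨hb, hz⟩)
  have hUdd : ∀ b ∈ ball (0 : Fin 2 → CC) 1, ∀ z ∈ ball (0 : ℂ) 1, DifferentiableAt ℝ U (b, z) :=
    fun b hb z hz => (hUc b hb z hz).differentiableAt (by simp)
  have h01 : (0 : ℂ) ∈ ball (0 : ℂ) 1 := mem_ball_self one_pos
  have h0B : (0 : Fin 2 → CC) ∈ ball (0 : Fin 2 → CC) 1 := mem_ball_self one_pos
  have hKm : ∀ p ∈ ball (0 : CC × ℂ) 1, KL p ∈ ball (0 : Fin 2 → CC) 1 := fun p hp => by
    rw [mem_ball_zero_iff] at hp ⊢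
    exact (KL_norm p).trans_lt hp
  -- the implicit function
  set G : CC × ℂ → CC := fun p => U (KL p, 0) with hG
  have hιs : ContDiff ℝ ∞ fun p : CC × ℂ => ((KL p, 0) : (Fin 2 → CC) × ℂ) :=
    KL.contDiff.prodMk contDiff_const
  have hGs : ContDiffOn ℝ ∞ G (ball 0 1) := fun p hp =>
    ((hUc _ (hKm p hp) 0 h01).comp p hιs.contDiffAt).contDiffWithinAt
  have hG0 : G 0 = 0 := by
    show U (KL 0, 0) = 0
    rw [map_zero, hU0 0 h01, smul_zero, hu0, smul_zero]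
  have hGd : ∀ p ∈ ball (0 : CC × ℂ) 1, ∀ v, ‖fderiv ℝ G p v - v.1‖ ≤ ε * ‖v‖ := by
    intro p hp v
    have h1 : HasFDerivAt (fun p : CC × ℂ => ((KL p, 0) : (Fin 2 → CC) × ℂ))
        (KL.prod (0 : CC × ℂ →L[ℝ] ℂ)) p := KL.hasFDerivAt.prodMk (hasFDerivAt_const 0 p)
    have h2 : HasFDerivAt G ((fderiv ℝ U (KL p, 0)).comp (KL.prod (0 : CC × ℂ →L[ℝ] ℂ))) p :=
      HasFDerivAt.comp p (hUdd _ (hKm p hp) 0 h01).hasFDerivAt h1
    rw [h2.fderiv]
    have h3 := (hUd _ (hKm p hp) (KL v) 0 h01).1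
    rw [KL_sum, zero_smul, add_zero, KL_zero] at h3
    exact h3.trans (mul_le_mul_of_nonneg_left (KL_norm v) hε0.le)
  obtain ⟨c, hcs, hc0, hc1, hcd⟩ := implicit hε0.le (by linarith) hGs hG0 hGd
  -- the coefficients
  set bb : ℂ × ℂ × ℂ → (Fin 2 → CC) := fun q => KL (c q.1 + (q.2.1, 0), q.1) with hbb
  set Ω : Set (ℂ × ℂ × ℂ) := ball 0 (1 / 4) ×ˢ (ball 0 (1 / 4) ×ˢ ball 0 1) with hΩ
  have hΩo : IsOpen Ω := isOpen_ball.prod (isOpen_ball.prod isOpen_ball)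
  have hΩc : Convex ℝ Ω :=
    (convex_ball _ _).prod ((convex_ball _ _).prod (convex_ball _ _))
  have hbm : ∀ q ∈ Ω, bb q ∈ ball (0 : Fin 2 → CC) 1 := by
    intro q hq
    refine hKm _ ?_
    obtain ⟨h1, h2, -⟩ := hq
    have h3 := (hc1 q.1 h1).1
    rw [mem_ball_zero_iff] at h1 h2
    rw [mem_ball_zero_iff, Prod.norm_def]
    have h4 : ‖((q.2.1, 0) : CC)‖ = ‖q.2.1‖ := by rw [Prod.norm_def]; simp
    refine max_lt ?_ (by simp only; linarith)
    refine (norm_add_le _ _).trans_lt ?_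
    rw [h4]
    linarith
  set Ψ : ℂ × ℂ × ℂ → CC := fun q => U (bb q, q.2.2) with hΨ
  have hbd : ∀ q ∈ Ω, HasFDerivAt (fun q : ℂ × ℂ × ℂ => ((bb q, q.2.2) : (Fin 2 → CC) × ℂ))
      ((KL.comp (((fderiv ℝ c q.1).comp (ContinuousLinearMap.fst ℝ ℂ (ℂ × ℂ)) +
        (ContinuousLinearMap.inl ℝ ℂ ℂ).comp ((ContinuousLinearMap.fst ℝ ℂ ℂ).comp
          (ContinuousLinearMap.snd ℝ ℂ (ℂ × ℂ)))).prod (ContinuousLinearMap.fst ℝ ℂ (ℂ × ℂ)))).prod
        ((ContinuousLinearMap.snd ℝ ℂ ℂ).comp (ContinuousLinearMap.snd ℝ ℂ (ℂ × ℂ)))) q := by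
    intro q hq
    have h1 : HasFDerivAt c (fderiv ℝ c q.1) q.1 :=
      ((hcs.contDiffAt (isOpen_ball.mem_nhds hq.1)).differentiableAt (by simp)).hasFDerivAt
    have h2 : HasFDerivAt (fun q : ℂ × ℂ × ℂ => c q.1)
        ((fderiv ℝ c q.1).comp (ContinuousLinearMap.fst ℝ ℂ (ℂ × ℂ))) q :=
      h1.comp q hasFDerivAt_fst
    have h3 : HasFDerivAt (fun q : ℂ × ℂ × ℂ => ((q.2.1, 0) : CC))
        ((ContinuousLinearMap.inl ℝ ℂ ℂ).comp ((ContinuousLinearMap.fst ℝ ℂ ℂ).comp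
          (ContinuousLinearMap.snd ℝ ℂ (ℂ × ℂ)))) q :=
      ((ContinuousLinearMap.inl ℝ ℂ ℂ).comp ((ContinuousLinearMap.fst ℝ ℂ ℂ).comp
          (ContinuousLinearMap.snd ℝ ℂ (ℂ × ℂ)))).hasFDerivAt
    have h4 : HasFDerivAt (fun q : ℂ × ℂ × ℂ => ((c q.1 + (q.2.1, 0), q.1) : CC × ℂ)) _ q :=
      (h2.add h3).prodMk hasFDerivAt_fst
    have h5 := KL.hasFDerivAt.comp q h4
    exact h5.prodMk ((ContinuousLinearMap.snd ℝ ℂ ℂ).comp
      (ContinuousLinearMap.snd ℝ ℂ (ℂ × ℂ))).hasFDerivAt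
  have hΨd : ∀ q ∈ Ω, ∀ a, fderiv ℝ Ψ q a = fderiv ℝ U (bb q, q.2.2)
      (KL (fderiv ℝ c q.1 a.1 + (a.2.1, 0), a.1), a.2.2) ∧ DifferentiableAt ℝ Ψ q := by
    intro q hq a
    have h1 : HasFDerivAt Ψ _ q :=
      HasFDerivAt.comp q (hUdd _ (hbm q hq) _ hq.2.2).hasFDerivAt (hbd q hq)
    refine ⟨?_, h1.differentiableAt⟩
    rw [h1.fderiv]
    rfl
  have hmain : ∀ q ∈ Ω, ∀ a : ℂ × ℂ × ℂ,
      ‖fderiv ℝ Ψ q a - (q.2.2 * a.1 + a.2.1 + q.1 * a.2.2, a.2.2)‖ ≤ 5 * ε * ‖a‖ := by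
    intro q hq a
    rw [(hΨd q hq a).1]
    have hb := hbm q hq
    have hz := hq.2.2
    set b := bb q with hbdef
    set z := q.2.2 with hzdef
    set w := a.2.2 with hwdef
    set v := fderiv ℝ c q.1 a.1 with hvdef
    set C := KL (v + (a.2.1, 0), a.1) with hC
    have hv : ‖v‖ ≤ ε * ‖a.1‖ := hcd q.1 hq.1 a.1
    have ha1 : ‖a.1‖ ≤ ‖a‖ := norm_fst_le a
    have ha2 : ‖a.2‖ ≤ ‖a‖ := norm_snd_le a
    have ha3 : ‖a.2.1‖ ≤ ‖a‖ := (norm_fst_le a.2).trans ha2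
    have ha4 : ‖w‖ ≤ ‖a‖ := (norm_snd_le a.2).trans ha2
    have hCn : ‖C‖ ≤ 2 * ‖a‖ := by
      refine (KL_norm _).trans ?_
      rw [Prod.norm_def]
      refine max_le ?_ (by simp only; linarith [norm_nonneg a])
      refine (norm_add_le _ _).trans ?_
      have h4 : ‖((a.2.1, 0) : CC)‖ = ‖a.2.1‖ := by rw [Prod.norm_def]; simp
      rw [h4]
      nlinarith [norm_nonneg a, norm_nonneg a.1]
    -- E1
    have e1 := (hUd b hb C z hz).1
    rw [KL_sum] at e1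
    -- E2
    set P : ℂ → CC := fun y => ∑ k : Fin 2, y ^ (k : ℕ) • b k with hP
    have hPe : P = fun y => b 0 + y • b 1 := funext fun y => KL_sum y b
    have hPd : HasFDerivAt P ((ContinuousLinearMap.id ℝ ℂ).smulRight (b 1)) z := by
      rw [hPe]
      exact ((hasFDerivAt_id z).smul_const (b 1)).const_add (b 0)
    have e2 := symm_est hUs hb hz w hPd.differentiableAt (M := ε * ‖b‖ * ‖w‖) (by
      intro t ht
      have ht' : t • b ∈ ball (0 : Fin 2 → CC) 1 := by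
        rw [mem_ball_zero_iff] at hb ⊢
        rw [norm_smul, Real.norm_of_nonneg ht.1]
        nlinarith [norm_nonneg b, ht.2, ht.1]
      exact ContinuousLinearMap.le_of_opNorm_le _ (hUd (t • b) ht' b z hz).2 w)
    have hb1 : b 1 = (q.1, 0) := rfl
    have hPw : fderiv ℝ P z w = (w * q.1, 0) := by
      rw [hPd.fderiv, ContinuousLinearMap.smulRight_apply, ContinuousLinearMap.id_apply, hb1]
      ext <;> simp
    rw [hPw] at e2
    -- E3
    have hRz : R • z ∈ ball (0 : ℂ) r1 := by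
      rw [mem_ball_zero_iff] at hz ⊢
      rw [norm_smul, Real.norm_of_nonneg hR.le]
      nlinarith [norm_nonneg z]
    have e3 : fderiv ℝ U (0, z) (0, w) = fderiv ℝ u (R • z) w := by
      have h1 : HasFDerivAt (fun y : ℂ => U (0, y))
          ((fderiv ℝ U (0, z)).comp (ContinuousLinearMap.inr ℝ (Fin 2 → CC) ℂ)) z :=
        HasFDerivAt.comp z (hUdd 0 h0B z hz).hasFDerivAt (hasFDerivAt_prodMk_right 0 z)
      have h2 : HasFDerivAt (fun y : ℂ => R⁻¹ • u (R • y))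
          (R⁻¹ • (fderiv ℝ u (R • z)).comp (R • ContinuousLinearMap.id ℝ ℂ)) z := by
        have h3 : HasFDerivAt (fun y : ℂ => R • y) (R • ContinuousLinearMap.id ℝ ℂ) z :=
          (hasFDerivAt_id z).const_smul R
        have h4 : HasFDerivAt u (fderiv ℝ u (R • z)) (R • z) :=
          ((hus.contDiffAt (isOpen_ball.mem_nhds hRz)).differentiableAt (by simp)).hasFDerivAt
        exact (HasFDerivAt.comp z h4 h3).const_smul R⁻¹
      have h3 : (fun y : ℂ => U (0, y)) =ᶠ[𝓝 z] fun y => R⁻¹ • u (R • y) := by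
        filter_upwards [isOpen_ball.mem_nhds hz] with y hy
        exact hU0 y hy
      have h4 := h1.unique (h2.congr_of_eventuallyEq h3)
      have h5 := DFunLike.congr_fun h4 w
      have h6 : (R⁻¹ • (fderiv ℝ u (R • z)).comp (R • ContinuousLinearMap.id ℝ ℂ)) w =
          fderiv ℝ u (R • z) w := by
        simp only [smul_apply, ContinuousLinearMap.comp_apply,
          ContinuousLinearMap.id_apply, map_smul]
        rw [smul_smul, inv_mul_cancel₀ hR.ne', one_smul]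
      rw [h6] at h5
      exact h5
    have e3' : ‖fderiv ℝ U (0, z) (0, w) - (0, w)‖ ≤ ε * ‖w‖ := by
      rw [e3]
      exact hud _ hRz w
    -- sum
    have hC0 : C 0 = v + (a.2.1, 0) := rfl
    have hC1 : C 1 = (a.1, 0) := rfl
    rw [hC0, hC1] at e1
    have hsplit : fderiv ℝ U (b, z) (C, w) = fderiv ℝ U (b, z) (C, 0) +
        fderiv ℝ U (b, z) (0, w) := by
      rw [← map_add]
      congr 1
      ext <;> simp
    have hid : fderiv ℝ U (b, z) (C, w) - (z * a.1 + a.2.1 + q.1 * w, w) =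
        (fderiv ℝ U (b, z) (C, 0) - (v + (a.2.1, 0) + z • ((a.1, 0) : CC))) + v +
        (fderiv ℝ U (b, z) (0, w) - fderiv ℝ U (0, z) (0, w) - (w * q.1, 0)) +
        (fderiv ℝ U (0, z) (0, w) - (0, w)) := by
      rw [hsplit]
      have : ((z * a.1 + a.2.1 + q.1 * w, w) : CC) =
          (a.2.1, 0) + z • ((a.1, 0) : CC) + (w * q.1, 0) + (0, w) := by
        ext
        · simp; ring
        · simp
      rw [this]
      abel
    have hb1' : ‖b‖ ≤ 1 := (mem_ball_zero_iff.1 hb).le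
    rw [hid]
    calc _ ≤ ε * ‖C‖ + ‖v‖ + ε * ‖b‖ * ‖w‖ + ε * ‖w‖ := by
          refine (norm_add_le _ _).trans (add_le_add ((norm_add_le _ _).trans
            (add_le_add ((norm_add_le _ _).trans (add_le_add e1 le_rfl)) e2)) e3')
      _ ≤ ε * (2 * ‖a‖) + ε * ‖a‖ + ε * 1 * ‖a‖ + ε * ‖a‖ := by
          gcongr
          exact hv.trans (by gcongr)
      _ = 5 * ε * ‖a‖ := by ring
  have hbound : ∀ q ∈ Ω, ‖Ψ q‖ ≤ 3 := by
    intro q hq
    have h0Ω : (0 : ℂ × ℂ × ℂ) ∈ Ω :=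
      ⟨mem_ball_self (by norm_num), mem_ball_self (by norm_num), mem_ball_self one_pos⟩
    have h1 := hΩc.norm_image_sub_le_of_norm_fderiv_le (f := Ψ) (C := 3)
      (fun x hx => (hΨd x hx 0).2) (fun x hx => ?_) h0Ω hq
    · have h2 : Ψ 0 = 0 := by
        show U (KL (c 0 + (0, 0), 0), 0) = 0
        have := (hc1 0 (mem_ball_self (by norm_num))).2
        have e : c 0 + ((0, 0) : CC) = c 0 := by
          rw [show ((0, 0) : CC) = 0 from rfl, add_zero]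
        rw [e]
        exact this
      rw [h2, sub_zero, sub_zero] at h1
      have h3 : ‖q‖ ≤ 1 := by
        obtain ⟨h4, h5, h6⟩ := hq
        rw [mem_ball_zero_iff] at h4 h5 h6
        rw [Prod.norm_def, Prod.norm_def]
        exact max_le (by linarith) (max_le (by linarith) h6.le)
      linarith
    · refine ContinuousLinearMap.opNorm_le_bound _ (by norm_num) fun a => ?_
      have h2 := hmain x hx a
      obtain ⟨h4, h5, h6⟩ := hx
      rw [mem_ball_zero_iff] at h4 h5 h6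
      have ha1 : ‖a.1‖ ≤ ‖a‖ := norm_fst_le a
      have ha2 : ‖a.2‖ ≤ ‖a‖ := norm_snd_le a
      have ha3 : ‖a.2.1‖ ≤ ‖a‖ := (norm_fst_le a.2).trans ha2
      have ha4 : ‖a.2.2‖ ≤ ‖a‖ := (norm_snd_le a.2).trans ha2
      have h3 : ‖((x.2.2 * a.1 + a.2.1 + x.1 * a.2.2, a.2.2) : CC)‖ ≤ (9 / 4) * ‖a‖ := by
        rw [Prod.norm_def]
        refine max_le ?_ (by simp only; linarith [norm_nonneg a])
        calc ‖x.2.2 * a.1 + a.2.1 + x.1 * a.2.2‖ ≤ ‖x.2.2‖ * ‖a.1‖ + ‖a.2.1‖ + ‖x.1‖ * ‖a.2.2‖ := by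
              refine (norm_add_le _ _).trans (add_le_add ((norm_add_le _ _).trans
                (add_le_add (norm_mul_le _ _) le_rfl)) (norm_mul_le _ _))
          _ ≤ 1 * ‖a‖ + ‖a‖ + 1 / 4 * ‖a‖ := by gcongr
          _ = 9 / 4 * ‖a‖ := by ring
      calc ‖fderiv ℝ Ψ x a‖ = ‖(fderiv ℝ Ψ x a - (x.2.2 * a.1 + a.2.1 + x.1 * a.2.2, a.2.2)) +
            (x.2.2 * a.1 + a.2.1 + x.1 * a.2.2, a.2.2)‖ := by rw [sub_add_cancel]
        _ ≤ 5 * ε * ‖a‖ + 9 / 4 * ‖a‖ := (norm_add_le _ _).trans (add_le_add h2 h3)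
        _ ≤ 3 * ‖a‖ := by nlinarith [norm_nonneg a]
  refine ⟨R, hR, hRδ, Ψ, ?_, ?_, ?_, ?_⟩
  · intro q hq
    have h1 : ContDiffAt ℝ ∞ (fun q : ℂ × ℂ × ℂ => ((bb q, q.2.2) : (Fin 2 → CC) × ℂ)) q := by
      have h2 : ContDiffAt ℝ ∞ (fun q : ℂ × ℂ × ℂ => c q.1) q :=
        (hcs.contDiffAt (isOpen_ball.mem_nhds hq.1)).comp q contDiffAt_fst
      have h3 : ContDiffAt ℝ ∞ (fun q : ℂ × ℂ × ℂ => ((q.2.1, 0) : CC)) q :=
        (contDiff_snd.fst.prodMk contDiff_const).contDiffAt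
      exact ((KL.contDiff.contDiffAt).comp q ((h2.add h3).prodMk contDiffAt_fst)).prodMk
        contDiff_snd.snd.contDiffAt
    exact ((hUc _ (hbm q hq) _ hq.2.2).comp q h1).contDiffWithinAt
  · intro θ hθ
    show U (KL (c θ + (0, 0), θ), 0) = 0
    have e : c θ + ((0, 0) : CC) = c θ := by
      rw [show ((0, 0) : CC) = 0 from rfl, add_zero]
    rw [e]
    exact (hc1 θ hθ).2
  · intro θ hθ s hs
    have h1 : bb (θ, s, 0) ∈ ball (0 : Fin 2 → CC) 1 := hbm (θ, s, 0) ⟨hθ, hs, h01⟩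
    exact hUJ _ h1
  · intro θ hθ s hs z hz
    have hq : ((θ, s, z) : ℂ × ℂ × ℂ) ∈ Ω := ⟨hθ, hs, hz⟩
    refine ⟨hUr _ ⟨hbm _ hq, hz⟩, fun v => ?_, fun a => ?_⟩
    · have h1 : R • Ψ (θ, s, z) ∈ ball (0 : CC) ρ := by
        rw [mem_ball_zero_iff, norm_smul, Real.norm_of_nonneg hR.le]
        have := hbound _ hq
        nlinarith
      have h2 := hρJ _ h1
      rw [← hJ.zero v]
      exact (J (R • Ψ (θ, s, z)) - J 0).le_of_opNorm_le h2.le v
    · refine (hmain _ hq a).trans ?_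
      gcongr
      linarith

end

end Crest.Agent.R235.Reg_POLFOL_659
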