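import Crest.Agent.R235.RegPushE_952

/-!
# Row 235, REG A1.1 (helper952): `push : Reg_522.PUSH`

Push-forward of a flat current of density one by a diffeomorphism.
-/

set_option autoImplicit false
set_option linter.unusedSectionVars false
set_option maxSynthPendingDepth 3

open MeasureTheory Metric Set Filter Topology
open scoped ContDiff ENNReal NNReal
open Crest.Agent.R235.Reg_522

namespace Crest.Agent.R235.RegPush_952

noncomputable section

variable {E E' : Type} [NormedAddCommGroup E] [NormedSpace ℝ E]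
  [FiniteDimensional ℝ E] [MeasurableSpace E] [BorelSpace E]
  [NormedAddCommGroup E'] [NormedSpace ℝ E'] [FiniteDimensional ℝ E'] [MeasurableSpace E']
  [BorelSpace E']

variable {J : E → E →L[ℝ] E} {U : Set E} {m : Measure E} {X : E → E} {K : ℝ}
  {e : OpenPartialHomeomorph E E'} {J' : E' → E' →L[ℝ] E'} {V : Set E'} {v0 : E'}

/-- a compactly supported function vanishes outside a ball -/
theorem exists_rad {g' : E' → E' →L[ℝ] E' →L[ℝ] ℝ} (hgc : HasCompactSupport g') :
    ∃ ρ : ℝ, 0 ≤ ρ ∧ ∀ z, ρ < ‖z‖ → g' z = 0 := by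
  obtain ⟨ρ, hρ⟩ := hgc.isCompact.isBounded.exists_norm_le
  refine ⟨max ρ 0, le_max_right _ _, fun z hz => ?_⟩
  refine image_eq_zero_of_notMem_tsupport fun h => ?_
  have := hρ z h
  have := le_max_left ρ 0
  linarith

namespace PD

variable (H : PD J U m X K e J' V)
include H

theorem flat_at {x : E} (hx : x ∈ OO e V) (hf : FlatE m X (fun q => J q (X q)) x) :
    FlatE (pmm e V X m) (pX e V X v0) (fun q => J' q (pX e V X v0 q)) (e x) := by
  intro g' hg' hgc hga
  have hfin := H.fc.fin
  obtain ⟨A, hA1, hA, hA', hAJ, hL, hL'⟩ := H.exists_const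
  have hA0 : 0 < A := by linarith
  obtain ⟨ρ, hρ0, hρ⟩ := exists_rad hgc
  obtain ⟨M0, hM0⟩ := hgc.exists_bound_of_continuous hg'
  set M := max M0 0 with hMdef
  have hM : ∀ z, ‖g' z‖ ≤ M := fun z => (hM0 z).trans (le_max_left _ _)
  have hMn : 0 ≤ M := le_max_right _ _
  set D := fderiv ℝ e x with hD
  have hDA : ‖D‖ ≤ A := hA x (H.O_K hx)
  have hDs : ∀ z : E, ‖z‖ ≤ A * ‖D z‖ := by
    intro z
    have h2 := (fderiv ℝ e.symm (e x)).le_opNorm (fderiv ℝ e x z)
    rw [H.inv1 hx.1] at h2
    exact h2.trans (mul_le_mul_of_nonneg_right (hA' _ (subset_closure hx.2)) (norm_nonneg _))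
  have e1 : ∀ r : ℝ, ∫ q, g' (r⁻¹ • (q - e x)) (pX e V X v0 q) (J' q (pX e V X v0 q))
      ∂(pmm e V X m) = ∫ q in OO e V, GG e J X g' x r q ∂m :=
    fun r => H.int_star (fun q => g' (r⁻¹ • (q - e x)))
  have e2 := hf (fz D g') (fz_cont D hg') (H.fz_cs hx.1 (hA' _ (subset_closure hx.2)) hρ)
    (fun z v => by rw [fz_apply]; exact hga _ _)
  have key : Tendsto (fun r : ℝ => (r ^ 2)⁻¹ * (∫ q in OO e V, GG e J X g' x r q ∂m -
      ∫ q, G0 D J X g' x r q ∂m)) (𝓝[>] 0) (𝓝 0) := by
    have hK := H.K_nonneg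
    set C := A * ρ + 1 with hC
    have hC0 : 0 < C := by positivity
    obtain ⟨δ0, hδ0, hδO⟩ : ∃ δ0 > 0, closedBall x δ0 ⊆ OO e V :=
      Metric.nhds_basis_closedBall.mem_iff.1 (H.open_O.mem_nhds hx)
    rw [Metric.tendsto_nhds]
    intro ε hε
    set ε' := ε / (K * C ^ 2 + 1) with hε'
    have hε'0 : 0 < ε' := by positivity
    set ε1 := ε' / (4 * A ^ 3) with hε1
    have hε10 : 0 < ε1 := by positivity
    set η := ε' / (4 * (M + 1) * A ^ 2) with hη
    have hη0 : 0 < η := by positivity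
    obtain ⟨δ1, hδ1, hu⟩ := Metric.uniformContinuous_iff.1
      (hgc.uniformContinuous_of_continuous hg') ε1 hε10
    have hη' : 0 < δ1 / (2 * C) := by positivity
    have d1 : ∀ᶠ q in 𝓝 x, ‖e q - e x - D (q - x)‖ ≤ δ1 / (2 * C) * ‖q - x‖ :=
      (hasFDerivAt_iff_isLittleO.1 (H.hasD hx.1)).def hη'
    have d2 : ∀ᶠ q in 𝓝 x, ‖fderiv ℝ e q - D‖ < η := by
      have h1 : ContinuousAt (fderiv ℝ e) x :=
        H.cont_fderiv.continuousAt (e.open_source.mem_nhds hx.1)
      have h2 := Metric.tendsto_nhds.1 h1 η hη0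
      filter_upwards [h2] with q hq
      rwa [dist_eq_norm] at hq
    obtain ⟨δ2, hδ2, hball⟩ := Metric.nhds_basis_closedBall.mem_iff.1 (d1.and d2)
    have hmin : 0 < min δ0 δ2 / C := div_pos (lt_min hδ0 hδ2) hC0
    filter_upwards [Ioo_mem_nhdsGT hmin] with r hr
    have hr0 : 0 < r := hr.1
    have hCr : C * r ≤ min δ0 δ2 := by
      have := hr.2.le
      rwa [le_div_iff₀ hC0, mul_comm] at this
    have hCr0 : C * r ≤ δ0 := hCr.trans (min_le_left _ _)
    have hCr2 : C * r ≤ δ2 := hCr.trans (min_le_right _ _)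
    have hsO : closedBall x (C * r) ⊆ OO e V := (closedBall_subset_closedBall hCr0).trans hδO
    have hms : MeasurableSet (closedBall x (C * r)) := isClosed_closedBall.measurableSet
    have far : ∀ q, q ∉ closedBall x (C * r) → C * r < ‖q - x‖ := by
      intro q hq
      rwa [mem_closedBall, dist_eq_norm, not_le] at hq
    have hCρ : A * (ρ * r) < C * r := by rw [hC]; nlinarith
    have i1 : ∫ q in OO e V, GG e J X g' x r q ∂m =
        ∫ q in closedBall x (C * r), GG e J X g' x r q ∂m := by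
      refine setIntegral_eq_of_subset_of_forall_sdiff_eq_zero H.open_O.measurableSet hsO ?_
      rintro q ⟨hqO, hq⟩
      have h1 := far q hq
      have h2 := hL' (e q) (subset_closure hqO.2) (e x) (subset_closure hx.2)
      rw [e.left_inv hqO.1, e.left_inv hx.1] at h2
      have h3 : ρ < ‖r⁻¹ • (e q - e x)‖ := by
        rw [norm_smul, norm_inv, Real.norm_of_nonneg hr0.le, ← div_eq_inv_mul, lt_div_iff₀ hr0]
        by_contra h
        rw [not_lt] at h
        have := mul_le_mul_of_nonneg_left h hA0.le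
        linarith
      rw [GG, hρ _ h3]
      simp
    have i2 : ∫ q, G0 D J X g' x r q ∂m =
        ∫ q in closedBall x (C * r), G0 D J X g' x r q ∂m := by
      refine (setIntegral_eq_integral_of_forall_compl_eq_zero fun q hq => ?_).symm
      have h1 := far q hq
      have h2 := hDs (q - x)
      have h3 : ρ < ‖D (r⁻¹ • (q - x))‖ := by
        rw [map_smul, norm_smul, norm_inv, Real.norm_of_nonneg hr0.le, ← div_eq_inv_mul,
          lt_div_iff₀ hr0]
        by_contra h
        rw [not_lt] at h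
        have := mul_le_mul_of_nonneg_left h hA0.le
        linarith
      rw [G0, hρ _ h3]
      simp
    obtain ⟨j1, j2⟩ := H.intG (x := x) hA1 hA hAJ hδO hCr0 hg' hMn hM D hDA
    have pt : ∀ q ∈ closedBall x (C * r), ‖GG e J X g' x r q - G0 D J X g' x r q‖ ≤ ε' := by
      intro q hq
      have hqO := hsO hq
      have hqb := hball (closedBall_subset_closedBall hCr2 hq)
      obtain ⟨b1, b2⟩ := hqb
      rw [mem_closedBall, dist_eq_norm] at hq
      have w1 : ‖g' (r⁻¹ • (e q - e x)) - g' (D (r⁻¹ • (q - x)))‖ ≤ ε1 := by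
        rw [← dist_eq_norm]
        refine (hu ?_).le
        rw [dist_eq_norm, map_smul, ← smul_sub, norm_smul, norm_inv, Real.norm_of_nonneg hr0.le,
          ← div_eq_inv_mul, div_lt_iff₀ hr0]
        calc ‖e q - e x - D (q - x)‖ ≤ δ1 / (2 * C) * ‖q - x‖ := b1
          _ ≤ δ1 / (2 * C) * (C * r) := by gcongr
          _ = δ1 / 2 * r := by field_simp
          _ < δ1 * r := by gcongr; linarith
      have n1 : ‖fderiv ℝ e q (X q)‖ ≤ A := by
        have h1 := (fderiv ℝ e q).le_opNorm (X q)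
        rw [H.fc.nX, mul_one] at h1
        exact h1.trans (hA q (H.O_K hqO))
      have n0 : ‖J q (X q)‖ ≤ A := by
        have h1 := (J q).le_opNorm (X q)
        rw [H.fc.nX, mul_one] at h1
        exact h1.trans (hAJ q (H.O_K hqO))
      have n2 : ‖fderiv ℝ e q (J q (X q))‖ ≤ A * A :=
        ((fderiv ℝ e q).le_opNorm _).trans
          (mul_le_mul (hA q (H.O_K hqO)) n0 (norm_nonneg _) hA0.le)
      have n3 : ‖D (X q)‖ ≤ A := by
        have h1 := D.le_opNorm (X q)
        rw [H.fc.nX, mul_one] at h1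
        exact h1.trans hDA
      have n4 : ‖fderiv ℝ e q (X q) - D (X q)‖ ≤ η := by
        have h1 := (fderiv ℝ e q - D).le_opNorm (X q)
        rw [H.fc.nX, mul_one] at h1
        exact h1.trans b2.le
      have n5 : ‖fderiv ℝ e q (J q (X q)) - D (J q (X q))‖ ≤ η * A :=
        ((fderiv ℝ e q - D).le_opNorm _).trans
          (mul_le_mul b2.le n0 (norm_nonneg _) hη0.le)
      have h9 := norm_tri hA1 hMn w1 (hM _) n1 n2 n3 n4 n5 hη0.le hε10.le
      refine h9.trans ?_
      have c1 : ε1 * A ^ 3 = ε' / 4 := by rw [hε1]; field_simp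
      have c2 : 2 * M * η * A ^ 2 ≤ ε' / 2 := by
        have : 2 * M * η * A ^ 2 = (M / (M + 1)) * (ε' / 2) := by
          rw [hη]; field_simp; ring
        rw [this]
        have h10 : M / (M + 1) ≤ 1 := by
          rw [div_le_one (by positivity)]; linarith
        exact mul_le_of_le_one_left (by positivity) h10
      rw [c1]
      linarith
    rw [i1, i2, ← integral_sub j1 j2, dist_zero_right, norm_mul, norm_inv, norm_pow,
      Real.norm_of_nonneg hr0.le]
    have h1 := norm_setIntegral_le_of_norm_le_const (measure_lt_top m (closedBall x (C * r))) pt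
    have h2 := H.fc.up x (C * r) (by positivity)
    have hr2 : 0 < r ^ 2 := by positivity
    rw [inv_mul_lt_iff₀ hr2]
    calc _ ≤ ε' * m.real (closedBall x (C * r)) := h1
      _ ≤ ε' * (K * (C * r) ^ 2) := mul_le_mul_of_nonneg_left h2 hε'0.le
      _ = ε' * (K * C ^ 2) * r ^ 2 := by ring
      _ < ε' * (K * C ^ 2 + 1) * r ^ 2 := by
          refine mul_lt_mul_of_pos_right ?_ hr2
          exact mul_lt_mul_of_pos_left (lt_add_one _) hε'0
      _ = r ^ 2 * ε := by
          rw [hε']; field_simp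
  have h3 := key.add e2
  rw [zero_add, H.lim_eq (v0 := v0) hx g'] at h3
  refine h3.congr fun r => ?_
  rw [e1 r, mul_sub]
  exact sub_add_cancel _ _

theorem fcur' (hv : ‖v0‖ = 1) : ∃ K' : ℝ, FCur J' V (pmm e V X m) (pX e V X v0) K' := by
  obtain ⟨A, hA1, hA, hA', hAJ, hL, hL'⟩ := H.exists_const
  refine ⟨A ^ 2 * (K * (2 * A) ^ 2), ?_⟩
  exact
    { openU := H.opV
      smJ := H.smJ'
      sqJ := H.sqJ'
      fin := H.fin'
      mX := H.measurable_pX
      nX := H.norm_pX hv
      supp := H.supp'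
      closed := fun l hl hc ht => H.closed' hl hc ht
      up := H.up' hA1 hA hL'
      low := H.low'
      flat := by
        refine ae_pm H.open_O H.sub_src ?_
        filter_upwards [H.fc.flat] with x hx hxO
        exact H.flat_at hxO hx }

end PD

/-- **PUSH**: push-forward of a flat current by a diffeomorphism. -/
theorem push : PUSH := by
  intro E E' _ _ _ _ _ _ _ _ _ _ _ J U m X K hF e hs hsm hsms J' hJ' V hV hVc hVt
  obtain ⟨v0, hv0⟩ := exists_norm_eq E' zero_le_one
  have H : PD J U m X K e J' V := ⟨hF, hs, hsm, hsms, hJ', hV, hVc, hVt⟩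
  obtain ⟨K', hK'⟩ := H.fcur' hv0
  exact ⟨pmm e V X m, pX e V X v0, K', hK', fun y hy => H.supp_iff hy,
    fun b _ _ hb => H.int_b hb⟩

end

end Crest.Agent.R235.RegPush_952
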