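import Crest.Agent.R235.CylDef2_522
import Crest.Agent.R235.NWJ2_130

/-!
Row 235, PACKAGE REG, node A7c REGE (helper956): local form at every point in a chart of `E4`,
assembled from PUSH, BOXEX, BOXLF, LFPULL.
-/

set_option autoImplicit false
set_option maxSynthPendingDepth 3

open MeasureTheory Metric Set Filter
open scoped ContDiff Topology

namespace Crest.Agent.R235.Reg_REGE_956

open Crest.Agent.R240
open Crest.Agent.R235.Loc Crest.Agent.R235.Cyl Crest.Agent.R235.Reg_522
open Crest.Agent.R235.NWDefs_334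

noncomputable section

/-! ### the affine chart -/

/-- `x ↦ T (x - p)`. -/
def af (T : E4 ≃L[ℝ] CC) (p : E4) : E4 ≃ₜ CC := (Homeomorph.subRight p).trans T.toHomeomorph

lemma af_apply (T : E4 ≃L[ℝ] CC) (p x : E4) : af T p x = T (x - p) := rfl

lemma af_symm_apply (T : E4 ≃L[ℝ] CC) (p : E4) (y : CC) : (af T p).symm y = T.symm y + p := by
  rw [Homeomorph.symm_apply_eq, af_apply, add_sub_cancel_right, ContinuousLinearEquiv.apply_symm_apply]

/-- the affine chart with target `ball 0 r`. -/
def ac (T : E4 ≃L[ℝ] CC) (p : E4) (r : ℝ) : OpenPartialHomeomorph E4 CC where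
  toFun := af T p
  invFun := (af T p).symm
  source := af T p ⁻¹' ball 0 r
  target := ball 0 r
  map_source' x hx := hx
  map_target' y hy := by
    show af T p ((af T p).symm y) ∈ ball 0 r
    rwa [Homeomorph.apply_symm_apply]
  left_inv' x _ := (af T p).symm_apply_apply x
  right_inv' y _ := (af T p).apply_symm_apply y
  open_source := isOpen_ball.preimage (af T p).continuous
  open_target := isOpen_ball
  continuousOn_toFun := (af T p).continuous.continuousOn
  continuousOn_invFun := (af T p).symm.continuous.continuousOn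

variable (T : E4 ≃L[ℝ] CC) (p : E4) (r : ℝ)

lemma ac_coe : (ac T p r : E4 → CC) = fun x => T (x - p) := rfl

lemma ac_symm_coe : ((ac T p r).symm : CC → E4) = fun y => T.symm y + p := by
  funext y
  exact af_symm_apply T p y

lemma ac_target : (ac T p r).target = ball 0 r := rfl

lemma mem_ac_source (x : E4) : x ∈ (ac T p r).source ↔ T (x - p) ∈ ball (0 : CC) r := Iff.rfl

lemma fderiv_ac (x : E4) : fderiv ℝ (ac T p r) x = (T : E4 →L[ℝ] CC) := by
  rw [ac_coe]
  have h1 : HasFDerivAt (fun x : E4 => T (x - p)) (T : E4 →L[ℝ] CC) x := by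
    have h2 : HasFDerivAt (fun x : E4 => x - p) (ContinuousLinearMap.id ℝ E4) x :=
      (hasFDerivAt_id x).sub_const p
    exact ((T : E4 →L[ℝ] CC).hasFDerivAt (x := x - p)).comp x h2
  exact h1.fderiv

lemma sm_ac (s : Set E4) : ContDiffOn ℝ ∞ (ac T p r) s := by
  rw [ac_coe]
  exact (T.contDiff.comp (contDiff_id.sub contDiff_const)).contDiffOn

lemma sm_ac_symm (s : Set CC) : ContDiffOn ℝ ∞ (ac T p r).symm s := by
  rw [ac_symm_coe]
  exact (T.symm.contDiff.add contDiff_const).contDiffOn

/-- the structure in the affine chart -/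
def J1 (J : E4 → E4 →L[ℝ] E4) (y : CC) : CC →L[ℝ] CC :=
  (T : E4 →L[ℝ] CC).comp ((J (T.symm y + p)).comp (T.symm : CC →L[ℝ] E4))

lemma J1_apply (J : E4 → E4 →L[ℝ] E4) (y v : CC) :
    J1 T p J y v = T (J (T.symm y + p) (T.symm v)) := rfl

/-! ### the structure of a box determines `J v` -/

lemma box_ext {μ β : CC → ℂ} {κ L : ℝ} (h : BoxD μ β κ L) (p v w : CC)
    (h1 : thz μ p v = thz μ p w) (h2 : thw β p v = thw β p w) : v = w := by
  unfold thz at h1
  unfold thw at h2
  have e1 : (v.1 - w.1) + μ p * (starRingEnd ℂ) (v.1 - w.1) = 0 := by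
    rw [map_sub]
    linear_combination h1
  have e2 : v.1 - w.1 = 0 := by
    by_contra hne
    have hpos : 0 < ‖v.1 - w.1‖ := norm_pos_iff.2 hne
    have e3 : v.1 - w.1 = -(μ p * (starRingEnd ℂ) (v.1 - w.1)) := eq_neg_of_add_eq_zero_left e1
    have e4 : ‖v.1 - w.1‖ = ‖μ p‖ * ‖v.1 - w.1‖ := by
      conv_lhs => rw [e3, norm_neg, norm_mul, RCLike.norm_conj]
    have e5 := h.bμ p
    have e6 := h.κ1
    nlinarith
  have e3 : v.1 = w.1 := sub_eq_zero.1 e2
  have e4 : v.2 = w.2 := by
    rw [e3] at h2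
    exact add_right_cancel h2
  exact Prod.ext e3 e4

/-- the differential of a local diffeomorphism is injective -/
lemma fderiv_inj {e : OpenPartialHomeomorph CC CC} (h1 : ContDiffOn ℝ ∞ e e.source)
    (h2 : ContDiffOn ℝ ∞ e.symm e.target) {x : CC} (hx : x ∈ e.source) {v w : CC}
    (h : fderiv ℝ e x v = fderiv ℝ e x w) : v = w := by
  have d1 : DifferentiableAt ℝ e x :=
    (h1.contDiffAt (e.open_source.mem_nhds hx)).differentiableAt (by simp)
  have d2 : DifferentiableAt ℝ e.symm (e x) :=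
    (h2.contDiffAt (e.open_target.mem_nhds (e.map_source hx))).differentiableAt (by simp)
  have h3 : HasFDerivAt (e.symm ∘ e) ((fderiv ℝ e.symm (e x)).comp (fderiv ℝ e x)) x :=
    d2.hasFDerivAt.comp x d1.hasFDerivAt
  have h4 : HasFDerivAt (e.symm ∘ e) (ContinuousLinearMap.id ℝ CC) x := by
    refine (hasFDerivAt_id x).congr_of_eventuallyEq ?_
    filter_upwards [e.open_source.mem_nhds hx] with y hy
    exact e.left_inv hy
  have h5 := h3.unique h4
  have h6 : ∀ u, fderiv ℝ e.symm (e x) (fderiv ℝ e x u) = u := fun u => by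
    have := congrArg (fun A : CC →L[ℝ] CC => A u) h5
    exact this
  rw [← h6 v, ← h6 w, h]

/-- **REGE** -/
theorem rege (hPUSH : PUSH) (hBOXEX : BOXEX) (hBOXLF : BOXLF) (hLFPULL : LFPULL) : REGE := by
  intro J U m X K hF p O hp hO hpO
  -- the linear isomorphism
  have hfr : Module.finrank ℝ E4 = 4 := by simp
  obtain ⟨T, hT, -⟩ := Crest.Agent.R235.NWJ2_130.exists_lin hfr (hF.sqJ p hp) (e := ee 0) (by
    intro h
    have := congrArg (fun v : E4 => v 0) h
    simp at this)
  -- the radius
  obtain ⟨r, hr, hrs⟩ : ∃ r : ℝ, 0 < r ∧ (ac T p (2 * r)).source ⊆ U ∩ O := by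
    have h1 : (fun y : CC => T.symm y + p) ⁻¹' (U ∩ O) ∈ 𝓝 (0 : CC) := by
      have hc : ContinuousAt (fun y : CC => T.symm y + p) 0 := by fun_prop
      refine hc.preimage_mem_nhds ?_
      simp only [map_zero, zero_add]
      exact (hF.openU.inter hO).mem_nhds ⟨hp, hpO⟩
    obtain ⟨ε, hε, hs⟩ := Metric.mem_nhds_iff.1 h1
    refine ⟨ε / 2, by positivity, fun x hx => ?_⟩
    rw [mem_ac_source, mul_div_cancel₀ _ (two_ne_zero)] at hx
    have h2 := hs hx
    simp only [mem_preimage, ContinuousLinearEquiv.symm_apply_apply, sub_add_cancel] at h2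
    exact h2
  have hsub : (ac T p r).source ⊆ (ac T p (2 * r)).source := fun x hx =>
    ball_subset_ball (by linarith) hx
  -- the structure near `0`
  have hback : ∀ y ∈ ball (0 : CC) (2 * r), T.symm y + p ∈ U := by
    intro y hy
    have h1 : T.symm y + p ∈ (ac T p (2 * r)).source := by
      rw [mem_ac_source, add_sub_cancel_right, ContinuousLinearEquiv.apply_symm_apply]
      exact hy
    exact (hrs h1).1
  have hACS : ACS (J1 T p J) r := by
    refine ⟨hr, ?_, ?_, ?_⟩
    · have h1 : ContDiffOn ℝ ∞ (fun y : CC => J (T.symm y + p)) (ball 0 r) := by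
        refine hF.smJ.comp (T.symm.contDiff.add contDiff_const).contDiffOn ?_
        intro y hy
        exact hback y (ball_subset_ball (by linarith) hy)
      exact contDiffOn_const.clm_comp (h1.clm_comp contDiffOn_const)
    · intro y hy v
      rw [J1_apply, J1_apply, ContinuousLinearEquiv.symm_apply_apply,
        hF.sqJ _ (hback y (ball_subset_ball (by linarith) hy)), map_neg,
        ContinuousLinearEquiv.apply_symm_apply]
    · intro v
      rw [J1_apply, map_zero, zero_add, hT, ContinuousLinearEquiv.apply_symm_apply]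
  -- PUSH
  obtain ⟨m1, X1, K1, hF1, hS1, hT1⟩ := hPUSH E4 CC J U m X K hF (ac T p (2 * r))
    (fun x hx => (hrs hx).1) (sm_ac T p _ _) (sm_ac_symm T p _ _) (J1 T p J) (by
      intro x hx v
      rw [fderiv_ac, ac_coe]
      simp only [ContinuousLinearEquiv.coe_coe]
      rw [J1_apply, ContinuousLinearEquiv.symm_apply_apply, ContinuousLinearEquiv.symm_apply_apply,
        sub_add_cancel]) (ball 0 r) isOpen_ball (by
      rw [closure_ball _ hr.ne']
      exact isCompact_closedBall _ _) (by
      rw [closure_ball _ hr.ne', ac_target]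
      exact closedBall_subset_ball (by linarith))
  -- BOXEX
  obtain ⟨μ, β, κ, L, R, ρ₀, ρ₁, K', m', X', Y', e, hbox, hR, hρ0, hρ01, hBC, hes, het, he0, he00,
    hesm, hesms, hJe, hS2, hT2⟩ := hBOXEX (J1 T p J) r hACS m1 X1 K1 hF1
  -- BOXLF
  obtain ⟨U2, n, u, hU2, hLF2, hLC2⟩ := hBOXLF μ β κ L hbox R ρ₀ K' m' X' Y' hR hBC 0 e.target
    e.open_target (by rw [← he00]; exact e.map_source he0) (by
      rw [het]
      exact prod_mono le_rfl (subset_univ _))
  -- LFPULL, first time
  obtain ⟨hLF1, hLC1⟩ := hLFPULL CC CC (fun x v w => w = J1 T p J x v) (JBox μ β)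
    {x | SuppE m1 x} {q | InSupp m' q} e hesm hesms (by
      intro x hx v w h
      obtain ⟨a1, a2⟩ := h
      obtain ⟨b1, b2⟩ := hJe x hx v
      exact fderiv_inj hesm hesms hx
        (box_ext hbox.box (e x) _ _ (a1.trans b1.symm) (a2.trans b2.symm))) (fun y hy => hS2 y hy)
    (fun b => ∫ y, b y (X1 y) (J1 T p J y (X1 y)) ∂m1) (fun b => ∫ q, b q (X' q) (Y' q) ∂m') (by
      intro b b' hb hb' hba hba' hQ hbb
      obtain ⟨Q, hQs, hQc, hQ1, hQ2⟩ := hQ
      show ∫ y, b y (X1 y) (J1 T p J y (X1 y)) ∂m1 = ∫ q, b' q (X' q) (Y' q) ∂m'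
      rw [← hT2 b' hb' hba' ⟨Q, hQs, hQc, hQ1⟩,
        ← setIntegral_eq_integral_of_forall_compl_eq_zero (s := e.source)]
      · refine setIntegral_congr_fun e.open_source.measurableSet fun x hx => ?_
        exact hbb x hx _ _
      · intro x hx
        rw [hQ2 x ?_]
        · rfl
        · rintro ⟨y, hy, rfl⟩
          exact hx (e.map_target (hQs hy))) 0 U2 n u he0 hU2 (by rw [he00]; exact hLF2) hLC2
  -- LFPULL, second time
  have hUs : e.symm '' U2 ⊆ (ac T p r).target := by
    rintro x ⟨y, hy, rfl⟩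
    exact hes (e.map_target (hU2 hy))
  have hp0 : (ac T p r) p = 0 := by
    rw [ac_coe]
    simp
  have hps : p ∈ (ac T p r).source := by
    rw [mem_ac_source]
    simpa using hr
  obtain ⟨hLF0, hLC0⟩ := hLFPULL E4 CC (fun x v w => w = J x v) (fun x v w => w = J1 T p J x v)
    {x | SuppE m x} {x | SuppE m1 x} (ac T p r) (sm_ac T p _ _) (sm_ac_symm T p _ _) (by
      intro x hx v w h
      rw [fderiv_ac, ac_coe] at h
      simp only [ContinuousLinearEquiv.coe_coe] at h
      rw [J1_apply, ContinuousLinearEquiv.symm_apply_apply,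
        ContinuousLinearEquiv.symm_apply_apply, sub_add_cancel] at h
      exact T.injective h) (fun y hy => hS1 y hy)
    (fun b => ∫ x, b x (X x) (J x (X x)) ∂m)
    (fun b => ∫ y, b y (X1 y) (J1 T p J y (X1 y)) ∂m1) (by
      intro b b' hb hb' hba hba' hQ hbb
      obtain ⟨Q, hQs, hQc, hQ1, hQ2⟩ := hQ
      show ∫ x, b x (X x) (J x (X x)) ∂m = ∫ y, b' y (X1 y) (J1 T p J y (X1 y)) ∂m1
      rw [← hT1 b' hb' hba' ⟨Q, hQs, hQc, hQ1⟩,
        ← setIntegral_eq_integral_of_forall_compl_eq_zero (s := (ac T p (2 * r)).source)]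
      · refine setIntegral_congr_fun (ac T p (2 * r)).open_source.measurableSet fun x hx => ?_
        by_cases hx1 : x ∈ (ac T p r).source
        · have := hbb x hx1 (X x) (J x (X x))
          rw [fderiv_ac] at this ⊢
          exact this
        · have h1 : b x = 0 := hQ2 x (by
            rintro ⟨y, hy, rfl⟩
            exact hx1 ((ac T p r).map_target (hQs hy)))
          have h2 : b' ((ac T p (2 * r)) x) = 0 := hQ1 _ fun h => hx1 (hQs h)
          rw [h1, h2]
          rfl
      · intro x hx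
        rw [hQ2 x ?_]
        · rfl
        · rintro ⟨y, hy, rfl⟩
          exact hx (hsub ((ac T p r).map_target (hQs hy)))) p (e.symm '' U2) n
    (fun j z => e.symm (u j z)) hps hUs (by rw [hp0]; exact hLF1) hLC1
  refine ⟨_, n, _, ?_, hLF0, hLC0⟩
  rintro x ⟨y, hy, rfl⟩
  exact hrs (hsub ((ac T p r).map_target (hUs hy)))

end

end Crest.Agent.R235.Reg_REGE_956
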