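import Crest.Agent.R235.CylDef2_522

/-!
Row 235, package REG: `REGLOC` from `MON`, `FLATW`, `REGE`, `FREP`, `LFMFD` (helper312, task 415).
-/

set_option autoImplicit false
set_option maxSynthPendingDepth 3

open MeasureTheory Metric Set Filter
open scoped ContDiff Topology Manifold

universe u

namespace Crest.Agent.R235.Reg_REGLOC_312

open Crest.Agent.R240 Crest.Agent.R240.Ch
open Crest.Agent.R235.CurDefs_132 Crest.Agent.R235.Reg_522

/-- **REGLOC**: local form of a current of density one, from the leaves of package REG. -/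
theorem regloc (hM : MON) (hF : FLATW) (hR : REGE) (hFR : FREP.{u}) (hL : LFMFD.{u}) :
    REGLOC.{u} := by
  intro M _ _ _ _ _ J hJ hJ2 C hD p
  obtain ⟨D, hrep, hden⟩ := hD p
  obtain ⟨V, m, X, K, h⟩ := hFR hF hM M J hJ hJ2 C p D hrep hden
  obtain ⟨U', n, u, hU, hlf, hcur⟩ := hR (repJ p J) V m X K h.fc (chartAt E4 p p) univ h.mem
    isOpen_univ (mem_univ _)
  exact hL M J hJ hJ2 C p V m X K h U' n u (by simpa using hU) hlf hcur

end Crest.Agent.R235.Reg_REGLOC_312
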