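import Crest.Agent.R235.CylFin2_460
import Crest.Agent.R235.RegFlat_460
import Crest.Agent.R235.NWReg2_52
import Crest.Agent.R235.NWFin_334
import Crest.Agent.R235.NWVar_428
import Crest.Agent.R235.End_745
import Crest.Agent.R235.CurMon_956
import Crest.Agent.R235.CurMon0_311
import Crest.Agent.R235.CurGeo1_679
import Crest.Agent.R235.CurGeo3_52
import Crest.Agent.R235.Reg_POLFOL_659
import Crest.Agent.R235.Reg_GOODDIR_936
import Crest.Agent.R235.Reg_CYLEX_464
import Crest.Agent.R235.Reg_MUBETA_369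
import Crest.Agent.R235.Reg_PUSH_952
import Crest.Agent.R235.Reg_BOXOF_679
import Crest.Agent.R235.Reg_BOXEX_52
import Crest.Agent.R235.Reg_BOXLF_437
import Crest.Agent.R235.Reg_LFPULL_133
import Crest.Agent.R235.Reg_REGE_956
import Crest.Agent.R235.Reg_FREP_918
import Crest.Agent.R235.Reg_LFMFD_842
import Crest.Agent.R235.Reg_REGLOC_312

/-!
Row 235, PACKAGE REG, final assembly (helper460): `MON`, `CYLF`, `BOXEX`, `FLATW`, `REGLOC`.
The only hypothesis left is `RegStmt` (smoothness of `C¹` `J`-discs).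
-/

set_option autoImplicit false

universe u

namespace Crest.Agent.R235.RegFin_460

open Crest.Agent.R235.Loc Crest.Agent.R235.Cyl Crest.Agent.R235.CurDefs_132
open Crest.Agent.R235.Reg_522 Crest.Agent.R235.NWDefs_334
open Crest.Agent.R235.NWIface_334 (Reg1Stmt Reg2Stmt)

theorem mon : MON :=
  CurMon_956.mon CurGeo1_679.geo1 CurGeo3_52.geo3 CurLin1_785.lin1' CurLin4_253.LIN4_proof
    CurMon0_311.mon0

theorem reg2 : Reg2Stmt := NWReg2_52.reg2 NWFin_334.cauchy NWFin_334.nst NWFin_334.fam

/-- a box current is a `k`-valued graph. -/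
theorem cyl : CYL := CylFin_460.cyl2 reg2

/-- the final planar description. -/
theorem cylf : CYLF := CylFin_460.cylf2 reg2

theorem var_stmt : VarStmt := NWVar_428.var NWFin_334.cauchy NWFin_334.nst NWFin_334.fam

theorem polfol : POLFOL := Reg_POLFOL_659.polfol NWFin_334.fol_stmt var_stmt

theorem cylex : CYLEX := Reg_CYLEX_464.cylex polfol Reg_GOODDIR_936.gooddir

theorem boxex : BOXEX :=
  Reg_BOXEX_52.boxex cylex Reg_MUBETA_369.mubeta RegPush_952.push Reg_BOXOF_679.boxof

theorem boxlf (hReg : RegStmt) : BOXLF := Reg_BOXLF_437.boxlf cylf (End_745.end_of_reg hReg)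

theorem rege (hReg : RegStmt) : REGE :=
  Reg_REGE_956.rege RegPush_952.push boxex (boxlf hReg) Reg_LFPULL_133.lfpull

/-- **REG (local part)**. -/
theorem regloc (hReg : RegStmt) : REGLOC.{u} :=
  Reg_REGLOC_312.regloc mon RegFlat_460.flatw (rege hReg) Reg_FREP_918.frep Reg_LFMFD_842.lfmfd

end Crest.Agent.R235.RegFin_460
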