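import Crest.Agent.R235.RegC_522
import Crest.Agent.R235.RegFin_460

/-!
Row 235 (S0364), helper522: `REGC` (regularity of positive closed currents of density one) from
`CHLCD` (helper4) and `RegStmt` (helper334/helper930): final assembly of package REG.
-/

set_option autoImplicit false
set_option maxSynthPendingDepth 3

universe u

namespace Crest.Agent.R235.RegCFin_522

/-- **REGC** from the two remaining leaves. -/
theorem regc_of (hC : RegC_522.CHLCD.{u}) (hReg : NWDefs_334.RegStmt) : Curves_489.REGC.{u} :=
  RegC_522.regc hC (RegFin_460.regloc hReg)

end Crest.Agent.R235.RegCFin_522
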