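import Mathlib
import Crest.Agent.R235.CylDef2_522

/-!
Row 235 (S0364), PACKAGE REG, part A1.2d (MUBETA): the coefficients of an almost complex structure
with holomorphic vertical lines.  (helper369)
-/

set_option autoImplicit false

open MeasureTheory Metric Set Filter Complex
open scoped ContDiff Topology ComplexConjugate Manifold

namespace Crest.Agent.R235.Reg_MUBETA_369

open Crest.Agent.R235.Loc Crest.Agent.R235.Cyl Crest.Agent.R235.Reg_522

noncomputable section

/-- decomposition of a real-linear map of `ℂ`. -/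
theorem lz_lzb (A : ℂ →L[ℝ] ℂ) (u : ℂ) : A u = lz A * u + lzb A * conj u := by
  have h : u = u.re • (1 : ℂ) + u.im • I := by
    apply Complex.ext <;> simp
  have h1 : A u = u.re * A 1 + u.im * A I := by
    conv_lhs => rw [h]
    rw [map_add, map_smul, map_smul]
    simp
  have h2 : u = (u.re : ℂ) + u.im * I := (re_add_im u).symm
  have h3 : conj u = (u.re : ℂ) - u.im * I := by
    apply Complex.ext <;> simp
  have h4 : lz A * u + lzb A * conj u =
      lz A * ((u.re : ℂ) + u.im * I) + lzb A * ((u.re : ℂ) - u.im * I) := by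
    rw [← h2, ← h3]
  rw [h4, h1]
  simp only [lz, lzb]
  linear_combination ((u.im : ℂ) * A I) * I_sq

/-- `a X + b X̄ = 0` for all `X` only if `a = b = 0`. -/
theorem coef_zero {a b : ℂ} (h : ∀ u : ℂ, a * u + b * conj u = 0) : a = 0 ∧ b = 0 := by
  have h1 := h 1
  have h2 := h I
  simp only [map_one, mul_one] at h1
  rw [conj_I] at h2
  have h3 : (a - b) * I = 0 := by linear_combination h2
  have h4 : a - b = 0 := by
    rcases mul_eq_zero.1 h3 with h | h
    · exact h
    · exact absurd h I_ne_zero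
  constructor
  · linear_combination (h1 + h4) / 2
  · linear_combination (h1 - h4) / 2

/-- the pointwise algebra. -/
theorem alg {al ga b b' : ℂ} (h1 : ‖al - I‖ ≤ 1 / 4)
    (hsq : ∀ u : ℂ, al * (al * u + ga * conj u) + ga * conj (al * u + ga * conj u) = -u)
    (hba : ∀ u : ℂ, b * (al * u + ga * conj u) + b' * conj (al * u + ga * conj u) +
      I * (b * u + b' * conj u) = 0) :
    I - conj al ≠ 0 ∧ 7 / 4 ≤ ‖I - conj al‖ ∧
    (∀ u : ℂ, (al * u + ga * conj u) + ga / (I - conj al) * conj (al * u + ga * conj u) =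
      I * (u + ga / (I - conj al) * conj u)) ∧
    ∀ u : ℂ, (b * u + b' * conj u) + b' / (I - conj al) * conj (al * u + ga * conj u) =
      I * (b' / (I - conj al) * conj u) := by
  have hn : 7 / 4 ≤ ‖I - conj al‖ := by
    have e1 : I - conj al = 2 * I + -conj (al - I) := by
      rw [map_sub, conj_I]; ring
    have e2 : ‖(2 * I : ℂ)‖ = 2 := by simp
    have e3 := norm_sub_norm_le (2 * I) (conj (al - I))
    rw [e2, norm_conj] at e3
    rw [e1, ← sub_eq_add_neg]
    linarith
  have hne : I - conj al ≠ 0 := by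
    intro h0
    rw [h0, norm_zero] at hn
    norm_num at hn
  -- coefficients
  have c1 : al * al + ga * conj ga + 1 = 0 ∧ al * ga + ga * conj al = 0 := by
    apply coef_zero
    intro u
    have := hsq u
    simp only [map_add, map_mul, conj_conj] at this
    linear_combination this
  have c2 : b * al + b' * conj ga + I * b = 0 ∧ b * ga + b' * conj al + I * b' = 0 := by
    apply coef_zero
    intro u
    have := hba u
    simp only [map_add, map_mul, conj_conj] at this
    linear_combination this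
  -- `al` is purely imaginary
  have him : 3 / 4 ≤ al.im := by
    have h2 := (abs_im_le_norm (al - I)).trans h1
    rw [sub_im, I_im, abs_le] at h2
    linarith [h2.1]
  have hre : al.re = 0 := by
    have h3 : (al * al).im = 0 := by
      have h4 : al * al = -((normSq ga : ℝ) : ℂ) - 1 := by
        rw [← mul_conj]
        linear_combination c1.1
      rw [h4]
      simp
    rw [mul_im] at h3
    have h5 : al.re * al.im = 0 := by linarith
    rcases mul_eq_zero.1 h5 with h | h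
    · exact h
    · rw [h] at him; norm_num at him
  have hconj : conj al = -al := by
    apply Complex.ext
    · simp [hre]
    · simp
  have hne' : I + al ≠ 0 := by
    intro h0
    apply hne
    rw [hconj]
    linear_combination h0
  refine ⟨hne, hn, fun u => ?_, fun u => ?_⟩
  · simp only [map_add, map_mul, conj_conj]
    rw [hconj, sub_neg_eq_add]
    have h6 := c1.1
    field_simp
    linear_combination u * h6 - u * I_sq
  · simp only [map_add, map_mul, conj_conj]
    rw [hconj, sub_neg_eq_add]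
    have h6 := c2.1
    field_simp
    linear_combination u * h6

/-! ### the coefficients of `J` -/

/-- `X ↦ (J p (X, 0)).1`. -/
def cA (J : CC → CC →L[ℝ] CC) (p : CC) : ℂ →L[ℝ] ℂ :=
  (ContinuousLinearMap.fst ℝ ℂ ℂ).comp ((J p).comp (ContinuousLinearMap.inl ℝ ℂ ℂ))

/-- `X ↦ (J p (X, 0)).2`. -/
def cB (J : CC → CC →L[ℝ] CC) (p : CC) : ℂ →L[ℝ] ℂ :=
  (ContinuousLinearMap.snd ℝ ℂ ℂ).comp ((J p).comp (ContinuousLinearMap.inl ℝ ℂ ℂ))

/-- the coefficient `μ`. -/
def mu0 (J : CC → CC →L[ℝ] CC) (p : CC) : ℂ := lzb (cA J p) / (I - conj (lz (cA J p)))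

/-- the coefficient `β`. -/
def be0 (J : CC → CC →L[ℝ] CC) (p : CC) : ℂ := lzb (cB J p) / (I - conj (lz (cA J p)))

theorem J_apply {J : CC → CC →L[ℝ] CC} {p : CC} (h : ∀ v : ℂ, J p (0, v) = (0, I * v)) (v : CC) :
    J p v = (cA J p v.1, cB J p v.1 + I * v.2) := by
  have h1 : v = (v.1, (0 : ℂ)) + ((0 : ℂ), v.2) := by
    ext <;> simp
  conv_lhs => rw [h1, map_add, h]
  ext <;> simp [cA, cB]

theorem norm_lz_le {A : ℂ →L[ℝ] ℂ} {ε : ℝ} (h : ∀ u, ‖A u‖ ≤ ε * ‖u‖) : ‖lz A‖ ≤ ε ∧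
    ‖lzb A‖ ≤ ε := by
  have h1 := h 1
  have h2 := h I
  rw [norm_one, mul_one] at h1
  rw [norm_I, mul_one] at h2
  have h3 : ‖I * A I‖ ≤ ε := by rw [norm_mul, norm_I, one_mul]; exact h2
  constructor
  · rw [lz, norm_div, Complex.norm_two]
    have := norm_sub_le (A 1) (I * A I)
    linarith
  · rw [lzb, norm_div, Complex.norm_two]
    have := norm_add_le (A 1) (I * A I)
    linarith

theorem near {J : CC → CC →L[ℝ] CC} {p : CC} (h : ∀ v, ‖J p v - I • v‖ ≤ 1 / 4 * ‖v‖) :
    ‖lz (cA J p) - I‖ ≤ 1 / 4 ∧ ‖lzb (cA J p)‖ ≤ 1 / 4 := by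
  set D : ℂ →L[ℝ] ℂ := cA J p - (I • ContinuousLinearMap.id ℝ ℂ) with hD
  have hDu : ∀ u, D u = cA J p u - I * u := fun u => by simp [hD]
  have h1 : ∀ u, ‖D u‖ ≤ 1 / 4 * ‖u‖ := by
    intro u
    have h2 := h (u, 0)
    have h3 : ‖((u, 0) : CC)‖ = ‖u‖ := by simp [Prod.norm_def]
    rw [h3] at h2
    refine le_trans ?_ h2
    have h4 : D u = (J p (u, 0) - I • ((u, 0) : CC)).1 := by
      rw [hDu]
      simp [cA]
    rw [h4]
    exact norm_fst_le _
  obtain ⟨h5, h6⟩ := norm_lz_le h1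
  have h7 : lz D = lz (cA J p) - I := by
    simp only [lz, hDu]
    linear_combination (1 / 2 * I) * I_sq
  have h8 : lzb D = lzb (cA J p) := by
    simp only [lzb, hDu]
    linear_combination (-1 / 2 * I) * I_sq
  rw [h7] at h5
  rw [h8] at h6
  exact ⟨h5, h6⟩

theorem point {J : CC → CC →L[ℝ] CC} {p : CC} (hsq : ∀ v, J p (J p v) = -v)
    (hv : ∀ v : ℂ, J p (0, v) = (0, I * v)) (hn : ∀ v, ‖J p v - I • v‖ ≤ 1 / 4 * ‖v‖) :
    I - conj (lz (cA J p)) ≠ 0 ∧ ‖mu0 J p‖ ≤ 1 / 7 ∧ ∀ v : CC,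
      (J p v).1 + mu0 J p * conj (J p v).1 = I * (v.1 + mu0 J p * conj v.1) ∧
      (J p v).2 + be0 J p * conj (J p v).1 = I * (v.2 + be0 J p * conj v.1) := by
  obtain ⟨n1, n2⟩ := near hn
  have hA : ∀ u, cA J p u = lz (cA J p) * u + lzb (cA J p) * conj u := lz_lzb _
  have hB : ∀ u, cB J p u = lz (cB J p) * u + lzb (cB J p) * conj u := lz_lzb _
  have hJJ : ∀ u : ℂ, cA J p (cA J p u) = -u ∧ cB J p (cA J p u) + I * cB J p u = 0 := by
    intro u
    have h1 := hsq (u, 0)
    rw [J_apply hv (u, 0), J_apply hv] at h1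
    simp only [mul_zero, add_zero] at h1
    exact ⟨congrArg Prod.fst h1, by simpa using congrArg Prod.snd h1⟩
  obtain ⟨a1, a2, a3, a4⟩ := alg (al := lz (cA J p)) (ga := lzb (cA J p)) (b := lz (cB J p))
    (b' := lzb (cB J p)) n1
    (fun u => by rw [← hA u, ← hA]; exact (hJJ u).1)
    (fun u => by rw [← hA u, ← hB u, ← hB]; exact (hJJ u).2)
  refine ⟨a1, ?_, fun v => ?_⟩
  · rw [mu0, norm_div, div_le_iff₀ (by linarith)]
    linarith
  · rw [J_apply hv v]
    simp only
    constructor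
    · rw [hA v.1]
      exact a3 v.1
    · have := a4 v.1
      rw [hA v.1, hB v.1, be0]
      linear_combination this

/-! ### the cut-off -/

theorem lz_smooth {J : CC → CC →L[ℝ] CC} {O : Set CC} (h : ContDiffOn ℝ ∞ J O) :
    ContDiffOn ℝ ∞ (fun p => lz (cA J p)) O ∧ ContDiffOn ℝ ∞ (fun p => lzb (cA J p)) O ∧
      ContDiffOn ℝ ∞ (fun p => lzb (cB J p)) O := by
  have h1 : ContDiffOn ℝ ∞ (fun p => J p (1, 0)) O := h.clm_apply contDiffOn_const
  have h2 : ContDiffOn ℝ ∞ (fun p => J p (I, 0)) O := h.clm_apply contDiffOn_const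
  have f1 := h1.fst
  have f2 := h2.fst
  have s1 := h1.snd
  have s2 := h2.snd
  refine ⟨?_, ?_, ?_⟩
  · exact ((f1.sub (contDiffOn_const.mul f2)).div_const 2 :
      ContDiffOn ℝ ∞ (fun p => ((J p (1, 0)).1 - I * (J p (I, 0)).1) / 2) O)
  · exact ((f1.add (contDiffOn_const.mul f2)).div_const 2 :
      ContDiffOn ℝ ∞ (fun p => ((J p (1, 0)).1 + I * (J p (I, 0)).1) / 2) O)
  · exact ((s1.add (contDiffOn_const.mul s2)).div_const 2 :
      ContDiffOn ℝ ∞ (fun p => ((J p (1, 0)).2 + I * (J p (I, 0)).2) / 2) O)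

/-- a smooth function on an open set times a cut-off. -/
theorem smooth_cut {χ : CC → ℝ} {f : CC → ℂ} {O : Set CC} (hO : IsOpen O)
    (hχ : ContDiff ℝ ∞ χ) (hs : tsupport χ ⊆ O) (hf : ContDiffOn ℝ ∞ f O) :
    ContDiff ℝ ∞ (fun p => (χ p : ℂ) * f p) := by
  rw [contDiff_iff_contDiffAt]
  intro p
  by_cases hp : p ∈ O
  · have h1 : ContDiffAt ℝ ∞ f p := hf.contDiffAt (hO.mem_nhds hp)
    have h2 : ContDiffAt ℝ ∞ (fun p => (χ p : ℂ)) p :=
      (ofRealCLM.contDiff.comp hχ).contDiffAt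
    exact h2.mul h1
  · have h3 : (tsupport χ)ᶜ ∈ 𝓝 p :=
      (isClosed_tsupport χ).isOpen_compl.mem_nhds (fun h => hp (hs h))
    refine (contDiffAt_const (c := (0 : ℂ))).congr_of_eventuallyEq ?_
    filter_upwards [h3] with q hq
    rw [image_eq_zero_of_notMem_tsupport hq]
    simp

theorem mubeta : MUBETA := by
  intro J O hO hJ hsq hv hn Q hQ hQO
  have hpt : ∀ p ∈ O, _ := fun p hp => point (hsq p hp) (hv p hp) (hn p hp)
  obtain ⟨Q', hQ', hQQ', hQ'O⟩ := exists_compact_between hQ hO hQO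
  obtain ⟨χ, hχ1, hχ0, hχI⟩ := exists_contMDiffMap_one_nhds_of_subset_interior (n := (⊤ : ℕ∞))
    𝓘(ℝ, CC) hQ.isClosed hQQ'
  have hχs : ContDiff ℝ ∞ χ := χ.contMDiff.contDiff
  have hts : tsupport χ ⊆ Q' := by
    refine closure_minimal (fun x hx => ?_) hQ'.isClosed
    by_contra hxQ
    exact hx (hχ0 x hxQ)
  obtain ⟨s1, s2, s3⟩ := lz_smooth hJ
  have hden : ContDiffOn ℝ ∞ (fun p => I - conj (lz (cA J p))) O :=
    contDiffOn_const.sub (conjCLE.contDiff.comp_contDiffOn s1)
  have hmu : ContDiffOn ℝ ∞ (mu0 J) O := by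
    have hinv := hden.inv fun p hp => (hpt p hp).1
    exact (s2.mul hinv).congr fun p _ => div_eq_mul_inv _ _
  have hbe : ContDiffOn ℝ ∞ (be0 J) O := by
    have hinv := hden.inv fun p hp => (hpt p hp).1
    exact (s3.mul hinv).congr fun p _ => div_eq_mul_inv _ _
  set μ : CC → ℂ := fun p => (χ p : ℂ) * mu0 J p with hμ
  set β : CC → ℂ := fun p => (χ p : ℂ) * be0 J p with hβ
  have hμs : ContDiff ℝ ∞ μ := smooth_cut hO hχs (hts.trans hQ'O) hmu
  have hβs : ContDiff ℝ ∞ β := smooth_cut hO hχs (hts.trans hQ'O) hbe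
  have hμc : HasCompactSupport μ := by
    refine HasCompactSupport.intro hQ' fun p hp => ?_
    simp [hμ, hχ0 p hp]
  have hβc : HasCompactSupport β := by
    refine HasCompactSupport.intro hQ' fun p hp => ?_
    simp [hβ, hχ0 p hp]
  obtain ⟨L₁, hL₁⟩ := ContDiff.lipschitzWith_of_hasCompactSupport hμc hμs (by simp)
  obtain ⟨L₂, hL₂⟩ := ContDiff.lipschitzWith_of_hasCompactSupport hβc hβs (by simp)
  obtain ⟨L₃, hL₃⟩ := hβs.continuous.bounded_above_of_compact_support hβc
  have hL₃0 : 0 ≤ L₃ := (norm_nonneg _).trans (hL₃ 0)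
  refine ⟨μ, β, 1 / 7, L₁ + L₂ + L₃, ⟨⟨by norm_num, by norm_num, by positivity, ?_, ?_, ?_⟩, hμs,
    hβs, ?_⟩, ?_⟩
  · intro p
    by_cases hp : p ∈ O
    · rw [hμ]
      simp only
      rw [norm_mul, Complex.norm_real, Real.norm_eq_abs, abs_of_nonneg (hχI p).1]
      calc χ p * ‖mu0 J p‖ ≤ 1 * (1 / 7) :=
            mul_le_mul (hχI p).2 (hpt p hp).2.1 (norm_nonneg _) zero_le_one
        _ = 1 / 7 := one_mul _
    · have h0 : χ p = 0 := hχ0 p fun h => hp (hQ'O h)
      simp [hμ, h0]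
  · intro p q
    have h1 := hL₁.dist_le_mul p q
    rw [dist_eq_norm, dist_eq_norm] at h1
    refine h1.trans (mul_le_mul_of_nonneg_right ?_ (norm_nonneg _))
    have := L₂.coe_nonneg
    linarith
  · intro p q
    have h1 := hL₂.dist_le_mul p q
    rw [dist_eq_norm, dist_eq_norm] at h1
    refine h1.trans (mul_le_mul_of_nonneg_right ?_ (norm_nonneg _))
    have := L₁.coe_nonneg
    linarith
  · intro p
    have h1 := L₁.coe_nonneg
    have h2 := L₂.coe_nonneg
    exact (hL₃ p).trans (by linarith)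
  · intro p hp v
    have h1 : χ p = 1 := by
      have := hχ1.self_of_nhdsSet p hp
      exact this
    have h2 : μ p = mu0 J p := by simp [hμ, h1]
    have h3 : β p = be0 J p := by simp [hβ, h1]
    have h4 := (hpt p (hQO hp)).2.2 v
    simp only [thz, thw, h2, h3]
    exact h4

end

end Crest.Agent.R235.Reg_MUBETA_369
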