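import Crest.Agent.R235.WKFin_460
import Crest.Agent.R235.CylSheets_848
import Crest.Agent.R235.CylAsm_437
import Crest.Agent.R235.CylF_437
import Crest.Agent.R235.LocFin_607
import Crest.Agent.R235.Reg_BOXEX_52
import Crest.Agent.R235.Reg_BOXLF_437
import Crest.Agent.R235.Reg_BOXOF_679
import Crest.Agent.R235.Reg_CYLEX_464
import Crest.Agent.R235.Reg_FREP_918
import Crest.Agent.R235.Reg_GOODDIR_936
import Crest.Agent.R235.Reg_LFMFD_842
import Crest.Agent.R235.Reg_LFPULL_133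
import Crest.Agent.R235.Reg_MUBETA_369
import Crest.Agent.R235.Reg_POLFOL_659
import Crest.Agent.R235.Reg_REGE_956
import Crest.Agent.R235.Reg_REGLOC_312
import Crest.Agent.R235.NWReg1_847
import Crest.Agent.R235.NWFin_334

/-!
Row 235, PACKAGE REG, final assembly (helper522): `REGLOC` from the inputs which are not yet
theorems.
-/

set_option autoImplicit false

universe u

namespace Crest.Agent.R235.RegFin_522

open Crest.Agent.R235.Loc Crest.Agent.R235.Cyl Crest.Agent.R235.CurDefs_132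
open Crest.Agent.R235.NWDefs_334 Crest.Agent.R235.NWIface_334 Crest.Agent.R235.Reg_522

theorem reg1 : Reg1Stmt := NWReg1_847.reg1_of NWFin_334.cauchy

theorem sheets (hR2 : Reg2Stmt) : SHEETS :=
  CylSheets_848.sheets WKFin_460.alg0 WKFin_460.goodz WKFin_460.weak reg1 hR2

theorem cyl (hR2 : Reg2Stmt) : CYL :=
  CylAsm_437.cyl_of WKFin_460.weak WKFin_460.decay WKFin_460.repr WKFin_460.supps (sheets hR2)

theorem cylf (hN : NONZ) (hR2 : Reg2Stmt) : CYLF :=
  CylF_437.cylf_of (cyl hR2) (LocFin_607.loc_of_nonz hN) WKFin_460.alg0 WKFin_460.cone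
    WKFin_460.decay WKFin_460.disi (sheets hR2)

theorem boxlf (hN : NONZ) (hR2 : Reg2Stmt) (hE : End.END) : BOXLF :=
  Reg_BOXLF_437.boxlf (cylf hN hR2) hE

theorem polfol (hV : VarStmt) : POLFOL := Reg_POLFOL_659.polfol NWFin_334.fol_stmt hV

theorem boxex (hV : VarStmt) (hP : PUSH) : BOXEX :=
  Reg_BOXEX_52.boxex (Reg_CYLEX_464.cylex (polfol hV) Reg_GOODDIR_936.gooddir)
    Reg_MUBETA_369.mubeta hP Reg_BOXOF_679.boxof

theorem rege (hV : VarStmt) (hP : PUSH) (hN : NONZ) (hR2 : Reg2Stmt) (hE : End.END) : REGE :=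
  Reg_REGE_956.rege hP (boxex hV hP) (boxlf hN hR2 hE) Reg_LFPULL_133.lfpull

/-- **REGLOC.** -/
theorem regloc (hV : VarStmt) (hP : PUSH) (hN : NONZ) (hR2 : Reg2Stmt) (hE : End.END)
    (hM : MON) (hF : FLATW) : REGLOC.{u} :=
  Reg_REGLOC_312.regloc hM hF (rege hV hP hN hR2 hE) Reg_FREP_918.frep Reg_LFMFD_842.lfmfd

end Crest.Agent.R235.RegFin_522
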