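import Crest.Agent.R235.CylDef2_522

/-!
# Row 235, REG A1.1 (helper952), part A: push-forward of a measure by a partial homeomorphism
-/

set_option autoImplicit false
set_option linter.unusedSectionVars false

open MeasureTheory Metric Set Filter Topology
open scoped ContDiff ENNReal NNReal

namespace Crest.Agent.R235.RegPush_952

noncomputable section

section meas

variable {E E' : Type*} [TopologicalSpace E] [MeasurableSpace E] [BorelSpace E]
  [TopologicalSpace E'] [MeasurableSpace E'] [BorelSpace E']

theorem isOpenEmbedding_on (e : OpenPartialHomeomorph E E') {O : Set E} (hO : IsOpen O)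
    (hs : O ⊆ e.source) : IsOpenEmbedding (fun x : O => e x) := by
  refine IsOpenEmbedding.of_continuous_injective_isOpenMap ?_ ?_ ?_
  · exact continuousOn_iff_continuous_domRestrict.1 (e.continuousOn.mono hs)
  · intro x y h
    exact Subtype.ext (e.injOn (hs x.2) (hs y.2) h)
  · intro W hW
    have h1 : (fun x : O => e x) '' W = e '' (Subtype.val '' W) := by
      rw [image_image]
    rw [h1]
    refine e.isOpen_image_of_subset_source (hO.isOpenMap_subtype_val W hW) ?_
    rintro _ ⟨x, _, rfl⟩
    exact hs x.2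

theorem me_on (e : OpenPartialHomeomorph E E') {O : Set E} (hO : IsOpen O)
    (hs : O ⊆ e.source) : MeasurableEmbedding (fun x : O => e x) :=
  (isOpenEmbedding_on e hO hs).measurableEmbedding

/-- `e_* (N · m|_O)` -/
def pm (e : OpenPartialHomeomorph E E') (O : Set E) (N : E → ℝ≥0) (m : Measure E) : Measure E' :=
  ((Measure.comap (Subtype.val : O → E) m).withDensity fun x : O => (N x : ℝ≥0∞)).map
    (fun x : O => e x)

variable {e : OpenPartialHomeomorph E E'} {O : Set E} {N : E → ℝ≥0} {m : Measure E}

theorem integral_pm (hO : IsOpen O) (hs : O ⊆ e.source) (hN : Measurable N) (f : E' → ℝ) :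
    ∫ y, f y ∂(pm e O N m) = ∫ x in O, (N x : ℝ) * f (e x) ∂m := by
  have h1 : Measurable (fun x : O => N x) := hN.comp measurable_subtype_coe
  rw [pm, (me_on e hO hs).integral_map, integral_withDensity_eq_integral_smul h1,
    ← integral_subtype_comap hO.measurableSet]
  rfl

theorem ae_pm (hO : IsOpen O) (hs : O ⊆ e.source) {p : E' → Prop}
    (h : ∀ᵐ x ∂m, x ∈ O → p (e x)) : ∀ᵐ y ∂(pm e O N m), p y := by
  rw [pm, (me_on e hO hs).ae_map_iff]
  refine (withDensity_absolutelyContinuous _ _).ae_le ?_
  have h1 : ∀ᵐ x ∂(m.restrict O), p (e x) := (ae_restrict_iff' hO.measurableSet).2 h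
  rw [← map_comap_subtype_coe hO.measurableSet,
    (MeasurableEmbedding.subtype_coe hO.measurableSet).ae_map_iff] at h1
  exact h1

theorem pm_apply (hO : IsOpen O) (hs : O ⊆ e.source) {B : Set E'} (hB : MeasurableSet B) :
    pm e O N m B = ∫⁻ x in (fun x : O => e x) ⁻¹' B, N x
      ∂(Measure.comap (Subtype.val : O → E) m) := by
  rw [pm, (me_on e hO hs).map_apply, withDensity_apply _ ((me_on e hO hs).measurable hB)]

theorem comap_preimage (hO : IsOpen O) (B : Set E') :
    Measure.comap (Subtype.val : O → E) m ((fun x : O => e x) ⁻¹' B) = m (O ∩ e ⁻¹' B) := by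
  rw [(MeasurableEmbedding.subtype_coe hO.measurableSet).comap_apply]
  congr 1
  ext x
  simp only [mem_image, mem_preimage, Subtype.exists, exists_and_left, exists_prop,
    exists_eq_right_right, mem_inter_iff]
  tauto

theorem pm_apply_le (hO : IsOpen O) (hs : O ⊆ e.source) {C : ℝ≥0} (hN : ∀ x ∈ O, N x ≤ C)
    {B : Set E'} (hB : MeasurableSet B) : pm e O N m B ≤ C * m (O ∩ e ⁻¹' B) := by
  rw [pm_apply hO hs hB, ← comap_preimage hO, ← setLIntegral_const]
  exact lintegral_mono fun x => ENNReal.coe_le_coe.2 (hN x x.2)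

theorem le_pm_apply (hO : IsOpen O) (hs : O ⊆ e.source) {c : ℝ≥0} (hN : ∀ x ∈ O, c ≤ N x)
    {B : Set E'} (hB : MeasurableSet B) : c * m (O ∩ e ⁻¹' B) ≤ pm e O N m B := by
  rw [pm_apply hO hs hB, ← comap_preimage hO, ← setLIntegral_const]
  exact lintegral_mono fun x => ENNReal.coe_le_coe.2 (hN x x.2)

end meas

end

end Crest.Agent.R235.RegPush_952
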