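import Crest.Agent.R235.RegPushA_952

/-!
# Row 235, REG A1.1 (helper952), part B: constants of the change of coordinates
-/

set_option autoImplicit false
set_option linter.unusedSectionVars false
set_option maxSynthPendingDepth 3

open MeasureTheory Metric Set Filter Topology
open scoped ContDiff ENNReal NNReal
open Crest.Agent.R235.Reg_522

namespace Crest.Agent.R235.RegPush_952

noncomputable section

variable {E E' : Type} [NormedAddCommGroup E] [NormedSpace ℝ E]
  [FiniteDimensional ℝ E] [MeasurableSpace E] [BorelSpace E]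
  [NormedAddCommGroup E'] [NormedSpace ℝ E'] [FiniteDimensional ℝ E'] [MeasurableSpace E']
  [BorelSpace E']

/-- the data of `PUSH` -/
structure PD (J : E → E →L[ℝ] E) (U : Set E) (m : Measure E) (X : E → E) (K : ℝ)
    (e : OpenPartialHomeomorph E E') (J' : E' → E' →L[ℝ] E') (V : Set E') : Prop where
  fc : FCur J U m X K
  src : e.source ⊆ U
  sm : ContDiffOn ℝ ∞ e e.source
  sms : ContDiffOn ℝ ∞ e.symm e.target
  cj : ∀ x ∈ e.source, ∀ v, J' (e x) (fderiv ℝ e x v) = fderiv ℝ e x (J x v)
  opV : IsOpen V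
  cpV : IsCompact (closure V)
  subV : closure V ⊆ e.target

/-- the open set corresponding to `V` -/
def OO (e : OpenPartialHomeomorph E E') (V : Set E') : Set E := e.source ∩ e ⁻¹' V

/-- the length of the transported vector -/
def NN (e : OpenPartialHomeomorph E E') (X : E → E) (x : E) : ℝ := ‖fderiv ℝ e x (X x)‖

variable {J : E → E →L[ℝ] E} {U : Set E} {m : Measure E} {X : E → E} {K : ℝ}
  {e : OpenPartialHomeomorph E E'} {J' : E' → E' →L[ℝ] E'} {V : Set E'}

/-- a `C¹` map is Lipschitz on compact subsets of its domain -/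
theorem exists_lip {F F' : Type*} [NormedAddCommGroup F] [NormedSpace ℝ F]
    [NormedAddCommGroup F'] [NormedSpace ℝ F'] {f : F → F'} {Ω Q : Set F} (hΩ : IsOpen Ω)
    (hf : ContDiffOn ℝ 1 f Ω) (hQ : IsCompact Q) (hQΩ : Q ⊆ Ω) :
    ∃ L : ℝ, 0 ≤ L ∧ ∀ x ∈ Q, ∀ y ∈ Q, ‖f x - f y‖ ≤ L * ‖x - y‖ := by
  have h1 : LocallyLipschitzOn Q f := by
    intro x hx
    obtain ⟨C, t, ht, h⟩ := (hf.contDiffAt (hΩ.mem_nhds (hQΩ hx))).exists_lipschitzOnWith
    exact ⟨C, t, mem_nhdsWithin_of_mem_nhds ht, h⟩
  obtain ⟨C, hC⟩ := h1.exists_lipschitzOnWith_of_compact hQ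
  refine ⟨C, C.2, fun x hx y hy => ?_⟩
  have := hC.dist_le_mul x hx y hy
  rwa [dist_eq_norm, dist_eq_norm] at this

namespace PD

variable (H : PD J U m X K e J' V)
include H

theorem open_O : IsOpen (OO e V) := e.isOpen_inter_preimage H.opV

theorem sub_src : OO e V ⊆ e.source := inter_subset_left

theorem V_tgt : V ⊆ e.target := subset_closure.trans H.subV

theorem hasD {x : E} (hx : x ∈ e.source) : HasFDerivAt e (fderiv ℝ e x) x :=
  ((H.sm.contDiffAt (e.open_source.mem_nhds hx)).differentiableAt (by simp)).hasFDerivAt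

theorem hasDs {y : E'} (hy : y ∈ e.target) : HasFDerivAt e.symm (fderiv ℝ e.symm y) y :=
  ((H.sms.contDiffAt (e.open_target.mem_nhds hy)).differentiableAt (by simp)).hasFDerivAt

theorem inv1 {x : E} (hx : x ∈ e.source) (v : E) :
    fderiv ℝ e.symm (e x) (fderiv ℝ e x v) = v := by
  have h1 := (H.hasDs (e.map_source hx)).comp x (H.hasD hx)
  have h2 : HasFDerivAt (e.symm ∘ e) (ContinuousLinearMap.id ℝ E) x := by
    refine (hasFDerivAt_id x).congr_of_eventuallyEq ?_
    filter_upwards [e.open_source.mem_nhds hx] with z hz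
    exact e.left_inv hz
  exact DFunLike.congr_fun (h1.unique h2) v

theorem inv2 {y : E'} (hy : y ∈ e.target) (v : E') :
    fderiv ℝ e (e.symm y) (fderiv ℝ e.symm y v) = v := by
  have h1 := (H.hasD (e.map_target hy)).comp y (H.hasDs hy)
  have h2 : HasFDerivAt (e ∘ e.symm) (ContinuousLinearMap.id ℝ E') y := by
    refine (hasFDerivAt_id y).congr_of_eventuallyEq ?_
    filter_upwards [e.open_target.mem_nhds hy] with z hz
    exact e.right_inv hz
  exact DFunLike.congr_fun (h1.unique h2) v

theorem cont_fderiv : ContinuousOn (fderiv ℝ e) e.source :=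
  H.sm.continuousOn_fderiv_of_isOpen e.open_source (by simp)

theorem cont_fderivs : ContinuousOn (fderiv ℝ e.symm) e.target :=
  H.sms.continuousOn_fderiv_of_isOpen e.open_target (by simp)

theorem compact_K : IsCompact (e.symm '' closure V) :=
  H.cpV.image_of_continuousOn (e.continuousOn_symm.mono H.subV)

theorem K_src : e.symm '' closure V ⊆ e.source := by
  rintro _ ⟨y, hy, rfl⟩
  exact e.map_target (H.subV hy)

theorem O_K : OO e V ⊆ e.symm '' closure V := fun x hx =>
  ⟨e x, subset_closure hx.2, e.left_inv hx.1⟩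

theorem exists_const : ∃ A : ℝ, 1 ≤ A ∧ (∀ x ∈ e.symm '' closure V, ‖fderiv ℝ e x‖ ≤ A) ∧
    (∀ y ∈ closure V, ‖fderiv ℝ e.symm y‖ ≤ A) ∧
    (∀ x ∈ e.symm '' closure V, ‖J x‖ ≤ A) ∧
    (∀ x ∈ e.symm '' closure V, ∀ x' ∈ e.symm '' closure V, ‖e x - e x'‖ ≤ A * ‖x - x'‖) ∧
    ∀ y ∈ closure V, ∀ y' ∈ closure V, ‖e.symm y - e.symm y'‖ ≤ A * ‖y - y'‖ := by
  obtain ⟨A1, h1⟩ := H.compact_K.exists_bound_of_continuousOn (H.cont_fderiv.mono H.K_src)
  obtain ⟨A2, h2⟩ := H.cpV.exists_bound_of_continuousOn (H.cont_fderivs.mono H.subV)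
  obtain ⟨A3, h3⟩ := H.compact_K.exists_bound_of_continuousOn
    (H.fc.smJ.continuousOn.mono (H.K_src.trans H.src))
  obtain ⟨A4, _, h4⟩ := exists_lip e.open_source (H.sm.of_le (by simp)) H.compact_K H.K_src
  obtain ⟨A5, _, h5⟩ := exists_lip e.open_target (H.sms.of_le (by simp)) H.cpV H.subV
  refine ⟨max 1 (max A1 (max A2 (max A3 (max A4 A5)))), le_max_left _ _, ?_, ?_, ?_, ?_, ?_⟩
  · intro x hx
    exact (h1 x hx).trans ((le_max_left _ _).trans (le_max_right _ _))
  · intro y hy
    exact (h2 y hy).trans ((le_max_left _ _).trans ((le_max_right _ _).trans (le_max_right _ _)))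
  · intro x hx
    exact (h3 x hx).trans ((le_max_left _ _).trans ((le_max_right _ _).trans
      ((le_max_right _ _).trans (le_max_right _ _))))
  · intro x hx x' hx'
    refine (h4 x hx x' hx').trans (mul_le_mul_of_nonneg_right ?_ (norm_nonneg _))
    exact (le_max_left _ _).trans ((le_max_right _ _).trans
      ((le_max_right _ _).trans ((le_max_right _ _).trans (le_max_right _ _))))
  · intro y hy y' hy'
    refine (h5 y hy y' hy').trans (mul_le_mul_of_nonneg_right ?_ (norm_nonneg _))
    exact (le_max_right _ _).trans ((le_max_right _ _).trans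
      ((le_max_right _ _).trans ((le_max_right _ _).trans (le_max_right _ _))))

theorem NN_pos {x : E} (hx : x ∈ e.source) : 0 < NN e X x := by
  rw [NN, norm_pos_iff]
  intro h
  have h1 := H.inv1 hx (X x)
  rw [h, map_zero] at h1
  have h2 := H.fc.nX x
  rw [← h1, norm_zero] at h2
  exact zero_ne_one h2

theorem K_nonneg : 0 ≤ K := by
  have h1 := H.fc.up 0 1 one_pos
  have h2 : 0 ≤ m.real (closedBall (0 : E) 1) := measureReal_nonneg
  have h3 := h2.trans h1
  simpa using h3

end PD

omit [FiniteDimensional ℝ E] [FiniteDimensional ℝ E'] in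
theorem measurable_clm_app {F G : Type*} [NormedAddCommGroup F] [NormedSpace ℝ F]
    [FiniteDimensional ℝ F] [MeasurableSpace F] [BorelSpace F] [NormedAddCommGroup G]
    [NormedSpace ℝ G] [FiniteDimensional ℝ G] [MeasurableSpace G] [BorelSpace G]
    {A : E → F →L[ℝ] G} {v : E → F} (hA : Measurable A) (hv : Measurable v) :
    Measurable (fun x => A x (v x)) := by
  have h1 : Continuous fun p : (F →L[ℝ] G) × F => p.1 p.2 := isBoundedBilinearMap_apply.continuous
  exact h1.measurable.comp (hA.prodMk hv)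

theorem measurable_NN (hX : Measurable X) : Measurable (NN e X) :=
  (measurable_clm_app (measurable_fderiv ℝ e) hX).norm

end

end Crest.Agent.R235.RegPush_952
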