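import Crest.Agent.R235.RegPushB_952

/-!
# Row 235, REG A1.1 (helper952), part C: the pushed measure and vector field, easy fields
-/

set_option autoImplicit false
set_option linter.unusedSectionVars false
set_option maxSynthPendingDepth 3

open MeasureTheory Metric Set Filter Topology
open scoped ContDiff ENNReal NNReal
open Crest.Agent.R235.Reg_522

namespace Crest.Agent.R235.RegPush_952

noncomputable section

variable {E E' : Type} [NormedAddCommGroup E] [NormedSpace ℝ E]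
  [FiniteDimensional ℝ E] [MeasurableSpace E] [BorelSpace E]
  [NormedAddCommGroup E'] [NormedSpace ℝ E'] [FiniteDimensional ℝ E'] [MeasurableSpace E']
  [BorelSpace E']

/-- the density -/
def dn (e : OpenPartialHomeomorph E E') (X : E → E) (x : E) : ℝ≥0 := Real.toNNReal (NN e X x ^ 2)

theorem coe_dn (e : OpenPartialHomeomorph E E') (X : E → E) (x : E) :
    (dn e X x : ℝ) = NN e X x ^ 2 := Real.coe_toNNReal _ (sq_nonneg _)

theorem measurable_dn {e : OpenPartialHomeomorph E E'} {X : E → E} (hX : Measurable X) :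
    Measurable (dn e X) := ((measurable_NN hX).pow_const 2).real_toNNReal

/-- the pushed measure -/
def pmm (e : OpenPartialHomeomorph E E') (V : Set E') (X : E → E) (m : Measure E) : Measure E' :=
  pm e (OO e V) (dn e X) m

open Classical in
/-- the pushed vector field -/
def pX (e : OpenPartialHomeomorph E E') (V : Set E') (X : E → E) (v0 : E') (y : E') : E' :=
  if y ∈ V then (NN e X (e.symm y))⁻¹ • fderiv ℝ e (e.symm y) (X (e.symm y)) else v0

variable {J : E → E →L[ℝ] E} {U : Set E} {m : Measure E} {X : E → E} {K : ℝ}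
  {e : OpenPartialHomeomorph E E'} {J' : E' → E' →L[ℝ] E'} {V : Set E'} {v0 : E'}

theorem pX_of_mem {y : E'} (hy : y ∈ V) : pX e V X v0 y =
    (NN e X (e.symm y))⁻¹ • fderiv ℝ e (e.symm y) (X (e.symm y)) := if_pos hy

theorem pX_of_notMem {y : E'} (hy : y ∉ V) : pX e V X v0 y = v0 := if_neg hy

theorem pX_e {x : E} (hx : x ∈ OO e V) :
    pX e V X v0 (e x) = (NN e X x)⁻¹ • fderiv ℝ e x (X x) := by
  rw [pX_of_mem (show e x ∈ V from hx.2), e.left_inv hx.1]

namespace PD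

variable (H : PD J U m X K e J' V)
include H

theorem mem_O {y : E'} (hy : y ∈ V) : e.symm y ∈ OO e V :=
  ⟨e.map_target (H.V_tgt hy), by
    show e (e.symm y) ∈ V
    rwa [e.right_inv (H.V_tgt hy)]⟩

theorem measurable_pX : Measurable (pX e V X v0) := by
  classical
  have h1 : Measurable (V.piecewise e.symm (fun _ => (0 : E))) :=
    ContinuousOn.measurable_piecewise (e.continuousOn_symm.mono H.V_tgt) continuousOn_const
      H.opV.measurableSet
  have h2 : Measurable fun x => (NN e X x)⁻¹ • fderiv ℝ e x (X x) :=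
    (measurable_NN H.fc.mX).inv.smul (measurable_clm_app (measurable_fderiv ℝ e) H.fc.mX)
  have h3 : pX e V X v0 = V.piecewise
      ((fun x => (NN e X x)⁻¹ • fderiv ℝ e x (X x)) ∘ (V.piecewise e.symm (fun _ => (0 : E))))
      (fun _ => v0) := by
    funext y
    by_cases hy : y ∈ V
    · rw [pX_of_mem hy, piecewise_eq_of_mem _ _ _ hy, Function.comp_apply,
        piecewise_eq_of_mem _ _ _ hy]
    · rw [pX_of_notMem hy, piecewise_eq_of_notMem _ _ _ hy]
  rw [h3]
  exact (h2.comp h1).piecewise H.opV.measurableSet measurable_const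

theorem norm_pX (hv : ‖v0‖ = 1) (y : E') : ‖pX e V X v0 y‖ = 1 := by
  by_cases hy : y ∈ V
  · have h1 := H.NN_pos (H.mem_O hy).1
    rw [pX_of_mem hy, norm_smul, norm_inv, Real.norm_of_nonneg h1.le]
    exact inv_mul_cancel₀ h1.ne'
  · rw [pX_of_notMem hy, hv]

theorem J_pX {x : E} (hx : x ∈ OO e V) :
    J' (e x) (pX e V X v0 (e x)) = (NN e X x)⁻¹ • fderiv ℝ e x (J x (X x)) := by
  rw [pX_e hx, map_smul, H.cj x hx.1]

theorem star {x : E} (hx : x ∈ OO e V) (B : E' →L[ℝ] E' →L[ℝ] ℝ) :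
    NN e X x ^ 2 * B (pX e V X v0 (e x)) (J' (e x) (pX e V X v0 (e x))) =
      B (fderiv ℝ e x (X x)) (fderiv ℝ e x (J x (X x))) := by
  have h1 := (H.NN_pos hx.1).ne'
  rw [H.J_pX hx, pX_e hx]
  simp only [map_smul, _root_.smul_apply, smul_eq_mul]
  field_simp

theorem int_star (B : E' → E' →L[ℝ] E' →L[ℝ] ℝ) :
    ∫ y, B y (pX e V X v0 y) (J' y (pX e V X v0 y)) ∂(pmm e V X m) =
      ∫ x in OO e V, B (e x) (fderiv ℝ e x (X x)) (fderiv ℝ e x (J x (X x))) ∂m := by
  rw [pmm, integral_pm H.open_O H.sub_src (measurable_dn H.fc.mX)]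
  refine setIntegral_congr_fun H.open_O.measurableSet fun x hx => ?_
  simp only [coe_dn]
  exact H.star hx (B (e x))

theorem int_b {b : E' → E' →L[ℝ] E' →L[ℝ] ℝ} (hb : ∃ Q ⊆ V, IsCompact Q ∧ ∀ y ∉ Q, b y = 0) :
    ∫ x in e.source, b (e x) (fderiv ℝ e x (X x)) (fderiv ℝ e x (J x (X x))) ∂m =
      ∫ y, b y (pX e V X v0 y) (J' y (pX e V X v0 y)) ∂(pmm e V X m) := by
  rw [H.int_star]
  obtain ⟨Q, hQ, -, h0⟩ := hb
  refine setIntegral_eq_of_subset_of_forall_sdiff_eq_zero e.open_source.measurableSet H.sub_src ?_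
  intro x hx
  have h1 : e x ∉ Q := fun h => hx.2 ⟨hx.1, hQ h⟩
  rw [h0 _ h1]
  simp

/-- J' on V -/
theorem J'_eq {y : E'} (hy : y ∈ e.target) : J' y =
    (fderiv ℝ e (e.symm y)).comp ((J (e.symm y)).comp (fderiv ℝ e.symm y)) := by
  ext v
  have h1 := H.cj (e.symm y) (e.map_target hy) (fderiv ℝ e.symm y v)
  rw [e.right_inv hy, H.inv2 hy] at h1
  exact h1

theorem smJ' : ContDiffOn ℝ ∞ J' V := by
  have h1 : ContDiffOn ℝ ∞ (fun y => (fderiv ℝ e (e.symm y)).comp
      ((J (e.symm y)).comp (fderiv ℝ e.symm y))) e.target := by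
    have h2 : ContDiffOn ℝ ∞ (fun y => fderiv ℝ e (e.symm y)) e.target :=
      (H.sm.fderiv_of_isOpen e.open_source (by simp)).comp H.sms fun y hy => e.map_target hy
    have h3 : ContDiffOn ℝ ∞ (fun y => J (e.symm y)) e.target :=
      H.fc.smJ.comp H.sms fun y hy => H.src (e.map_target hy)
    have h4 : ContDiffOn ℝ ∞ (fun y => fderiv ℝ e.symm y) e.target :=
      H.sms.fderiv_of_isOpen e.open_target (by simp)
    exact h2.clm_comp (h3.clm_comp h4)
  exact (h1.congr fun y hy => H.J'_eq hy).mono H.V_tgt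

theorem sqJ' : ∀ y ∈ V, ∀ v, J' y (J' y v) = -v := by
  intro y hy v
  have hy' := H.V_tgt hy
  have h1 := H.cj (e.symm y) (e.map_target hy') (fderiv ℝ e.symm y v)
  rw [e.right_inv hy', H.inv2 hy'] at h1
  have h2 := H.cj (e.symm y) (e.map_target hy') (J (e.symm y) (fderiv ℝ e.symm y v))
  rw [e.right_inv hy'] at h2
  rw [h1, h2, H.fc.sqJ _ (H.src (e.map_target hy')), map_neg, H.inv2 hy']

theorem supp' : ∀ᵐ y ∂(pmm e V X m), y ∈ V :=
  ae_pm H.open_O H.sub_src (Eventually.of_forall fun _ hx => hx.2)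

/-- bounds of the density -/
theorem dn_le {A : ℝ} (_ : 0 ≤ A) (hA : ∀ x ∈ e.symm '' closure V, ‖fderiv ℝ e x‖ ≤ A) :
    ∀ x ∈ OO e V, dn e X x ≤ Real.toNNReal (A ^ 2) := by
  intro x hx
  refine Real.toNNReal_le_toNNReal ?_
  have h1 : NN e X x ≤ A := by
    have h2 := (fderiv ℝ e x).le_opNorm (X x)
    rw [H.fc.nX, mul_one] at h2
    exact h2.trans (hA x (H.O_K hx))
  exact pow_le_pow_left₀ (norm_nonneg _) h1 2

theorem le_dn {A : ℝ} (hA0 : 0 < A) (hA : ∀ y ∈ closure V, ‖fderiv ℝ e.symm y‖ ≤ A) :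
    ∀ x ∈ OO e V, Real.toNNReal ((A⁻¹) ^ 2) ≤ dn e X x := by
  intro x hx
  refine Real.toNNReal_le_toNNReal ?_
  have h1 : A⁻¹ ≤ NN e X x := by
    have h2 := (fderiv ℝ e.symm (e x)).le_opNorm (fderiv ℝ e x (X x))
    rw [H.inv1 hx.1, H.fc.nX] at h2
    have h3 : 1 ≤ A * NN e X x :=
      h2.trans (mul_le_mul_of_nonneg_right (hA _ (subset_closure hx.2)) (norm_nonneg _))
    rwa [inv_le_iff_one_le_mul₀' hA0]
  exact pow_le_pow_left₀ (inv_nonneg.2 hA0.le) h1 2

theorem fin' : IsFiniteMeasure (pmm e V X m) := by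
  have := H.fc.fin
  obtain ⟨A, hA1, hA, -⟩ := H.exists_const
  refine ⟨?_⟩
  refine (pm_apply_le H.open_O H.sub_src (H.dn_le (by linarith) hA) MeasurableSet.univ).trans_lt ?_
  exact ENNReal.mul_lt_top ENNReal.coe_lt_top (measure_lt_top m _)

theorem real_le {A : ℝ} (hA0 : 0 ≤ A) (hA : ∀ x ∈ e.symm '' closure V, ‖fderiv ℝ e x‖ ≤ A)
    {B : Set E'} (hB : MeasurableSet B) :
    (pmm e V X m).real B ≤ A ^ 2 * m.real (OO e V ∩ e ⁻¹' B) := by
  have := H.fc.fin
  have h1 := pm_apply_le (m := m) H.open_O H.sub_src (H.dn_le hA0 hA) hB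
  have h2 := ENNReal.toReal_mono
    (ENNReal.mul_ne_top ENNReal.coe_ne_top (measure_ne_top m _)) h1
  rw [ENNReal.toReal_mul, ENNReal.coe_toReal, Real.coe_toNNReal _ (sq_nonneg A)] at h2
  exact h2

theorem le_real {A : ℝ} (hA0 : 0 < A) (hA : ∀ y ∈ closure V, ‖fderiv ℝ e.symm y‖ ≤ A)
    {B : Set E'} (hB : MeasurableSet B) :
    (A⁻¹) ^ 2 * m.real (OO e V ∩ e ⁻¹' B) ≤ (pmm e V X m).real B := by
  have := H.fin'
  have h1 := le_pm_apply (m := m) H.open_O H.sub_src (H.le_dn hA0 hA) hB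
  have h2 := ENNReal.toReal_mono (measure_ne_top (pmm e V X m) _) h1
  rw [ENNReal.toReal_mul, ENNReal.coe_toReal, Real.coe_toNNReal _ (sq_nonneg _)] at h2
  exact h2

theorem up' {A : ℝ} (hA1 : 1 ≤ A) (hA : ∀ x ∈ e.symm '' closure V, ‖fderiv ℝ e x‖ ≤ A)
    (hL : ∀ y ∈ closure V, ∀ y' ∈ closure V, ‖e.symm y - e.symm y'‖ ≤ A * ‖y - y'‖)
    (p : E') (r : ℝ) (hr : 0 < r) :
    (pmm e V X m).real (closedBall p r) ≤ (A ^ 2 * (K * (2 * A) ^ 2)) * r ^ 2 := by
  have := H.fc.fin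
  refine (H.real_le (by linarith) hA isClosed_closedBall.measurableSet).trans ?_
  have hA2 : 0 ≤ A ^ 2 := sq_nonneg A
  rw [mul_assoc]
  refine mul_le_mul_of_nonneg_left ?_ hA2
  by_cases hne : (OO e V ∩ e ⁻¹' closedBall p r).Nonempty
  · obtain ⟨x0, hx0, hx0'⟩ := hne
    have h1 : OO e V ∩ e ⁻¹' closedBall p r ⊆ closedBall x0 (2 * A * r) := by
      rintro x ⟨hx, hx'⟩
      have h2 := hL (e x) (subset_closure hx.2) (e x0) (subset_closure hx0.2)
      rw [e.left_inv hx.1, e.left_inv hx0.1] at h2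
      rw [mem_preimage, mem_closedBall] at hx' hx0'
      have h3 : ‖e x - e x0‖ ≤ 2 * r := by
        rw [← dist_eq_norm]
        calc dist (e x) (e x0) ≤ dist (e x) p + dist p (e x0) := dist_triangle _ _ _
          _ ≤ r + r := add_le_add hx' (by rw [dist_comm]; exact hx0')
          _ = 2 * r := by ring
      rw [mem_closedBall, dist_eq_norm]
      calc ‖x - x0‖ ≤ A * ‖e x - e x0‖ := h2
        _ ≤ A * (2 * r) := mul_le_mul_of_nonneg_left h3 (by linarith)
        _ = 2 * A * r := by ring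
    have h4 := H.fc.up x0 (2 * A * r) (by positivity)
    calc m.real (OO e V ∩ e ⁻¹' closedBall p r) ≤ m.real (closedBall x0 (2 * A * r)) :=
          measureReal_mono h1
      _ ≤ K * (2 * A * r) ^ 2 := h4
      _ = K * (2 * A) ^ 2 * r ^ 2 := by ring
  · rw [not_nonempty_iff_eq_empty] at hne
    rw [hne, measureReal_empty]
    have := H.K_nonneg
    positivity

theorem supp_iff {y : E'} (hy : y ∈ V) : SuppE (pmm e V X m) y ↔ SuppE m (e.symm y) := by
  obtain ⟨A, hA1, hA, hA', -, hL, hL'⟩ := H.exists_const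
  have hA0 : 0 < A := by linarith
  have hx := H.mem_O hy
  have hyt := H.V_tgt hy
  constructor
  · intro h r hr
    have h1 : e.symm ⁻¹' ball (e.symm y) r ∈ 𝓝 y :=
      (e.continuousAt_symm hyt).preimage_mem_nhds (ball_mem_nhds _ hr)
    obtain ⟨r', hr', h2⟩ := Metric.mem_nhds_iff.1 h1
    have h3 := h r' hr'
    have h4 := pm_apply_le (m := m) H.open_O H.sub_src (H.dn_le hA0.le hA)
      (measurableSet_ball (x := y) (ε := r'))
    have h5 := h3.trans_le h4
    have h6 : 0 < m (OO e V ∩ e ⁻¹' ball y r') := by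
      rw [pos_iff_ne_zero]
      intro h0
      rw [h0, mul_zero] at h5
      exact lt_irrefl _ h5
    refine h6.trans_le (measure_mono ?_)
    rintro x ⟨hxO, hxb⟩
    have h7 := h2 hxb
    rwa [mem_preimage, e.left_inv hxO.1] at h7
  · intro h r hr
    have h1 : OO e V ∩ e ⁻¹' ball y r ∈ 𝓝 (e.symm y) := by
      refine inter_mem (H.open_O.mem_nhds hx) ?_
      refine (e.continuousAt hx.1).preimage_mem_nhds ?_
      rw [e.right_inv hyt]
      exact ball_mem_nhds _ hr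
    obtain ⟨r', hr', h2⟩ := Metric.mem_nhds_iff.1 h1
    have h3 := (h r' hr').trans_le (measure_mono h2)
    have h4 := le_pm_apply (m := m) H.open_O H.sub_src (H.le_dn hA0 hA')
      (measurableSet_ball (x := y) (ε := r))
    refine lt_of_lt_of_le ?_ h4
    refine ENNReal.mul_pos ?_ h3.ne'
    rw [Ne, ENNReal.coe_eq_zero, Real.toNNReal_eq_zero, not_le]
    positivity

theorem low' : ∀ Q ⊆ V, IsCompact Q → ∃ c₀ > 0, ∃ r₀ > 0, ∀ p ∈ Q, SuppE (pmm e V X m) p →
    ∀ r, 0 < r → r ≤ r₀ → c₀ * r ^ 2 ≤ (pmm e V X m).real (ball p r) := by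
  intro Q hQV hQ
  have := H.fc.fin
  obtain ⟨A, hA1, hA, hA', -, hL, hL'⟩ := H.exists_const
  have hA0 : 0 < A := by linarith
  have hQc : IsCompact (e.symm '' Q) :=
    hQ.image_of_continuousOn (e.continuousOn_symm.mono (hQV.trans H.V_tgt))
  have hQO : e.symm '' Q ⊆ OO e V := by
    rintro _ ⟨y, hy, rfl⟩
    exact H.mem_O (hQV hy)
  obtain ⟨δ, hδ, hδO⟩ := hQc.exists_cthickening_subset_open H.open_O hQO
  obtain ⟨c, hc, r1, hr1, hlow⟩ := H.fc.low (e.symm '' Q) (hQO.trans (H.sub_src.trans H.src)) hQc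
  refine ⟨(A⁻¹) ^ 2 * (c * (A⁻¹) ^ 2), by positivity, min r1 δ, lt_min hr1 hδ, ?_⟩
  intro p hp hsp r hr hrr
  have hpV := hQV hp
  have hs := (H.supp_iff hpV).1 hsp
  have hr' : 0 < r * A⁻¹ := by positivity
  have hrA : r * A⁻¹ ≤ r := mul_le_of_le_one_right hr.le (inv_le_one_of_one_le₀ hA1)
  have h1 := hlow (e.symm p) (mem_image_of_mem _ hp) hs (r * A⁻¹) hr'
    (hrA.trans (hrr.trans (min_le_left _ _)))
  have h2 : ball (e.symm p) (r * A⁻¹) ⊆ OO e V ∩ e ⁻¹' ball p r := by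
    intro x hx
    rw [mem_ball] at hx
    have hxO : x ∈ OO e V := by
      refine hδO (mem_cthickening_of_dist_le x (e.symm p) δ _ (mem_image_of_mem _ hp) ?_)
      exact hx.le.trans (hrA.trans (hrr.trans (min_le_right _ _)))
    refine ⟨hxO, ?_⟩
    have h3 := hL x (H.O_K hxO) (e.symm p) (H.O_K (H.mem_O hpV))
    rw [e.right_inv (H.V_tgt hpV), ← dist_eq_norm, ← dist_eq_norm] at h3
    rw [mem_preimage, mem_ball]
    calc dist (e x) p ≤ A * dist x (e.symm p) := h3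
      _ < A * (r * A⁻¹) := mul_lt_mul_of_pos_left hx hA0
      _ = r := by field_simp
  calc (A⁻¹) ^ 2 * (c * (A⁻¹) ^ 2) * r ^ 2 = (A⁻¹) ^ 2 * (c * (r * A⁻¹) ^ 2) := by ring
    _ ≤ (A⁻¹) ^ 2 * m.real (ball (e.symm p) (r * A⁻¹)) := by gcongr
    _ ≤ (A⁻¹) ^ 2 * m.real (OO e V ∩ e ⁻¹' ball p r) :=
        mul_le_mul_of_nonneg_left (measureReal_mono h2) (sq_nonneg _)
    _ ≤ _ := H.le_real hA0 hA' measurableSet_ball

end PD

end

end Crest.Agent.R235.RegPush_952
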