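import Crest.Agent.R235.RegPushC_952

/-!
# Row 235, REG A1.1 (helper952), part D: the pushed current is closed
-/

set_option autoImplicit false
set_option linter.unusedSectionVars false
set_option maxSynthPendingDepth 3

open MeasureTheory Metric Set Filter Topology
open scoped ContDiff ENNReal NNReal
open Crest.Agent.R235.Reg_522

namespace Crest.Agent.R235.RegPush_952

noncomputable section

variable {E E' : Type} [NormedAddCommGroup E] [NormedSpace ℝ E]
  [FiniteDimensional ℝ E] [MeasurableSpace E] [BorelSpace E]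
  [NormedAddCommGroup E'] [NormedSpace ℝ E'] [FiniteDimensional ℝ E'] [MeasurableSpace E']
  [BorelSpace E']

open Classical in
/-- the pulled back one-form -/
def pl (e : OpenPartialHomeomorph E E') (l' : E' → E' →L[ℝ] ℝ) (x : E) : E →L[ℝ] ℝ :=
  if x ∈ e.source then (l' (e x)).comp (fderiv ℝ e x) else 0

variable {J : E → E →L[ℝ] E} {U : Set E} {m : Measure E} {X : E → E} {K : ℝ}
  {e : OpenPartialHomeomorph E E'} {J' : E' → E' →L[ℝ] E'} {V : Set E'} {v0 : E'}
  {l' : E' → E' →L[ℝ] ℝ}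

theorem pl_of_mem {x : E} (hx : x ∈ e.source) : pl e l' x = (l' (e x)).comp (fderiv ℝ e x) :=
  if_pos hx

namespace PD

variable (H : PD J U m X K e J' V)
include H

theorem pl_zero {x : E} (hx : x ∉ e.symm '' tsupport l') : pl e l' x = 0 := by
  by_cases h : x ∈ e.source
  · rw [pl_of_mem h]
    have h1 : e x ∉ tsupport l' := fun h2 => hx ⟨e x, h2, e.left_inv h⟩
    rw [image_eq_zero_of_notMem_tsupport h1, ContinuousLinearMap.zero_comp]
  · exact if_neg h

theorem compact_Q (hc : HasCompactSupport l') (ht : tsupport l' ⊆ V) :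
    IsCompact (e.symm '' tsupport l') :=
  hc.isCompact.image_of_continuousOn (e.continuousOn_symm.mono (ht.trans H.V_tgt))

theorem Q_O (ht : tsupport l' ⊆ V) : e.symm '' tsupport l' ⊆ OO e V := by
  rintro _ ⟨y, hy, rfl⟩
  exact H.mem_O (ht hy)

theorem pl_supp (hc : HasCompactSupport l') (ht : tsupport l' ⊆ V) :
    tsupport (pl e l') ⊆ e.symm '' tsupport l' := by
  refine closure_minimal ?_ (H.compact_Q hc ht).isClosed
  intro x hx
  by_contra h
  exact hx (H.pl_zero h)

theorem pl_cs (hc : HasCompactSupport l') (ht : tsupport l' ⊆ V) :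
    HasCompactSupport (pl e l') :=
  HasCompactSupport.intro (H.compact_Q hc ht) fun _ hx => H.pl_zero hx

theorem pl_ev {x : E} (hx : x ∈ e.source) :
    pl e l' =ᶠ[𝓝 x] fun z => (l' (e z)).comp (fderiv ℝ e z) := by
  filter_upwards [e.open_source.mem_nhds hx] with z hz
  exact pl_of_mem hz

theorem pl_smooth (hl : ContDiff ℝ ∞ l') (hc : HasCompactSupport l') (ht : tsupport l' ⊆ V) :
    ContDiff ℝ ∞ (pl e l') := by
  rw [contDiff_iff_contDiffAt]
  intro x
  by_cases hx : x ∈ e.source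
  · have h1 : ContDiffAt ℝ ∞ (fun z => (l' (e z)).comp (fderiv ℝ e z)) x := by
      have h2 : ContDiffAt ℝ ∞ e x := H.sm.contDiffAt (e.open_source.mem_nhds hx)
      have h3 : ContDiffAt ℝ ∞ (fderiv ℝ e) x :=
        (H.sm.fderiv_of_isOpen e.open_source (by simp)).contDiffAt (e.open_source.mem_nhds hx)
      exact (hl.contDiffAt.comp x h2).clm_comp h3
    exact h1.congr_of_eventuallyEq (H.pl_ev hx)
  · have h1 : x ∉ e.symm '' tsupport l' := fun h => hx (H.Q_O ht h).1
    have h2 : pl e l' =ᶠ[𝓝 x] fun _ => 0 := by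
      filter_upwards [(H.compact_Q hc ht).isClosed.isOpen_compl.mem_nhds h1] with z hz
      exact H.pl_zero hz
    exact contDiffAt_const.congr_of_eventuallyEq h2

theorem fderiv_pl (hl : ContDiff ℝ ∞ l') {x : E} (hx : x ∈ e.source) (v w : E) :
    fderiv ℝ (pl e l') x v w = fderiv ℝ l' (e x) (fderiv ℝ e x v) (fderiv ℝ e x w) +
      l' (e x) (fderiv ℝ (fderiv ℝ e) x v w) := by
  have h1 : HasFDerivAt (fun z => l' (e z)) ((fderiv ℝ l' (e x)).comp (fderiv ℝ e x)) x :=
    ((hl.differentiable (by simp)) (e x)).hasFDerivAt.comp x (H.hasD hx)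
  have h3 : ContDiffAt ℝ ∞ (fderiv ℝ e) x :=
    (H.sm.fderiv_of_isOpen e.open_source (by simp)).contDiffAt (e.open_source.mem_nhds hx)
  have h2 : HasFDerivAt (fderiv ℝ e) (fderiv ℝ (fderiv ℝ e) x) x :=
    (h3.differentiableAt (by simp)).hasFDerivAt
  have h4 := (h1.clm_comp h2).congr_of_eventuallyEq (H.pl_ev hx)
  rw [h4.fderiv]
  simp [add_comm]

theorem symm_fderiv {x : E} (hx : x ∈ e.source) (v w : E) :
    fderiv ℝ (fderiv ℝ e) x v w = fderiv ℝ (fderiv ℝ e) x w v := by
  have h1 : ContDiffAt ℝ ∞ e x := H.sm.contDiffAt (e.open_source.mem_nhds hx)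
  have h2 : IsSymmSndFDerivAt ℝ e x := h1.isSymmSndFDerivAt (by
    simp only [minSmoothness_of_isRCLikeNormedField]
    exact ENat.LEInfty.out)
  exact h2 v w

theorem closed' (hl : ContDiff ℝ ∞ l') (hc : HasCompactSupport l') (ht : tsupport l' ⊆ V) :
    ∫ y, (fderiv ℝ l' y (pX e V X v0 y) (J' y (pX e V X v0 y)) -
      fderiv ℝ l' y (J' y (pX e V X v0 y)) (pX e V X v0 y)) ∂(pmm e V X m) = 0 := by
  have h1 := H.int_star (v0 := v0) (fun y => fderiv ℝ l' y - (fderiv ℝ l' y).flip)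
  simp only [_root_.sub_apply, ContinuousLinearMap.flip_apply] at h1
  rw [h1]
  have h2 : ∀ x ∈ OO e V, fderiv ℝ l' (e x) (fderiv ℝ e x (X x)) (fderiv ℝ e x (J x (X x))) -
      fderiv ℝ l' (e x) (fderiv ℝ e x (J x (X x))) (fderiv ℝ e x (X x)) =
      fderiv ℝ (pl e l') x (X x) (J x (X x)) - fderiv ℝ (pl e l') x (J x (X x)) (X x) := by
    intro x hx
    rw [H.fderiv_pl hl hx.1, H.fderiv_pl hl hx.1, H.symm_fderiv hx.1 (X x)]
    ring
  rw [setIntegral_congr_fun H.open_O.measurableSet h2,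
    setIntegral_eq_integral_of_forall_compl_eq_zero]
  · exact H.fc.closed (pl e l') (H.pl_smooth hl hc ht) (H.pl_cs hc ht)
      ((H.pl_supp hc ht).trans ((H.Q_O ht).trans (H.sub_src.trans H.src)))
  · intro x hx
    have h3 : x ∉ tsupport (pl e l') := fun h => hx (H.Q_O ht (H.pl_supp hc ht h))
    have h4 : fderiv ℝ (pl e l') x = 0 := by
      have h5 : pl e l' =ᶠ[𝓝 x] fun _ => 0 := notMem_tsupport_iff_eventuallyEq.1 h3
      rw [h5.fderiv_eq]
      simp
    rw [h4]
    simp

end PD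

end

end Crest.Agent.R235.RegPush_952
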