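import Crest.Agent.R235.RegPushD_952

/-!
# Row 235, REG A1.1 (helper952), part E: the pushed current is flat; `push : PUSH`
-/

set_option autoImplicit false
set_option linter.unusedSectionVars false
set_option maxSynthPendingDepth 3

open MeasureTheory Metric Set Filter Topology
open scoped ContDiff ENNReal NNReal
open Crest.Agent.R235.Reg_522

namespace Crest.Agent.R235.RegPush_952

noncomputable section

variable {E E' : Type} [NormedAddCommGroup E] [NormedSpace ℝ E]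
  [FiniteDimensional ℝ E] [MeasurableSpace E] [BorelSpace E]
  [NormedAddCommGroup E'] [NormedSpace ℝ E'] [FiniteDimensional ℝ E'] [MeasurableSpace E']
  [BorelSpace E']

theorem aesm_app {α F G : Type*} [MeasurableSpace α] [NormedAddCommGroup F] [NormedSpace ℝ F]
    [NormedAddCommGroup G] [NormedSpace ℝ G] {μ : Measure α} {A : α → F →L[ℝ] G} {v : α → F}
    (hA : AEStronglyMeasurable A μ) (hv : AEStronglyMeasurable v μ) :
    AEStronglyMeasurable (fun q => A q (v q)) μ :=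
  (ContinuousLinearMap.id ℝ (F →L[ℝ] G)).aestronglyMeasurable_comp₂ hA hv

variable {J : E → E →L[ℝ] E} {U : Set E} {m : Measure E} {X : E → E} {K : ℝ}
  {e : OpenPartialHomeomorph E E'} {J' : E' → E' →L[ℝ] E'} {V : Set E'} {v0 : E'}

/-- the pushed integrand -/
def GG (e : OpenPartialHomeomorph E E') (J : E → E →L[ℝ] E) (X : E → E)
    (g' : E' → E' →L[ℝ] E' →L[ℝ] ℝ) (x : E) (r : ℝ) (q : E) : ℝ :=
  g' (r⁻¹ • (e q - e x)) (fderiv ℝ e q (X q)) (fderiv ℝ e q (J q (X q)))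

/-- the frozen integrand -/
def G0 (D : E →L[ℝ] E') (J : E → E →L[ℝ] E) (X : E → E)
    (g' : E' → E' →L[ℝ] E' →L[ℝ] ℝ) (x : E) (r : ℝ) (q : E) : ℝ :=
  g' (D (r⁻¹ • (q - x))) (D (X q)) (D (J q (X q)))

/-- the frozen test form -/
def fz (D : E →L[ℝ] E') (g' : E' → E' →L[ℝ] E' →L[ℝ] ℝ) (z : E) : E →L[ℝ] E →L[ℝ] ℝ :=
  ((ContinuousLinearMap.compL ℝ E E' ℝ).flip D).comp ((g' (D z)).comp D)

theorem fz_apply (D : E →L[ℝ] E') (g' : E' → E' →L[ℝ] E' →L[ℝ] ℝ) (z v w : E) :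
    fz D g' z v w = g' (D z) (D v) (D w) := rfl

theorem fz_cont (D : E →L[ℝ] E') {g' : E' → E' →L[ℝ] E' →L[ℝ] ℝ} (hg : Continuous g') :
    Continuous (fz D g') :=
  continuous_const.clm_comp ((hg.comp D.continuous).clm_comp continuous_const)

theorem norm_tri {B B' : E' →L[ℝ] E' →L[ℝ] ℝ} {T1 T2 S1 S2 : E'} {ε1 M η A : ℝ} (hA : 1 ≤ A)
    (hM : 0 ≤ M) (hB : ‖B - B'‖ ≤ ε1) (hB' : ‖B'‖ ≤ M) (h1 : ‖T1‖ ≤ A) (h2 : ‖T2‖ ≤ A * A)
    (h3 : ‖S1‖ ≤ A) (h4 : ‖T1 - S1‖ ≤ η) (h5 : ‖T2 - S2‖ ≤ η * A) (hη : 0 ≤ η) (hε : 0 ≤ ε1) :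
    ‖B T1 T2 - B' S1 S2‖ ≤ ε1 * A ^ 3 + 2 * M * η * A ^ 2 := by
  have e1 : B T1 T2 - B' S1 S2 = (B - B') T1 T2 + B' (T1 - S1) T2 + B' S1 (T2 - S2) := by
    simp only [_root_.sub_apply, map_sub]; ring
  have hA0 : 0 ≤ A := by linarith
  have b1 : ‖(B - B') T1 T2‖ ≤ ε1 * A * (A * A) :=
    ((B - B').le_opNorm₂ T1 T2).trans (by gcongr)
  have b2 : ‖B' (T1 - S1) T2‖ ≤ M * η * (A * A) :=
    (B'.le_opNorm₂ _ T2).trans (by gcongr)
  have b3 : ‖B' S1 (T2 - S2)‖ ≤ M * A * (η * A) :=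
    (B'.le_opNorm₂ _ _).trans (by gcongr)
  rw [e1]
  calc _ ≤ ‖(B - B') T1 T2‖ + ‖B' (T1 - S1) T2‖ + ‖B' S1 (T2 - S2)‖ :=
        (norm_add_le _ _).trans (add_le_add (norm_add_le _ _) le_rfl)
    _ ≤ ε1 * A * (A * A) + M * η * (A * A) + M * A * (η * A) := by linarith
    _ = _ := by ring

namespace PD

variable (H : PD J U m X K e J' V)
include H

theorem lim_eq {x : E} (hx : x ∈ OO e V) (g' : E' → E' →L[ℝ] E' →L[ℝ] ℝ) :
    ∫ ζ : ℂ, fz (fderiv ℝ e x) g' (ζ.re • X x + ζ.im • J x (X x)) (X x) (J x (X x)) =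
      ∫ ζ : ℂ, g' (ζ.re • pX e V X v0 (e x) + ζ.im • J' (e x) (pX e V X v0 (e x)))
        (pX e V X v0 (e x)) (J' (e x) (pX e V X v0 (e x))) := by
  have hN := H.NN_pos hx.1
  set N := NN e X x with hNdef
  set P := pX e V X v0 (e x) with hP
  set Q := J' (e x) P with hQ
  have e1 : fderiv ℝ e x (X x) = N • P := by
    rw [hP, pX_e hx, smul_smul, mul_inv_cancel₀ hN.ne', one_smul]
  have e2 : fderiv ℝ e x (J x (X x)) = N • Q := by
    rw [hQ, hP, H.J_pX hx, smul_smul, mul_inv_cancel₀ hN.ne', one_smul]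
  have h1 : ∀ ζ : ℂ, fz (fderiv ℝ e x) g' (ζ.re • X x + ζ.im • J x (X x)) (X x) (J x (X x)) =
      N ^ 2 * (fun ξ : ℂ => g' (ξ.re • P + ξ.im • Q) P Q) (N • ζ) := by
    intro ζ
    rw [fz_apply, map_add, map_smul, map_smul, e1, e2]
    simp only [map_smul, _root_.smul_apply, smul_eq_mul, Complex.smul_re, Complex.smul_im,
      smul_smul]
    rw [mul_comm ζ.re N, mul_comm ζ.im N]
    ring
  have h2 := Measure.integral_comp_smul (volume : Measure ℂ)
    (fun ξ : ℂ => g' (ξ.re • P + ξ.im • Q) P Q) N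
  rw [Complex.finrank_real_complex, abs_of_pos (by positivity), smul_eq_mul] at h2
  rw [integral_congr_ae (Eventually.of_forall h1), integral_const_mul, h2, ← mul_assoc,
    mul_inv_cancel₀ (by positivity), one_mul]

theorem fz_cs {x : E} (hx : x ∈ e.source) {A ρ : ℝ} (hA : ‖fderiv ℝ e.symm (e x)‖ ≤ A)
    {g' : E' → E' →L[ℝ] E' →L[ℝ] ℝ} (hρ : ∀ z, ρ < ‖z‖ → g' z = 0) :
    HasCompactSupport (fz (fderiv ℝ e x) g') := by
  refine HasCompactSupport.intro (isCompact_closedBall (0 : E) (A * ρ)) fun z hz => ?_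
  rw [mem_closedBall, dist_zero_right, not_le] at hz
  have h1 : ‖z‖ ≤ A * ‖fderiv ℝ e x z‖ := by
    have h2 := (fderiv ℝ e.symm (e x)).le_opNorm (fderiv ℝ e x z)
    rw [H.inv1 hx] at h2
    exact h2.trans (mul_le_mul_of_nonneg_right hA (norm_nonneg _))
  have h3 : ρ < ‖fderiv ℝ e x z‖ := by
    by_contra h
    rw [not_lt] at h
    have hA0 : 0 ≤ A := (norm_nonneg _).trans hA
    have := h1.trans (mul_le_mul_of_nonneg_left h hA0)
    linarith
  ext v w
  rw [fz_apply, hρ _ h3]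
  simp

/-- integrability of the two integrands on small balls -/
theorem intG {x : E} {A δ0 C r M : ℝ} (hA1 : 1 ≤ A)
    (hA : ∀ x ∈ e.symm '' closure V, ‖fderiv ℝ e x‖ ≤ A)
    (hAJ : ∀ x ∈ e.symm '' closure V, ‖J x‖ ≤ A) (hδ : closedBall x δ0 ⊆ OO e V)
    (hr : C * r ≤ δ0) {g' : E' → E' →L[ℝ] E' →L[ℝ] ℝ} (hg : Continuous g') (hM0 : 0 ≤ M)
    (hM : ∀ z, ‖g' z‖ ≤ M) (D : E →L[ℝ] E') (hD : ‖D‖ ≤ A) :
    IntegrableOn (GG e J X g' x r) (closedBall x (C * r)) m ∧
      IntegrableOn (G0 D J X g' x r) (closedBall x (C * r)) m := by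
  have hfin := H.fc.fin
  have hsO : closedBall x (C * r) ⊆ OO e V := (closedBall_subset_closedBall hr).trans hδ
  have hms : MeasurableSet (closedBall x (C * r)) := isClosed_closedBall.measurableSet
  have hsU := hsO.trans (H.sub_src.trans H.src)
  have mJ : AEStronglyMeasurable J (m.restrict (closedBall x (C * r))) :=
    (H.fc.smJ.continuousOn.mono hsU).aestronglyMeasurable hms
  have mX : AEStronglyMeasurable X (m.restrict (closedBall x (C * r))) :=
    H.fc.mX.aestronglyMeasurable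
  have mJX := aesm_app mJ mX
  have mD : AEStronglyMeasurable (fderiv ℝ e) (m.restrict (closedBall x (C * r))) :=
    (measurable_fderiv ℝ e).aestronglyMeasurable
  have hA0 : 0 ≤ A := by linarith
  have nJX : ∀ q ∈ closedBall x (C * r), ‖J q (X q)‖ ≤ A := by
    intro q hq
    have h1 := (J q).le_opNorm (X q)
    rw [H.fc.nX, mul_one] at h1
    exact h1.trans (hAJ q (H.O_K (hsO hq)))
  constructor
  · have m1 : AEStronglyMeasurable (fun q => g' (r⁻¹ • (e q - e x)))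
        (m.restrict (closedBall x (C * r))) := by
      refine ContinuousOn.aestronglyMeasurable ?_ hms
      refine hg.comp_continuousOn ?_
      exact ((e.continuousOn.mono (hsO.trans H.sub_src)).sub continuousOn_const).const_smul _
    have m2 : AEStronglyMeasurable (GG e J X g' x r) (m.restrict (closedBall x (C * r))) :=
      aesm_app (aesm_app m1 (aesm_app mD mX)) (aesm_app mD mJX)
    refine Integrable.of_bound m2 (M * A * (A * A)) ?_
    refine (ae_restrict_iff' hms).2 (Eventually.of_forall fun q hq => ?_)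
    refine ((g' (r⁻¹ • (e q - e x))).le_opNorm₂ _ _).trans ?_
    have h1 : ‖fderiv ℝ e q (X q)‖ ≤ A := by
      have h1 := (fderiv ℝ e q).le_opNorm (X q)
      rw [H.fc.nX, mul_one] at h1
      exact h1.trans (hA q (H.O_K (hsO hq)))
    have h2 : ‖fderiv ℝ e q (J q (X q))‖ ≤ A * A :=
      ((fderiv ℝ e q).le_opNorm _).trans
        (mul_le_mul (hA q (H.O_K (hsO hq))) (nJX q hq) (norm_nonneg _) hA0)
    have h3 := hM (r⁻¹ • (e q - e x))
    gcongr
  · have m1 : AEStronglyMeasurable (fun q => g' (D (r⁻¹ • (q - x))))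
        (m.restrict (closedBall x (C * r))) := by
      refine Continuous.aestronglyMeasurable ?_
      exact hg.comp (D.continuous.comp ((continuous_id.sub continuous_const).const_smul _))
    have m2 : AEStronglyMeasurable (G0 D J X g' x r) (m.restrict (closedBall x (C * r))) :=
      aesm_app (aesm_app m1 (D.continuous.comp_aestronglyMeasurable mX))
        (D.continuous.comp_aestronglyMeasurable mJX)
    refine Integrable.of_bound m2 (M * A * (A * A)) ?_
    refine (ae_restrict_iff' hms).2 (Eventually.of_forall fun q hq => ?_)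
    refine ((g' (D (r⁻¹ • (q - x)))).le_opNorm₂ _ _).trans ?_
    have h1 : ‖D (X q)‖ ≤ A := by
      have h1 := D.le_opNorm (X q)
      rw [H.fc.nX, mul_one] at h1
      exact h1.trans hD
    have h2 : ‖D (J q (X q))‖ ≤ A * A :=
      (D.le_opNorm _).trans (mul_le_mul hD (nJX q hq) (norm_nonneg _) hA0)
    have h3 := hM (D (r⁻¹ • (q - x)))
    gcongr

end PD

end

end Crest.Agent.R235.RegPush_952
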