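import Mathlib
import Crest.Agent.R235.CylDef2_522
import Crest.Agent.R235.CylAlg_895
import Crest.Agent.R235.Cyl_STK_303

/-!
Row 235, PACKAGE REG (helper303, leader helper522): `BoxCur` of helper607 is a `Cyl` of helper522
(second line).
-/

set_option autoImplicit false
set_option maxSynthPendingDepth 3

open MeasureTheory Metric Set Filter Complex
open scoped ContDiff Topology ComplexConjugate ENNReal

namespace Crest.Agent.R235.Reg_CONV_303

open Crest.Agent.R235.Loc Crest.Agent.R235.Cyl Crest.Agent.R235.Reg_522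
open Crest.Agent.R235.Cyl_522 (vec msupp hor sp sl dS Flat Coef)

noncomputable section

/-! ### pointwise algebra -/

theorem vec_smul (μ β : ℂ) (r : ℝ) (A : ℂ × ℂ) : vec μ β (r • A) = r • vec μ β A := by
  simp only [vec, Prod.smul_fst, Prod.smul_snd, Prod.smul_mk, Prod.mk.injEq]
  constructor
  · simp only [Complex.real_smul, map_mul, Complex.conj_ofReal]
    ring
  · simp only [Complex.real_smul, map_mul, map_div₀, map_sub, Complex.conj_ofReal,
      Complex.conj_conj]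
    ring

theorem vec_add (μ β : ℂ) (A B : ℂ × ℂ) : vec μ β (A + B) = vec μ β A + vec μ β B := by
  simp only [vec, Prod.fst_add, Prod.snd_add, Prod.mk_add_mk, Prod.mk.injEq]
  constructor
  · simp only [map_add]
    ring
  · simp only [map_add, map_div₀, map_sub, Complex.conj_ofReal, map_mul,
      Complex.conj_conj]
    ring

theorem vec_th (μ β : CC → ℂ) (p v : CC) (h : 0 < 1 - ‖μ p‖ ^ 2) :
    vec (μ p) (β p) (thz μ p v, thw β p v) = v := by
  have hD : ((1 - ‖μ p‖ ^ 2 : ℝ) : ℂ) ≠ 0 := by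
    exact_mod_cast h.ne'
  have hm : μ p * conj (μ p) = ((‖μ p‖ ^ 2 : ℝ) : ℂ) := by
    rw [Complex.mul_conj', Complex.ofReal_pow]
  have h1 : (thz μ p v - μ p * conj (thz μ p v)) / ((1 - ‖μ p‖ ^ 2 : ℝ) : ℂ) = v.1 := by
    rw [div_eq_iff hD]
    simp only [thz, map_add, map_mul, Complex.conj_conj]
    have : v.1 + μ p * conj v.1 - μ p * (conj v.1 + conj (μ p) * v.1) =
        v.1 * (1 - μ p * conj (μ p)) := by ring
    rw [this, hm]
    push_cast
    ring
  simp only [vec]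
  rw [h1]
  ext1
  · rfl
  · simp only [thw]
    ring

/-- the norm of the complex coordinates. -/
def nn (μ β : CC → ℂ) (X : CC → CC) (p : CC) : ℝ :=
  √(‖thz μ p (X p)‖ ^ 2 + ‖thw β p (X p)‖ ^ 2)

/-- the normalized complex coordinates. -/
def AA (μ β : CC → ℂ) (X : CC → CC) (p : CC) : CC :=
  (nn μ β X p)⁻¹ • (thz μ p (X p), thw β p (X p))

theorem nn_sq (μ β : CC → ℂ) (X : CC → CC) (p : CC) :
    nn μ β X p ^ 2 = ‖thz μ p (X p)‖ ^ 2 + ‖thw β p (X p)‖ ^ 2 :=
  Real.sq_sqrt (by positivity)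

theorem th_upper {μ β : CC → ℂ} {κ L : ℝ} (h : SBox μ β κ L) (p v : CC) (hv : ‖v‖ = 1) :
    ‖thz μ p v‖ ^ 2 + ‖thw β p v‖ ^ 2 ≤ 4 + (1 + L) ^ 2 := by
  have hv1 : ‖v.1‖ ≤ 1 := hv ▸ norm_fst_le v
  have hv2 : ‖v.2‖ ≤ 1 := hv ▸ norm_snd_le v
  have h1 : ‖thz μ p v‖ ≤ 2 := by
    calc ‖thz μ p v‖ ≤ ‖v.1‖ + ‖μ p * conj v.1‖ := norm_add_le _ _
      _ = ‖v.1‖ + ‖μ p‖ * ‖v.1‖ := by rw [norm_mul, RCLike.norm_conj]
      _ ≤ 1 + 1 * 1 := by
        gcongr
        exact (h.box.bμ p).trans h.box.κ1.le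
      _ = 2 := by norm_num
  have h2 : ‖thw β p v‖ ≤ 1 + L := by
    calc ‖thw β p v‖ ≤ ‖v.2‖ + ‖β p * conj v.1‖ := norm_add_le _ _
      _ = ‖v.2‖ + ‖β p‖ * ‖v.1‖ := by rw [norm_mul, RCLike.norm_conj]
      _ ≤ 1 + L * 1 := by
        gcongr
        · exact h.box.L0
        · exact h.bβ p
      _ = 1 + L := by ring
  have h3 : ‖thz μ p v‖ ^ 2 ≤ 2 ^ 2 := by gcongr
  have h4 : ‖thw β p v‖ ^ 2 ≤ (1 + L) ^ 2 := by gcongr
  linarith

theorem th_lower {μ β : CC → ℂ} {κ L : ℝ} (h : SBox μ β κ L) (p v : CC) (hv : ‖v‖ = 1) :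
    ((1 - κ) / (2 * (1 + L))) ^ 2 ≤ ‖thz μ p v‖ ^ 2 + ‖thw β p v‖ ^ 2 := by
  have hκ0 := h.box.κ0
  have hκ := h.box.κ1
  have hL := h.box.L0
  have hn : 0 ≤ (1 - κ) / (2 * (1 + L)) := by
    apply div_nonneg <;> linarith
  have h1 : (1 - κ) * ‖v.1‖ ≤ ‖thz μ p v‖ := by
    have : ‖v.1‖ ≤ ‖thz μ p v‖ + ‖μ p * conj v.1‖ := by
      have h2 : v.1 = thz μ p v - μ p * conj v.1 := by simp [thz]
      calc ‖v.1‖ = ‖thz μ p v - μ p * conj v.1‖ := by rw [← h2]
        _ ≤ _ := norm_sub_le _ _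
    rw [norm_mul, RCLike.norm_conj] at this
    have h3 : ‖μ p‖ * ‖v.1‖ ≤ κ * ‖v.1‖ := by
      gcongr
      exact h.box.bμ p
    linarith
  have h2 : ‖v.2‖ - L * ‖v.1‖ ≤ ‖thw β p v‖ := by
    have : ‖v.2‖ ≤ ‖thw β p v‖ + ‖β p * conj v.1‖ := by
      have h2 : v.2 = thw β p v - β p * conj v.1 := by simp [thw]
      calc ‖v.2‖ = ‖thw β p v - β p * conj v.1‖ := by rw [← h2]
        _ ≤ _ := norm_sub_le _ _
    rw [norm_mul, RCLike.norm_conj] at this
    have h3 : ‖β p‖ * ‖v.1‖ ≤ L * ‖v.1‖ := by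
      gcongr
      exact h.bβ p
    linarith
  by_cases hc : 1 / (2 * (1 + L)) ≤ ‖v.1‖
  · have : (1 - κ) / (2 * (1 + L)) ≤ ‖thz μ p v‖ := by
      calc (1 - κ) / (2 * (1 + L)) = (1 - κ) * (1 / (2 * (1 + L))) := by ring
        _ ≤ (1 - κ) * ‖v.1‖ := by
          gcongr
        _ ≤ _ := h1
    have h3 : ((1 - κ) / (2 * (1 + L))) ^ 2 ≤ ‖thz μ p v‖ ^ 2 := by gcongr
    have h4 : 0 ≤ ‖thw β p v‖ ^ 2 := by positivity
    linarith
  · push Not at hc
    have hlt : ‖v.1‖ < 1 := by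
      refine hc.trans_le ?_
      rw [div_le_one (by linarith)]
      linarith
    have hv2 : ‖v.2‖ = 1 := by
      rw [Prod.norm_def] at hv
      rcases max_choice ‖v.1‖ ‖v.2‖ with h' | h'
      · rw [h'] at hv; linarith
      · rw [h'] at hv; exact hv
    have h5 : L * ‖v.1‖ ≤ 1 / 2 := by
      calc L * ‖v.1‖ ≤ L * (1 / (2 * (1 + L))) := by gcongr
        _ ≤ (1 + L) * (1 / (2 * (1 + L))) := by
          gcongr
          linarith
        _ = 1 / 2 := by field_simp
    have h6 : (1 - κ) / (2 * (1 + L)) ≤ 1 / 2 := by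
      rw [div_le_div_iff₀ (by linarith) (by norm_num)]
      nlinarith
    have h7 : (1 - κ) / (2 * (1 + L)) ≤ ‖thw β p v‖ := by
      rw [hv2] at h2
      linarith
    have h3 : ((1 - κ) / (2 * (1 + L))) ^ 2 ≤ ‖thw β p v‖ ^ 2 := by gcongr
    have h4 : 0 ≤ ‖thz μ p v‖ ^ 2 := by positivity
    linarith

section Pt

variable {μ β : CC → ℂ} {κ L : ℝ} {X Y : CC → CC}

theorem n0_pos (h : SBox μ β κ L) : 0 < ((1 - κ) / (2 * (1 + L))) ^ 2 := by
  have hκ := h.box.κ1
  have hL := h.box.L0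
  have : 0 < (1 - κ) / (2 * (1 + L)) := by
    apply div_pos <;> linarith
  positivity

theorem nn_pos (h : SBox μ β κ L) (p : CC) (hX : ‖X p‖ = 1) : 0 < nn μ β X p := by
  have h1 := th_lower h p (X p) hX
  have h2 := n0_pos h
  exact Real.sqrt_pos.2 (by linarith)

theorem om_pos (h : SBox μ β κ L) (p : CC) : 0 < 1 - ‖μ p‖ ^ 2 :=
  Cyl_STK_303.one_sub_pos h.box.κ1 (h.box.bμ p)

theorem vec_AA (h : SBox μ β κ L) (p : CC) :
    vec (μ p) (β p) (AA μ β X p) = (nn μ β X p)⁻¹ • X p := by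
  rw [AA, vec_smul, vec_th μ β p (X p) (om_pos h p)]

theorem vec_IAA (h : SBox μ β κ L) (p : CC) (hz : thz μ p (Y p) = I * thz μ p (X p))
    (hw : thw β p (Y p) = I * thw β p (X p)) :
    vec (μ p) (β p) (I • AA μ β X p) = (nn μ β X p)⁻¹ • Y p := by
  have : I • AA μ β X p = (nn μ β X p)⁻¹ • (thz μ p (Y p), thw β p (Y p)) := by
    rw [AA, smul_comm, hz, hw]
    rfl
  rw [this, vec_smul, vec_th μ β p (Y p) (om_pos h p)]

theorem vec_cAA (h : SBox μ β κ L) (p : CC) (hz : thz μ p (Y p) = I * thz μ p (X p))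
    (hw : thw β p (Y p) = I * thw β p (X p)) (c : ℂ) :
    vec (μ p) (β p) (c • AA μ β X p) =
      (c.re * (nn μ β X p)⁻¹) • X p + (c.im * (nn μ β X p)⁻¹) • Y p := by
  have : c • AA μ β X p = c.re • AA μ β X p + c.im • (I • AA μ β X p) := by
    conv_lhs => rw [← Complex.re_add_im c]
    rw [add_smul, mul_smul]
    rfl
  rw [this, vec_add, vec_smul, vec_smul, vec_AA h, vec_IAA h p hz hw, smul_smul, smul_smul]

theorem AA_unit (h : SBox μ β κ L) (p : CC) (hX : ‖X p‖ = 1) :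
    ‖(AA μ β X p).1‖ ^ 2 + ‖(AA μ β X p).2‖ ^ 2 = 1 := by
  have h1 := nn_pos (X := X) h p hX
  have h2 := nn_sq μ β X p
  simp only [AA, Prod.smul_mk, norm_smul, norm_inv, Real.norm_eq_abs, abs_of_pos h1]
  rw [mul_pow, mul_pow, ← mul_add, ← h2]
  field_simp

/-- the horizontal density. -/
theorem hh_AA (h : SBox μ β κ L) (p : CC) (hX : ‖X p‖ = 1)
    (hz : thz μ p (Y p) = I * thz μ p (X p)) (hw : thw β p (Y p) = I * thw β p (X p)) :
    nn μ β X p ^ 2 * (‖(AA μ β X p).1‖ ^ 2 / (1 - ‖μ p‖ ^ 2)) = hh (X p) (Y p) := by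
  have h1 := nn_pos (X := X) h p hX
  have h2 := Cyl_STK_303.vec_det (μ p) (β p) (AA μ β X p) (om_pos h p)
  rw [vec_AA h, vec_IAA h p hz hw] at h2
  rw [← h2]
  simp only [Prod.smul_fst, hh, Complex.mul_im, Complex.conj_re, Complex.conj_im, Complex.smul_re,
    Complex.smul_im, smul_eq_mul]
  field_simp
  ring

theorem AA_fst_ne (h : SBox μ β κ L) (p : CC) (hX : ‖X p‖ = 1)
    (hz : thz μ p (Y p) = I * thz μ p (X p)) (hw : thw β p (Y p) = I * thw β p (X p))
    (hA : (AA μ β X p).1 ≠ 0) : 0 < hh (X p) (Y p) := by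
  rw [← hh_AA h p hX hz hw]
  have h1 := nn_pos (X := X) h p hX
  have h2 := om_pos h p
  have h3 : 0 < ‖(AA μ β X p).1‖ := norm_pos_iff.2 hA
  positivity

/-- the plane is a graph with slope at most `k₀`. -/
theorem slope_le (h : SBox μ β κ L) (p : CC)
    (hz : thz μ p (Y p) = I * thz μ p (X p)) (hw : thw β p (Y p) = I * thw β p (X p))
    (hX : ‖X p‖ = 1) (hA : (AA μ β X p).1 ≠ 0) (ζ : ℂ) :
    ‖(ζ.re • X p + ζ.im • Y p).2‖ ≤
      (‖sp (AA μ β X) p‖ + ‖sp (AA μ β X) p * μ p - β p‖) * ‖(ζ.re • X p + ζ.im • Y p).1‖ := by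
  have h1 := nn_pos (X := X) h p hX
  by_cases hζ : ζ = 0
  · simp [hζ]
  · have h2 := vec_cAA h p hz hw ((nn μ β X p) * ζ)
    have h3 : (((nn μ β X p : ℝ) : ℂ) * ζ).re * (nn μ β X p)⁻¹ = ζ.re := by
      simp only [Complex.mul_re, Complex.ofReal_re, Complex.ofReal_im]
      field_simp
      ring
    have h4 : (((nn μ β X p : ℝ) : ℂ) * ζ).im * (nn μ β X p)⁻¹ = ζ.im := by
      simp only [Complex.mul_im, Complex.ofReal_re, Complex.ofReal_im]
      field_simp
      ring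
    rw [h3, h4] at h2
    rw [← h2]
    set c : ℂ := ((nn μ β X p : ℝ) : ℂ) * ζ with hc
    have hc0 : c ≠ 0 := mul_ne_zero (by exact_mod_cast h1.ne') hζ
    have hcA : (c • AA μ β X p).1 ≠ 0 := by
      simp only [Prod.smul_fst, smul_eq_mul]
      exact mul_ne_zero hc0 hA
    rw [Cyl_STK_303.vec_snd_eq (μ p) (β p) (c • AA μ β X p) (om_pos h p) hcA]
    simp only [Cyl_STK_303.Sg]
    have hq : (c • AA μ β X p).2 / (c • AA μ β X p).1 = sp (AA μ β X) p := by
      simp only [Prod.smul_fst, Prod.smul_snd, smul_eq_mul, sp]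
      rw [mul_div_mul_left _ _ hc0]
    rw [hq]
    set v := (vec (μ p) (β p) (c • AA μ β X p)).1
    calc ‖sp (AA μ β X) p * v + (sp (AA μ β X) p * μ p - β p) * conj v‖
        ≤ ‖sp (AA μ β X) p * v‖ + ‖(sp (AA μ β X) p * μ p - β p) * conj v‖ := norm_add_le _ _
      _ = _ := by rw [norm_mul, norm_mul, RCLike.norm_conj]; ring

end Pt

/-! ### the measure -/

section Meas

variable {μ β : CC → ℂ} {κ L : ℝ} {X Y : CC → CC}

theorem thz_meas (hμ : Measurable μ) (hX : Measurable X) : Measurable fun p => thz μ p (X p) := by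
  have hc : Measurable (fun z : ℂ => conj z) := Complex.continuous_conj.measurable
  exact hX.fst.add (hμ.mul (hc.comp hX.fst))

theorem thw_meas (hβ : Measurable β) (hX : Measurable X) : Measurable fun p => thw β p (X p) := by
  have hc : Measurable (fun z : ℂ => conj z) := Complex.continuous_conj.measurable
  exact hX.snd.add (hβ.mul (hc.comp hX.fst))

theorem nn_meas (hμ : Measurable μ) (hβ : Measurable β) (hX : Measurable X) :
    Measurable (nn μ β X) := by
  have h1 := (thz_meas hμ hX).norm.pow_const 2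
  have h2 := (thw_meas hβ hX).norm.pow_const 2
  exact (h1.add h2).sqrt

theorem AA_meas (hμ : Measurable μ) (hβ : Measurable β) (hX : Measurable X) :
    Measurable (AA μ β X) :=
  (nn_meas hμ hβ hX).inv.smul ((thz_meas hμ hX).prodMk (thw_meas hβ hX))

/-- the base disc. -/
def SS (R' : ℝ) : Set CC := {p | ‖p.1‖ < R'}

theorem SS_meas (R' : ℝ) : MeasurableSet (SS R') :=
  (isOpen_lt (continuous_fst.norm) continuous_const).measurableSet

/-- the new measure. -/
def mm (μ β : CC → ℂ) (X : CC → CC) (R' : ℝ) (m : Measure CC) : Measure CC :=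
  (m.restrict (SS R')).withDensity fun p => ENNReal.ofReal (nn μ β X p ^ 2)

theorem mm_le (h : SBox μ β κ L) (hX : ∀ p, ‖X p‖ = 1) (R' : ℝ) (m : Measure CC) (E : Set CC) :
    mm μ β X R' m E ≤ ENNReal.ofReal (4 + (1 + L) ^ 2) * m E := by
  have h1 : mm μ β X R' m ≤
      (m.restrict (SS R')).withDensity fun _ => ENNReal.ofReal (4 + (1 + L) ^ 2) := by
    apply withDensity_mono
    refine Eventually.of_forall fun p => ENNReal.ofReal_le_ofReal ?_
    rw [nn_sq]
    exact th_upper h p (X p) (hX p)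
  rw [withDensity_const] at h1
  calc mm μ β X R' m E ≤ (ENNReal.ofReal (4 + (1 + L) ^ 2) • m.restrict (SS R')) E := h1 E
    _ = ENNReal.ofReal (4 + (1 + L) ^ 2) * m.restrict (SS R') E := rfl
    _ ≤ _ := by
      gcongr
      exact Measure.restrict_le_self

theorem le_mm (h : SBox μ β κ L) (hX : ∀ p, ‖X p‖ = 1) (R' : ℝ) (m : Measure CC) (E : Set CC)
    (hE : E ⊆ SS R') :
    ENNReal.ofReal (((1 - κ) / (2 * (1 + L))) ^ 2) * m E ≤ mm μ β X R' m E := by
  have h1 : ((m.restrict (SS R')).withDensity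
      fun _ => ENNReal.ofReal (((1 - κ) / (2 * (1 + L))) ^ 2)) ≤ mm μ β X R' m := by
    apply withDensity_mono
    refine Eventually.of_forall fun p => ENNReal.ofReal_le_ofReal ?_
    rw [nn_sq]
    exact th_lower h p (X p) (hX p)
  rw [withDensity_const] at h1
  have h2 : m.restrict (SS R') E = m E := by
    rw [Measure.restrict_apply' (SS_meas R'), inter_eq_self_of_subset_left hE]
  calc ENNReal.ofReal (((1 - κ) / (2 * (1 + L))) ^ 2) * m E
      = (ENNReal.ofReal (((1 - κ) / (2 * (1 + L))) ^ 2) • m.restrict (SS R')) E := by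
        rw [← h2]; rfl
    _ ≤ _ := h1 E

theorem mm_integral (hμ : Measurable μ) (hβ : Measurable β) (hX : Measurable X) (R' : ℝ)
    (m : Measure CC) (F : CC → ℝ) :
    ∫ p, F p ∂(mm μ β X R' m) = ∫ p in SS R', nn μ β X p ^ 2 * F p ∂m := by
  rw [mm, integral_withDensity_eq_integral_toReal_smul]
  · refine integral_congr_ae (Eventually.of_forall fun p => ?_)
    simp only [smul_eq_mul]
    rw [ENNReal.toReal_ofReal (by positivity)]
  · exact ((nn_meas hμ hβ hX).pow_const 2).ennreal_ofReal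
  · exact Eventually.of_forall fun p => ENNReal.ofReal_lt_top

/-- the basic integral identity for `2`-forms (or anything quadratic). -/
theorem mm_form (h : SBox μ β κ L) (hX : Measurable X) (hn : ∀ p, ‖X p‖ = 1)
    (hz : ∀ p, thz μ p (Y p) = I * thz μ p (X p)) (hw : ∀ p, thw β p (Y p) = I * thw β p (X p))
    (R' : ℝ) (m : Measure CC) (b : CC → CC → CC → ℝ)
    (hb : ∀ p (r : ℝ) v w, b p (r • v) (r • w) = r ^ 2 * b p v w)
    (h0 : ∀ p, p ∉ SS R' → b p (X p) (Y p) = 0) :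
    ∫ p, b p (vec (μ p) (β p) (AA μ β X p)) (vec (μ p) (β p) (I • AA μ β X p))
      ∂(mm μ β X R' m) = ∫ p, b p (X p) (Y p) ∂m := by
  have hμ : Measurable μ := h.smμ.continuous.measurable
  have hβ : Measurable β := h.smβ.continuous.measurable
  rw [mm_integral hμ hβ hX, ← setIntegral_eq_integral_of_forall_compl_eq_zero (s := SS R') h0]
  refine setIntegral_congr_fun (SS_meas R') fun p _ => ?_
  rw [vec_AA h, vec_IAA h p (hz p) (hw p), hb, ← mul_assoc]
  have h1 := nn_pos (X := X) h p (hn p)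
  have : nn μ β X p ^ 2 * (nn μ β X p)⁻¹ ^ 2 = 1 := by field_simp
  rw [this, one_mul]

/-- the horizontal measure is the density `hh`. -/
theorem hor_mm (h : SBox μ β κ L) (hX : Measurable X) (hn : ∀ p, ‖X p‖ = 1)
    (hz : ∀ p, thz μ p (Y p) = I * thz μ p (X p)) (hw : ∀ p, thw β p (Y p) = I * thw β p (X p))
    (R' : ℝ) (m : Measure CC) (E : Set CC) (hE : MeasurableSet E) (hES : E ⊆ SS R') :
    hor μ (mm μ β X R' m) (AA μ β X) E = ∫⁻ p in E, ENNReal.ofReal (hh (X p) (Y p)) ∂m := by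
  have hμ : Measurable μ := h.smμ.continuous.measurable
  have hβ : Measurable β := h.smβ.continuous.measurable
  have hg : Measurable fun p => ENNReal.ofReal (‖(AA μ β X p).1‖ ^ 2 / (1 - ‖μ p‖ ^ 2)) :=
    (((AA_meas hμ hβ hX).fst.norm.pow_const 2).div
      (measurable_const.sub (hμ.norm.pow_const 2))).ennreal_ofReal
  have hf : Measurable fun p => ENNReal.ofReal (nn μ β X p ^ 2) :=
    ((nn_meas hμ hβ hX).pow_const 2).ennreal_ofReal
  rw [hor, withDensity_apply _ hE, mm, restrict_withDensity hE,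
    lintegral_withDensity_eq_lintegral_mul _ hf hg,
    Measure.restrict_restrict hE, inter_eq_self_of_subset_left hES]
  refine lintegral_congr fun p => ?_
  simp only [Pi.mul_apply]
  rw [← ENNReal.ofReal_mul (by positivity), hh_AA h p (hn p) (hz p) (hw p)]

end Meas

/-! ### flatness -/

/-- the constant form `kk`. -/
def kform : CC →L[ℝ] CC →L[ℝ] ℝ :=
  (reCLM.comp (ContinuousLinearMap.snd ℝ ℂ ℂ)).smulRight
      (imCLM.comp (ContinuousLinearMap.snd ℝ ℂ ℂ)) -
    (imCLM.comp (ContinuousLinearMap.snd ℝ ℂ ℂ)).smulRight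
      (reCLM.comp (ContinuousLinearMap.snd ℝ ℂ ℂ))

/-- the constant form `hh`. -/
def hform : CC →L[ℝ] CC →L[ℝ] ℝ :=
  (reCLM.comp (ContinuousLinearMap.fst ℝ ℂ ℂ)).smulRight
      (imCLM.comp (ContinuousLinearMap.fst ℝ ℂ ℂ)) -
    (imCLM.comp (ContinuousLinearMap.fst ℝ ℂ ℂ)).smulRight
      (reCLM.comp (ContinuousLinearMap.fst ℝ ℂ ℂ))

theorem kform_apply (v w : CC) : kform v w = kk v w := by
  simp only [kform, kk, sub_apply, ContinuousLinearMap.smulRight_apply,
    ContinuousLinearMap.comp_apply, ContinuousLinearMap.coe_snd', reCLM_apply, imCLM_apply,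
    smul_apply, smul_eq_mul]
  ring

theorem hform_apply (v w : CC) : hform v w = hh v w := by
  simp only [hform, hh, sub_apply, ContinuousLinearMap.smulRight_apply,
    ContinuousLinearMap.comp_apply, ContinuousLinearMap.coe_fst', reCLM_apply, imCLM_apply,
    smul_apply, smul_eq_mul]
  ring

theorem flat_form {m : Measure CC} {X Y : CC → CC} {p : CC} (hfl : FlatAt m X Y p) (f : CC → ℝ)
    (hf : Continuous f) (hcs : HasCompactSupport f) (om : CC →L[ℝ] CC →L[ℝ] ℝ)
    (hom : ∀ v, om v v = 0) :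
    Tendsto (fun r : ℝ => (r ^ 2)⁻¹ * ∫ q, f (r⁻¹ • (q - p)) * om (X q) (Y q) ∂m) (𝓝[>] 0)
      (𝓝 (∫ ζ : ℂ, f (ζ.re • X p + ζ.im • Y p) * om (X p) (Y p))) := by
  have := hfl (fun q => f q • om) (hf.smul continuous_const) (hcs.smul_right) (by
    intro q v
    simp [hom])
  simpa using this

/-- one below `a`, zero above `b`. -/
def bu (a b r : ℝ) : ℝ := max 0 (min 1 ((b - r) / (b - a)))

theorem bu_cont (a b : ℝ) : Continuous (bu a b) := by
  unfold bu
  fun_prop

theorem bu_nonneg (a b r : ℝ) : 0 ≤ bu a b r := le_max_left _ _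

theorem bu_le_one (a b r : ℝ) : bu a b r ≤ 1 := max_le zero_le_one (min_le_left _ _)

theorem bu_one {a b r : ℝ} (hab : a < b) (hr : r ≤ a) : bu a b r = 1 := by
  have : 1 ≤ (b - r) / (b - a) := by
    rw [one_le_div (by linarith)]
    linarith
  simp [bu, min_eq_left this]

theorem bu_zero {a b r : ℝ} (hab : a < b) (hr : b ≤ r) : bu a b r = 0 := by
  have : (b - r) / (b - a) ≤ 0 := div_nonpos_of_nonpos_of_nonneg (by linarith) (by linarith)
  unfold bu
  rw [max_eq_left]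
  exact (min_le_right _ _).trans this

/-- product cut-off. -/
def ff (a b c d : ℝ) (y : CC) : ℝ := bu a b ‖y.1‖ * bu c d ‖y.2‖

theorem ff_cont (a b c d : ℝ) : Continuous (ff a b c d) :=
  ((bu_cont a b).comp continuous_fst.norm).mul ((bu_cont c d).comp continuous_snd.norm)

theorem ff_nonneg (a b c d : ℝ) (y : CC) : 0 ≤ ff a b c d y :=
  mul_nonneg (bu_nonneg _ _ _) (bu_nonneg _ _ _)

theorem ff_le_one (a b c d : ℝ) (y : CC) : ff a b c d y ≤ 1 :=
  mul_le_one₀ (bu_le_one _ _ _) (bu_nonneg _ _ _) (bu_le_one _ _ _)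

theorem ff_zero {a b c d : ℝ} (hab : a < b) (hcd : c < d) {y : CC}
    (hy : b ≤ ‖y.1‖ ∨ d ≤ ‖y.2‖) : ff a b c d y = 0 := by
  unfold ff
  rcases hy with hy | hy
  · rw [bu_zero hab hy, zero_mul]
  · rw [bu_zero hcd hy, mul_zero]

theorem ff_one {a b c d : ℝ} (hab : a < b) (hcd : c < d) {y : CC}
    (h1 : ‖y.1‖ ≤ a) (h2 : ‖y.2‖ ≤ c) : ff a b c d y = 1 := by
  unfold ff
  rw [bu_one hab h1, bu_one hcd h2, mul_one]

theorem ff_cs {a b c d : ℝ} (hab : a < b) (hcd : c < d) : HasCompactSupport (ff a b c d) := by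
  refine HasCompactSupport.intro
    ((isCompact_closedBall (0 : ℂ) b).prod (isCompact_closedBall (0 : ℂ) d)) fun y hy => ?_
  apply ff_zero hab hcd
  by_contra hc
  push Not at hc
  exact hy ⟨by simpa using hc.1.le, by simpa using hc.2.le⟩

theorem omega_meas {X Y : CC → CC} (hX : Measurable X) (hY : Measurable Y)
    (om : CC →L[ℝ] CC →L[ℝ] ℝ) : Measurable fun q => om (X q) (Y q) := by
  have h1 : Continuous fun v : CC × CC => om v.1 v.2 := by fun_prop
  exact h1.measurable.comp (hX.prodMk hY)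

theorem int_F {m : Measure CC} [IsFiniteMeasure m] {X Y : CC → CC} (hX : Measurable X)
    (hY : Measurable Y) (om : CC →L[ℝ] CC →L[ℝ] ℝ) {C : ℝ} (hC : ∀ q, |om (X q) (Y q)| ≤ C)
    {f : CC → ℝ} (hf : Continuous f) (h0 : ∀ y, 0 ≤ f y) (h1 : ∀ y, f y ≤ 1) (r : ℝ) (p : CC) :
    Integrable (fun q => f (r⁻¹ • (q - p)) * om (X q) (Y q)) m := by
  have hm : Measurable fun q : CC => f (r⁻¹ • (q - p)) :=
    (hf.comp ((continuous_id.sub continuous_const).const_smul r⁻¹)).measurable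
  refine Integrable.of_bound (hm.mul (omega_meas hX hY om)).aestronglyMeasurable C
    (Eventually.of_forall fun q => ?_)
  rw [norm_mul, Real.norm_eq_abs, Real.norm_eq_abs, abs_of_nonneg (h0 _)]
  calc f (r⁻¹ • (q - p)) * |om (X q) (Y q)| ≤ 1 * C := by
        gcongr
        · exact h1 _
        · exact hC q
    _ = C := one_mul C

section Fl

variable {μ β : CC → ℂ} {κ L : ℝ} {X Y : CC → CC}

theorem plane (h : SBox μ β κ L) (hX : Measurable X) (hYm : Measurable Y) (hn : ∀ p, ‖X p‖ = 1)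
    {K : ℝ} (hY : ∀ p, ‖Y p‖ ≤ K)
    (hz : ∀ p, thz μ p (Y p) = I * thz μ p (X p)) (hw : ∀ p, thw β p (Y p) = I * thw β p (X p))
    (R' : ℝ) (m : Measure CC) [IsFiniteMeasure m] (p : CC) (hfl : FlatAt m X Y p) (ε : ℝ)
    (hε : 0 < ε) :
    ∀ᶠ s in 𝓝[>] (0 : ℝ), mm μ β X R' m
      {y | y ∈ ball p s ∧ ∀ c : ℂ, ε * s < ‖y - p - vec (μ p) (β p) (c • AA μ β X p)‖} ≤
      ENNReal.ofReal (ε * s ^ 2) := by
  obtain ⟨C₀, c₀, hc₀, hC₀, H⟩ := CylAlg_895.alg0 κ L K h.box.κ0 h.box.κ1 h.box.L0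
  have hB : 0 < 4 + (1 + L) ^ 2 := by positivity
  set B := 4 + (1 + L) ^ 2 with hBdef
  set om : CC →L[ℝ] CC →L[ℝ] ℝ := kform + C₀ • hform with homdef
  have hom : ∀ v w, om v w = kk v w + C₀ * hh v w := by
    intro v w
    simp [homdef, kform_apply, hform_apply]
  have homv : ∀ v, om v v = 0 := by
    intro v
    rw [hom]
    simp only [kk, hh]
    ring
  have homl : ∀ q, c₀ ≤ om (X q) (Y q) := by
    intro q
    rw [hom]
    exact (H μ β h q (X q) (Y q) (hn q) (hY q) (hz q) (hw q)).2.2.2.1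
  have homu : ∀ q, |om (X q) (Y q)| ≤ C₀ + C₀ * C₀ := by
    intro q
    have hq := H μ β h q (X q) (Y q) (hn q) (hY q) (hz q) (hw q)
    rw [hom]
    calc |kk (X q) (Y q) + C₀ * hh (X q) (Y q)|
        ≤ |kk (X q) (Y q)| + |C₀ * hh (X q) (Y q)| := abs_add_le _ _
      _ ≤ C₀ + C₀ * C₀ := by
        rw [abs_mul, abs_of_pos hC₀, abs_of_nonneg hq.1]
        gcongr
        · exact hq.2.2.1
        · exact hq.2.1
  set P : Set CC := Set.range fun ζ : ℂ => ζ.re • X p + ζ.im • Y p with hP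
  have hPne : P.Nonempty := Set.range_nonempty _
  set f : CC → ℝ := fun q => bu 1 2 ‖q‖ * min 1 (infDist q P / ε) with hf
  have hfc : Continuous f :=
    ((bu_cont 1 2).comp continuous_norm).mul
      (continuous_const.min ((continuous_infDist_pt P).div_const ε))
  have hm0 : ∀ q, 0 ≤ min 1 (infDist q P / ε) := fun q =>
    le_min zero_le_one (div_nonneg infDist_nonneg hε.le)
  have hf0 : ∀ q, 0 ≤ f q := fun q => mul_nonneg (bu_nonneg _ _ _) (hm0 q)
  have hf1 : ∀ q, f q ≤ 1 := fun q =>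
    mul_le_one₀ (bu_le_one _ _ _) (hm0 q) (min_le_left _ _)
  have hfcs : HasCompactSupport f := by
    refine HasCompactSupport.intro (isCompact_closedBall (0 : CC) 2) fun y hy => ?_
    have : 2 ≤ ‖y‖ := by
      by_contra hc
      push Not at hc
      exact hy (by simpa using hc.le)
    simp only [hf]
    rw [bu_zero (by norm_num) this, zero_mul]
  have hlim := flat_form hfl f hfc hfcs om homv
  have hl0 : (∫ ζ : ℂ, f (ζ.re • X p + ζ.im • Y p) * om (X p) (Y p)) = 0 := by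
    rw [← integral_zero ℂ ℝ]
    refine integral_congr_ae (Eventually.of_forall fun ζ => ?_)
    have : infDist (ζ.re • X p + ζ.im • Y p) P = 0 := infDist_zero_of_mem ⟨ζ, rfl⟩
    simp only [hf, this]
    simp
  rw [hl0] at hlim
  have hδ : 0 < ε * c₀ / B := by positivity
  have hev := hlim.eventually (gt_mem_nhds hδ)
  filter_upwards [hev, self_mem_nhdsWithin] with s hs hs0
  have hs0 : 0 < s := hs0
  set F : CC → ℝ := fun q => f (s⁻¹ • (q - p)) * om (X q) (Y q) with hF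
  have hFi : Integrable F m := int_F hX hYm om homu hfc hf0 hf1 s p
  have hF0 : 0 ≤ᵐ[m] F := Eventually.of_forall fun q => mul_nonneg (hf0 _) (hc₀.le.trans (homl q))
  have hmk := mul_meas_ge_le_integral_of_nonneg hF0 hFi c₀
  have hint : ∫ q, F q ∂m ≤ ε * c₀ / B * s ^ 2 := by
    have : (s ^ 2)⁻¹ * ∫ q, F q ∂m < ε * c₀ / B := hs
    rw [inv_mul_lt_iff₀ (by positivity)] at this
    linarith
  have hsub : {y | y ∈ ball p s ∧ ∀ c : ℂ, ε * s < ‖y - p - vec (μ p) (β p) (c • AA μ β X p)‖} ⊆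
      {q | c₀ ≤ F q} := by
    rintro y ⟨hy1, hy2⟩
    have hyn : ‖s⁻¹ • (y - p)‖ ≤ 1 := by
      rw [norm_smul, norm_inv, Real.norm_eq_abs, abs_of_pos hs0, inv_mul_le_iff₀ hs0, mul_one]
      rw [mem_ball, dist_eq_norm] at hy1
      exact hy1.le
    have hyd : ε ≤ infDist (s⁻¹ • (y - p)) P := by
      rw [le_infDist hPne]
      rintro _ ⟨ζ, rfl⟩
      have h2 := hy2 (((s * nn μ β X p : ℝ) : ℂ) * ζ)
      rw [vec_cAA h p (hz p) (hw p)] at h2
      have hnp := nn_pos (X := X) h p (hn p)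
      have h3 : ((((s * nn μ β X p : ℝ) : ℂ) * ζ).re * (nn μ β X p)⁻¹) = s * ζ.re := by
        simp only [Complex.mul_re, Complex.ofReal_re, Complex.ofReal_im]
        field_simp
        ring
      have h4 : ((((s * nn μ β X p : ℝ) : ℂ) * ζ).im * (nn μ β X p)⁻¹) = s * ζ.im := by
        simp only [Complex.mul_im, Complex.ofReal_re, Complex.ofReal_im]
        field_simp
        ring
      rw [h3, h4] at h2
      have h5 : y - p - ((s * ζ.re) • X p + (s * ζ.im) • Y p) =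
          s • (s⁻¹ • (y - p) - (ζ.re • X p + ζ.im • Y p)) := by
        rw [smul_sub, smul_smul, mul_inv_cancel₀ hs0.ne', one_smul, smul_add, smul_smul, smul_smul]
      rw [h5, norm_smul, Real.norm_eq_abs, abs_of_pos hs0, mul_comm ε s] at h2
      rw [dist_eq_norm]
      exact (lt_of_mul_lt_mul_left h2 hs0.le).le
    have hf1' : f (s⁻¹ • (y - p)) = 1 := by
      simp only [hf]
      rw [bu_one (by norm_num) hyn, min_eq_left (by rw [one_le_div hε]; exact hyd), one_mul]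
    simp only [mem_ofPred_eq, hF, hf1', one_mul]
    exact homl y
  calc mm μ β X R' m _ ≤ ENNReal.ofReal B * m _ := mm_le h hn R' m _
    _ ≤ ENNReal.ofReal B * m {q | c₀ ≤ F q} := by
      gcongr
    _ = ENNReal.ofReal (B * m.real {q | c₀ ≤ F q}) := by
      rw [ENNReal.ofReal_mul hB.le, ofReal_measureReal]
    _ ≤ ENNReal.ofReal (ε * s ^ 2) := by
      apply ENNReal.ofReal_le_ofReal
      have : c₀ * m.real {q | c₀ ≤ F q} ≤ c₀ * (ε * s ^ 2 / B) := by
        calc _ ≤ _ := hmk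
          _ ≤ _ := hint
          _ = _ := by ring
      have := le_of_mul_le_mul_left this hc₀
      calc B * m.real {q | c₀ ≤ F q} ≤ B * (ε * s ^ 2 / B) := by gcongr
        _ = ε * s ^ 2 := by field_simp

theorem det_T (a b : ℂ) :
    LinearMap.det (Complex.reLm.smulRight a + Complex.imLm.smulRight b : ℂ →ₗ[ℝ] ℂ) =
      a.re * b.im - b.re * a.im := by
  rw [← LinearMap.det_toMatrix Complex.basisOneI, Matrix.det_fin_two]
  simp [LinearMap.toMatrix_apply]

theorem area_set (a b : ℂ) (t : ℝ) :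
    {ζ : ℂ | ‖ζ.re • a + ζ.im • b‖ ≤ t} =
      (Complex.reLm.smulRight a + Complex.imLm.smulRight b : ℂ →ₗ[ℝ] ℂ) ⁻¹' closedBall 0 t := by
  ext ζ
  simp

theorem area_lt (a b : ℂ) (hH0 : 0 < a.re * b.im - b.re * a.im) (t : ℝ) :
    volume {ζ : ℂ | ‖ζ.re • a + ζ.im • b‖ ≤ t} ≠ ⊤ := by
  rw [area_set, Measure.addHaar_preimage_linearMap volume (by rw [det_T]; exact hH0.ne')]
  exact ENNReal.mul_ne_top ENNReal.ofReal_ne_top (measure_closedBall_lt_top).ne

theorem area (a b : ℂ) (hH0 : 0 < a.re * b.im - b.re * a.im) (t : ℝ) (ht : 0 ≤ t) :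
    volume.real {ζ : ℂ | ‖ζ.re • a + ζ.im • b‖ ≤ t} * (a.re * b.im - b.re * a.im) =
      Real.pi * t ^ 2 := by
  have h1 : volume {ζ : ℂ | ‖ζ.re • a + ζ.im • b‖ ≤ t} =
      ENNReal.ofReal ((a.re * b.im - b.re * a.im)⁻¹) * volume (closedBall (0 : ℂ) t) := by
    rw [area_set, Measure.addHaar_preimage_linearMap volume (by rw [det_T]; exact hH0.ne'),
      det_T, abs_of_pos (by positivity)]
  rw [measureReal_def, h1, Complex.volume_closedBall, ENNReal.toReal_mul, ENNReal.toReal_mul,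
    ENNReal.toReal_ofReal (by positivity), ENNReal.toReal_pow, ENNReal.toReal_ofReal ht]
  simp only [ENNReal.coe_toReal, NNReal.coe_real_pi]
  field_simp

theorem area_meas (a b : ℂ) (t : ℝ) :
    MeasurableSet {ζ : ℂ | ‖ζ.re • a + ζ.im • b‖ ≤ t} := by
  apply IsClosed.measurableSet
  exact isClosed_le (by fun_prop) continuous_const

theorem ff_int {a b c d : ℝ} (hab : a < b) (hcd : c < d) (x y : CC) (H : ℝ)
    (hH0 : 0 < x.1.re * y.1.im - y.1.re * x.1.im) (hH : x.1.re * y.1.im - y.1.re * x.1.im = H)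
    (hb : 0 ≤ b) :
    Integrable (fun ζ : ℂ => ff a b c d (ζ.re • x + ζ.im • y) * H) ∧
      ∫ ζ : ℂ, ff a b c d (ζ.re • x + ζ.im • y) * H ≤ Real.pi * b ^ 2 := by
  have hHp : 0 < H := hH ▸ hH0
  set U : Set ℂ := {ζ : ℂ | ‖ζ.re • x.1 + ζ.im • y.1‖ ≤ b} with hU
  have hUm : MeasurableSet U := area_meas x.1 y.1 b
  have hUi : Integrable (U.indicator fun _ => H) := by
    rw [integrable_indicator_iff hUm]
    exact integrableOn_const (area_lt x.1 y.1 hH0 b)
  have hle : ∀ ζ : ℂ, ff a b c d (ζ.re • x + ζ.im • y) * H ≤ U.indicator (fun _ => H) ζ := by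
    intro ζ
    by_cases hζ : ζ ∈ U
    · rw [indicator_of_mem hζ]
      calc _ ≤ 1 * H := by
            gcongr
            exact ff_le_one _ _ _ _ _
        _ = H := one_mul H
    · rw [indicator_of_notMem hζ]
      have : b ≤ ‖(ζ.re • x + ζ.im • y).1‖ := by
        by_contra hc
        push Not at hc
        exact hζ (by simpa [hU] using hc.le)
      rw [ff_zero hab hcd (Or.inl this), zero_mul]
  have hm : Continuous (fun ζ : ℂ => ff a b c d (ζ.re • x + ζ.im • y) * H) := by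
    have := ff_cont a b c d
    have h2 : Continuous fun ζ : ℂ => ζ.re • x + ζ.im • y := by fun_prop
    exact (this.comp h2).mul continuous_const
  have hi : Integrable (fun ζ : ℂ => ff a b c d (ζ.re • x + ζ.im • y) * H) := by
    refine hUi.mono' hm.aestronglyMeasurable (Eventually.of_forall fun ζ => ?_)
    rw [Real.norm_eq_abs, abs_of_nonneg (mul_nonneg (ff_nonneg _ _ _ _ _) hHp.le)]
    exact hle ζ
  refine ⟨hi, ?_⟩
  calc ∫ ζ : ℂ, ff a b c d (ζ.re • x + ζ.im • y) * H ≤ ∫ ζ : ℂ, U.indicator (fun _ => H) ζ :=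
        integral_mono hi hUi hle
    _ = volume.real U * H := by
        rw [integral_indicator hUm, setIntegral_const, smul_eq_mul]
    _ = Real.pi * b ^ 2 := by
        rw [← hH]
        exact area x.1 y.1 hH0 b hb

theorem ff_low {a b c d : ℝ} (hab : a < b) (hcd : c < d) (x y : CC) (H : ℝ)
    (hH0 : 0 < x.1.re * y.1.im - y.1.re * x.1.im) (hH : x.1.re * y.1.im - y.1.re * x.1.im = H)
    (ha : 0 ≤ a) (hc : ∀ ζ : ℂ, ‖(ζ.re • x + ζ.im • y).2‖ ≤ c * ‖(ζ.re • x + ζ.im • y).1‖)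
    (ha1 : a ≤ 1) (hc0 : 0 ≤ c) :
    Real.pi * a ^ 2 ≤ ∫ ζ : ℂ, ff a b c d (ζ.re • x + ζ.im • y) * H := by
  have hHp : 0 < H := hH ▸ hH0
  have hi := (ff_int hab hcd x y H hH0 hH (ha.trans hab.le)).1
  set U : Set ℂ := {ζ : ℂ | ‖ζ.re • x.1 + ζ.im • y.1‖ ≤ a} with hU
  have hUm : MeasurableSet U := area_meas x.1 y.1 a
  have hUi : Integrable (U.indicator fun _ => H) := by
    rw [integrable_indicator_iff hUm]
    exact integrableOn_const (area_lt x.1 y.1 hH0 a)
  have hle : ∀ ζ : ℂ, U.indicator (fun _ => H) ζ ≤ ff a b c d (ζ.re • x + ζ.im • y) * H := by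
    intro ζ
    by_cases hζ : ζ ∈ U
    · rw [indicator_of_mem hζ]
      have h1 : ‖(ζ.re • x + ζ.im • y).1‖ ≤ a := by simpa [hU] using hζ
      have h2 : ‖(ζ.re • x + ζ.im • y).2‖ ≤ c := by
        calc _ ≤ c * ‖(ζ.re • x + ζ.im • y).1‖ := hc ζ
          _ ≤ c * 1 := by
            gcongr
            exact h1.trans ha1
          _ = c := mul_one c
      rw [ff_one hab hcd h1 h2, one_mul]
    · rw [indicator_of_notMem hζ]
      exact mul_nonneg (ff_nonneg _ _ _ _ _) hHp.le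
  calc Real.pi * a ^ 2 = volume.real U * H := by
        rw [← hH]
        exact (area x.1 y.1 hH0 a ha).symm
    _ = ∫ ζ : ℂ, U.indicator (fun _ => H) ζ := by
        rw [integral_indicator hUm, setIntegral_const, smul_eq_mul]
    _ ≤ _ := integral_mono hUi hi hle

theorem one (h : SBox μ β κ L) (hX : Measurable X) (hYm : Measurable Y) (hn : ∀ p, ‖X p‖ = 1)
    {K : ℝ} (hY : ∀ p, ‖Y p‖ ≤ K)
    (hz : ∀ p, thz μ p (Y p) = I * thz μ p (X p)) (hw : ∀ p, thw β p (Y p) = I * thw β p (X p))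
    (R' : ℝ) (m : Measure CC) [IsFiniteMeasure m] (p : CC) (hp : ‖p.1‖ < R')
    (hfl : FlatAt m X Y p) (hA : (AA μ β X p).1 ≠ 0) (k : ℝ)
    (hk : ‖sp (AA μ β X) p‖ + ‖sp (AA μ β X) p * μ p - β p‖ < k) :
    Tendsto (fun s : ℝ => (hor μ (mm μ β X R' m) (AA μ β X)
      (ball p.1 s ×ˢ ball p.2 (k * s))).toReal / (Real.pi * s ^ 2)) (𝓝[>] 0) (𝓝 1) := by
  obtain ⟨C₀, c₀, hc₀, hC₀, Hal⟩ := CylAlg_895.alg0 κ L K h.box.κ0 h.box.κ1 h.box.L0
  have hH0 : 0 < hh (X p) (Y p) := AA_fst_ne h p (hn p) (hz p) (hw p) hA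
  have hsl := slope_le h p (hz p) (hw p) (hn p) hA
  set k₀ := ‖sp (AA μ β X) p‖ + ‖sp (AA μ β X) p * μ p - β p‖ with hk₀
  have hk₀0 : 0 ≤ k₀ := by positivity
  have hom0 : ∀ q, 0 ≤ hform (X q) (Y q) := by
    intro q
    rw [hform_apply]
    exact (Hal μ β h q (X q) (Y q) (hn q) (hY q) (hz q) (hw q)).1
  have homu : ∀ q, |hform (X q) (Y q)| ≤ C₀ := by
    intro q
    rw [abs_of_nonneg (hom0 q), hform_apply]
    exact (Hal μ β h q (X q) (Y q) (hn q) (hY q) (hz q) (hw q)).2.1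
  have homv : ∀ v, hform v v = 0 := by
    intro v
    rw [hform_apply]
    simp only [hh]
    ring
  have hlim : ∀ {a b c d : ℝ}, a < b → c < d →
      Tendsto (fun r : ℝ => (r ^ 2)⁻¹ * ∫ q, ff a b c d (r⁻¹ • (q - p)) * hform (X q) (Y q) ∂m)
      (𝓝[>] 0) (𝓝 (∫ ζ : ℂ, ff a b c d (ζ.re • X p + ζ.im • Y p) * hh (X p) (Y p))) := by
    intro a b c d hab hcd
    have := flat_form hfl (ff a b c d) (ff_cont a b c d) (ff_cs hab hcd) hform homv
    rwa [hform_apply] at this
  rw [Metric.tendsto_nhds]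
  intro ε hε
  set δ : ℝ := min (1 / 2) (ε / 4) with hδ
  have hδ0 : 0 < δ := by positivity
  have hδ1 : δ ≤ 1 / 2 := min_le_left _ _
  have hδ2 : δ ≤ ε / 4 := min_le_right _ _
  have hup := hlim (a := 1) (b := 1 + δ) (c := k) (d := k + 1) (by linarith) (by linarith)
  have hlo := hlim (a := 1 - δ) (b := 1) (c := k₀) (d := k) (by linarith) hk
  have hJu := (ff_int (a := 1) (b := 1 + δ) (c := k) (d := k + 1) (by linarith) (by linarith)
    (X p) (Y p) (hh (X p) (Y p)) hH0 rfl (by linarith)).2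
  have hJl := ff_low (a := 1 - δ) (b := 1) (c := k₀) (d := k) (by linarith) hk
    (X p) (Y p) (hh (X p) (Y p)) hH0 rfl (by linarith) hsl (by linarith) hk₀0
  have hpi := Real.pi_pos
  have hu1 : (∫ ζ : ℂ, ff 1 (1 + δ) k (k + 1) (ζ.re • X p + ζ.im • Y p) * hh (X p) (Y p)) <
      Real.pi * (1 + ε) := by
    refine hJu.trans_lt ?_
    gcongr
    nlinarith
  have hl1 : Real.pi * (1 - ε) <
      ∫ ζ : ℂ, ff (1 - δ) 1 k₀ k (ζ.re • X p + ζ.im • Y p) * hh (X p) (Y p) := by
    refine lt_of_lt_of_le ?_ hJl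
    gcongr
    nlinarith
  have hsm : ∀ᶠ s in 𝓝[>] (0 : ℝ), s < R' - ‖p.1‖ :=
    nhdsWithin_le_nhds (gt_mem_nhds (by linarith))
  filter_upwards [hup.eventually (gt_mem_nhds hu1), hlo.eventually (lt_mem_nhds hl1), hsm,
    self_mem_nhdsWithin] with s hs1 hs2 hs3 hs0
  have hs0 : 0 < s := hs0
  set E : Set CC := ball p.1 s ×ˢ ball p.2 (k * s) with hE
  have hEm : MeasurableSet E := (isOpen_ball.prod isOpen_ball).measurableSet
  have hES : E ⊆ SS R' := by
    intro q hq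
    have h1 := hq.1
    rw [mem_ball, dist_eq_norm] at h1
    have h2 : ‖q.1‖ ≤ ‖q.1 - p.1‖ + ‖p.1‖ := by
      calc ‖q.1‖ = ‖(q.1 - p.1) + p.1‖ := by rw [sub_add_cancel]
        _ ≤ _ := norm_add_le _ _
    change ‖q.1‖ < R'
    linarith
  have homm := omega_meas hX hYm hform
  have homi : Integrable (fun q => hform (X q) (Y q)) m :=
    Integrable.of_bound homm.aestronglyMeasurable C₀ (Eventually.of_forall fun q => by
      rw [Real.norm_eq_abs]; exact homu q)
  have hhor : (hor μ (mm μ β X R' m) (AA μ β X) E).toReal =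
      ∫ q, E.indicator (fun q => hform (X q) (Y q)) q ∂m := by
    rw [hor_mm h hX hn hz hw R' m E hEm hES, integral_indicator hEm,
      integral_eq_lintegral_of_nonneg_ae (Eventually.of_forall hom0)
        homm.aestronglyMeasurable]
    simp only [hform_apply]
  have hIi : Integrable (E.indicator fun q => hform (X q) (Y q)) m := homi.indicator hEm
  have hsc : ∀ q : CC, ‖(s⁻¹ • (q - p)).1‖ = s⁻¹ * ‖q.1 - p.1‖ ∧
      ‖(s⁻¹ • (q - p)).2‖ = s⁻¹ * ‖q.2 - p.2‖ := by
    intro q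
    constructor
    · rw [Prod.smul_fst, norm_smul, norm_inv, Real.norm_eq_abs, abs_of_pos hs0]; rfl
    · rw [Prod.smul_snd, norm_smul, norm_inv, Real.norm_eq_abs, abs_of_pos hs0]; rfl
  have hle1 : ∫ q, E.indicator (fun q => hform (X q) (Y q)) q ∂m ≤
      ∫ q, ff 1 (1 + δ) k (k + 1) (s⁻¹ • (q - p)) * hform (X q) (Y q) ∂m := by
    refine integral_mono hIi (int_F hX hYm hform homu (ff_cont _ _ _ _) (ff_nonneg _ _ _ _)
      (ff_le_one _ _ _ _) s p) fun q => ?_
    by_cases hq : q ∈ E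
    · simp only [indicator_of_mem hq]
      obtain ⟨hq1, hq2⟩ := hq
      rw [mem_ball, dist_eq_norm] at hq1 hq2
      rw [ff_one (by linarith) (by linarith), one_mul]
      · rw [(hsc q).1, inv_mul_le_iff₀ hs0]
        linarith
      · rw [(hsc q).2, inv_mul_le_iff₀ hs0]
        linarith
    · simp only [indicator_of_notMem hq]
      exact mul_nonneg (ff_nonneg _ _ _ _ _) (hom0 q)
  have hle2 : ∫ q, ff (1 - δ) 1 k₀ k (s⁻¹ • (q - p)) * hform (X q) (Y q) ∂m ≤
      ∫ q, E.indicator (fun q => hform (X q) (Y q)) q ∂m := by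
    refine integral_mono (int_F hX hYm hform homu (ff_cont _ _ _ _) (ff_nonneg _ _ _ _)
      (ff_le_one _ _ _ _) s p) hIi fun q => ?_
    by_cases hq : q ∈ E
    · simp only [indicator_of_mem hq]
      calc _ ≤ 1 * hform (X q) (Y q) := by
            gcongr
            · exact hom0 q
            · exact ff_le_one _ _ _ _ _
        _ = _ := one_mul _
    · simp only [indicator_of_notMem hq]
      rw [ff_zero (by linarith) hk, zero_mul]
      by_contra hc
      push Not at hc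
      apply hq
      rw [(hsc q).1, inv_mul_lt_iff₀ hs0, (hsc q).2, inv_mul_lt_iff₀ hs0] at hc
      refine ⟨?_, ?_⟩
      · rw [mem_ball, dist_eq_norm]; linarith [hc.1]
      · rw [mem_ball, dist_eq_norm]; linarith [hc.2]
  rw [hhor]
  set Q := ∫ q, E.indicator (fun q => hform (X q) (Y q)) q ∂m
  have hs2' : 0 < s ^ 2 := by positivity
  have hs1 : (s ^ 2)⁻¹ * ∫ q, ff 1 (1 + δ) k (k + 1) (s⁻¹ • (q - p)) * hform (X q) (Y q) ∂m <
    Real.pi * (1 + ε) := hs1
  have hs2 : Real.pi * (1 - ε) <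
    (s ^ 2)⁻¹ * ∫ q, ff (1 - δ) 1 k₀ k (s⁻¹ • (q - p)) * hform (X q) (Y q) ∂m := hs2
  rw [inv_mul_lt_iff₀ hs2'] at hs1
  rw [lt_inv_mul_iff₀ hs2'] at hs2
  rw [Real.dist_eq, abs_lt]
  have hps : 0 < Real.pi * s ^ 2 := by positivity
  constructor
  · rw [lt_sub_iff_add_lt, lt_div_iff₀ hps]
    calc (-ε + 1) * (Real.pi * s ^ 2) = s ^ 2 * (Real.pi * (1 - ε)) := by ring
      _ < _ := hs2
      _ ≤ Q := hle2
  · rw [sub_lt_iff_lt_add, div_lt_iff₀ hps]
    calc Q ≤ _ := hle1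
      _ < _ := hs1
      _ = (ε + 1) * (Real.pi * s ^ 2) := by ring

end Fl

/-! ### the support -/

section Su

variable {μ β : CC → ℂ} {κ L : ℝ} {X : CC → CC}

theorem ball_sub {p : CC} {R' r : ℝ} (hr : ‖p.1‖ + r ≤ R') : ball p r ⊆ SS R' := by
  intro q hq
  rw [mem_ball, dist_eq_norm] at hq
  have h1 : ‖q.1 - p.1‖ ≤ ‖q - p‖ := norm_fst_le (q - p)
  have h2 : ‖q.1‖ ≤ ‖q.1 - p.1‖ + ‖p.1‖ := by
    calc ‖q.1‖ = ‖(q.1 - p.1) + p.1‖ := by rw [sub_add_cancel]
      _ ≤ _ := norm_add_le _ _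
  change ‖q.1‖ < R'
  linarith

theorem inSupp_of (h : SBox μ β κ L) (hn : ∀ p, ‖X p‖ = 1) (R' : ℝ) (m : Measure CC) (p : CC)
    (hp : p ∈ msupp (mm μ β X R' m)) : InSupp m p := by
  intro r hr
  have h1 := hp r hr
  have h2 := mm_le h hn R' m (ball p r)
  by_contra hc
  rw [not_lt, nonpos_iff_eq_zero] at hc
  rw [hc, mul_zero] at h2
  exact absurd h1 (not_lt.2 h2)

theorem inSupp_iff (h : SBox μ β κ L) (hn : ∀ p, ‖X p‖ = 1) (R' : ℝ) (m : Measure CC) (p : CC)
    (hp : ‖p.1‖ < R') : p ∈ msupp (mm μ β X R' m) ↔ InSupp m p := by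
  refine ⟨inSupp_of h hn R' m p, fun hs r hr => ?_⟩
  set r' := min r (R' - ‖p.1‖) with hr'
  have hr0 : 0 < r' := lt_min hr (by linarith)
  have hsub : ball p r' ⊆ SS R' := ball_sub (by
    have := min_le_right r (R' - ‖p.1‖)
    linarith)
  have h1 := le_mm h hn R' m (ball p r') hsub
  have h2 : 0 < ENNReal.ofReal (((1 - κ) / (2 * (1 + L))) ^ 2) * m (ball p r') :=
    ENNReal.mul_pos (ENNReal.ofReal_pos.2 (n0_pos h)).ne' (hs r' hr0).ne'
  calc 0 < _ := h2
    _ ≤ _ := h1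
    _ ≤ _ := measure_mono (ball_subset_ball (min_le_left _ _))

end Su

theorem fderiv_zero_out {s : CC → (CC →L[ℝ] ℝ)} {R₁ R' : ℝ} (h1 : R₁ < R')
    (hs : ∀ x : CC, R₁ ≤ ‖x.1‖ → s x = 0) (p : CC) (hp : p ∉ SS R') : fderiv ℝ s p = 0 := by
  have hp' : R' ≤ ‖p.1‖ := not_lt.1 hp
  have hev : s =ᶠ[𝓝 p] fun _ => 0 := by
    have : {q : CC | R₁ < ‖q.1‖} ∈ 𝓝 p :=
      (isOpen_lt continuous_const continuous_fst.norm).mem_nhds (by
        change R₁ < ‖p.1‖
        linarith)
    filter_upwards [this] with q hq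
    have hq : R₁ < ‖q.1‖ := hq
    exact hs q hq.le
  rw [hev.fderiv_eq]
  simp

theorem conv : CONV := by
  intro μ β κ L h R ρ K m X Y hC hR hR1 hρ hρ2 R' hR' hRR
  refine ⟨⟨h.box, h.smμ, h.smβ⟩, mm μ β X R' m, AA μ β X, ?_⟩
  have hμ : Measurable μ := h.smμ.continuous.measurable
  have hβ : Measurable β := h.smβ.continuous.measurable
  have := hC.fin
  have hn := hC.nX
  have hz : ∀ p, thz μ p (Y p) = I * thz μ p (X p) := hC.jz
  have hw : ∀ p, thw β p (Y p) = I * thw β p (X p) := hC.jw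
  have hK0 : 0 ≤ K := (norm_nonneg _).trans (hC.nY 0)
  have hB : 0 < 4 + (1 + L) ^ 2 := by positivity
  obtain ⟨c₀, hc₀, r₀, hr₀, hlow⟩ := hC.low R' hRR
  have hn0 := n0_pos h
  set n₀ := ((1 - κ) / (2 * (1 + L))) ^ 2 with hn₀
  refine ⟨(4 + (1 + L) ^ 2) * K + 1, n₀ * (c₀ * min 1 (r₀ ^ 2)), ?_, ?_, ?_⟩
  · constructor
    · exact hR'
    · linarith
    · positivity
    · have : 0 < min 1 (r₀ ^ 2) := lt_min one_pos (by positivity)
      positivity
    · calc mm μ β X R' m univ ≤ _ := mm_le h hn R' m univ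
        _ < ⊤ := ENNReal.mul_lt_top ENNReal.ofReal_lt_top (measure_lt_top m univ)
    · have h1 : ∀ᵐ x ∂(m.restrict (SS R')), ‖x.1‖ < R' ∧ ‖x.2‖ ≤ 1 / 2 := by
        filter_upwards [ae_restrict_mem (SS_meas R'), ae_restrict_of_ae hC.supp] with x hx1 hx2
        exact ⟨hx1, hx2.2.trans hρ2⟩
      exact (withDensity_absolutelyContinuous _ _).ae_le h1
    · exact AA_meas hμ hβ hC.mX
    · exact fun x => AA_unit h x (hn x)
    · rintro s hs ⟨R₁, hR₁, hs0⟩
      have hR₁0 : R₁ < R := hR₁.trans hRR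
      have h1 := mm_form h hC.mX hn hz hw R' m
        (fun p v w => fderiv ℝ s p v w - fderiv ℝ s p w v) (by
          intro p r v w
          simp only [map_smul, smul_apply, smul_eq_mul]
          ring) (by
          intro p hp
          rw [fderiv_zero_out hR₁ hs0 p hp]
          simp)
      have h2 : ∫ x, dS μ β (AA μ β X) s x ∂(mm μ β X R' m) =
          ∫ p, (fderiv ℝ s p (X p) (Y p) - fderiv ℝ s p (Y p) (X p)) ∂m := h1
      rw [h2]
      -- the cut-off in the fibre direction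
      let χ : ContDiffBump (0 : ℂ) := ⟨1, 2, by norm_num, by norm_num⟩
      have hχ : ContDiff ℝ ∞ (fun x : CC => χ x.2) := χ.contDiff.comp contDiff_snd
      set l : CC → (CC →L[ℝ] ℝ) := fun x => χ x.2 • s x with hl
      have hlc : ContDiff ℝ ∞ l := hχ.smul hs
      have hl0 : ∀ x : CC, (R₁ ≤ ‖x.1‖ ∨ 2 ≤ ‖x.2‖) → l x = 0 := by
        rintro x (hx | hx)
        · simp only [hl, hs0 x hx, smul_zero]
        · have : χ x.2 = 0 := χ.zero_of_le_dist (by simpa using hx)
          simp only [hl, this, zero_smul]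
      have hsup : Function.support l ⊆ closedBall (0 : ℂ) R₁ ×ˢ closedBall (0 : ℂ) 2 := by
        intro x hx
        by_contra hc
        apply hx
        apply hl0
        by_contra hc2
        push Not at hc2
        exact hc ⟨by simpa using hc2.1.le, by simpa using hc2.2.le⟩
      have hcomp : IsCompact (closedBall (0 : ℂ) R₁ ×ˢ closedBall (0 : ℂ) 2) :=
        (isCompact_closedBall _ _).prod (isCompact_closedBall _ _)
      have hts : tsupport l ⊆ closedBall (0 : ℂ) R₁ ×ˢ closedBall (0 : ℂ) 2 :=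
        closure_minimal hsup hcomp.isClosed
      have h3 := hC.closed l hlc (hcomp.of_isClosed_subset (isClosed_tsupport l) hts) (by
        refine hts.trans (prod_mono ?_ (subset_univ _))
        exact closedBall_subset_ball hR₁0)
      rw [← h3]
      refine integral_congr_ae ?_
      filter_upwards [hC.supp] with p hp
      have hev : s =ᶠ[𝓝 p] l := by
        have : {q : CC | ‖q.2‖ < 1} ∈ 𝓝 p :=
          (isOpen_lt continuous_snd.norm continuous_const).mem_nhds (by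
            change ‖p.2‖ < 1
            linarith [hp.2])
        filter_upwards [this] with q hq
        have hq : ‖q.2‖ < 1 := hq
        have : χ q.2 = 1 := χ.one_of_mem_closedBall (by simpa using hq.le)
        simp only [hl, this, one_smul]
      rw [hev.fderiv_eq]
    · intro x r hr
      calc mm μ β X R' m (ball x r) ≤ _ := mm_le h hn R' m _
        _ ≤ ENNReal.ofReal (4 + (1 + L) ^ 2) * ENNReal.ofReal (K * r ^ 2) := by
          gcongr
          calc m (ball x r) ≤ m (closedBall x r) := measure_mono ball_subset_closedBall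
            _ = ENNReal.ofReal (m.real (closedBall x r)) := by rw [ofReal_measureReal]
            _ ≤ _ := ENNReal.ofReal_le_ofReal (hC.up x r hr)
        _ = ENNReal.ofReal ((4 + (1 + L) ^ 2) * (K * r ^ 2)) := (ENNReal.ofReal_mul hB.le).symm
        _ ≤ _ := by
          apply ENNReal.ofReal_le_ofReal
          nlinarith [sq_nonneg r]
    · intro x hx r hr hxr
      have hxs : InSupp m x := inSupp_of h hn R' m x hx
      have hx1 : x.1 ∈ closedBall (0 : ℂ) R' := by
        rw [mem_closedBall_zero_iff]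
        linarith
      have hsub : ball x r ⊆ SS R' := ball_sub hxr.le
      have hr1 : r ≤ 1 := by
        have := norm_nonneg x.1
        linarith
      have h1 : c₀ * min 1 (r₀ ^ 2) * r ^ 2 ≤ m.real (ball x r) := by
        rcases le_total r r₀ with hrr | hrr
        · calc c₀ * min 1 (r₀ ^ 2) * r ^ 2 ≤ c₀ * 1 * r ^ 2 := by
                gcongr
                exact min_le_left _ _
            _ = c₀ * r ^ 2 := by ring
            _ ≤ _ := hlow x hx1 hxs r hr hrr
        · calc c₀ * min 1 (r₀ ^ 2) * r ^ 2 ≤ c₀ * r₀ ^ 2 * 1 := by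
                gcongr
                · exact min_le_right _ _
                · nlinarith
            _ = c₀ * r₀ ^ 2 := by ring
            _ ≤ m.real (ball x r₀) := hlow x hx1 hxs r₀ hr₀ le_rfl
            _ ≤ _ := measureReal_mono (ball_subset_ball hrr)
      calc ENNReal.ofReal (n₀ * (c₀ * min 1 (r₀ ^ 2)) * r ^ 2)
          ≤ ENNReal.ofReal (n₀ * m.real (ball x r)) := by
            apply ENNReal.ofReal_le_ofReal
            calc n₀ * (c₀ * min 1 (r₀ ^ 2)) * r ^ 2 = n₀ * (c₀ * min 1 (r₀ ^ 2) * r ^ 2) := by ring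
              _ ≤ _ := by gcongr
        _ = ENNReal.ofReal n₀ * m (ball x r) := by
            rw [ENNReal.ofReal_mul hn0.le, ofReal_measureReal]
        _ ≤ _ := le_mm h hn R' m _ hsub
    · have h1 : ∀ᵐ x ∂(m.restrict (SS R')), Flat μ β (mm μ β X R' m) (AA μ β X) x := by
        filter_upwards [ae_restrict_mem (SS_meas R'), ae_restrict_of_ae hC.flat] with x hx1 hx2
        constructor
        · intro ε hε
          exact plane h hC.mX hC.mY hn hC.nY hz hw R' m x hx2 ε hε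
        · intro hA k hk
          exact one h hC.mX hC.mY hn hC.nY hz hw R' m x hx1 hx2 hA k hk
      exact (withDensity_absolutelyContinuous _ _).ae_le h1
  · exact fun p hp => inSupp_iff h hn R' m p hp
  · rintro b hb hb0 ⟨R'', hR'', hb1⟩
    refine (mm_form h hC.mX hn hz hw R' m (fun p v w => b p v w) ?_ ?_).symm
    · intro p r v w
      simp only [map_smul, smul_apply, smul_eq_mul]
      ring
    · intro p hp
      have hp' : R' ≤ ‖p.1‖ := not_lt.1 hp
      rw [hb1 p (by linarith)]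
      simp


end

end Crest.Agent.R235.Reg_CONV_303
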