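import Crest.Agent.R235.CylDef2_522
import Crest.Agent.R240.Loc5A

/-!
Row 235, PACKAGE REG, A1.0 (helper522): assembly of FLATW (helper843):
density one ⟹ flat current.
-/

set_option autoImplicit false
set_option maxSynthPendingDepth 3

open MeasureTheory Metric Set Filter
open scoped ContDiff Topology Manifold ENNReal NNReal

namespace Crest.Agent.R235.Reg_FLATW_843

open Crest.Agent.R240 Crest.Agent.R235.CurDefs_132 Crest.Agent.R235.Reg_522

noncomputable section

/-! ### pointwise algebra -/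

section Alg

variable {J : E4 →L[ℝ] E4} {F φ : Bil}

lemma line_diag (hJ : ∀ v, J (J v) = -v) {b : Bil} (hb : Alt b) (X : E4) (s t : ℝ) :
    b (s • X + t • J X) (J (s • X + t • J X)) = (s ^ 2 + t ^ 2) * b X (J X) := by
  have h1 := hb X
  have h2 := hb (J X)
  have h3 := hb.swap (J X) X
  have e : J (s • X + t • J X) = s • J X - t • X := by
    rw [map_add, map_smul, map_smul, hJ]
    simp [sub_eq_add_neg]
  rw [e]
  simp only [map_add, map_smul, map_sub, add_apply, smul_apply, smul_eq_mul]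
  rw [h1, h2, h3]
  ring

lemma wv_apply (θ : E4 →L[ℝ] ℝ) (j : Fin 4) : (wv F φ θ) j = q F φ (wed (pr j) θ) := by
  unfold wv
  fin_cases j <;> simp [Fin.sum_univ_four]

/-- the vector `wv` lies in the line. -/
lemma wv_eq {X : E4} (h : ∀ b : Bil, Alt b → q F φ b * F X (J X) = b X (J X)) (i : Fin 4) :
    F X (J X) • wv F φ (pr i) = (J X) i • X - X i • J X := by
  ext j
  have h1 := h (wed (pr j) (pr i)) (wed_alt _ _)
  have e1 : (F X (J X) • wv F φ (pr i)) j = F X (J X) * (wv F φ (pr i)) j := rfl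
  have e2 : ((J X) i • X - X i • J X) j = (J X) i * X j - X i * (J X) j := rfl
  rw [e1, e2, wv_apply, mul_comm, h1, wed_apply]
  simp only [pr_apply]
  ring

lemma exists_wv_ne {X : E4} (hF : Alt F) (hX : 0 < F X (J X))
    (h : ∀ b : Bil, Alt b → q F φ b * F X (J X) = b X (J X)) : ∃ i, wv F φ (pr i) ≠ 0 := by
  by_contra hc
  push Not at hc
  have hX0 : X ≠ 0 := by
    rintro rfl
    simp at hX
  have h1 : ∃ i, X i ≠ 0 := by
    by_contra h2
    push Not at h2
    apply hX0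
    ext i
    simpa using h2 i
  obtain ⟨i, hi⟩ := h1
  have h2 := wv_eq h i
  rw [hc i, smul_zero] at h2
  have h3 : J X = ((J X) i / X i) • X := by
    have h4 : X i • J X = (J X) i • X := by
      rw [eq_comm, sub_eq_zero] at h2
      exact h2.symm
    rw [div_eq_inv_mul, mul_smul, ← h4, smul_smul, inv_mul_cancel₀ hi, one_smul]
  have h5 : F X (J X) = 0 := by
    rw [h3, map_smul, hF X, smul_zero]
  linarith

/-- all the data of a degenerate form, for one vector `X`. -/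
structure Deg (J : E4 →L[ℝ] E4) (F φ : Bil) (X : E4) : Prop where
  form : ∀ b : Bil, Alt b → q F φ b * F X (J X) = b X (J X)
  zero : φ X (J X) = 0

lemma deg_of_line (hJ : ∀ v, J (J v) = -v) (hF : Alt F) (hφ : Alt φ) {X : E4}
    (h : Deg J F φ X) (s t : ℝ) : Deg J F φ (s • X + t • J X) where
  form b hb := by
    rw [line_diag hJ hF, line_diag hJ hb, ← h.form b hb]; ring
  zero := by rw [line_diag hJ hφ, h.zero, mul_zero]

end Alg

/-! ### the measurable choice of `X` -/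

section Choice

variable (D : LC)

/-- candidates. -/
def wi (i : Fin 4) (x : E4) : E4 := wv (D.F x) (D.φ x) (pr i)

/-- the set where the `i`-th candidate is good. -/
def Sg (i : Fin 4) : Set E4 := {x | wi D i x ≠ 0 ∧ D.φ x (wi D i x) (D.J x (wi D i x)) = 0}

open Classical in
/-- the vector field. -/
def XX (x : E4) : E4 :=
  if x ∈ Sg D 0 then ‖wi D 0 x‖⁻¹ • wi D 0 x
  else if x ∈ Sg D 1 then ‖wi D 1 x‖⁻¹ • wi D 1 x
  else if x ∈ Sg D 2 then ‖wi D 2 x‖⁻¹ • wi D 2 x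
  else if x ∈ Sg D 3 then ‖wi D 3 x‖⁻¹ • wi D 3 x
  else ee 0

lemma norm_normalize {v : E4} (hv : v ≠ 0) : ‖‖v‖⁻¹ • v‖ = 1 := by
  rw [norm_smul, norm_inv, norm_norm, inv_mul_cancel₀ (norm_ne_zero_iff.2 hv)]

lemma norm_XX (x : E4) : ‖XX D x‖ = 1 := by
  unfold XX
  split_ifs with h0 h1 h2 h3
  · exact norm_normalize h0.1
  · exact norm_normalize h1.1
  · exact norm_normalize h2.1
  · exact norm_normalize h3.1
  · exact norm_ee 0

lemma zero_XX {x : E4} (h : ∃ i, x ∈ Sg D i) : D.φ x (XX D x) (D.J x (XX D x)) = 0 := by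
  have hz : ∀ i, x ∈ Sg D i →
      D.φ x (‖wi D i x‖⁻¹ • wi D i x) (D.J x (‖wi D i x‖⁻¹ • wi D i x)) = 0 := by
    intro i hi
    simp only [map_smul, smul_apply, smul_eq_mul]
    rw [hi.2]; ring
  obtain ⟨i, hi⟩ := h
  unfold XX
  split_ifs with h0 h1 h2 h3
  · exact hz 0 h0
  · exact hz 1 h1
  · exact hz 2 h2
  · exact hz 3 h3
  · exfalso
    fin_cases i
    · exact h0 hi
    · exact h1 hi
    · exact h2 hi
    · exact h3 hi

/-- at a degenerate point `XX` is in the line. -/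
lemma deg_XX (hA : FWALG) {x : E4} (hd : ∃ v, v ≠ 0 ∧ D.φ x v (D.J x v) = 0) :
    Deg (D.J x) (D.F x) (D.φ x) (XX D x) := by
  have hb := D.bd x
  obtain ⟨X, -, hX, hf, hl⟩ := hA _ _ _ _ hb _ (D.pos x) (D.nrm x) hd
  have hX0 : Deg (D.J x) (D.F x) (D.φ x) X := ⟨hf, (hl X).2 ⟨1, 0, by simp⟩⟩
  obtain ⟨i, hi⟩ := exists_wv_ne hb.spos.alt hX hf
  have h1 : x ∈ Sg D i := by
    refine ⟨hi, ?_⟩
    rw [hl]
    refine ⟨(D.F x X (D.J x X))⁻¹ * (D.J x X) i, (D.F x X (D.J x X))⁻¹ * -(X i), ?_⟩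
    have h2 := wv_eq hf i
    have h3 : wi D i x = (D.F x X (D.J x X))⁻¹ • ((D.J x X) i • X - X i • D.J x X) := by
      rw [← h2, smul_smul, inv_mul_cancel₀ hX.ne', one_smul]; rfl
    rw [h3, smul_sub, smul_smul, smul_smul, sub_eq_add_neg, ← neg_smul]
    congr 2
    ring
  obtain ⟨s, t, hst⟩ := (hl (XX D x)).1 (zero_XX D ⟨i, h1⟩)
  rw [hst]
  exact deg_of_line hb.sq hb.spos.alt (D.pos x).alt hX0 s t

/-! measurability -/

lemma meas_clm {X G : Type*} [MeasurableSpace X] [NormedAddCommGroup G] [NormedSpace ℝ G]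
    [MeasurableSpace G] [BorelSpace G] {A : X → E4 →L[ℝ] G} {v : X → E4} (hA : Measurable A)
    (hv : Measurable v) : Measurable fun x => A x (v x) := by
  have h : Continuous fun p : (E4 →L[ℝ] G) × E4 => p.1 p.2 :=
    isBoundedBilinearMap_apply.continuous
  exact h.measurable.comp (hA.prodMk hv)

lemma meas_J : Measurable D.J := D.smJ.continuous.measurable
lemma meas_F : Measurable D.F := D.smF.continuous.measurable

lemma meas_q {b : E4 → Bil} (hb : Measurable b) :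
    Measurable fun x => q (D.F x) (D.φ x) (b x) :=
  (Loc5.measurable_W D.meas hb).div (Loc5.measurable_W (meas_F D) (meas_F D))

lemma meas_wi (i : Fin 4) : Measurable (wi D i) := by
  have h : (wi D i) = fun x => ∑ j : Fin 4, q (D.F x) (D.φ x) (wed (pr j) (pr i)) • ee j := rfl
  rw [h]
  refine Finset.measurable_sum _ fun j _ => ?_
  exact (meas_q D measurable_const).smul_const _

lemma meas_Sg (i : Fin 4) : MeasurableSet (Sg D i) := by
  have h1 : MeasurableSet {x | wi D i x ≠ 0} := by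
    have := (measurableSet_eq_fun (meas_wi D i) measurable_const (g := fun _ => (0 : E4)))
    exact this.compl
  have h2 : Measurable fun x => D.φ x (wi D i x) (D.J x (wi D i x)) :=
    meas_clm (meas_clm D.meas (meas_wi D i)) (meas_clm (meas_J D) (meas_wi D i))
  exact h1.inter (measurableSet_eq_fun h2 measurable_const)

lemma meas_XX : Measurable (XX D) := by
  have h : ∀ i, Measurable fun x => ‖wi D i x‖⁻¹ • wi D i x := fun i =>
    ((meas_wi D i).norm.inv).smul (meas_wi D i)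
  unfold XX
  exact Measurable.ite (meas_Sg D 0) (h 0) (Measurable.ite (meas_Sg D 1) (h 1)
    (Measurable.ite (meas_Sg D 2) (h 2) (Measurable.ite (meas_Sg D 3) (h 3) measurable_const)))

/-- the normalising factor. -/
def fx (x : E4) : ℝ := D.F x (XX D x) (D.J x (XX D x))

lemma fx_lo (x : E4) : D.m ≤ fx D x := by
  have := (D.bd x).lo (XX D x)
  rw [norm_XX, one_pow, mul_one] at this
  exact this

lemma fx_hi (x : E4) : fx D x ≤ D.M := by
  have := (D.bd x).hi (XX D x)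
  rw [norm_XX, one_pow, mul_one] at this
  exact this

lemma m_pos : 0 < D.m := (D.bd 0).m_pos
lemma M_pos : 0 < D.M := (D.bd 0).M_pos

lemma fx_pos (x : E4) : 0 < fx D x := (m_pos D).trans_le (fx_lo D x)

lemma meas_fx : Measurable (fx D) :=
  meas_clm (meas_clm (meas_F D) (meas_XX D)) (meas_clm (meas_J D) (meas_XX D))

end Choice


/-! ### the measure -/

section Meas

variable (D : LC)

/-- the ball. -/
def B2 : Set E4 := ball D.x0 (2 * D.R)

lemma isOpen_B2 : IsOpen (B2 D) := isOpen_ball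
lemma meas_B2 : MeasurableSet (B2 D) := measurableSet_ball

/-- the density. -/
def dn (x : E4) : ℝ≥0 := Real.toNNReal (fx D x)⁻¹

lemma meas_dn : Measurable (dn D) := (meas_fx D).inv.real_toNNReal

lemma coe_dn (x : E4) : (dn D x : ℝ) = (fx D x)⁻¹ :=
  Real.coe_toNNReal _ (inv_nonneg.2 (fx_pos D x).le)

/-- the measure. -/
def mm : Measure E4 := (D.s.restrict (B2 D)).withDensity (fun x => (dn D x : ℝ≥0∞))

lemma mm_le {A : Set E4} (hA : MeasurableSet A) : mm D A ≤ ENNReal.ofReal D.m⁻¹ * D.s A := by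
  unfold mm
  rw [withDensity_apply _ hA]
  calc ∫⁻ x in A, (dn D x : ℝ≥0∞) ∂(D.s.restrict (B2 D))
      ≤ ∫⁻ _ in A, ENNReal.ofReal D.m⁻¹ ∂(D.s.restrict (B2 D)) := by
        refine lintegral_mono fun x => ?_
        change ENNReal.ofReal (fx D x)⁻¹ ≤ _
        exact ENNReal.ofReal_le_ofReal (inv_anti₀ (m_pos D) (fx_lo D x))
    _ = ENNReal.ofReal D.m⁻¹ * (D.s.restrict (B2 D)) A := by
        rw [lintegral_const, Measure.restrict_apply_univ]
    _ ≤ ENNReal.ofReal D.m⁻¹ * D.s A := by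
        gcongr
        exact Measure.restrict_le_self

lemma mm_ge {A : Set E4} (hA : MeasurableSet A) :
    ENNReal.ofReal D.M⁻¹ * D.s (A ∩ B2 D) ≤ mm D A := by
  unfold mm
  rw [withDensity_apply _ hA]
  calc ENNReal.ofReal D.M⁻¹ * D.s (A ∩ B2 D)
      = ∫⁻ _ in A, ENNReal.ofReal D.M⁻¹ ∂(D.s.restrict (B2 D)) := by
        rw [lintegral_const, Measure.restrict_apply_univ, Measure.restrict_apply hA]
    _ ≤ ∫⁻ x in A, (dn D x : ℝ≥0∞) ∂(D.s.restrict (B2 D)) := by
        refine lintegral_mono fun x => ?_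
        change _ ≤ ENNReal.ofReal (fx D x)⁻¹
        exact ENNReal.ofReal_le_ofReal (inv_anti₀ (fx_pos D x) (fx_hi D x))

instance fin_s : IsFiniteMeasure D.s := D.fin

instance fin_mm : IsFiniteMeasure (mm D) where
  measure_univ_lt_top := (mm_le D MeasurableSet.univ).trans_lt
    (ENNReal.mul_lt_top ENNReal.ofReal_lt_top (measure_lt_top _ _))

lemma mm_real_le {A : Set E4} (hA : MeasurableSet A) : (mm D).real A ≤ D.m⁻¹ * D.s.real A := by
  have h := ENNReal.toReal_mono (ENNReal.mul_lt_top ENNReal.ofReal_lt_top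
    (measure_lt_top D.s A)).ne (mm_le D hA)
  rw [ENNReal.toReal_mul, ENNReal.toReal_ofReal (inv_nonneg.2 (m_pos D).le)] at h
  exact h

lemma mm_real_ge {A : Set E4} (hA : MeasurableSet A) :
    D.M⁻¹ * D.s.real (A ∩ B2 D) ≤ (mm D).real A := by
  have h := ENNReal.toReal_mono (measure_lt_top (mm D) A).ne (mm_ge D hA)
  rw [ENNReal.toReal_mul, ENNReal.toReal_ofReal (inv_nonneg.2 (M_pos D).le)] at h
  exact h

lemma ae_mm {P : E4 → Prop} (h : ∀ᵐ x ∂D.s, x ∈ B2 D → P x) : ∀ᵐ x ∂(mm D), P x := by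
  have h1 : ∀ᵐ x ∂(D.s.restrict (B2 D)), P x := (ae_restrict_iff' (meas_B2 D)).2 h
  exact (withDensity_absolutelyContinuous _ _).ae_le h1

lemma ae_mem : ∀ᵐ x ∂(mm D), x ∈ B2 D := ae_mm D (Eventually.of_forall fun _ h => h)

/-- the basic formula. -/
lemma integral_mm (hd : ∀ᵐ x ∂D.s, x ∈ B2 D → Deg (D.J x) (D.F x) (D.φ x) (XX D x))
    {β : E4 → Bil} (hβ : ∀ x, Alt (β x)) :
    ∫ x, β x (XX D x) (D.J x (XX D x)) ∂(mm D) = ∫ x in B2 D, q (D.F x) (D.φ x) (β x) ∂D.s := by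
  unfold mm
  rw [integral_withDensity_eq_integral_smul (meas_dn D)]
  refine setIntegral_congr_ae (meas_B2 D) ?_
  filter_upwards [hd] with x hx hxB
  have h1 := (hx hxB).form (β x) (hβ x)
  rw [NNReal.smul_def, coe_dn, ← h1]
  change (fx D x)⁻¹ • (q (D.F x) (D.φ x) (β x) * fx D x) = _
  rw [smul_eq_mul, mul_comm, mul_assoc, mul_inv_cancel₀ (fx_pos D x).ne', mul_one]

lemma q_zero (F b : Bil) : q F b 0 = 0 := by
  unfold q W
  simp [ent_zero]

lemma integral_mm' (hd : ∀ᵐ x ∂D.s, x ∈ B2 D → Deg (D.J x) (D.F x) (D.φ x) (XX D x))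
    {β : E4 → Bil} (hβ : ∀ x, Alt (β x)) (h0 : ∀ x, x ∉ B2 D → β x = 0) :
    ∫ x, β x (XX D x) (D.J x (XX D x)) ∂(mm D) = ∫ x, q (D.F x) (D.φ x) (β x) ∂D.s := by
  rw [integral_mm D hd hβ]
  refine setIntegral_eq_integral_of_forall_compl_eq_zero fun x hx => ?_
  rw [h0 x hx, q_zero]

lemma suppE_of_mm {x : E4} (h : SuppE (mm D) x) : SuppE D.s x := by
  intro r hr
  by_contra hc
  have h0 : D.s (ball x r) = 0 := by simpa using hc
  have h1 := mm_le D (A := ball x r) measurableSet_ball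
  rw [h0, mul_zero] at h1
  exact absurd (h r hr) (not_lt.2 h1)

lemma exists_ball_sub {x : E4} (hx : x ∈ B2 D) : ∃ δ > 0, ball x δ ⊆ B2 D :=
  Metric.isOpen_iff.1 (isOpen_B2 D) x hx

lemma suppE_mm {x : E4} (hx : x ∈ B2 D) (h : SuppE D.s x) : SuppE (mm D) x := by
  intro r hr
  obtain ⟨δ, hδ, hsub⟩ := exists_ball_sub D hx
  have h1 := mm_ge D (A := ball x r) measurableSet_ball
  refine lt_of_lt_of_le ?_ h1
  refine ENNReal.mul_pos ?_ ?_
  · simpa using M_pos D
  · have h2 : ball x (min r δ) ⊆ ball x r ∩ B2 D :=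
      subset_inter (ball_subset_ball (min_le_left _ _))
        ((ball_subset_ball (min_le_right _ _)).trans hsub)
    exact ((h (min r δ) (lt_min hr hδ)).trans_le (measure_mono h2)).ne'

/-- all the fields except flatness. -/
lemma low_mm (h : ∃ c₀ > 0, ∃ r₀ > 0, ∀ x ∈ ball D.x0 (3 * D.R), SuppE D.s x → ∀ r, 0 < r →
    r ≤ r₀ → c₀ * r ^ 2 ≤ D.s.real (ball x r)) :
    ∀ Q ⊆ B2 D, IsCompact Q → ∃ c₀ > 0, ∃ r₀ > 0, ∀ p ∈ Q, SuppE (mm D) p →
    ∀ r, 0 < r → r ≤ r₀ → c₀ * r ^ 2 ≤ (mm D).real (ball p r) := by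
  intro Q hQ hQc
  obtain ⟨c, hc, r0, hr0, hlow⟩ := h
  obtain ⟨δ, hδ, hsub⟩ := hQc.exists_thickening_subset_open (isOpen_B2 D) hQ
  refine ⟨D.M⁻¹ * c, mul_pos (inv_pos.2 (M_pos D)) hc, min r0 δ, lt_min hr0 hδ, ?_⟩
  intro p hp hs r hr hrl
  have h1 : ball p r ⊆ B2 D := by
    refine Subset.trans ?_ hsub
    intro y hy
    rw [mem_thickening_iff]
    exact ⟨p, hp, (mem_ball.1 hy).trans_le (hrl.trans (min_le_right _ _))⟩
  have hp3 : p ∈ ball D.x0 (3 * D.R) := by
    have : B2 D ⊆ ball D.x0 (3 * D.R) := ball_subset_ball (by linarith [D.R_pos])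
    exact this (hQ hp)
  have h2 := hlow p hp3 (suppE_of_mm D hs) r hr (hrl.trans (min_le_left _ _))
  have h3 := mm_real_ge D (A := ball p r) measurableSet_ball
  rw [inter_eq_left.2 h1] at h3
  calc D.M⁻¹ * c * r ^ 2 = D.M⁻¹ * (c * r ^ 2) := by ring
    _ ≤ D.M⁻¹ * D.s.real (ball p r) := by
        have := inv_nonneg.2 (M_pos D).le
        gcongr
    _ ≤ _ := h3

lemma up_mm (p : E4) (r : ℝ) (hr : 0 < r) :
    (mm D).real (closedBall p r) ≤ (4 * D.C / D.m) * r ^ 2 := by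
  have h1 := mm_real_le D (A := closedBall p r) measurableSet_closedBall
  have h2 : D.s.real (closedBall p r) ≤ D.s.real (ball p (2 * r)) :=
    measureReal_mono (closedBall_subset_ball (by linarith))
  have h3 := D.gr p (2 * r) (by linarith)
  have h4 := inv_nonneg.2 (m_pos D).le
  calc (mm D).real (closedBall p r) ≤ D.m⁻¹ * D.s.real (closedBall p r) := h1
    _ ≤ D.m⁻¹ * (D.C * (2 * r) ^ 2) := by gcongr; exact h2.trans h3
    _ = _ := by ring

lemma closed_mm (hd : ∀ᵐ x ∂D.s, x ∈ B2 D → Deg (D.J x) (D.F x) (D.φ x) (XX D x))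
    (l : E4 → (E4 →L[ℝ] ℝ)) (hl : ContDiff ℝ ∞ l) (hc : HasCompactSupport l)
    (ht : tsupport l ⊆ B2 D) :
    ∫ p, (fderiv ℝ l p (XX D p) (D.J p (XX D p)) -
      fderiv ℝ l p (D.J p (XX D p)) (XX D p)) ∂(mm D) = 0 := by
  have h1 : ∀ p, fderiv ℝ l p (XX D p) (D.J p (XX D p)) -
      fderiv ℝ l p (D.J p (XX D p)) (XX D p) = En.d1 l p (XX D p) (D.J p (XX D p)) := by
    intro p; rw [En.d1_apply]
  simp only [h1]
  have h2 : ∀ x, Alt (En.d1 l x) := by
    intro x v; rw [En.d1_apply]; ring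
  have h3 : ∀ x, x ∉ B2 D → En.d1 l x = 0 := by
    intro x hx
    have h4 : fderiv ℝ l x = 0 := fderiv_of_notMem_tsupport ℝ (fun h => hx (ht h))
    ext u v
    rw [En.d1_apply, h4]
    simp
  rw [integral_mm' D hd h2 h3]
  refine D.closed l hl hc (ht.trans ?_)
  exact ball_subset_ball (by linarith [D.R_pos])

end Meas

/-! ### flatness -/

section Flat

variable (D : LC)

lemma norm_φ_le (y : E4) : ‖D.φ y‖ ≤ 2 * D.M := by
  have h := (D.bd y).norm_le_q (D.pos y)
  rw [D.nrm y, mul_one] at h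
  exact h

lemma W_ne (y : E4) : W (D.F y) (D.F y) ≠ 0 := (D.bd y).W_ne

lemma cont_iW : Continuous fun y => (W (D.F y) (D.F y))⁻¹ := by
  refine Continuous.inv₀ ?_ (W_ne D)
  have h : ∀ i j, Continuous fun x => ent (D.F x) i j := fun i j =>
    (Loc5.continuous_ent i j).comp D.smF.continuous
  unfold W
  exact (((((h 0 1).mul (h 2 3)).sub ((h 0 2).mul (h 1 3))).add ((h 0 3).mul (h 1 2))).add
    ((h 1 2).mul (h 0 3))).sub ((h 1 3).mul (h 0 2)) |>.add ((h 2 3).mul (h 0 1))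

lemma diff_q (y p : E4) {β : Bil} (hβ : Alt β) :
    |q (D.F y) (D.φ y) β - q (D.F p) (D.φ p) β| ≤
      3 / D.m ^ 2 * (‖D.φ y - D.φ p‖ * ‖β‖) +
        6 * (‖D.φ p‖ * ‖β‖) * |(W (D.F y) (D.F y))⁻¹ - (W (D.F p) (D.F p))⁻¹| := by
  have hs : Alt (D.φ y - D.φ p) := by
    intro v
    have h1 := (D.pos y).alt v
    have h2 := (D.pos p).alt v
    simp [h1, h2]
  have e : q (D.F y) (D.φ y) β - q (D.F p) (D.φ p) β = q (D.F y) (D.φ y - D.φ p) β +
      W (D.φ p) β * ((W (D.F y) (D.F y))⁻¹ - (W (D.F p) (D.F p))⁻¹) := by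
    unfold q
    rw [W_sub_left]
    simp only [div_eq_mul_inv]
    ring
  rw [e]
  refine (abs_add_le _ _).trans (add_le_add ((D.bd y).abs_q_le hs hβ) ?_)
  rw [abs_mul]
  exact mul_le_mul_of_nonneg_right (Loc5.abs_W_le _ _) (abs_nonneg _)

variable {p : E4} {g : E4 → Bil} {K1 G : ℝ}

lemma meas_g (hg : Continuous g) (p : E4) (r : ℝ) : Measurable fun y => g (r⁻¹ • (y - p)) := by
  have : Continuous fun y => g (r⁻¹ • (y - p)) := by fun_prop
  exact this.measurable

lemma int_q1 (hg : Continuous g) (hG : ∀ z, ‖g z‖ ≤ G) (ha : ∀ z, Alt (g z)) (p : E4) (r : ℝ) :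
    Integrable (fun y => q (D.F y) (D.φ y) (g (r⁻¹ • (y - p)))) D.s := by
  have hM := M_pos D
  refine Integrable.of_bound (meas_q D (meas_g hg p r)).aestronglyMeasurable
    (3 / D.m ^ 2 * (2 * D.M * G)) (Eventually.of_forall fun y => ?_)
  rw [Real.norm_eq_abs]
  refine ((D.bd y).abs_q_le (D.pos y).alt (ha _)).trans ?_
  have h1 := norm_φ_le D y
  have h2 := hG (r⁻¹ • (y - p))
  gcongr

lemma int_q2 (hg : Continuous g) (hG : ∀ z, ‖g z‖ ≤ G) (ha : ∀ z, Alt (g z)) (p : E4) (r : ℝ) :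
    Integrable (fun y => q (D.F p) (D.φ p) (g (r⁻¹ • (y - p)))) D.s := by
  have hM := M_pos D
  have hm : Measurable fun y => q (D.F p) (D.φ p) (g (r⁻¹ • (y - p))) :=
    (Loc5.measurable_W measurable_const (meas_g hg p r)).div measurable_const
  refine Integrable.of_bound hm.aestronglyMeasurable
    (3 / D.m ^ 2 * (2 * D.M * G)) (Eventually.of_forall fun y => ?_)
  rw [Real.norm_eq_abs]
  refine ((D.bd p).abs_q_le (D.pos p).alt (ha _)).trans ?_
  have h1 := norm_φ_le D p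
  have h2 := hG (r⁻¹ • (y - p))
  gcongr

lemma int_φ (p : E4) : Integrable (fun y => ‖D.φ y - D.φ p‖) D.s := by
  refine Integrable.of_bound (D.meas.sub_const _).norm.aestronglyMeasurable
    (4 * D.M) (Eventually.of_forall fun y => ?_)
  rw [norm_norm]
  refine (norm_sub_le _ _).trans ?_
  linarith [norm_φ_le D y, norm_φ_le D p]

lemma flat_diff (hp : ∀ K : ℝ, Tendsto (fun r : ℝ => (r ^ 2)⁻¹ *
      ∫ y in ball p (K * r), ‖D.φ y - D.φ p‖ ∂D.s) (𝓝[>] 0) (𝓝 0))
    (hg : Continuous g) (hG : ∀ z, ‖g z‖ ≤ G) (ha : ∀ z, Alt (g z)) (hK1 : 0 < K1)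
    (hK : ∀ z, K1 ≤ ‖z‖ → g z = 0) :
    Tendsto (fun r : ℝ => (r ^ 2)⁻¹ * (∫ y, q (D.F y) (D.φ y) (g (r⁻¹ • (y - p))) ∂D.s) -
      (r ^ 2)⁻¹ * ∫ y, q (D.F p) (D.φ p) (g (r⁻¹ • (y - p))) ∂D.s) (𝓝[>] 0) (𝓝 0) := by
  have hG0 : 0 ≤ G := (norm_nonneg _).trans (hG 0)
  have hM := M_pos D
  have hm := m_pos D
  set A : ℝ := 3 / D.m ^ 2 * G with hA
  set B : ℝ := 6 * (2 * D.M * G) with hB
  have hA0 : 0 ≤ A := by positivity
  have hB0 : 0 ≤ B := by positivity
  have key : ∀ ε > 0, ∀ᶠ r : ℝ in 𝓝[>] 0,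
      |(r ^ 2)⁻¹ * (∫ y, q (D.F y) (D.φ y) (g (r⁻¹ • (y - p))) ∂D.s) -
      (r ^ 2)⁻¹ * ∫ y, q (D.F p) (D.φ p) (g (r⁻¹ • (y - p))) ∂D.s| ≤
      A * ((r ^ 2)⁻¹ * ∫ y in ball p (K1 * r), ‖D.φ y - D.φ p‖ ∂D.s) +
        B * (D.C * K1 ^ 2) * ε := by
    intro ε hε
    obtain ⟨δ, hδ, hw⟩ := Metric.continuousAt_iff.1 ((cont_iW D).continuousAt (x := p)) ε hε
    have h1 : ∀ᶠ r : ℝ in 𝓝[>] 0, r < δ / K1 :=
      (eventually_lt_nhds (div_pos hδ hK1)).filter_mono nhdsWithin_le_nhds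
    filter_upwards [h1, self_mem_nhdsWithin] with r hr hr0
    have hr0' : 0 < r := hr0
    have hrK : K1 * r < δ := by
      rw [lt_div_iff₀ hK1] at hr; linarith
    rw [← mul_sub, ← integral_sub (int_q1 D hg hG ha p r) (int_q2 D hg hG ha p r), abs_mul,
      abs_of_nonneg (by positivity : 0 ≤ (r ^ 2)⁻¹)]
    have h2 : |∫ y, (q (D.F y) (D.φ y) (g (r⁻¹ • (y - p))) -
        q (D.F p) (D.φ p) (g (r⁻¹ • (y - p)))) ∂D.s| ≤
        ∫ y, (ball p (K1 * r)).indicator (fun y => A * ‖D.φ y - D.φ p‖ + B * ε) y ∂D.s := by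
      rw [← Real.norm_eq_abs]
      refine norm_integral_le_of_norm_le ?_ (Eventually.of_forall fun y => ?_)
      · exact (((int_φ D p).const_mul A).add (integrable_const _)).indicator measurableSet_ball
      · by_cases hy : y ∈ ball p (K1 * r)
        · rw [indicator_of_mem hy, Real.norm_eq_abs]
          refine (diff_q D y p (ha _)).trans ?_
          have h3 := hG (r⁻¹ • (y - p))
          have h4 := norm_φ_le D p
          have h5 : |(W (D.F y) (D.F y))⁻¹ - (W (D.F p) (D.F p))⁻¹| ≤ ε := by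
            have := hw ((mem_ball.1 hy).trans hrK)
            rw [Real.dist_eq] at this
            exact this.le
          refine add_le_add ?_ ?_
          · calc 3 / D.m ^ 2 * (‖D.φ y - D.φ p‖ * ‖g (r⁻¹ • (y - p))‖)
                ≤ 3 / D.m ^ 2 * (‖D.φ y - D.φ p‖ * G) := by gcongr
              _ = _ := by rw [hA]; ring
          · rw [hB]; gcongr
        · rw [indicator_of_notMem hy]
          have h3 : g (r⁻¹ • (y - p)) = 0 := by
            apply hK
            rw [mem_ball, not_lt, dist_eq_norm] at hy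
            rw [norm_smul, norm_inv, Real.norm_eq_abs, abs_of_pos hr0', ← div_eq_inv_mul,
              le_div_iff₀ hr0']
            exact hy
          rw [h3, q_zero, q_zero]; simp
    have h3 : ∫ y, (ball p (K1 * r)).indicator (fun y => A * ‖D.φ y - D.φ p‖ + B * ε) y ∂D.s =
        A * (∫ y in ball p (K1 * r), ‖D.φ y - D.φ p‖ ∂D.s) +
          B * ε * D.s.real (ball p (K1 * r)) := by
      rw [integral_indicator measurableSet_ball, integral_add
        ((int_φ D p).const_mul A).integrableOn (integrable_const _), integral_const_mul,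
        setIntegral_const, smul_eq_mul, mul_comm (D.s.real _)]
    rw [h3] at h2
    have h4 := D.gr p (K1 * r) (by positivity)
    calc (r ^ 2)⁻¹ * |∫ y, (q (D.F y) (D.φ y) (g (r⁻¹ • (y - p))) -
          q (D.F p) (D.φ p) (g (r⁻¹ • (y - p)))) ∂D.s|
        ≤ (r ^ 2)⁻¹ * (A * (∫ y in ball p (K1 * r), ‖D.φ y - D.φ p‖ ∂D.s) +
          B * ε * (D.C * (K1 * r) ^ 2)) := by
          refine mul_le_mul_of_nonneg_left (h2.trans ?_) (by positivity)
          gcongr
      _ = _ := by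
          field_simp
  rw [Metric.tendsto_nhds]
  intro ε hε
  set c : ℝ := B * (D.C * K1 ^ 2) with hc
  have hc0 : 0 ≤ c := mul_nonneg hB0 (mul_nonneg D.C_nn (sq_nonneg _))
  have h1 := key (ε / (2 * (c + 1))) (by positivity)
  have h2 : Tendsto (fun r : ℝ => A * ((r ^ 2)⁻¹ * ∫ y in ball p (K1 * r), ‖D.φ y - D.φ p‖ ∂D.s))
      (𝓝[>] 0) (𝓝 0) := by
    simpa using (hp K1).const_mul A
  have h3 := (Metric.tendsto_nhds.1 h2) (ε / 2) (by positivity)
  filter_upwards [h1, h3] with r h4 h5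
  rw [Real.dist_eq, sub_zero] at h5 ⊢
  have h6 : c * (ε / (2 * (c + 1))) ≤ ε / 2 := by
    rw [mul_div_assoc', div_le_div_iff₀ (by positivity) (by norm_num)]
    nlinarith
  have h7 := (abs_lt.1 h5).2
  linarith

lemma exists_ne_zero (hφ : ∀ p, Pos (D.J p) (D.φ p)) (p : E4) : ∃ v, D.φ p v (D.J p v) ≠ 0 := by
  by_contra hc
  push Not at hc
  have hJ := (D.bd p).sq
  have hP := hφ p
  have h1 : ∀ u v, D.φ p u (D.J p v) = 0 := by
    intro u v
    have h2 := hc (u + v)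
    have h3 := hc u
    have h4 := hc v
    simp only [map_add, add_apply] at h2
    have h5 := hP.inv v (D.J p u)
    rw [hJ, map_neg] at h5
    have h6 := hP.alt.swap u (D.J p v)
    linarith
  have h2 : D.φ p = 0 := by
    ext u v
    have h3 := h1 u (D.J p v)
    rw [hJ, map_neg] at h3
    simp only [zero_apply]
    linarith
  have h3 := D.nrm p
  rw [h2] at h3
  unfold q W at h3
  simp [ent_zero] at h3

/-- flatness at a good point. -/
lemma flatE (hL : FWLIM) (hd : ∀ᵐ x ∂D.s, x ∈ B2 D → Deg (D.J x) (D.F x) (D.φ x) (XX D x))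
    (hp : p ∈ B2 D) (hgd : Good D p) (hden : IsDenE (D.G p) D.s p 1)
    (hdeg : Deg (D.J p) (D.F p) (D.φ p) (XX D p)) :
    FlatE (mm D) (XX D) (fun q => D.J q (XX D q)) p := by
  intro g hg hgc ha
  have hX0 : XX D p ≠ 0 := by
    intro h
    have := norm_XX D p
    rw [h, norm_zero] at this
    exact zero_ne_one this
  have hp4 : p ∈ ball D.x0 (4 * D.R) := ball_subset_ball (by linarith [D.R_pos]) hp
  -- the limit for the frozen form
  have hfc : Continuous fun z => q (D.F p) (D.φ p) (g z) := by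
    have : (fun z => q (D.F p) (D.φ p) (g z)) =
        fun z => Loc5.WL (D.φ p) (g z) / W (D.F p) (D.F p) := by
      funext z
      rw [Loc5.WL_apply, W_comm]; rfl
    rw [this]
    fun_prop
  have hfs : HasCompactSupport fun z => q (D.F p) (D.φ p) (g z) :=
    hgc.comp_left (g := fun b => q (D.F p) (D.φ p) b) (q_zero _ _)
  have h1 := hL D p hp4 hgd hden (XX D p) hX0 hdeg.zero (exists_ne_zero D D.pos p) _ hfc hfs
  have h2 : (∫ ζ : ℂ, q (D.F p) (D.φ p) (g (ζ.re • XX D p + ζ.im • D.J p (XX D p)))) *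
      D.F p (XX D p) (D.J p (XX D p)) =
      ∫ ζ : ℂ, g (ζ.re • XX D p + ζ.im • D.J p (XX D p)) (XX D p) (D.J p (XX D p)) := by
    rw [← integral_mul_const]
    congr 1
    funext ζ
    exact hdeg.form _ (ha _)
  rw [h2] at h1
  obtain ⟨G, hG⟩ := hg.bounded_above_of_compact_support hgc
  obtain ⟨K0, hK0⟩ := hgc.isCompact.isBounded.subset_ball (0 : E4)
  have hK : ∀ z, max K0 1 ≤ ‖z‖ → g z = 0 := by
    intro z hz
    by_contra hne
    have h3 := hK0 (subset_tsupport g hne)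
    rw [mem_ball_zero_iff] at h3
    linarith [le_max_left K0 1]
  have hK1 : (0 : ℝ) < max K0 1 := lt_of_lt_of_le one_pos (le_max_right _ _)
  have h3 := (flat_diff D hgd.leb hg hG ha hK1 hK).add h1
  rw [zero_add] at h3
  refine h3.congr' ?_
  obtain ⟨δ, hδ, hsub⟩ := exists_ball_sub D hp
  have h4 : ∀ᶠ r : ℝ in 𝓝[>] 0, r < δ / max K0 1 :=
    (eventually_lt_nhds (div_pos hδ hK1)).filter_mono nhdsWithin_le_nhds
  filter_upwards [h4, self_mem_nhdsWithin] with r hr hr0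
  have hr0' : 0 < r := hr0
  rw [sub_add_cancel]
  congr 1
  symm
  refine integral_mm' D hd (β := fun y => g (r⁻¹ • (y - p))) (fun y => ha _) fun y hy => ?_
  apply hK
  have h5 : δ ≤ dist y p := by
    by_contra h6
    exact hy (hsub (mem_ball.2 (not_le.1 h6)))
  rw [dist_eq_norm] at h5
  rw [norm_smul, norm_inv, Real.norm_eq_abs, abs_of_pos hr0', ← div_eq_inv_mul,
    le_div_iff₀ hr0']
  rw [lt_div_iff₀ hK1] at hr
  linarith

end Flat

/-! ### assembly -/

/-- (A1.0) density one ⟹ flat current. -/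
theorem flatw : FWALG → FWGOOD → FWDEG → FWLIM → FWLOW → FLATW := by
  intro hAlg hGood hDeg hLim hLow hMon D hden
  have hR := D.R_pos
  have h23 : B2 D ⊆ ball D.x0 (3 * D.R) := ball_subset_ball (by linarith)
  have h24 : B2 D ⊆ ball D.x0 (4 * D.R) := ball_subset_ball (by linarith)
  have hall : ∀ᵐ x ∂D.s, x ∈ B2 D → Good D x ∧ IsDenE (D.G x) D.s x 1 ∧
      Deg (D.J x) (D.F x) (D.φ x) (XX D x) := by
    filter_upwards [hGood hMon D, hden] with x h1 h2 hx
    have h3 := h1 (h23 hx)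
    have h4 := h2 (h23 hx)
    exact ⟨h3, h4, deg_XX D hAlg (hDeg D x (h24 hx) h3 h4)⟩
  have hd : ∀ᵐ x ∂D.s, x ∈ B2 D → Deg (D.J x) (D.F x) (D.φ x) (XX D x) := by
    filter_upwards [hall] with x hx hxB
    exact (hx hxB).2.2
  refine ⟨mm D, XX D, 4 * D.C / D.m, ?_, ?_, ?_⟩
  · exact
      { openU := isOpen_ball
        smJ := D.smJ.contDiffOn
        sqJ := fun x _ => (D.bd x).sq
        fin := fin_mm D
        mX := meas_XX D
        nX := norm_XX D
        supp := ae_mem D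
        closed := closed_mm D hd
        up := up_mm D
        low := low_mm D (hLow hMon D hden)
        flat := by
          refine ae_mm D ?_
          filter_upwards [hall] with x hx hxB
          exact flatE D hLim hd hxB (hx hxB).1 (hx hxB).2.1 (hx hxB).2.2 }
  · intro x hx
    exact ⟨suppE_of_mm D, suppE_mm D hx⟩
  · intro b _ hb hQ
    obtain ⟨Q, hQs, -, hQ0⟩ := hQ
    symm
    exact integral_mm' D hd hb fun x hx => hQ0 x fun h => hx (hQs h)

end

end Crest.Agent.R235.Reg_FLATW_843
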