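import Crest.Agent.R235.Reg_FWLIMc_712

/-!
Row 235, REG A1.0d (task 400): the blow-ups of the measure converge to the plane.
`fwlim : FWLIM`.
-/

set_option autoImplicit false
set_option maxSynthPendingDepth 3

open MeasureTheory Metric Set Filter
open scoped ContDiff Topology

namespace Crest.Agent.R235.Reg_FWLIM_712

open Crest.Agent.R240 Crest.Agent.R240.En Crest.Agent.R240.Pot
open Crest.Agent.R235.CurDefs_132 Crest.Agent.R235.Reg_522
open Crest.Agent.R235.Reg_FWLIMa_712 (PH planar)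
open Crest.Agent.R235.Reg_FWLIMb_712 (Fr exists_fr)
open Crest.Agent.R235.Reg_FWLIMc_712

noncomputable section

/-! ### coordinates -/

section coord

variable {J : E4 →L[ℝ] E4} {φ : Bil} {X Y : E4} {t : ℝ} {p e : E4 →L[ℝ] ℂ}

/-- the parametrisation of the plane. -/
def Nn (J : E4 →L[ℝ] E4) (X : E4) : ℂ →L[ℝ] E4 :=
  Complex.reCLM.smulRight X + Complex.imCLM.smulRight (J X)

theorem Nn_apply (ζ : ℂ) : Nn J X ζ = ζ.re • X + ζ.im • J X := rfl

theorem e_Nn (h : Fr J φ X Y t p e) (ζ : ℂ) : e (Nn J X ζ) = 0 := by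
  rw [Nn_apply, map_add, map_smul, map_smul, h.eX, h.eJX]
  simp

theorem p_Nn (h : Fr J φ X Y t p e) (ζ : ℂ) : p (Nn J X ζ) = ζ := by
  rw [Nn_apply, map_add, map_smul, map_smul, h.pX, h.pJX]
  simp only [Complex.real_smul, mul_one]
  exact Complex.re_add_im ζ

theorem sub_Nn (h : Fr J φ X Y t p e) (v : E4) :
    ‖v - Nn J X (p v)‖ ≤ (‖Y‖ + ‖J Y‖) * ‖e v‖ := by
  have h1 : v - Nn J X (p v) = (e v).re • Y + (e v).im • J Y := by
    rw [Nn_apply, sub_eq_iff_eq_add]
    nth_rewrite 1 [h.rep v]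
    abel
  rw [h1]
  refine (norm_add_le _ _).trans ?_
  rw [norm_smul, norm_smul, Real.norm_eq_abs, Real.norm_eq_abs]
  have h2 := Complex.abs_re_le_norm (e v)
  have h3 := Complex.abs_im_le_norm (e v)
  nlinarith [norm_nonneg Y, norm_nonneg (J Y), mul_le_mul_of_nonneg_right h2 (norm_nonneg Y),
    mul_le_mul_of_nonneg_right h3 (norm_nonneg (J Y))]

theorem norm_le_pe (h : Fr J φ X Y t p e) (v : E4) :
    ‖v‖ ≤ (‖X‖ + ‖J X‖) * ‖p v‖ + (‖Y‖ + ‖J Y‖) * ‖e v‖ := by
  have h1 := sub_Nn h v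
  have h2 : ‖Nn J X (p v)‖ ≤ (‖X‖ + ‖J X‖) * ‖p v‖ := by
    rw [Nn_apply]
    refine (norm_add_le _ _).trans ?_
    rw [norm_smul, norm_smul, Real.norm_eq_abs, Real.norm_eq_abs]
    have h2 := Complex.abs_re_le_norm (p v)
    have h3 := Complex.abs_im_le_norm (p v)
    nlinarith [norm_nonneg X, norm_nonneg (J X), mul_le_mul_of_nonneg_right h2 (norm_nonneg X),
      mul_le_mul_of_nonneg_right h3 (norm_nonneg (J X))]
  have h3 := norm_le_norm_sub_add v (Nn J X (p v))
  linarith

end coord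

/-! ### the planar measures -/

/-- the planar measures. -/
def lam (s : Measure E4) (x : E4) (p e : E4 →L[ℝ] ℂ) (b : ℂ → ℝ) (r : ℝ) : Measure ℂ :=
  open Classical in
  if 0 < r then (s.withDensity fun y =>
    ENNReal.ofReal ((r ^ 2)⁻¹ * b (e (r⁻¹ • (y - x))))).map (fun y => p (r⁻¹ • (y - x))) else 0

section planarm

variable {s : Measure E4} [IsFiniteMeasure s] {x : E4} {p e : E4 →L[ℝ] ℂ} {b : ℂ → ℝ}

theorem lam_fin (hb : Continuous b) (hb1 : ∀ z, b z ≤ 1) (hb0 : ∀ z, 0 ≤ b z) (r : ℝ) :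
    IsFiniteMeasure (lam s x p e b r) := by
  unfold lam
  split_ifs with hr
  · have h1 : Continuous fun y : E4 => (r ^ 2)⁻¹ * b (e (r⁻¹ • (y - x))) :=
      continuous_const.mul (hb.comp (e.continuous.comp (psi_cont x r)))
    have h2 : Integrable (fun y : E4 => (r ^ 2)⁻¹ * b (e (r⁻¹ • (y - x)))) s := by
      refine Integrable.of_bound h1.aestronglyMeasurable ((r ^ 2)⁻¹ * 1)
        (Eventually.of_forall fun y => ?_)
      rw [Real.norm_eq_abs, abs_of_nonneg (mul_nonneg (by positivity) (hb0 _))]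
      exact mul_le_mul_of_nonneg_left (hb1 _) (by positivity)
    have := isFiniteMeasure_withDensity_ofReal h2.2
    infer_instance
  · infer_instance

omit [IsFiniteMeasure s] in
theorem int_lam (hb : Continuous b) (hb0 : ∀ z, 0 ≤ b z) {r : ℝ} (hr : 0 < r) {a : ℂ → ℝ}
    (ha : Measurable a) :
    ∫ z, a z ∂(lam s x p e b r) = Lr s x r (fun v => a (p v) * b (e v)) := by
  unfold lam
  have hpm : Measurable (fun y : E4 => p (r⁻¹ • (y - x))) :=
    (p.continuous.comp (psi_cont x r)).measurable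
  rw [if_pos hr, integral_map hpm.aemeasurable ha.aestronglyMeasurable]
  have h1 : Continuous fun y : E4 => (r ^ 2)⁻¹ * b (e (r⁻¹ • (y - x))) :=
      continuous_const.mul (hb.comp (e.continuous.comp (psi_cont x r)))
  rw [integral_withDensity_eq_integral_toReal_smul h1.measurable.ennreal_ofReal
    (Eventually.of_forall fun _ => ENNReal.ofReal_lt_top)]
  unfold Lr
  rw [← integral_const_mul]
  refine integral_congr_ae (Eventually.of_forall fun y => ?_)
  simp only [smul_eq_mul]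
  rw [ENNReal.toReal_ofReal (mul_nonneg (by positivity) (hb0 _))]
  ring

end planarm

/-! ### concentration -/

section main

variable {D : LC} {x : E4} {X Y : E4} {t : ℝ} {p e : E4 →L[ℝ] ℂ}

theorem conc_tendsto (hG : Good D x) (h : Fr (D.J x) (D.φ x) X Y t p e) (K : ℝ) :
    Tendsto (fun r : ℝ => (r ^ 2)⁻¹ * ∫ y in ball x (K * r), ‖e (r⁻¹ • (y - x))‖ ^ 2 ∂D.s)
      (𝓝[>] 0) (𝓝 0) := by
  have h1 := (hG.conc K).const_mul t⁻¹
  rw [mul_zero] at h1
  refine h1.congr' ?_
  filter_upwards [self_mem_nhdsWithin] with r hr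
  have hr : 0 < r := hr
  have h2 : ∀ y : E4, D.φ x (y - x) (D.J x (y - x)) = t * r ^ 2 * ‖e (r⁻¹ • (y - x))‖ ^ 2 := by
    intro y
    rw [h.ph, map_smul, norm_smul, norm_inv, Real.norm_eq_abs, abs_of_pos hr]
    field_simp
  simp_rw [h2]
  rw [integral_const_mul]
  have ht := h.t0.ne'
  field_simp

/-- functions vanishing on the plane. -/
theorem van_tendsto (hG : Good D x) (h : Fr (D.J x) (D.φ x) X Y t p e) {d : E4 → ℝ}
    (hd : Continuous d) (hdc : HasCompactSupport d) (hd0 : ∀ ζ, d (Nn (D.J x) X ζ) = 0) :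
    Tendsto (fun r => Lr D.s x r d) (𝓝[>] 0) (𝓝 0) := by
  have hfin : IsFiniteMeasure D.s := D.fin
  obtain ⟨K, hK0, hK⟩ := exists_rad4 hdc
  obtain ⟨M, hM0, hM⟩ := exists_bd4 hd hdc
  have huc := hdc.uniformContinuous_of_continuous hd
  rw [Metric.uniformContinuous_iff] at huc
  set c : ℝ := ‖Y‖ + ‖D.J x Y‖ + 1 with hc
  have hc0 : 0 < c := by positivity
  rw [Metric.tendsto_nhds]
  intro ε hε
  have hC := D.C_nn
  set c1 : ℝ := D.C * (K + 1) ^ 2 with hc1
  have hc1' : 0 ≤ c1 := by positivity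
  set η : ℝ := ε / (2 * (c1 + 1)) with hη
  have hη0 : 0 < η := by positivity
  obtain ⟨δ, hδ, hdδ⟩ := huc η hη0
  set M' : ℝ := M * (c / δ) ^ 2 with hM'
  have hM'0 : 0 ≤ M' := by positivity
  have hptw : ∀ v, |d v| ≤ η + M' * ‖e v‖ ^ 2 := by
    intro v
    by_cases hv : c * ‖e v‖ < δ
    · have h1 : dist v (Nn (D.J x) X (p v)) < δ := by
        rw [dist_eq_norm]
        refine lt_of_le_of_lt (sub_Nn h v) (lt_of_le_of_lt ?_ hv)
        exact mul_le_mul_of_nonneg_right (by linarith) (norm_nonneg _)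
      have h2 := hdδ h1
      rw [hd0, dist_zero_right, Real.norm_eq_abs] at h2
      have h3 : 0 ≤ M' * ‖e v‖ ^ 2 := by positivity
      linarith
    · push Not at hv
      have h1 : 1 ≤ (c / δ) ^ 2 * ‖e v‖ ^ 2 := by
        rw [← mul_pow]
        have h2 : 1 ≤ c / δ * ‖e v‖ := by
          rw [div_mul_eq_mul_div, le_div_iff₀ hδ]
          linarith
        nlinarith
      have h2 := hM v
      have h3 : M ≤ M' * ‖e v‖ ^ 2 := by
        rw [hM', mul_assoc]
        nlinarith
      linarith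
  have hest : ∀ r : ℝ, 0 < r → |Lr D.s x r d| ≤ η * c1 + M' *
      ((r ^ 2)⁻¹ * ∫ y in ball x ((K + 1) * r), ‖e (r⁻¹ • (y - x))‖ ^ 2 ∂D.s) := by
    intro r hr
    have h1 : ∫ y, d (r⁻¹ • (y - x)) ∂D.s =
        ∫ y in ball x ((K + 1) * r), d (r⁻¹ • (y - x)) ∂D.s :=
      (setIntegral_eq_integral_of_forall_compl_eq_zero fun y hy => hK _ (psi_far hr hy)).symm
    have hec : Continuous fun y : E4 => ‖e (r⁻¹ • (y - x))‖ ^ 2 :=
      (e.continuous.comp (psi_cont x r)).norm.pow 2
    have hei : IntegrableOn (fun y : E4 => ‖e (r⁻¹ • (y - x))‖ ^ 2) (ball x ((K + 1) * r)) D.s := by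
      exact (hec.continuousOn.integrableOn_compact (isCompact_closedBall x ((K + 1) * r))).mono_set
        ball_subset_closedBall
    have h2 : ‖∫ y in ball x ((K + 1) * r), d (r⁻¹ • (y - x)) ∂D.s‖ ≤
        ∫ y in ball x ((K + 1) * r), (η + M' * ‖e (r⁻¹ • (y - x))‖ ^ 2) ∂D.s := by
      refine norm_integral_le_of_norm_le ((integrable_const _).add (hei.const_mul _)) ?_
      exact Eventually.of_forall fun y => hptw _
    rw [integral_add (integrable_const _) (hei.const_mul _), integral_const_mul,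
      setIntegral_const, smul_eq_mul] at h2
    have h3 := D.gr x ((K + 1) * r) (by positivity)
    unfold Lr
    rw [h1, abs_mul, abs_of_pos (by positivity : (0 : ℝ) < (r ^ 2)⁻¹), ← Real.norm_eq_abs]
    calc (r ^ 2)⁻¹ * ‖_‖ ≤ (r ^ 2)⁻¹ * (D.C * ((K + 1) * r) ^ 2 * η +
          M' * ∫ y in ball x ((K + 1) * r), ‖e (r⁻¹ • (y - x))‖ ^ 2 ∂D.s) := by
          refine mul_le_mul_of_nonneg_left (h2.trans ?_) (by positivity)
          linarith [mul_le_mul_of_nonneg_right h3 hη0.le]
      _ = _ := by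
          rw [hc1]
          field_simp
  have hl := (conc_tendsto hG h (K + 1)).const_mul M'
  rw [mul_zero, Metric.tendsto_nhds] at hl
  filter_upwards [hl (ε / 2) (by positivity), self_mem_nhdsWithin] with r h1 h3
  rw [Real.dist_eq, sub_zero] at h1 ⊢
  have h4 := hest r h3
  have h5 : η * c1 < ε / 2 := by
    have h6 : η * (c1 + 1) = ε / 2 := by rw [hη]; field_simp
    nlinarith
  have h8 := (abs_lt.1 h1).2
  linarith

/-- the planar measures satisfy the hypotheses of the planar lemma. -/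
theorem lam_PH (hx : x ∈ ball D.x0 (4 * D.R)) (hG : Good D x)
    (h : Fr (D.J x) (D.φ x) X Y t p e)
    (hq : ∀ b : Bil, Alt b → q (D.F x) (D.φ x) b * D.F x X (D.J x X) = b X (D.J x X))
    {b : ℂ → ℝ} (hb : ContDiff ℝ ∞ b) (hbc : HasCompactSupport b)
    (hb0 : ∀ z, 0 ≤ b z) (hb1 : ∀ z, b z ≤ 1) :
    ∃ B, PH (𝓝[>] (0 : ℝ)) (lam D.s x p e b) B := by
  have hfin : IsFiniteMeasure D.s := D.fin
  obtain ⟨Kb, hKb0, hKb⟩ := Crest.Agent.R235.Reg_FWLIMa_712.exists_rad hbc
  set n1 : ℝ := ‖X‖ + ‖D.J x X‖ with hn1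
  set n2 : ℝ := ‖Y‖ + ‖D.J x Y‖ with hn2
  have hn1' : 0 ≤ n1 := by positivity
  have hn2' : 0 ≤ n2 := by positivity
  have hfar : ∀ (K : ℝ), 0 ≤ K → ∀ v, n1 * K + n2 * Kb < ‖v‖ → K < ‖p v‖ ∨ Kb < ‖e v‖ := by
    intro K hK v hv
    by_contra hcon
    push Not at hcon
    have h1 := norm_le_pe h v
    have h2 : n1 * ‖p v‖ ≤ n1 * K := mul_le_mul_of_nonneg_left hcon.1 hn1'
    have h3 : n2 * ‖e v‖ ≤ n2 * Kb := mul_le_mul_of_nonneg_left hcon.2 hn2'
    linarith
  refine ⟨fun K => 1 * (D.C * (n1 * max K 0 + n2 * Kb + 1) ^ 2), ?_, ?_, ?_⟩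
  · exact lam_fin hb.continuous hb1 hb0
  · intro r K
    have hmx : 0 ≤ max K 0 := le_max_right _ _
    have hCnn := D.C_nn
    by_cases hr : 0 < r
    · have := lam_fin (s := D.s) (x := x) (p := p) (e := e) hb.continuous hb1 hb0 r
      have h1 : (lam D.s x p e b r).real (closedBall 0 K) =
          ∫ z, (closedBall (0 : ℂ) K).indicator (fun _ => (1 : ℝ)) z ∂(lam D.s x p e b r) := by
        rw [integral_indicator measurableSet_closedBall, setIntegral_const, smul_eq_mul, mul_one]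
      rw [h1, int_lam hb.continuous hb0 hr
        (measurable_const.indicator measurableSet_closedBall)]
      refine (le_abs_self _).trans (Lr_bd (fun y r hr => D.gr y r hr) hr (by positivity)
        (fun v => ?_) fun v hv => ?_)
      · rw [abs_mul]
        have e1 : |(closedBall (0 : ℂ) K).indicator (fun _ => (1 : ℝ)) (p v)| ≤ 1 := by
          by_cases hm : p v ∈ closedBall (0 : ℂ) K
          · rw [indicator_of_mem hm]; simp
          · rw [indicator_of_notMem hm]; simp
        have e2 : |b (e v)| ≤ 1 := by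
          rw [abs_of_nonneg (hb0 _)]; exact hb1 _
        calc _ ≤ (1 : ℝ) * 1 := mul_le_mul e1 e2 (abs_nonneg _) zero_le_one
          _ = 1 := one_mul 1
      · rcases hfar (max K 0) hmx v hv with h2 | h2
        · rw [indicator_of_notMem, zero_mul]
          rw [mem_closedBall, dist_zero_right, not_le]
          exact lt_of_le_of_lt (le_max_left _ _) h2
        · rw [hKb _ h2, mul_zero]
    · have h1 : lam D.s x p e b r = 0 := if_neg hr
      rw [h1]
      simp only [measureReal_zero_apply]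
      positivity
  · intro a ha hac v
    obtain ⟨Ka, hKa0, hKa⟩ := Crest.Agent.R235.Reg_FWLIMa_712.exists_rad hac
    set k : E4 → ℝ := fun u => a (p u) * b (e u) with hk
    have hkd : ContDiff ℝ ∞ k := (ha.comp p.contDiff).mul (hb.comp e.contDiff)
    have hkc : HasCompactSupport k := by
      refine HasCompactSupport.intro (isCompact_closedBall (0 : E4) (n1 * Ka + n2 * Kb))
        fun u hu => ?_
      rw [mem_closedBall, dist_zero_right, not_le] at hu
      rcases hfar Ka hKa0 u hu with h2 | h2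
      · simp only [hk, hKa _ h2, zero_mul]
      · simp only [hk, hKb _ h2, mul_zero]
    -- derivative of `k` along the plane
    have hkf : ∀ u w, fderiv ℝ k u w =
        fderiv ℝ a (p u) (p w) * b (e u) + a (p u) * fderiv ℝ b (e u) (e w) := by
      intro u w
      have e1 : HasFDerivAt (fun u : E4 => a (p u)) ((fderiv ℝ a (p u)).comp p) u :=
        ((ha.differentiable (by norm_num)) (p u)).hasFDerivAt.comp u p.hasFDerivAt
      have e2 : HasFDerivAt (fun u : E4 => b (e u)) ((fderiv ℝ b (e u)).comp e) u :=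
        ((hb.differentiable (by norm_num)) (e u)).hasFDerivAt.comp u e.hasFDerivAt
      have e3 := (e1.mul e2).fderiv
      have e4 : k = (fun u : E4 => a (p u)) * fun u : E4 => b (e u) := rfl
      rw [e4, e3]
      simp only [add_apply, smul_apply, ContinuousLinearMap.comp_apply, smul_eq_mul]
      ring
    have hlim : ∀ θ : Cov, Tendsto (fun r => Lr D.s x r (fun u =>
        (fderiv ℝ k u X * θ (D.J x X) - θ X * fderiv ℝ k u (D.J x X)))) (𝓝[>] 0) (𝓝 0) := by
      intro θ
      have e1 := (der_tendsto D hx hG hkd hkc θ).mul_const (D.F x X (D.J x X))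
      rw [zero_mul] at e1
      refine e1.congr fun r => ?_
      unfold Lr
      rw [mul_assoc, ← integral_mul_const]
      congr 1
      refine integral_congr_ae (Eventually.of_forall fun y => ?_)
      have e2 := hq (wed (fderiv ℝ k (r⁻¹ • (y - x))) θ) (wed_alt _ _)
      rw [wed_apply] at e2
      simp only
      rw [e2]
    have hX := hlim (Complex.imCLM.comp p)
    have hJX := (hlim (Complex.reCLM.comp p)).neg
    simp only [ContinuousLinearMap.comp_apply, h.pX, h.pJX, Complex.imCLM_apply,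
      Complex.reCLM_apply, Complex.one_im, Complex.one_re, Complex.I_im, Complex.I_re, mul_one,
      zero_mul, sub_zero, mul_zero, one_mul, zero_sub, neg_zero] at hX hJX
    have hcomb : Tendsto (fun r => v.re * Lr D.s x r (fun u => fderiv ℝ k u X) +
        v.im * -Lr D.s x r (fun u => -fderiv ℝ k u (D.J x X))) (𝓝[>] 0) (𝓝 0) := by
      have := (hX.const_mul v.re).add (hJX.const_mul v.im)
      simpa using this
    refine hcomb.congr' ?_
    filter_upwards [self_mem_nhdsWithin] with r hr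
    have hr : 0 < r := hr
    have hac' : Continuous fun z => fderiv ℝ a z v :=
      (ha.continuous_fderiv (by norm_num)).clm_apply continuous_const
    rw [int_lam hb.continuous hb0 hr hac'.measurable]
    have hkX : Continuous fun u => fderiv ℝ k u X :=
      (hkd.continuous_fderiv (by norm_num)).clm_apply continuous_const
    have hkJX : Continuous fun u => fderiv ℝ k u (D.J x X) :=
      (hkd.continuous_fderiv (by norm_num)).clm_apply continuous_const
    have hbX := hkX.bounded_above_of_compact_support (hkc.fderiv_apply (𝕜 := ℝ) X)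
    have hbJX := hkJX.bounded_above_of_compact_support (hkc.fderiv_apply (𝕜 := ℝ) (D.J x X))
    obtain ⟨M1, hM1⟩ := hbX
    obtain ⟨M2, hM2⟩ := hbJX
    have i1 := int_of_bd (s := D.s) (x := x) (r := r) hkX.measurable hM1
    have i2 := int_of_bd (s := D.s) (x := x) (r := r) hkJX.measurable hM2
    unfold Lr
    show v.re * ((r ^ 2)⁻¹ * ∫ y, fderiv ℝ k (r⁻¹ • (y - x)) X ∂D.s) +
        v.im * -((r ^ 2)⁻¹ * ∫ y, -fderiv ℝ k (r⁻¹ • (y - x)) (D.J x X) ∂D.s) =
        (r ^ 2)⁻¹ * ∫ y, fderiv ℝ a (p (r⁻¹ • (y - x))) v * b (e (r⁻¹ • (y - x))) ∂D.s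
    rw [integral_neg]
    have e5 : v.re * ((r ^ 2)⁻¹ * ∫ y, fderiv ℝ k (r⁻¹ • (y - x)) X ∂D.s) +
        v.im * -((r ^ 2)⁻¹ * -∫ y, fderiv ℝ k (r⁻¹ • (y - x)) (D.J x X) ∂D.s) =
        (r ^ 2)⁻¹ * ∫ y, (v.re * fderiv ℝ k (r⁻¹ • (y - x)) X +
          v.im * fderiv ℝ k (r⁻¹ • (y - x)) (D.J x X)) ∂D.s := by
      rw [integral_add (i1.const_mul _) (i2.const_mul _), integral_const_mul, integral_const_mul]
      ring
    rw [e5]
    congr 1
    refine integral_congr_ae (Eventually.of_forall fun y => ?_)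
    simp only
    rw [hkf, hkf, h.pX, h.pJX, h.eX, h.eJX, map_zero]
    have e6 : ∀ A : ℂ →L[ℝ] ℝ, A v = v.re * A 1 + v.im * A Complex.I := by
      intro A
      have hv : v = v.re • (1 : ℂ) + v.im • Complex.I := by
        simp only [Complex.real_smul, mul_one]
        exact (Complex.re_add_im v).symm
      conv_lhs => rw [hv]
      rw [map_add, map_smul, map_smul, smul_eq_mul, smul_eq_mul]
    rw [e6 (fderiv ℝ a (p (r⁻¹ • (y - x))))]
    ring

/-! ### the limit up to normalisation -/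

/-- integral over the plane. -/
def II (J : E4 →L[ℝ] E4) (X : E4) (f : E4 → ℝ) : ℝ := ∫ ζ : ℂ, f (ζ.re • X + ζ.im • J X)

theorem exists_const (hx : x ∈ ball D.x0 (4 * D.R)) (hG : Good D x)
    (h : Fr (D.J x) (D.φ x) X Y t p e)
    (hq : ∀ b : Bil, Alt b → q (D.F x) (D.φ x) b * D.F x X (D.J x X) = b X (D.J x X)) :
    ∃ c : ℝ → ℝ, (∀ r, 0 ≤ c r) ∧ ∀ f : E4 → ℝ, Continuous f → HasCompactSupport f →
      Tendsto (fun r => Lr D.s x r f - II (D.J x) X f * c r) (𝓝[>] 0) (𝓝 0) := by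
  have hfin : IsFiniteMeasure D.s := D.fin
  -- the cut-off
  let bb : ContDiffBump (0 : ℂ) := ⟨1, 2, one_pos, one_lt_two⟩
  have hb : ContDiff ℝ ∞ (bb : ℂ → ℝ) := bb.contDiff
  have hbc : HasCompactSupport (bb : ℂ → ℝ) := bb.hasCompactSupport
  have hb0 : ∀ z, 0 ≤ bb z := fun z => bb.nonneg
  have hb1 : ∀ z, bb z ≤ 1 := fun z => bb.le_one
  have hbz : bb 0 = 1 := bb.one_of_mem_closedBall (mem_closedBall_self (by norm_num))
  obtain ⟨B, hPH⟩ := lam_PH hx hG h hq hb hbc hb0 hb1
  set hn : ℂ → ℝ := fun z => bb.normed volume z with hhn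
  have hnc : Continuous hn := bb.continuous_normed
  have hncs : HasCompactSupport hn := bb.hasCompactSupport_normed
  refine ⟨fun r => ∫ z, hn z ∂(lam D.s x p e bb r), fun r => integral_nonneg fun z =>
    bb.nonneg_normed z, fun f hf hfc => ?_⟩
  -- `f` and its product form
  have hNc : Continuous fun v : E4 => Nn (D.J x) X (p v) := (Nn (D.J x) X).continuous.comp
    p.continuous
  set f1 : E4 → ℝ := fun v => f (Nn (D.J x) X (p v)) * bb (e v) with hf1
  have hf1c : Continuous f1 := (hf.comp hNc).mul (hb.continuous.comp e.continuous)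
  set a : ℂ → ℝ := fun z => f (Nn (D.J x) X z) with ha
  have hac : Continuous a := hf.comp (Nn (D.J x) X).continuous
  have hacs : HasCompactSupport a := by
    obtain ⟨K, hK0, hK⟩ := exists_rad4 hfc
    refine HasCompactSupport.intro (isCompact_closedBall (0 : ℂ) (‖p‖ * K)) fun z hz => ?_
    rw [mem_closedBall, dist_zero_right, not_le] at hz
    refine hK _ ?_
    by_contra hcon
    push Not at hcon
    have h1 : ‖z‖ ≤ ‖p‖ * ‖Nn (D.J x) X z‖ := by
      conv_lhs => rw [← p_Nn h z]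
      exact p.le_opNorm _
    have h2 : ‖p‖ * ‖Nn (D.J x) X z‖ ≤ ‖p‖ * K := mul_le_mul_of_nonneg_left hcon (norm_nonneg _)
    linarith
  have hf1s : HasCompactSupport f1 := by
    obtain ⟨Ka, hKa0, hKa⟩ := Crest.Agent.R235.Reg_FWLIMa_712.exists_rad hacs
    refine HasCompactSupport.intro (isCompact_closedBall (0 : E4)
      ((‖X‖ + ‖D.J x X‖) * Ka + (‖Y‖ + ‖D.J x Y‖) * 2)) fun v hv => ?_
    rw [mem_closedBall, dist_zero_right, not_le] at hv
    by_cases h1 : Ka < ‖p v‖
    · have h2 := hKa _ h1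
      simp only [ha] at h2
      simp only [hf1, h2, zero_mul]
    · by_cases h3 : 2 < ‖e v‖
      · have h4 : bb (e v) = 0 := bb.zero_of_le_dist (by rw [dist_zero_right]; exact h3.le)
        simp only [hf1, h4, mul_zero]
      · exfalso
        push Not at h1 h3
        have h5 := norm_le_pe h v
        have h6 : (‖X‖ + ‖D.J x X‖) * ‖p v‖ ≤ (‖X‖ + ‖D.J x X‖) * Ka :=
          mul_le_mul_of_nonneg_left h1 (by positivity)
        have h7 : (‖Y‖ + ‖D.J x Y‖) * ‖e v‖ ≤ (‖Y‖ + ‖D.J x Y‖) * 2 :=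
          mul_le_mul_of_nonneg_left h3 (by positivity)
        linarith
  have hvan := van_tendsto hG h (hf.sub hf1c) (hfc.sub hf1s) (fun ζ => by
    show f _ - f (Nn (D.J x) X (p (Nn (D.J x) X ζ))) * bb (e (Nn (D.J x) X ζ)) = 0
    rw [p_Nn h, e_Nn h, hbz, mul_one, sub_self])
  obtain ⟨M, -, hM⟩ := exists_bd4 hf hfc
  obtain ⟨M1, -, hM1⟩ := exists_bd4 hf1c hf1s
  have hpl := planar hPH hac hacs hnc hncs
  have hI1 : ∫ z, hn z = 1 := bb.integral_normed
  have hIa : ∫ z, a z = II (D.J x) X f := rfl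
  rw [hI1, hIa] at hpl
  simp only [mul_one] at hpl
  have hsum := hvan.add hpl
  rw [add_zero] at hsum
  refine hsum.congr' ?_
  filter_upwards [self_mem_nhdsWithin] with r hr
  have hr : 0 < r := hr
  have e1 : Lr D.s x r (f - f1) = Lr D.s x r f - Lr D.s x r f1 :=
    Lr_sub (int_of_bd hf.measurable hM) (int_of_bd hf1c.measurable hM1)
  have e2 : ∫ z, a z ∂(lam D.s x p e bb r) = Lr D.s x r f1 :=
    int_lam hb.continuous hb0 hr hac.measurable
  rw [e1, e2]
  ring

/-! ### the normalisation -/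

/-- piecewise linear cut-off: `1` on `t ≤ α`, `0` on `t ≥ β`. -/
def cu (α β t : ℝ) : ℝ := max 0 (min 1 ((β - t) / (β - α)))

theorem cu_cont (α β : ℝ) : Continuous (cu α β) := by
  unfold cu
  exact continuous_const.max (continuous_const.min ((continuous_const.sub continuous_id).div_const _))

theorem cu_nonneg (α β t : ℝ) : 0 ≤ cu α β t := le_max_left _ _

theorem cu_le (α β t : ℝ) : cu α β t ≤ 1 := max_le zero_le_one (min_le_left _ _)

theorem cu_one {α β t : ℝ} (h : α < β) (ht : t ≤ α) : cu α β t = 1 := by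
  unfold cu
  have h1 : 1 ≤ (β - t) / (β - α) := by
    rw [le_div_iff₀ (by linarith)]; linarith
  rw [min_eq_left h1, max_eq_right zero_le_one]

theorem cu_zero {α β t : ℝ} (h : α < β) (ht : β ≤ t) : cu α β t = 0 := by
  unfold cu
  have h1 : (β - t) / (β - α) ≤ 0 := div_nonpos_of_nonpos_of_nonneg (by linarith) (by linarith)
  exact max_eq_left ((min_le_right _ _).trans h1)

theorem vol_ball {ρ : ℝ} (hρ : 0 ≤ ρ) :
    (volume : Measure ℂ).real (ball 0 ρ) = Real.pi * ρ ^ 2 := by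
  rw [measureReal_def, Complex.volume_ball]
  rw [ENNReal.toReal_mul, ENNReal.toReal_pow, ENNReal.toReal_ofReal hρ, mul_comm]
  rfl

theorem int_cu {α β c : ℝ} (h0 : 0 < α) (h : α < β) (hc : 0 < c) :
    Real.pi * (α / c) ≤ ∫ ζ : ℂ, cu α β (‖ζ‖ ^ 2 * c) ∧
      ∫ ζ : ℂ, cu α β (‖ζ‖ ^ 2 * c) ≤ Real.pi * (β / c) := by
  have hcont : Continuous fun ζ : ℂ => cu α β (‖ζ‖ ^ 2 * c) :=
    (cu_cont α β).comp ((continuous_norm.pow 2).mul continuous_const)
  have hout : ∀ ζ : ℂ, ζ ∉ ball (0 : ℂ) (√(β / c)) → cu α β (‖ζ‖ ^ 2 * c) = 0 := by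
    intro ζ hζ
    rw [mem_ball, dist_zero_right, not_lt] at hζ
    refine cu_zero h ?_
    have h1 : β / c ≤ ‖ζ‖ ^ 2 := by
      rw [← Real.sq_sqrt (div_nonneg (h0.trans h).le hc.le : 0 ≤ β / c)]
      exact pow_le_pow_left₀ (Real.sqrt_nonneg _) hζ 2
    rwa [div_le_iff₀ hc] at h1
  have hcs : HasCompactSupport fun ζ : ℂ => cu α β (‖ζ‖ ^ 2 * c) :=
    HasCompactSupport.intro (isCompact_closedBall (0 : ℂ) (√(β / c))) fun ζ hζ =>
      hout ζ fun hm => hζ (ball_subset_closedBall hm)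
  have hint := hcont.integrable_of_hasCompactSupport (μ := volume) hcs
  have hi1 : Integrable ((ball (0 : ℂ) (√(α / c))).indicator fun _ => (1 : ℝ)) :=
    (integrableOn_const measure_ball_lt_top.ne).integrable_indicator measurableSet_ball
  have hi2 : Integrable ((ball (0 : ℂ) (√(β / c))).indicator fun _ => (1 : ℝ)) :=
    (integrableOn_const measure_ball_lt_top.ne).integrable_indicator measurableSet_ball
  have e1 : ∫ ζ : ℂ, (ball (0 : ℂ) (√(α / c))).indicator (fun _ => (1 : ℝ)) ζ =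
      Real.pi * (α / c) := by
    rw [integral_indicator measurableSet_ball, setIntegral_const, smul_eq_mul, mul_one,
      vol_ball (Real.sqrt_nonneg _), Real.sq_sqrt (by positivity)]
  have e2 : ∫ ζ : ℂ, (ball (0 : ℂ) (√(β / c))).indicator (fun _ => (1 : ℝ)) ζ =
      Real.pi * (β / c) := by
    rw [integral_indicator measurableSet_ball, setIntegral_const, smul_eq_mul, mul_one,
      vol_ball (Real.sqrt_nonneg _), Real.sq_sqrt (by have := h0.trans h; positivity)]
  constructor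
  · rw [← e1]
    refine integral_mono hi1 hint fun ζ => ?_
    by_cases hζ : ζ ∈ ball (0 : ℂ) (√(α / c))
    · rw [indicator_of_mem hζ]
      rw [mem_ball, dist_zero_right] at hζ
      have h1 : ‖ζ‖ ^ 2 ≤ α / c := by
        rw [← Real.sq_sqrt (by positivity : 0 ≤ α / c)]
        exact pow_le_pow_left₀ (norm_nonneg _) hζ.le 2
      rw [le_div_iff₀ hc] at h1
      exact (cu_one h h1).ge
    · rw [indicator_of_notMem hζ]
      exact cu_nonneg _ _ _
  · rw [← e2]
    refine integral_mono hint hi2 fun ζ => ?_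
    by_cases hζ : ζ ∈ ball (0 : ℂ) (√(β / c))
    · rw [indicator_of_mem hζ]
      exact cu_le _ _ _
    · rw [indicator_of_notMem hζ]
      exact (hout ζ hζ).le

theorem norm_tendsto (hden : IsDenE (D.G x) D.s x 1) (hX : X ≠ 0) {c : ℝ → ℝ}
    (hc0 : ∀ r, 0 ≤ c r)
    (hc : ∀ f : E4 → ℝ, Continuous f → HasCompactSupport f →
      Tendsto (fun r => Lr D.s x r f - II (D.J x) X f * c r) (𝓝[>] 0) (𝓝 0)) :
    Tendsto c (𝓝[>] 0) (𝓝 (D.F x X (D.J x X))) := by
  have hfin : IsFiniteMeasure D.s := D.fin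
  set Fx : ℝ := D.F x X (D.J x X) with hFx
  have hF0 : 0 < Fx := (D.bd x).spos.pos X hX
  have hJ := (D.bd x).sq
  have hFa := (D.bd x).spos.alt
  have hm := (D.bd x).m_pos
  set gq : E4 → ℝ := fun v => D.F x v (D.J x v) with hgq
  have hgc : Continuous gq :=
    ((D.F x).continuous.clm_apply (D.J x).continuous)
  have hgN : ∀ ζ : ℂ, gq (ζ.re • X + ζ.im • D.J x X) = ‖ζ‖ ^ 2 * Fx := by
    intro ζ
    have h1 : ‖ζ‖ ^ 2 = ζ.re ^ 2 + ζ.im ^ 2 := by
      rw [← Complex.normSq_eq_norm_sq, Complex.normSq_apply]; ring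
    have h2 : D.F x X X = 0 := hFa X
    have h3 : D.F x (D.J x X) (D.J x X) = 0 := hFa _
    have h4 : D.F x (D.J x X) X = -Fx := hFa.swap _ _
    simp only [hgq, map_add, map_smul, add_apply, smul_apply, smul_eq_mul, hJ, map_neg, h2, h3, h4]
    rw [h1, ← hFx]
    ring
  have hgr : ∀ (r : ℝ), 0 < r → ∀ y, gq (r⁻¹ • (y - x)) = (r ^ 2)⁻¹ * D.G x (y - x) (y - x) := by
    intro r hr y
    simp only [hgq, map_smul, smul_apply, smul_eq_mul]
    show r⁻¹ * (r⁻¹ * D.F x (y - x) (D.J x (y - x))) = (r ^ 2)⁻¹ * D.F x (y - x) (D.J x (y - x))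
    rw [← mul_assoc, sq, mul_inv]
  -- the test functions
  have hkc : ∀ α β : ℝ, Continuous fun v => cu α β (gq v) := fun α β => (cu_cont α β).comp hgc
  have hks : ∀ α β : ℝ, 0 < α → α < β → HasCompactSupport fun v => cu α β (gq v) := by
    intro α β h0 h
    refine HasCompactSupport.intro (isCompact_closedBall (0 : E4) (√(β / D.m))) fun v hv => ?_
    rw [mem_closedBall, dist_zero_right, not_le] at hv
    refine cu_zero h ?_
    have h1 : β / D.m ≤ ‖v‖ ^ 2 := by
      rw [← Real.sq_sqrt (by have := h0.trans h; positivity : 0 ≤ β / D.m)]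
      exact pow_le_pow_left₀ (Real.sqrt_nonneg _) hv.le 2
    rw [div_le_iff₀ hm] at h1
    have h2 := (D.bd x).lo v
    simp only [hgq]
    linarith
  have hII : ∀ α β : ℝ, 0 < α → α < β → Real.pi * (α / Fx) ≤ II (D.J x) X (fun v => cu α β (gq v)) ∧
      II (D.J x) X (fun v => cu α β (gq v)) ≤ Real.pi * (β / Fx) := by
    intro α β h0 h
    have h1 : II (D.J x) X (fun v => cu α β (gq v)) = ∫ ζ : ℂ, cu α β (‖ζ‖ ^ 2 * Fx) := by
      unfold II
      refine integral_congr_ae (Eventually.of_forall fun ζ => ?_)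
      simp only [hgN]
    rw [h1]
    exact int_cu h0 h hF0
  -- the mass of the ellipsoid
  set mr : ℝ → ℝ := fun r => (r ^ 2)⁻¹ * D.s.real {y | D.G x (y - x) (y - x) < r ^ 2} with hmr
  have hGm : ∀ r : ℝ, MeasurableSet {y | D.G x (y - x) (y - x) < r ^ 2} := by
    intro r
    have h1 : Continuous fun y : E4 => D.G x (y - x) (y - x) :=
      ((D.G x).continuous.comp (continuous_id.sub continuous_const)).clm_apply
        (continuous_id.sub continuous_const)
    exact (isOpen_lt h1 continuous_const).measurableSet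
  have hmr1 : Tendsto mr (𝓝[>] 0) (𝓝 Real.pi) := by
    have h1 := hden.const_mul Real.pi
    rw [mul_one] at h1
    refine h1.congr' ?_
    filter_upwards [self_mem_nhdsWithin] with r hr
    have hr : 0 < r := hr
    simp only [hmr]
    have := Real.pi_pos.ne'
    field_simp
  have hmI : ∀ r : ℝ, mr r = (r ^ 2)⁻¹ *
      ∫ y, ({y | D.G x (y - x) (y - x) < r ^ 2}).indicator (fun _ => (1 : ℝ)) y ∂D.s := by
    intro r
    rw [integral_indicator (hGm r), setIntegral_const, smul_eq_mul, mul_one]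
  have hLi : ∀ (α β r : ℝ), Integrable (fun y => cu α β (gq (r⁻¹ • (y - x)))) D.s := by
    intro α β r
    refine int_of_bd (f := fun v => cu α β (gq v)) (hkc α β).measurable (M := 1) fun v => ?_
    rw [abs_of_nonneg (cu_nonneg _ _ _)]
    exact cu_le _ _ _
  have hindi : ∀ r : ℝ, Integrable
      (({y | D.G x (y - x) (y - x) < r ^ 2}).indicator (fun _ => (1 : ℝ))) D.s := fun r =>
    (integrable_const _).indicator (hGm r)
  have hlow : ∀ δ : ℝ, 0 < δ → δ < 1 → ∀ r, 0 < r →
      Lr D.s x r (fun v => cu (1 - δ) 1 (gq v)) ≤ mr r := by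
    intro δ hδ hδ1 r hr
    rw [hmI]
    refine mul_le_mul_of_nonneg_left ?_ (by positivity)
    refine integral_mono (hLi _ _ _) (hindi r) fun y => ?_
    by_cases hy : y ∈ {y | D.G x (y - x) (y - x) < r ^ 2}
    · rw [indicator_of_mem hy]
      exact cu_le _ _ _
    · rw [indicator_of_notMem hy]
      refine (cu_zero (by linarith) ?_).le
      rw [hgr r hr, inv_mul_eq_div, le_div_iff₀ (by positivity), one_mul]
      simpa using hy
  have hupp : ∀ δ : ℝ, 0 < δ → ∀ r, 0 < r →
      mr r ≤ Lr D.s x r (fun v => cu 1 (1 + δ) (gq v)) := by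
    intro δ hδ r hr
    rw [hmI]
    refine mul_le_mul_of_nonneg_left ?_ (by positivity)
    refine integral_mono (hindi r) (hLi _ _ _) fun y => ?_
    by_cases hy : y ∈ {y | D.G x (y - x) (y - x) < r ^ 2}
    · rw [indicator_of_mem hy]
      refine (cu_one (by linarith) ?_).ge
      rw [hgr r hr, inv_mul_eq_div, div_le_iff₀ (by positivity), one_mul]
      exact le_of_lt hy
    · rw [indicator_of_notMem hy]
      exact cu_nonneg _ _ _
  have hpi := Real.pi_pos
  -- eventual bounds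
  have hev : ∀ δ : ℝ, 0 < δ → δ < 1 → ∀ᶠ r in 𝓝[>] (0 : ℝ),
      (Real.pi - 2 * δ) * Fx / (Real.pi * (1 + δ)) ≤ c r ∧
        c r ≤ (Real.pi + 2 * δ) * Fx / (Real.pi * (1 - δ)) := by
    intro δ hδ hδ1
    have h1 := hc _ (hkc 1 (1 + δ)) (hks 1 (1 + δ) one_pos (by linarith))
    have h2 := hc _ (hkc (1 - δ) 1) (hks (1 - δ) 1 (by linarith) (by linarith))
    rw [Metric.tendsto_nhds] at h1 h2
    have h3 := hmr1
    rw [Metric.tendsto_nhds] at h3
    filter_upwards [h1 δ hδ, h2 δ hδ, h3 δ hδ, self_mem_nhdsWithin] with r a1 a2 a3 hr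
    have hr : 0 < r := hr
    rw [Real.dist_eq, sub_zero, abs_lt] at a1 a2
    rw [Real.dist_eq, abs_lt] at a3
    have b1 := hupp δ hδ r hr
    have b2 := hlow δ hδ hδ1 r hr
    have b3 := (hII 1 (1 + δ) one_pos (by linarith)).2
    have b4 := (hII (1 - δ) 1 (by linarith) (by linarith)).1
    have b5 := mul_le_mul_of_nonneg_right b3 (hc0 r)
    have b6 := mul_le_mul_of_nonneg_right b4 (hc0 r)
    constructor
    · rw [div_le_iff₀ (by positivity)]
      have e1 : Real.pi * ((1 + δ) / Fx) * c r * Fx = c r * (Real.pi * (1 + δ)) := by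
        field_simp
      rw [← e1]
      refine mul_le_mul_of_nonneg_right ?_ hF0.le
      linarith [a1.2, a3.1]
    · rw [le_div_iff₀ (mul_pos hpi (by linarith))]
      have e1 : Real.pi * ((1 - δ) / Fx) * c r * Fx = c r * (Real.pi * (1 - δ)) := by
        field_simp
      rw [← e1]
      refine mul_le_mul_of_nonneg_right ?_ hF0.le
      linarith [a2.1, a3.2]
  rw [tendsto_order]
  have hd : Tendsto (fun δ : ℝ => δ) (𝓝[>] 0) (𝓝 0) := tendsto_id.mono_left nhdsWithin_le_nhds
  have hlim1 : Tendsto (fun δ : ℝ => (Real.pi - 2 * δ) * Fx / (Real.pi * (1 + δ))) (𝓝[>] 0)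
      (𝓝 ((Real.pi - 2 * 0) * Fx / (Real.pi * (1 + 0)))) :=
    ((tendsto_const_nhds.sub (hd.const_mul 2)).mul_const _).div
      ((tendsto_const_nhds.add hd).const_mul _) (by simp)
  have hlim2 : Tendsto (fun δ : ℝ => (Real.pi + 2 * δ) * Fx / (Real.pi * (1 - δ))) (𝓝[>] 0)
      (𝓝 ((Real.pi + 2 * 0) * Fx / (Real.pi * (1 - 0)))) :=
    ((tendsto_const_nhds.add (hd.const_mul 2)).mul_const _).div
      ((tendsto_const_nhds.sub hd).const_mul _) (by simp)
  have e1 : (Real.pi - 2 * 0) * Fx / (Real.pi * (1 + 0)) = Fx := by field_simp; ring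
  have e2 : (Real.pi + 2 * 0) * Fx / (Real.pi * (1 - 0)) = Fx := by field_simp; ring
  rw [e1] at hlim1
  rw [e2] at hlim2
  have hsmall : ∀ᶠ δ : ℝ in 𝓝[>] 0, 0 < δ ∧ δ < 1 := by
    filter_upwards [self_mem_nhdsWithin, hd.eventually_lt_const one_pos] with δ h1 h2
      using ⟨h1, h2⟩
  constructor
  · intro a ha
    obtain ⟨δ, h1, h2, h3⟩ := ((hlim1.eventually_const_lt ha).and hsmall).exists
    filter_upwards [hev δ h2 h3] with r hr
    exact lt_of_lt_of_le h1 hr.1
  · intro a ha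
    obtain ⟨δ, h1, h2, h3⟩ := ((hlim2.eventually_lt_const ha).and hsmall).exists
    filter_upwards [hev δ h2 h3] with r hr
    exact lt_of_le_of_lt hr.2 h1

end main

/-- (A1.0d). -/
theorem fwlim : FWLIM := by
  intro D x hx hG hden X hX hX0 hY f hf hfc
  obtain ⟨Y, hY⟩ := hY
  obtain ⟨p, e, hfr, hq⟩ := exists_fr (D.bd x).sq (D.bd x).spos (D.pos x) (D.nrm x) hX hX0 hY
  obtain ⟨c, hc0, hc⟩ := exists_const hx hG hfr hq
  have h1 := norm_tendsto hden hX hc0 hc
  have h2 := (hc f hf hfc).add (h1.const_mul (II (D.J x) X f))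
  rw [zero_add] at h2
  refine h2.congr fun r => ?_
  unfold Lr
  ring

end

end Crest.Agent.R235.Reg_FWLIM_712
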