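import Mathlib

/-!
Row 235, REG A1.0d (task 400), part 1: a planar lemma.  Measures `λ_i` on `ℂ`, uniformly bounded on
balls, with `∫ D_v a dλ_i → 0` for all test functions `a`, satisfy
`(∫ a dλ_i) (∫ h) - (∫ a) (∫ h dλ_i) → 0` for all `a, h ∈ C_c(ℂ)`.
-/

set_option autoImplicit false

open MeasureTheory Metric Set Filter
open scoped ContDiff Topology

namespace Crest.Agent.R235.Reg_FWLIMa_712

noncomputable section

variable {ι : Type*}

/-- the hypotheses of the planar lemma. -/
structure PH (l : Filter ι) (lam : ι → Measure ℂ) (B : ℝ → ℝ) : Prop where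
  fin : ∀ i, IsFiniteMeasure (lam i)
  bd : ∀ i K, (lam i).real (closedBall 0 K) ≤ B K
  der : ∀ a : ℂ → ℝ, ContDiff ℝ ∞ a → HasCompactSupport a → ∀ v : ℂ,
    Tendsto (fun i => ∫ z, fderiv ℝ a z v ∂(lam i)) l (𝓝 0)

theorem PH.B_nonneg {l : Filter ι} {lam : ι → Measure ℂ} {B : ℝ → ℝ} (H : PH l lam B) (i : ι)
    (K : ℝ) : 0 ≤ B K := measureReal_nonneg.trans (H.bd i K)

theorem int_bd {m : Measure ℂ} [IsFiniteMeasure m] {a : ℂ → ℝ} {M K : ℝ} (hM : ∀ z, |a z| ≤ M)
    (hK : ∀ z, K < ‖z‖ → a z = 0) : |∫ z, a z ∂m| ≤ M * m.real (closedBall 0 K) := by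
  have h1 : ∫ z, a z ∂m = ∫ z in closedBall 0 K, a z ∂m := by
    refine (setIntegral_eq_integral_of_forall_compl_eq_zero fun z hz => hK z ?_).symm
    simpa only [mem_closedBall, dist_zero_right, not_le] using hz
  rw [h1, ← Real.norm_eq_abs]
  exact norm_setIntegral_le_of_norm_le_const (measure_lt_top m _) fun z _ => by
    rw [Real.norm_eq_abs]; exact hM z

theorem exists_rad {a : ℂ → ℝ} (ha : HasCompactSupport a) : ∃ K : ℝ, 0 ≤ K ∧ ∀ z, K < ‖z‖ → a z = 0 := by
  obtain ⟨K, hK⟩ := ha.isCompact.isBounded.subset_closedBall 0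
  refine ⟨max K 0, le_max_right _ _, fun z hz => ?_⟩
  by_contra h
  have h1 := hK (subset_tsupport a h)
  rw [mem_closedBall, dist_zero_right] at h1
  exact absurd (lt_of_le_of_lt (le_max_left _ _) hz) (not_lt.2 h1)

theorem exists_bd {a : ℂ → ℝ} (h : Continuous a) (ha : HasCompactSupport a) :
    ∃ M : ℝ, 0 ≤ M ∧ ∀ z, |a z| ≤ M := by
  obtain ⟨M, hM⟩ := h.bounded_above_of_compact_support ha
  exact ⟨M, (norm_nonneg _).trans (hM 0), fun z => hM z⟩

/-- translates. -/
theorem trans_tendsto {l : Filter ι} [l.IsCountablyGenerated] {lam : ι → Measure ℂ} {B : ℝ → ℝ}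
    (H : PH l lam B) {a : ℂ → ℝ} (ha : ContDiff ℝ ∞ a) (hc : HasCompactSupport a) (w : ℂ) :
    Tendsto (fun i => ∫ z, (a (z - w) - a z) ∂(lam i)) l (𝓝 0) := by
  have hd : Continuous (fderiv ℝ a) := ha.continuous_fderiv (by norm_num)
  obtain ⟨K, hK0, hK⟩ := exists_rad hc
  have hdc : HasCompactSupport (fderiv ℝ a) := hc.fderiv (𝕜 := ℝ)
  obtain ⟨M, hM⟩ := hd.bounded_above_of_compact_support hdc
  have hcont : Continuous (fun p : ℂ × ℝ => fderiv ℝ a (p.1 - p.2 • w) w) :=
    (hd.comp (by fun_prop)).clm_apply continuous_const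
  have hfz : ∀ (z : ℂ) (t : ℝ), |fderiv ℝ a (z - t • w) w| ≤ M * ‖w‖ := by
    intro z t
    rw [← Real.norm_eq_abs]
    exact ((fderiv ℝ a (z - t • w)).le_opNorm w).trans
      (mul_le_mul_of_nonneg_right (hM _) (norm_nonneg _))
  -- the formula
  have key : ∀ i, ∫ z, (a (z - w) - a z) ∂(lam i) =
      ∫ t in Ioc (0 : ℝ) 1, -∫ z, fderiv ℝ a (z - t • w) w ∂(lam i) := by
    intro i
    have := H.fin i
    have h1 : ∀ z, a (z - w) - a z = ∫ t in Ioc (0 : ℝ) 1, -(fderiv ℝ a (z - t • w) w) := by
      intro z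
      have hder : ∀ t ∈ uIcc (0 : ℝ) 1,
          HasDerivAt (fun t : ℝ => a (z - t • w)) (-(fderiv ℝ a (z - t • w) w)) t := by
        intro t _
        have h2 : HasFDerivAt a (fderiv ℝ a (z - t • w)) (z - t • w) :=
          ((ha.differentiable (by norm_num)) _).hasFDerivAt
        have h3 : HasDerivAt (fun t : ℝ => z - t • w) (-w) t := by
          have h4 : HasDerivAt (fun t : ℝ => t • w) ((1 : ℝ) • w) t :=
            (hasDerivAt_id t).smul_const w
          rw [one_smul] at h4
          simpa using h4.const_sub z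
        have h5 := h2.comp_hasDerivAt t h3
        rw [map_neg] at h5
        exact h5
      have hint : IntervalIntegrable (fun t : ℝ => -(fderiv ℝ a (z - t • w) w)) volume 0 1 := by
        refine Continuous.intervalIntegrable ?_ _ _
        exact ((hd.comp (by fun_prop)).clm_apply continuous_const).neg
      have h6 := intervalIntegral.integral_eq_sub_of_hasDerivAt hder hint
      simp only [one_smul, zero_smul, sub_zero] at h6
      rw [← h6, intervalIntegral.integral_of_le zero_le_one]
    simp_rw [h1]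
    rw [integral_integral_swap]
    · refine integral_congr_ae (Eventually.of_forall fun t => ?_)
      exact integral_neg _
    · refine Integrable.of_bound (C := M * ‖w‖) hcont.neg.aestronglyMeasurable ?_
      refine Eventually.of_forall fun p => ?_
      simp only [Function.uncurry, norm_neg, Real.norm_eq_abs]
      exact hfz p.1 p.2
  have hzero : ∀ t : ℝ, t ∈ Ioc (0 : ℝ) 1 → ∀ z : ℂ, K + ‖w‖ < ‖z‖ →
      fderiv ℝ a (z - t • w) w = 0 := by
    intro t ht z hz
    have h1 : ∀ᶠ y in 𝓝 (z - t • w), a y = 0 := by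
      have h2 : K < ‖z - t • w‖ := by
        have h3 : ‖t • w‖ ≤ ‖w‖ := by
          rw [norm_smul, Real.norm_eq_abs, abs_of_pos ht.1]
          exact mul_le_of_le_one_left (norm_nonneg _) ht.2
        have h4 := norm_sub_norm_le z (t • w)
        linarith
      filter_upwards [(isOpen_lt continuous_const continuous_norm).mem_nhds h2] with y hy
        using hK y hy
    have h5 : a =ᶠ[𝓝 (z - t • w)] fun _ => 0 := h1
    rw [h5.fderiv_eq]
    simp
  have hlim : Tendsto (fun i => ∫ t in Ioc (0 : ℝ) 1, -∫ z, fderiv ℝ a (z - t • w) w ∂(lam i)) l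
      (𝓝 (∫ t in Ioc (0 : ℝ) 1, (0 : ℝ))) := by
    refine tendsto_integral_filter_of_dominated_convergence
      (fun _ => M * ‖w‖ * B (K + ‖w‖)) ?_ ?_ ?_ ?_
    · refine Eventually.of_forall fun i => ?_
      have := H.fin i
      refine AEStronglyMeasurable.neg ?_
      exact (StronglyMeasurable.integral_prod_right' (f := fun p : ℝ × ℂ =>
        fderiv ℝ a (p.2 - p.1 • w) w)
        (hcont.comp (continuous_snd.prodMk continuous_fst)).stronglyMeasurable).aestronglyMeasurable
    · refine Eventually.of_forall fun i => ?_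
      have := H.fin i
      refine (ae_restrict_iff' measurableSet_Ioc).2 (Eventually.of_forall fun t ht => ?_)
      rw [norm_neg, Real.norm_eq_abs]
      refine (int_bd (fun z => hfz z t) (hzero t ht)).trans ?_
      exact mul_le_mul_of_nonneg_left (H.bd i _) ((abs_nonneg _).trans (hfz 0 0))
    · exact integrable_const _
    · refine Eventually.of_forall fun t => ?_
      have h1 : ContDiff ℝ ∞ (fun z : ℂ => a (z - t • w)) := ha.comp (contDiff_id.sub contDiff_const)
      have h2 : HasCompactSupport (fun z : ℂ => a (z - t • w)) := by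
        refine HasCompactSupport.intro (isCompact_closedBall (0 : ℂ) (K + ‖t • w‖)) fun z hz => ?_
        simp only [mem_closedBall, dist_zero_right, not_le] at hz
        refine hK _ ?_
        have h4 := norm_sub_norm_le z (t • w)
        linarith
      have h3 := (H.der _ h1 h2 w).neg
      rw [neg_zero] at h3
      refine h3.congr fun i => ?_
      congr 1
      refine integral_congr_ae (Eventually.of_forall fun z => ?_)
      show fderiv ℝ (fun z : ℂ => a (z - t • w)) z w = _
      rw [fderiv_comp_sub]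
  rw [integral_zero] at hlim
  exact hlim.congr fun i => (key i).symm

/-- convolution with a smooth function. -/
theorem conv_tendsto {l : Filter ι} [l.IsCountablyGenerated] {lam : ι → Measure ℂ} {B : ℝ → ℝ}
    (H : PH l lam B) {a h : ℂ → ℝ} (ha : ContDiff ℝ ∞ a) (hc : HasCompactSupport a)
    (hh : Continuous h) (hhc : HasCompactSupport h) :
    Tendsto (fun i => (∫ z, (∫ w, a (z - w) * h w) ∂(lam i)) - (∫ w, h w) * ∫ z, a z ∂(lam i)) l
      (𝓝 0) := by
  obtain ⟨K, hK0, hK⟩ := exists_rad hc
  obtain ⟨K', hK'0, hK'⟩ := exists_rad hhc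
  obtain ⟨M, hM0, hM⟩ := exists_bd ha.continuous hc
  have hhi : Integrable h := hh.integrable_of_hasCompactSupport hhc
  have hconv : Continuous (fun p : ℂ × ℂ => a (p.1 - p.2) * h p.2) :=
    (ha.continuous.comp (by fun_prop)).mul (hh.comp continuous_snd)
  have key : ∀ i, (∫ z, (∫ w, a (z - w) * h w) ∂(lam i)) - (∫ w, h w) * ∫ z, a z ∂(lam i) =
      ∫ w, h w * ∫ z, (a (z - w) - a z) ∂(lam i) := by
    intro i
    have := H.fin i
    have hai : Integrable a (lam i) :=
      Integrable.of_bound ha.continuous.aestronglyMeasurable M (Eventually.of_forall hM)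
    have hai' : ∀ w, Integrable (fun z => a (z - w)) (lam i) := fun w =>
      Integrable.of_bound (ha.continuous.comp (by fun_prop)).aestronglyMeasurable M
        (Eventually.of_forall fun z => hM _)
    have hpi : Integrable (Function.uncurry fun z w : ℂ => a (z - w) * h w)
        ((lam i).prod volume) := by
      have h1 : Integrable (fun p : ℂ × ℂ => M * |h p.2|) ((lam i).prod volume) := by
        exact (hhi.abs.comp_snd (lam i)).const_mul M
      refine h1.mono' hconv.aestronglyMeasurable (Eventually.of_forall fun p => ?_)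
      simp only [Function.uncurry, norm_mul, Real.norm_eq_abs]
      exact mul_le_mul_of_nonneg_right (hM _) (abs_nonneg _)
    have h2 : ∀ w, h w * ∫ z, (a (z - w) - a z) ∂(lam i) =
        (∫ z, a (z - w) * h w ∂(lam i)) - h w * ∫ z, a z ∂(lam i) := by
      intro w
      rw [integral_sub (hai' w) hai, integral_mul_const]
      ring
    simp_rw [h2]
    rw [integral_sub, integral_mul_const, integral_integral_swap hpi]
    · exact hpi.integral_prod_right
    · exact hhi.mul_const _
  have hlim : Tendsto (fun i => ∫ w, h w * ∫ z, (a (z - w) - a z) ∂(lam i)) l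
      (𝓝 (∫ w : ℂ, (0 : ℝ))) := by
    refine tendsto_integral_filter_of_dominated_convergence
      (fun w => |h w| * (2 * M * B (K + K'))) ?_ ?_ ?_ ?_
    · refine Eventually.of_forall fun i => ?_
      have := H.fin i
      refine hh.aestronglyMeasurable.mul ?_
      have hcn : Continuous (fun p : ℂ × ℂ => a (p.2 - p.1) - a p.2) :=
        (ha.continuous.comp (by fun_prop)).sub (ha.continuous.comp continuous_snd)
      exact (StronglyMeasurable.integral_prod_right' (f := fun p : ℂ × ℂ => a (p.2 - p.1) - a p.2)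
        hcn.stronglyMeasurable).aestronglyMeasurable
    · refine Eventually.of_forall fun i => Eventually.of_forall fun w => ?_
      have := H.fin i
      rw [norm_mul, Real.norm_eq_abs]
      by_cases hw : K' < ‖w‖
      · rw [hK' w hw]
        simp
      · push Not at hw
        refine mul_le_mul_of_nonneg_left ?_ (abs_nonneg _)
        rw [Real.norm_eq_abs]
        refine (int_bd (M := 2 * M) (K := K + K') (fun z => ?_) (fun z hz => ?_)).trans ?_
        · have h1 := abs_sub (a (z - w)) (a z)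
          linarith [hM (z - w), hM z]
        · rw [hK z (by linarith), hK (z - w), sub_zero]
          have h4 := norm_sub_norm_le z w
          linarith
        · exact mul_le_mul_of_nonneg_left (H.bd i _) (by positivity)
    · exact hhi.abs.mul_const _
    · refine Eventually.of_forall fun w => ?_
      have h1 := (trans_tendsto H ha hc w).const_mul (h w)
      rw [mul_zero] at h1
      exact h1
  rw [integral_zero] at hlim
  exact hlim.congr fun i => (key i).symm

/-- **the planar lemma**. -/
theorem planar {l : Filter ι} [l.IsCountablyGenerated] {lam : ι → Measure ℂ} {B : ℝ → ℝ}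
    (H : PH l lam B) {a h : ℂ → ℝ} (ha : Continuous a) (hac : HasCompactSupport a)
    (hh : Continuous h) (hhc : HasCompactSupport h) :
    Tendsto (fun i => (∫ z, a z ∂(lam i)) * (∫ z, h z) - (∫ z, a z) * ∫ z, h z ∂(lam i)) l
      (𝓝 0) := by
  -- mollification of one function
  have moll : ∀ (f : ℂ → ℝ), Continuous f → HasCompactSupport f → ∀ ε > 0, ∃ δ > 0,
      ∀ ρ : ContDiffBump (0 : ℂ), ρ.rOut ≤ δ → ∀ z,
        |(∫ w, ρ.normed volume (z - w) * f w) - f z| ≤ ε := by
    intro f hf hfc ε hε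
    have huc := hfc.uniformContinuous_of_continuous hf
    rw [Metric.uniformContinuous_iff] at huc
    obtain ⟨δ, hδ, hd⟩ := huc ε hε
    refine ⟨δ, hδ, fun ρ hρ z => ?_⟩
    have h1 : ∫ w, ρ.normed volume (z - w) * f w = ∫ w, ρ.normed volume w * f (z - w) := by
      rw [← integral_sub_left_eq_self (fun w => ρ.normed volume w * f (z - w)) volume z]
      refine integral_congr_ae (Eventually.of_forall fun w => ?_)
      simp
    have hρi : Integrable (fun w => ρ.normed volume w) := ρ.integrable_normed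
    have h2 : f z = ∫ w, ρ.normed volume w * f z := by
      rw [integral_mul_const, ρ.integral_normed, one_mul]
    obtain ⟨M, hM0, hM⟩ := exists_bd hf hfc
    have hi1 : Integrable (fun w => ρ.normed volume w * f (z - w)) := by
      refine hρi.mul_bdd (c := M) ((hf.comp (by fun_prop)).aestronglyMeasurable) ?_
      exact Eventually.of_forall fun w => hM _
    rw [h1]
    conv_lhs => rw [h2]
    rw [← integral_sub hi1 (hρi.mul_const _), ← Real.norm_eq_abs]
    have h3 : ∫ w, ρ.normed volume w * ε = ε := by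
      rw [integral_mul_const, ρ.integral_normed, one_mul]
    rw [← h3]
    refine norm_integral_le_of_norm_le (hρi.mul_const _) (Eventually.of_forall fun w => ?_)
    rw [← mul_sub, norm_mul, Real.norm_eq_abs, Real.norm_eq_abs,
      abs_of_nonneg (ρ.nonneg_normed w)]
    by_cases hw : w ∈ ball (0 : ℂ) ρ.rOut
    · refine mul_le_mul_of_nonneg_left ?_ (ρ.nonneg_normed w)
      rw [mem_ball, dist_zero_right] at hw
      have h4 := hd (a := z - w) (b := z) (by
        rw [dist_eq_norm, sub_sub_cancel_left, norm_neg]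
        linarith)
      rw [Real.dist_eq] at h4
      exact h4.le
    · have h5 : ρ.normed volume w = 0 := by
        rw [← ρ.support_normed_eq (μ := volume)] at hw
        simpa [Function.mem_support] using hw
      rw [h5]
      simp
  rw [Metric.tendsto_nhds]
  intro ε hε
  -- constants
  obtain ⟨K₁, hK₁0, hK₁⟩ := exists_rad hac
  obtain ⟨K₂, hK₂0, hK₂⟩ := exists_rad hhc
  set K : ℝ := max K₁ K₂ + 1 with hKdef
  by_cases hne : Nonempty ι
  swap
  · rw [not_nonempty_iff] at hne
    exact Eventually.of_forall fun i => (hne.false i).elim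
  obtain ⟨i₀⟩ := hne
  have hB0 := H.B_nonneg i₀ K
  set I₁ : ℝ := |∫ z, h z| with hI₁
  set I₂ : ℝ := |∫ z, a z| with hI₂
  have hI₁0 : 0 ≤ I₁ := abs_nonneg _
  have hI₂0 : 0 ≤ I₂ := abs_nonneg _
  set η : ℝ := ε / (2 * (B K + 1) * (I₁ + I₂ + 1)) with hη
  have hη0 : 0 < η := by positivity
  obtain ⟨δ₁, hδ₁, hm₁⟩ := moll a ha hac η hη0
  obtain ⟨δ₂, hδ₂, hm₂⟩ := moll h hh hhc η hη0
  set δ : ℝ := min (min δ₁ δ₂) 1 with hδ
  have hδ0 : 0 < δ := lt_min (lt_min hδ₁ hδ₂) one_pos
  let ρ : ContDiffBump (0 : ℂ) := ⟨δ / 2, δ, by positivity, by linarith⟩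
  have hρout : ρ.rOut = δ := rfl
  have hρs : ContDiff ℝ ∞ (ρ.normed volume) := ρ.contDiff_normed
  have hρc : HasCompactSupport (ρ.normed volume) := ρ.hasCompactSupport_normed
  have e1 := conv_tendsto H hρs hρc ha hac
  have e2 := conv_tendsto H hρs hρc hh hhc
  set ra : ℂ → ℝ := fun z => ∫ w, ρ.normed volume (z - w) * a w with hra
  set rh : ℂ → ℝ := fun z => ∫ w, ρ.normed volume (z - w) * h w with hrh
  -- supports of the mollified functions
  have hsupp : ∀ (f : ℂ → ℝ) (K₀ : ℝ), (∀ z, K₀ < ‖z‖ → f z = 0) → K₀ ≤ max K₁ K₂ →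
      ∀ z, K < ‖z‖ → (∫ w, ρ.normed volume (z - w) * f w) = 0 := by
    intro f K₀ hf hK₀ z hz
    rw [integral_eq_zero_of_ae]
    refine Eventually.of_forall fun w => ?_
    by_cases hw : K₀ < ‖w‖
    · simp [hf w hw]
    · have h5 : ρ.normed volume (z - w) = 0 := by
        have h6 : z - w ∉ ball (0 : ℂ) ρ.rOut := by
          rw [mem_ball, dist_zero_right, hρout, not_lt]
          have h4 := norm_sub_norm_le z w
          push Not at hw
          have h7 : δ ≤ 1 := min_le_right _ _
          linarith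
        rw [← ρ.support_normed_eq (μ := volume)] at h6
        simpa [Function.mem_support] using h6
      simp [h5]
  have hcontr : ∀ f : ℂ → ℝ, Continuous f → HasCompactSupport f →
      Continuous fun z => ∫ w, ρ.normed volume (z - w) * f w := by
    intro f hf hfc
    have h1 : Continuous (MeasureTheory.convolution (fun w => f w) (ρ.normed volume)
        (ContinuousLinearMap.mul ℝ ℝ) volume) :=
      hρc.continuous_convolution_right _ hf.locallyIntegrable ρ.continuous_normed
    refine h1.congr fun z => ?_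
    unfold MeasureTheory.convolution
    refine integral_congr_ae (Eventually.of_forall fun w => ?_)
    simp [mul_comm]
  have hdiff : ∀ (i : ι), |(∫ z, a z ∂(lam i)) - ∫ z, ra z ∂(lam i)| ≤ η * B K ∧
      |(∫ z, h z ∂(lam i)) - ∫ z, rh z ∂(lam i)| ≤ η * B K := by
    intro i
    have := H.fin i
    have gen : ∀ (f : ℂ → ℝ) (K₀ : ℝ), Continuous f → HasCompactSupport f →
        (∀ z, K₀ < ‖z‖ → f z = 0) → K₀ ≤ max K₁ K₂ →
        (∀ z, |(∫ w, ρ.normed volume (z - w) * f w) - f z| ≤ η) →
        |(∫ z, f z ∂(lam i)) - ∫ z, (∫ w, ρ.normed volume (z - w) * f w) ∂(lam i)| ≤ η * B K := by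
      intro f K₀ hf hfc hf0 hK₀ hfη
      obtain ⟨M, hM0, hM⟩ := exists_bd hf hfc
      have hi1 : Integrable f (lam i) :=
        Integrable.of_bound hf.aestronglyMeasurable M (Eventually.of_forall hM)
      have hi2 : Integrable (fun z => ∫ w, ρ.normed volume (z - w) * f w) (lam i) := by
        refine Integrable.of_bound (hcontr f hf hfc).aestronglyMeasurable (M + η)
          (Eventually.of_forall fun z => ?_)
        rw [Real.norm_eq_abs]
        have h1 := hfη z
        have h2 := hM z
        rw [abs_le] at *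
        constructor <;> linarith [h1.1, h1.2, h2.1, h2.2]
      rw [← integral_sub hi1 hi2]
      refine (int_bd (M := η) (K := K) (fun z => ?_) (fun z hz => ?_)).trans
        (mul_le_mul_of_nonneg_left (H.bd i K) hη0.le)
      · rw [abs_sub_comm]
        exact hfη z
      · rw [hsupp f K₀ hf0 hK₀ z hz, hf0 z (by linarith), sub_zero]
    exact ⟨gen a K₁ ha hac hK₁ (le_max_left _ _)
        (hm₁ ρ ((min_le_left _ _).trans (min_le_left _ _))),
      gen h K₂ hh hhc hK₂ (le_max_right _ _)
        (hm₂ ρ ((min_le_left _ _).trans (min_le_right _ _)))⟩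
  have e3 := (e1.mul_const (∫ z, h z)).sub (e2.const_mul (∫ z, a z))
  simp only [zero_mul, mul_zero, sub_zero] at e3
  rw [Metric.tendsto_nhds] at e3
  filter_upwards [e3 (ε / 2) (by positivity)] with i hi
  rw [Real.dist_eq, sub_zero] at hi ⊢
  obtain ⟨d1, d2⟩ := hdiff i
  have hid : (∫ z, a z ∂(lam i)) * (∫ z, h z) - (∫ z, a z) * ∫ z, h z ∂(lam i) =
      ((∫ z, a z ∂(lam i)) - ∫ z, ra z ∂(lam i)) * (∫ z, h z) -
      (∫ z, a z) * ((∫ z, h z ∂(lam i)) - ∫ z, rh z ∂(lam i)) +
      (((∫ z, ra z ∂(lam i)) - (∫ w, a w) * ∫ z, ρ.normed volume z ∂(lam i)) * (∫ z, h z) -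
        (∫ z, a z) * ((∫ z, rh z ∂(lam i)) - (∫ w, h w) * ∫ z, ρ.normed volume z ∂(lam i))) := by
    ring
  rw [hid]
  have b1 : |((∫ z, a z ∂(lam i)) - ∫ z, ra z ∂(lam i)) * (∫ z, h z)| ≤ η * B K * I₁ := by
    rw [abs_mul]
    exact mul_le_mul_of_nonneg_right d1 (abs_nonneg _)
  have b2 : |(∫ z, a z) * ((∫ z, h z ∂(lam i)) - ∫ z, rh z ∂(lam i))| ≤ I₂ * (η * B K) := by
    rw [abs_mul]
    exact mul_le_mul_of_nonneg_left d2 (abs_nonneg _)
  have b3 : η * B K * I₁ + I₂ * (η * B K) < ε / 2 := by
    have h1 : η * (B K + 1) * (I₁ + I₂ + 1) = ε / 2 := by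
      rw [hη]
      field_simp
    nlinarith [mul_nonneg hη0.le hB0, mul_nonneg (mul_nonneg hη0.le hB0) (add_nonneg hI₁0 hI₂0)]
  have t1 := abs_add_le (((∫ z, a z ∂(lam i)) - ∫ z, ra z ∂(lam i)) * (∫ z, h z) -
      (∫ z, a z) * ((∫ z, h z ∂(lam i)) - ∫ z, rh z ∂(lam i)))
      (((∫ z, ra z ∂(lam i)) - (∫ w, a w) * ∫ z, ρ.normed volume z ∂(lam i)) * (∫ z, h z) -
        (∫ z, a z) * ((∫ z, rh z ∂(lam i)) - (∫ w, h w) * ∫ z, ρ.normed volume z ∂(lam i)))
  have t2 := abs_sub (((∫ z, a z ∂(lam i)) - ∫ z, ra z ∂(lam i)) * (∫ z, h z))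
      ((∫ z, a z) * ((∫ z, h z ∂(lam i)) - ∫ z, rh z ∂(lam i)))
  linarith

end

end Crest.Agent.R235.Reg_FWLIMa_712
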