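import Crest.Agent.R240.Lin6
import Crest.Agent.R240.En1

/-!
Row 235, REG A1.0d (task 400), part 2: linear coordinates adapted to a degenerate positive form.
-/

set_option autoImplicit false

open MeasureTheory Metric Set Filter
open scoped ContDiff Topology

namespace Crest.Agent.R235.Reg_FWLIMb_712

open Crest.Agent.R240 Crest.Agent.R240.En

noncomputable section

/-- the linear map with columns `X, X', Y, Y'`. -/
def colm (X X' Y Y' : E4) : E4 →L[ℝ] E4 :=
  (pr 0).smulRight X + (pr 1).smulRight X' + (pr 2).smulRight Y + (pr 3).smulRight Y'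

theorem colm_apply (X X' Y Y' v : E4) :
    colm X X' Y Y' v = v 0 • X + v 1 • X' + v 2 • Y + v 3 • Y' := rfl

/-- coordinates adapted to `φ`: `X`, `J X` span the kernel. -/
structure Fr (J : E4 →L[ℝ] E4) (φ : Bil) (X Y : E4) (t : ℝ) (p e : E4 →L[ℝ] ℂ) : Prop where
  t0 : 0 < t
  rep : ∀ v, v = (p v).re • X + (p v).im • J X + (e v).re • Y + (e v).im • J Y
  pX : p X = 1
  pJX : p (J X) = Complex.I
  eX : e X = 0
  eJX : e (J X) = 0
  ph : ∀ v, φ v (J v) = t * ‖e v‖ ^ 2

theorem exists_fr {J : E4 →L[ℝ] E4} (hJ : ∀ v, J (J v) = -v) {F φ : Bil} (hF : SPos J F)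
    (hφ : Pos J φ) (hq : q F φ F = 1) {X : E4} (hX : X ≠ 0) (hX0 : φ X (J X) = 0) {Y : E4}
    (hY : φ Y (J Y) ≠ 0) : ∃ p e : E4 →L[ℝ] ℂ, Fr J φ X Y (φ Y (J Y)) p e ∧
      ∀ b : Bil, Alt b → q F φ b * F X (J X) = b X (J X) := by
  set t := φ Y (J Y) with ht
  have ht0 : 0 < t := lt_of_le_of_ne (hφ.nonneg Y) (Ne.symm hY)
  have k1 : ∀ v, φ X v = 0 := by
    intro v
    have h := hφ.cs hJ X v
    rw [hX0, zero_mul] at h
    exact pow_eq_zero_iff (two_ne_zero) |>.1 (le_antisymm h (sq_nonneg _))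
  have k1' : ∀ v, φ v X = 0 := fun v => by rw [hφ.alt.swap, k1, neg_zero]
  have k2' : ∀ v, φ v (J X) = 0 := by
    intro v
    have h : φ (J v) (J (J X)) = φ v (J X) := hφ.inv v (J X)
    rw [← h, hJ, map_neg, k1', neg_zero]
  have k2 : ∀ v, φ (J X) v = 0 := fun v => by rw [hφ.alt.swap, k2', neg_zero]
  have hYY : φ Y Y = 0 := hφ.alt Y
  have hJYJY : φ (J Y) (J Y) = 0 := hφ.alt _
  have hJYY : φ (J Y) Y = -t := by rw [hφ.alt.swap]
  have hinj : Function.Injective (colm X (J X) Y (J Y)) := by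
    rw [injective_iff_map_eq_zero]
    intro v hv
    rw [colm_apply] at hv
    have h3 : v 3 = 0 := by
      have h := congrArg (fun u => φ Y u) hv
      simp only [map_add, map_smul, smul_eq_mul, map_zero, k1', k2', hYY, mul_zero, add_zero,
        zero_add] at h
      rw [← ht] at h
      exact (mul_eq_zero.1 h).resolve_right hY
    have h2 : v 2 = 0 := by
      have h := congrArg (fun u => φ (J Y) u) hv
      simp only [map_add, map_smul, smul_eq_mul, map_zero, k1', k2', hJYJY, hJYY, mul_zero,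
        add_zero, zero_add] at h
      have h4 : v 2 * t = 0 := by linarith
      exact (mul_eq_zero.1 h4).resolve_right hY
    rw [h2, h3, zero_smul, zero_smul, add_zero, add_zero] at hv
    have hv2 := congrArg J hv
    simp only [map_add, map_smul, map_zero, hJ, smul_neg] at hv2
    have h5 : ((v 0) ^ 2 + (v 1) ^ 2) • X = 0 := by
      have h6 : v 0 • (v 0 • X + v 1 • J X) - v 1 • (v 0 • J X + -(v 1 • X)) = 0 := by
        rw [hv, hv2]; simp
      rw [← h6]
      module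
    have h7 := (smul_eq_zero.1 h5).resolve_right hX
    have h0 : v 0 = 0 := by nlinarith [sq_nonneg (v 0), sq_nonneg (v 1)]
    have h1 : v 1 = 0 := by nlinarith [sq_nonneg (v 0), sq_nonneg (v 1)]
    rw [sum_ee v, h0, h1, h2, h3]
    simp
  let A₀ : E4 ≃ₗ[ℝ] E4 :=
    LinearEquiv.ofInjectiveEndo (colm X (J X) Y (J Y) : E4 →ₗ[ℝ] E4) hinj
  let A : E4 ≃L[ℝ] E4 := A₀.toContinuousLinearEquiv
  have hA : ∀ v, A v = colm X (J X) Y (J Y) v := fun v => rfl
  let p : E4 →L[ℝ] ℂ := (pr 0).smulRight (1 : ℂ) + (pr 1).smulRight Complex.I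
  let e : E4 →L[ℝ] ℂ := (pr 2).smulRight (1 : ℂ) + (pr 3).smulRight Complex.I
  have hp : ∀ v, p v = (v 0 : ℂ) + (v 1 : ℂ) * Complex.I := by
    intro v
    show v 0 • (1 : ℂ) + v 1 • Complex.I = _
    simp
  have he : ∀ v, e v = (v 2 : ℂ) + (v 3 : ℂ) * Complex.I := by
    intro v
    show v 2 • (1 : ℂ) + v 3 • Complex.I = _
    simp
  set p' : E4 →L[ℝ] ℂ := p.comp (A.symm : E4 →L[ℝ] E4) with hp'
  set e' : E4 →L[ℝ] ℂ := e.comp (A.symm : E4 →L[ℝ] E4) with he'
  have hre : ∀ v, (p' v).re = (A.symm v) 0 ∧ (p' v).im = (A.symm v) 1 ∧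
      (e' v).re = (A.symm v) 2 ∧ (e' v).im = (A.symm v) 3 := by
    intro v
    have h1 : p' v = p (A.symm v) := rfl
    have h2 : e' v = e (A.symm v) := rfl
    rw [h1, h2, hp, he]
    refine ⟨?_, ?_, ?_, ?_⟩ <;> simp
  have hrep : ∀ v, v = (p' v).re • X + (p' v).im • J X + (e' v).re • Y + (e' v).im • J Y := by
    intro v
    obtain ⟨h1, h2, h3, h4⟩ := hre v
    rw [h1, h2, h3, h4, ← colm_apply, ← hA, A.apply_symm_apply]
  have hsX : A.symm X = ee 0 := by
    rw [ContinuousLinearEquiv.symm_apply_eq, hA, colm_apply]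
    simp
  have hsJX : A.symm (J X) = ee 1 := by
    rw [ContinuousLinearEquiv.symm_apply_eq, hA, colm_apply]
    simp
  refine ⟨p', e', ⟨ht0, hrep, ?_, ?_, ?_, ?_, ?_⟩, ?_⟩
  · show p (A.symm X) = 1
    rw [hsX, hp]; simp
  · show p (A.symm (J X)) = Complex.I
    rw [hsJX, hp]; simp
  · show e (A.symm X) = 0
    rw [hsX, he]; simp
  · show e (A.symm (J X)) = 0
    rw [hsJX, he]; simp
  · intro v
    have h1 : ‖e' v‖ ^ 2 = (e' v).re ^ 2 + (e' v).im ^ 2 := by
      rw [← Complex.normSq_eq_norm_sq, Complex.normSq_apply]; ring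
    rw [h1]
    conv_lhs => rw [hrep v]
    simp only [map_add, map_smul, add_apply, smul_apply, smul_eq_mul, hJ, map_neg, k1, k1', k2,
      k2', hYY, hJYJY, hJYY, mul_zero, zero_add, add_zero, neg_zero]
    rw [← ht]
    ring
  · intro b hb
    have hdet : LinearMap.det ((A : E4 →L[ℝ] E4) : E4 →ₗ[ℝ] E4) ≠ 0 := det_ne A
    have hee : ∀ i, (A : E4 →L[ℝ] E4) (ee i) = colm X (J X) Y (J Y) (ee i) := fun i => rfl
    have hgen : ∀ c : Bil, Alt c → W (pull (A : E4 →L[ℝ] E4) φ) (pull (A : E4 →L[ℝ] E4) c) =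
        t * c X (J X) := by
      intro c hc
      have e0 : (A : E4 →L[ℝ] E4) (ee 0) = X := by rw [hee, colm_apply]; simp
      have e1 : (A : E4 →L[ℝ] E4) (ee 1) = J X := by rw [hee, colm_apply]; simp
      have e2 : (A : E4 →L[ℝ] E4) (ee 2) = Y := by rw [hee, colm_apply]; simp
      have e3 : (A : E4 →L[ℝ] E4) (ee 3) = J Y := by rw [hee, colm_apply]; simp
      unfold W ent
      simp only [pull_apply, e0, e1, e2, e3, k1, k2, zero_mul, zero_add, sub_zero]
      rw [← ht]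
    have h1 := hgen b hb
    have h2 := hgen F hF.alt
    rw [W_pull hφ.alt hb] at h1
    rw [W_pull hφ.alt hF.alt] at h2
    have hFX : F X (J X) ≠ 0 := (hF.pos X hX).ne'
    have hq2 : W φ F = W F F := by
      unfold q at hq
      have hne : W F F ≠ 0 := by
        intro h0
        rw [h0, div_zero] at hq
        exact zero_ne_one hq
      rwa [div_eq_one_iff_eq hne] at hq
    have hWne : W F F ≠ 0 := by
      intro h0
      unfold q at hq
      rw [h0, div_zero] at hq
      exact zero_ne_one hq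
    unfold q
    rw [← hq2] at hWne ⊢
    rw [div_mul_eq_mul_div, div_eq_iff hWne]
    have h3 : LinearMap.det ((A : E4 →L[ℝ] E4) : E4 →ₗ[ℝ] E4) * t *
        (W φ b * F X (J X)) = LinearMap.det ((A : E4 →L[ℝ] E4) : E4 →ₗ[ℝ] E4) * t *
        (b X (J X) * W φ F) := by
      linear_combination (t * F X (J X)) * h1 - (t * b X (J X)) * h2
    exact mul_left_cancel₀ (mul_ne_zero hdet ht0.ne') h3

end

end Crest.Agent.R235.Reg_FWLIMb_712
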