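import Crest.Agent.R235.CylDef2_522
import Crest.Agent.R235.Reg_FWLIMa_712
import Crest.Agent.R235.Reg_FWLIMb_712

/-!
Row 235, REG A1.0d (task 400): the blow-ups of the measure converge to the plane.
Part 3: closedness in the blow-up.
-/

set_option autoImplicit false
set_option maxSynthPendingDepth 3

open MeasureTheory Metric Set Filter
open scoped ContDiff Topology

namespace Crest.Agent.R235.Reg_FWLIMc_712

open Crest.Agent.R240 Crest.Agent.R240.En Crest.Agent.R240.Pot
open Crest.Agent.R235.CurDefs_132 Crest.Agent.R235.Reg_522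
open Crest.Agent.R235.Reg_FWLIMa_712 (PH planar)
open Crest.Agent.R235.Reg_FWLIMb_712 (Fr exists_fr)

noncomputable section

/-! ### the blow-up functional -/

/-- blow-up functional. -/
def Lr (s : Measure E4) (x : E4) (r : ℝ) (f : E4 → ℝ) : ℝ :=
  (r ^ 2)⁻¹ * ∫ y, f (r⁻¹ • (y - x)) ∂s

theorem psi_cont (x : E4) (r : ℝ) : Continuous fun y : E4 => r⁻¹ • (y - x) := by fun_prop

theorem psi_far {x y : E4} {r K : ℝ} (hr : 0 < r) (hy : y ∉ ball x ((K + 1) * r)) :
    K < ‖r⁻¹ • (y - x)‖ := by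
  rw [mem_ball, dist_eq_norm, not_lt] at hy
  rw [norm_smul, norm_inv, Real.norm_eq_abs, abs_of_pos hr]
  have h1 : (K + 1) ≤ r⁻¹ * ‖y - x‖ := by
    rw [inv_mul_eq_div, le_div_iff₀ hr]
    exact hy
  linarith

theorem Lr_bd {s : Measure E4} [IsFiniteMeasure s] {C : ℝ}
    (hgr : ∀ y r, 0 < r → s.real (ball y r) ≤ C * r ^ 2) {x : E4} {r : ℝ} (hr : 0 < r)
    {f : E4 → ℝ} {M K : ℝ} (hK : 0 ≤ K) (hM : ∀ v, |f v| ≤ M) (h0 : ∀ v, K < ‖v‖ → f v = 0) :
    |Lr s x r f| ≤ M * (C * (K + 1) ^ 2) := by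
  have hM0 : 0 ≤ M := (abs_nonneg _).trans (hM 0)
  have h1 : ∫ y, f (r⁻¹ • (y - x)) ∂s =
      ∫ y in ball x ((K + 1) * r), f (r⁻¹ • (y - x)) ∂s :=
    (setIntegral_eq_integral_of_forall_compl_eq_zero fun y hy => h0 _ (psi_far hr hy)).symm
  have h2 : ‖∫ y in ball x ((K + 1) * r), f (r⁻¹ • (y - x)) ∂s‖ ≤
      M * s.real (ball x ((K + 1) * r)) :=
    norm_setIntegral_le_of_norm_le_const (measure_lt_top s _) fun y _ => by
      rw [Real.norm_eq_abs]; exact hM _
  have h3 := hgr x ((K + 1) * r) (by positivity)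
  unfold Lr
  rw [h1, abs_mul, abs_of_pos (by positivity : (0 : ℝ) < (r ^ 2)⁻¹), ← Real.norm_eq_abs]
  calc (r ^ 2)⁻¹ * ‖∫ y in ball x ((K + 1) * r), f (r⁻¹ • (y - x)) ∂s‖
      ≤ (r ^ 2)⁻¹ * (M * (C * ((K + 1) * r) ^ 2)) := by
        refine mul_le_mul_of_nonneg_left (h2.trans ?_) (by positivity)
        exact mul_le_mul_of_nonneg_left h3 hM0
    _ = M * (C * (K + 1) ^ 2) := by
        field_simp

theorem Lr_sub {s : Measure E4} {x : E4} {r : ℝ} {f g : E4 → ℝ}
    (hf : Integrable (fun y => f (r⁻¹ • (y - x))) s)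
    (hg : Integrable (fun y => g (r⁻¹ • (y - x))) s) :
    Lr s x r (fun v => f v - g v) = Lr s x r f - Lr s x r g := by
  unfold Lr
  rw [integral_sub hf hg, mul_sub]

theorem int_of_bd {s : Measure E4} [IsFiniteMeasure s] {x : E4} {r : ℝ} {f : E4 → ℝ}
    (hf : Measurable f) {M : ℝ} (hM : ∀ v, |f v| ≤ M) :
    Integrable (fun y => f (r⁻¹ • (y - x))) s :=
  Integrable.of_bound (hf.comp (psi_cont x r).measurable).aestronglyMeasurable M
    (Eventually.of_forall fun _ => hM _)

theorem exists_rad4 {F : Type*} [Zero F] {a : E4 → F} (ha : HasCompactSupport a) :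
    ∃ K : ℝ, 0 ≤ K ∧ ∀ z, K < ‖z‖ → a z = 0 := by
  obtain ⟨K, hK⟩ := ha.isCompact.isBounded.subset_closedBall 0
  refine ⟨max K 0, le_max_right _ _, fun z hz => ?_⟩
  by_contra h
  have h1 := hK (subset_tsupport a h)
  rw [mem_closedBall, dist_zero_right] at h1
  exact absurd (lt_of_le_of_lt (le_max_left _ _) hz) (not_lt.2 h1)

theorem exists_bd4 {a : E4 → ℝ} (h : Continuous a) (ha : HasCompactSupport a) :
    ∃ M : ℝ, 0 ≤ M ∧ ∀ z, |a z| ≤ M := by
  obtain ⟨M, hM⟩ := h.bounded_above_of_compact_support ha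
  exact ⟨M, (norm_nonneg _).trans (hM 0), fun z => hM z⟩

/-! ### closedness -/

theorem W_le (b c : Bil) : |W b c| ≤ 6 * ‖b‖ * ‖c‖ := by
  have h : ∀ i j k l : Fin 4, |ent b i j * ent c k l| ≤ ‖b‖ * ‖c‖ := by
    intro i j k l
    rw [abs_mul]
    exact mul_le_mul (abs_ent_le b i j) (abs_ent_le c k l) (abs_nonneg _) (norm_nonneg _)
  have h1 := abs_le.1 (h 0 1 2 3)
  have h2 := abs_le.1 (h 0 2 1 3)
  have h3 := abs_le.1 (h 0 3 1 2)
  have h4 := abs_le.1 (h 1 2 0 3)
  have h5 := abs_le.1 (h 1 3 0 2)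
  have h6 := abs_le.1 (h 2 3 0 1)
  unfold W
  rw [abs_le]
  constructor <;> linarith [h1.1, h1.2, h2.1, h2.2, h3.1, h3.2, h4.1, h4.2, h5.1, h5.2, h6.1, h6.2]

theorem ent_cont (i j : Fin 4) : Continuous fun b : Bil => ent b i j := by
  unfold ent
  exact (continuous_id.clm_apply continuous_const).clm_apply continuous_const

theorem W_meas {α : Type*} [MeasurableSpace α] {b c : α → Bil}
    (hb : ∀ i j, Measurable fun y => ent (b y) i j) (hc : ∀ i j, Measurable fun y => ent (c y) i j) :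
    Measurable fun y => W (b y) (c y) := by
  unfold W
  exact (((((((hb 0 1).mul (hc 2 3)).sub ((hb 0 2).mul (hc 1 3))).add
    ((hb 0 3).mul (hc 1 2))).add ((hb 1 2).mul (hc 0 3))).sub ((hb 1 3).mul (hc 0 2))).add
    ((hb 2 3).mul (hc 0 1)))

theorem phi_le (D : LC) (y : E4) : ‖D.φ y‖ ≤ 2 * D.M := by
  have h := (D.bd y).norm_le_q (D.pos y)
  rw [D.nrm y, mul_one] at h
  exact h

theorem der_tendsto (D : LC) {x : E4} (hx : x ∈ ball D.x0 (4 * D.R)) (hG : Good D x)
    {k : E4 → ℝ} (hk : ContDiff ℝ ∞ k) (hkc : HasCompactSupport k) (θ : Cov) :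
    Tendsto (fun r => Lr D.s x r (fun v => q (D.F x) (D.φ x) (wed (fderiv ℝ k v) θ))) (𝓝[>] 0)
      (𝓝 0) := by
  have hfin : IsFiniteMeasure D.s := D.fin
  obtain ⟨K, hK0, hK⟩ := exists_rad4 hkc
  have hdk : Continuous (fderiv ℝ k) := hk.continuous_fderiv (by norm_num)
  obtain ⟨M, hM⟩ := hdk.bounded_above_of_compact_support (hkc.fderiv (𝕜 := ℝ))
  have hM0 : 0 ≤ M := (norm_nonneg _).trans (hM 0)
  have hdK : ∀ v, K < ‖v‖ → fderiv ℝ k v = 0 := by
    intro v hv
    have h5 : k =ᶠ[𝓝 v] fun _ => 0 := by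
      filter_upwards [(isOpen_lt continuous_const continuous_norm).mem_nhds hv] with y hy
        using hK y hy
    rw [h5.fderiv_eq]
    simp
  set om : E4 → Bil := fun v => wed (fderiv ℝ k v) θ with hom
  set Om : ℝ := 2 * M * ‖θ‖ with hOm
  have hOm0 : 0 ≤ Om := by positivity
  have homle : ∀ v, ‖om v‖ ≤ Om := by
    intro v
    refine (norm_wed_le _ _).trans ?_
    exact mul_le_mul_of_nonneg_right (mul_le_mul_of_nonneg_left (hM v) (by norm_num))
      (norm_nonneg _)
  have hom0 : ∀ v, K < ‖v‖ → om v = 0 := by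
    intro v hv
    simp only [hom, hdK v hv]
    ext a b
    simp
  set w : E4 → ℝ := fun y => (W (D.F y) (D.F y))⁻¹ with hw
  have hwc : Continuous w := by
    refine Continuous.inv₀ ?_ fun y => (D.bd y).W_ne
    have h : ∀ i j, Continuous fun y => ent (D.F y) i j := fun i j =>
      (ent_cont i j).comp D.smF.continuous
    unfold W
    exact (((((((h 0 1).mul (h 2 3)).sub ((h 0 2).mul (h 1 3))).add
      ((h 0 3).mul (h 1 2))).add ((h 1 2).mul (h 0 3))).sub ((h 1 3).mul (h 0 2))).add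
      ((h 2 3).mul (h 0 1)))
  have hqW : ∀ y b, q (D.F y) (D.φ y) b = W (D.φ y) b * w y := fun y b => by
    simp only [hw, q, div_eq_mul_inv]
  have homm : ∀ r : ℝ, ∀ i j, Measurable fun y : E4 => ent (om (r⁻¹ • (y - x))) i j := by
    intro r i j
    have h1 : ∀ u : E4, Continuous fun y : E4 => fderiv ℝ k (r⁻¹ • (y - x)) u := fun u =>
      (hdk.comp (psi_cont x r)).clm_apply continuous_const
    have h2 : Continuous fun y : E4 => fderiv ℝ k (r⁻¹ • (y - x)) (ee i) * θ (ee j) -
        θ (ee i) * fderiv ℝ k (r⁻¹ • (y - x)) (ee j) :=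
      ((h1 (ee i)).mul continuous_const).sub (continuous_const.mul (h1 (ee j)))
    exact h2.measurable
  have hphm : ∀ i j, Measurable fun y => ent (D.φ y) i j := fun i j =>
    (ent_cont i j).measurable.comp D.meas
  have hMD : 0 < D.M := (D.bd x).M_pos
  -- integrability
  have hI1 : ∀ r : ℝ, 0 < r → Integrable (fun y => W (D.φ y) (om (r⁻¹ • (y - x))) * w y) D.s := by
    intro r hr
    obtain ⟨Bw, hBw⟩ := (isCompact_closedBall x ((K + 1) * r)).exists_bound_of_continuousOn
      hwc.continuousOn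
    have hBw0 : 0 ≤ Bw := (norm_nonneg _).trans (hBw x (mem_closedBall_self (by positivity)))
    refine Integrable.of_bound ((W_meas hphm (homm r)).mul hwc.measurable).aestronglyMeasurable
      (6 * (2 * D.M) * Om * Bw) (Eventually.of_forall fun y => ?_)
    by_cases hy : y ∈ ball x ((K + 1) * r)
    · rw [norm_mul, Real.norm_eq_abs]
      refine mul_le_mul ((W_le _ _).trans ?_) (hBw y (ball_subset_closedBall hy))
        (norm_nonneg _) (by positivity)
      exact mul_le_mul (mul_le_mul_of_nonneg_left (phi_le D y) (by norm_num)) (homle _)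
        (norm_nonneg _) (by positivity)
    · rw [hom0 _ (psi_far hr hy)]
      have : W (D.φ y) 0 = 0 := by simp [W, ent]
      rw [this, zero_mul, norm_zero]
      positivity
  have hI2 : ∀ r : ℝ, 0 < r → Integrable (fun y => W (D.φ x) (om (r⁻¹ • (y - x))) * w x) D.s := by
    intro r hr
    refine Integrable.of_bound ((W_meas (fun i j => measurable_const) (homm r)).mul_const
      _).aestronglyMeasurable (6 * (2 * D.M) * Om * |w x|) (Eventually.of_forall fun y => ?_)
    rw [norm_mul, Real.norm_eq_abs, Real.norm_eq_abs]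
    refine mul_le_mul_of_nonneg_right ((W_le _ _).trans ?_) (abs_nonneg _)
    exact mul_le_mul (mul_le_mul_of_nonneg_left (phi_le D x) (by norm_num)) (homle _)
      (norm_nonneg _) (by positivity)
  -- closedness
  have hcl : ∀ r : ℝ, 0 < r → dist x D.x0 + (K + 1) * r < 4 * D.R →
      ∫ y, W (D.φ y) (om (r⁻¹ • (y - x))) * w y ∂D.s = 0 := by
    intro r hr hr2
    set S : E4 → Cov := fun y => k (r⁻¹ • (y - x)) • θ with hS
    have hS1 : ContDiff ℝ ∞ S := (hk.comp (by fun_prop)).smul contDiff_const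
    have hS0 : ∀ y, y ∉ closedBall x ((K + 1) * r) → S y = 0 := by
      intro y hy
      have h1 := psi_far (K := K) hr (fun h => hy (ball_subset_closedBall h))
      simp only [hS, hK _ h1, zero_smul]
    have hS2 : HasCompactSupport S := HasCompactSupport.intro (isCompact_closedBall _ _) hS0
    have hS3 : tsupport S ⊆ ball D.x0 (4 * D.R) := by
      have h1 : tsupport S ⊆ closedBall x ((K + 1) * r) :=
        closure_minimal (fun y hy => by
          by_contra h
          exact hy (hS0 y h)) isClosed_closedBall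
      refine h1.trans fun y hy => ?_
      rw [mem_closedBall] at hy
      rw [mem_ball]
      have := dist_triangle y x D.x0
      linarith
    have h := D.closed S hS1 hS2 hS3
    have hd1 : ∀ y, d1 S y = r⁻¹ • om (r⁻¹ • (y - x)) := by
      intro y
      have hkd : HasFDerivAt (fun y : E4 => k (r⁻¹ • (y - x)))
          (r⁻¹ • fderiv ℝ k (r⁻¹ • (y - x))) y := by
        have e1 : HasFDerivAt k (fderiv ℝ k (r⁻¹ • (y - x))) (r⁻¹ • (y - x)) :=
          ((hk.differentiable (by norm_num)) _).hasFDerivAt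
        have e2 : HasFDerivAt (fun y : E4 => r⁻¹ • (y - x)) (r⁻¹ • ContinuousLinearMap.id ℝ E4) y :=
          ((hasFDerivAt_id y).sub_const x).const_smul r⁻¹
        have e3 : HasFDerivAt (fun y : E4 => k (r⁻¹ • (y - x)))
            ((fderiv ℝ k (r⁻¹ • (y - x))).comp (r⁻¹ • ContinuousLinearMap.id ℝ E4)) y :=
          e1.comp y e2
        have e6 : (fderiv ℝ k (r⁻¹ • (y - x))).comp (r⁻¹ • ContinuousLinearMap.id ℝ E4) =
            r⁻¹ • fderiv ℝ k (r⁻¹ • (y - x)) := by
          ext u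
          simp
        rw [e6] at e3
        exact e3
      have e4 : d1 S y = wed (fderiv ℝ (fun y : E4 => k (r⁻¹ • (y - x))) y) θ +
          k (r⁻¹ • (y - x)) • d1 (fun _ => θ) y :=
        d1_smul (S := fun _ => θ) hkd.differentiableAt (differentiableAt_const _)
      have e5 : d1 (fun _ : E4 => θ) y = 0 := by
        ext a b
        simp
      rw [e4, e5, smul_zero, add_zero, hkd.fderiv]
      exact En.wed_smul_left _ _ _
    have h2 : ∀ y, q (D.F y) (D.φ y) (d1 S y) = r⁻¹ * (W (D.φ y) (om (r⁻¹ • (y - x))) * w y) := by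
      intro y
      rw [hd1, q_smul_right, hqW]
    simp_rw [h2] at h
    rw [integral_const_mul] at h
    exact (mul_eq_zero.1 h).resolve_left (inv_ne_zero hr.ne')
  -- the estimate
  have hest : ∀ (ε : ℝ), 0 < ε → ∃ ρ > 0, ∀ r : ℝ, 0 < r → (K + 1) * r < ρ →
      |Lr D.s x r (fun v => q (D.F x) (D.φ x) (om v))| ≤
        6 * Om * |w x| * ((r ^ 2)⁻¹ * ∫ y in ball x ((K + 1) * r), ‖D.φ y - D.φ x‖ ∂D.s) +
          6 * Om * (2 * D.M) * ε * (D.C * (K + 1) ^ 2) := by
    intro ε hε
    obtain ⟨ρ₁, hρ₁, hwρ⟩ := Metric.continuous_iff.1 hwc x ε hε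
    have hgap : 0 < 4 * D.R - dist x D.x0 := by
      rw [mem_ball] at hx
      linarith
    refine ⟨min ρ₁ (4 * D.R - dist x D.x0), lt_min hρ₁ hgap, fun r hr hrK => ?_⟩
    have hr1 : (K + 1) * r < ρ₁ := lt_of_lt_of_le hrK (min_le_left _ _)
    have hr2 : dist x D.x0 + (K + 1) * r < 4 * D.R := by
      have := lt_of_lt_of_le hrK (min_le_right _ _)
      linarith
    have e1 : Lr D.s x r (fun v => q (D.F x) (D.φ x) (om v)) = (r ^ 2)⁻¹ *
        ∫ y in ball x ((K + 1) * r), (W (D.φ x) (om (r⁻¹ • (y - x))) * w x -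
          W (D.φ y) (om (r⁻¹ • (y - x))) * w y) ∂D.s := by
      unfold Lr
      congr 1
      rw [setIntegral_eq_integral_of_forall_compl_eq_zero, integral_sub (hI2 r hr) (hI1 r hr),
        hcl r hr hr2, sub_zero]
      · refine integral_congr_ae (Eventually.of_forall fun y => ?_)
        exact hqW x _
      · intro y hy
        rw [hom0 _ (psi_far hr hy)]
        have : ∀ b, W b 0 = 0 := fun b => by simp [W, ent]
        rw [this, this]
        ring
    have hphi : Measurable fun y => ‖D.φ y - D.φ x‖ := (D.meas.sub_const _).norm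
    have hg : IntegrableOn (fun y => 6 * Om * |w x| * ‖D.φ y - D.φ x‖ + 6 * Om * (2 * D.M) * ε)
        (ball x ((K + 1) * r)) D.s := by
      refine Integrable.add (Integrable.const_mul ?_ _) (integrable_const _)
      refine Integrable.of_bound hphi.aestronglyMeasurable (4 * D.M)
        (Eventually.of_forall fun y => ?_)
      rw [norm_norm]
      refine (norm_sub_le _ _).trans ?_
      linarith [phi_le D y, phi_le D x]
    have e2 : ‖∫ y in ball x ((K + 1) * r), (W (D.φ x) (om (r⁻¹ • (y - x))) * w x -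
          W (D.φ y) (om (r⁻¹ • (y - x))) * w y) ∂D.s‖ ≤
        ∫ y in ball x ((K + 1) * r),
          (6 * Om * |w x| * ‖D.φ y - D.φ x‖ + 6 * Om * (2 * D.M) * ε) ∂D.s := by
      refine norm_integral_le_of_norm_le hg ?_
      refine (ae_restrict_iff' measurableSet_ball).2 (Eventually.of_forall fun y hy => ?_)
      have h1 : W (D.φ x) (om (r⁻¹ • (y - x))) * w x - W (D.φ y) (om (r⁻¹ • (y - x))) * w y =
          -(W (D.φ y - D.φ x) (om (r⁻¹ • (y - x))) * w x) -
            W (D.φ y) (om (r⁻¹ • (y - x))) * (w y - w x) := by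
        rw [W_sub_left]; ring
      rw [h1]
      refine (norm_sub_le _ _).trans ?_
      rw [norm_neg, norm_mul, norm_mul, Real.norm_eq_abs, Real.norm_eq_abs, Real.norm_eq_abs,
        Real.norm_eq_abs]
      refine add_le_add ?_ ?_
      · calc |W (D.φ y - D.φ x) (om (r⁻¹ • (y - x)))| * |w x|
            ≤ (6 * ‖D.φ y - D.φ x‖ * Om) * |w x| := by
              refine mul_le_mul_of_nonneg_right ((W_le _ _).trans ?_) (abs_nonneg _)
              exact mul_le_mul_of_nonneg_left (homle _) (by positivity)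
          _ = 6 * Om * |w x| * ‖D.φ y - D.φ x‖ := by ring
      · have h3 : |w y - w x| ≤ ε := by
          have h4 := hwρ y (by
            rw [mem_ball] at hy
            linarith)
          rw [Real.dist_eq] at h4
          exact h4.le
        calc |W (D.φ y) (om (r⁻¹ • (y - x)))| * |w y - w x|
            ≤ (6 * (2 * D.M) * Om) * ε := by
              refine mul_le_mul ((W_le _ _).trans ?_) h3 (abs_nonneg _) (by positivity)
              exact mul_le_mul (mul_le_mul_of_nonneg_left (phi_le D y) (by norm_num)) (homle _)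
                (norm_nonneg _) (by positivity)
          _ = 6 * Om * (2 * D.M) * ε := by ring
    have e3 : ∫ y in ball x ((K + 1) * r),
          (6 * Om * |w x| * ‖D.φ y - D.φ x‖ + 6 * Om * (2 * D.M) * ε) ∂D.s =
        6 * Om * |w x| * (∫ y in ball x ((K + 1) * r), ‖D.φ y - D.φ x‖ ∂D.s) +
          D.s.real (ball x ((K + 1) * r)) * (6 * Om * (2 * D.M) * ε) := by
      have hphi2 : IntegrableOn (fun y => ‖D.φ y - D.φ x‖) (ball x ((K + 1) * r)) D.s := by
        refine Integrable.of_bound hphi.aestronglyMeasurable (4 * D.M)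
          (Eventually.of_forall fun y => ?_)
        rw [norm_norm]
        refine (norm_sub_le _ _).trans ?_
        linarith [phi_le D y, phi_le D x]
      rw [integral_add (hphi2.const_mul _) (integrable_const _), integral_const_mul,
        setIntegral_const, smul_eq_mul]
    have e4 := D.gr x ((K + 1) * r) (by positivity)
    rw [e1, abs_mul, abs_of_pos (by positivity : (0 : ℝ) < (r ^ 2)⁻¹), ← Real.norm_eq_abs]
    calc (r ^ 2)⁻¹ * ‖_‖ ≤ (r ^ 2)⁻¹ *
          (6 * Om * |w x| * (∫ y in ball x ((K + 1) * r), ‖D.φ y - D.φ x‖ ∂D.s) +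
          D.C * ((K + 1) * r) ^ 2 * (6 * Om * (2 * D.M) * ε)) := by
          refine mul_le_mul_of_nonneg_left (e2.trans (e3.le.trans ?_)) (by positivity)
          have : 0 ≤ 6 * Om * (2 * D.M) * ε := by positivity
          linarith [mul_le_mul_of_nonneg_right e4 this]
      _ = _ := by
          field_simp
  rw [Metric.tendsto_nhds]
  intro ε hε
  have hC := D.C_nn
  set c1 : ℝ := 6 * Om * (2 * D.M) * (D.C * (K + 1) ^ 2) with hc1
  have hc1' : 0 ≤ c1 := by positivity
  set c2 : ℝ := 6 * Om * |w x| with hc2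
  have hc2' : 0 ≤ c2 := by positivity
  obtain ⟨ρ, hρ, hest'⟩ := hest (ε / (2 * (c1 + 1))) (by positivity)
  have hl := (hG.leb (K + 1)).const_mul c2
  rw [mul_zero, Metric.tendsto_nhds] at hl
  have hev : ∀ᶠ r : ℝ in 𝓝[>] 0, (K + 1) * r < ρ := by
    have h1 : Tendsto (fun r : ℝ => (K + 1) * r) (𝓝[>] 0) (𝓝 ((K + 1) * 0)) :=
      ((continuous_const.mul continuous_id).tendsto 0).mono_left nhdsWithin_le_nhds
    rw [mul_zero] at h1
    exact h1.eventually_lt_const hρ
  filter_upwards [hl (ε / 2) (by positivity), hev, self_mem_nhdsWithin] with r h1 h2 h3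
  rw [Real.dist_eq, sub_zero] at h1 ⊢
  have h4 := hest' r h3 h2
  have h5 : c1 * (ε / (2 * (c1 + 1))) < ε / 2 := by
    have h6 : (c1 + 1) * (ε / (2 * (c1 + 1))) = ε / 2 := by field_simp
    have h7 : 0 < ε / (2 * (c1 + 1)) := by positivity
    nlinarith
  have h8 := (abs_lt.1 h1).2
  have h9 : 6 * Om * (2 * D.M) * (ε / (2 * (c1 + 1))) * (D.C * (K + 1) ^ 2) =
      c1 * (ε / (2 * (c1 + 1))) := by rw [hc1]; ring
  rw [h9] at h4
  linarith

end

end Crest.Agent.R235.Reg_FWLIMc_712
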