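import Crest.Agent.R235.RiemB_399
import Crest.Agent.R235.QLin_399
import Crest.Agent.R235.IndTri_451
import Crest.Agent.R249.Dic_805

/-!
Row 235, package IND, node IND-2 (RIEM), part 4 (helper399): covariant derivative of endomorphism fields and
the connection forms of a quaternionic triple.  Everything in the format of R240 (values in `E4`); the
metric is `g : F2 E4 M` with `inner ℝ u v = at2 g x u v`.

* `mC X z v : E4` (`mC_eq : mCov 4 X z v = mC X z v`), `mC_add`, `mC_neg`, `mC_smul`, `leib`;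
* `nab J z v : E4 →L E4`, `mC_endo : ∇_v (J X) = J ∇_v X + (∇_v J) X`, `nab_comp`, `nab_sq`, `nab_skew`;
* `QT g I` : orthogonal quaternionic triple (`QT.of_tri`: the triple of `IndTri_451`);
* `theta P I i` : smooth vector fields (`VSm_theta`), `P : PF 4 M κ` a Parseval frame;
* `nab_I` : `(∇_v I_j) u = ⟨θ_{j+2}, v⟩ I_{j+1} u - ⟨θ_{j+1}, v⟩ I_{j+2} u`;
* `mCov_I` : the same for fields.
-/

set_option autoImplicit false
set_option maxSynthPendingDepth 3
set_option linter.unusedSectionVars false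
set_option linter.unusedVariables false
set_option linter.style.haveILetI false

open Set Function Filter Bundle Manifold
open scoped Manifold ContDiff Topology ENNReal
open Crest.GeometryTopology.CoordMetric Crest.GeometryTopology.ChartCurvature
open Crest.Agent.R240 Crest.Agent.R240.Ch
open Crest.Agent.R202.Tens
open Crest.Agent.R247.Bo84 hiding trans
open Crest.Agent.R249.Vf281 Crest.Agent.R249.Tz2_805
open Crest.Agent.R235.RiemB_399 Crest.Agent.R235.QLin_399

universe u

namespace Crest.Agent.R235.RiemD_399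

noncomputable section

variable {M : Type u} [TopologicalSpace M] [ChartedSpace E4 M] [IsManifold 𝓘(ℝ, E4) ∞ M]
  [RiemannianBundle (fun x : M => TangentSpace 𝓘(ℝ, E4) x)]
  [IsContMDiffRiemannianBundle 𝓘(ℝ, E4) ∞ E4 (fun x : M => TangentSpace 𝓘(ℝ, E4) x)]

/-! ### the covariant derivative at the centre of the chart -/

omit [IsManifold 𝓘(ℝ, E4) ∞ M] [RiemannianBundle (fun x : M => TangentSpace 𝓘(ℝ, E4) x)]
  [IsContMDiffRiemannianBundle 𝓘(ℝ, E4) ∞ E4 (fun x : M => TangentSpace 𝓘(ℝ, E4) x)] in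
theorem symm_centre (z : M) : (chartAt E4 z).symm (chartCentre 4 M z) = z :=
  (chartAt E4 z).left_inv (mem_chart_source E4 z)

omit [RiemannianBundle (fun x : M => TangentSpace 𝓘(ℝ, E4) x)]
  [IsContMDiffRiemannianBundle 𝓘(ℝ, E4) ∞ E4 (fun x : M => TangentSpace 𝓘(ℝ, E4) x)] in
theorem repJ_self (J : EndF E4 M) (z : M) : repJ z J (chartCentre 4 M z) = atJ J z := by
  ext1 v
  rw [repJ_apply, symm_centre, tcc_self (mem_chart_source E4 z), tcc_self (mem_chart_source E4 z)]

omit [RiemannianBundle (fun x : M => TangentSpace 𝓘(ℝ, E4) x)]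
  [IsContMDiffRiemannianBundle 𝓘(ℝ, E4) ∞ E4 (fun x : M => TangentSpace 𝓘(ℝ, E4) x)] in
theorem repV_self (X : VF E4 M) (z : M) : repV z X (chartCentre 4 M z) = X z := by
  rw [repV, symm_centre, tcc_self (mem_chart_source E4 z)]
  rfl

/-- the covariant derivative. -/
def mC (X : VF E4 M) (z : M) (v : E4) : E4 :=
  fderiv ℝ (repV z X) (chartCentre 4 M z) v + Gam (chartMetric 4 M z) (chartCentre 4 M z) v (X z)

theorem mC_eq (X : (x : M) → TangentSpace 𝓘(ℝ, E4) x) (z : M) (v : E4) :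
    (mCov 4 X z v : E4) = mC (X : VF E4 M) z v := by
  have h0 : (mCov 4 X z v : E4) =
      cov (chartMetric 4 M z) (vCh 4 z X) (chartCentre 4 M z) v :=
    (dCh_self z (mCov 4 X z v)).symm.trans ((dCh_mCov X z v).trans (congrArg _ (dCh_self z v)))
  have h1 : vCh 4 z X =ᶠ[𝓝 (chartCentre 4 M z)] repV z (X : VF E4 M) := by
    filter_upwards [(chartAt E4 z).open_target.mem_nhds (centre_mem (n := 4) z)] with y hy
    exact vCh_repV z hy X
  have h2 : vCh 4 z X (chartCentre 4 M z) = (X z : E4) :=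
    h1.self_of_nhds.trans (repV_self (X : VF E4 M) z)
  refine h0.trans ?_
  rw [cov_apply, h1.fderiv_eq, h2]
  rfl

/-- smooth at `z`. -/
def VS (X : VF E4 M) (z : M) : Prop := ContDiffAt ℝ ∞ (repV z X) (chartCentre 4 M z)

theorem vs_iff {X : (x : M) → TangentSpace 𝓘(ℝ, E4) x} {z : M} :
    VS (X : VF E4 M) z ↔ VSm 4 ∞ X z := ⟨fun h => VSm_of_repV h, fun h => contDiffAt_repV h⟩

theorem VS.diff {X : VF E4 M} {z : M} (h : VS X z) :
    DifferentiableAt ℝ (repV z X) (chartCentre 4 M z) := ContDiffAt.differentiableAt h (by simp)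

/-- the covariant derivative `∇_v J` at `z`. -/
def nab (J : EndF E4 M) (z : M) (v : E4) : E4 →L[ℝ] E4 :=
  fderiv ℝ (repJ z J) (chartCentre 4 M z) v +
    (Gam (chartMetric 4 M z) (chartCentre 4 M z) v).comp (atJ J z) -
    (atJ J z).comp (Gam (chartMetric 4 M z) (chartCentre 4 M z) v)

/-- `J X`. -/
def JX (J : EndF E4 M) (X : VF E4 M) : VF E4 M := fun x => atJ J x (X x)

/-- `J X` as a field of tangent vectors. -/
def tJ (J : EndF E4 M) (X : (x : M) → TangentSpace 𝓘(ℝ, E4) x) (x : M) : TangentSpace 𝓘(ℝ, E4) x :=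
  atJ J x (X x : E4)

theorem VSm_tJ {J : EndF E4 M} (hJ : SmoothJ J) {X : (x : M) → TangentSpace 𝓘(ℝ, E4) x} {z : M}
    (hX : VSm 4 ∞ X z) : VSm 4 ∞ (tJ J X) z := VSm_endo hJ hX

theorem rep_JX (J : EndF E4 M) (X : VF E4 M) (z : M) :
    repV z (JX J X) =ᶠ[𝓝 (chartCentre 4 M z)] fun y => repJ z J y (repV z X y) := by
  filter_upwards [(chartAt E4 z).open_target.mem_nhds (centre_mem (n := 4) z)] with y hy
  exact repV_endo J X z hy

theorem diffJ {J : EndF E4 M} (hJ : SmoothJ J) (z : M) :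
    ContDiffAt ℝ ∞ (repJ z J) (chartCentre 4 M z) :=
  (hJ z).contDiffAt ((chartAt E4 z).open_target.mem_nhds (centre_mem (n := 4) z))

theorem VS.JX {J : EndF E4 M} (hJ : SmoothJ J) {X : VF E4 M} {z : M} (hX : VS X z) :
    VS (JX J X) z :=
  (ContDiffAt.clm_apply (diffJ hJ z) hX).congr_of_eventuallyEq (rep_JX J X z)

/-- **Leibniz rule.** -/
theorem mC_endo {J : EndF E4 M} (hJ : SmoothJ J) {X : VF E4 M} {z : M} (hX : VS X z) (v : E4) :
    mC (JX J X) z v = atJ J z (mC X z v) + nab J z v (X z) := by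
  have h1 : fderiv ℝ (repV z (JX J X)) (chartCentre 4 M z) v =
      fderiv ℝ (repJ z J) (chartCentre 4 M z) v (X z) +
        atJ J z (fderiv ℝ (repV z X) (chartCentre 4 M z) v) := by
    rw [(rep_JX J X z).fderiv_eq, fderiv_clm_apply ((diffJ hJ z).differentiableAt (by simp)) hX.diff,
      repJ_self, repV_self]
    simp [add_comm]
  unfold mC nab
  rw [h1]
  simp only [map_add, add_apply, sub_apply, ContinuousLinearMap.comp_apply, JX]
  abel

theorem mC_neg (X : VF E4 M) (z : M) (v : E4) : mC (fun x => - X x) z v = - mC X z v := by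
  have e : repV z (fun x => - X x) = fun y => - repV z X y := by
    funext y; exact map_neg _ _
  unfold mC
  rw [e, fderiv_fun_neg]
  simp only [map_neg, neg_apply]
  abel

theorem mC_add {X Y : VF E4 M} {z : M} (hX : VS X z) (hY : VS Y z) (v : E4) :
    mC (fun x => X x + Y x) z v = mC X z v + mC Y z v := by
  have e : repV z (fun x => X x + Y x) = fun y => repV z X y + repV z Y y := by
    funext y; exact map_add _ _ _
  unfold mC
  rw [e, fderiv_fun_add hX.diff hY.diff]
  simp only [map_add, add_apply]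
  abel

omit [IsManifold 𝓘(ℝ, E4) ∞ M] [RiemannianBundle (fun x : M => TangentSpace 𝓘(ℝ, E4) x)]
  [IsContMDiffRiemannianBundle 𝓘(ℝ, E4) ∞ E4 (fun x : M => TangentSpace 𝓘(ℝ, E4) x)] in
theorem dF_apply (f : M → ℝ) (z : M) (v : E4) :
    at1 (dF f) z v = fderiv ℝ (repF z f) (chartCentre 4 M z) v := rfl

theorem mC_smul {f : M → ℝ} {X : VF E4 M} {z : M}
    (hf : DifferentiableAt ℝ (repF z f) (chartCentre 4 M z)) (hX : VS X z) (v : E4) :
    mC (fun x => f x • X x) z v = f z • mC X z v + at1 (dF f) z v • X z := by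
  have e : repV z (fun x => f x • X x) = fun y => repF z f y • repV z X y := by
    funext y; exact map_smul _ _ _
  have e2 : repF (E := E4) z f (chartCentre 4 M z) = f z := congrArg f (symm_centre z)
  unfold mC
  rw [e, fderiv_fun_smul hf hX.diff, e2, repV_self, dF_apply]
  simp only [map_smul, add_apply, smul_apply, ContinuousLinearMap.smulRight_apply, smul_add]
  abel

/-! ### local fields -/

/-- the field which is constant in the chart at `z`. -/
def cst (z : M) (u : E4) : VF E4 M := fun x => (fld z (fun _ => u) x : TangentSpace 𝓘(ℝ, E4) x)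

theorem vs_cst (z : M) (u : E4) : VS (cst z u) z :=
  vs_iff.2 (VSm_fld z contDiffOn_const (mem_chart_source E4 z))

theorem cst_self (z : M) (u : E4) : cst z u z = u := by
  have h := vCh_fld (n := 4) z (fun _ => u) (centre_mem (n := 4) z)
  have h2 := vCh_repV z (centre_mem (n := 4) z) (fld z (fun _ => u))
  exact (repV_self (cst z u) z).symm.trans (h2.symm.trans h)

/-! ### algebraic identities -/

/-- derivative of a product. -/
theorem nab_comp {I J K : EndF E4 M} (hI : SmoothJ I) (hJ : SmoothJ J) (hK : SmoothJ K)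
    (h : ∀ x v, atJ I x (atJ J x v) = atJ K x v) (z : M) (v u : E4) :
    nab K z v u = nab I z v (atJ J z u) + atJ I z (nab J z v u) := by
  have hX := vs_cst z u
  have e : JX I (JX J (cst z u)) = JX K (cst z u) := by
    funext x; exact h x _
  have h1 := mC_endo hI (hX.JX hJ) v
  have h2 := mC_endo hJ hX v
  have h3 := mC_endo hK hX v
  rw [e, h3, h2, map_add, h, cst_self, add_assoc] at h1
  have h4 : JX J (cst z u) z = atJ J z u := congrArg (atJ J z) (cst_self z u)
  rw [h4] at h1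
  rw [add_left_cancel h1, add_comm]

/-- `J² = -1`. -/
theorem nab_sq {J : EndF E4 M} (hJ : SmoothJ J) (h : ∀ x v, atJ J x (atJ J x v) = -v) (z : M)
    (v u : E4) : nab J z v (atJ J z u) = - atJ J z (nab J z v u) := by
  have hX := vs_cst z u
  have e : JX J (JX J (cst z u)) = fun x => - cst z u x := by
    funext x; exact h x _
  have h1 := mC_endo hJ (hX.JX hJ) v
  have h2 := mC_endo hJ hX v
  rw [e, mC_neg, h2, map_add, h, cst_self, add_assoc] at h1
  have h4 : JX J (cst z u) z = atJ J z u := congrArg (atJ J z) (cst_self z u)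
  rw [h4] at h1
  have h5 := add_left_cancel ((add_zero _).trans h1)
  rw [eq_neg_iff_add_eq_zero, add_comm]
  exact h5.symm

section met

variable {g : F2 E4 M} (hin : ∀ (x : M) (u v : TangentSpace 𝓘(ℝ, E4) x), inner ℝ u v = at2 g x u v)
include hin

/-- **derivative of the metric product.** -/
theorem leib {X Y : VF E4 M} {z : M} (hX : VS X z) (hY : VS Y z) (v : E4) :
    at1 (dF fun q => at2 g q (X q) (Y q)) z v =
      at2 g z (mC X z v) (Y z) + at2 g z (X z) (mC Y z v) := by
  have hc := centre_mem (n := 4) z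
  have hev : repF z (fun q => at2 g q (X q) (Y q)) =ᶠ[𝓝 (chartCentre 4 M z)]
      fun y => bil (chartMetric 4 M z y) (repV z X y) (repV z Y y) := by
    filter_upwards [(chartAt E4 z).open_target.mem_nhds hc] with y hy
    rw [← rep_met hin z hy]
    exact (rep_repV hy g X Y).symm
  have e1 : ∀ u w : E4, bil (chartMetric 4 M z (chartCentre 4 M z)) u w = at2 g z u w := by
    intro u w
    rw [← rep_met hin z hc]
    exact rep_self z g u w
  rw [dF_apply, hev.fderiv_eq, fderiv_bil (isRiemannianOn_chartMetric (n := 4) z) hc hX.diff hY.diff,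
    e1, e1, cov_apply, cov_apply, repV_self, repV_self]
  rfl

/-- `J` skew. -/
theorem nab_skew {J : EndF E4 M} (hJ : SmoothJ J)
    (h : ∀ x u v, at2 g x (atJ J x u) v = - at2 g x u (atJ J x v)) (z : M) (v a b : E4) :
    at2 g z (nab J z v a) b = - at2 g z a (nab J z v b) := by
  have hX := vs_cst z a
  have hY := vs_cst z b
  have h1 := leib hin (hX.JX hJ) hY v
  have h2 := leib hin hX (hY.JX hJ) v
  have e : (fun q => at2 g q (JX J (cst z a) q) (cst z b q)) =
      fun q => - at2 g q (cst z a q) (JX J (cst z b) q) := by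
    funext q; exact h q _ _
  have h3 : at1 (dF fun q => at2 g q (JX J (cst z a) q) (cst z b q)) z v =
      - at1 (dF fun q => at2 g q (cst z a q) (JX J (cst z b) q)) z v := by
    rw [e, dF_apply, dF_apply]
    have e2 : repF (E := E4) z (fun q => - at2 g q (cst z a q) (JX J (cst z b) q)) =
        fun y => - repF z (fun q => at2 g q (cst z a q) (JX J (cst z b) q)) y := rfl
    rw [e2, fderiv_fun_neg]
    rfl
  have h6 : JX J (cst z a) z = atJ J z a := congrArg (atJ J z) (cst_self z a)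
  have h7 : JX J (cst z b) z = atJ J z b := congrArg (atJ J z) (cst_self z b)
  rw [h1, h2, mC_endo hJ hX, mC_endo hJ hY, h6, h7, cst_self, cst_self, map_add, map_add, add_apply,
    h z (mC (cst z a) z v) b, h z a (mC (cst z b) z v)] at h3
  linarith

end met

/-! ### quaternionic triples -/

/-- a smooth orthogonal quaternionic triple. -/
structure QT (g : F2 E4 M) (I : Fin 3 → EndF E4 M) : Prop where
  smooth : ∀ i, SmoothJ (I i)
  sq : ∀ i x v, atJ (I i) x (atJ (I i) x v) = -v
  mul : ∀ i x v, atJ (I i) x (atJ (I (i + 1)) x v) = atJ (I (i + 2)) x v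
  skew : ∀ i x u v, at2 g x (atJ (I i) x u) v = - at2 g x u (atJ (I i) x v)

omit [RiemannianBundle (fun x : M => TangentSpace 𝓘(ℝ, E4) x)]
  [IsContMDiffRiemannianBundle 𝓘(ℝ, E4) ∞ E4 (fun x : M => TangentSpace 𝓘(ℝ, E4) x)] in
/-- the triple of `IndTri_451`. -/
theorem QT.of_tri {w e : Fin 3 → F2 E4 M} (h : IndTri_451.IsTri w e) :
    QT (IndTri_451.gg e) (IndTri_451.II e) where
  smooth := h.I_smooth
  sq i x v := h.I_sq i x v
  mul i x v := h.I_mul i x v
  skew i x u v := h.g_skew i x u v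

section theta

variable {g : F2 E4 M} {I : Fin 3 → EndF E4 M}

/-- an endomorphism of `E4` as an endomorphism of the tangent space. -/
def tl (A : E4 →L[ℝ] E4) (z : M) : TangentSpace 𝓘(ℝ, E4) z →ₗ[ℝ] TangentSpace 𝓘(ℝ, E4) z :=
  (A : E4 →ₗ[ℝ] E4)

theorem ql (hin : ∀ (x : M) (u v : TangentSpace 𝓘(ℝ, E4) x), inner ℝ u v = at2 g x u v)
    (h : QT g I) (z : M) : QL (fun i => tl (atJ (I i) z) z) where
  sq i v := h.sq i z v
  mul i v := h.mul i z v
  skew i u v := (hin z _ _).trans ((h.skew i z u v).trans (congrArg Neg.neg (hin z _ _).symm))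

theorem finrank_T (z : M) : Module.finrank ℝ (TangentSpace 𝓘(ℝ, E4) z) = 4 :=
  finrank_euclideanSpace_fin

/-- `∇_v I_j` is a combination of `I_{j+1}`, `I_{j+2}`. -/
theorem exists_coef (hin : ∀ (x : M) (u v : TangentSpace 𝓘(ℝ, E4) x), inner ℝ u v = at2 g x u v)
    (h : QT g I) (z : M) (v : E4) (j : Fin 3) :
    ∃ α β : ℝ, ∀ u : E4, nab (I j) z v u = α • atJ (I (j + 1)) z u + β • atJ (I (j + 2)) z u := by
  have h1 := (ql hin h z).span (finrank_T z) j (D := tl (nab (I j) z v) z)
    (fun a b => (hin z _ _).trans ((nab_skew hin (h.smooth j) (h.skew j) z v a b).trans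
      (congrArg Neg.neg (hin z _ _).symm)))
    (fun a => nab_sq (h.smooth j) (h.sq j) z v a)
  obtain ⟨α, β, h2⟩ := h1
  exact ⟨α, β, fun u => h2 u⟩

variable {κ : Type} [Fintype κ] (P : PF 4 M κ)

/-- the fields of the frame. -/
def sP (A : κ) : VF E4 M := fun x => (P.s A x : TangentSpace 𝓘(ℝ, E4) x)

theorem vs_sP (A : κ) (z : M) : VS (sP P A) z := vs_iff.2 (P.sm A z)

theorem sum_sP (hin : ∀ (x : M) (u v : TangentSpace 𝓘(ℝ, E4) x), inner ℝ u v = at2 g x u v)
    (z : M) (v : E4) : ∑ A, at2 g z (sP P A z) v • sP P A z = v := by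
  have h1 := P.pars z v
  refine Eq.trans ?_ h1
  exact Finset.sum_congr rfl fun A _ => congrArg (fun c : ℝ => c • (P.s A z : E4)) (hin z _ _).symm

/-- the coefficient `(1/4) ∑_A g((∇_v I_{i+1}) s_A, I_{i+2} s_A)`. -/
def thv (g : F2 E4 M) (I : Fin 3 → EndF E4 M) (i : Fin 3) (z : M) (v : E4) : ℝ :=
  (1 / 4) * ∑ A, at2 g z (nab (I (i + 1)) z v (sP P A z)) (atJ (I (i + 2)) z (sP P A z))

/-- the vector field dual to `θ_i`. -/
def theta (g : F2 E4 M) (I : Fin 3 → EndF E4 M) (i : Fin 3) (z : M) : TangentSpace 𝓘(ℝ, E4) z :=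
  ∑ C, thv P g I i z (sP P C z) • P.s C z

theorem nab_lin (J : EndF E4 M) (z : M) (v w : E4) (c : ℝ) (u : E4) :
    nab J z (v + w) u = nab J z v u + nab J z w u ∧ nab J z (c • v) u = c • nab J z v u := by
  unfold nab
  constructor
  · simp only [map_add, add_apply, sub_apply, ContinuousLinearMap.comp_apply]
    abel
  · simp only [map_smul, add_apply, sub_apply, smul_apply, ContinuousLinearMap.comp_apply]
    rw [smul_sub, smul_add]

/-- `θ_i` as a linear map. -/
def thL (g : F2 E4 M) (I : Fin 3 → EndF E4 M) (i : Fin 3) (z : M) : E4 →ₗ[ℝ] ℝ where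
  toFun := thv P g I i z
  map_add' v w := by
    unfold thv
    rw [← mul_add, ← Finset.sum_add_distrib]
    congr 1
    refine Finset.sum_congr rfl fun A _ => ?_
    rw [(nab_lin (I (i + 1)) z v w 0 (sP P A z)).1, map_add, add_apply]
  map_smul' c v := by
    have h : ∀ A, at2 g z (nab (I (i + 1)) z (c • v) (sP P A z)) (atJ (I (i + 2)) z (sP P A z)) =
        c * at2 g z (nab (I (i + 1)) z v (sP P A z)) (atJ (I (i + 2)) z (sP P A z)) := by
      intro A
      rw [(nab_lin (I (i + 1)) z v v c (sP P A z)).2]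
      simp only [map_smul, smul_apply, smul_eq_mul]
    unfold thv
    rw [RingHom.id_apply, smul_eq_mul, Finset.sum_congr rfl fun A _ => h A, ← Finset.mul_sum]
    ring

/-- `⟨θ_i, v⟩`. -/
theorem inner_theta (hin : ∀ (x : M) (u v : TangentSpace 𝓘(ℝ, E4) x), inner ℝ u v = at2 g x u v)
    (i : Fin 3) (z : M) (v : TangentSpace 𝓘(ℝ, E4) z) :
    inner ℝ (theta P g I i z) v = thv P g I i z v := by
  unfold theta
  rw [sum_inner]
  simp only [real_inner_smul_left]
  have h1 : thL P g I i z (∑ C, at2 g z (sP P C z) (v : E4) • sP P C z) =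
      ∑ C, at2 g z (sP P C z) (v : E4) * thv P g I i z (sP P C z) := by
    rw [map_sum]
    exact Finset.sum_congr rfl fun C _ => map_smul (thL P g I i z) _ _
  have h2 : thv P g I i z (v : E4) =
      ∑ C, at2 g z (sP P C z) (v : E4) * thv P g I i z (sP P C z) :=
    (congrArg (thL P g I i z) (sum_sP P hin z (v : E4)).symm).trans h1
  refine Eq.trans ?_ h2.symm
  refine Finset.sum_congr rfl fun C _ => ?_
  rw [mul_comm]
  exact congrArg (fun c : ℝ => c * thv P g I i z (sP P C z)) (hin z _ _)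

/-- the coefficient of `I_{k+1}`. -/
theorem coef_eq (hin : ∀ (x : M) (u v : TangentSpace 𝓘(ℝ, E4) x), inner ℝ u v = at2 g x u v)
    (h : QT g I) (k : Fin 3) (z : M) (v : E4) {α β : ℝ}
    (hc : ∀ u : E4, nab (I k) z v u = α • atJ (I (k + 1)) z u + β • atJ (I (k + 2)) z u) :
    (1 / 4) * ∑ A, at2 g z (nab (I k) z v (sP P A z)) (atJ (I (k + 1)) z (sP P A z)) = α := by
  have hp := (ql hin h z).parseval_ij (finrank_T z) (P.pars z) (k + 1)
  have e1 : k + 1 + 1 = k + 2 := by fin_cases k <;> rfl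
  have h1 : ∑ A, at2 g z (atJ (I (k + 1)) z (sP P A z)) (atJ (I (k + 1)) z (sP P A z)) = 4 := by
    refine Eq.trans ?_ hp.1
    exact Finset.sum_congr rfl fun A _ => (hin z _ _).symm
  have h2 : ∑ A, at2 g z (atJ (I (k + 2)) z (sP P A z)) (atJ (I (k + 1)) z (sP P A z)) = 0 := by
    have h3 := hp.2.2
    rw [e1] at h3
    refine Eq.trans ?_ h3
    exact Finset.sum_congr rfl fun A _ => (hin z _ _).symm
  have h4 : ∀ A, at2 g z (nab (I k) z v (sP P A z)) (atJ (I (k + 1)) z (sP P A z)) =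
      α * at2 g z (atJ (I (k + 1)) z (sP P A z)) (atJ (I (k + 1)) z (sP P A z)) +
        β * at2 g z (atJ (I (k + 2)) z (sP P A z)) (atJ (I (k + 1)) z (sP P A z)) := by
    intro A
    rw [hc]
    simp only [map_add, map_smul, add_apply, smul_apply, smul_eq_mul]
  simp only [h4]
  rw [Finset.sum_add_distrib, ← Finset.mul_sum, ← Finset.mul_sum, h1, h2]
  ring

theorem QT.self (h : QT g I) (hsym : ∀ x u v, at2 g x u v = at2 g x v u) (i : Fin 3) (x : M) (u : E4) :
    at2 g x (atJ (I i) x u) u = 0 := by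
  have h1 := h.skew i x u u
  rw [hsym x u] at h1
  linarith

theorem symm_of (hin : ∀ (x : M) (u v : TangentSpace 𝓘(ℝ, E4) x), inner ℝ u v = at2 g x u v)
    (x : M) (u v : E4) : at2 g x u v = at2 g x v u :=
  (hin x u v).symm.trans ((real_inner_comm _ _).trans (hin x v u))

theorem pos_of (hin : ∀ (x : M) (u v : TangentSpace 𝓘(ℝ, E4) x), inner ℝ u v = at2 g x u v)
    (x : M) {u : E4} (hu : u ≠ 0) : 0 < at2 g x u u := by
  have h1 : 0 < @inner ℝ (TangentSpace 𝓘(ℝ, E4) x) _ u u := real_inner_self_pos.2 hu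
  exact h1.trans_eq (hin x u u)

/-- **the covariant derivative of `I_j`.** -/
theorem nab_I (hin : ∀ (x : M) (u v : TangentSpace 𝓘(ℝ, E4) x), inner ℝ u v = at2 g x u v)
    (h : QT g I) (j : Fin 3) (z : M) (v u : E4) :
    nab (I j) z v u = thv P g I (j + 2) z v • atJ (I (j + 1)) z u -
      thv P g I (j + 1) z v • atJ (I (j + 2)) z u := by
  have hsym := symm_of hin
  obtain ⟨α, β, h1⟩ := exists_coef hin h z v j
  obtain ⟨α', β', h2⟩ := exists_coef hin h z v (j + 2)
  have e1 : j + 2 + 1 = j := by fin_cases j <;> rfl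
  have e2 : j + 2 + 2 = j + 1 := by fin_cases j <;> rfl
  have e3 : j + 1 + 1 = j + 2 := by fin_cases j <;> rfl
  have e4 : j + 1 + 2 = j := by fin_cases j <;> rfl
  have a1 : thv P g I (j + 2) z v = α := by
    have := coef_eq P hin h j z v h1
    unfold thv
    rw [e1, e2]
    exact this
  have a2 : thv P g I (j + 1) z v = α' := by
    have := coef_eq P hin h (j + 2) z v h2
    unfold thv
    rw [e3, e4]
    rwa [e1] at this
  -- `α' + β = 0`
  have h3 : ∀ x w, atJ (I (j + 2)) x (atJ (I j) x w) = atJ (I (j + 1)) x w := by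
    intro x w
    have := h.mul (j + 2) x w
    rwa [e1, e2] at this
  have h4 := nab_comp (h.smooth (j + 2)) (h.smooth j) (h.smooth (j + 1)) h3 z v (ee 0)
  have h5 : at2 g z (nab (I (j + 1)) z v (ee 0)) (ee 0) = 0 := by
    have := nab_skew hin (h.smooth (j + 1)) (h.skew (j + 1)) z v (ee 0) (ee 0)
    rw [hsym z (ee 0)] at this
    linarith
  have h6 : at2 g z (nab (I (j + 2)) z v (atJ (I j) z (ee 0))) (ee 0) = - α' * at2 g z (ee 0) (ee 0) := by
    rw [h2, e1, e2, h.sq]
    have h7 : atJ (I (j + 1)) z (atJ (I j) z (ee 0)) = - atJ (I (j + 2)) z (ee 0) :=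
      (ql hin h z).mul' j _
    rw [h7]
    simp only [map_add, map_smul, add_apply, smul_apply, smul_eq_mul, map_neg, neg_apply,
      h.self hsym]
    ring
  have h8 : at2 g z (atJ (I (j + 2)) z (nab (I j) z v (ee 0))) (ee 0) = - β * at2 g z (ee 0) (ee 0) := by
    rw [h1, map_add, map_smul, map_smul, h.sq]
    have h7 : atJ (I (j + 2)) z (atJ (I (j + 1)) z (ee 0)) = - atJ (I j) z (ee 0) := by
      have := (ql hin h z).mul' (j + 1) (ee 0)
      rw [e3, e4] at this
      exact this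
    rw [h7]
    simp only [map_add, map_smul, add_apply, smul_apply, smul_eq_mul, map_neg, neg_apply,
      h.self hsym]
    ring
  rw [h4, map_add, add_apply, h6, h8] at h5
  have h9 : 0 < at2 g z (ee 0) (ee 0) := pos_of hin z (by
    intro h0
    have := congrArg (fun w : E4 => w 0) h0
    simp [ee] at this)
  have h10 : β = - α' := by
    have : (α' + β) * at2 g z (ee 0) (ee 0) = 0 := by linarith
    rcases mul_eq_zero.1 this with h11 | h11
    · linarith
    · exact absurd h11 h9.ne'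
  rw [a1, a2, h1, h10, neg_smul]
  abel

/-- **the covariant derivative of `I_j X`** (with the connection forms as vector fields). -/
theorem mCov_I (hin : ∀ (x : M) (u v : TangentSpace 𝓘(ℝ, E4) x), inner ℝ u v = at2 g x u v)
    (h : QT g I) (j : Fin 3) {X : (x : M) → TangentSpace 𝓘(ℝ, E4) x} {z : M} (hX : VSm 4 ∞ X z)
    (v : TangentSpace 𝓘(ℝ, E4) z) :
    mCov 4 (tJ (I j) X) z v = tJ (I j) (fun q => mCov 4 X q v) z +
        (inner ℝ (theta P g I (j + 2) z) v : ℝ) • tJ (I (j + 1)) X z -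
        (inner ℝ (theta P g I (j + 1) z) v : ℝ) • tJ (I (j + 2)) X z := by
  rw [inner_theta P hin, inner_theta P hin]
  have h1 := mC_endo (h.smooth j) (vs_iff.2 hX) (v : E4)
  have h4 := nab_I P hin h j z (v : E4) (X z : E4)
  have h5 := h1.trans (congrArg (fun w : E4 => atJ (I j) z (mC (X : VF E4 M) z (v : E4)) + w) h4)
  have h2 := mC_eq (tJ (I j) X) z (v : E4)
  have h3 := mC_eq X z (v : E4)
  refine (h2.trans h5).trans ?_
  rw [← h3]
  exact (add_sub_assoc _ _ _).symm

/-- **the fields `θ_i` are smooth.** -/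
theorem VSm_theta [CompactSpace M] [T2Space M]
    (hin : ∀ (x : M) (u v : TangentSpace 𝓘(ℝ, E4) x), inner ℝ u v = at2 g x u v)
    (h : QT g I) (i : Fin 3) (z : M) : VSm 4 ∞ (theta P g I i) z := by
  refine VSm_sum fun C => VSm.smul le_rfl ?_ (P.sm C z)
  have hA : ∀ A : κ, ContMDiffAt 𝓘(ℝ, E4) 𝓘(ℝ, ℝ) ∞ (fun q : M =>
      (inner ℝ (mCov 4 (tJ (I (i + 1)) (P.s A)) q (P.s C q)) (tJ (I (i + 2)) (P.s A) q) : ℝ) -
        (inner ℝ (tJ (I (i + 1)) (fun q => mCov 4 (P.s A) q (P.s C q)) q)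
          (tJ (I (i + 2)) (P.s A) q) : ℝ)) z := by
    intro A
    have s1 : ∀ q, VSm 4 ∞ (tJ (I (i + 1)) (P.s A)) q := fun q => VSm_tJ (h.smooth (i + 1)) (P.sm A q)
    have s2 : ∀ q, VSm 4 ∞ (tJ (I (i + 2)) (P.s A)) q := fun q => VSm_tJ (h.smooth (i + 2)) (P.sm A q)
    have s3 := R249.Dic805.VSm_mCov s1 (P.sm C)
    have s4 := R249.Dic805.VSm_mCov (P.sm A) (P.sm C)
    have s5 : ∀ q, VSm 4 ∞ (tJ (I (i + 1)) (fun q => mCov 4 (P.s A) q (P.s C q))) q :=
      fun q => VSm_tJ (h.smooth (i + 1)) (s4 q)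
    exact ((R249.Dic805.contMDiff_inner s3 s2) z).sub ((R249.Dic805.contMDiff_inner s5 s2) z)
  have hS : ContMDiffAt 𝓘(ℝ, E4) 𝓘(ℝ, ℝ) ∞ (fun q : M => (1 / 4 : ℝ) * ∑ A,
      ((inner ℝ (mCov 4 (tJ (I (i + 1)) (P.s A)) q (P.s C q)) (tJ (I (i + 2)) (P.s A) q) : ℝ) -
        (inner ℝ (tJ (I (i + 1)) (fun q => mCov 4 (P.s A) q (P.s C q)) q)
          (tJ (I (i + 2)) (P.s A) q) : ℝ))) z := by
    refine contMDiffAt_const.mul ?_
    have := contMDiffAt_finsetSum (t := Finset.univ) fun A (_ : A ∈ Finset.univ) => hA A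
    simpa using this
  refine hS.congr_of_eventuallyEq (Eventually.of_forall fun q => ?_)
  show thv P g I i q (sP P C q) = _
  unfold thv
  congr 1
  refine Finset.sum_congr rfl fun A _ => ?_
  have h1 := mC_endo (h.smooth (i + 1)) (vs_sP P A q) (sP P C q)
  have h2 := mC_eq (tJ (I (i + 1)) (P.s A)) q (sP P C q)
  have h3 := mC_eq (P.s A) q (sP P C q)
  have h4 : nab (I (i + 1)) q (sP P C q) (sP P A q) =
      mC (JX (I (i + 1)) (sP P A)) q (sP P C q) - atJ (I (i + 1)) q (mC (sP P A) q (sP P C q)) := by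
    rw [h1]; abel
  rw [h4, map_sub, sub_apply]
  refine congrArg₂ (fun a b : ℝ => a - b) ?_ ?_
  · refine Eq.trans ?_ (hin q _ _).symm
    exact congrArg (fun w : E4 => at2 g q w (atJ (I (i + 2)) q (sP P A q))) h2.symm
  · refine Eq.trans ?_ (hin q _ _).symm
    exact congrArg (fun w : E4 => at2 g q (atJ (I (i + 1)) q w) (atJ (I (i + 2)) q (sP P A q))) h3.symm

end theta

end

end Crest.Agent.R235.RiemD_399
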