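import Crest.Agent.R235.RcMain_820
import Crest.Agent.R235.RCApp_746

/-!
Row 235, block FAM/RC (helper820), RC-MAN part 1: ABSTRACT DIRAC PAIR.

`j : X →L H0`, `D : X →L Y`, `j1 : X1 →L Y`, `D1 : X1 →L H0`, coercive, `⟪D v, j1 w⟫ = ⟪j v, D1 w⟫`.
Real eigenbases `j e_k` of `H0`, `j1 f_k` of `Y`.

* `S0 ε x`, `S1 ε y` : the solutions of `(1 + ε² D* D) u = x`, `(1 + ε² D D*) w = y`;
* `Gr_apply`         : `G_ε (x, y) = (j (S0 x), j1 (S1 y))`;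
* `com`              : the commutator hypothesis of `Inf` from the bounds of `Q`.
-/

set_option autoImplicit false
set_option linter.unusedSectionVars false
set_option maxSynthPendingDepth 3

open scoped InnerProductSpace ContDiff Topology
open Complex Filter

namespace Crest.Agent.R235.Rm_820

open Crest.Agent.R235.Rc0_820 Crest.Agent.R235.RCTr_746
open Crest.Agent.R235.Rc1_820 (i0 i0_fst i0_snd cr_eq)
open Crest.Agent.R235.RCDefs_746 (Base Fam KerF Inf Gr)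

noncomputable section

local notation "⟪" x ", " y "⟫" => inner ℂ x y

/-! ### Douglas -/

lemma douglas {H : Type*} [NormedAddCommGroup H] [InnerProductSpace ℂ H] [CompleteSpace H]
    {G R : H →L[ℂ] H} (hG : star G = G) (hR : star R = R) (hd : DenseRange G) {c : ℝ} (hc : 0 ≤ c)
    (h : ∀ y, ‖R y‖ ≤ c * ‖G y‖) : ∃ Z : H →L[ℂ] H, ‖Z‖ ≤ c ∧ R = G * Z := by
  set E : H →L[ℂ] H := (R : H →ₗ[ℂ] H).extendOfNorm (G : H →ₗ[ℂ] H) with hE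
  have hd' : DenseRange (G : H →ₗ[ℂ] H) := hd
  have h1 : ∀ y, E (G y) = R y := fun y =>
    LinearMap.extendOfNorm_eq (f := (R : H →ₗ[ℂ] H)) (e := (G : H →ₗ[ℂ] H)) hd' ⟨c, h⟩ y
  have h2 : ‖E‖ ≤ c :=
    LinearMap.opNorm_extendOfNorm_le (f := (R : H →ₗ[ℂ] H)) (e := (G : H →ₗ[ℂ] H)) hd' hc h
  have h3 : E * G = R := by
    ext1 y; exact h1 y
  refine ⟨star E, by rwa [norm_star], ?_⟩
  rw [← hR, ← h3, star_mul, hG]

/-! ### bases -/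

/-- Parseval for a real basis. -/
def Pars {H : Type*} [NormedAddCommGroup H] [InnerProductSpace ℂ H] (b : ℕ → H) : Prop :=
  ∀ x y : H, HasSum (fun k => (⟪b k, x⟫).re * (⟪b k, y⟫).re) (⟪x, y⟫).re

lemma Pars.ext {H Z : Type*} [NormedAddCommGroup H] [InnerProductSpace ℂ H] [CompleteSpace H]
    [NormedAddCommGroup Z] [InnerProductSpace ℂ Z] [CompleteSpace Z] {b : ℕ → H} (hb : Pars b)
    {T S : H →L[ℂ] Z} (h : ∀ k, T (b k) = S (b k)) : T = S := by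
  have h1 : ContinuousLinearMap.adjoint (T - S) = 0 := by
    refine ContinuousLinearMap.ext fun z => ?_
    have h2 := hb (ContinuousLinearMap.adjoint (T - S) z) (ContinuousLinearMap.adjoint (T - S) z)
    have h3 : ∀ k, (⟪b k, ContinuousLinearMap.adjoint (T - S) z⟫).re = 0 := by
      intro k
      rw [ContinuousLinearMap.adjoint_inner_right, sub_apply, h k, sub_self, inner_zero_left]
      rfl
    simp only [h3, mul_zero] at h2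
    have h4 := h2.unique hasSum_zero
    rw [inner_self_eq_norm_sq_to_K] at h4
    have h5 : ‖ContinuousLinearMap.adjoint (T - S) z‖ ^ 2 = 0 := by
      have : (((‖ContinuousLinearMap.adjoint (T - S) z‖ : ℂ)) ^ 2).re =
        ‖ContinuousLinearMap.adjoint (T - S) z‖ ^ 2 := by
        rw [← Complex.ofReal_pow, Complex.ofReal_re]
      rw [← this]; exact h4
    have h6 := norm_eq_zero.1 (pow_eq_zero_iff two_ne_zero |>.1 h5)
    rw [h6]; rfl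
  have h7 : T - S = 0 := by
    have := congrArg ContinuousLinearMap.adjoint h1
    rwa [ContinuousLinearMap.adjoint_adjoint, map_zero] at this
  exact sub_eq_zero.1 h7

section pair

variable {X X1 H0 Y : Type*} [NormedAddCommGroup X] [InnerProductSpace ℂ X] [CompleteSpace X]
  [NormedAddCommGroup X1] [InnerProductSpace ℂ X1] [CompleteSpace X1]
  [NormedAddCommGroup H0] [InnerProductSpace ℂ H0] [CompleteSpace H0]
  [NormedAddCommGroup Y] [InnerProductSpace ℂ Y] [CompleteSpace Y]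

/-- the solution of `(1 + ε² D* D) u = x`. -/
def S0 (j : X →L[ℂ] H0) (D : X →L[ℂ] Y) (ε : ℝ) : H0 →L[ℂ] X := So j D ε ∘L i0 H0 Y

variable {j : X →L[ℂ] H0} {D : X →L[ℂ] Y} {ε : ℝ}

lemma So_unique (hc : Coer j D) (hε : ε ≠ 0) {x : HT H0 Y} {u : X}
    (h : ∀ v, ⟪j v, j u⟫ + ε ^ 2 * ⟪D v, D u⟫ = ⟪j v, x.fst⟫ - I * ε * ⟪D v, x.snd⟫) :
    So j D ε x = u := by
  refine (Cr_eq hc hε (x := x) (y := WithLp.toLp 2 (j u, x.snd - (I * ε) • D u)) (u := u)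
    ⟨rfl, rfl, fun v => ?_⟩).2
  show ⟪j v, j u - x.fst⟫ + (I * ε) * ⟪D v, x.snd - (I * ε) • D u⟫ = 0
  rw [inner_sub_right, inner_sub_right, inner_smul_right]
  linear_combination h v - ε ^ 2 * ⟪D v, D u⟫ * I_sq

lemma S0_eq (hc : Coer j D) (hε : ε ≠ 0) (x : H0) (v : X) :
    ⟪j v, j (S0 j D ε x)⟫ + ε ^ 2 * ⟪D v, D (S0 j D ε x)⟫ = ⟪j v, x⟫ := by
  have h := So_eq hc hε (i0 H0 Y x) v
  rw [i0_fst, i0_snd, inner_zero_right, mul_zero, sub_zero] at h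
  exact h

lemma S0_unique (hc : Coer j D) (hε : ε ≠ 0) {x : H0} {u : X}
    (h : ∀ v, ⟪j v, j u⟫ + ε ^ 2 * ⟪D v, D u⟫ = ⟪j v, x⟫) : S0 j D ε x = u :=
  So_unique hc hε (x := i0 H0 Y x) fun v => by
    rw [i0_fst, i0_snd, inner_zero_right, mul_zero, sub_zero]; exact h v

/-- energy estimate. -/
lemma S0_en (hc : Coer j D) (hε : ε ≠ 0) (x : H0) :
    ‖j (S0 j D ε x)‖ ^ 2 + ε ^ 2 * ‖D (S0 j D ε x)‖ ^ 2 ≤ ‖x‖ ^ 2 := by
  set u := S0 j D ε x with hu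
  have h := S0_eq hc hε x u
  rw [← hu, inner_self_eq_norm_sq_to_K, inner_self_eq_norm_sq_to_K] at h
  have h1 : ((‖j u‖ ^ 2 + ε ^ 2 * ‖D u‖ ^ 2 : ℝ) : ℂ) = ⟪j u, x⟫ := by
    rw [← h]; push_cast; rfl
  have h2 : ‖j u‖ ^ 2 + ε ^ 2 * ‖D u‖ ^ 2 ≤ ‖j u‖ * ‖x‖ := by
    have h3 := norm_inner_le_norm (𝕜 := ℂ) (j u) x
    rw [← h1, Complex.norm_real, Real.norm_eq_abs] at h3
    exact (le_abs_self _).trans h3
  have h4 : 0 ≤ ε ^ 2 * ‖D u‖ ^ 2 := by positivity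
  nlinarith [sq_nonneg (‖j u‖ - ‖x‖), norm_nonneg (j u), norm_nonneg x]

lemma norm_jS0 (hc : Coer j D) (hε : ε ≠ 0) (x : H0) : ‖j (S0 j D ε x)‖ ≤ ‖x‖ := by
  have h := S0_en hc hε x
  have h4 : 0 ≤ ε ^ 2 * ‖D (S0 j D ε x)‖ ^ 2 := by positivity
  exact (pow_le_pow_iff_left₀ (norm_nonneg _) (norm_nonneg _) two_ne_zero).1 (by linarith)

/-- the estimate in the domain. -/
lemma norm_S0 (hc : Coer j D) : ∃ c, 0 ≤ c ∧ ∀ ε : ℝ, 0 < ε → ε ≤ 1 → ∀ x : H0,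
    ε * ‖S0 j D ε x‖ ≤ c * ‖x‖ := by
  obtain ⟨c, hc'⟩ := hc
  refine ⟨Real.sqrt (|c|), Real.sqrt_nonneg _, fun ε h0 h1 x => ?_⟩
  have h := S0_en ⟨c, hc'⟩ h0.ne' x
  set u := S0 j D ε x
  have h2 : ‖u‖ ^ 2 ≤ |c| * (‖j u‖ ^ 2 + ‖D u‖ ^ 2) :=
    (hc' u).trans (mul_le_mul_of_nonneg_right (le_abs_self c) (by positivity))
  have h3 : ε ^ 2 * (‖j u‖ ^ 2 + ‖D u‖ ^ 2) ≤ ‖x‖ ^ 2 := by
    have : ε ^ 2 ≤ 1 := pow_le_one₀ h0.le h1
    nlinarith [sq_nonneg ‖j u‖]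
  have h4 : (ε * ‖u‖) ^ 2 ≤ (Real.sqrt |c| * ‖x‖) ^ 2 := by
    rw [mul_pow, mul_pow, Real.sq_sqrt (abs_nonneg c)]
    calc ε ^ 2 * ‖u‖ ^ 2 ≤ ε ^ 2 * (|c| * (‖j u‖ ^ 2 + ‖D u‖ ^ 2)) :=
          mul_le_mul_of_nonneg_left h2 (by positivity)
      _ = |c| * (ε ^ 2 * (‖j u‖ ^ 2 + ‖D u‖ ^ 2)) := by ring
      _ ≤ |c| * ‖x‖ ^ 2 := mul_le_mul_of_nonneg_left h3 (abs_nonneg c)
  exact (pow_le_pow_iff_left₀ (by positivity) (by positivity) two_ne_zero).1 h4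

/-! ### a pair -/

/-- a pair of mutually adjoint operators. -/
structure DP (j : X →L[ℂ] H0) (D : X →L[ℂ] Y) (j1 : X1 →L[ℂ] Y) (D1 : X1 →L[ℂ] H0) : Prop where
  c0 : Coer j D
  c1 : Coer j1 D1
  adj : ∀ v w, ⟪D v, j1 w⟫ = ⟪j v, D1 w⟫

/-- real eigenbases. -/
structure ED (j : X →L[ℂ] H0) (D : X →L[ℂ] Y) (j1 : X1 →L[ℂ] Y) (D1 : X1 →L[ℂ] H0)
    (μ ν : ℕ → ℝ) (e : ℕ → X) (f : ℕ → X1) (g : ℕ → X) : Prop where
  μ0 : ∀ k, 0 ≤ μ k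
  ν0 : ∀ k, 0 ≤ ν k
  eo : ∀ k l, (⟪j (e k), j (e l)⟫).re = if k = l then 1 else 0
  fo : ∀ k l, (⟪j1 (f k), j1 (f l)⟫).re = if k = l then 1 else 0
  ep : Pars fun k => j (e k)
  fp : Pars fun k => j1 (f k)
  eE : ∀ k v, ⟪D v, D (e k)⟫ = μ k * ⟪j v, j (e k)⟫
  fE : ∀ k w, ⟪D1 w, D1 (f k)⟫ = ν k * ⟪j1 w, j1 (f k)⟫
  jg : ∀ k, j (g k) = D1 (f k)
  Dg : ∀ k, D (g k) = (ν k : ℂ) • j1 (f k)

variable {j1 : X1 →L[ℂ] Y} {D1 : X1 →L[ℂ] H0} {μ ν : ℕ → ℝ} {e : ℕ → X} {f : ℕ → X1} {g : ℕ → X}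

lemma pos_den {m : ℝ} (hm : 0 ≤ m) (ε : ℝ) : 0 < 1 + ε ^ 2 * m := by positivity

lemma S0_e (h : DP j D j1 D1) (hE : ED j D j1 D1 μ ν e f g) (hε : ε ≠ 0) (k : ℕ) :
    S0 j D ε (j (e k)) = (((1 + ε ^ 2 * μ k)⁻¹ : ℝ) : ℂ) • e k := by
  refine S0_unique h.c0 hε fun v => ?_
  rw [map_smul, map_smul, inner_smul_right, inner_smul_right, hE.eE]
  have h1 := (pos_den (hE.μ0 k) ε).ne'
  have h2 : (((1 + ε ^ 2 * μ k)⁻¹ : ℝ) : ℂ) * (1 + ε ^ 2 * μ k) = 1 := by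
    rw [← Complex.ofReal_one, ← Complex.ofReal_pow, ← Complex.ofReal_mul, ← Complex.ofReal_add,
      ← Complex.ofReal_mul, inv_mul_cancel₀ h1]
  linear_combination ⟪j v, j (e k)⟫ * h2

lemma S1_f (h : DP j D j1 D1) (hE : ED j D j1 D1 μ ν e f g) (hε : ε ≠ 0) (k : ℕ) :
    S0 j1 D1 ε (j1 (f k)) = (((1 + ε ^ 2 * ν k)⁻¹ : ℝ) : ℂ) • f k := by
  refine S0_unique h.c1 hε fun v => ?_
  rw [map_smul, map_smul, inner_smul_right, inner_smul_right, hE.fE]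
  have h1 := (pos_den (hE.ν0 k) ε).ne'
  have h2 : (((1 + ε ^ 2 * ν k)⁻¹ : ℝ) : ℂ) * (1 + ε ^ 2 * ν k) = 1 := by
    rw [← Complex.ofReal_one, ← Complex.ofReal_pow, ← Complex.ofReal_mul, ← Complex.ofReal_add,
      ← Complex.ofReal_mul, inv_mul_cancel₀ h1]
  linear_combination ⟪j1 v, j1 (f k)⟫ * h2

variable (H0 Y) in
/-- the second inclusion. -/
def i1 : Y →L[ℂ] HT H0 Y := pr 0 (ContinuousLinearMap.id ℂ Y)

@[simp] lemma i1_fst (x : Y) : (i1 H0 Y x).fst = 0 := rfl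
@[simp] lemma i1_snd (x : Y) : (i1 H0 Y x).snd = x := rfl

lemma So_i1_f (h : DP j D j1 D1) (hE : ED j D j1 D1 μ ν e f g) (hε : ε ≠ 0) (k : ℕ) :
    So j D ε (i1 H0 Y (j1 (f k))) = (-(I * ε) * (((1 + ε ^ 2 * ν k)⁻¹ : ℝ) : ℂ)) • g k := by
  refine So_unique h.c0 hε fun v => ?_
  rw [i1_fst, i1_snd, inner_zero_right, map_smul, map_smul, inner_smul_right, inner_smul_right,
    hE.Dg, hE.jg, inner_smul_right, ← h.adj]
  have h1 := (pos_den (hE.ν0 k) ε).ne'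
  have h2 : (((1 + ε ^ 2 * ν k)⁻¹ : ℝ) : ℂ) * (1 + ε ^ 2 * ν k) = 1 := by
    rw [← Complex.ofReal_one, ← Complex.ofReal_pow, ← Complex.ofReal_mul, ← Complex.ofReal_add,
      ← Complex.ofReal_mul, inv_mul_cancel₀ h1]
  linear_combination (-(I * ε) * ⟪D v, j1 (f k)⟫) * h2

/-- the second component. -/
lemma snd_C (h : DP j D j1 D1) (hE : ED j D j1 D1 μ ν e f g) (hε : ε ≠ 0) (y : Y) :
    (Cr j D ε (i1 H0 Y y)).snd = j1 (S0 j1 D1 ε y) := by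
  have h1 : (p1 H0 Y ∘L Cr j D ε) ∘L i1 H0 Y = j1 ∘L S0 j1 D1 ε := by
    refine hE.fp.ext fun k => ?_
    show (i1 H0 Y (j1 (f k))).snd - (I * ε) • D (So j D ε (i1 H0 Y (j1 (f k)))) =
      j1 (S0 j1 D1 ε (j1 (f k)))
    rw [So_i1_f h hE hε, S1_f h hE hε, map_smul, map_smul, hE.Dg, i1_snd]
    have h1 := (pos_den (hE.ν0 k) ε).ne'
    have h2 : (((1 + ε ^ 2 * ν k)⁻¹ : ℝ) : ℂ) * (1 + ε ^ 2 * ν k) = 1 := by
      rw [← Complex.ofReal_one, ← Complex.ofReal_pow, ← Complex.ofReal_mul, ← Complex.ofReal_add,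
        ← Complex.ofReal_mul, inv_mul_cancel₀ h1]
    rw [smul_smul, smul_smul]
    nth_rewrite 1 [← one_smul ℂ (j1 (f k))]
    rw [← sub_smul]
    congr 1
    linear_combination (-1 : ℂ) * h2 + ε ^ 2 * (((1 + ε ^ 2 * ν k)⁻¹ : ℝ) : ℂ) * ν k * I_sq
  exact congrArg (fun T : Y →L[ℂ] Y => T y) h1

lemma Gr_eq (hc : Coer j D) (hε : ε ≠ 0) (x : HT H0 Y) :
    (2 : ℂ) • Gr (Cr j D 1) ε x = Cr j D ε x + gr H0 Y (Cr j D ε (gr H0 Y x)) := by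
  have h1 : Gr (Cr j D 1) ε = Cr j D (-ε) * Cr j D ε := by
    unfold Gr
    rw [cr_eq hc hε, ContinuousLinearMap.star_eq_adjoint, Cr_adj hc hε]
  rw [gCg hc hε, h1]
  have h2 := C_add_adj hc hε
  exact (congrArg (fun T : HT H0 Y →L[ℂ] HT H0 Y => T x) h2).symm

/-- **`G_ε` in components.** -/
lemma Gr_apply (h : DP j D j1 D1) (hE : ED j D j1 D1 μ ν e f g) (hε : ε ≠ 0) (x : HT H0 Y) :
    (Gr (Cr j D 1) ε x).fst = j (S0 j D ε x.fst) ∧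
    (Gr (Cr j D 1) ε x).snd = j1 (S0 j1 D1 ε x.snd) := by
  have h1 := Gr_eq h.c0 hε x
  have h2 : (2 : ℂ) ≠ 0 := two_ne_zero
  constructor
  · have h3 := congrArg (fun z : HT H0 Y => z.fst) h1
    have h4 : (Cr j D ε x + gr H0 Y (Cr j D ε (gr H0 Y x))).fst =
        (Cr j D ε (x + gr H0 Y x)).fst := by
      rw [map_add]; rfl
    have h5 : x + gr H0 Y x = (2 : ℂ) • i0 H0 Y x.fst := by
      refine ext_HT ?_ ?_
      · show x.fst + x.fst = (2 : ℂ) • x.fst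
        rw [two_smul]
      · show x.snd + -x.snd = (2 : ℂ) • (0 : Y)
        rw [add_neg_cancel, smul_zero]
    have h6 : (2 : ℂ) • (Gr (Cr j D 1) ε x).fst = (2 : ℂ) • j (S0 j D ε x.fst) := by
      calc (2 : ℂ) • (Gr (Cr j D 1) ε x).fst = ((2 : ℂ) • Gr (Cr j D 1) ε x).fst := rfl
        _ = (Cr j D ε (x + gr H0 Y x)).fst := by rw [← h4]; exact h3
        _ = ((2 : ℂ) • Cr j D ε (i0 H0 Y x.fst)).fst := by rw [h5, map_smul]
        _ = _ := rfl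
    exact smul_right_injective _ h2 h6
  · have h3 := congrArg (fun z : HT H0 Y => z.snd) h1
    have h4 : (Cr j D ε x + gr H0 Y (Cr j D ε (gr H0 Y x))).snd =
        (Cr j D ε (x - gr H0 Y x)).snd := by
      rw [map_sub]
      show (Cr j D ε x).snd + -(Cr j D ε (gr H0 Y x)).snd =
        (Cr j D ε x).snd - (Cr j D ε (gr H0 Y x)).snd
      rw [sub_eq_add_neg]
    have h5 : x - gr H0 Y x = (2 : ℂ) • i1 H0 Y x.snd := by
      refine ext_HT ?_ ?_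
      · show x.fst - x.fst = (2 : ℂ) • (0 : H0)
        rw [sub_self, smul_zero]
      · show x.snd - -x.snd = (2 : ℂ) • x.snd
        rw [sub_neg_eq_add, two_smul]
    have h6 : (2 : ℂ) • (Gr (Cr j D 1) ε x).snd = (2 : ℂ) • j1 (S0 j1 D1 ε x.snd) := by
      calc (2 : ℂ) • (Gr (Cr j D 1) ε x).snd = ((2 : ℂ) • Gr (Cr j D 1) ε x).snd := rfl
        _ = (Cr j D ε (x - gr H0 Y x)).snd := by rw [← h4]; exact h3
        _ = ((2 : ℂ) • Cr j D ε (i1 H0 Y x.snd)).snd := by rw [h5, map_smul]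
        _ = (2 : ℂ) • (Cr j D ε (i1 H0 Y x.snd)).snd := rfl
        _ = _ := by rw [snd_C h hE hε]
    exact smul_right_injective _ h2 h6

end pair

end

end Crest.Agent.R235.Rm_820
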