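import Crest.Agent.R235.Rm1_820

/-!
Row 235, block FAM/RC (helper820), RC-MAN part 2: the commutator hypothesis of `Inf`.
-/

set_option autoImplicit false
set_option linter.unusedSectionVars false
set_option maxSynthPendingDepth 3

open scoped InnerProductSpace ContDiff Topology
open Complex Filter

namespace Crest.Agent.R235.Rm_820

open Crest.Agent.R235.Rc0_820 Crest.Agent.R235.RCTr_746
open Crest.Agent.R235.Rc1_820 (i0 i0_fst i0_snd cr_eq star_Iod)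
open Crest.Agent.R235.RCDefs_746 (Base Fam KerF Inf Gr)

noncomputable section

local notation "⟪" x ", " y "⟫" => inner ℂ x y

variable {X X1 H0 Y : Type*} [NormedAddCommGroup X] [InnerProductSpace ℂ X] [CompleteSpace X]
  [NormedAddCommGroup X1] [InnerProductSpace ℂ X1] [CompleteSpace X1]
  [NormedAddCommGroup H0] [InnerProductSpace ℂ H0] [CompleteSpace H0]
  [NormedAddCommGroup Y] [InnerProductSpace ℂ Y] [CompleteSpace Y]
  {j : X →L[ℂ] H0} {D : X →L[ℂ] Y} {j1 : X1 →L[ℂ] Y} {D1 : X1 →L[ℂ] H0}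
  {μ ν : ℕ → ℝ} {e : ℕ → X} {f : ℕ → X1} {g : ℕ → X} {ε : ℝ}

/-- `G_0` is symmetric. -/
lemma S0_symm (hc : Coer j D) (hε : ε ≠ 0) (x y : H0) :
    ⟪j (S0 j D ε x), y⟫ = ⟪x, j (S0 j D ε y)⟫ := by
  have h1 := S0_eq hc hε y (S0 j D ε x)
  have h2 := congrArg (starRingEnd ℂ) (S0_eq hc hε x (S0 j D ε y))
  simp only [map_add, map_mul, map_pow, inner_conj_symm, Complex.conj_ofReal] at h2
  rw [← h1, ← h2]

lemma S0_inj (hc : Coer j D) (hε : ε ≠ 0) {μ : ℕ → ℝ} (hμ : ∀ k, 0 ≤ μ k) {e : ℕ → X}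
    (hp : Pars fun k => j (e k)) (hE : ∀ k v, ⟪D v, D (e k)⟫ = μ k * ⟪j v, j (e k)⟫) {x : H0}
    (hx : j (S0 j D ε x) = 0) : x = 0 := by
  have h1 : ∀ k, (⟪j (e k), x⟫).re = 0 := by
    intro k
    have h3 : S0 j D ε (j (e k)) = (((1 + ε ^ 2 * μ k)⁻¹ : ℝ) : ℂ) • e k := by
      refine S0_unique hc hε fun v => ?_
      rw [map_smul, map_smul, inner_smul_right, inner_smul_right, hE]
      have h1 := (pos_den (hμ k) ε).ne'
      have h2 : (((1 + ε ^ 2 * μ k)⁻¹ : ℝ) : ℂ) * (1 + ε ^ 2 * μ k) = 1 := by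
        rw [← Complex.ofReal_one, ← Complex.ofReal_pow, ← Complex.ofReal_mul, ← Complex.ofReal_add,
          ← Complex.ofReal_mul, inv_mul_cancel₀ h1]
      linear_combination ⟪j v, j (e k)⟫ * h2
    have h4 := S0_symm hc hε (j (e k)) x
    rw [h3, hx, inner_zero_right, map_smul, inner_smul_left, Complex.conj_ofReal] at h4
    have h5 : (((1 + ε ^ 2 * μ k)⁻¹ : ℝ) : ℂ) ≠ 0 := by
      exact_mod_cast (inv_pos.2 (pos_den (hμ k) ε)).ne'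
    rw [(mul_eq_zero.1 h4).resolve_left h5]; rfl
  have h2 := hp x x
  simp only [h1, mul_zero] at h2
  have h4 := h2.unique hasSum_zero
  rw [inner_self_eq_norm_sq_to_K] at h4
  have h5 : ‖x‖ ^ 2 = 0 := by
    have : (((‖x‖ : ℂ)) ^ 2).re = ‖x‖ ^ 2 := by rw [← Complex.ofReal_pow, Complex.ofReal_re]
    rw [← this]; exact h4
  exact norm_eq_zero.1 (pow_eq_zero_iff two_ne_zero |>.1 h5)

lemma star_Gr {H : Type*} [NormedAddCommGroup H] [InnerProductSpace ℂ H] [CompleteSpace H]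
    (K : H →L[ℂ] H) (ε : ℝ) : star (Gr K ε) = Gr K ε := by
  unfold Gr; rw [star_mul, star_star]

lemma dense_of_inj {H : Type*} [NormedAddCommGroup H] [InnerProductSpace ℂ H] [CompleteSpace H]
    {G : H →L[ℂ] H} (hG : star G = G) (hi : ∀ x, G x = 0 → x = 0) : DenseRange G := by
  have h1 : (LinearMap.range (G : H →ₗ[ℂ] H))ᗮ = ⊥ := by
    rw [Submodule.eq_bot_iff]
    intro x hx
    refine hi x (ext_inner_left ℂ fun v => ?_)
    rw [inner_zero_right, ← hG, ContinuousLinearMap.star_eq_adjoint,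
      ContinuousLinearMap.adjoint_inner_right]
    exact (Submodule.mem_orthogonal _ _).1 hx _ ⟨v, rfl⟩
  have h2 := Submodule.topologicalClosure_eq_top_iff.2 h1
  rw [DenseRange, ← dense_closure]
  have h3 : ((LinearMap.range (G : H →ₗ[ℂ] H)).topologicalClosure : Set H) = Set.univ := by
    rw [h2]; rfl
  have h4 : closure (Set.range G) = Set.univ := by
    rw [← h3, Submodule.topologicalClosure_coe]; rfl
  rw [h4]; exact dense_univ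

lemma dense_Gr (h : DP j D j1 D1) (hE : ED j D j1 D1 μ ν e f g) (hε : ε ≠ 0) :
    DenseRange (Gr (Cr j D 1) ε) := by
  refine dense_of_inj (star_Gr _ _) fun x hx => ?_
  obtain ⟨h1, h2⟩ := Gr_apply h hE hε x
  rw [hx] at h1 h2
  exact ext_HT (S0_inj h.c0 hε hE.μ0 hE.ep hE.eE h1.symm)
    (S0_inj h.c1 hε hE.ν0 hE.fp hE.fE h2.symm)

/-- commutator data. -/
structure CM (j : X →L[ℂ] H0) (D : X →L[ℂ] Y) (j1 : X1 →L[ℂ] Y) (D1 : X1 →L[ℂ] H0)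
    (B : H0 →L[ℂ] Y) (Bu : X →L[ℂ] X1) (Bv : X1 →L[ℂ] X) (C : ℝ) : Prop where
  C0 : 0 ≤ C
  jB : ∀ v, j1 (Bu v) = B (j v)
  jB' : ∀ w, j (Bv w) = ContinuousLinearMap.adjoint B (j1 w)
  q0 : ∀ v w, ‖⟪D1 (Bu v), D1 w⟫ - ⟪D v, D (Bv w)⟫‖ ≤ C * (‖v‖ * ‖j1 w‖)
  q1 : ∀ v w, ‖⟪D1 (Bu v), D1 w⟫ - ⟪D v, D (Bv w)⟫‖ ≤ C * (‖j v‖ * ‖w‖)

variable {B : H0 →L[ℂ] Y} {Bu : X →L[ℂ] X1} {Bv : X1 →L[ℂ] X} {C : ℝ}

lemma key (h : DP j D j1 D1) (hB : CM j D j1 D1 B Bu Bv C) (hε : ε ≠ 0) (z : H0) (y : Y) :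
    ⟪B (j (S0 j D ε z)), y⟫ - ⟪z, ContinuousLinearMap.adjoint B (j1 (S0 j1 D1 ε y))⟫ =
      ε ^ 2 * (⟪D1 (Bu (S0 j D ε z)), D1 (S0 j1 D1 ε y)⟫ -
        ⟪D (S0 j D ε z), D (Bv (S0 j1 D1 ε y))⟫) := by
  set v := S0 j D ε z
  set w := S0 j1 D1 ε y
  have h1 := S0_eq h.c1 hε y (Bu v)
  have h2 := congrArg (starRingEnd ℂ) (S0_eq h.c0 hε z (Bv w))
  simp only [map_add, map_mul, map_pow, inner_conj_symm, Complex.conj_ofReal] at h2
  have h3 : ⟪j1 (Bu v), j1 w⟫ = ⟪j v, j (Bv w)⟫ := by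
    rw [hB.jB, hB.jB', ContinuousLinearMap.adjoint_inner_right]
  rw [← hB.jB, ← hB.jB']
  change ⟪j1 (Bu v), j1 w⟫ + (ε : ℂ) ^ 2 * ⟪D1 (Bu v), D1 w⟫ = ⟪j1 (Bu v), y⟫ at h1
  change ⟪j v, j (Bv w)⟫ + (ε : ℂ) ^ 2 * ⟪D v, D (Bv w)⟫ = ⟪z, j (Bv w)⟫ at h2
  linear_combination h2 - h1 + h3

lemma norm_le_of_inner {H : Type*} [NormedAddCommGroup H] [InnerProductSpace ℂ H] {x : H} {c : ℝ}
    (hc : 0 ≤ c) (h : ∀ z : H, ‖⟪z, x⟫‖ ≤ c * ‖z‖) : ‖x‖ ≤ c := by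
  have h1 := h x
  rw [inner_self_eq_norm_sq_to_K, norm_pow] at h1
  have h2 : ‖((‖x‖ : ℝ) : ℂ)‖ = ‖x‖ := by rw [Complex.norm_real, norm_norm]
  have h3 : ‖x‖ ^ 2 ≤ c * ‖x‖ := by
    have : ‖((‖x‖ : ℝ) : ℂ)‖ ^ 2 ≤ c * ‖x‖ := h1
    rwa [h2] at this
  by_cases h0 : ‖x‖ = 0
  · rw [h0]; exact hc
  · have h6 : 0 < ‖x‖ := lt_of_le_of_ne (norm_nonneg x) (Ne.symm h0)
    rw [pow_two] at h3
    exact le_of_mul_le_mul_right h3 h6

/-- the commutator in components, `H0`. -/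
lemma bd0 (h : DP j D j1 D1) (hB : CM j D j1 D1 B Bu Bv C) : ∃ c, 0 ≤ c ∧ ∀ ε : ℝ, 0 < ε → ε ≤ 1 →
    ∀ y : Y, ‖j (S0 j D ε (ContinuousLinearMap.adjoint B y)) -
      ContinuousLinearMap.adjoint B (j1 (S0 j1 D1 ε y))‖ ≤ (ε * c) * ‖j1 (S0 j1 D1 ε y)‖ := by
  obtain ⟨c, hc0, hc⟩ := norm_S0 h.c0
  have hC := hB.C0
  refine ⟨C * c, by positivity, fun ε h0 h1 y => ?_⟩
  refine norm_le_of_inner (by positivity) fun z => ?_
  have h2 := key h hB h0.ne' z y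
  have h3 : ⟪z, j (S0 j D ε (ContinuousLinearMap.adjoint B y)) -
      ContinuousLinearMap.adjoint B (j1 (S0 j1 D1 ε y))⟫ =
      ⟪B (j (S0 j D ε z)), y⟫ - ⟪z, ContinuousLinearMap.adjoint B (j1 (S0 j1 D1 ε y))⟫ := by
    rw [inner_sub_right, ← S0_symm h.c0 h0.ne', ContinuousLinearMap.adjoint_inner_right]
  rw [h3, h2, norm_mul, norm_pow, Complex.norm_real, Real.norm_eq_abs, sq_abs]
  have h4 := hB.q0 (S0 j D ε z) (S0 j1 D1 ε y)
  have h5 := hc ε h0 h1 z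
  calc ε ^ 2 * _ ≤ ε ^ 2 * (C * (‖S0 j D ε z‖ * ‖j1 (S0 j1 D1 ε y)‖)) :=
        mul_le_mul_of_nonneg_left h4 (by positivity)
    _ = ε * C * ‖j1 (S0 j1 D1 ε y)‖ * (ε * ‖S0 j D ε z‖) := by ring
    _ ≤ ε * C * ‖j1 (S0 j1 D1 ε y)‖ * (c * ‖z‖) := mul_le_mul_of_nonneg_left h5 (by positivity)
    _ = _ := by ring

/-- the commutator in components, `Y`. -/
lemma bd1 (h : DP j D j1 D1) (hB : CM j D j1 D1 B Bu Bv C) : ∃ c, 0 ≤ c ∧ ∀ ε : ℝ, 0 < ε → ε ≤ 1 →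
    ∀ x : H0, ‖B (j (S0 j D ε x)) - j1 (S0 j1 D1 ε (B x))‖ ≤ (ε * c) * ‖j (S0 j D ε x)‖ := by
  obtain ⟨c, hc0, hc⟩ := norm_S0 h.c1
  have hC := hB.C0
  refine ⟨C * c, by positivity, fun ε h0 h1 x => ?_⟩
  refine norm_le_of_inner (by positivity) fun z => ?_
  have h2 := key h hB h0.ne' x z
  have h3 : ‖⟪z, B (j (S0 j D ε x)) - j1 (S0 j1 D1 ε (B x))⟫‖ =
      ‖⟪B (j (S0 j D ε x)), z⟫ - ⟪x, ContinuousLinearMap.adjoint B (j1 (S0 j1 D1 ε z))⟫‖ := by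
    rw [norm_inner_symm, inner_sub_left, S0_symm h.c1 h0.ne',
      ContinuousLinearMap.adjoint_inner_right]
  rw [h3, h2, norm_mul, norm_pow, Complex.norm_real, Real.norm_eq_abs, sq_abs]
  have h4 := hB.q1 (S0 j D ε x) (S0 j1 D1 ε z)
  have h5 := hc ε h0 h1 z
  calc ε ^ 2 * _ ≤ ε ^ 2 * (C * (‖j (S0 j D ε x)‖ * ‖S0 j1 D1 ε z‖)) :=
        mul_le_mul_of_nonneg_left h4 (by positivity)
    _ = ε * C * ‖j (S0 j D ε x)‖ * (ε * ‖S0 j1 D1 ε z‖) := by ring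
    _ ≤ ε * C * ‖j (S0 j D ε x)‖ * (c * ‖z‖) := mul_le_mul_of_nonneg_left h5 (by positivity)
    _ = _ := by ring

/-- **the commutator hypothesis of `Inf`.** -/
theorem com (h : DP j D j1 D1) (hE : ED j D j1 D1 μ ν e f g) (hB : CM j D j1 D1 B Bu Bv C) :
    ∃ c : ℝ, ∀ ε : ℝ, 0 < ε → ε ≤ 1 → ∃ Z : HT H0 Y →L[ℂ] HT H0 Y, ‖Z‖ ≤ c ∧
      (I • od B) * Gr (Cr j D 1) ε = Gr (Cr j D 1) ε * (I • od B) +
        (ε : ℂ) • (Gr (Cr j D 1) ε * Z) := by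
  obtain ⟨c0, hc0, h0⟩ := bd0 h hB
  obtain ⟨c1, hc1, h1⟩ := bd1 h hB
  refine ⟨max c0 c1, fun ε hε0 hε1 => ?_⟩
  set G := Gr (Cr j D 1) ε with hG
  set b : HT H0 Y →L[ℂ] HT H0 Y := I • od B with hb
  set R := b * G - G * b with hR
  have hbs : star b = -b := star_Iod B
  have hGs : star G = G := star_Gr _ _
  have hRs : star R = R := by
    rw [hR, star_sub, star_mul, star_mul, hbs, hGs]
    noncomm_ring
  have hbd : ∀ y, ‖R y‖ ≤ (ε * max c0 c1) * ‖G y‖ := by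
    intro y
    obtain ⟨e1, e2⟩ := Gr_apply h hE hε0.ne' y
    obtain ⟨e3, e4⟩ := Gr_apply h hE hε0.ne' (b y)
    have f1 : (R y).fst = -(I • (j (S0 j D ε (ContinuousLinearMap.adjoint B y.snd)) -
        ContinuousLinearMap.adjoint B (j1 (S0 j1 D1 ε y.snd)))) := by
      have : (R y).fst = I • ContinuousLinearMap.adjoint B (G y).snd - (G (b y)).fst := rfl
      rw [this, hG, e2, e3]
      have e5 : (b y).fst = I • ContinuousLinearMap.adjoint B y.snd := rfl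
      rw [e5, map_smul, map_smul]
      module
    have f2 : (R y).snd = I • (B (j (S0 j D ε y.fst)) - j1 (S0 j1 D1 ε (B y.fst))) := by
      have : (R y).snd = I • B (G y).fst - (G (b y)).snd := rfl
      rw [this, hG, e1, e4]
      have e5 : (b y).snd = I • B y.fst := rfl
      rw [e5, map_smul, map_smul, smul_sub]
    have g1 : ‖(R y).fst‖ ≤ (ε * max c0 c1) * ‖(G y).snd‖ := by
      rw [f1, norm_neg, norm_smul, norm_I, one_mul, hG, e2]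
      refine (h0 ε hε0 hε1 y.snd).trans ?_
      exact mul_le_mul_of_nonneg_right (mul_le_mul_of_nonneg_left (le_max_left _ _) hε0.le)
        (norm_nonneg _)
    have g2 : ‖(R y).snd‖ ≤ (ε * max c0 c1) * ‖(G y).fst‖ := by
      rw [f2, norm_smul, norm_I, one_mul, hG, e1]
      refine (h1 ε hε0 hε1 y.fst).trans ?_
      exact mul_le_mul_of_nonneg_right (mul_le_mul_of_nonneg_left (le_max_right _ _) hε0.le)
        (norm_nonneg _)
    have hm : 0 ≤ max c0 c1 := hc0.trans (le_max_left _ _)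
    have k1 := pow_le_pow_left₀ (norm_nonneg _) g1 2
    have k2 := pow_le_pow_left₀ (norm_nonneg _) g2 2
    have k3 : ‖R y‖ ^ 2 ≤ ((ε * max c0 c1) * ‖G y‖) ^ 2 := by
      rw [norm_HT, mul_pow, norm_HT (G y)]
      rw [mul_pow] at k1 k2
      linarith
    exact (pow_le_pow_iff_left₀ (norm_nonneg _) (by positivity) two_ne_zero).1 k3
  have hm : 0 ≤ max c0 c1 := hc0.trans (le_max_left _ _)
  obtain ⟨Z, hZ, hRZ⟩ := douglas hGs hRs (dense_Gr h hE hε0.ne') (by positivity) hbd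
  refine ⟨((ε⁻¹ : ℝ) : ℂ) • Z, ?_, ?_⟩
  · rw [norm_smul, Complex.norm_real, Real.norm_eq_abs, abs_of_pos (inv_pos.2 hε0)]
    calc ε⁻¹ * ‖Z‖ ≤ ε⁻¹ * (ε * max c0 c1) := mul_le_mul_of_nonneg_left hZ (inv_pos.2 hε0).le
      _ = _ := by field_simp
  · have h9 : (ε : ℂ) • (G * (((ε⁻¹ : ℝ) : ℂ) • Z)) = R := by
      rw [mul_smul_comm, smul_smul, ← Complex.ofReal_mul, mul_inv_cancel₀ hε0.ne',
        Complex.ofReal_one, one_smul, ← hRZ]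
    rw [h9, hR]
    exact (add_sub_cancel _ _).symm

end

end Crest.Agent.R235.Rm_820
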