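import Crest.Agent.R235.Rm2_820

/-!
Row 235, block FAM/RC (helper820), RC-MAN part 3: the trace in a real basis.

* `tr_real` : `∑ re ⟪b k, T (b k)⟫ = 2 re tr T` for a real basis `b` of the complex Hilbert space `H`;
* `tr_eq'`  : `tr T = (∑ t k) / 2` if `⟪b k, T (b k)⟫ = t k` is real.
-/

set_option autoImplicit false
set_option linter.unusedSectionVars false
set_option maxSynthPendingDepth 3

open scoped InnerProductSpace ContDiff Topology
open Complex Filter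

namespace Crest.Agent.R235.Rm_820

open Crest.Agent.R235.Rc0_820 Crest.Agent.R235.RCTr_746
open Crest.Agent.R235.Rc1_820 (i0 i0_fst i0_snd cr_eq star_Iod)
open Crest.Agent.R235.FamDefs_307 (pdθ sg ch4)
open Crest.Agent.R235.RCDefs_746 (Base Fam KerF Inf Gr)

noncomputable section

local notation "⟪" x ", " y "⟫" => inner ℂ x y

section tr

variable {H : Type*} [NormedAddCommGroup H] [InnerProductSpace ℂ H] [CompleteSpace H]
  {ι : Type} {b : ι → H}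

/-- Parseval for a real basis, general index set. -/
def PB (b : ι → H) : Prop :=
  ∀ x y : H, HasSum (fun k => (⟪b k, x⟫).re * (⟪b k, y⟫).re) (⟪x, y⟫).re

lemma re_I_inner (x y : H) : (⟪x, I • y⟫).re = -(⟪x, y⟫).im := by
  rw [inner_smul_right]; simp

lemma re_I_I (x y : H) : (⟪I • x, I • y⟫).re = (⟪x, y⟫).re := by
  rw [inner_smul_right, inner_smul_left, conj_I, ← mul_assoc]
  rw [show I * -I = 1 by rw [mul_neg, I_mul_I, neg_neg], one_mul]

lemma hasSum_two (hb : PB b) (x y : H) :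
    HasSum (fun k => (⟪x, b k⟫ * ⟪b k, y⟫).re) (2 * (⟪x, y⟫).re) := by
  have h := (hb x y).add (hb (I • x) (I • y))
  rw [re_I_I, ← two_mul] at h
  have e : (fun k => (⟪b k, x⟫).re * (⟪b k, y⟫).re + (⟪b k, I • x⟫).re * (⟪b k, I • y⟫).re) =
      fun k => (⟪x, b k⟫ * ⟪b k, y⟫).re := by
    funext k
    rw [re_I_inner, re_I_inner, Complex.mul_re, ← inner_conj_symm x (b k), Complex.conj_re,
      Complex.conj_im]
    ring
  rwa [e] at h

lemma hasSum_sq (hb : PB b) (x : H) : HasSum (fun k => ‖⟪b k, x⟫‖ ^ 2) (2 * ‖x‖ ^ 2) := by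
  have h := hasSum_two hb x x
  have e : ∀ k, (⟪x, b k⟫ * ⟪b k, x⟫).re = ‖⟪b k, x⟫‖ ^ 2 := by
    intro k
    rw [← inner_conj_symm x (b k), mul_comm, Complex.mul_conj, Complex.ofReal_re,
      Complex.normSq_eq_norm_sq]
  simp only [e] at h
  have e2 : (⟪x, x⟫).re = ‖x‖ ^ 2 := by
    rw [inner_self_eq_norm_sq_to_K]
    exact (Complex.ofReal_pow ‖x‖ 2).symm ▸ Complex.ofReal_re _
  rwa [e2] at h

lemma sum_bd (hb : PB b) (x y : H) (s : Finset ι) :
    ∑ k ∈ s, ‖(⟪x, b k⟫ * ⟪b k, y⟫).re‖ ≤ 2 * (‖x‖ * ‖y‖) := by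
  have h1 : ∑ i ∈ s, ‖⟪b i, x⟫‖ ^ 2 ≤ 2 * ‖x‖ ^ 2 := by
    have h := (hasSum_sq hb x).summable.sum_le_tsum s fun i _ => by positivity
    rwa [(hasSum_sq hb x).tsum_eq] at h
  have h2 : ∑ i ∈ s, ‖⟪b i, y⟫‖ ^ 2 ≤ 2 * ‖y‖ ^ 2 := by
    have h := (hasSum_sq hb y).summable.sum_le_tsum s fun i _ => by positivity
    rwa [(hasSum_sq hb y).tsum_eq] at h
  have h3 : ∀ k ∈ s, ‖(⟪x, b k⟫ * ⟪b k, y⟫).re‖ ≤ ‖⟪b k, x⟫‖ * ‖⟪b k, y⟫‖ := by
    intro k _
    rw [norm_inner_symm (b k) x, ← norm_mul]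
    exact Complex.abs_re_le_norm _
  refine (Finset.sum_le_sum h3).trans ((Real.sum_mul_le_sqrt_mul_sqrt s _ _).trans ?_)
  calc √(∑ i ∈ s, ‖⟪b i, x⟫‖ ^ 2) * √(∑ i ∈ s, ‖⟪b i, y⟫‖ ^ 2) ≤
        √(2 * ‖x‖ ^ 2) * √(2 * ‖y‖ ^ 2) := by
        gcongr
    _ = √((2 * (‖x‖ * ‖y‖)) ^ 2) := by
        rw [← Real.sqrt_mul (by positivity)]
        congr 1; ring
    _ = _ := Real.sqrt_sq (by positivity)

/-- **the trace in a real basis**. -/
theorem tr_real (hb : PB b) {T : H →L[ℂ] H} {c : ℝ} (hT : IsNuc T c) :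
    HasSum (fun k => (⟪b k, T (b k)⟫).re) (2 * (tr T).re) := by
  obtain ⟨κ, u, v, hs, -, hT⟩ := hT
  have hS : Summable (fun p : κ × ι => (⟪v p.1, b p.2⟫ * ⟪b p.2, u p.1⟫).re) := by
    refine Summable.of_norm ?_
    rw [summable_prod_of_nonneg fun p => norm_nonneg _]
    refine ⟨fun j => summable_of_sum_le (fun _ => norm_nonneg _) (sum_bd hb (v j) (u j)), ?_⟩
    refine Summable.of_nonneg_of_le (fun j => tsum_nonneg fun i => norm_nonneg _) (fun j => ?_)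
      (hs.mul_left 2)
    refine (Real.tsum_le_of_sum_le (fun _ => norm_nonneg _) (sum_bd hb (v j) (u j))).trans_eq ?_
    ring
  have h1 : ∀ i, HasSum (fun j => (⟪v j, b i⟫ * ⟪b i, u j⟫).re) (⟪b i, T (b i)⟫).re := by
    intro i
    have h := (hT (b i)).mapL (innerSL ℂ (b i))
    simp only [innerSL_apply_apply, inner_smul_right] at h
    exact Complex.hasSum_re h
  have h2 : ∀ j, HasSum (fun i => (⟪v j, b i⟫ * ⟪b i, u j⟫).re) (2 * (⟪v j, u j⟫).re) := fun j =>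
    hasSum_two hb (v j) (u j)
  have h3 := hS.hasSum
  have h4 : HasSum (fun j => 2 * (⟪v j, u j⟫).re)
      (∑' p : κ × ι, (⟪v p.1, b p.2⟫ * ⟪b p.2, u p.1⟫).re) := h3.prod_fiberwise h2
  have h5 : HasSum (fun p : ι × κ => (⟪v p.2, b p.1⟫ * ⟪b p.1, u p.2⟫).re)
      (∑' p : κ × ι, (⟪v p.1, b p.2⟫ * ⟪b p.2, u p.1⟫).re) :=
    (Equiv.prodComm ι κ).hasSum_iff.2 h3
  have h6 := h5.prod_fiberwise h1
  have h7 : HasSum (fun j => ⟪v j, u j⟫) (tr T) := by
    rw [tr_eq hs hT]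
    refine (Summable.of_norm (Summable.of_nonneg_of_le (fun _ => norm_nonneg _)
      (fun j => ?_) hs)).hasSum
    exact (norm_inner_le_norm _ _).trans_eq (mul_comm _ _)
  have h8 := (Complex.hasSum_re h7).mul_left 2
  rw [h4.unique h8] at h6
  exact h6

/-- the trace if the diagonal is real. -/
theorem tr_of_diag (hb : PB b) {T : H →L[ℂ] H} {c : ℝ} (hT : IsNuc T c) {t : ι → ℝ}
    (ht : ∀ k, ⟪b k, T (b k)⟫ = t k) : HasSum t (2 * (tr T).re) ∧ tr T = ((tr T).re : ℂ) := by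
  have h1 := tr_real hb hT
  have h2 := tr_real hb (hT.smul I)
  simp only [ht, Complex.ofReal_re] at h1
  refine ⟨h1, ?_⟩
  have h3 : ∀ k, (⟪b k, (I • T) (b k)⟫).re = 0 := by
    intro k
    rw [smul_apply, re_I_inner, ht, Complex.ofReal_im, neg_zero]
  simp only [h3] at h2
  have h4 := h2.unique hasSum_zero
  rw [tr_smul] at h4
  have h5 : (tr T).im = 0 := by
    have : (I * tr T).re = -(tr T).im := by simp
    rw [this] at h4
    linarith
  exact Complex.ext rfl (by rw [h5, Complex.ofReal_im])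

end tr

section HT

variable {H0 Y : Type*} [NormedAddCommGroup H0] [InnerProductSpace ℂ H0] [CompleteSpace H0]
  [NormedAddCommGroup Y] [InnerProductSpace ℂ Y] [CompleteSpace Y]

/-- the basis of the sum. -/
def bs (p : ℕ → H0) (q : ℕ → Y) : ℕ ⊕ ℕ → HT H0 Y := Sum.elim (fun k => i0 H0 Y (p k)) fun k => i1 H0 Y (q k)

lemma inner_i0 (x : H0) (z : HT H0 Y) : ⟪i0 H0 Y x, z⟫ = ⟪x, z.fst⟫ := by
  rw [inner_HT, i0_fst, i0_snd, inner_zero_left, add_zero]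

lemma inner_i1 (x : Y) (z : HT H0 Y) : ⟪i1 H0 Y x, z⟫ = ⟪x, z.snd⟫ := by
  rw [inner_HT, i1_fst, i1_snd, inner_zero_left, zero_add]

lemma pb_bs {p : ℕ → H0} {q : ℕ → Y} (hp : Pars p) (hq : Pars q) : PB (bs p q) := by
  intro x y
  rw [inner_HT, Complex.add_re]
  refine HasSum.sum (f := fun k => (⟪bs p q k, x⟫).re * (⟪bs p q k, y⟫).re) ?_ ?_
  · have h := hp x.fst y.fst
    have e : (fun k => (⟪p k, x.fst⟫).re * (⟪p k, y.fst⟫).re) =
        (fun k => (⟪bs p q k, x⟫).re * (⟪bs p q k, y⟫).re) ∘ Sum.inl := by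
      funext k
      show _ = (⟪i0 H0 Y (p k), x⟫).re * (⟪i0 H0 Y (p k), y⟫).re
      rw [inner_i0, inner_i0]
    rwa [e] at h
  · have h := hq x.snd y.snd
    have e : (fun k => (⟪q k, x.snd⟫).re * (⟪q k, y.snd⟫).re) =
        (fun k => (⟪bs p q k, x⟫).re * (⟪bs p q k, y⟫).re) ∘ Sum.inr := by
      funext k
      show _ = (⟪i1 H0 Y (q k), x⟫).re * (⟪i1 H0 Y (q k), y⟫).re
      rw [inner_i1, inner_i1]
    rwa [e] at h

end HT

end

end Crest.Agent.R235.Rm_820
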