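import Crest.Agent.R235.Rm3_820

/-!
Row 235, block FAM/RC (helper820), RC-MAN part 4: the hypothesis `Inf` of `RCDefs_746` for a Dirac pair.
-/

set_option autoImplicit false
set_option linter.unusedSectionVars false
set_option maxSynthPendingDepth 3

open scoped InnerProductSpace ContDiff Topology
open Complex Filter

namespace Crest.Agent.R235.Rm_820

open Crest.Agent.R235.Rc0_820 Crest.Agent.R235.RCTr_746
open Crest.Agent.R235.Rc1_820 (i0 i0_fst i0_snd cr_eq star_Iod base nuc_G4)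
open Crest.Agent.R235.FamDefs_307 (pdθ sg ch4)
open Crest.Agent.R235.RCDefs_746 (Base Fam KerF Inf Gr)

noncomputable section

local notation "⟪" x ", " y "⟫" => inner ℂ x y

variable {X X1 H0 Y : Type*} [NormedAddCommGroup X] [InnerProductSpace ℂ X] [CompleteSpace X]
  [NormedAddCommGroup X1] [InnerProductSpace ℂ X1] [CompleteSpace X1]
  [NormedAddCommGroup H0] [InnerProductSpace ℂ H0] [CompleteSpace H0]
  [NormedAddCommGroup Y] [InnerProductSpace ℂ Y] [CompleteSpace Y]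
  {j : X →L[ℂ] H0} {D : X →L[ℂ] Y} {j1 : X1 →L[ℂ] Y} {D1 : X1 →L[ℂ] H0}
  {μ ν : ℕ → ℝ} {e : ℕ → X} {f : ℕ → X1} {g : ℕ → X} {ε : ℝ}

/-- `∑ sgn B* B B* B` -/
def N0 (B : Fin 4 → H0 →L[ℂ] Y) : H0 →L[ℂ] H0 :=
  ∑ σ : Equiv.Perm (Fin 4), sg σ • (ContinuousLinearMap.adjoint (B (σ 0)) ∘L B (σ 1) ∘L
    ContinuousLinearMap.adjoint (B (σ 2)) ∘L B (σ 3))

/-- `∑ sgn B B* B B*` -/
def N1 (B : Fin 4 → H0 →L[ℂ] Y) : Y →L[ℂ] Y :=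
  ∑ σ : Equiv.Perm (Fin 4), sg σ • (B (σ 0) ∘L ContinuousLinearMap.adjoint (B (σ 1)) ∘L
    B (σ 2) ∘L ContinuousLinearMap.adjoint (B (σ 3)))

/-- `∑ sgn g b b b b` -/
def NN (B : Fin 4 → H0 →L[ℂ] Y) : HT H0 Y →L[ℂ] HT H0 Y :=
  ∑ σ : Equiv.Perm (Fin 4), sg σ • (gr H0 Y * (I • od (B (σ 0))) * (I • od (B (σ 1))) *
    (I • od (B (σ 2))) * (I • od (B (σ 3))))

lemma four_fst (g : Fin 4 → H0 →L[ℂ] Y) (x : HT H0 Y) :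
    ((gr H0 Y * (I • od (g 0)) * (I • od (g 1)) * (I • od (g 2)) * (I • od (g 3))) x).fst =
      ContinuousLinearMap.adjoint (g 0) (g 1 (ContinuousLinearMap.adjoint (g 2) (g 3 x.fst))) := by
  show I • ContinuousLinearMap.adjoint (g 0) (I • g 1 (I • ContinuousLinearMap.adjoint (g 2)
    (I • g 3 x.fst))) = _
  simp only [map_smul, smul_smul]
  rw [show I * (I * (I * I)) = 1 by rw [I_mul_I]; linear_combination (-1 : ℂ) * I_mul_I, one_smul]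

lemma four_snd (g : Fin 4 → H0 →L[ℂ] Y) (x : HT H0 Y) :
    ((gr H0 Y * (I • od (g 0)) * (I • od (g 1)) * (I • od (g 2)) * (I • od (g 3))) x).snd =
      -(g 0 (ContinuousLinearMap.adjoint (g 1) (g 2 (ContinuousLinearMap.adjoint (g 3) x.snd)))) := by
  show -(I • g 0 (I • ContinuousLinearMap.adjoint (g 1) (I • g 2
    (I • ContinuousLinearMap.adjoint (g 3) x.snd)))) = _
  simp only [map_smul, smul_smul]
  rw [show I * (I * (I * I)) = 1 by rw [I_mul_I]; linear_combination (-1 : ℂ) * I_mul_I, one_smul]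

lemma NN_fst (B : Fin 4 → H0 →L[ℂ] Y) (x : HT H0 Y) : (NN B x).fst = N0 B x.fst := by
  have h1 : (NN B x).fst = p0 H0 Y (NN B x) := rfl
  rw [h1]
  unfold NN N0
  rw [sum_apply, sum_apply, map_sum]
  refine Finset.sum_congr rfl fun σ _ => ?_
  rw [smul_apply, map_smul, smul_apply]
  congr 1
  exact four_fst (fun i => B (σ i)) x

lemma NN_snd (B : Fin 4 → H0 →L[ℂ] Y) (x : HT H0 Y) : (NN B x).snd = -(N1 B x.snd) := by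
  have h1 : (NN B x).snd = p1 H0 Y (NN B x) := rfl
  rw [h1]
  unfold NN N1
  rw [sum_apply, sum_apply, map_sum, ← Finset.sum_neg_distrib]
  refine Finset.sum_congr rfl fun σ _ => ?_
  rw [smul_apply, map_smul, smul_apply, ← smul_neg]
  congr 1
  exact four_snd (fun i => B (σ i)) x

lemma Gr_e (h : DP j D j1 D1) (hE : ED j D j1 D1 μ ν e f g) (hε : ε ≠ 0) (k : ℕ) :
    Gr (Cr j D 1) ε (i0 H0 Y (j (e k))) = (((1 + ε ^ 2 * μ k)⁻¹ : ℝ) : ℂ) • i0 H0 Y (j (e k)) := by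
  obtain ⟨h1, h2⟩ := Gr_apply h hE hε (i0 H0 Y (j (e k)))
  refine ext_HT ?_ ?_
  · rw [h1, i0_fst, S0_e h hE hε, map_smul]; rfl
  · rw [h2, i0_snd, map_zero, map_zero]
    show (0 : Y) = _ • (0 : Y)
    rw [smul_zero]

lemma Gr_f (h : DP j D j1 D1) (hE : ED j D j1 D1 μ ν e f g) (hε : ε ≠ 0) (k : ℕ) :
    Gr (Cr j D 1) ε (i1 H0 Y (j1 (f k))) = (((1 + ε ^ 2 * ν k)⁻¹ : ℝ) : ℂ) • i1 H0 Y (j1 (f k)) := by
  obtain ⟨h1, h2⟩ := Gr_apply h hE hε (i1 H0 Y (j1 (f k)))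
  refine ext_HT ?_ ?_
  · rw [h1, i1_fst, map_zero, map_zero]
    show (0 : H0) = _ • (0 : H0)
    rw [smul_zero]
  · rw [h2, i1_snd, S1_f h hE hε, map_smul]; rfl

lemma pow4_apply {H : Type*} [NormedAddCommGroup H] [InnerProductSpace ℂ H] [CompleteSpace H]
    {G : H →L[ℂ] H} {z : H} {s : ℝ} (h : G z = (s : ℂ) • z) : (G ^ 4) z = ((s ^ 4 : ℝ) : ℂ) • z := by
  have h1 : (G ^ 4) z = G (G (G (G z))) := by
    rw [show (4 : ℕ) = 1 + 1 + 1 + 1 from rfl, pow_add, pow_add, pow_add, pow_one]; rfl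
  rw [h1]
  simp only [h, map_smul, smul_smul]
  congr 1
  push_cast; ring

lemma diag0 {B : Fin 4 → H0 →L[ℂ] Y} {G : HT H0 Y →L[ℂ] HT H0 Y} {p : H0} {s w : ℝ}
    (hG : G (i0 H0 Y p) = (s : ℂ) • i0 H0 Y p) (hw : ⟪p, N0 B p⟫ = w) :
    ⟪i0 H0 Y p, (NN B * G ^ 4) (i0 H0 Y p)⟫ = ((s ^ 4 * w : ℝ) : ℂ) := by
  have k1 := pow4_apply hG
  have k2 : (NN B * G ^ 4) (i0 H0 Y p) = NN B ((G ^ 4) (i0 H0 Y p)) := rfl
  rw [k2, k1, map_smul, inner_smul_right, inner_i0, NN_fst, i0_fst, hw, ← Complex.ofReal_mul]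

lemma diag1 {B : Fin 4 → H0 →L[ℂ] Y} {G : HT H0 Y →L[ℂ] HT H0 Y} {p : Y} {s w : ℝ}
    (hG : G (i1 H0 Y p) = (s : ℂ) • i1 H0 Y p) (hw : ⟪p, N1 B p⟫ = -w) :
    ⟪i1 H0 Y p, (NN B * G ^ 4) (i1 H0 Y p)⟫ = ((s ^ 4 * w : ℝ) : ℂ) := by
  have k1 := pow4_apply hG
  have k2 : (NN B * G ^ 4) (i1 H0 Y p) = NN B ((G ^ 4) (i1 H0 Y p)) := rfl
  rw [k2, k1, map_smul, inner_smul_right, inner_i1, NN_snd, i1_snd, inner_neg_right, hw, neg_neg,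
    ← Complex.ofReal_mul]

lemma res_eq4 {m : ℝ} (hm : 0 ≤ m) (hε : 0 < ε) :
    ε ^ 4 * ((1 + ε ^ 2 * m)⁻¹) ^ 4 = ((ε ^ 2)⁻¹) ^ 2 * (((ε ^ 2)⁻¹ + m) ^ 4)⁻¹ := by
  have h1 : 0 < 1 + ε ^ 2 * m := by positivity
  have h2 : (ε ^ 2)⁻¹ + m = (1 + ε ^ 2 * m) / ε ^ 2 := by field_simp
  rw [h2]
  field_simp

lemma tr_diag {B : Fin 4 → H0 →L[ℂ] Y} {G : HT H0 Y →L[ℂ] HT H0 Y} {p : ℕ → H0} {q : ℕ → Y}
    (hp : Pars p) (hq : Pars q) {s0 s1 w0 w1 : ℕ → ℝ}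
    (hG0 : ∀ k, G (i0 H0 Y (p k)) = (s0 k : ℂ) • i0 H0 Y (p k))
    (hG1 : ∀ k, G (i1 H0 Y (q k)) = (s1 k : ℂ) • i1 H0 Y (q k))
    (hw0 : ∀ k, ⟪p k, N0 B (p k)⟫ = w0 k) (hw1 : ∀ k, ⟪q k, N1 B (q k)⟫ = -(w1 k)) {c : ℝ}
    (hT : IsNuc (NN B * G ^ 4) c) :
    RCTr_746.tr (NN B * G ^ 4) =
      (((∑' k, s0 k ^ 4 * w0 k + ∑' k, s1 k ^ 4 * w1 k) / 2 : ℝ) : ℂ) := by
  have h1 : ∀ k, ⟪bs p q k, (NN B * G ^ 4) (bs p q k)⟫ =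
      ((Sum.elim (fun k => s0 k ^ 4 * w0 k) (fun k => s1 k ^ 4 * w1 k) k : ℝ) : ℂ) := by
    rintro (k | k)
    · exact diag0 (hG0 k) (hw0 k)
    · exact diag1 (hG1 k) (hw1 k)
  obtain ⟨h2, h3⟩ := tr_of_diag (pb_bs hp hq) hT h1
  have h4 : Summable fun k => s0 k ^ 4 * w0 k := h2.summable.comp_injective Sum.inl_injective
  have h5 : Summable fun k => s1 k ^ 4 * w1 k := h2.summable.comp_injective Sum.inr_injective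
  have h6 := h2.unique (HasSum.sum (f := Sum.elim (fun k => s0 k ^ 4 * w0 k)
    (fun k => s1 k ^ 4 * w1 k)) h4.hasSum h5.hasSum)
  rw [h3, ← h6]
  push_cast; ring

/-- **the trace.** -/
lemma weyl_tr (h : DP j D j1 D1) (hE : ED j D j1 D1 μ ν e f g) (hA : ∃ c, App (Cr j D 1) c (1 / 4))
    {B : Fin 4 → H0 →L[ℂ] Y} {w0 w1 : ℕ → ℝ} (hw0 : ∀ k, ⟪j (e k), N0 B (j (e k))⟫ = w0 k)
    (hw1 : ∀ k, ⟪j1 (f k), N1 B (j1 (f k))⟫ = -(w1 k)) (hε : 0 < ε) :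
    (ε : ℂ) ^ 4 * RCTr_746.tr (NN B * (Gr (Cr j D 1) ε) ^ 4) =
      (((((ε ^ 2)⁻¹) ^ 2 * ∑' k, (((ε ^ 2)⁻¹ + μ k) ^ 4)⁻¹ * w0 k +
        ((ε ^ 2)⁻¹) ^ 2 * ∑' k, (((ε ^ 2)⁻¹ + ν k) ^ 4)⁻¹ * w1 k) / 2 : ℝ) : ℂ) := by
  obtain ⟨c, hc⟩ := nuc_G4 (base h.c0 hA) ε (NN B)
  have h1 := tr_diag hE.ep hE.fp (Gr_e h hE hε.ne') (Gr_f h hE hε.ne') hw0 hw1 hc
  have e1 : ((ε ^ 2)⁻¹) ^ 2 * ∑' k, (((ε ^ 2)⁻¹ + μ k) ^ 4)⁻¹ * w0 k =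
      ε ^ 4 * ∑' k, ((1 + ε ^ 2 * μ k)⁻¹) ^ 4 * w0 k := by
    rw [← tsum_mul_left, ← tsum_mul_left]
    refine tsum_congr fun k => ?_
    rw [← mul_assoc, ← mul_assoc, res_eq4 (hE.μ0 k) hε]
  have e2 : ((ε ^ 2)⁻¹) ^ 2 * ∑' k, (((ε ^ 2)⁻¹ + ν k) ^ 4)⁻¹ * w1 k =
      ε ^ 4 * ∑' k, ((1 + ε ^ 2 * ν k)⁻¹) ^ 4 * w1 k := by
    rw [← tsum_mul_left, ← tsum_mul_left]
    refine tsum_congr fun k => ?_
    rw [← mul_assoc, ← mul_assoc, res_eq4 (hE.ν0 k) hε]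
  rw [e1, e2, h1, ← mul_add]
  push_cast; ring

/-- **`Inf` for a Dirac pair.** -/
theorem inf (h : DP j D j1 D1) (hE : ED j D j1 D1 μ ν e f g) (hA : ∃ c, App (Cr j D 1) c (1 / 4))
    {B : Fin 4 → H0 →L[ℂ] Y} {Bu : Fin 4 → X →L[ℂ] X1} {Bv : Fin 4 → X1 →L[ℂ] X} {C : Fin 4 → ℝ}
    (hB : ∀ a, CM j D j1 D1 (B a) (Bu a) (Bv a) (C a))
    {w0 w1 : ℕ → ℝ} (hw0 : ∀ k, ⟪j (e k), N0 B (j (e k))⟫ = w0 k)
    (hw1 : ∀ k, ⟪j1 (f k), N1 B (j1 (f k))⟫ = -(w1 k)) {L0 L1 : ℝ}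
    (hL0 : Tendsto (fun l : ℝ => l ^ 2 * ∑' k, ((l + μ k) ^ 4)⁻¹ * w0 k) atTop (𝓝 L0))
    (hL1 : Tendsto (fun l : ℝ => l ^ 2 * ∑' k, ((l + ν k) ^ 4)⁻¹ * w1 k) atTop (𝓝 L1)) :
    Inf (gr H0 Y) (Cr j D 1) (fun a => I • od (B a)) (((L0 + L1) / 2 : ℝ) : ℂ) where
  com a := com h hE (hB a)
  weyl := by
    have h1 : Tendsto (fun ε : ℝ => (ε ^ 2)⁻¹) (𝓝[>] 0) atTop := by
      refine tendsto_inv_nhdsGT_zero.comp ?_
      rw [tendsto_nhdsWithin_iff]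
      refine ⟨?_, ?_⟩
      · have : Tendsto (fun ε : ℝ => ε ^ 2) (𝓝 0) (𝓝 (0 ^ 2)) := (continuous_pow 2).tendsto 0
        rw [zero_pow two_ne_zero] at this
        exact this.mono_left nhdsWithin_le_nhds
      · filter_upwards [self_mem_nhdsWithin] with ε hε
        have : 0 < ε := hε
        exact pow_pos this 2
    have h2 := ((hL0.comp h1).add (hL1.comp h1)).div_const 2
    have h3 := (Complex.continuous_ofReal.tendsto _).comp h2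
    refine h3.congr' ?_
    filter_upwards [self_mem_nhdsWithin] with ε hε
    exact (weyl_tr h hE hA hw0 hw1 hε).symm

end

end Crest.Agent.R235.Rm_820
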