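import Crest.Agent.R235.Rm4_820

/-!
Row 235, block FAM/RC (helper820), RC-MAN part 5: approximation numbers of the embedding `j` from the
heat trace bound.
-/

set_option autoImplicit false
set_option linter.unusedSectionVars false
set_option maxSynthPendingDepth 3

open scoped InnerProductSpace ContDiff Topology
open Complex Filter

namespace Crest.Agent.R235.Rm_820

open Crest.Agent.R235.Rc0_820 Crest.Agent.R235.RCTr_746
open Crest.Agent.R235.RCApp_746 (AppJ)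

noncomputable section

local notation "⟪" x ", " y "⟫" => inner ℂ x y

lemma growth {μ : ℕ → ℝ} (hm : Monotone μ) (h0 : ∀ k, 0 ≤ μ k) {C : ℝ}
    (hs : ∀ t : ℝ, 0 < t → Summable fun k => Real.exp (-(t * μ k)))
    (hC : ∀ t ∈ Set.Ioc (0:ℝ) 1, ∑' k, Real.exp (-(t * μ k)) ≤ C / t ^ 2) :
    ∃ c : ℝ, 0 ≤ c ∧ ∀ n : ℕ, (1 + μ n)⁻¹ ≤ c ^ 2 * ((n : ℝ) + 1) ^ (-(1 / 2) : ℝ) := by
  have hb : ∀ n : ℕ, ((n : ℝ) + 1) ≤ (Real.exp 1 * C) * (1 + μ n) ^ 2 := by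
    intro n
    set t : ℝ := (1 + μ n)⁻¹ with ht
    have h1 : 0 < 1 + μ n := by linarith [h0 n]
    have ht0 : 0 < t := inv_pos.2 h1
    have ht1 : t ≤ 1 := by
      rw [ht]; exact inv_le_one_of_one_le₀ (by linarith [h0 n])
    have h2 : ((n : ℝ) + 1) * Real.exp (-1) ≤ ∑' k, Real.exp (-(t * μ k)) := by
      have h3 := (hs t ht0).sum_le_tsum (Finset.range (n + 1)) fun k _ => (Real.exp_pos _).le
      refine le_trans ?_ h3
      have h4 : ∑ k ∈ Finset.range (n + 1), Real.exp (-1) ≤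
          ∑ k ∈ Finset.range (n + 1), Real.exp (-(t * μ k)) := by
        refine Finset.sum_le_sum fun k hk => Real.exp_le_exp.2 (neg_le_neg ?_)
        have h5 : μ k ≤ μ n := hm (Nat.lt_succ_iff.1 (Finset.mem_range.1 hk))
        calc t * μ k ≤ t * (1 + μ n) := mul_le_mul_of_nonneg_left (by linarith) ht0.le
          _ = 1 := by rw [ht, inv_mul_cancel₀ h1.ne']
      rw [Finset.sum_const, Finset.card_range, nsmul_eq_mul] at h4
      push_cast at h4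
      exact h4
    have h3 := h2.trans (hC t ⟨ht0, ht1⟩)
    have h4 : C / t ^ 2 = C * (1 + μ n) ^ 2 := by rw [ht]; field_simp
    rw [h4] at h3
    have h5 : Real.exp 1 * Real.exp (-1) = 1 := by rw [← Real.exp_add]; simp
    calc (n : ℝ) + 1 = Real.exp 1 * (((n : ℝ) + 1) * Real.exp (-1)) := by
          linear_combination (-((n : ℝ) + 1)) * h5
      _ ≤ Real.exp 1 * (C * (1 + μ n) ^ 2) := mul_le_mul_of_nonneg_left h3 (Real.exp_pos 1).le
      _ = _ := by ring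
  have hC0 : 0 < Real.exp 1 * C := by
    have h1 := hb 0
    have h2 : 0 < (1 + μ 0) ^ 2 := pow_pos (by linarith [h0 0]) 2
    by_contra hcon
    push Not at hcon
    have h3 : (Real.exp 1 * C) * (1 + μ 0) ^ 2 ≤ 0 := mul_nonpos_of_nonpos_of_nonneg hcon h2.le
    push_cast at h1
    linarith
  set A := Real.exp 1 * C with hA
  refine ⟨Real.sqrt (Real.sqrt A), Real.sqrt_nonneg _, fun n => ?_⟩
  have h1 : 0 < 1 + μ n := by linarith [h0 n]
  rw [Real.sq_sqrt (Real.sqrt_nonneg _), Real.rpow_neg (by positivity), ← Real.sqrt_eq_rpow,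
    inv_eq_one_div, div_le_iff₀ h1]
  have h2 : Real.sqrt ((n : ℝ) + 1) ≤ Real.sqrt A * (1 + μ n) := by
    rw [← Real.sqrt_sq h1.le, ← Real.sqrt_mul hC0.le]
    exact Real.sqrt_le_sqrt (hb n)
  have h3 : 0 < Real.sqrt ((n : ℝ) + 1) := Real.sqrt_pos.2 (by positivity)
  calc (1 : ℝ) = Real.sqrt ((n : ℝ) + 1) * (Real.sqrt ((n : ℝ) + 1))⁻¹ := by
        rw [mul_inv_cancel₀ h3.ne']
    _ ≤ (Real.sqrt A * (1 + μ n)) * (Real.sqrt ((n : ℝ) + 1))⁻¹ :=
        mul_le_mul_of_nonneg_right h2 (inv_pos.2 h3).le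
    _ = _ := by ring

variable {X H0 Y : Type*} [NormedAddCommGroup X] [InnerProductSpace ℂ X] [CompleteSpace X]
  [NormedAddCommGroup H0] [InnerProductSpace ℂ H0] [CompleteSpace H0]
  [NormedAddCommGroup Y] [InnerProductSpace ℂ Y] [CompleteSpace Y]
  {j : X →L[ℂ] H0} {D : X →L[ℂ] Y} {μ : ℕ → ℝ} {e : ℕ → X}

lemma re_symm (x y : H0) : (⟪x, y⟫).re = (⟪y, x⟫).re := by
  rw [← inner_conj_symm x y, Complex.conj_re]

lemma re_self (x : H0) : (⟪x, x⟫).re = ‖x‖ ^ 2 := by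
  rw [inner_self_eq_norm_sq_to_K]
  exact (Complex.ofReal_pow ‖x‖ 2).symm ▸ Complex.ofReal_re _

/-- Bessel for `D`. -/
lemma bessel (eo : ∀ k l, (⟪j (e k), j (e l)⟫).re = if k = l then 1 else 0)
    (eE : ∀ k v, ⟪D v, D (e k)⟫ = μ k * ⟪j v, j (e k)⟫) (u : X) (s : Finset ℕ) :
    ∑ k ∈ s, μ k * (⟪j (e k), j u⟫).re ^ 2 ≤ ‖D u‖ ^ 2 := by
  classical
  set c : ℕ → ℝ := fun k => (⟪j (e k), j u⟫).re with hc
  set w : X := ∑ k ∈ s, (c k : ℂ) • e k with hw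
  have e1 : ∀ v : X, (⟪D v, D w⟫).re = ∑ k ∈ s, c k * (μ k * (⟪j v, j (e k)⟫).re) := by
    intro v
    rw [hw, map_sum, inner_sum, Complex.re_sum]
    refine Finset.sum_congr rfl fun k _ => ?_
    rw [map_smul, inner_smul_right, eE, Complex.re_ofReal_mul, Complex.re_ofReal_mul]
  have e2 : (⟪D u, D w⟫).re = ∑ k ∈ s, μ k * c k ^ 2 := by
    rw [e1]
    refine Finset.sum_congr rfl fun k _ => ?_
    rw [re_symm (j u) (j (e k))]
    ring
  have e3 : ∀ k ∈ s, (⟪j w, j (e k)⟫).re = c k := by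
    intro k hk
    rw [hw, map_sum, sum_inner, Complex.re_sum]
    have : ∀ l ∈ s, (⟪j ((c l : ℂ) • e l), j (e k)⟫).re = if l = k then c k else 0 := by
      intro l _
      rw [map_smul, inner_smul_left, Complex.conj_ofReal, Complex.re_ofReal_mul, eo]
      split_ifs with h
      · rw [h, mul_one]
      · rw [mul_zero]
    rw [Finset.sum_congr rfl this, Finset.sum_ite_eq' s k, if_pos hk]
  have e4 : ‖D w‖ ^ 2 = ∑ k ∈ s, μ k * c k ^ 2 := by
    rw [← re_self, e1]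
    refine Finset.sum_congr rfl fun k hk => ?_
    rw [e3 k hk]; ring
  have h1 : ‖D u - D w‖ ^ 2 = ‖D u‖ ^ 2 - 2 * (⟪D u, D w⟫).re + ‖D w‖ ^ 2 :=
    norm_sub_sq (𝕜 := ℂ) _ _
  have h2 : 0 ≤ ‖D u - D w‖ ^ 2 := sq_nonneg _
  rw [h1, e2, e4] at h2
  linarith

/-- **approximation numbers of the embedding**. -/
theorem appJ (eo : ∀ k l, (⟪j (e k), j (e l)⟫).re = if k = l then 1 else 0)
    (ep : Pars fun k => j (e k)) (eE : ∀ k v, ⟪D v, D (e k)⟫ = μ k * ⟪j v, j (e k)⟫)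
    (hm : Monotone μ) (h0 : ∀ k, 0 ≤ μ k) {C : ℝ}
    (hs : ∀ t : ℝ, 0 < t → Summable fun k => Real.exp (-(t * μ k)))
    (hC : ∀ t ∈ Set.Ioc (0:ℝ) 1, ∑' k, Real.exp (-(t * μ k)) ≤ C / t ^ 2) : AppJ j := by
  classical
  obtain ⟨c, hc0, hc⟩ := growth hm h0 hs hC
  set K : ℝ := ‖j‖ + ‖D‖ with hK
  have hK0 : 0 ≤ K := by positivity
  refine ⟨c * K, fun n => ?_⟩
  set S : Submodule ℂ H0 := Submodule.span ℂ ((Finset.range n).image (fun k => j (e k)) : Set H0)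
    with hS
  have hfin : FiniteDimensional ℂ S := by rw [hS]; exact FiniteDimensional.span_finset ℂ _
  have hrk : Module.finrank ℂ S ≤ n := by
    refine (finrank_span_finset_le_card _).trans (Finset.card_image_le.trans ?_)
    rw [Finset.card_range]
  have hle : LinearMap.range ((S.starProjection ∘L j : X →L[ℂ] H0) : X →ₗ[ℂ] H0) ≤ S := by
    rintro _ ⟨x, rfl⟩
    exact Submodule.starProjection_apply_mem _ _
  refine ⟨S.starProjection ∘L j, Submodule.finiteDimensional_of_le hle,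
    (Submodule.finrank_mono hle).trans hrk, ?_⟩
  refine ContinuousLinearMap.opNorm_le_bound _ (by positivity) fun u => ?_
  set z := (j - S.starProjection ∘L j) u with hz
  have hz' : z = j u - S.starProjection (j u) := rfl
  have hzS : z ∈ Sᗮ := by rw [hz']; exact Submodule.sub_starProjection_mem_orthogonal _
  have hzk : ∀ k < n, ⟪j (e k), z⟫ = 0 := fun k hk =>
    (Submodule.mem_orthogonal _ _).1 hzS _ (Submodule.subset_span (by
      simp only [Finset.coe_image, Set.mem_image, Finset.coe_range, Set.mem_Iio]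
      exact ⟨k, hk, rfl⟩))
  have h1 : (⟪z, j u⟫).re = ‖z‖ ^ 2 := by
    have h2 : ⟪z, S.starProjection (j u)⟫ = 0 :=
      (Submodule.mem_orthogonal' _ _).1 hzS _ (Submodule.starProjection_apply_mem _ _)
    have h3 : ⟪z, j u⟫ = ⟪z, z⟫ + ⟪z, S.starProjection (j u)⟫ := by
      rw [← inner_add_right, hz', sub_add_cancel]
    rw [h3, h2, add_zero, re_self]
  have h2 := ep z (j u)
  rw [h1] at h2
  have h3 := ep z z
  rw [re_self] at h3
  have h4 := ep (j u) (j u)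
  rw [re_self] at h4
  have h5 : Summable fun k => μ k * (⟪j (e k), j u⟫).re ^ 2 :=
    summable_of_sum_le (fun k => mul_nonneg (h0 k) (sq_nonneg _)) (bessel eo eE u)
  have h6 : ∑' k, μ k * (⟪j (e k), j u⟫).re ^ 2 ≤ ‖D u‖ ^ 2 :=
    Real.tsum_le_of_sum_le (fun k => mul_nonneg (h0 k) (sq_nonneg _)) (bessel eo eE u)
  have h7 := ((h4.add h5.hasSum).mul_left (1 + μ n)⁻¹).mul_left (1 / 2)
  have h8 := (h3.mul_left (1 / 2)).add h7
  have hn0 : 0 < 1 + μ n := by linarith [h0 n]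
  have h9 := hasSum_le (fun k => ?_) h2 h8
  · have h10 : ‖z‖ ^ 2 ≤ (1 + μ n)⁻¹ * (‖j u‖ ^ 2 + ‖D u‖ ^ 2) := by
      have : (1 + μ n)⁻¹ * (‖j u‖ ^ 2 + ∑' k, μ k * (⟪j (e k), j u⟫).re ^ 2) ≤
          (1 + μ n)⁻¹ * (‖j u‖ ^ 2 + ‖D u‖ ^ 2) :=
        mul_le_mul_of_nonneg_left (by linarith) (inv_pos.2 hn0).le
      linarith
    have h11 : ‖j u‖ ^ 2 + ‖D u‖ ^ 2 ≤ (K * ‖u‖) ^ 2 := by
      have a1 := pow_le_pow_left₀ (norm_nonneg _) (j.le_opNorm u) 2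
      have a2 := pow_le_pow_left₀ (norm_nonneg _) (D.le_opNorm u) 2
      have a3 : 0 ≤ ‖j‖ * ‖D‖ * ‖u‖ ^ 2 := by positivity
      calc ‖j u‖ ^ 2 + ‖D u‖ ^ 2 ≤ (‖j‖ * ‖u‖) ^ 2 + (‖D‖ * ‖u‖) ^ 2 := add_le_add a1 a2
        _ ≤ (‖j‖ * ‖u‖) ^ 2 + (‖D‖ * ‖u‖) ^ 2 + 2 * (‖j‖ * ‖D‖ * ‖u‖ ^ 2) := by linarith
        _ = _ := by rw [hK]; ring
    have h12 : ‖z‖ ^ 2 ≤ (c * K * ((n : ℝ) + 1) ^ (-(1 / 4) : ℝ) * ‖u‖) ^ 2 := by
      have h13 : (((n : ℝ) + 1) ^ (-(1 / 4) : ℝ)) ^ 2 = ((n : ℝ) + 1) ^ (-(1 / 2) : ℝ) := by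
        rw [← Real.rpow_natCast, ← Real.rpow_mul (by positivity)]
        norm_num
      calc ‖z‖ ^ 2 ≤ (1 + μ n)⁻¹ * (‖j u‖ ^ 2 + ‖D u‖ ^ 2) := h10
        _ ≤ (c ^ 2 * ((n : ℝ) + 1) ^ (-(1 / 2) : ℝ)) * (K * ‖u‖) ^ 2 :=
            mul_le_mul (hc n) h11 (by positivity) (by positivity)
        _ = _ := by rw [← h13]; ring
    exact (pow_le_pow_iff_left₀ (norm_nonneg _) (by positivity) two_ne_zero).1 h12
  · show (⟪j (e k), z⟫).re * (⟪j (e k), j u⟫).re ≤ 1 / 2 * ((⟪j (e k), z⟫).re * (⟪j (e k), z⟫).re) +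
      1 / 2 * ((1 + μ n)⁻¹ * ((⟪j (e k), j u⟫).re * (⟪j (e k), j u⟫).re +
        μ k * (⟪j (e k), j u⟫).re ^ 2))
    set a := (⟪j (e k), z⟫).re with ha
    set d := (⟪j (e k), j u⟫).re with hd
    by_cases hk : k < n
    · have : a = 0 := by rw [ha, hzk k hk]; rfl
      rw [this]
      have h10 : 0 ≤ (1 + μ n)⁻¹ * (d * d + μ k * d ^ 2) :=
        mul_nonneg (inv_pos.2 hn0).le (add_nonneg (mul_self_nonneg d)
          (mul_nonneg (h0 k) (sq_nonneg d)))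
      linarith
    · push Not at hk
      have h10 : d ^ 2 ≤ (1 + μ n)⁻¹ * (d * d + μ k * d ^ 2) := by
        have h11 : (1 + μ n) * d ^ 2 ≤ d * d + μ k * d ^ 2 := by
          nlinarith [mul_le_mul_of_nonneg_right (hm hk) (sq_nonneg d)]
        calc d ^ 2 = (1 + μ n)⁻¹ * ((1 + μ n) * d ^ 2) := by
              rw [← mul_assoc, inv_mul_cancel₀ hn0.ne', one_mul]
          _ ≤ _ := mul_le_mul_of_nonneg_left h11 (inv_pos.2 hn0).le
      nlinarith [sq_nonneg (a - d)]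

end

end Crest.Agent.R235.Rm_820
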