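import Crest.Agent.R235.Rm5_820
import Crest.Agent.R235.RcX4_435

/-!
Row 235, block FAM/RC (helper820), RC-MAN part 6: THE ABSTRACT DIRAC PAIR FROM REAL DATA.

`Φ : RFam 4 V W V0` (435), `R : RJ Φ` (435).
* `RP Φ V1`   : the adjoint operator `DB : V1 → V0` with `jj1 : V1 → W`; `P.dp : DP ..`;
* `RE P ..`   : real eigenbases; `RE.ed : ED ..`;
* `RC2 P R ..`: real commutator data; `RC2.cm : CM ..`;
* `wt0`, `wt1`: the diagonal of `N0`, `N1`.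
-/

set_option autoImplicit false
set_option linter.unusedSectionVars false
set_option maxSynthPendingDepth 3

open scoped InnerProductSpace ContDiff Topology
open Complex Filter

namespace Crest.Agent.R235.Rn_820

open Crest.Agent.R235.Rc0_820 Crest.Agent.R235.RCTr_746 Crest.Agent.R235.Cx_172
open Crest.Agent.R235.SWPf_435 Crest.Agent.R235.RcX_435 Crest.Agent.R235.Rm_820
open Crest.Agent.R235.FamDefs_307 (pdθ sg ch4)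
open Crest.Agent.R235.RCDefs_746 (Base Fam KerF Inf Gr)

noncomputable section

variable {V W V0 V1 : Type*} [NormedAddCommGroup V] [InnerProductSpace ℝ V] [CompleteSpace V]
  [NormedAddCommGroup W] [InnerProductSpace ℝ W] [CompleteSpace W]
  [NormedAddCommGroup V0] [InnerProductSpace ℝ V0] [CompleteSpace V0]
  [NormedAddCommGroup V1] [InnerProductSpace ℝ V1] [CompleteSpace V1]
  (Φ : RFam 4 V W V0)

lemma re_H (x y : Φ.H) : (⟪x, y⟫_ℂ).re = ⟪Φ.eH x, Φ.eH y⟫_ℝ :=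
  inner_re_isom (hJ := Φ.hJ0) Φ.hI0 x y

lemma im_H (x y : Φ.H) : (⟪x, y⟫_ℂ).im = ⟪Φ.J0 (Φ.eH x), Φ.eH y⟫_ℝ :=
  inner_im_isom (hJ := Φ.hJ0) Φ.hI0 x y

lemma re_Y (x y : Φ.Y) : (⟪x, y⟫_ℂ).re = ⟪Φ.eY x, Φ.eY y⟫_ℝ :=
  inner_re_isom (hJ := Φ.hJ') Φ.hI x y

lemma im_Y (x y : Φ.Y) : (⟪x, y⟫_ℂ).im = ⟪Φ.J' (Φ.eY x), Φ.eY y⟫_ℝ :=
  inner_im_isom (hJ := Φ.hJ') Φ.hI x y

lemma skew_H (x y : V0) : ⟪Φ.J0 x, y⟫_ℝ = - ⟪x, Φ.J0 y⟫_ℝ := inner_J_left Φ.hJ0 Φ.hI0 x y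
lemma skew_Y (x y : W) : ⟪Φ.J' x, y⟫_ℝ = - ⟪x, Φ.J' y⟫_ℝ := inner_J_left Φ.hJ' Φ.hI x y

/-- the adjoint operator. -/
structure RP (V1 : Type*) [NormedAddCommGroup V1] [InnerProductSpace ℝ V1] [CompleteSpace V1] where
  J1 : V1 →L[ℝ] V1
  hJ1 : ∀ x, J1 (J1 x) = -x
  jj1 : V1 →L[ℝ] W
  DB : V1 →L[ℝ] V0
  jj1_J : ∀ x, jj1 (J1 x) = Φ.J' (jj1 x)
  DB_J : ∀ x, DB (J1 x) = Φ.J0 (DB x)
  coer1 : ∃ c : ℝ, ∀ x, ‖x‖ ^ 2 ≤ c * (‖jj1 x‖ ^ 2 + ‖DB x‖ ^ 2)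
  adj : ∀ v w, ⟪Φ.D 0 v, jj1 w⟫_ℝ = ⟪Φ.jj v, DB w⟫_ℝ

variable {Φ}

namespace RP

variable (P : RP Φ V1)

/-- the complex domain of the adjoint. -/
def X1 : Type _ := CX V1 P.J1 P.hJ1

instance : NormedAddCommGroup P.X1 := inferInstanceAs (NormedAddCommGroup (CX V1 P.J1 P.hJ1))
instance : InnerProductSpace ℂ P.X1 := inferInstanceAs (InnerProductSpace ℂ (CX V1 P.J1 P.hJ1))
instance : CompleteSpace P.X1 := inferInstanceAs (CompleteSpace (CX V1 P.J1 P.hJ1))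

/-- the real homeomorphism. -/
def e1 : P.X1 ≃L[ℝ] V1 := e V1 P.J1 P.hJ1

theorem e1_I (x : P.X1) : P.e1 (I • x) = P.J1 (P.e1 x) := e_I_smul (hJ := P.hJ1) x

lemma norm_e1_le (x : P.X1) : ‖P.e1 x‖ ≤ 2 * ‖x‖ := norm_e_le (hJ := P.hJ1) x
lemma norm_le_e1 (x : P.X1) : ‖x‖ ≤ (1 + ‖P.J1‖) * ‖P.e1 x‖ := norm_le_e (hJ := P.hJ1) x

/-- the embedding. -/
def j1 : P.X1 →L[ℂ] Φ.Y := (liftL P.jj1 P.jj1_J : CX V1 P.J1 P.hJ1 →L[ℂ] CX W Φ.J' Φ.hJ')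

/-- the adjoint operator. -/
def D1 : P.X1 →L[ℂ] Φ.H := (liftL P.DB P.DB_J : CX V1 P.J1 P.hJ1 →L[ℂ] CX V0 Φ.J0 Φ.hJ0)

theorem eY_j1 (x : P.X1) : Φ.eY (P.j1 x) = P.jj1 (P.e1 x) := rfl
theorem eH_D1 (x : P.X1) : Φ.eH (P.D1 x) = P.DB (P.e1 x) := rfl

lemma norm_j1 (x : P.X1) : ‖P.j1 x‖ = ‖P.jj1 (P.e1 x)‖ := by rw [← Φ.norm_eY, P.eY_j1]
lemma norm_D1 (x : P.X1) : ‖P.D1 x‖ = ‖P.DB (P.e1 x)‖ := by rw [← Φ.norm_eH, P.eH_D1]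

theorem coer1' : Coer P.j1 P.D1 := by
  obtain ⟨c, hc⟩ := P.coer1
  refine ⟨(1 + ‖P.J1‖) ^ 2 * |c|, fun x => ?_⟩
  have h1 := P.norm_le_e1 x
  have h2 := hc (P.e1 x)
  rw [P.norm_j1, P.norm_D1, mul_assoc]
  have h5 : ‖x‖ ^ 2 ≤ ((1 + ‖P.J1‖) * ‖P.e1 x‖) ^ 2 := pow_le_pow_left₀ (norm_nonneg _) h1 2
  refine h5.trans ?_
  rw [mul_pow]
  refine mul_le_mul_of_nonneg_left (h2.trans ?_) (sq_nonneg _)
  exact mul_le_mul_of_nonneg_right (le_abs_self c) (by positivity)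

/-- **the Dirac pair.** -/
theorem dp (R : RJ Φ) : DP Φ.incl (Φ.toP.D 0) P.j1 P.D1 where
  c0 := R.coer'
  c1 := P.coer1'
  adj v w := by
    refine Complex.ext ?_ ?_
    · rw [re_Y, re_H]
      exact P.adj (Φ.eX v) (P.e1 w)
    · rw [im_Y, im_H, Φ.eY_D, Φ.eH_incl, ← Φ.D_J, ← Φ.jj_J]
      exact P.adj (Φ.J (Φ.eX v)) (P.e1 w)

end RP

/-- real eigenbases. -/
structure RE (P : RP Φ V1) (μ ν : ℕ → ℝ) (e : ℕ → V) (f : ℕ → V1) (g : ℕ → V) : Prop where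
  μ0 : ∀ k, 0 ≤ μ k
  ν0 : ∀ k, 0 ≤ ν k
  eo : ∀ k l, ⟪Φ.jj (e k), Φ.jj (e l)⟫_ℝ = if k = l then 1 else 0
  fo : ∀ k l, ⟪P.jj1 (f k), P.jj1 (f l)⟫_ℝ = if k = l then 1 else 0
  ep : ∀ x : V0, HasSum (fun k => ⟪Φ.jj (e k), x⟫_ℝ ^ 2) (‖x‖ ^ 2)
  fp : ∀ x : W, HasSum (fun k => ⟪P.jj1 (f k), x⟫_ℝ ^ 2) (‖x‖ ^ 2)
  eE : ∀ k v, ⟪Φ.D 0 v, Φ.D 0 (e k)⟫_ℝ = μ k * ⟪Φ.jj v, Φ.jj (e k)⟫_ℝ
  fE : ∀ k w, ⟪P.DB w, P.DB (f k)⟫_ℝ = ν k * ⟪P.jj1 w, P.jj1 (f k)⟫_ℝ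
  jg : ∀ k, Φ.jj (g k) = P.DB (f k)
  Dg : ∀ k, Φ.D 0 (g k) = ν k • P.jj1 (f k)

/-- polarisation of Parseval. -/
lemma polar {E : Type*} [NormedAddCommGroup E] [InnerProductSpace ℝ E] {b : ℕ → E}
    (h : ∀ x : E, HasSum (fun k => ⟪b k, x⟫_ℝ ^ 2) (‖x‖ ^ 2)) (x y : E) :
    HasSum (fun k => ⟪b k, x⟫_ℝ * ⟪b k, y⟫_ℝ) ⟪x, y⟫_ℝ := by
  have h1 := ((h (x + y)).sub (h (x - y))).mul_left (1 / 4)
  have e1 : (fun k => 1 / 4 * (⟪b k, x + y⟫_ℝ ^ 2 - ⟪b k, x - y⟫_ℝ ^ 2)) =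
      fun k => ⟪b k, x⟫_ℝ * ⟪b k, y⟫_ℝ := by
    funext k
    rw [inner_add_right, inner_sub_right]
    ring
  have e2 : 1 / 4 * (‖x + y‖ ^ 2 - ‖x - y‖ ^ 2) = ⟪x, y⟫_ℝ := by
    rw [norm_add_sq_real, norm_sub_sq_real]
    ring
  rwa [e1, e2] at h1

variable {P : RP Φ V1} {μ ν : ℕ → ℝ} {e : ℕ → V} {f : ℕ → V1} {g : ℕ → V}

/-- the complex eigen-data. -/
theorem RE.ed (E : RE P μ ν e f g) : ED Φ.incl (Φ.toP.D 0) P.j1 P.D1 μ ν (fun k => Φ.eX.symm (e k))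
    (fun k => P.e1.symm (f k)) (fun k => Φ.eX.symm (g k)) where
  μ0 := E.μ0
  ν0 := E.ν0
  eo k l := by
    rw [re_H, Φ.eH_incl, Φ.eH_incl, Φ.eX.apply_symm_apply, Φ.eX.apply_symm_apply]
    exact E.eo k l
  fo k l := by
    rw [re_Y, P.eY_j1, P.eY_j1, P.e1.apply_symm_apply, P.e1.apply_symm_apply]
    exact E.fo k l
  ep x y := by
    have h := polar E.ep (Φ.eH x) (Φ.eH y)
    rw [re_H]
    simp only [re_H, Φ.eH_incl, Φ.eX.apply_symm_apply]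
    exact h
  fp x y := by
    have h := polar E.fp (Φ.eY x) (Φ.eY y)
    rw [re_Y]
    simp only [re_Y, P.eY_j1, P.e1.apply_symm_apply]
    exact h
  eE k v := by
    refine Complex.ext ?_ ?_
    · rw [Complex.re_ofReal_mul, re_Y, re_H, Φ.eY_D, Φ.eY_D, Φ.eH_incl, Φ.eH_incl,
        Φ.eX.apply_symm_apply]
      exact E.eE k (Φ.eX v)
    · rw [Complex.im_ofReal_mul, im_Y, im_H, Φ.eY_D, Φ.eY_D, Φ.eH_incl, Φ.eH_incl,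
        Φ.eX.apply_symm_apply, ← Φ.D_J, ← Φ.jj_J]
      exact E.eE k (Φ.J (Φ.eX v))
  fE k w := by
    refine Complex.ext ?_ ?_
    · rw [Complex.re_ofReal_mul, re_H, re_Y, P.eH_D1, P.eH_D1, P.eY_j1, P.eY_j1,
        P.e1.apply_symm_apply]
      exact E.fE k (P.e1 w)
    · rw [Complex.im_ofReal_mul, im_H, im_Y, P.eH_D1, P.eH_D1, P.eY_j1, P.eY_j1,
        P.e1.apply_symm_apply, ← P.DB_J, ← P.jj1_J]
      exact E.fE k (P.J1 (P.e1 w))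
  jg k := by
    refine Φ.eH.injective ?_
    rw [Φ.eH_incl, P.eH_D1, Φ.eX.apply_symm_apply, P.e1.apply_symm_apply, E.jg]
  Dg k := by
    refine Φ.eY.injective ?_
    rw [Φ.eY_D, eY_smul, P.eY_j1, Φ.eX.apply_symm_apply, P.e1.apply_symm_apply, E.Dg]

end

end Crest.Agent.R235.Rn_820
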