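import Crest.Agent.R235.Rn2_820

/-!
Row 235, block FAM/RC (helper820), RC-MAN part 8: the Dirac pair of the manifold.

* `rp H C hj : RP (RF H C hj) S.D1.toAD.WE`;
* `re H C hj S0 S1 : RE (rp H C hj) S0.μ S1.μ ..` for spectral data `S0`, `S1`.
-/

set_option autoImplicit false
set_option linter.unusedSectionVars false
set_option maxSynthPendingDepth 3

open scoped ContDiff ENNReal NNReal Topology Manifold Bundle RealInnerProductSpace
open MeasureTheory Set Filter Metric Bundle Module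

universe v

namespace Crest.Agent.R235.Rn_820

open Crest.Agent.R249.Tv57 Crest.Agent.R247.Ms322 Crest.Agent.R247.Dir593
open Crest.Agent.R235.SWSym_451 Crest.Agent.R235.Fs4_546 Crest.Agent.R235.Fred_649
open Crest.Agent.R235.SWDefs_53 Crest.Agent.R235.SWPf_435 Crest.Agent.R235.RcX_435

noncomputable section

variable {M : Type v} [MetricSpace M] [CompactSpace M] [ConnectedSpace M]
  [ChartedSpace (EuclideanSpace ℝ (Fin 4)) M] [IsManifold (𝓡 4) ∞ M]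
  [RiemannianBundle (fun p : M => TangentSpace (𝓡 4) p)]
  [IsContMDiffRiemannianBundle (𝓡 4) ∞ (EuclideanSpace ℝ (Fin 4))
    (fun p : M => TangentSpace (𝓡 4) p)]
  [IsRiemannianManifold (𝓡 4) M] [MeasurableSpace M] [BorelSpace M]
  [SecondCountableTopology M] [Nonempty M] [IsFiniteMeasureOnCompacts (μHE[4] : Measure M)]

section op

variable {κ κ' : Type} [Fintype κ] [Fintype κ'] {D0 : Dat 4 M κ} {D1 : Dat 4 M κ'}

/-- an element orthogonal to the smooth sections is zero. -/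
lemma eq_of_jj (S0 : Spec D0) {f g : D0.toAD.HE} (h : ∀ v : D0.toAD.WE, ⟪D0.toAD.jj v, f⟫ =
    (⟪D0.toAD.jj v, g⟫ : ℝ)) : f = g := by
  refine sub_eq_zero.1 (eq_zero_of_coef S0 fun k => ?_)
  have h1 := h (cW D0 (ph S0 k))
  rw [jj_cW] at h1
  rw [inner_sub_left, real_inner_comm, real_inner_comm (cH D0 (ph S0 k)) g, h1, sub_self]

/-- the dual eigensections. -/
lemma Ah_dual (P : OpPair D0 D1) (S1 : Spec D1) (k : ℕ) :
    Ah P (cW D0 (lA P.swap (ph S1 k))) = S1.μ k • D1.toAD.jj (cW D1 (ph S1 k)) := by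
  refine eq_of_jj S1 fun w => ?_
  rw [real_inner_comm, adj (dns4 D0) (dns4 D1), jj_cW]
  have h1 : cH D0 (lA P.swap (ph S1 k)) = Ah P.swap (cW D1 (ph S1 k)) :=
    (Ah_cW (P := P.swap) (dns4 D1) (ph S1 k)).symm
  rw [h1, Ah_eig S1 (dns4 D1), real_inner_smul_right, real_inner_comm]

lemma mu_nonneg (P : OpPair D0 D1) (S0 : Spec D0) (k : ℕ) : 0 ≤ S0.μ k := by
  have h := Ah_ortho (P := P) S0 (dns4 D0) k k
  rw [if_pos rfl] at h
  rw [← h]
  exact real_inner_self_nonneg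

lemma Ah_eig' (P : OpPair D0 D1) (S0 : Spec D0) (k : ℕ) (v : D0.toAD.WE) :
    (⟪Ah P v, Ah P (cW D0 (ph S0 k))⟫ : ℝ) =
      S0.μ k * ⟪D0.toAD.jj v, D0.toAD.jj (cW D0 (ph S0 k))⟫ := by
  have h := Ah_eig (P := P) S0 (dns4 D0) k v
  rw [real_inner_comm, h, real_inner_comm]

lemma pars' (S0 : Spec D0) (x : D0.toAD.HE) :
    HasSum (fun k => (⟪D0.toAD.jj (cW D0 (ph S0 k)), x⟫ : ℝ) ^ 2) (‖x‖ ^ 2) := by
  have h := hasSum_HE S0 x
  have e : (fun k => ⟪x, cH D0 (ph S0 k)⟫ ^ 2) =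
      fun k => (⟪D0.toAD.jj (cW D0 (ph S0 k)), x⟫ : ℝ) ^ 2 := by
    funext k
    rw [real_inner_comm, jj_cW]
  rwa [e] at h

lemma jj_dual (P : OpPair D0 D1) (S1 : Spec D1) (k : ℕ) :
    D0.toAD.jj (cW D0 (lA P.swap (ph S1 k))) = Ah P.swap (cW D1 (ph S1 k)) :=
  (jj_cW D0 (lA P.swap (ph S1 k))).trans (Ah_cW (P := P.swap) (dns4 D1) (ph S1 k)).symm

end op

variable {κ0 κ1 κT : Type} [Fintype κ0] [Fintype κ1] [Fintype κT]
  {S : SWS M κ0 κ1 κT} {cc : κ1 → κ0 → M → EuclideanSpace ℝ (Fin 4)} {J1 : κ1 → κ1 → M → ℝ}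
  {j : JD M κT 4}

/-- the adjoint operator commutes with the complex structures. -/
theorem Ah_swap_JW (H : Sym S cc) (C : CJ1 S cc J1) (w : S.D1.toAD.WE) :
    Ah S.P.swap (JW (cs1 C) w) = JH (cs0 H) (Ah S.P.swap w) := by
  obtain ⟨S0⟩ := spec0 H
  refine eq_of_jj S0 fun v => ?_
  have h1 := adj (P := S.P) (dns4 S.D0) (dns4 S.D1) v (JW (cs1 C) w)
  have h2 := adj (P := S.P) (dns4 S.D0) (dns4 S.D1) (JW (cs0 H) v) w
  have sk0 := Cx_172.inner_J_left (JH_JH (cs0 H)) (norm_JH (cs0 H))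
    (S.D0.toAD.jj v) (Ah S.P.swap w)
  have sk1 := Cx_172.inner_J_left (JH_JH (cs1 C)) (norm_JH (cs1 C))
    (Ah S.P v) (S.D1.toAD.jj w)
  rw [← h1, jj_JW]
  rw [Ah_JW H C, jj_JW] at h2
  linarith

/-- **the adjoint Dirac operator.** -/
def rp (H : Sym S cc) (C : CJ1 S cc J1) (hj : j.OK S) : RP (RF H C hj) S.D1.toAD.WE where
  J1 := JW (cs1 C)
  hJ1 := JW_JW (cs1 C)
  jj1 := S.D1.toAD.jj
  DB := Ah S.P.swap
  jj1_J := jj_JW (cs1 C)
  DB_J := Ah_swap_JW H C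
  coer1 := by
    obtain ⟨c, hc, h⟩ := garding (P := S.P.swap) (dns4 S.D1)
    refine ⟨c, fun x => ?_⟩
    refine (h x).trans (le_of_eq ?_)
    rw [add_comm]
  adj v w := by
    have h1 : (RF H C hj).D 0 = Ah S.P := DR_zero H hj
    rw [h1]
    exact adj (dns4 S.D0) (dns4 S.D1) v w

lemma D0_eq (H : Sym S cc) (C : CJ1 S cc J1) (hj : j.OK S) : (RF H C hj).D 0 = Ah S.P :=
  DR_zero H hj

set_option maxHeartbeats 2000000 in
/-- **the eigenbases.** -/
theorem re (H : Sym S cc) (C : CJ1 S cc J1) (hj : j.OK S) (S0 : Spec S.D0) (S1 : Spec S.D1) :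
    RE (rp H C hj) S0.μ S1.μ (fun k => cW S.D0 (ph S0 k)) (fun k => cW S.D1 (ph S1 k))
      (fun k => cW S.D0 (lA S.P.swap (ph S1 k))) where
  μ0 := mu_nonneg S.P S0
  ν0 := mu_nonneg S.P.swap S1
  eo k l := ortho_ph S0 k l
  fo k l := ortho_ph S1 k l
  ep := pars' S0
  fp := pars' S1
  eE k v := by
    rw [D0_eq]
    exact Ah_eig' S.P S0 k v
  fE k w := Ah_eig' S.P.swap S1 k w
  jg k := jj_dual S.P S1 k
  Dg k := by
    rw [D0_eq]
    exact Ah_dual S.P S1 k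

end

end Crest.Agent.R235.Rn_820
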