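import Crest.Agent.R235.DOM_560
import Crest.Agent.R240.N2
import Crest.Agent.R240.Final

/-!
Row 235, package STF: assembly (helper560).
`stf_of : EXJ → BPLUS → ZD → PD → NRM → HDG → LINK → DOM → STF` in universe `0`.
-/

set_option autoImplicit false
set_option maxSynthPendingDepth 3

open Set Function Filter MeasureTheory Metric
open scoped Manifold ContDiff Topology ENNReal

universe u

namespace Crest.Agent.R235.STF_560

open Crest.Agent.R240 Crest.Agent.R240.Ch STF_861

noncomputable section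

/-- the assembly on a metric manifold with a bi-Lipschitz metric. -/
theorem stf_aux (bplus : BPLUS.{0}) (zd : ZD.{0}) (pd : PD.{0}) (nrm : NRM.{0}) (hdg : HDG)
    (link : LINK) (dom : DOM.{0})
    (M : Type) [MetricSpace M] [CompactSpace M] [ConnectedSpace M] [ChartedSpace E4 M]
    [IsManifold 𝓘(ℝ, E4) ∞ M] (bl : Met.BiLip E4 M) (w : Trip M) (J : EndF E4 M)
    (hw : Pos3 w) (hN : Nrm w) (hJ : IsJ w J) (hNC : NC (w 0) (clw w) 0) (a : Z2 M)
    (hpos : 0 < pI (w 0) a a) (hpos0 : 0 < pI (w 0) a (w 0)) (h1 : pI (w 0) a (w 1) = 0)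
    (h2 : pI (w 0) a (w 2) = 0) :
    ∃ b : Z2 M, cls b = cls a ∧ Seg w (update w 0 b) ∧ HK (update w 0 b) := by
  let _ : MeasurableSpace M := borel M
  have _ : BorelSpace M := ⟨rfl⟩
  have hinv := nrm M w J hw hN hJ
  have hV := hw.vol 0
  have hbp : bp J ((w 0).1.1 : F2 E4 M) = ((w 0).1.1 : F2 E4 M) := N2.bp_of_inv hinv
  obtain ⟨D, rfl, hal, hμ⟩ : ∃ D : Dat M, D.J = J ∧ D.al = ((w 0).1.1 : F2 E4 M) ∧
      D.μ = Int.mu ((w 0).1.1 : F2 E4 M) :=
    ⟨{ bl := bl
       J := J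
       smJ := hJ.smooth
       sq := hJ.sq
       al := ((w 0).1.1 : F2 E4 M)
       sm_al := (w 0).1.2
       cl_al := (w 0).2
       tames := hJ.tame
       μ := Int.mu ((w 0).1.1 : F2 E4 M)
       fin := Int.isFinite_mu hV
       vol := by rw [hbp]; exact Int.isVol_mu hV }, rfl, rfl, rfl⟩
  have hF : D.F = ((w 0).1.1 : F2 E4 M) := by
    unfold Dat.F
    rw [hal, hbp]
  have hFX : D.FX = (w 0).1 := Subtype.ext hF
  have hI : ∀ x y : Z2 M, D.I (x.1.1 : F2 E4 M) (y.1.1 : F2 E4 M) = pI (w 0) x y := by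
    intro x y
    unfold Dat.I IG
    rw [hF, hμ]
    rfl
  -- pointwise values
  have hq : ∀ (i j : Fin 3) (x : M), qG D.F ((w i).1.1 : F2 E4 M) ((w j).1.1 : F2 E4 M) x =
      if i = j then 1 else 0 := by
    intro i j x
    obtain ⟨s, hs⟩ := hN x
    have hs0 : s ≠ 0 := by
      have h3 := hs 0 0
      rw [if_pos rfl] at h3
      have h4 := hw.W_ne' 0 x
      rwa [h3] at h4
    rw [hF]
    show W (val (w i) x) (val (w j) x) / W (val (w 0) x) (val (w 0) x) = _
    rw [hs i j, hs 0 0, if_pos rfl]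
    split_ifs
    · exact div_self hs0
    · exact zero_div s
  have hII : ∀ i j : Fin 3, D.I ((w i).1.1 : F2 E4 M) ((w j).1.1 : F2 E4 M) =
      if i = j then D.I D.F D.F else 0 := by
    intro i j
    have h3 : D.I D.F D.F = ∫ x, qG D.F ((w 0).1.1 : F2 E4 M) ((w 0).1.1 : F2 E4 M) x ∂D.μ := by
      show (∫ x, qG D.F D.F D.F x ∂D.μ) = _
      refine integral_congr_ae (ae_of_all _ fun x => ?_)
      show q (at2 D.F x) (at2 D.F x) (at2 D.F x) = q (at2 D.F x) _ _
      rw [hF]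
    rw [h3]
    show (∫ x, qG D.F _ _ x ∂D.μ) = _
    simp only [hq]
    split_ifs
    · rfl
    · simp
  have hne : Nonempty M := inferInstance
  have hFpos : 0 < D.I D.F D.F := by
    have h3 := hI (w 0) (w 0)
    rw [hII 0 0, if_pos rfl] at h3
    rw [h3]
    have h4 := hw.ip_self_pos 0 0
    rwa [ip_cls hV] at h4
  have hCls : Cls D (fun i : Fin 2 => (w i.succ).1) a.1 :=
    { clF := by rw [hFX]; exact (w 0).2
      clv := fun i => (w i.succ).2
      anti := fun i => by
        apply Subtype.ext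
        show bp D.J ((w i.succ).1.1 : F2 E4 M) = 0
        apply N2.bp_of_anti
        intro x u v
        fin_cases i
        · exact hJ.anti1 x u v
        · exact hJ.anti2 x u v
      orth := fun i j => by
        rw [hII]
        simp only [Fin.succ_inj]
      posF := hFpos
      sig := fun b hb h3 h4 => by
        have h5 : D.I (b : F2 E4 M) (b : F2 E4 M) = ip (w 0) (cls ⟨b, hb⟩) (cls ⟨b, hb⟩) := by
          rw [ip_cls hV, ← hI]
        show D.I (b : F2 E4 M) (b : F2 E4 M) ≤ 0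
        rw [h5]
        by_cases h6 : cls (⟨b, hb⟩ : Z2 M) = 0
        · rw [h6, ip_zero_left hV]
        · refine (bplus M w hw _ (fun i => ?_) h6).le
          rw [ip_cls hV, ← hI]
          fin_cases i
          · have h7 : D.I (b : F2 E4 M) ((w 0).1.1 : F2 E4 M) = 0 := by rw [← hF]; exact h3
            exact h7
          · exact h4 0
          · exact h4 1
      cla := a.2
      pos := by rw [hI]; exact hpos
      posaF := by
        have h3 : D.I (a.1.1 : F2 E4 M) D.F = pI (w 0) a (w 0) := by rw [← hI, hF]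
        rw [h3]; exact hpos0
      perp := fun i => by
        rw [hI]
        fin_cases i
        · exact h1
        · exact h2 }
  have hPD : PDat D := by
    intro L hL
    obtain ⟨s, hs⟩ := pd M w hw L hL
    exact ⟨s.1, s.2, fun b hb => by rw [hs ⟨b, hb⟩, ← hI]⟩
  have hZD : ZDat D := zd M D w hw hJ hal hNC
  obtain ⟨a0, ha0, ha0inv⟩ := hdg M w D.J hw hN hJ a h1 h2
  have hex : IsEx ((a.1 - a0.1 : X2 M) : F2 E4 M) := cls_eq.1 ha0.symm
  obtain ⟨b, hbZ, hbex, hbpi, hbpos⟩ := dom M D _ a.1 a0.1 hCls hPD hZD a0.2 hex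
    (Subtype.ext (N2.bpp_of_inv ha0inv))
  have hbinv := DOM_560.inv_of_pi'' D hbpi
  obtain ⟨b', hb1, hb2, hb3⟩ := link M w D.J hw hN hJ ⟨b, hbZ⟩ hbinv hbpos
  refine ⟨b', ?_, hb2, hb3⟩
  rw [hb1]
  exact cls_eq.2 hbex

/-- **ASSEMBLY of the package STF.** -/
theorem stf_of (exj : EXJ.{0}) (bplus : BPLUS.{0}) (zd : ZD.{0}) (pd : PD.{0}) (nrm : NRM.{0})
    (hdg : HDG) (link : LINK) (dom : DOM.{0}) : STF.{0} := by
  intro M i1 i2 i3 i4 i5 i6 w hw hN hNC c hc hc0 hc1 hc2
  obtain ⟨J, hJ⟩ := exj M w hw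
  obtain ⟨a, rfl⟩ := cls_surj c
  have hV := hw.vol 0
  rw [ip_cls hV] at hc hc0 hc1 hc2
  obtain ⟨m, hm, hbl⟩ := Met.exists_metric (E := E4) (M := M)
  subst hm
  exact stf_aux bplus zd pd nrm hdg link dom M hbl w J hw hN hJ hNC a hc hc0 hc1 hc2

end

end Crest.Agent.R235.STF_560
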