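import Crest.Agent.R235.L4_433
import Crest.Agent.R235.Swx4_333

/-!
Row 235 (S0364), PACKAGE SW, leaf SW-FRE (helper952), part A: analysis on `L⁴`.

* `norm_le_quad` : `|g| ≤ K (∑ |v_a|)²` a.e. gives `‖g‖₂ ≤ K (#κ)² C² ‖v‖²` (`Emb4`);
* `B4 : WA →L W →L HH` : the product term `prT` as a continuous bilinear map;
* `quad_est` : pointwise Taylor estimate of `q ∘ trunc` at `|u0| ≤ R0 < R`;
* `compact_fderiv` : the derivative of a compact map is compact;
* `exists_clh` : the derivative in `HH` from componentwise quadratic estimates.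
-/

set_option autoImplicit false
set_option maxSynthPendingDepth 3
set_option linter.unusedSectionVars false

open scoped ContDiff ENNReal NNReal Topology Manifold Bundle RealInnerProductSpace
open MeasureTheory Set Filter Metric Bundle

noncomputable section

namespace Crest.Agent.R235.SWFre_952

open Crest.Agent.R249.Tv57 Crest.Agent.R235.CptB_755 Crest.Agent.R235.CptC_755
open Crest.Agent.R235.Cpt_755 Crest.Agent.R235.L4_433

section abs

variable {X : Type*} [MeasurableSpace X] {μ : Measure X} {κ κ' α ν : Type} [Fintype κ] [Fintype κ']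
  [Fintype α] [Fintype ν] {W WA : Type*} [NormedAddCommGroup W] [NormedSpace ℝ W]
  [NormedAddCommGroup WA] [NormedSpace ℝ WA]

/-- **the `L²` norm of a quadratic remainder**. -/
theorem norm_le_quad {j : W →L[ℝ] HH μ κ} {C : ℝ} (hC0 : 0 ≤ C)
    (hC : ∀ w a, MemLp ((j w) a : X → ℝ) 4 μ ∧ N4 μ ((j w) a) ≤ C * ‖w‖) {K : ℝ} (hK : 0 ≤ K)
    (w : W) (g : Lp ℝ 2 μ)
    (h : ∀ᵐ x ∂μ, |(g : X → ℝ) x| ≤ K * (∑ a, |(j w a : X → ℝ) x|) ^ 2) :
    ‖g‖ ≤ K * ((Fintype.card κ : ℝ) ^ 2 * (C * ‖w‖) ^ 2) := by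
  have h1 : ‖g‖ ≤ ‖K • ∑ a, ∑ b, |pr (j w a) (j w b)|‖ := by
    refine Lp.norm_le_norm_of_ae_le ?_
    have e1 : ∀ᵐ x ∂μ, ∀ a b, (|pr (j w a) (j w b)| : Lp ℝ 2 μ) x =
        |(j w a : X → ℝ) x| * |(j w b : X → ℝ) x| := by
      rw [ae_all_iff]
      intro a
      rw [ae_all_iff]
      intro b
      filter_upwards [Lp.coeFn_abs (pr (j w a) (j w b)), coe_pr (hC w a).1 (hC w b).1] with x e1 e2
      rw [e1, e2, abs_mul]
    have e2 : ∀ᵐ x ∂μ, ∀ a, ((∑ b, |pr (j w a) (j w b)| : Lp ℝ 2 μ) : X → ℝ) x =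
        ∑ b, (|pr (j w a) (j w b)| : Lp ℝ 2 μ) x := by
      rw [ae_all_iff]
      intro a
      exact Lp.coeFn_fun_finsetSum Finset.univ (fun b => |pr (j w a) (j w b)|)
    filter_upwards [h, e1, e2, Lp.coeFn_smul K (∑ a, ∑ b, |pr (j w a) (j w b)|),
      Lp.coeFn_fun_finsetSum Finset.univ (fun a => ∑ b, |pr (j w a) (j w b)|)] with x f0 f1 f2 f3 f4
    rw [f3, Pi.smul_apply, smul_eq_mul, f4, Real.norm_eq_abs, Real.norm_eq_abs]
    refine f0.trans (le_trans (le_of_eq ?_) (le_abs_self _))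
    congr 1
    rw [sq, Finset.sum_mul_sum]
    refine Finset.sum_congr rfl fun a _ => ?_
    rw [f2 a]
    exact Finset.sum_congr rfl fun b _ => (f1 a b).symm
  refine h1.trans ?_
  rw [norm_smul, Real.norm_eq_abs, abs_of_nonneg hK]
  refine mul_le_mul_of_nonneg_left ?_ hK
  have h2 : ∀ a b, ‖(|pr (j w a) (j w b)| : Lp ℝ 2 μ)‖ ≤ (C * ‖w‖) ^ 2 := by
    intro a b
    rw [norm_abs_eq_norm, sq]
    refine (norm_pr_le (hC w a).1 (hC w b).1).trans ?_
    exact mul_le_mul (hC w a).2 (hC w b).2 (N4_nonneg _) (by positivity)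
  calc ‖∑ a, ∑ b, (|pr (j w a) (j w b)| : Lp ℝ 2 μ)‖
      ≤ ∑ a, ∑ b, ‖(|pr (j w a) (j w b)| : Lp ℝ 2 μ)‖ :=
        (norm_sum_le _ _).trans (Finset.sum_le_sum fun a _ => norm_sum_le _ _)
    _ ≤ ∑ _a : κ, ∑ _b : κ, (C * ‖w‖) ^ 2 :=
        Finset.sum_le_sum fun a _ => Finset.sum_le_sum fun b _ => h2 a b
    _ = (Fintype.card κ : ℝ) ^ 2 * (C * ‖w‖) ^ 2 := by
        simp only [Finset.sum_const, Finset.card_univ, nsmul_eq_mul]
        ring

/-- the norm of `HH` is bounded by the sum of the norms of the components. -/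
theorem norm_HH_le (f : HH μ κ) : ‖f‖ ≤ ∑ a, ‖f a‖ := by
  rw [PiLp.norm_eq_of_L2]
  refine Real.sqrt_le_iff.2 ⟨Finset.sum_nonneg fun a _ => norm_nonneg _, ?_⟩
  rw [sq (∑ a, ‖f a‖), Finset.sum_mul]
  refine Finset.sum_le_sum fun a _ => ?_
  rw [sq]
  exact mul_le_mul_of_nonneg_left (Finset.single_le_sum
    (f := fun a => ‖f a‖) (fun b _ => norm_nonneg _) (Finset.mem_univ a)) (norm_nonneg _)

/-- a component, as a continuous linear map. -/
def sgl [DecidableEq κ'] (l : κ') : Lp ℝ 2 μ →L[ℝ] HH μ κ' :=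
  ((PiLp.continuousLinearEquiv 2 ℝ (fun _ : κ' => Lp ℝ 2 μ)).symm :
      (∀ _ : κ', Lp ℝ 2 μ) →L[ℝ] HH μ κ').comp
    (ContinuousLinearMap.single ℝ (fun _ : κ' => Lp ℝ 2 μ) l)

theorem sgl_apply [DecidableEq κ'] (l l' : κ') (f : Lp ℝ 2 μ) :
    (sgl l f : HH μ κ') l' = if l' = l then f else 0 := by
  show (Pi.single l f : κ' → Lp ℝ 2 μ) l' = _
  rw [Pi.single_apply]

open Classical in
/-- **the product term as a continuous bilinear map**. -/
def B4 (c : κ' → α → κ → X → ℝ) (hc : ∀ l b y, BM μ (c l b y)) {jA : WA →L[ℝ] HH μ α}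
    (hA : Emb4 jA) {j : W →L[ℝ] HH μ κ} (hj : Emb4 j) : WA →L[ℝ] W →L[ℝ] HH μ κ' :=
  ∑ l, ∑ b, ∑ y, (ContinuousLinearMap.compL ℝ W (Lp ℝ 2 μ) (HH μ κ')
    ((sgl l).comp (mulF (hc l b y)))).comp ((p42 μ).bilinearComp (e4 hA b) (e4 hj y))

theorem pr_eq {jA : WA →L[ℝ] HH μ α} (hA : Emb4 jA) {j : W →L[ℝ] HH μ κ} (hj : Emb4 j) (a : WA)
    (u : W) (b : α) (y : κ) : pr (jA a b) (j u y) = p42 μ (e4 hA b a) (e4 hj y u) := by
  ext1
  filter_upwards [coe_pr (mem4 hA a b) (mem4 hj u y), coe_p42 (e4 hA b a) (e4 hj y u),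
    coe_e4 hA b a, coe_e4 hj y u] with x e1 e2 e3 e4
  rw [e1, e2, e3, e4]

theorem B4_apply (c : κ' → α → κ → X → ℝ) (hc : ∀ l b y, BM μ (c l b y)) {jA : WA →L[ℝ] HH μ α}
    (hA : Emb4 jA) {j : W →L[ℝ] HH μ κ} (hj : Emb4 j) (a : WA) (u : W) :
    B4 c hc hA hj a u = prT c hc (jA a) (j u) := by
  classical
  ext1 l
  show (B4 c hc hA hj a u) l = ∑ b, ∑ y, mulF (hc l b y) (pr (jA a b) (j u y))
  have h1 : B4 c hc hA hj a u = ∑ l, ∑ b, ∑ y,
      sgl l (mulF (hc l b y) (p42 μ (e4 hA b a) (e4 hj y u))) := by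
    unfold B4
    simp only [_root_.sum_apply, ContinuousLinearMap.comp_apply,
      ContinuousLinearMap.compL_apply, ContinuousLinearMap.bilinearComp_apply]
  rw [h1]
  simp only [WithLp.ofLp_sum, Finset.sum_apply, sgl_apply, pr_eq hA hj]
  rw [Finset.sum_comm]
  refine Finset.sum_congr rfl fun b _ => ?_
  rw [Finset.sum_comm]
  refine Finset.sum_congr rfl fun y _ => ?_
  rw [Finset.sum_ite_eq]
  simp

end abs

/-! ### the derivative of a compact map -/

section cpt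

variable {E F : Type*} [NormedAddCommGroup E] [NormedSpace ℝ E] [NormedAddCommGroup F]
  [NormedSpace ℝ F] [CompleteSpace F]

theorem compact_fderiv {f : E → F} {f' : E →L[ℝ] F} {x : E} (hf : HasFDerivAt f f' x)
    (hc : ∀ R : ℝ, ∃ C : Set F, IsCompact C ∧ ∀ w, ‖w‖ ≤ R → f w ∈ C) : IsCompactOperator f' := by
  have hb : TotallyBounded (f' '' closedBall 0 1) := by
    rw [Metric.totallyBounded_iff]
    intro ε hε
    have h1 := hf.isLittleO.def (show (0 : ℝ) < ε / 4 by positivity)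
    obtain ⟨δ, hδ, h2⟩ := Metric.eventually_nhds_iff.1 h1
    obtain ⟨C, hC, hCf⟩ := hc (‖x‖ + δ)
    set s : ℝ := δ / 2 with hs
    have hs0 : 0 < s := by positivity
    -- the difference quotients lie in a compact set
    have hcomp : IsCompact ((fun y => s⁻¹ • (y - f x)) '' C) :=
      hC.image ((continuous_id.sub continuous_const).const_smul _)
    obtain ⟨T, hT, hcov⟩ := Metric.totallyBounded_iff.1 hcomp.totallyBounded (ε / 2) (by positivity)
    refine ⟨T, hT, ?_⟩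
    rintro _ ⟨v, hv, rfl⟩
    have hv1 : ‖v‖ ≤ 1 := by simpa using hv
    have h3 : ‖s • v‖ ≤ s := by
      rw [norm_smul, Real.norm_of_nonneg hs0.le]
      exact mul_le_of_le_one_right hs0.le hv1
    have h4 : f (x + s • v) ∈ C := by
      refine hCf _ ((norm_add_le _ _).trans ?_)
      have : s ≤ δ := by linarith
      linarith
    have h5 : dist (x + s • v) x < δ := by
      rw [dist_eq_norm, add_sub_cancel_left]
      linarith
    have h6 := h2 h5
    rw [add_sub_cancel_left, map_smul] at h6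
    have h7 : ‖s⁻¹ • (f (x + s • v) - f x) - f' v‖ ≤ ε / 4 := by
      have e : s⁻¹ • (f (x + s • v) - f x) - f' v =
          s⁻¹ • (f (x + s • v) - f x - s • f' v) := by
        rw [smul_sub s⁻¹ (f (x + s • v) - f x), smul_smul, inv_mul_cancel₀ hs0.ne', one_smul]
      rw [e, norm_smul, Real.norm_of_nonneg (by positivity)]
      calc s⁻¹ * ‖f (x + s • v) - f x - s • f' v‖ ≤ s⁻¹ * (ε / 4 * s) := by
            refine mul_le_mul_of_nonneg_left (h6.trans ?_) (by positivity)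
            exact mul_le_mul_of_nonneg_left h3 (by positivity)
        _ = ε / 4 := by field_simp
    have h8 : s⁻¹ • (f (x + s • v) - f x) ∈ ⋃ y ∈ T, ball y (ε / 2) := hcov ⟨_, h4, rfl⟩
    simp only [mem_iUnion, mem_ball] at h8 ⊢
    obtain ⟨y, hy, hd⟩ := h8
    refine ⟨y, hy, ?_⟩
    calc dist (f' v) y ≤ dist (f' v) (s⁻¹ • (f (x + s • v) - f x)) +
          dist (s⁻¹ • (f (x + s • v) - f x)) y := dist_triangle _ _ _
      _ < ε := by
        rw [dist_comm, dist_eq_norm]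
        linarith
  have hcl : IsCompact (closure (f' '' closedBall 0 1)) :=
    hb.closure.isCompact_of_isClosed isClosed_closure
  refine ⟨closure (f' '' closedBall 0 1), hcl, ?_⟩
  exact mem_of_superset (closedBall_mem_nhds (0 : E) one_pos) fun v hv =>
    subset_closure ⟨v, hv, rfl⟩

end cpt

/-! ### the pointwise estimate -/

section quad

open Crest.Agent.R235.Swx_333

variable {κ : Type} [Fintype κ]

theorem quad_abs {C : ℝ} (c : κ → κ → ℝ) (hC : ∀ y y', |c y y'| ≤ C)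
    (v w : κ → ℝ) : |∑ y, ∑ y', c y y' * v y * w y'| ≤ C * ((∑ a, |v a|) * ∑ a, |w a|) := by
  refine (Finset.abs_sum_le_sum_abs _ _).trans ?_
  rw [Finset.sum_mul_sum, Finset.mul_sum]
  refine Finset.sum_le_sum fun y _ => (Finset.abs_sum_le_sum_abs _ _).trans ?_
  rw [Finset.mul_sum]
  refine Finset.sum_le_sum fun y' _ => ?_
  rw [abs_mul, abs_mul, mul_assoc]
  exact mul_le_mul_of_nonneg_right (hC y y') (by positivity)

/-- **pointwise Taylor estimate**. -/
theorem quad_est {C R R0 : ℝ} (hC0 : 0 ≤ C) (hR0 : 0 ≤ R0) (hR : R0 < R) (c : κ → κ → ℝ)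
    (hC : ∀ y y', |c y y'| ≤ C) (hsym : ∀ y y', c y y' = c y' y) (u0 u : κ → ℝ)
    (hu0 : ∑ y, u0 y ^ 2 ≤ R0 ^ 2) :
    |(1 / 2) * (∑ y, ∑ y', c y y' * tv R u y * tv R u y') -
        (1 / 2) * (∑ y, ∑ y', c y y' * tv R u0 y * tv R u0 y') -
        ∑ y, ∑ y', c y y' * u0 y * (u y' - u0 y')| ≤
      (C + (Fintype.card κ : ℝ) * ((Fintype.card κ : ℝ) * (C * (4 * R)) + C * R0) / (R - R0)) *
        (∑ a, |u a - u0 a|) ^ 2 := by
  have hRp : 0 < R := lt_of_le_of_lt hR0 hR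
  have hδ : 0 < R - R0 := by linarith
  set N : ℝ := (Fintype.card κ : ℝ) with hN
  have hN0 : 0 ≤ N := by positivity
  set s := ∑ a, |u a - u0 a| with hs
  have hs0 : 0 ≤ s := Finset.sum_nonneg fun a _ => abs_nonneg _
  have hu0R : ∑ y, u0 y ^ 2 ≤ R ^ 2 := hu0.trans (by nlinarith)
  have ht0 : tv R u0 = u0 := tv_eq hRp u0 hu0R
  by_cases hu : ∑ y, u y ^ 2 ≤ R ^ 2
  · have ht : tv R u = u := tv_eq hRp u hu
    rw [ht, ht0]
    have e : (1 / 2) * (∑ y, ∑ y', c y y' * u y * u y') -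
        (1 / 2) * (∑ y, ∑ y', c y y' * u0 y * u0 y') -
        ∑ y, ∑ y', c y y' * u0 y * (u y' - u0 y') =
        (1 / 2) * ∑ y, ∑ y', c y y' * (u y - u0 y) * (u y' - u0 y') := by
      have e1 : ∑ y, ∑ y', c y y' * u0 y * u y' = ∑ y, ∑ y', c y y' * u y * u0 y' := by
        rw [Finset.sum_comm]
        refine Finset.sum_congr rfl fun y _ => Finset.sum_congr rfl fun y' _ => ?_
        rw [hsym y' y]
        ring
      have e2 : ∑ y, ∑ y', c y y' * u0 y * (u y' - u0 y') =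
          ∑ y, ∑ y', c y y' * u0 y * u y' - ∑ y, ∑ y', c y y' * u0 y * u0 y' := by
        rw [← Finset.sum_sub_distrib]
        refine Finset.sum_congr rfl fun y _ => ?_
        rw [← Finset.sum_sub_distrib]
        exact Finset.sum_congr rfl fun y' _ => by ring
      have e3 : ∑ y, ∑ y', c y y' * (u y - u0 y) * (u y' - u0 y') =
          ∑ y, ∑ y', c y y' * u y * u y' - ∑ y, ∑ y', c y y' * u y * u0 y' -
          ∑ y, ∑ y', c y y' * u0 y * u y' + ∑ y, ∑ y', c y y' * u0 y * u0 y' := by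
        rw [← Finset.sum_sub_distrib, ← Finset.sum_sub_distrib, ← Finset.sum_add_distrib]
        refine Finset.sum_congr rfl fun y _ => ?_
        rw [← Finset.sum_sub_distrib, ← Finset.sum_sub_distrib, ← Finset.sum_add_distrib]
        exact Finset.sum_congr rfl fun y' _ => by ring
      rw [e2, e3, e1]
      ring
    rw [e, abs_mul, abs_of_nonneg (by norm_num : (0:ℝ) ≤ 1 / 2)]
    have h1 := quad_abs c hC (fun y => u y - u0 y) (fun y => u y - u0 y)
    have h2 : (0:ℝ) ≤ N * (N * (C * (4 * R)) + C * R0) / (R - R0) := by positivity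
    calc (1 / 2) * |∑ y, ∑ y', c y y' * (u y - u0 y) * (u y' - u0 y')| ≤ 1 * (C * (s * s)) := by
          refine mul_le_mul (by norm_num) h1 (abs_nonneg _) (by norm_num)
      _ ≤ (C + N * (N * (C * (4 * R)) + C * R0) / (R - R0)) * s ^ 2 := by
          rw [add_mul, one_mul, ← sq]
          have := mul_nonneg h2 (sq_nonneg s)
          linarith
  · -- large `u`
    push Not at hu
    have h1 := quad_lip hRp hC0 c hC u u0
    have h2 := quad_abs c hC u0 (fun y => u y - u0 y)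
    have h3 : ∑ a, |u0 a| ≤ N * R0 := by
      have h4 : ∀ a ∈ (Finset.univ : Finset κ), |u0 a| ≤ R0 := by
        intro a _
        refine abs_le_of_sq_le_sq ?_ hR0
        exact (Finset.single_le_sum (f := fun y => u0 y ^ 2) (fun i _ => sq_nonneg _)
          (Finset.mem_univ a)).trans hu0
      refine (Finset.sum_le_card_nsmul _ _ _ h4).trans (le_of_eq ?_)
      rw [Finset.card_univ, nsmul_eq_mul]
    have h5 : R - R0 ≤ s := by
      have e1 : R ≤ ‖(WithLp.toLp 2 u : EuclideanSpace ℝ κ)‖ := by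
        rw [norm_toLp]
        exact Real.le_sqrt_of_sq_le hu.le
      have e2 : ‖(WithLp.toLp 2 u0 : EuclideanSpace ℝ κ)‖ ≤ R0 := by
        rw [norm_toLp]
        exact Real.sqrt_le_iff.2 ⟨hR0, hu0⟩
      have e3 := norm_sub_norm_le (WithLp.toLp 2 u : EuclideanSpace ℝ κ) (WithLp.toLp 2 u0)
      have e4 := toLp_le_sum (u - u0)
      have e5 : (WithLp.toLp 2 (u - u0) : EuclideanSpace ℝ κ) =
        WithLp.toLp 2 u - WithLp.toLp 2 u0 := rfl
      rw [e5] at e4
      have e6 : ∑ y, |(u - u0) y| = s := rfl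
      rw [e6] at e4
      linarith
    rw [← hN] at h1
    set q1 := ∑ y, ∑ y', c y y' * tv R u y * tv R u y'
    set q2 := ∑ y, ∑ y', c y y' * tv R u0 y * tv R u0 y'
    set q3 := ∑ y, ∑ y', c y y' * u0 y * (u y' - u0 y')
    have h6 : |(1 / 2) * q1 - (1 / 2) * q2 - q3| ≤
        N * (N * (C * (4 * R)) + C * R0) * s := by
      have e1 : (1 / 2) * q1 - (1 / 2) * q2 - q3 = (1 / 2) * (q1 - q2) - q3 := by ring
      rw [e1]
      refine (abs_sub _ _).trans ?_
      rw [abs_mul, abs_of_nonneg (by norm_num : (0:ℝ) ≤ 1 / 2)]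
      have e2 : |q3| ≤ C * (N * R0 * s) := by
        refine h2.trans (mul_le_mul_of_nonneg_left ?_ hC0)
        exact mul_le_mul_of_nonneg_right h3 hs0
      have e3 : (1 / 2) * |q1 - q2| ≤ 1 * (N * (N * (C * (4 * R) * s))) :=
        mul_le_mul (by norm_num) h1 (abs_nonneg _) (by norm_num)
      calc _ ≤ 1 * (N * (N * (C * (4 * R) * s))) + C * (N * R0 * s) := add_le_add e3 e2
        _ = _ := by ring
    refine h6.trans ?_
    have h7 : (0:ℝ) ≤ N * (N * (C * (4 * R)) + C * R0) := by positivity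
    calc N * (N * (C * (4 * R)) + C * R0) * s
        ≤ N * (N * (C * (4 * R)) + C * R0) / (R - R0) * s ^ 2 := by
          rw [div_mul_eq_mul_div, le_div_iff₀ hδ, mul_assoc]
          refine mul_le_mul_of_nonneg_left ?_ h7
          rw [sq]
          exact mul_le_mul_of_nonneg_left h5 hs0
      _ ≤ _ := by
          rw [add_mul]
          have := mul_nonneg hC0 (sq_nonneg s)
          linarith

end quad

end Crest.Agent.R235.SWFre_952

end
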