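import Crest.Agent.R235.SWFreA_952

/-!
Row 235 (S0364), PACKAGE SW, leaf SW-FRE (helper952), part B: **the Fréchet derivative of the nonlinear
part at a smooth section `u0` with `|u0| ≤ R0 < R`**.

* `linq S d t u0 v` : `(0, μ_t ∑ ρ_k u0 v)`;
* `dFq`, `coe_dFq`, `hasFDerivAt_Fq` : the curvature term;
* `dKH`, `coe_dKH`, `hasFDerivAt_KKt` : the product term, values in `HH`;
* `dKK`, `coe_dKK`, `hasFDerivAt_KK` : the same, values in `L²(D1)`;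
* `compact_dKK`, `compact_dFq`.
-/

set_option autoImplicit false
set_option maxSynthPendingDepth 3
set_option linter.unusedSectionVars false

open scoped ContDiff ENNReal NNReal Topology Manifold Bundle RealInnerProductSpace
open MeasureTheory Set Filter Metric Bundle

universe v

noncomputable section

namespace Crest.Agent.R235.SWFre_952

open Crest.Agent.R249.Tv57 Crest.Agent.R247.Ms322 Crest.Agent.R247.Dir593
open Crest.Agent.R235.SWDefs_53 Crest.Agent.R235.CptB_755 Crest.Agent.R235.Fs4_546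
open Crest.Agent.R235.CptC_755 Crest.Agent.R235.Cpt_755 Crest.Agent.R235.Fred_649
open Crest.Agent.R235.Swx_333 Crest.Agent.R235.L4_433

local notation "ipp" => Crest.Agent.R249.Tv57.ip 4

theorem hasFDerivAt_of_quad {E F : Type*} [NormedAddCommGroup E] [NormedSpace ℝ E]
    [NormedAddCommGroup F] [NormedSpace ℝ F] {f : E → F} {f' : E →L[ℝ] F} {x : E} {K : ℝ}
    (h : ∀ y, ‖f y - f x - f' (y - x)‖ ≤ K * ‖y - x‖ ^ 2) : HasFDerivAt f f' x := by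
  rw [hasFDerivAt_iff_isLittleO]
  rw [Asymptotics.isLittleO_iff]
  intro c hc
  have hpos : 0 < c / (|K| + 1) := by positivity
  filter_upwards [ball_mem_nhds x hpos] with y hy
  rw [mem_ball, dist_eq_norm] at hy
  refine (h y).trans ?_
  have h1 : K * ‖y - x‖ ≤ c := by
    calc K * ‖y - x‖ ≤ |K| * ‖y - x‖ := mul_le_mul_of_nonneg_right (le_abs_self K) (norm_nonneg _)
      _ ≤ (|K| + 1) * (c / (|K| + 1)) :=
          mul_le_mul (by linarith) hy.le (norm_nonneg _) (by positivity)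
      _ = c := by field_simp
  calc K * ‖y - x‖ ^ 2 = (K * ‖y - x‖) * ‖y - x‖ := by ring
    _ ≤ c * ‖y - x‖ := mul_le_mul_of_nonneg_right h1 (norm_nonneg _)

section main

variable {M : Type v} [MetricSpace M] [CompactSpace M] [ConnectedSpace M]
  [ChartedSpace (EuclideanSpace ℝ (Fin 4)) M] [IsManifold (𝓡 4) ∞ M]
  [RiemannianBundle (fun p : M => TangentSpace (𝓡 4) p)]
  [IsContMDiffRiemannianBundle (𝓡 4) ∞ (EuclideanSpace ℝ (Fin 4))
    (fun p : M => TangentSpace (𝓡 4) p)]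
  [IsRiemannianManifold (𝓡 4) M] [MeasurableSpace M] [BorelSpace M]
  [SecondCountableTopology M] [Nonempty M] [IsFiniteMeasureOnCompacts (μHE[4] : Measure M)]
  {κ0 κ1 κT : Type} [Fintype κ0] [Fintype κ1] [Fintype κT]

theorem bm_cont {f : M → ℝ} (hf : Continuous f) : BM (μHE[4] : Measure M) f := by
  obtain ⟨C, hC⟩ := isCompact_univ.exists_bound_of_continuousOn hf.continuousOn
  exact ⟨hf.aestronglyMeasurable, max C 0, le_max_right _ _,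
    Eventually.of_forall fun x => (hC x (mem_univ x)).trans (le_max_left _ _)⟩

/-- `(0, μ_t ∑ ρ_k u v)`. -/
def linq (S : SWS M κ0 κ1 κT) (d : SWD M κT) (t : E3) (u v : κ0 → M → ℝ) : Fin 4 → M → ℝ :=
  Fin.cons (fun _ => 0) fun k z =>
    d.mu t z * ∑ y, ∑ y', S.rho k y y' z * u y z * v y' z

/-- the matrix of `linq`. -/
def mq (S : SWS M κ0 κ1 κT) (d : SWD M κT) (t : E3) (u : κ0 → M → ℝ) : Fin 4 → κ0 → M → ℝ :=
  Fin.cons (fun _ _ => 0) fun k y' z => d.mu t z * ∑ y, S.rho k y y' z * u y z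

theorem mq_cont {S : SWS M κ0 κ1 κT} {d : SWD M κT} (hS : S.OK) (hd : d.Adm S) {t : E3}
    (ht : t ∈ BB) {u : κ0 → M → ℝ} (hu : SmV (n := 4) u) (l : Fin 4) (y : κ0) :
    Continuous (mq S d t u l y) := by
  refine Fin.cases ?_ (fun k => ?_) l
  · exact continuous_const
  · have h1 : Continuous fun z => d.mu t z := slice_cont hd.cmu ht
    have h2 : Continuous fun z => ∑ y', S.rho k y' y z * u y' z :=
      continuous_finsetSum _ fun y' _ => (hS.smrho k y' y).continuous.mul (hu y').continuous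
    exact h1.mul h2

/-- **the derivative of the curvature term**. -/
def dFq {S : SWS M κ0 κ1 κT} {d : SWD M κT} (hS : S.OK) (hd : d.Adm S) {t : E3} (ht : t ∈ BB)
    (u : SmS S.D0) : S.D0.toAD.WE →L[ℝ] HH (μHE[4] : Measure M) (Fin 4) :=
  (matR fun l y => bm_cont (mq_cont hS hd ht u.2.1 l y)).comp S.D0.toAD.i1

theorem mq_sum (S : SWS M κ0 κ1 κT) (d : SWD M κT) (t : E3) (u v : κ0 → M → ℝ) (l : Fin 4)
    (z : M) : ∑ y', v y' z * mq S d t u l y' z = linq S d t u v l z := by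
  refine Fin.cases ?_ (fun k => ?_) l
  · simp [mq, linq]
  · show ∑ y', v y' z * (d.mu t z * ∑ y, S.rho k y y' z * u y z) =
      d.mu t z * ∑ y, ∑ y', S.rho k y y' z * u y z * v y' z
    simp only [Finset.mul_sum]
    rw [Finset.sum_comm]
    exact Finset.sum_congr rfl fun y _ => Finset.sum_congr rfl fun y' _ => by ring

theorem coe_dFq {S : SWS M κ0 κ1 κT} {d : SWD M κT} (hS : S.OK) (hd : d.Adm S) {t : E3}
    (ht : t ∈ BB) (u : SmS S.D0) (v : S.D0.toAD.WE) :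
    ∀ᵐ z ∂(μHE[4] : Measure M), ∀ l, (dFq hS hd ht u v l : M → ℝ) z =
      linq S d t u.1 (rp v) l z := by
  filter_upwards [coe_matR (fun l y => bm_cont (mq_cont hS hd ht u.2.1 l y))
    (S.D0.toAD.i1 v)] with z e1 l
  rw [← mq_sum]
  exact e1 l

theorem rp_cW {κ : Type} [Fintype κ] {D : Dat 4 M κ} (u : SmS D) :
    ∀ᵐ z ∂(μHE[4] : Measure M), ∀ a, rp (cW D u) a z = u.1 a z := coe_clH u.1 u.2.1

theorem rp_sub {κ : Type} [Fintype κ] {D : Dat 4 M κ} (u v : D.toAD.WE) :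
    ∀ᵐ z ∂(μHE[4] : Measure M), ∀ a, rp (u - v) a z = rp u a z - rp v a z := by
  rw [ae_all_iff]
  intro a
  have h : D.toAD.i1 (u - v) a = D.toAD.i1 u a - D.toAD.i1 v a := by
    rw [map_sub]; rfl
  unfold rp
  rw [h]
  exact Lp.coeFn_sub _ _

set_option maxHeartbeats 1600000 in
/-- **the curvature term is Fréchet differentiable**. -/
theorem fq_quad {S : SWS M κ0 κ1 κT} {d : SWD M κT} (hS : S.OK) (hd : d.Adm S)
    (h4 : Emb4 S.D0.toAD.i1) {R R0 : ℝ} (hR0 : 0 ≤ R0) (hR : R0 < R) {t : E3} (ht : t ∈ BB)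
    (u : SmS S.D0) (hu : ∀ z, ∑ y, u.1 y z ^ 2 ≤ R0 ^ 2) :
    ∃ K : ℝ, ∀ p : S.D0.toAD.WE, ‖Fq d R t p - Fq d R t (cW S.D0 u) -
      dFq hS hd ht u (p - cW S.D0 u)‖ ≤ K * ‖p - cW S.D0 u‖ ^ 2 := by
  have hfin := finM (M := M)
  have hRp : 0 < R := lt_of_le_of_lt hR0 hR
  obtain ⟨C, hC0, hC⟩ := h4
  obtain ⟨Cm, hCm0, hCm⟩ := unif_bdd hd.cmu
  obtain ⟨Cr, hCr0, hCr⟩ := rho_bdd hS
  set N : ℝ := (Fintype.card κ0 : ℝ) with hN
  have hδ : 0 < R - R0 := by linarith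
  set Kq : ℝ := Cr + N * (N * (Cr * (4 * R)) + Cr * R0) / (R - R0) with hKq
  have hKq0 : 0 ≤ Kq := by positivity
  set p0 := cW S.D0 u with hp0
  refine ⟨4 * ((Cm * Kq) * (N ^ 2 * C ^ 2)), fun p => ?_⟩
  set g : HH (μHE[4] : Measure M) (Fin 4) :=
    Fq d R t p - Fq d R t p0 - dFq hS hd ht u (p - p0) with hg
  have hpt : ∀ l, ∀ᵐ z ∂(μHE[4] : Measure M), |(g l : M → ℝ) z| ≤
      (Cm * Kq) * (∑ a, |(S.D0.toAD.i1 (p - p0) a : M → ℝ) z|) ^ 2 := by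
    intro l
    have e0 : g l = (Fq d R t p l - Fq d R t p0 l) - dFq hS hd ht u (p - p0) l := rfl
    filter_upwards [coe_nem (nemOK hS hd hRp (μHE[4] : Measure M)) ht (S.D0.toAD.i1 p),
      coe_nem (nemOK hS hd hRp (μHE[4] : Measure M)) ht (S.D0.toAD.i1 p0),
      coe_dFq hS hd ht u (p - p0), rp_cW (D := S.D0) u, rp_sub p p0,
      Lp.coeFn_sub (Fq d R t p l - Fq d R t p0 l) (dFq hS hd ht u (p - p0) l),
      Lp.coeFn_sub (Fq d R t p l) (Fq d R t p0 l)] with z e1 e2 e3 e4 e5 e6 e7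
    rw [e0, e6, Pi.sub_apply, e7, Pi.sub_apply, e3 l]
    have f1 : (Fq d R t p l : M → ℝ) z = Qf S d R t z (fun a => rp p a z) l := e1 l
    have f2 : (Fq d R t p0 l : M → ℝ) z = Qf S d R t z (fun a => u.1 a z) l := by
      have h1 : (Fq d R t p0 l : M → ℝ) z = Qf S d R t z (fun a => rp p0 a z) l := e2 l
      rw [h1]
      have h2 : (fun a => rp p0 a z) = fun a => u.1 a z := funext e4
      rw [h2]
    have f3 : ∀ a, (S.D0.toAD.i1 (p - p0) a : M → ℝ) z = rp p a z - u.1 a z := by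
      intro a
      have h1 : (S.D0.toAD.i1 (p - p0) a : M → ℝ) z = rp p a z - rp p0 a z := e5 a
      rw [h1, e4 a]
    have f4 : ∀ a, rp (p - p0) a z = rp p a z - u.1 a z := f3
    rw [f1, f2]
    simp only [f3]
    refine Fin.cases ?_ (fun k => ?_) l
    · have h1 : linq S d t u.1 (rp (p - p0)) 0 z = 0 := rfl
      rw [Qf_zero, Qf_zero, h1, sub_self, sub_self, abs_zero]
      positivity
    · have h1 : linq S d t u.1 (rp (p - p0)) k.succ z =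
          d.mu t z * ∑ y, ∑ y', S.rho k y y' z * u.1 y z * rp (p - p0) y' z := rfl
      rw [Qf_succ, Qf_succ, h1]
      simp only [f4]
      have h2 := quad_est hCr0 hR0 hR (fun y y' => S.rho k y y' z) (fun y y' => hCr k y y' z)
        (fun y y' => hS.symrho k y y' z) (fun a => u.1 a z) (fun a => rp p a z) (hu z)
      set q1 := ∑ y, ∑ y', S.rho k y y' z * tv R (fun a => rp p a z) y *
        tv R (fun a => rp p a z) y'
      set q2 := ∑ y, ∑ y', S.rho k y y' z * tv R (fun a => u.1 a z) y *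
        tv R (fun a => u.1 a z) y'
      set q3 := ∑ y, ∑ y', S.rho k y y' z * u.1 y z * (rp p y' z - u.1 y' z)
      have e : d.mu t z * (1 / 2 * q1) + d.r * d.wt t k z + d.et t k z -
          (d.mu t z * (1 / 2 * q2) + d.r * d.wt t k z + d.et t k z) - d.mu t z * q3 =
          d.mu t z * (1 / 2 * q1 - 1 / 2 * q2 - q3) := by ring
      rw [e, abs_mul]
      have h3 := hCm t ht z
      calc |d.mu t z| * |1 / 2 * q1 - 1 / 2 * q2 - q3| ≤
          Cm * (Kq * (∑ a, |rp p a z - u.1 a z|) ^ 2) :=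
            mul_le_mul h3 h2 (abs_nonneg _) hCm0
        _ = _ := by ring
  have hK0 : 0 ≤ Cm * Kq := by positivity
  have h5 : ∀ l, ‖g l‖ ≤ (Cm * Kq) * (N ^ 2 * (C * ‖p - p0‖) ^ 2) := fun l =>
    norm_le_quad hC0 hC hK0 (p - p0) (g l) (hpt l)
  refine (norm_HH_le g).trans ((Finset.sum_le_sum fun l _ => h5 l).trans (le_of_eq ?_))
  rw [Finset.sum_const, Finset.card_univ, Fintype.card_fin, nsmul_eq_mul]
  push_cast
  ring

/-- **(1)** -/
theorem hasFDerivAt_Fq {S : SWS M κ0 κ1 κT} {d : SWD M κT} (hS : S.OK) (hd : d.Adm S)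
    (h4 : Emb4 S.D0.toAD.i1) {R R0 : ℝ} (hR0 : 0 ≤ R0) (hR : R0 < R) {t : E3} (ht : t ∈ BB)
    (u : SmS S.D0) (hu : ∀ z, ∑ y, u.1 y z ^ 2 ≤ R0 ^ 2) :
    HasFDerivAt (Fq d R t) (dFq hS hd ht u) (cW S.D0 u) := by
  obtain ⟨K, hK⟩ := fq_quad hS hd h4 hR0 hR ht u hu
  exact hasFDerivAt_of_quad hK

/-! ### the product term -/

/-- **the derivative of the product term**, values in `HH`. -/
def dKH {S : SWS M κ0 κ1 κT} {d : SWD M κT} (hS : S.OK) (hd : d.Adm S) (s0 : Spec S.DL)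
    (h4 : Emb4 S.D0.toAD.i1) (hT4 : Emb4 S.DT.toAD.i1) (R : ℝ) {t : E3} (ht : t ∈ BB)
    (u : SmS S.D0) : S.D0.toAD.WE →L[ℝ] HH (μHE[4] : Measure M) κ1 :=
  (matR (bm_mth hS hd t)).comp S.D0.toAD.i1 +
    (B4 (cc S) (bm_cc hS) hT4 h4 (GG1 S s0 (Fq d R t (cW S.D0 u))) +
      ((B4 (cc S) (bm_cc hS) hT4 h4).flip (cW S.D0 u)).comp
        ((GG1 S s0).comp (dFq hS hd ht u)))

theorem KKt_eq {S : SWS M κ0 κ1 κT} {d : SWD M κT} (hS : S.OK) (hd : d.Adm S) (s0 : Spec S.DL)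
    (h4 : Emb4 S.D0.toAD.i1) (hT4 : Emb4 S.DT.toAD.i1) (R : ℝ) (t : E3) (p : S.D0.toAD.WE) :
    KKt hS hd s0 R t p = (matR (bm_mth hS hd t)).comp S.D0.toAD.i1 p +
      B4 (cc S) (bm_cc hS) hT4 h4 (GG1 S s0 (Fq d R t p)) p := by
  rw [B4_apply]
  rfl

theorem hasFDerivAt_KKt {S : SWS M κ0 κ1 κT} {d : SWD M κT} (hS : S.OK) (hd : d.Adm S)
    (s0 : Spec S.DL) (h4 : Emb4 S.D0.toAD.i1) (hT4 : Emb4 S.DT.toAD.i1) {R R0 : ℝ}
    (hR0 : 0 ≤ R0) (hR : R0 < R) {t : E3} (ht : t ∈ BB)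
    (u : SmS S.D0) (hu : ∀ z, ∑ y, u.1 y z ^ 2 ≤ R0 ^ 2) :
    HasFDerivAt (KKt hS hd s0 R t) (dKH hS hd s0 h4 hT4 R ht u) (cW S.D0 u) := by
  have h1 : HasFDerivAt (fun p => GG1 S s0 (Fq d R t p)) ((GG1 S s0).comp (dFq hS hd ht u))
      (cW S.D0 u) :=
    (GG1 S s0).hasFDerivAt.comp _ (hasFDerivAt_Fq hS hd h4 hR0 hR ht u hu)
  have h2 := ContinuousLinearMap.hasFDerivAt_of_bilinear (B4 (cc S) (bm_cc hS) hT4 h4) h1
    (hasFDerivAt_id (cW S.D0 u))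
  have h3 := ((matR (bm_mth hS hd t)).comp S.D0.toAD.i1).hasFDerivAt (x := cW S.D0 u)
  have h5 := h3.add h2
  refine (h5.congr_fderiv ?_).congr_of_eventuallyEq (Eventually.of_forall fun p => ?_)
  · ext1 v
    rfl
  · exact KKt_eq hS hd s0 h4 hT4 R t p

theorem coe_add3 {κ : Type} [Fintype κ] (A B C : HH (μHE[4] : Measure M) κ) :
    ∀ᵐ z ∂(μHE[4] : Measure M), ∀ x, ((A + (B + C)) x : M → ℝ) z =
      (A x : M → ℝ) z + ((B x : M → ℝ) z + (C x : M → ℝ) z) := by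
  rw [ae_all_iff]
  intro x
  have h : (A + (B + C)) x = A x + (B x + C x) := rfl
  rw [h]
  filter_upwards [Lp.coeFn_add (A x) (B x + C x), Lp.coeFn_add (B x) (C x)] with z f1 f2
  rw [f1, Pi.add_apply, f2, Pi.add_apply]

theorem cm_split (S : SWS M κ0 κ1 κT) (d : SWD M κT) (t : E3) (a a1 : κT → M → ℝ)
    (u v : κ0 → M → ℝ) (x : κ1) (z : M) :
    ∑ y, v y z * mth S d t x y z + (∑ A, ∑ y, a A z * v y z * cc S x A y z +
      ∑ A, ∑ y, a1 A z * u y z * cc S x A y z) = S.cm (a + d.th t) v x z + S.cm a1 u x z := by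
  unfold SWS.cm mth cc
  simp only [Pi.add_apply, add_mul, Finset.sum_add_distrib]
  have g1 : ∑ y, v y z * ∑ A, d.th t A z * S.cl A x y z =
      ∑ A, ∑ y, d.th t A z * v y z * S.cl A x y z := by
    simp only [Finset.mul_sum]
    rw [Finset.sum_comm]
    exact Finset.sum_congr rfl fun A _ => Finset.sum_congr rfl fun y _ => by ring
  rw [g1]
  ring

/-- **the coordinates of the derivative**. -/
theorem coe_dKH {S : SWS M κ0 κ1 κT} {d : SWD M κT} (hS : S.OK) (hd : d.Adm S) (s0 : Spec S.DL)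
    (h4 : Emb4 S.D0.toAD.i1) (hT4 : Emb4 S.DT.toAD.i1) (R : ℝ) {t : E3} (ht : t ∈ BB)
    (u : SmS S.D0) (v : S.D0.toAD.WE) :
    ∀ᵐ z ∂(μHE[4] : Measure M), ∀ x, (dKH hS hd s0 h4 hT4 R ht u v x : M → ℝ) z =
      S.cm (rp (GG1 S s0 (Fq d R t (cW S.D0 u))) + d.th t) (rp v) x z +
        S.cm (rp (GG1 S s0 (dFq hS hd ht u v))) u.1 x z := by
  set a0 := GG1 S s0 (Fq d R t (cW S.D0 u)) with ha0
  set a1 := GG1 S s0 (dFq hS hd ht u v) with ha1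
  have e0 : dKH hS hd s0 h4 hT4 R ht u v = matR (bm_mth hS hd t) (S.D0.toAD.i1 v) +
      (prT (cc S) (bm_cc hS) (S.DT.toAD.i1 a0) (S.D0.toAD.i1 v) +
        prT (cc S) (bm_cc hS) (S.DT.toAD.i1 a1) (S.D0.toAD.i1 (cW S.D0 u))) := by
    rw [← B4_apply (cc S) (bm_cc hS) hT4 h4, ← B4_apply (cc S) (bm_cc hS) hT4 h4]
    rfl
  have e1 := coe_prT (cc S) (bm_cc hS) (S.DT.toAD.i1 a0) (S.D0.toAD.i1 v)
    (fun b => mem4 hT4 a0 b) (fun y => mem4 h4 v y)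
  have e2 := coe_prT (cc S) (bm_cc hS) (S.DT.toAD.i1 a1) (S.D0.toAD.i1 (cW S.D0 u))
    (fun b => mem4 hT4 a1 b) (fun y => mem4 h4 (cW S.D0 u) y)
  have e3 := coe_matR (bm_mth hS hd t) (S.D0.toAD.i1 v)
  rw [e0]
  have e4 := coe_add3 (matR (bm_mth hS hd t) (S.D0.toAD.i1 v))
    (prT (cc S) (bm_cc hS) (S.DT.toAD.i1 a0) (S.D0.toAD.i1 v))
    (prT (cc S) (bm_cc hS) (S.DT.toAD.i1 a1) (S.D0.toAD.i1 (cW S.D0 u)))
  filter_upwards [e1, e2, e3, e4, rp_cW (D := S.D0) u] with z f1 f2 f3 f4 f5 x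
  rw [f4 x, f1 x, f2 x, f3 x]
  have f6 : ∀ y, (S.D0.toAD.i1 (cW S.D0 u) y : M → ℝ) z = u.1 y z := f5
  simp only [f6]
  exact cm_split S d t (rp a0) (rp a1) u.1 (rp v) x z

theorem cm_add_left (S : SWS M κ0 κ1 κT) (a a' : κT → M → ℝ) (u : κ0 → M → ℝ) (x : κ1) (z : M) :
    S.cm (a + a') u x z = S.cm a u x z + S.cm a' u x z := by
  unfold SWS.cm
  simp only [Pi.add_apply, add_mul, Finset.sum_add_distrib]

theorem P_dKH {S : SWS M κ0 κ1 κT} {d : SWD M κT} (hS : S.OK) (hd : d.Adm S) (s0 : Spec S.DL)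
    (h4 : Emb4 S.D0.toAD.i1) (hT4 : Emb4 S.DT.toAD.i1) (R : ℝ) {t : E3} (ht : t ∈ BB)
    (u : SmS S.D0) (v : S.D0.toAD.WE) :
    S.D1.toAD.P (dKH hS hd s0 h4 hT4 R ht u v) = dKH hS hd s0 h4 hT4 R ht u v := by
  ext x
  filter_upwards [S.D1.toAD.coe_P (dKH hS hd s0 h4 hT4 R ht u v),
    coe_dKH hS hd s0 h4 hT4 R ht u v] with z e1 e2
  rw [e1 x, e2 x, ← cm_sec hS (rp (GG1 S s0 (Fq d R t (cW S.D0 u))) + d.th t) (rp v) x z,
    ← cm_sec hS (rp (GG1 S s0 (dFq hS hd ht u v))) u.1 x z, ← Finset.sum_add_distrib]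
  refine Finset.sum_congr rfl fun x' _ => ?_
  have h1 : (S.D1.toAD.p x x' z) = S.D1.p x x' z := rfl
  rw [e2 x', ← mul_add, h1]

/-- **the derivative of the product term**, values in `L²(D1)`. -/
def dKK {S : SWS M κ0 κ1 κT} {d : SWD M κT} (hS : S.OK) (hd : d.Adm S) (s0 : Spec S.DL)
    (h4 : Emb4 S.D0.toAD.i1) (hT4 : Emb4 S.DT.toAD.i1) (R : ℝ) {t : E3} (ht : t ∈ BB)
    (u : SmS S.D0) : S.D0.toAD.WE →L[ℝ] S.D1.toAD.HE :=
  (Swx_333.PL S.D1).comp (dKH hS hd s0 h4 hT4 R ht u)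

/-- **(2)** -/
theorem hasFDerivAt_KK {S : SWS M κ0 κ1 κT} {d : SWD M κT} (hS : S.OK) (hd : d.Adm S)
    (s0 : Spec S.DL) (h4 : Emb4 S.D0.toAD.i1) (hT4 : Emb4 S.DT.toAD.i1) {R R0 : ℝ}
    (hR0 : 0 ≤ R0) (hR : R0 < R) {t : E3} (ht : t ∈ BB)
    (u : SmS S.D0) (hu : ∀ z, ∑ y, u.1 y z ^ 2 ≤ R0 ^ 2) :
    HasFDerivAt (fun p => Swx_333.PL S.D1 (KKt hS hd s0 R t p)) (dKK hS hd s0 h4 hT4 R ht u)
      (cW S.D0 u) :=
  (Swx_333.PL S.D1).hasFDerivAt.comp _ (hasFDerivAt_KKt hS hd s0 h4 hT4 hR0 hR ht u hu)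

theorem coe_dKK' {S : SWS M κ0 κ1 κT} {d : SWD M κT} (hS : S.OK) (hd : d.Adm S) (s0 : Spec S.DL)
    (h4 : Emb4 S.D0.toAD.i1) (hT4 : Emb4 S.DT.toAD.i1) (R : ℝ) {t : E3} (ht : t ∈ BB)
    (u : SmS S.D0) (v : S.D0.toAD.WE) :
    ((dKK hS hd s0 h4 hT4 R ht u v : S.D1.toAD.HE) : HH (μHE[4] : Measure M) κ1) =
      dKH hS hd s0 h4 hT4 R ht u v := P_dKH hS hd s0 h4 hT4 R ht u v

/-- **the coordinates of the derivative**. -/
theorem coe_dKK {S : SWS M κ0 κ1 κT} {d : SWD M κT} (hS : S.OK) (hd : d.Adm S) (s0 : Spec S.DL)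
    (h4 : Emb4 S.D0.toAD.i1) (hT4 : Emb4 S.DT.toAD.i1) (R : ℝ) {t : E3} (ht : t ∈ BB)
    (u : SmS S.D0) (v : S.D0.toAD.WE) :
    ∀ᵐ z ∂(μHE[4] : Measure M), ∀ x,
      (((dKK hS hd s0 h4 hT4 R ht u v : S.D1.toAD.HE) : HH (μHE[4] : Measure M) κ1) x :
        M → ℝ) z = S.cm (rp (GG1 S s0 (Fq d R t (cW S.D0 u))) + d.th t) (rp v) x z +
        S.cm (rp (GG1 S s0 (dFq hS hd ht u v))) u.1 x z := by
  rw [coe_dKK']
  exact coe_dKH hS hd s0 h4 hT4 R ht u v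

/-! ### compactness -/

theorem compact_dFq {S : SWS M κ0 κ1 κT} {d : SWD M κT} (hS : S.OK) (hd : d.Adm S)
    {t : E3} (ht : t ∈ BB) (u : SmS S.D0) : IsCompactOperator (dFq hS hd ht u) := by
  have h := (S.D0.toAD.compact_i1 fried4).clm_comp
    (matR fun l y => bm_cont (mq_cont hS hd ht u.2.1 l y) :
      HH (μHE[4] : Measure M) κ0 →L[ℝ] HH (μHE[4] : Measure M) (Fin 4))
  exact h

theorem compact_dKK {S : SWS M κ0 κ1 κT} {d : SWD M κT} (hS : S.OK) (hd : d.Adm S)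
    (s0 : Spec S.DL) (h4 : Emb4 S.D0.toAD.i1) (hT4 : Emb4 S.DT.toAD.i1) {R R0 : ℝ}
    (hR0 : 0 ≤ R0) (hR : R0 < R) {t : E3} (ht : t ∈ BB)
    (u : SmS S.D0) (hu : ∀ z, ∑ y, u.1 y z ^ 2 ≤ R0 ^ 2) :
    IsCompactOperator (dKK hS hd s0 h4 hT4 R ht u) := by
  have hfin := finM (M := M)
  have hRp : 0 < R := lt_of_le_of_lt hR0 hR
  refine compact_fderiv (hasFDerivAt_KK hS hd s0 h4 hT4 hR0 hR ht u hu) fun ρ => ?_
  have hL : ContinuousOn (fun t => (matR (bm_mth hS hd t) :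
      HH (μHE[4] : Measure M) κ0 →L[ℝ] HH (μHE[4] : Measure M) κ1)) BB :=
    matR_family (bm_mth hS hd) fun t0 ht0 ε hε => mth_unif hS hd ht0 hε
  obtain ⟨C, hC, h1⟩ := KK_compact h4 (S.D0.toAD.compact_i1 fried4) hT4
    (nemOK hS hd hRp (μHE[4] : Measure M)) (GG1 S s0) (cc S) (bm_cc hS) hL isCompact_BB ρ
  exact ⟨Swx_333.PL S.D1 '' C, hC.image (Swx_333.PL S.D1).continuous, fun p hp => ⟨_, h1 t p ht hp, rfl⟩⟩

end main

end Crest.Agent.R235.SWFre_952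

end
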