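import Crest.Agent.R235.SWFreB_952
import Crest.Agent.R235.SWJDefs_53

/-!
Row 235 (S0364), PACKAGE SW, leaf SW-FRE (helper952), part C: **the kernel of the linearised equations
at a flat Taubes solution**, from `ND` of `SWJDefs_53`.

* `fq_zero_of_sol` : if `(0, u)` is a solution then `Fq d R t (cW u) = 0`;
* `ker_of_nd` : the kernel, for a harmonic form `η`;
* `fm_sum`, `fm_zero` : the forms `2π ∑ κ_i al_i`;
* `ker_jd` : the kernel in the format of `JData.ker` (`SwjDef_844`).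
-/

set_option autoImplicit false
set_option maxSynthPendingDepth 3
set_option linter.unusedSectionVars false

open scoped ContDiff ENNReal NNReal Topology Manifold Bundle RealInnerProductSpace
open MeasureTheory Set Filter Metric Bundle

universe v

noncomputable section

namespace Crest.Agent.R235.SWFre_952

open Crest.Agent.R249.Tv57 Crest.Agent.R247.Ms322 Crest.Agent.R247.Dir593
open Crest.Agent.R235.SWDefs_53 Crest.Agent.R235.CptB_755 Crest.Agent.R235.Fs4_546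
open Crest.Agent.R235.CptC_755 Crest.Agent.R235.Cpt_755 Crest.Agent.R235.Fred_649
open Crest.Agent.R235.Swx_333 Crest.Agent.R235.L4_433 Crest.Agent.R235.SWSym_451

local notation "ipp" => Crest.Agent.R249.Tv57.ip 4

section main

variable {M : Type v} [MetricSpace M] [CompactSpace M] [ConnectedSpace M]
  [ChartedSpace (EuclideanSpace ℝ (Fin 4)) M] [IsManifold (𝓡 4) ∞ M]
  [RiemannianBundle (fun p : M => TangentSpace (𝓡 4) p)]
  [IsContMDiffRiemannianBundle (𝓡 4) ∞ (EuclideanSpace ℝ (Fin 4))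
    (fun p : M => TangentSpace (𝓡 4) p)]
  [IsRiemannianManifold (𝓡 4) M] [MeasurableSpace M] [BorelSpace M]
  [SecondCountableTopology M] [Nonempty M] [IsFiniteMeasureOnCompacts (μHE[4] : Measure M)]
  {κ0 κ1 κT : Type} [Fintype κ0] [Fintype κ1] [Fintype κT]

theorem eq_of_rp {κ : Type} [Fintype κ] {D : Dat 4 M κ} {u v : D.toAD.WE}
    (h : ∀ᵐ z ∂(μHE[4] : Measure M), ∀ a, rp u a z = rp v a z) : u = v := by
  refine Green_649.i1_injective D ?_
  ext a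
  filter_upwards [h] with z hz
  exact hz a

theorem rp_zero {κ : Type} [Fintype κ] {D : Dat 4 M κ} :
    ∀ᵐ z ∂(μHE[4] : Measure M), ∀ a, rp (0 : D.toAD.WE) a z = 0 := by
  rw [ae_all_iff]
  intro a
  have : D.toAD.i1 0 = 0 := map_zero _
  unfold rp
  rw [this]
  exact Lp.coeFn_zero ℝ 2 (μHE[4] : Measure M)

theorem rp_smul {κ : Type} [Fintype κ] {D : Dat 4 M κ} (c : ℝ) (u : D.toAD.WE) :
    ∀ᵐ z ∂(μHE[4] : Measure M), ∀ a, rp (c • u) a z = c * rp u a z := by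
  rw [ae_all_iff]
  intro a
  have h : D.toAD.i1 (c • u) a = c • D.toAD.i1 u a := by
    rw [map_smul]; rfl
  unfold rp
  rw [h]
  exact Lp.coeFn_smul c (D.toAD.i1 u a)

/-- **if `(0, u)` is a solution, the curvature term vanishes at `u`**. -/
theorem fq_zero_of_sol {S : SWS M κ0 κ1 κT} {d : SWD M κT} (hS : S.OK) (hd : d.Adm S) {R : ℝ}
    (hR : 0 < R) {t : E3} (ht : t ∈ BB) {a : κT → M → ℝ} {u : κ0 → M → ℝ} (p : S.D0.toAD.WE)
    (hp : ∀ᵐ z ∂(μHE[4] : Measure M), ∀ y, rp p y z = u y z)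
    (hu : ∀ᵐ z ∂(μHE[4] : Measure M), ∑ y, u y z ^ 2 ≤ R ^ 2) (hsol : Sol S d t a u)
    (ha : ∀ᵐ z ∂(μHE[4] : Measure M), ∀ A, a A z = 0) : Fq d R t p = 0 := by
  have h0 : ∀ b, rp (0 : S.DT.toAD.WE) b =ᵐ[(μHE[4] : Measure M)] a b := by
    intro b
    filter_upwards [rp_zero (D := S.DT), ha] with z e1 e2
    rw [e1, e2]
  have hF : ∀ b, (((⟨Fq d R t p, dl_P hS _⟩ : S.DL.toAD.HE) : HH (μHE[4] : Measure M) (Fin 4)) b :
      M → ℝ) =ᵐ[(μHE[4] : Measure M)] rhs S d t u b := by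
    intro b
    filter_upwards [coe_Fq hS hd hR ht p, hp, hu] with z e1 e2 e3
    have e4 : (Fq d R t p b : M → ℝ) z = rhs S d t (trc R (rp p)) b z := e1 b
    have e5 : ∀ y, trc R (rp p) y z = u y z := by
      intro y
      have h1 : trc R (rp p) y z = tv R (fun y => rp p y z) y := rfl
      have h2 : (fun y => rp p y z) = fun y => u y z := funext e2
      rw [h1, h2]
      exact congrFun (tv_eq hR (fun y => u y z) e3) y
    show (Fq d R t p b : M → ℝ) z = rhs S d t u b z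
    rw [e4]
    refine Fin.cases ?_ (fun k => ?_) b
    · rfl
    · show d.mu t z * ((1 / 2) * S.rq k (trc R (rp p)) z) + d.r * d.wt t k z + d.et t k z =
        d.mu t z * ((1 / 2) * S.rq k u z) + d.r * d.wt t k z + d.et t k z
      have h3 : S.rq k (trc R (rp p)) z = S.rq k u z := by
        unfold SWS.rq
        simp only [e5]
      rw [h3]
  have h1 := (wkA_iff_eq (P := S.H.swap) h0 hF).1 hsol.cur
  rw [map_zero] at h1
  exact (congrArg Subtype.val h1).symm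

set_option maxHeartbeats 1600000 in
/-- **(3)** the kernel of the linearised equations, from `ND`. -/
theorem ker_of_nd (hND : ND.{v}) {S : SWS M κ0 κ1 κT}
    {ec : κ1 → κ0 → M → EuclideanSpace ℝ (Fin 4)} {d : SWD M κT} {τ : TD M κT} {C : ℝ} {t : E3}
    {s : κ0 → M → ℝ} (hS : S.OK) (hsym : Sym S ec) (hg : GrdH S) (hτ : τ.OK S C)
    (hfit : τ.Fit S d t) (hr : 0 < d.r) (hbig : ∀ z, C ^ 2 ≤ d.r * τ.rr z ^ 3)
    (hflat : τ.Flat S (d.th t)) (hps : τ.PSec S (d.th t) d.r s) (hd : d.Adm S) (ht : t ∈ BB)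
    (s0 : Spec S.DL) (sT : Spec S.DT) (h4 : Emb4 S.D0.toAD.i1) (hT4 : Emb4 S.DT.toAD.i1) (R : ℝ)
    (u : SmS S.D0) (hu : u.1 = τ.sc (3 / 4) s) (ha0 : GG1 S s0 (Fq d R t (cW S.D0 u)) = 0)
    (η : SmS S.DT) (hη : ∀ k z, S.H.B η.1 k z = 0) (v : S.D0.toAD.WE)
    (h1 : ∀ l ∈ s0.ker, (⟪dFq hS hd ht u v,
      ((cH S.DL (ph s0 l) : S.DL.toAD.HE) : HH (μHE[4] : Measure M) (Fin 4))⟫ : ℝ) = 0)
    (h2 : ∀ᵐ z ∂(μHE[4] : Measure M), ∀ x,
      (((Ah S.P v + dKK hS hd s0 h4 hT4 R ht u v : S.D1.toAD.HE) :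
        HH (μHE[4] : Measure M) κ1) x : M → ℝ) z + S.cm η.1 u.1 x z = 0) :
    GG1 S s0 (dFq hS hd ht u v) = 0 ∧ η.1 = 0 ∧
      ∃ c : ℝ, ∀ᵐ z ∂(μHE[4] : Measure M), ∀ y, rp v y z = c * S.iu u.1 y z := by
  set A1 : S.DT.toAD.WE := GG1 S s0 (dFq hS hd ht u v) with hA1
  -- the curvature equation
  have hcur := (cur_iff S s0 sT (a := rp A1) (A := A1) (fun _ => EventuallyEq.rfl)
    (f := linq S d t u.1 (rp v)) (F := (⟨dFq hS hd ht u v, dl_P hS _⟩ : S.DL.toAD.HE))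
    (fun b => by
      filter_upwards [coe_dFq hS hd ht u v] with z e
      exact e b)).2 ⟨rfl, fun l hl => h1 l hl⟩
  have hlin : linq S d t u.1 (rp v) = Fin.cons (fun _ => 0) fun k z =>
      d.mu t z * ∑ y, ∑ y', S.rho k y y' z * τ.sc (3 / 4) s y z * rp v y' z := by
    rw [← hu]
    rfl
  rw [hlin] at hcur
  -- the Dirac equation
  have hdir : WkA S.P (rp v) (fun x z => - S.cm (d.th t) (rp v) x z -
      S.cm (rp A1 + η.1) (τ.sc (3 / 4) s) x z) := by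
    refine (wkA_iff (P := S.P) (u := rp v) (U := v) (fun _ => EventuallyEq.rfl)).2 fun b => ?_
    have e0 : ((Ah S.P v + dKK hS hd s0 h4 hT4 R ht u v : S.D1.toAD.HE) :
        HH (μHE[4] : Measure M) κ1) b =
        ((Ah S.P v : S.D1.toAD.HE) : HH (μHE[4] : Measure M) κ1) b +
        ((dKK hS hd s0 h4 hT4 R ht u v : S.D1.toAD.HE) : HH (μHE[4] : Measure M) κ1) b := rfl
    filter_upwards [h2, coe_dKK hS hd s0 h4 hT4 R ht u v, rp_zero (D := S.DT),
      Lp.coeFn_add (((Ah S.P v : S.D1.toAD.HE) : HH (μHE[4] : Measure M) κ1) b)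
        (((dKK hS hd s0 h4 hT4 R ht u v : S.D1.toAD.HE) : HH (μHE[4] : Measure M) κ1) b)]
      with z e1 e2 e3 e4
    have e5 := e1 b
    rw [e0, e4, Pi.add_apply, e2 b, ha0] at e5
    have e6 : S.cm (rp (0 : S.DT.toAD.WE) + d.th t) (rp v) b z = S.cm (d.th t) (rp v) b z := by
      unfold SWS.cm
      simp only [Pi.add_apply, e3, zero_add]
    rw [e6, ← hA1] at e5
    rw [← hu, cm_add_left]
    linarith
  obtain ⟨k1, k2, c, k3⟩ := hND M κ0 κ1 κT S ec d τ C t s hS hsym hg hτ hfit hr hbig hflat hps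
    (rp A1) η.1 (rp v) (inW_rp A1) hcur.2 η.2.1 η.2.2 hη (inW_rp v) hcur.1 hdir
  refine ⟨?_, k2, c, ?_⟩
  · refine eq_of_rp ?_
    filter_upwards [k1, rp_zero (D := S.DT)] with z e1 e2 A
    rw [e1, e2]
  · rw [hu]
    exact k3

/-! ### the harmonic forms -/

/-- `al_i` as a section. -/
def alS {S : SWS M κ0 κ1 κT} {b : ℕ} {j : JD M κT b} (hj : j.OK S) (i : Fin b) : SmS S.DT :=
  ⟨j.al i, hj.sm i, hj.sec i⟩

/-- `2π ∑ κ_i al_i` as a section. -/
def fmS {S : SWS M κ0 κ1 κT} {b : ℕ} {j : JD M κT b} (hj : j.OK S) (h : Fin b → ℝ) : SmS S.DT :=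
  ∑ i, (2 * Real.pi * h i) • alS hj i

theorem fmS_coe {S : SWS M κ0 κ1 κT} {b : ℕ} {j : JD M κT b} (hj : j.OK S) (h : Fin b → ℝ) :
    (fmS hj h).1 = j.fm h := by
  unfold fmS JD.fm
  rw [Submodule.coe_sum]
  funext A z
  simp only [Submodule.coe_smul, Finset.sum_apply, Pi.smul_apply, smul_eq_mul, Finset.mul_sum]
  exact Finset.sum_congr rfl fun i _ => by
    show 2 * Real.pi * h i * j.al i A z = _
    ring

theorem fmS_harm {S : SWS M κ0 κ1 κT} {b : ℕ} {j : JD M κT b} (hj : j.OK S) (h : Fin b → ℝ)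
    (k : Fin 4) (z : M) : S.H.B (fmS hj h).1 k z = 0 := by
  have h1 : lA S.H.swap (fmS hj h) = 0 := by
    unfold fmS
    rw [map_sum]
    refine Finset.sum_eq_zero fun i _ => ?_
    rw [map_smul]
    have h2 : lA S.H.swap (alS hj i) = 0 := by
      apply Subtype.ext
      funext k z
      exact hj.harm i k z
    rw [h2, smul_zero]
  have h3 := congrArg (fun w : SmS S.DL => w.1 k z) h1
  exact h3

theorem fm_zero {S : SWS M κ0 κ1 κT} {b : ℕ} {j : JD M κT b} (hj : j.OK S) {h : Fin b → ℝ}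
    (h0 : j.fm h = 0) : h = 0 := by
  have h1 : ∑ i, h i • j.al i = 0 := by
    funext A z
    have h2 := congrFun (congrFun h0 A) z
    unfold JD.fm at h2
    have h3 : ∑ i, h i * j.al i A z = 0 := by
      rcases mul_eq_zero.1 h2 with h4 | h4
      · exact absurd h4 (by positivity)
      · exact h4
    simpa only [Finset.sum_apply, Pi.smul_apply, smul_eq_mul, Pi.zero_apply] using h3
  have h5 := Fintype.linearIndependent_iff.1 hj.li h h1
  exact funext h5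

/-- `cm` is additive in the form. -/
theorem cm_fm {S : SWS M κ0 κ1 κT} {b : ℕ} (j : JD M κT b) (h : Fin b → ℝ) (u : κ0 → M → ℝ)
    (x : κ1) (z : M) : S.cm (j.fm h) u x z =
      ∑ i, h i * S.cm (fun A z => 2 * Real.pi * j.al i A z) u x z := by
  unfold SWS.cm JD.fm
  simp only [Finset.mul_sum, Finset.sum_mul]
  rw [Finset.sum_comm' (s := (Finset.univ : Finset (Fin b))) (t := fun _ => Finset.univ)
    (t' := Finset.univ) (s' := fun _ => Finset.univ) (fun _ _ => by simp)]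
  refine Finset.sum_congr rfl fun A _ => ?_
  rw [Finset.sum_comm' (s := (Finset.univ : Finset (Fin b))) (t := fun _ => Finset.univ)
    (t' := Finset.univ) (s' := fun _ => Finset.univ) (fun _ _ => by simp)]
  refine Finset.sum_congr rfl fun y _ => Finset.sum_congr rfl fun i _ => by ring

/-- **(3)** in the format of `JData.ker`. -/
theorem ker_jd (hND : ND.{v}) {S : SWS M κ0 κ1 κT}
    {ec : κ1 → κ0 → M → EuclideanSpace ℝ (Fin 4)} {d : SWD M κT} {τ : TD M κT} {C : ℝ} {t : E3}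
    {s : κ0 → M → ℝ} (hS : S.OK) (hsym : Sym S ec) (hg : GrdH S) (hτ : τ.OK S C)
    (hfit : τ.Fit S d t) (hr : 0 < d.r) (hbig : ∀ z, C ^ 2 ≤ d.r * τ.rr z ^ 3)
    (hflat : τ.Flat S (d.th t)) (hps : τ.PSec S (d.th t) d.r s) (hd : d.Adm S) (ht : t ∈ BB)
    (s0 : Spec S.DL) (sT : Spec S.DT) (h4 : Emb4 S.D0.toAD.i1) (hT4 : Emb4 S.DT.toAD.i1) (R : ℝ)
    (u : SmS S.D0) (hu : u.1 = τ.sc (3 / 4) s) (ha0 : GG1 S s0 (Fq d R t (cW S.D0 u)) = 0)
    {b : ℕ} {j : JD M κT b} (hj : j.OK S)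
    (Mi : Fin b → S.D0.toAD.WE →L[ℝ] S.D1.toAD.HE)
    (hM : ∀ i x, ∀ᵐ z ∂(μHE[4] : Measure M), ∀ l,
      (((Mi i x : S.D1.toAD.HE) : HH (μHE[4] : Measure M) κ1) l : M → ℝ) z =
        S.cm (fun A z => 2 * Real.pi * j.al i A z) (rp x) l z)
    (I : S.D0.toAD.WE →L[ℝ] S.D0.toAD.WE)
    (hI : ∀ x, ∀ᵐ z ∂(μHE[4] : Measure M), ∀ y, rp (I x) y z = S.iu (rp x) y z)
    (h : Fin b → ℝ) (v : S.D0.toAD.WE)
    (h1 : ∀ l ∈ s0.ker, (⟪dFq hS hd ht u v,
      ((cH S.DL (ph s0 l) : S.DL.toAD.HE) : HH (μHE[4] : Measure M) (Fin 4))⟫ : ℝ) = 0)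
    (h2 : Ah S.P v + ∑ i, h i • Mi i (cW S.D0 u) + dKK hS hd s0 h4 hT4 R ht u v = 0) :
    h = 0 ∧ ∃ c : ℝ, v = c • I (cW S.D0 u) := by
  have hcm : ∀ᵐ z ∂(μHE[4] : Measure M), ∀ x,
      (((∑ i, h i • Mi i (cW S.D0 u) : S.D1.toAD.HE) : HH (μHE[4] : Measure M) κ1) x :
        M → ℝ) z = S.cm (fmS hj h).1 u.1 x z := by
    have e0 : ∀ᵐ z ∂(μHE[4] : Measure M), ∀ i, ∀ l,
        (((Mi i (cW S.D0 u) : S.D1.toAD.HE) : HH (μHE[4] : Measure M) κ1) l : M → ℝ) z =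
        S.cm (fun A z => 2 * Real.pi * j.al i A z) (rp (cW S.D0 u)) l z := by
      rw [ae_all_iff]
      exact fun i => hM i (cW S.D0 u)
    have e1 : ∀ᵐ z ∂(μHE[4] : Measure M), ∀ l i,
        ((h i • (((Mi i (cW S.D0 u) : S.D1.toAD.HE) : HH (μHE[4] : Measure M) κ1) l) :
          Lp ℝ 2 (μHE[4] : Measure M)) : M → ℝ) z =
        h i * (((Mi i (cW S.D0 u) : S.D1.toAD.HE) : HH (μHE[4] : Measure M) κ1) l : M → ℝ) z := by
      rw [ae_all_iff]
      intro l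
      rw [ae_all_iff]
      intro i
      exact Lp.coeFn_smul (h i)
        (((Mi i (cW S.D0 u) : S.D1.toAD.HE) : HH (μHE[4] : Measure M) κ1) l)
    have e2 : ∀ᵐ z ∂(μHE[4] : Measure M), ∀ l,
        ((∑ i, h i • (((Mi i (cW S.D0 u) : S.D1.toAD.HE) : HH (μHE[4] : Measure M) κ1) l) :
          Lp ℝ 2 (μHE[4] : Measure M)) : M → ℝ) z =
        ∑ i, ((h i • (((Mi i (cW S.D0 u) : S.D1.toAD.HE) : HH (μHE[4] : Measure M) κ1) l) :
          Lp ℝ 2 (μHE[4] : Measure M)) : M → ℝ) z := by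
      rw [ae_all_iff]
      intro l
      exact Lp.coeFn_fun_finsetSum Finset.univ _
    filter_upwards [e0, e1, e2, rp_cW (D := S.D0) u] with z f0 f1 f2 f3 x
    have g0 : ((∑ i, h i • Mi i (cW S.D0 u) : S.D1.toAD.HE) : HH (μHE[4] : Measure M) κ1) x =
        ∑ i, h i • (((Mi i (cW S.D0 u) : S.D1.toAD.HE) : HH (μHE[4] : Measure M) κ1) x) := by
      rw [Submodule.coe_sum, WithLp.ofLp_sum, Finset.sum_apply]
      rfl
    rw [g0, f2 x, fmS_coe, cm_fm]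
    refine Finset.sum_congr rfl fun i _ => ?_
    rw [f1 x i, f0 i x]
    congr 1
    unfold SWS.cm
    simp only [f3]
  have hdirac : ∀ᵐ z ∂(μHE[4] : Measure M), ∀ x,
      (((Ah S.P v + dKK hS hd s0 h4 hT4 R ht u v : S.D1.toAD.HE) :
        HH (μHE[4] : Measure M) κ1) x : M → ℝ) z + S.cm (fmS hj h).1 u.1 x z = 0 := by
    have e0 : Ah S.P v + dKK hS hd s0 h4 hT4 R ht u v = -∑ i, h i • Mi i (cW S.D0 u) := by
      rw [← sub_eq_zero, sub_neg_eq_add, ← h2]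
      abel
    rw [e0]
    have e1 : ∀ x, ((-∑ i, h i • Mi i (cW S.D0 u) : S.D1.toAD.HE) :
        HH (μHE[4] : Measure M) κ1) x =
        -(((∑ i, h i • Mi i (cW S.D0 u) : S.D1.toAD.HE) : HH (μHE[4] : Measure M) κ1) x) :=
      fun x => rfl
    have e2 : ∀ᵐ z ∂(μHE[4] : Measure M), ∀ x,
        ((-(((∑ i, h i • Mi i (cW S.D0 u) : S.D1.toAD.HE) : HH (μHE[4] : Measure M) κ1) x) :
          Lp ℝ 2 (μHE[4] : Measure M)) : M → ℝ) z =
        -(((∑ i, h i • Mi i (cW S.D0 u) : S.D1.toAD.HE) : HH (μHE[4] : Measure M) κ1) x :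
          M → ℝ) z := by
      rw [ae_all_iff]
      exact fun x => Lp.coeFn_neg _
    filter_upwards [hcm, e2] with z f1 f2 x
    rw [e1, f2 x, f1 x]
    ring
  obtain ⟨-, k2, c, k3⟩ := ker_of_nd hND hS hsym hg hτ hfit hr hbig hflat hps hd ht s0 sT h4 hT4
    R u hu ha0 (fmS hj h) (fmS_harm hj h) v h1 hdirac
  rw [fmS_coe] at k2
  refine ⟨fm_zero hj k2, c, eq_of_rp ?_⟩
  filter_upwards [k3, rp_smul c (I (cW S.D0 u)), hI (cW S.D0 u), rp_cW (D := S.D0) u]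
    with z f1 f2 f3 f4 y
  rw [f1 y, f2 y, f3 y]
  unfold SWS.iu
  simp only [f4]

end main

end Crest.Agent.R235.SWFre_952

end
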