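import Mathlib
import Crest.Agent.R235.FDADef_365

/-!
Row 235 (S0364), node SWJA (owner helper365): the Hilbert space data of the Seiberg-Witten family over
the Jacobian torus with the `S³` of solutions over `|t| = 1` (`SWH`), consumed by `SWHF_365`
(`SWH → False`, through `FDHILB`, with the frozen parameter and the evaluation functional of #2472).
Only REAL Hilbert spaces; differentiability only in `(h, x)`, at ONE point, at fixed `t`.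
-/

set_option autoImplicit false

open Topology Set

namespace Crest.Agent.R235.SWH_365

open FDADef_365

/-- `ℝ³` -/
abbrev E3 : Type := EuclideanSpace ℝ (Fin 3)

/-- `ℂ²` -/
abbrev C2 : Type := EuclideanSpace ℂ (Fin 2)

/-- the base point of `S³` -/
noncomputable def e1 : C2 := EuclideanSpace.single 0 1

/-- the Hilbert space data; `P = W^{1,2}(W⁺)`, `Y = L²(W⁻)`. -/
structure SWH (b bp : ℕ) (P Y : Type) [NormedAddCommGroup P] [NormedSpace ℝ P] [CompleteSpace P]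
    [NormedAddCommGroup Y] [InnerProductSpace ℝ Y] [CompleteSpace Y] where
  L : P →L[ℝ] Y
  /-- harmonic part of the curvature equation -/
  Ka : E3 → P → EuclideanSpace ℝ (Fin bp)
  /-- compact part of the Dirac equation, `h`-dependence included -/
  Kp : (Fin b → ℝ) → E3 → P → Y
  U : (Fin b → ℤ) → P ≃L[ℝ] P
  V : (Fin b → ℤ) → Y ≃L[ℝ] Y
  /-- complex structure of `P` -/
  I : P →L[ℝ] P
  /-- `L²` product on `P` -/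
  B : P →L[ℝ] P →L[ℝ] ℝ
  pi : C2 → E3
  /-- the solutions over `|t| = 1`, `h = 0` -/
  W : C2 → P
  D : ((Fin b → ℝ) × P) →L[ℝ] EuclideanSpace ℝ (Fin bp) × Y
  fred : Fred L
  index : ind L + b = 1 + bp
  contA : ContinuousOn (fun q : E3 × P => Ka q.1 q.2) {q | ‖q.1‖ ≤ 1}
  contP : ContinuousOn (fun q : (Fin b → ℝ) × E3 × P => Kp q.1 q.2.1 q.2.2) {q | ‖q.2.1‖ ≤ 1}
  cptA : ∀ R : ℝ, ∃ C, IsCompact C ∧ ∀ t x, ‖t‖ ≤ 1 → ‖x‖ ≤ R → Ka t x ∈ C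
  cptP : ∀ R : ℝ, ∃ C, IsCompact C ∧ ∀ h t x, ‖h‖ ≤ R → ‖t‖ ≤ 1 → ‖x‖ ≤ R → Kp h t x ∈ C
  evenA : ∀ t x, ‖t‖ ≤ 1 → Ka t (-x) = Ka t x
  oddP : ∀ h t x, ‖t‖ ≤ 1 → Kp h t (-x) = - Kp h t x
  U_add : ∀ m n x, U (m + n) x = U m (U n x)
  V_add : ∀ m n y, V (m + n) y = V m (V n y)
  latA : ∀ m t x, ‖t‖ ≤ 1 → Ka t (U m x) = Ka t x
  latP : ∀ m h t x, ‖t‖ ≤ 1 → L (U m x) + Kp (h + lat m) t (U m x) = V m (L x + Kp h t x)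
  bdd : ∃ R : ℝ, ∀ h t x, (∀ i, h i ∈ Icc (0 : ℝ) 1) → ‖t‖ ≤ 1 → Ka t x = 0 →
    L x + Kp h t x = 0 → ‖x‖ ≤ R
  irred : ∀ t, ‖t‖ ≤ 1 → Ka t 0 ≠ 0
  cpi : Continuous pi
  npi : ∀ s, ‖s‖ = 1 → ‖pi s‖ = 1
  fpi : ∀ s s', ‖s‖ = 1 → ‖s'‖ = 1 → (pi s = pi s' ↔ ∃ z : ℂ, ‖z‖ = 1 ∧ s' = z • s)
  II : ∀ x, I (I x) = -x
  BI : ∀ x y, B (I x) (I y) = B x y
  Bs : ∀ x y, B x y = B y x
  W_smul : ∀ s (z : ℂ), ‖s‖ = 1 → ‖z‖ = 1 → W (z • s) = z.re • W s + z.im • I (W s)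
  Bpos : ∀ s, ‖s‖ = 1 → 0 < B (W s) (W s)
  contB : ContinuousOn (fun s => B (W s)) {s | ‖s‖ = 1}
  zeroA : ∀ s, ‖s‖ = 1 → Ka (pi s) (W s) = 0
  zeroP : ∀ s, ‖s‖ = 1 → L (W s) + Kp 0 (pi s) (W s) = 0
  uniq : ∀ h t x, ‖t‖ = 1 → Ka t x = 0 → L x + Kp h t x = 0 →
    ∃ k s, ‖s‖ = 1 ∧ pi s = t ∧ h = lat k ∧ x = U k (W s)
  deriv : HasFDerivAt (fun q : (Fin b → ℝ) × P => (Ka (pi e1) q.2, L q.2 + Kp q.1 (pi e1) q.2)) D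
    (0, W e1)
  inj : ∀ κ ξ, D (κ, ξ) = 0 → κ = 0 ∧ ∃ c : ℝ, ξ = c • I (W e1)

end Crest.Agent.R235.SWH_365
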