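import Crest.Agent.R235.SWTn_451
import Crest.Agent.R235.TauE_483
import Crest.Agent.R235.TauJ_129
import Crest.Agent.R235.QSTri_451

/-!
Row 235 (S0364), PACKAGE SW, MODEL-4 (helper451): joint smoothness in `(t, z)`, `t ≠ 0`, of
`ρ_t`, `n_t`, the projections `Π`, the zeroth order terms `Z_t`, the shift `sh_t`, the connection form
`β_t` of the eigenline.
-/

set_option autoImplicit false
set_option maxSynthPendingDepth 3
set_option linter.unusedSectionVars false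

open scoped ContDiff ENNReal NNReal Topology Manifold Bundle RealInnerProductSpace
open MeasureTheory Set Filter Metric Bundle

universe v

namespace Crest.Agent.R235.SWJF_451

open Crest.Agent.R240 Crest.Agent.R240.Ch Crest.Agent.R235 Crest.Agent.R235.SWDefs_53
open Crest.Agent.R235.IndTri_451 Crest.Agent.R235.SWTn_451 Crest.Agent.R235.TauJ
open Crest.Agent.R235.SWTf_451 Crest.Agent.R235.SWTe_451 Crest.Agent.R235.SWTd_451
open Crest.Agent.R235.Tau483 (TG bF bV0 P0f P0f_apply fld Jm)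
open Crest.Agent.R249.Tv57 (Dat OpPair SmF)
open Crest.Agent.R249.Tz805 (ToF)
open Crest.Agent.R249.Vf281 (VSm)
open Crest.Agent.R247.Ms322 (Gr)

noncomputable section

section scal

variable {M : Type v} [TopologicalSpace M] [ChartedSpace (EuclideanSpace ℝ (Fin 4)) M]
  [IsManifold (𝓡 4) ∞ M] {ww : Fin 3 → Fin 3 → M → ℝ}

theorem jf_of {f : M → ℝ} (hf : ContMDiff (𝓡 4) 𝓘(ℝ, ℝ) ∞ f) : JF fun _ => f :=
  JF.of ((Crest.Agent.R240.Ch.smoothF_iff _).1 hf)

theorem jf_wtk (hs : ∀ i k, ContMDiff (𝓡 4) 𝓘(ℝ, ℝ) ∞ (ww i k)) (k : Fin 3) :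
    JF fun t => wtk ww t k := JF.sum' fun i => (JF.coord i).mul (jf_of (hs i k))

theorem jf_rrt (h : LT ww) (hs : ∀ i k, ContMDiff (𝓡 4) 𝓘(ℝ, ℝ) ∞ (ww i k)) : JF (rrt ww) := by
  refine JF.sqrt (JF.sum' fun k => (jf_wtk hs k).pow 2) fun t ht x h0 => ?_
  have := h.pos ht x
  unfold rrt at this
  rw [h0, Real.sqrt_zero] at this
  exact lt_irrefl _ this

theorem jf_rrt_inv (h : LT ww) (hs : ∀ i k, ContMDiff (𝓡 4) 𝓘(ℝ, ℝ) ∞ (ww i k)) :
    JF fun t z => (rrt ww t z)⁻¹ := (jf_rrt h hs).inv fun _ ht x => (h.pos ht x).ne'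

theorem jf_nt (h : LT ww) (hs : ∀ i k, ContMDiff (𝓡 4) 𝓘(ℝ, ℝ) ∞ (ww i k)) (k : Fin 3) :
    JF fun t => nt ww t k := (jf_wtk hs k).mul (jf_rrt_inv h hs)

end scal

variable {M : Type v} [MetricSpace M] [CompactSpace M] [ConnectedSpace M]
  [ChartedSpace (EuclideanSpace ℝ (Fin 4)) M] [IsManifold (𝓡 4) ∞ M]
  [RiemannianBundle (fun p : M => TangentSpace (𝓡 4) p)]
  [IsContMDiffRiemannianBundle (𝓡 4) ∞ (EuclideanSpace ℝ (Fin 4))
    (fun p : M => TangentSpace (𝓡 4) p)]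
  [IsRiemannianManifold (𝓡 4) M] [MeasurableSpace M] [BorelSpace M]
  [SecondCountableTopology M] [Nonempty M]
  {κ0 κ1 κT : Type} [Fintype κ0] [Fintype κ1] [Fintype κT]

/-- `⟪Gr f_t, X⟫`. -/
theorem jf_Gr (T : ToF 4 M) {f : E3 → M → ℝ} (hf : JF f)
    {X : (z : M) → TangentSpace (𝓡 4) z} (hX : ∀ z, VSm 4 ∞ X z) :
    JF fun t z => ⟪Gr (n := 4) (f t) z, T.toF z (X z)⟫ := by
  refine (JF.fld1 (J1.dF hf) hX).congr fun t ht z => ?_
  have hsm : ContMDiff (𝓡 4) 𝓘(ℝ, ℝ) ∞ (f t) := (Crest.Agent.R240.Ch.smoothF_iff _).2 (hf.sl ht)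
  rw [← T.grad (f t) z hsm, T.inner_toF]
  refine (Crest.Agent.R247.Bo84.inner_mgrad (n := 4) (f t) z (X z)).trans ?_
  exact (RiemB_399.dF_eq_mfderiv (f t) z (X z)).symm

/-- `⟪X, Y⟫` for smooth fields. -/
theorem jf_inner (T : ToF 4 M) {X Y : (z : M) → TangentSpace (𝓡 4) z} (hX : ∀ z, VSm 4 ∞ X z)
    (hY : ∀ z, VSm 4 ∞ Y z) : JF fun _ z => ⟪T.toF z (X z), T.toF z (Y z)⟫ :=
  jf_of ((T.smooth X hX).inner (T.smooth Y hY))

variable {S : SWS M κ0 κ1 κT} {T : ToF 4 M}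
    {c : κ1 → κ0 → (z : M) → TangentSpace (𝓡 4) z}
    {W : κ0 → κ0 → (z : M) → TangentSpace (𝓡 4) z}
    {sT : κT → (z : M) → TangentSpace (𝓡 4) z} {w : Trip M} {e : Fin 3 → F2 E4 M}
    {σ ι : ℝ} {ww : Fin 3 → Fin 3 → M → ℝ}

/-- the projections. -/
theorem jf_Pr (H : SWSym_451.Sym S fun x y z => T.toF z (c x y z)) {m : E3 → Fin 3 → M → ℝ}
    (hm : ∀ k, JF fun t => m t k) (y y' : κ0) : JF fun t => Pr S (m t) y y' :=
  JF.cmul _ ((jf_of (S.D0.smp y y')).add (JF.sum' fun k => (hm k).mul (jf_of (H.smrho k y y'))))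

/-- `⟪∇ P_t, X⟫`. -/
theorem jf_nP (h : TG S T c W sT w e σ ι) {P : E3 → κ0 → κ0 → M → ℝ}
    (hP : ∀ a b, JF fun t => P t a b) (y y' : κ0)
    {X : (z : M) → TangentSpace (𝓡 4) z} (hX : ∀ z, VSm 4 ∞ X z) :
    JF fun t z => ⟪nP S.D0 (P t) y y' z, T.toF z (X z)⟫ := by
  have h1 : ∀ a b, JF fun (_ : E3) z => ⟪S.D0.X a b z, T.toF z (X z)⟫ := by
    intro a b
    refine (jf_inner T (h.smW a b) hX).congr fun t _ z => ?_
    rw [h.X_eq]
  refine ((jf_Gr T (hP y y') hX).add (JF.sum' fun d =>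
    ((hP d y').mul (h1 y d)).sub ((hP y d).mul (h1 d y')))).congr fun t _ z => ?_
  unfold nP
  simp only [inner_add_left, sum_inner, inner_sub_left, real_inner_smul_left]

/-- the zeroth order term. -/
theorem jf_Zt (h : TG S T c W sT w e σ ι) (hc : ∀ x y z, VSm 4 ∞ (c x y) z)
    {rr : E3 → M → ℝ} (hr : JF rr) (hpos : ∀ t, t ≠ 0 → ∀ z, 0 < rr t z)
    {P : E3 → κ0 → κ0 → M → ℝ} (hP : ∀ a b, JF fun t => P t a b) (x : κ1) (y : κ0) :
    JF fun t => Zt S (fun x y z => T.toF z (c x y z)) (rr t) (P t) x y :=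
  (JF.sum' fun y' => jf_nP h hP y' y (hc x y')).add
    ((JF.cmul _ (hr.inv fun t ht z => (hpos t ht z).ne')).mul (jf_Gr T hr (hc x y)))

/-- the shift. -/
theorem jf_shf (H : SWSym_451.Sym S fun x y z => T.toF z (c x y z))
    (h : TG S T c W sT w e σ ι) (hc : ∀ x y z, VSm 4 ∞ (c x y) z)
    {rr : E3 → M → ℝ} (hr : JF rr) (hpos : ∀ t, t ≠ 0 → ∀ z, 0 < rr t z)
    {P : E3 → κ0 → κ0 → M → ℝ} (hP : ∀ a b, JF fun t => P t a b) (A : κT) :
    JF fun t => shf S (fun x y z => T.toF z (c x y z)) (rr t) (P t) A := by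
  have h1 : ∀ x y, JF fun t => tp S (fun x y z => T.toF z (c x y z)) (rr t) (P t) x y :=
    fun x y => JF.sum' fun y' => (jf_Zt h hc hr hpos hP x y').mul (hP y' y)
  have h2 : JF fun t z => ∑ x, ∑ y, ∑ y', (1 / 2) * (S.J y' y z *
      tp S (fun x y z => T.toF z (c x y z)) (rr t) (P t) x y z) *
      ⟪T.toF z (c x y' z), T.toF z (sT A z)⟫ :=
    JF.sum' fun x => JF.sum' fun y => JF.sum' fun y' =>
      (JF.cmul _ ((jf_of (H.smJ y' y)).mul (h1 x y))).mul (jf_inner T (hc x y') (h.smsT A))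
  refine h2.congr fun t _ z => ?_
  unfold shf XF
  simp only [sum_inner, real_inner_smul_left, h.s_eq]

theorem flG_add (g : F2 E4 M) (X Y : (z : M) → TangentSpace (𝓡 4) z) :
    RiemB_399.flG g (fun z => X z + Y z) = RiemB_399.flG g X + RiemB_399.flG g Y := by
  funext x
  exact map_add (at2 g x) _ _

/-- **the connection form.** -/
theorem j1_bF (H : SWSym_451.Sym S fun x y z => T.toF z (c x y z))
    (h : TG S T c W sT w e σ ι) {τ : E3 → TD M κT}
    (hsh : ∀ A, JF fun t => (τ t).sh A) (hn : ∀ k, JF fun t => (τ t).n k) :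
    J1 fun t => bF (τ t) S W sT e := by
  have hg := QSTri_451.met_gg h.tri
  have hP0 : ∀ y y', JF fun t z => P0f (τ t) S z y y' := by
    intro y y'
    simp only [P0f_apply]
    exact JF.cmul _ ((jf_of (S.D0.smp y y')).sub
      (JF.sum' fun k => (hn k).mul (jf_of (H.smrho k y y'))))
  have hJP : ∀ y y', JF fun t z => (-(1 / 2)) * (Jm S z * P0f (τ t) S z) y y' := by
    intro y y'
    simp only [Matrix.mul_apply]
    exact JF.cmul _ (JF.sum' fun d => (jf_of (H.smJ y d)).mul (hP0 d y'))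
  have h1 : J1 fun t => RiemB_399.flG (gg e) (fld sT (τ t).sh) :=
    J1.flG hg hsh h.smsT
  have h2 : ∀ y, J1 fun t => RiemB_399.flG (gg e) (fun z =>
      ∑ y', (-(1 / 2) * (Jm S z * P0f (τ t) S z) y y') • W y' y z) := fun y =>
    J1.flG hg (fun y' => hJP y y') fun y' => h.smW y' y
  have h3 : J1 fun t => RiemB_399.flG (gg e) (bV0 (τ t) S W) := by
    refine (J1.sum' h2).congr fun t _ => ?_
    unfold bV0
    funext x
    rw [Finset.sum_apply]
    exact map_sum (at2 (gg e) x) _ _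
  refine (h1.add h3).congr fun t _ => ?_
  exact flG_add _ _ _

end

end Crest.Agent.R235.SWJF_451
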