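import Crest.Agent.R235.SwjEval_844

/-!
Row 235 (S0364), helper844: the abstract data `JData` are contradictory.
-/

set_option autoImplicit false
set_option linter.unusedSectionVars false

open Set Function Topology Filter
open scoped ComplexConjugate RealInnerProductSpace

namespace Crest.Agent.R235.SwjAbs_844

open Crest.Agent.R235 FDADef_365

noncomputable section

/-! ### rounding -/

section rounding

variable {b : ℕ}

/-- rounding. -/
def rd (h : Fin b → ℝ) : Fin b → ℤ := fun i => round (h i)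

theorem rd_of {h : Fin b → ℝ} {k : Fin b → ℤ} (hk : ‖h - lat k‖ < 1 / 2) : rd h = k := by
  funext i
  have h1 : |h i - (k i : ℝ)| < 1 / 2 := by
    have := norm_le_pi_norm (h - lat k) i
    rw [Real.norm_eq_abs] at this
    exact lt_of_le_of_lt this hk
  rw [abs_lt] at h1
  show round (h i) = k i
  rw [round_eq, Int.floor_eq_iff]
  constructor <;> linarith

theorem rd_lat (k : Fin b → ℤ) : rd (lat k) = k := rd_of (by rw [sub_self, norm_zero]; norm_num)

theorem rd_add (h : Fin b → ℝ) (m : Fin b → ℤ) : rd (h + lat m) = rd h + m := by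
  funext i
  show round (h i + (m i : ℝ)) = round (h i) + m i
  exact round_add_intCast _ _

/-- cut-off. -/
def chi (y : Fin b → ℝ) : ℝ := max 0 (min 1 (2 - 6 * ‖y‖))

theorem continuous_chi : Continuous (chi (b := b)) := by unfold chi; fun_prop

theorem chi_of_small {y : Fin b → ℝ} (h : ‖y‖ ≤ 1 / 6) : chi y = 1 := by
  unfold chi
  rw [min_eq_left (by linarith), max_eq_right zero_le_one]

theorem chi_of_large {y : Fin b → ℝ} (h : 1 / 3 ≤ ‖y‖) : chi y = 0 := by
  unfold chi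
  rw [max_eq_left]
  exact (min_le_right _ _).trans (by linarith)

end rounding

variable {b bp : ℕ} {P Y : Type} [NormedAddCommGroup P] [NormedSpace ℝ P]
  [CompleteSpace P] [NormedAddCommGroup Y] [InnerProductSpace ℝ Y] [CompleteSpace Y]
  (D : JData b bp P Y)

/-- the evaluation operator. -/
def EO (h : Fin b → ℝ) (t : E3) : P →L[ℝ] E3 :=
  chi (h - lat (rd h)) • ((GG D t).comp (D.U (-rd h) : P →L[ℝ] P))

theorem continuous_EO : Continuous (fun q : (Fin b → ℝ) × E3 => EO D q.1 q.2) := by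
  rw [continuous_iff_continuousAt]
  rintro ⟨h0, t⟩
  by_cases hlt : ‖h0 - lat (rd h0)‖ < 1 / 2
  · set k := rd h0 with hk
    have h1 : ∀ᶠ q : (Fin b → ℝ) × E3 in 𝓝 (h0, t), ‖q.1 - lat k‖ < 1 / 2 := by
      have hc : Continuous fun q : (Fin b → ℝ) × E3 => ‖q.1 - lat k‖ :=
        (continuous_fst.sub continuous_const).norm
      exact (isOpen_lt hc continuous_const).mem_nhds hlt
    have h2 : (fun q : (Fin b → ℝ) × E3 => EO D q.1 q.2) =ᶠ[𝓝 (h0, t)]
        fun q => chi (q.1 - lat k) • ((GG D q.2).comp (D.U (-k) : P →L[ℝ] P)) := by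
      filter_upwards [h1] with q hq
      simp only [EO, rd_of hq]
    refine ContinuousAt.congr ?_ h2.symm
    refine Continuous.continuousAt ?_
    exact (continuous_chi.comp (continuous_fst.sub continuous_const)).smul
      (((continuous_GG D).comp continuous_snd).clm_comp continuous_const)
  · push Not at hlt
    have h1 : ∀ᶠ q : (Fin b → ℝ) × E3 in 𝓝 (h0, t), ‖h0 - q.1‖ < 1 / 6 := by
      have hc : Continuous fun q : (Fin b → ℝ) × E3 => ‖h0 - q.1‖ :=
        (continuous_const.sub continuous_fst).norm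
      refine (isOpen_lt hc continuous_const).mem_nhds ?_
      show ‖h0 - h0‖ < 1 / 6
      rw [sub_self, norm_zero]; norm_num
    have h2 : (fun q : (Fin b → ℝ) × E3 => EO D q.1 q.2) =ᶠ[𝓝 (h0, t)] fun _ => 0 := by
      filter_upwards [h1] with q hq
      have h3 : 1 / 3 ≤ ‖q.1 - lat (rd q.1)‖ := by
        by_contra hcon
        push Not at hcon
        have h4 : ‖h0 - lat (rd q.1)‖ < 1 / 2 := by
          have h5 : h0 - lat (rd q.1) = (h0 - q.1) + (q.1 - lat (rd q.1)) := by abel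
          rw [h5]
          exact lt_of_le_of_lt (norm_add_le _ _) (by linarith)
        have h6 := rd_of h4
        rw [h6] at hlt
        linarith
      show chi (q.1 - lat (rd q.1)) • ((GG D q.2).comp (D.U (-rd q.1) : P →L[ℝ] P)) = 0
      rw [chi_of_large h3]
      exact zero_smul ℝ ((GG D q.2).comp (D.U (-rd q.1) : P →L[ℝ] P))
    exact ContinuousAt.congr continuousAt_const h2.symm

theorem U_zero (x : P) : D.U 0 x = x := by
  have h := D.U_add 0 0 x
  rw [add_zero] at h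
  exact (D.U 0).injective h.symm

theorem U_neg (k : Fin b → ℤ) (x : P) : D.U (-k) (D.U k x) = x := by
  rw [← D.U_add, neg_add_cancel, U_zero]

theorem EO_shift (h : Fin b → ℝ) (m : Fin b → ℤ) (t : E3) (x : P) :
    EO D (h + lat m) t (D.U m x) = EO D h t x := by
  have h1 : h + lat m - lat (rd (h + lat m)) = h - lat (rd h) := by
    rw [rd_add]
    funext i
    simp [lat]
  have h2 : D.U (-(rd h + m)) (D.U m x) = D.U (-rd h) x := by
    rw [← D.U_add]
    congr 1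
    congr 1
    abel
  show (chi (h + lat m - lat (rd (h + lat m))) • ((GG D t).comp
    (D.U (-rd (h + lat m)) : P →L[ℝ] P))) (D.U m x) = (chi (h - lat (rd h)) •
      ((GG D t).comp (D.U (-rd h) : P →L[ℝ] P))) x
  rw [h1, rd_add]
  show chi (h - lat (rd h)) • GG D t (D.U (-(rd h + m)) (D.U m x)) =
    chi (h - lat (rd h)) • GG D t (D.U (-rd h) x)
  rw [h2]

theorem EO_lat (k : Fin b → ℤ) (t : E3) (x : P) : EO D (lat k) t (D.U k x) = GG D t x := by
  have h1 : lat k - lat (rd (lat k)) = (0 : Fin b → ℝ) := by rw [rd_lat, sub_self]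
  show (chi (lat k - lat (rd (lat k)))) • GG D t (D.U (-rd (lat k)) (D.U k x)) = _
  rw [h1, rd_lat, U_neg, chi_of_small (by rw [norm_zero]; norm_num), one_smul]

theorem EO_near {h : Fin b → ℝ} (hh : ‖h‖ < 1 / 6) (t : E3) (x : P) : EO D h t x = GG D t x := by
  have h0 : (lat (0 : Fin b → ℤ) : Fin b → ℝ) = 0 := by funext i; simp [lat]
  have h1 : rd h = 0 := rd_of (by rw [h0, sub_zero]; linarith)
  show (chi (h - lat (rd h))) • GG D t (D.U (-rd h) x) = _
  rw [h1, h0, sub_zero, neg_zero, U_zero, chi_of_small hh.le, one_smul]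

/-! ### the target -/

/-- the target of the odd equations. -/
abbrev YP (Y : Type) [NormedAddCommGroup Y] : Type := WithLp 2 (Y × E3)

/-- pairs. -/
def mk (Y : Type) [NormedAddCommGroup Y] [InnerProductSpace ℝ Y] : (Y × E3) ≃L[ℝ] YP Y :=
  (WithLp.prodContinuousLinearEquiv 2 ℝ Y E3).symm

theorem mk_fst (p : Y × E3) : (mk Y p).fst = p.1 := rfl
theorem mk_snd (p : Y × E3) : (mk Y p).snd = p.2 := rfl

theorem mk_surj (y : YP Y) : mk Y (y.fst, y.snd) = y := rfl

theorem mk_inj {p q : Y × E3} (h : mk Y p = mk Y q) : p = q := (mk Y).injective h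

/-- the Fredholm operator. -/
def LL : P →L[ℝ] YP Y := (mk Y : (Y × E3) →L[ℝ] YP Y).comp (D.L.prod 0)

theorem LL_apply (x : P) : LL D x = mk Y (D.L x, 0) := rfl

/-- the gauge transformations on the target. -/
def VV (m : Fin b → ℤ) : YP Y ≃L[ℝ] YP Y :=
  ((mk Y).symm.trans ((D.V m).prodCongr (ContinuousLinearEquiv.refl ℝ E3))).trans (mk Y)

theorem VV_mk (m : Fin b → ℤ) (y : Y) (e : E3) : VV D m (mk Y (y, e)) = mk Y (D.V m y, e) := rfl

/-- the sum of the torus terms. -/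
def MM (h : Fin b → ℝ) (x : P) : Y := ∑ i, h i • D.M i x

/-- the odd nonlinearity. -/
def KKp (p : (Fin b → ℝ) × E3 × P) : YP Y :=
  mk Y (MM D p.1 p.2.2 + D.KP (Psi D p.2.1) p.2.2, EO D p.1 p.2.1 p.2.2)

/-- the even nonlinearity. -/
def KKa (p : (Fin b → ℝ) × E3 × P) : EuclideanSpace ℝ (Fin bp) := D.KA (Psi D p.2.1) p.2.2

theorem continuous_MM : Continuous (fun p : (Fin b → ℝ) × P => MM D p.1 p.2) := by
  unfold MM
  refine continuous_finsetSum _ fun i _ => ?_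
  exact ((continuous_apply i).comp continuous_fst).smul ((D.M i).continuous.comp continuous_snd)

theorem cont_KKa : Continuous (KKa D) := by
  have h1 : Continuous fun p : (Fin b → ℝ) × E3 × P => ((Psi D p.2.1, p.2.2) : E3 × P) :=
    ((continuous_Psi D).comp (continuous_fst.comp continuous_snd)).prodMk
      (continuous_snd.comp continuous_snd)
  exact D.cKA.comp_continuous h1 fun p => norm_Psi_le D _

theorem cont_KKp : Continuous (KKp D) := by
  have h1 : Continuous fun p : (Fin b → ℝ) × E3 × P => ((Psi D p.2.1, p.2.2) : E3 × P) :=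
    ((continuous_Psi D).comp (continuous_fst.comp continuous_snd)).prodMk
      (continuous_snd.comp continuous_snd)
  have h2 : Continuous fun p : (Fin b → ℝ) × E3 × P => D.KP (Psi D p.2.1) p.2.2 :=
    D.cKP.comp_continuous h1 fun p => norm_Psi_le D _
  have h3 : Continuous fun p : (Fin b → ℝ) × E3 × P => MM D p.1 p.2.2 :=
    (continuous_MM D).comp (continuous_fst.prodMk (continuous_snd.comp continuous_snd))
  have h4 : Continuous fun p : (Fin b → ℝ) × E3 × P => EO D p.1 p.2.1 p.2.2 := by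
    have h6 : Continuous fun p : (Fin b → ℝ) × E3 × P => ((p.1, p.2.1) : (Fin b → ℝ) × E3) :=
      continuous_fst.prodMk (continuous_fst.comp continuous_snd)
    have h5 : Continuous fun p : (Fin b → ℝ) × E3 × P => EO D p.1 p.2.1 :=
      Continuous.comp (g := fun q : (Fin b → ℝ) × E3 => EO D q.1 q.2)
        (f := fun p : (Fin b → ℝ) × E3 × P => ((p.1, p.2.1) : (Fin b → ℝ) × E3))
        (continuous_EO D) h6
    have h7 : Continuous fun p : (Fin b → ℝ) × E3 × P => p.2.2 :=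
      continuous_snd.comp continuous_snd
    exact h5.clm_apply h7
  have h8 : Continuous fun p : (Fin b → ℝ) × E3 × P =>
      ((MM D p.1 p.2.2 + D.KP (Psi D p.2.1) p.2.2, EO D p.1 p.2.1 p.2.2) : Y × E3) :=
    (h3.add h2).prodMk h4
  exact (mk Y).continuous.comp h8

theorem cpt_KKa (R : ℝ) : IsCompact (closure (KKa D '' {p | ‖p‖ ≤ R})) := by
  obtain ⟨C, hC, h⟩ := D.cptA R
  refine hC.of_isClosed_subset isClosed_closure (closure_minimal ?_ hC.isClosed)
  rintro _ ⟨p, hp, rfl⟩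
  have h1 : ‖p.2.2‖ ≤ R := (norm_snd_le p.2).trans ((norm_snd_le p).trans hp)
  exact h _ _ (norm_Psi_le D _) h1

theorem cpt_KKp (R : ℝ) : IsCompact (closure (KKp D '' {p | ‖p‖ ≤ R})) := by
  obtain ⟨C, hC, hCP⟩ := D.cptP R
  have hM : ∀ i, ∃ Ci, IsCompact Ci ∧ ∀ x, ‖x‖ ≤ R → D.M i x ∈ Ci := by
    intro i
    obtain ⟨Ci, hCi, hsub⟩ := (D.cptM i).image_closedBall_subset_compact R
    exact ⟨Ci, hCi, fun x hx => hsub ⟨x, by simpa using hx, rfl⟩⟩
  choose Ci hCi hMi using hM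
  -- the evaluation is bounded
  have hcb : IsCompact ((Metric.closedBall (0 : Fin b → ℝ) R) ×ˢ (Metric.closedBall (0 : E3) R)) :=
    (isCompact_closedBall _ _).prod (isCompact_closedBall _ _)
  obtain ⟨N, hN⟩ := hcb.exists_bound_of_continuousOn (continuous_EO D).continuousOn
  have hK : IsCompact ((fun q : ((Fin b → ℝ) × (Fin b → Y)) × (Y × E3) =>
      mk Y (∑ i, q.1.1 i • q.1.2 i + q.2.1, q.2.2)) ''
      (((Metric.closedBall (0 : Fin b → ℝ) R) ×ˢ (Set.univ.pi Ci)) ×ˢ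
        (C ×ˢ (Metric.closedBall (0 : E3) (N * R))))) := by
    refine IsCompact.image ?_ ?_
    · exact (((isCompact_closedBall _ _).prod (isCompact_univ_pi hCi))).prod
        (hC.prod (isCompact_closedBall _ _))
    · refine (mk Y).continuous.comp ?_
      refine Continuous.prodMk (Continuous.add ?_ (continuous_fst.comp continuous_snd))
        (continuous_snd.comp continuous_snd)
      refine continuous_finsetSum _ fun i _ => ?_
      exact ((continuous_apply i).comp (continuous_fst.comp continuous_fst)).smul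
        ((continuous_apply i).comp (continuous_snd.comp continuous_fst))
  refine hK.of_isClosed_subset isClosed_closure (closure_minimal ?_ hK.isClosed)
  rintro _ ⟨p, hp, rfl⟩
  have hp' : ‖p‖ ≤ R := hp
  have h0 : ‖p.1‖ ≤ R := (norm_fst_le p).trans hp'
  have h1 : ‖p.2.2‖ ≤ R := (norm_snd_le p.2).trans ((norm_snd_le p).trans hp')
  have h2 : ‖p.2.1‖ ≤ R := (norm_fst_le p.2).trans ((norm_snd_le p).trans hp')
  refine ⟨((p.1, fun i => D.M i p.2.2), (D.KP (Psi D p.2.1) p.2.2, EO D p.1 p.2.1 p.2.2)),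
    ⟨⟨by simpa using h0, fun i _ => hMi i _ h1⟩, hCP _ _ (norm_Psi_le D _) h1, ?_⟩, rfl⟩
  rw [mem_closedBall_zero_iff]
  have h3 : ‖EO D p.1 p.2.1‖ ≤ N := hN (p.1, p.2.1) ⟨by simpa using h0, by simpa using h2⟩
  calc ‖EO D p.1 p.2.1 p.2.2‖ ≤ ‖EO D p.1 p.2.1‖ * ‖p.2.2‖ := (EO D p.1 p.2.1).le_opNorm _
    _ ≤ N * R := mul_le_mul h3 h1 (norm_nonneg _) ((norm_nonneg _).trans h3)

/-! ### Fredholm -/

theorem fredA : Fred (0 : E3 →L[ℝ] EuclideanSpace ℝ (Fin bp)) := by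
  refine ⟨inferInstance, ?_, inferInstance⟩
  have : range (0 : E3 →L[ℝ] EuclideanSpace ℝ (Fin bp)) = {0} := by
    ext y
    constructor
    · rintro ⟨x, rfl⟩; rfl
    · rintro rfl; exact ⟨0, rfl⟩
  rw [this]
  exact isClosed_singleton

theorem indA : ind (0 : E3 →L[ℝ] EuclideanSpace ℝ (Fin bp)) = 3 - bp := by
  unfold ind
  have h1 : LinearMap.ker ((0 : E3 →L[ℝ] EuclideanSpace ℝ (Fin bp)) :
      E3 →ₗ[ℝ] EuclideanSpace ℝ (Fin bp)) = ⊤ := by
    rw [ContinuousLinearMap.toLinearMap_zero]; exact LinearMap.ker_zero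
  have h2 : LinearMap.range ((0 : E3 →L[ℝ] EuclideanSpace ℝ (Fin bp)) :
      E3 →ₗ[ℝ] EuclideanSpace ℝ (Fin bp)) = ⊥ := by
    rw [ContinuousLinearMap.toLinearMap_zero]; exact LinearMap.range_zero
  rw [h1, h2, Submodule.bot_orthogonal_eq_top, finrank_top, finrank_top,
    finrank_euclideanSpace_fin, finrank_euclideanSpace_fin]
  rfl

theorem ker_LL : LinearMap.ker (LL D : P →ₗ[ℝ] YP Y) = LinearMap.ker (D.L : P →ₗ[ℝ] Y) := by
  ext x
  rw [LinearMap.mem_ker, LinearMap.mem_ker]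
  constructor
  · intro h
    have h1 : mk Y (D.L x, 0) = mk Y 0 := by rw [map_zero]; exact h
    exact congrArg Prod.fst (mk_inj h1)
  · intro h
    show mk Y (D.L x, 0) = 0
    have h1 : D.L x = 0 := h
    rw [h1]
    exact map_zero _

theorem mem_orth (y : YP Y) : y ∈ (LinearMap.range (LL D : P →ₗ[ℝ] YP Y))ᗮ ↔
    y.fst ∈ (LinearMap.range (D.L : P →ₗ[ℝ] Y))ᗮ := by
  rw [Submodule.mem_orthogonal, Submodule.mem_orthogonal]
  constructor
  · rintro h _ ⟨x, rfl⟩
    have h1 := h (LL D x) ⟨x, rfl⟩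
    rw [WithLp.prod_inner_apply] at h1
    have h2 : ⟪(LL D x).snd, y.snd⟫ = (0 : ℝ) := by
      show ⟪(0 : E3), y.snd⟫ = (0 : ℝ)
      exact inner_zero_left _
    have h3 : ⟪(LL D x).fst, y.fst⟫ + ⟪(LL D x).snd, y.snd⟫ = (0 : ℝ) := h1
    rw [h2, add_zero] at h3
    exact h3
  · rintro h _ ⟨x, rfl⟩
    rw [WithLp.prod_inner_apply]
    have h2 : ⟪(LL D x).snd, y.snd⟫ = (0 : ℝ) := by
      show ⟪(0 : E3), y.snd⟫ = (0 : ℝ)
      exact inner_zero_left _
    have h3 : ⟪(LL D x).fst, y.fst⟫ = (0 : ℝ) := h (D.L x) ⟨x, rfl⟩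
    show ⟪(LL D x).fst, y.fst⟫ + ⟪(LL D x).snd, y.snd⟫ = (0 : ℝ)
    rw [h2, h3, add_zero]

/-- the cokernel. -/
def orthEquiv : (LinearMap.range (LL D : P →ₗ[ℝ] YP Y))ᗮ ≃ₗ[ℝ]
    ((LinearMap.range (D.L : P →ₗ[ℝ] Y))ᗮ : Submodule ℝ Y) × E3 where
  toFun y := (⟨y.1.fst, (mem_orth D y.1).1 y.2⟩, y.1.snd)
  invFun p := ⟨mk Y (p.1.1, p.2), (mem_orth D _).2 p.1.2⟩
  left_inv _ := rfl
  right_inv _ := rfl
  map_add' _ _ := rfl
  map_smul' _ _ := rfl

theorem fredP : Fred (LL D) := by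
  have h := D.fred
  have hk := h.ker
  have hc := h.coker
  refine ⟨?_, ?_, ?_⟩
  · rw [ker_LL]; exact hk
  · have h1 : range (LL D) = mk Y '' (range D.L ×ˢ {0}) := by
      ext y
      constructor
      · rintro ⟨x, rfl⟩
        exact ⟨(D.L x, 0), ⟨⟨x, rfl⟩, rfl⟩, rfl⟩
      · rintro ⟨⟨y1, y2⟩, ⟨⟨x, hx⟩, hy⟩, rfl⟩
        have h2 : y2 = 0 := hy
        refine ⟨x, ?_⟩
        rw [LL_apply, hx, h2]
    rw [h1]
    exact (mk Y).toHomeomorph.isClosedMap _ (h.closed.prod isClosed_singleton)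
  · exact (orthEquiv D).symm.finiteDimensional

theorem indP : ind (LL D) = ind D.L - 3 := by
  have hk := D.fred.ker
  have hc := D.fred.coker
  unfold ind
  rw [ker_LL, (orthEquiv D).finrank_eq, Module.finrank_prod, finrank_euclideanSpace_fin]
  push_cast
  ring

/-! ### the derivative -/

theorem B_I_self (x : P) : D.B (D.I x) x = 0 := by
  have h1 := D.B_I (D.I x) x
  rw [D.I_I, map_neg, _root_.neg_apply, D.B_symm x (D.I x)] at h1
  linarith

/-- the square of the norm of the solution. -/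
def AA : ℝ := D.B (D.Q e0) (D.Q e0)

theorem AA_pos : 0 < AA D := D.posQ e0 norm_e0

/-- the derivative of the evaluation. -/
def d2 : ((Fin b → ℝ) × E3 × P) →L[ℝ] E3 :=
  (((D.B (D.I (D.Q e0))).comp ((ContinuousLinearMap.snd ℝ E3 P).comp
      (ContinuousLinearMap.snd ℝ (Fin b → ℝ) (E3 × P)))).smulRight (bv 0) +
    ((AA D / 2) • ((EuclideanSpace.proj (1 : Fin 3) : E3 →L[ℝ] ℝ).comp
      ((ContinuousLinearMap.fst ℝ E3 P).comp
        (ContinuousLinearMap.snd ℝ (Fin b → ℝ) (E3 × P))))).smulRight (bv 1)) +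
    ((-(AA D / 2)) • ((EuclideanSpace.proj (2 : Fin 3) : E3 →L[ℝ] ℝ).comp
      ((ContinuousLinearMap.fst ℝ E3 P).comp
        (ContinuousLinearMap.snd ℝ (Fin b → ℝ) (E3 × P))))).smulRight (bv 2)

theorem d2_0 (y : (Fin b → ℝ) × E3 × P) : d2 D y 0 = D.B (D.I (D.Q e0)) y.2.2 := by
  simp [d2, bv]

theorem d2_1 (y : (Fin b → ℝ) × E3 × P) : d2 D y 1 = AA D / 2 * y.2.1 1 := by
  simp [d2, bv]

theorem d2_2 (y : (Fin b → ℝ) × E3 × P) : d2 D y 2 = -(AA D / 2) * y.2.1 2 := by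
  simp [d2, bv]

/-- the derivative of the Dirac equation. -/
def d1 : ((Fin b → ℝ) × E3 × P) →L[ℝ] Y :=
  (D.L + D.KP').comp ((ContinuousLinearMap.snd ℝ E3 P).comp
      (ContinuousLinearMap.snd ℝ (Fin b → ℝ) (E3 × P))) +
    ∑ i, ((ContinuousLinearMap.proj (R := ℝ) (φ := fun _ : Fin b => ℝ) i).comp
      (ContinuousLinearMap.fst ℝ (Fin b → ℝ) (E3 × P))).smulRight (D.M i (D.Q e0))

theorem d1_apply (y : (Fin b → ℝ) × E3 × P) :
    d1 D y = D.L y.2.2 + ∑ i, y.1 i • D.M i (D.Q e0) + D.KP' y.2.2 := by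
  simp only [d1, _root_.add_apply, ContinuousLinearMap.comp_apply,
    _root_.sum_apply, ContinuousLinearMap.smulRight_apply,
    ContinuousLinearMap.proj_apply, ContinuousLinearMap.coe_fst', ContinuousLinearMap.coe_snd']
  abel

/-- the derivative of the radius. -/
def d3 : ((Fin b → ℝ) × E3 × P) →L[ℝ] ℝ :=
  ((2 : ℝ) • innerSL ℝ t0).comp ((ContinuousLinearMap.fst ℝ E3 P).comp
    (ContinuousLinearMap.snd ℝ (Fin b → ℝ) (E3 × P)))

theorem inner_t0 (t : E3) : ⟪t0, t⟫ = t 0 := by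
  rw [PiLp.inner_apply, Fin.sum_univ_three, t0_0, t0_1, t0_2]
  simp

/-- the total derivative. -/
def dd : ((Fin b → ℝ) × E3 × P) →L[ℝ] EuclideanSpace ℝ (Fin bp) × YP Y × ℝ :=
  (D.KA'.comp ((ContinuousLinearMap.snd ℝ E3 P).comp
      (ContinuousLinearMap.snd ℝ (Fin b → ℝ) (E3 × P)))).prod
    (((mk Y : (Y × E3) →L[ℝ] YP Y).comp ((d1 D).prod (d2 D))).prod (d3 (P := P)))

theorem dd_inj (y : (Fin b → ℝ) × E3 × P) (h : dd D y = 0) : y = 0 := by
  obtain ⟨κ, τ, v⟩ := y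
  have h1 : D.KA' v = 0 := congrArg Prod.fst h
  have h2 : mk Y (d1 D (κ, τ, v), d2 D (κ, τ, v)) = mk Y 0 := by
    rw [map_zero]
    exact congrArg (fun z => z.2.1) h
  have h3 : (2 : ℝ) * ⟪t0, τ⟫ = 0 := congrArg (fun z => z.2.2) h
  have h4 := mk_inj h2
  have h5 : d1 D (κ, τ, v) = 0 := congrArg Prod.fst h4
  have h6 : d2 D (κ, τ, v) = 0 := congrArg Prod.snd h4
  rw [d1_apply] at h5
  obtain ⟨hκ, c, hv⟩ := D.ker κ v h1 h5
  have g0 : D.B (D.I (D.Q e0)) v = 0 := by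
    have := congrArg (fun z : E3 => z 0) h6
    simp only [d2_0] at this
    exact this
  have g1 : AA D / 2 * τ 1 = 0 := by
    have := congrArg (fun z : E3 => z 1) h6
    simp only [d2_1] at this
    exact this
  have g2 : -(AA D / 2) * τ 2 = 0 := by
    have := congrArg (fun z : E3 => z 2) h6
    simp only [d2_2] at this
    exact this
  have hA := AA_pos D
  rw [hv, map_smul, D.B_I, smul_eq_mul] at g0
  have hc : c = 0 := by
    rcases mul_eq_zero.1 g0 with h | h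
    · exact h
    · exact absurd h hA.ne'
  rw [inner_t0] at h3
  have k0 : τ 0 = 0 := by linarith
  have k1 : τ 1 = 0 := by
    rcases mul_eq_zero.1 g1 with h | h
    · linarith
    · exact h
  have k2 : τ 2 = 0 := by
    rcases mul_eq_zero.1 g2 with h | h
    · linarith
    · exact h
  have hτ : τ = 0 := ext_E3 k0 k1 k2
  rw [hκ, hτ, hv, hc, zero_smul]
  rfl

/-! ### differentiability -/

theorem hasFDeriv_x (p0 : (Fin b → ℝ) × E3 × P) :
    HasFDerivAt (fun p : (Fin b → ℝ) × E3 × P => p.2.2)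
      ((ContinuousLinearMap.snd ℝ E3 P).comp (ContinuousLinearMap.snd ℝ (Fin b → ℝ) (E3 × P)))
      p0 :=
  ((ContinuousLinearMap.snd ℝ E3 P).comp
    (ContinuousLinearMap.snd ℝ (Fin b → ℝ) (E3 × P))).hasFDerivAt

theorem hasFDeriv_t (p0 : (Fin b → ℝ) × E3 × P) :
    HasFDerivAt (fun p : (Fin b → ℝ) × E3 × P => p.2.1)
      ((ContinuousLinearMap.fst ℝ E3 P).comp (ContinuousLinearMap.snd ℝ (Fin b → ℝ) (E3 × P)))
      p0 :=
  ((ContinuousLinearMap.fst ℝ E3 P).comp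
    (ContinuousLinearMap.snd ℝ (Fin b → ℝ) (E3 × P))).hasFDerivAt

/-- the base point. -/
def q0 : (Fin b → ℝ) × E3 × P := (0, t0, D.Q e0)

theorem near : ∀ᶠ p : (Fin b → ℝ) × E3 × P in 𝓝 (q0 D), p.2.1 ∈ W0 ∧ ‖p.1‖ < 1 / 6 := by
  have h1 : Continuous fun p : (Fin b → ℝ) × E3 × P => p.2.1 :=
    continuous_fst.comp continuous_snd
  have h2 : Continuous fun p : (Fin b → ℝ) × E3 × P => ‖p.1‖ := continuous_fst.norm
  have h3 : ∀ᶠ p : (Fin b → ℝ) × E3 × P in 𝓝 (q0 D), p.2.1 ∈ W0 :=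
    (h1.tendsto (q0 D)).eventually (show ∀ᶠ t in 𝓝 (q0 D).2.1, t ∈ W0 from W0_mem)
  have h4 : ∀ᶠ p : (Fin b → ℝ) × E3 × P in 𝓝 (q0 D), ‖p.1‖ < 1 / 6 := by
    refine (isOpen_lt h2 continuous_const).mem_nhds ?_
    show ‖(0 : Fin b → ℝ)‖ < 1 / 6
    rw [norm_zero]; norm_num
  exact h3.and h4

theorem der_A : HasFDerivAt (fun p : (Fin b → ℝ) × E3 × P => (0 : E3 →L[ℝ]
    EuclideanSpace ℝ (Fin bp)) p.2.1 + KKa D p)
    (D.KA'.comp ((ContinuousLinearMap.snd ℝ E3 P).comp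
      (ContinuousLinearMap.snd ℝ (Fin b → ℝ) (E3 × P)))) (q0 D) := by
  have h1 : HasFDerivAt (fun p : (Fin b → ℝ) × E3 × P => D.KA (D.pi e0) p.2.2)
    (D.KA'.comp ((ContinuousLinearMap.snd ℝ E3 P).comp
      (ContinuousLinearMap.snd ℝ (Fin b → ℝ) (E3 × P)))) (q0 D) :=
    HasFDerivAt.comp (q0 D) (g := D.KA (D.pi e0)) (f := fun p : (Fin b → ℝ) × E3 × P => p.2.2)
      D.dA (hasFDeriv_x (q0 D))
  refine h1.congr_of_eventuallyEq ?_
  filter_upwards [near D] with p hp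
  show (0 : EuclideanSpace ℝ (Fin bp)) + D.KA (Psi D p.2.1) p.2.2 = D.KA (D.pi e0) p.2.2
  rw [Psi_W0 D hp.1, zero_add]

theorem der_M (i : Fin b) : HasFDerivAt (fun p : (Fin b → ℝ) × E3 × P => p.1 i • D.M i p.2.2)
    (((ContinuousLinearMap.proj (R := ℝ) (φ := fun _ : Fin b => ℝ) i).comp
      (ContinuousLinearMap.fst ℝ (Fin b → ℝ) (E3 × P))).smulRight (D.M i (D.Q e0))) (q0 D) := by
  have h1 : HasFDerivAt (fun p : (Fin b → ℝ) × E3 × P => p.1 i)
      ((ContinuousLinearMap.proj (R := ℝ) (φ := fun _ : Fin b => ℝ) i).comp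
      (ContinuousLinearMap.fst ℝ (Fin b → ℝ) (E3 × P))) (q0 D) :=
    ((ContinuousLinearMap.proj (R := ℝ) (φ := fun _ : Fin b => ℝ) i).comp
      (ContinuousLinearMap.fst ℝ (Fin b → ℝ) (E3 × P))).hasFDerivAt
  have h2 : HasFDerivAt (fun p : (Fin b → ℝ) × E3 × P => D.M i p.2.2)
      ((D.M i).comp ((ContinuousLinearMap.snd ℝ E3 P).comp
      (ContinuousLinearMap.snd ℝ (Fin b → ℝ) (E3 × P)))) (q0 D) :=
    ((D.M i).comp ((ContinuousLinearMap.snd ℝ E3 P).comp
      (ContinuousLinearMap.snd ℝ (Fin b → ℝ) (E3 × P)))).hasFDerivAt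
  refine (h1.smul h2).congr_fderiv ?_
  have h3 : (q0 D).1 i = 0 := rfl
  rw [h3, zero_smul, zero_add]
  rfl

theorem der_1 : HasFDerivAt (fun p : (Fin b → ℝ) × E3 × P =>
    D.L p.2.2 + MM D p.1 p.2.2 + D.KP (D.pi e0) p.2.2) (d1 D) (q0 D) := by
  have h1 : HasFDerivAt (fun p : (Fin b → ℝ) × E3 × P => D.L p.2.2)
      (D.L.comp ((ContinuousLinearMap.snd ℝ E3 P).comp
      (ContinuousLinearMap.snd ℝ (Fin b → ℝ) (E3 × P)))) (q0 D) :=
    (D.L.comp ((ContinuousLinearMap.snd ℝ E3 P).comp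
      (ContinuousLinearMap.snd ℝ (Fin b → ℝ) (E3 × P)))).hasFDerivAt
  have h2 : HasFDerivAt (fun p : (Fin b → ℝ) × E3 × P => MM D p.1 p.2.2)
      (∑ i, ((ContinuousLinearMap.proj (R := ℝ) (φ := fun _ : Fin b => ℝ) i).comp
      (ContinuousLinearMap.fst ℝ (Fin b → ℝ) (E3 × P))).smulRight (D.M i (D.Q e0))) (q0 D) :=
    HasFDerivAt.fun_sum fun i _ => der_M D i
  have h3 : HasFDerivAt (fun p : (Fin b → ℝ) × E3 × P => D.KP (D.pi e0) p.2.2)
    (D.KP'.comp ((ContinuousLinearMap.snd ℝ E3 P).comp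
      (ContinuousLinearMap.snd ℝ (Fin b → ℝ) (E3 × P)))) (q0 D) :=
    HasFDerivAt.comp (q0 D) (g := D.KP (D.pi e0)) (f := fun p : (Fin b → ℝ) × E3 × P => p.2.2)
      D.dP (hasFDeriv_x (q0 D))
  refine ((h1.add h2).add h3).congr_fderiv ?_
  refine ContinuousLinearMap.ext fun y => ?_
  rw [d1_apply]
  simp only [_root_.add_apply, ContinuousLinearMap.comp_apply,
    _root_.sum_apply, ContinuousLinearMap.smulRight_apply,
    ContinuousLinearMap.proj_apply, ContinuousLinearMap.coe_fst', ContinuousLinearMap.coe_snd']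

/-- the explicit evaluation. -/
def ev (p : (Fin b → ℝ) × E3 × P) : E3 := WithLp.toLp 2
    ![(‖p.2.1‖ + p.2.1 0) / 2 * D.B (D.I (D.Q e0)) p.2.2,
      (D.B (D.Q e0) p.2.2 * p.2.1 1 + D.B (D.I (D.Q e0)) p.2.2 * p.2.1 2) / 2,
      (D.B (D.I (D.Q e0)) p.2.2 * p.2.1 1 - D.B (D.Q e0) p.2.2 * p.2.1 2) / 2]

theorem der_lin (f : P →L[ℝ] ℝ) : HasFDerivAt (fun p : (Fin b → ℝ) × E3 × P => f p.2.2)
    (f.comp ((ContinuousLinearMap.snd ℝ E3 P).comp
      (ContinuousLinearMap.snd ℝ (Fin b → ℝ) (E3 × P)))) (q0 D) :=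
  (f.comp ((ContinuousLinearMap.snd ℝ E3 P).comp
      (ContinuousLinearMap.snd ℝ (Fin b → ℝ) (E3 × P)))).hasFDerivAt

theorem der_t (i : Fin 3) : HasFDerivAt (fun p : (Fin b → ℝ) × E3 × P => p.2.1 i)
    ((EuclideanSpace.proj i : E3 →L[ℝ] ℝ).comp ((ContinuousLinearMap.fst ℝ E3 P).comp
      (ContinuousLinearMap.snd ℝ (Fin b → ℝ) (E3 × P)))) (q0 D) :=
  ((EuclideanSpace.proj i : E3 →L[ℝ] ℝ).comp ((ContinuousLinearMap.fst ℝ E3 P).comp
      (ContinuousLinearMap.snd ℝ (Fin b → ℝ) (E3 × P)))).hasFDerivAt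

theorem der_ev : HasFDerivAt (ev D) (d2 D) (q0 D) := by
  rw [← hasFDerivWithinAt_univ, hasFDerivWithinAt_euclidean]
  have b0 : D.B (D.I (D.Q e0)) (q0 D).2.2 = 0 := B_I_self D (D.Q e0)
  have a0 : D.B (D.Q e0) (q0 D).2.2 = AA D := rfl
  have c0 : (q0 D).2.1 0 = 1 := t0_0
  have c1 : (q0 D).2.1 1 = 0 := t0_1
  have c2 : (q0 D).2.1 2 = 0 := t0_2
  intro i
  rw [hasFDerivWithinAt_univ]
  fin_cases i
  · -- the first component
    have hn : DifferentiableAt ℝ (fun p : (Fin b → ℝ) × E3 × P => ‖p.2.1‖) (q0 D) := by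
      refine DifferentiableAt.norm ℝ (hasFDeriv_t (q0 D)).differentiableAt ?_
      intro h
      have h1 : ‖t0‖ = 0 := by
        have : t0 = 0 := h
        rw [this, norm_zero]
      rw [norm_t0] at h1
      norm_num at h1
    have h1 := (hn.hasFDerivAt.add (der_t D 0)).mul_const (2 : ℝ)⁻¹
    have h2 := h1.mul (der_lin D (D.B (D.I (D.Q e0))))
    have h3 : HasFDerivAt (fun p : (Fin b → ℝ) × E3 × P =>
        (‖p.2.1‖ + p.2.1 0) / 2 * D.B (D.I (D.Q e0)) p.2.2)
        ((D.B (D.I (D.Q e0))).comp ((ContinuousLinearMap.snd ℝ E3 P).comp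
      (ContinuousLinearMap.snd ℝ (Fin b → ℝ) (E3 × P)))) (q0 D) := by
      refine (h2.congr_of_eventuallyEq ?_).congr_fderiv ?_
      · refine Eventually.of_forall fun p => ?_
        show (‖p.2.1‖ + p.2.1 0) / 2 * D.B (D.I (D.Q e0)) p.2.2 =
          (‖p.2.1‖ + p.2.1 0) * 2⁻¹ * D.B (D.I (D.Q e0)) p.2.2
        rw [div_eq_mul_inv]
      · have n0 : ‖(q0 D).2.1‖ = 1 := norm_t0
        rw [b0, zero_smul, add_zero]
        show ((‖(q0 D).2.1‖ + (q0 D).2.1 0) * 2⁻¹) • _ = _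
        rw [n0, c0]
        norm_num
    refine h3.congr_fderiv ?_
    refine ContinuousLinearMap.ext fun y => ?_
    show _ = d2 D y 0
    rw [d2_0]
    rfl
  · have h1 := ((der_lin D (D.B (D.Q e0))).mul (der_t D 1)).add
      ((der_lin D (D.B (D.I (D.Q e0)))).mul (der_t D 2))
    have h2 := h1.mul_const (2 : ℝ)⁻¹
    refine (h2.congr_of_eventuallyEq ?_).congr_fderiv ?_
    · refine Eventually.of_forall fun p => ?_
      show (D.B (D.Q e0) p.2.2 * p.2.1 1 + D.B (D.I (D.Q e0)) p.2.2 * p.2.1 2) / 2 = _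
      rw [div_eq_mul_inv]
      rfl
    · refine ContinuousLinearMap.ext fun y => ?_
      rw [b0, a0, c1, c2]
      simp only [zero_smul, add_zero, ContinuousLinearMap.comp_apply, _root_.smul_apply,
        ContinuousLinearMap.coe_fst', ContinuousLinearMap.coe_snd',
        smul_eq_mul]
      show (2 : ℝ)⁻¹ * (AA D * y.2.1 1) = d2 D y 1
      rw [d2_1]
      ring
  · have h1 := ((der_lin D (D.B (D.I (D.Q e0)))).mul (der_t D 1)).sub
      ((der_lin D (D.B (D.Q e0))).mul (der_t D 2))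
    have h2 := h1.mul_const (2 : ℝ)⁻¹
    refine (h2.congr_of_eventuallyEq ?_).congr_fderiv ?_
    · refine Eventually.of_forall fun p => ?_
      show (D.B (D.I (D.Q e0)) p.2.2 * p.2.1 1 - D.B (D.Q e0) p.2.2 * p.2.1 2) / 2 = _
      rw [div_eq_mul_inv]
      rfl
    · refine ContinuousLinearMap.ext fun y => ?_
      rw [b0, a0, c1, c2]
      simp only [zero_smul, add_zero, zero_sub, ContinuousLinearMap.comp_apply,
        _root_.smul_apply, _root_.neg_apply,
        ContinuousLinearMap.coe_fst', ContinuousLinearMap.coe_snd',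
        smul_eq_mul]
      show (2 : ℝ)⁻¹ * (-(AA D * y.2.1 2)) = d2 D y 2
      rw [d2_2]
      ring

theorem der_P : HasFDerivAt (fun p : (Fin b → ℝ) × E3 × P => LL D p.2.2 + KKp D p)
    ((mk Y : (Y × E3) →L[ℝ] YP Y).comp ((d1 D).prod (d2 D))) (q0 D) := by
  have h1 : HasFDerivAt (fun p : (Fin b → ℝ) × E3 × P =>
      ((D.L p.2.2 + MM D p.1 p.2.2 + D.KP (D.pi e0) p.2.2, ev D p) : Y × E3))
      ((d1 D).prod (d2 D)) (q0 D) := (der_1 D).prodMk (der_ev D)
  have h2 := (mk Y : (Y × E3) →L[ℝ] YP Y).hasFDerivAt.comp (q0 D) h1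
  refine h2.congr_of_eventuallyEq ?_
  filter_upwards [near D] with p hp
  show mk Y (D.L p.2.2, 0) + mk Y (MM D p.1 p.2.2 + D.KP (Psi D p.2.1) p.2.2,
    EO D p.1 p.2.1 p.2.2) = mk Y (D.L p.2.2 + MM D p.1 p.2.2 + D.KP (D.pi e0) p.2.2, ev D p)
  rw [← map_add, Psi_W0 D hp.1, EO_near D hp.2, GG_W0 D hp.1]
  congr 1
  refine Prod.ext ?_ ?_
  · show D.L p.2.2 + (MM D p.1 p.2.2 + D.KP (D.pi e0) p.2.2) = _
    rw [← add_assoc]
  · show (0 : E3) + _ = ev D p
    rw [zero_add]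
    rfl

theorem der_rho : HasFDerivAt (fun p : (Fin b → ℝ) × E3 × P => ‖p.2.1‖ ^ 2 - 1)
    (d3 (P := P)) (q0 D) := by
  have h1 : HasFDerivAt (fun t : E3 => ‖t‖ ^ 2) ((2 : ℝ) • innerSL ℝ t0) t0 := by
    have := (hasStrictFDerivAt_norm_sq (F := E3) t0).hasFDerivAt
    refine this.congr_fderiv ?_
    ext1 y
    simp [two_smul]
  have h2 := HasFDerivAt.comp (q0 D) (g := fun t : E3 => ‖t‖ ^ 2)
    (f := fun p : (Fin b → ℝ) × E3 × P => p.2.1) h1 (hasFDeriv_t (q0 D))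
  exact h2.sub_const 1

/-- the data of `FDHILB`. -/
def toSW : SWData b E3 P (EuclideanSpace ℝ (Fin bp)) (YP Y) where
  La := 0
  Lp := LL D
  Ka := KKa D
  Kp := KKp D
  ρ := fun p => ‖p.2.1‖ ^ 2 - 1
  U := D.U
  V := VV D
  h₀ := 0
  a₀ := t0
  ψ₀ := D.Q e0
  D := dd D
  fredA := fredA
  fredP := fredP D
  index := by
    rw [indA, indP]
    have := D.index
    push_cast at this ⊢
    linarith
  contA := cont_KKa D
  contP := cont_KKp D
  contρ := by
    have h : Continuous fun p : (Fin b → ℝ) × E3 × P => p.2.1 :=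
      continuous_fst.comp continuous_snd
    exact (h.norm.pow 2).sub continuous_const
  cptA := cpt_KKa D
  cptP := cpt_KKp D
  evenA := fun h a ψ => D.evenA _ _ (norm_Psi_le D _)
  oddP := fun h a ψ => by
    show mk Y (MM D h (-ψ) + D.KP (Psi D a) (-ψ), EO D h a (-ψ)) =
      -mk Y (MM D h ψ + D.KP (Psi D a) ψ, EO D h a ψ)
    rw [← map_neg, D.oddP _ _ (norm_Psi_le D _), map_neg (EO D h a)]
    congr 1
    refine Prod.ext ?_ rfl
    show MM D h (-ψ) + -D.KP (Psi D a) ψ = -(MM D h ψ + D.KP (Psi D a) ψ)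
    have : MM D h (-ψ) = -MM D h ψ := by
      unfold MM
      simp only [map_neg, smul_neg, Finset.sum_neg_distrib]
    rw [this, neg_add]
  evenρ := fun h a ψ => rfl
  U_add := D.U_add
  V_add := fun m n y => by
    show mk Y (D.V (m + n) y.fst, y.snd) = mk Y (D.V m (D.V n y.fst), y.snd)
    rw [D.V_add]
  latA := fun m h a ψ => D.latA m _ _ (norm_Psi_le D _)
  latP := fun m h a ψ => by
    show mk Y (D.L (D.U m ψ), 0) + mk Y (MM D (h + lat m) (D.U m ψ) +
      D.KP (Psi D a) (D.U m ψ), EO D (h + lat m) a (D.U m ψ)) = VV D m (mk Y (D.L ψ, 0) +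
        mk Y (MM D h ψ + D.KP (Psi D a) ψ, EO D h a ψ))
    rw [← map_add, ← map_add, EO_shift, D.latP m _ _ (norm_Psi_le D _)]
    show mk Y (D.L (D.U m ψ) + (MM D (h + lat m) (D.U m ψ) + D.V m (D.KP (Psi D a) ψ)),
      0 + EO D h a ψ) = mk Y (D.V m (D.L ψ + (MM D h ψ + D.KP (Psi D a) ψ)), 0 + EO D h a ψ)
    congr 1
    refine Prod.ext ?_ rfl
    show D.L (D.U m ψ) + (MM D (h + lat m) (D.U m ψ) + D.V m (D.KP (Psi D a) ψ)) =
      D.V m (D.L ψ + (MM D h ψ + D.KP (Psi D a) ψ))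
    have h1 : MM D (h + lat m) (D.U m ψ) = ∑ i, (m i : ℝ) • D.M i (D.U m ψ) +
        D.V m (MM D h ψ) := by
      unfold MM
      simp only [Pi.add_apply, add_smul, Finset.sum_add_distrib, map_sum, map_smul, D.latM]
      rw [add_comm]
      rfl
    rw [map_add, map_add, ← D.latL m ψ, h1]
    abel
  latρ := fun m h a ψ => rfl
  bdd := by
    obtain ⟨R, hR⟩ := D.bdd
    refine ⟨max R 1, fun h a ψ hh hρ hA hP => ?_⟩
    have ha : ‖a‖ ≤ 1 := by
      have h1 : ‖a‖ ^ 2 - 1 ≤ 0 := hρ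
      nlinarith [norm_nonneg a]
    have h1 : D.KA (Psi D a) ψ = 0 := by
      have h2 : (0 : EuclideanSpace ℝ (Fin bp)) + D.KA (Psi D a) ψ = 0 := hA
      rwa [zero_add] at h2
    have h2 : mk Y (D.L ψ, 0) + mk Y (MM D h ψ + D.KP (Psi D a) ψ, EO D h a ψ) = mk Y 0 := by
      rw [map_zero]; exact hP
    rw [← map_add] at h2
    have h3 : D.L ψ + (MM D h ψ + D.KP (Psi D a) ψ) = 0 := congrArg Prod.fst (mk_inj h2)
    rw [← add_assoc] at h3
    exact ⟨ha.trans (le_max_right _ _),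
      (hR _ h ψ (norm_Psi_le D a) hh h1 h3).trans (le_max_left _ _)⟩
  irred := fun h a hρ hA => by
    have h2 : (0 : EuclideanSpace ℝ (Fin bp)) + D.KA (Psi D a) 0 = 0 := hA
    rw [zero_add] at h2
    exact D.irred _ (norm_Psi_le D a) h2
  solA := by
    show (0 : EuclideanSpace ℝ (Fin bp)) + D.KA (Psi D t0) (D.Q e0) = 0
    rw [Psi_W0 D t0_mem, zero_add, D.solA]
  solP := by
    show mk Y (D.L (D.Q e0), 0) + mk Y (MM D 0 (D.Q e0) + D.KP (Psi D t0) (D.Q e0),
      EO D 0 t0 (D.Q e0)) = 0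
    rw [← map_add, Psi_W0 D t0_mem, EO_near D (by rw [norm_zero]; norm_num), GG_W0 D t0_mem,
      B_I_self, t0_1, t0_2]
    have h1 : MM D 0 (D.Q e0) = 0 := by
      unfold MM
      simp
    rw [h1, zero_add]
    have h2 : ((D.L (D.Q e0), (0 : E3)) + (D.KP (D.pi e0) (D.Q e0), WithLp.toLp 2
        ![(‖t0‖ + t0 0) / 2 * 0, (D.B (D.Q e0) (D.Q e0) * 0 + 0 * 0) / 2,
          (0 * 0 - D.B (D.Q e0) (D.Q e0) * 0) / 2]) : Y × E3) = 0 := by
      refine Prod.ext D.solP ?_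
      refine ext_E3 ?_ ?_ ?_
      · show (0 : ℝ) + (‖t0‖ + t0 0) / 2 * 0 = 0
        ring
      · show (0 : ℝ) + (D.B (D.Q e0) (D.Q e0) * 0 + 0 * 0) / 2 = 0
        ring
      · show (0 : ℝ) + (0 * 0 - D.B (D.Q e0) (D.Q e0) * 0) / 2 = 0
        ring
    rw [h2, map_zero]
  solρ := by
    show ‖t0‖ ^ 2 - 1 = 0
    rw [norm_t0]; norm_num
  uniq := fun h a ψ hρ hA hP => by
    have ha : ‖a‖ = 1 := by
      have h1 : ‖a‖ ^ 2 - 1 = 0 := hρ
      nlinarith [norm_nonneg a]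
    obtain ⟨s, hs, hs2⟩ := exists_lift' a
    have hPsi : Psi D a = D.pi (Kn s) := by
      rw [Psi_eq D hs hs2, ha, min_eq_left (by norm_num), one_smul]
    have h1 : D.KA (Psi D a) ψ = 0 := by
      have h2 : (0 : EuclideanSpace ℝ (Fin bp)) + D.KA (Psi D a) ψ = 0 := hA
      rwa [zero_add] at h2
    have h2 : mk Y (D.L ψ, 0) + mk Y (MM D h ψ + D.KP (Psi D a) ψ, EO D h a ψ) = mk Y 0 := by
      rw [map_zero]; exact hP
    rw [← map_add] at h2
    have h3 : D.L ψ + (MM D h ψ + D.KP (Psi D a) ψ) = 0 := congrArg Prod.fst (mk_inj h2)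
    have h4 : (0 : E3) + EO D h a ψ = 0 := congrArg Prod.snd (mk_inj h2)
    rw [zero_add] at h4
    rw [← add_assoc] at h3
    have hn : ‖Psi D a‖ = 1 := by rw [hPsi, D.npi _ (norm_Kn hs)]
    obtain ⟨k, s', hs', hpi, hh, hψ⟩ := D.uniq _ h ψ hn h1 h3
    have hhk : h = lat k := funext hh
    rw [hPsi] at hpi
    obtain ⟨z, hz, hzs⟩ := (D.fpi (Kn s) s' (norm_Kn hs) hs').1 hpi.symm
    -- the evaluation
    rw [hhk, hψ, EO_lat, GG_eq D hs hs2, ha, one_smul, hzs, D.eqQ _ z (norm_Kn hs) hz] at h4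
    set φ := D.Q (Kn s) with hφ
    have hA : 0 < D.B φ φ := D.posQ _ (norm_Kn hs)
    have hcz : cz D (qk D s) (z.re • φ + z.im • D.I φ) = z * (D.B φ φ : ℂ) := by
      have hq : qk D s = φ := rfl
      rw [hq]
      refine Complex.ext ?_ ?_
      · rw [cz_re, map_add, map_smul, map_smul, D.B_symm φ (D.I φ), B_I_self,
          Complex.mul_re, Complex.ofReal_re, Complex.ofReal_im]
        simp only [smul_eq_mul]
        ring
      · rw [cz_im, map_add, map_smul, map_smul, B_I_self, D.B_I,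
          Complex.mul_im, Complex.ofReal_re, Complex.ofReal_im]
        simp only [smul_eq_mul]
    have hm := mw_pos s
    have g0 : mw s * (z * (D.B φ φ : ℂ) * s 0).im = 0 := by
      have := congrArg (fun v : E3 => v 0) h4
      simp only [Gf_0, hcz] at this
      exact this
    have g1 : mw s * (z * (D.B φ φ : ℂ) * s 1).re = 0 := by
      have := congrArg (fun v : E3 => v 1) h4
      simp only [Gf_1, hcz] at this
      exact this
    have g2 : mw s * (z * (D.B φ φ : ℂ) * s 1).im = 0 := by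
      have := congrArg (fun v : E3 => v 2) h4
      simp only [Gf_2, hcz] at this
      exact this
    have g3 : z * (D.B φ φ : ℂ) * s 1 = 0 := by
      refine Complex.ext ?_ ?_
      · exact (mul_eq_zero.1 g1).resolve_left hm.ne'
      · exact (mul_eq_zero.1 g2).resolve_left hm.ne'
    have hz0 : z ≠ 0 := by
      intro h; rw [h, norm_zero] at hz; norm_num at hz
    have hAc : (D.B φ φ : ℂ) ≠ 0 := by exact_mod_cast hA.ne'
    have s1 : s 1 = 0 := (mul_eq_zero.1 g3).resolve_left (mul_ne_zero hz0 hAc)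
    have g4 : (z * s 0).im = 0 := by
      have h5 := (mul_eq_zero.1 g0).resolve_left hm.ne'
      have h6 : z * (D.B φ φ : ℂ) * s 0 = (D.B φ φ : ℂ) * (z * s 0) := by ring
      rw [h6, Complex.im_ofReal_mul] at h5
      exact (mul_eq_zero.1 h5).resolve_left hA.ne'
    have n0 : ‖s 0‖ = 1 := by
      have := norm_sq_C2 s
      rw [hs, s1, norm_zero] at this
      nlinarith [norm_nonneg (s 0)]
    have n1 : ‖z * s 0‖ = 1 := by rw [norm_mul, hz, n0, one_mul]
    have hKn : Kn s = s 0 • e0 := by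
      rw [Kn_of_small (by rw [s1, norm_zero]; norm_num), n0]
      simp
    have hs'e : s' = (z * s 0) • e0 := by rw [hzs, hKn, smul_smul]
    have hre : (z * s 0).re ^ 2 = 1 := by
      have := re_im_sq (z * s 0)
      rw [g4, n1] at this
      linarith
    have hat : a = t0 := by
      have h5 : s = s 0 • e0 := ext_C2 (by rw [smul_C2, e0_0, mul_one])
        (by rw [smul_C2, e0_1, mul_zero, s1])
      rw [hs2, ha, one_smul, h5, hopf_smul _ n0]
      rfl
    refine ⟨k, by rw [hhk, zero_add], hat, ?_⟩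
    have hQ : D.Q s' = (z * s 0).re • D.Q e0 := by
      rw [hs'e, D.eqQ e0 _ norm_e0 n1, g4, zero_smul, add_zero]
    rw [hψ, hQ]
    rcases sq_eq_one_iff.1 hre with h6 | h6
    · left; rw [h6, one_smul]
    · right; rw [h6, neg_one_smul, map_neg]
  deriv := (der_A D).prodMk ((der_P D).prodMk (der_rho D))
  inj := dd_inj D

/-- **the data are contradictory**. -/
theorem JData.false (D : JData b bp P Y) : False :=
  FDHILB_365.fdhilb b E3 P (EuclideanSpace ℝ (Fin bp)) (YP Y) (toSW D)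

end

end Crest.Agent.R235.SwjAbs_844
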