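import Crest.Agent.R235.Swx4_333
import Crest.Agent.R235.FDADef_365

/-!
Row 235 (S0364), SWJA (helper649): the fields `fred`, `index` of `SwjAbs_844.JData` for
`L = Ah P`: `Ah P : W^{1,2}(D0) → L²(D1)` is Fredholm, of index `d0 - d1`.
-/

set_option autoImplicit false
set_option maxSynthPendingDepth 3
set_option linter.unusedSectionVars false

open scoped ContDiff ENNReal NNReal Topology Manifold Bundle RealInnerProductSpace
open MeasureTheory Set Filter Metric Bundle

namespace Crest.Agent.R235.SwjFred_649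

open Crest.Agent.R249.Tv57 Crest.Agent.R247.Ms322 Crest.Agent.R247.Dir593
open Crest.Agent.R235.Fs4_546 Crest.Agent.R235.Fred_649

noncomputable section

variable {M : Type} [MetricSpace M] [CompactSpace M] [ConnectedSpace M]
  [ChartedSpace (EuclideanSpace ℝ (Fin 4)) M] [IsManifold (𝓡 4) ∞ M]
  [RiemannianBundle (fun p : M => TangentSpace (𝓡 4) p)]
  [IsContMDiffRiemannianBundle (𝓡 4) ∞ (EuclideanSpace ℝ (Fin 4))
    (fun p : M => TangentSpace (𝓡 4) p)]
  [IsRiemannianManifold (𝓡 4) M] [MeasurableSpace M] [BorelSpace M]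
  [SecondCountableTopology M] [Nonempty M] [IsFiniteMeasureOnCompacts (μHE[4] : Measure M)]
  {κ κ' : Type} [Fintype κ] [Fintype κ'] {D0 : Dat 4 M κ} {D1 : Dat 4 M κ'}

theorem fred_Ah {P : OpPair D0 D1} (S0 : Spec D0) (S1 : Spec D1) : FDADef_365.Fred (Ah P) where
  ker := finiteDimensional_ker (dns4 D0) S0
  closed := isClosed_range (P := P) (dns4 D0) (dns4 D1) S1
  coker := by
    rw [orth_range (dns4 D0) (dns4 D1) S1]
    exact finDim_span S1

theorem ind_Ah {P : OpPair D0 D1} (S0 : Spec D0) (S1 : Spec D1) :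
    FDADef_365.ind (Ah P) = (S0.ker.card : ℤ) - S1.ker.card := by
  unfold FDADef_365.ind
  rw [finrank_ker (dns4 D0) S0, finrank_coker (dns4 D0) (dns4 D1) S1]

/-- the trivial case -/
theorem fred_zero {A Y : Type} [NormedAddCommGroup A] [NormedSpace ℝ A] [NormedAddCommGroup Y]
    [InnerProductSpace ℝ Y] [Subsingleton A] [Subsingleton Y] (L : A →L[ℝ] Y) :
    FDADef_365.Fred L ∧ FDADef_365.ind L = 0 := by
  refine ⟨⟨inferInstance, (Set.subsingleton_of_subsingleton).isClosed, inferInstance⟩, ?_⟩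
  unfold FDADef_365.ind
  rw [Module.finrank_zero_of_subsingleton, Module.finrank_zero_of_subsingleton]
  norm_num

/-- the zero bundle -/
theorem p_zero (D : Dat 4 M κ) (h : ∀ a z, D.p a a z = 0) (a b : κ) (z : M) : D.p a b z = 0 := by
  have h2 := D.idem a a z
  rw [h a z] at h2
  have h3 : ∀ b ∈ Finset.univ, D.p a b z * D.p b a z = 0 := by
    refine (Finset.sum_eq_zero_iff_of_nonneg fun b _ => ?_).1 h2
    rw [D.symmp b a z]
    exact mul_self_nonneg _
  have h4 := h3 b (Finset.mem_univ b)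
  rw [D.symmp b a z] at h4
  exact mul_self_eq_zero.1 h4

theorem subsingleton_HE (D : Dat 4 M κ) (h : ∀ a z, D.p a a z = 0) :
    Subsingleton D.toAD.HE := by
  have h1 : ∀ f : D.toAD.HE, f = 0 := by
    intro f
    apply Subtype.ext
    have h2 : D.toAD.P (f : HH (μHE[4] : Measure M) κ) = f := f.2
    rw [← h2]
    ext a
    have h3 : ((0 : HH (μHE[4] : Measure M) κ) a : Lp ℝ 2 (μHE[4] : Measure M)) = 0 := rfl
    have h4 : (((0 : D.toAD.HE) : HH (μHE[4] : Measure M) κ)) = 0 := rfl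
    rw [h4, h3]
    filter_upwards [D.toAD.coe_P (f : HH (μHE[4] : Measure M) κ),
      Lp.coeFn_zero ℝ 2 (μHE[4] : Measure M)] with x e1 e2
    rw [e1 a, e2]
    have h5 : ∀ b, D.toAD.p a b x = 0 := fun b => p_zero D h a b x
    simp [h5]
  exact ⟨fun f g => (h1 f).trans (h1 g).symm⟩

theorem subsingleton_WE (D : Dat 4 M κ) (h : ∀ a z, D.p a a z = 0) :
    Subsingleton D.toAD.WE := by
  have := subsingleton_HE D h
  exact ⟨fun f g => D.toAD.jj_injective (Subsingleton.elim _ _)⟩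

/-- **the Fredholm property and the index** -/
theorem fred4 (P : OpPair D0 D1) {d0 d1 : ℕ} (h0 : Nonempty (KerD D0 P.A d0))
    (h1 : Nonempty (KerD D1 P.B d1)) :
    FDADef_365.Fred (Ah P) ∧ FDADef_365.ind (Ah P) = (d0 : ℤ) - d1 := by
  by_cases hp : ∃ a z, D0.p a a z ≠ 0
  · obtain ⟨S0⟩ := Swx_333.spec4 D0 hp
    obtain ⟨S1⟩ := Swx_333.spec4 D1 (Swx_333.exists_p_ne P S0)
    refine ⟨fred_Ah S0 S1, ?_⟩
    rw [ind_Ah S0 S1, card_ker P S0 h0, card_ker P.swap S1 h1]
  · have hq : ¬ ∃ a z, D1.p a a z ≠ 0 := by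
      intro hq
      obtain ⟨S1⟩ := Swx_333.spec4 D1 hq
      exact hp (Swx_333.exists_p_ne P.swap S1)
    obtain ⟨K0⟩ := h0
    obtain ⟨K1⟩ := h1
    have e0 : d0 = 0 := by
      by_contra hc
      exact hp (Swx_333.exists_p_ne_of_ker K0 (Nat.pos_of_ne_zero hc))
    have e1 : d1 = 0 := by
      by_contra hc
      exact hq (Swx_333.exists_p_ne_of_ker K1 (Nat.pos_of_ne_zero hc))
    push Not at hp hq
    have s0 := subsingleton_WE D0 hp
    have s1 := subsingleton_HE D1 hq
    obtain ⟨h2, h3⟩ := fred_zero (Ah P)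
    exact ⟨h2, by rw [h3, e0, e1]; norm_num⟩

end

end Crest.Agent.R235.SwjFred_649
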