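import Crest.Agent.R235.SWJz_365
import Crest.Agent.R235.SWJz_333
import Crest.Agent.R235.SWJu_435
import Crest.Agent.R235.SWJ1_133
import Crest.Agent.R235.SWJd_952
import Crest.Agent.R235.SWJqq_649
import Crest.Agent.R235.SwjFred_649
import Crest.Agent.R235.SwjAbs_844

/-!
Row 235 (S0364), node SWJA (owner helper365): **the assembly**: `ND → ZER → SWJA`, through
`SwjAbs_844.JData.false` (helper844, `FDHILB_365`).
-/

set_option autoImplicit false
set_option maxSynthPendingDepth 3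
set_option linter.unusedSectionVars false

open scoped ContDiff ENNReal NNReal Topology Manifold Bundle RealInnerProductSpace
open MeasureTheory Set Filter Metric Bundle

noncomputable section

namespace Crest.Agent.R235.SWJa_365

open Crest.Agent.R249.Tv57 Crest.Agent.R247.Ms322 Crest.Agent.R247.Dir593
open Crest.Agent.R235.SWDefs_53 Crest.Agent.R235.CptB_755 Crest.Agent.R235.Fs4_546
open Crest.Agent.R235.CptC_755 Crest.Agent.R235.Cpt_755 Crest.Agent.R235.Fred_649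
open Crest.Agent.R235.Swx_333 Crest.Agent.R235.SWSym_451 Crest.Agent.R235.SWJc_365
open Crest.Agent.R235.SwjAbs_844 Crest.Agent.R235.SWJq_365 Crest.Agent.R235.SWJz_365

local notation "ipp" => Crest.Agent.R249.Tv57.ip 4

section main

variable {M : Type} [MetricSpace M] [CompactSpace M] [ConnectedSpace M]
  [ChartedSpace (EuclideanSpace ℝ (Fin 4)) M] [IsManifold (𝓡 4) ∞ M]
  [RiemannianBundle (fun p : M => TangentSpace (𝓡 4) p)]
  [IsContMDiffRiemannianBundle (𝓡 4) ∞ (EuclideanSpace ℝ (Fin 4))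
    (fun p : M => TangentSpace (𝓡 4) p)]
  [IsRiemannianManifold (𝓡 4) M] [MeasurableSpace M] [BorelSpace M]
  [SecondCountableTopology M] [Nonempty M] [IsFiniteMeasureOnCompacts (μHE[4] : Measure M)]
  {κ0 κ1 κT : Type} [Fintype κ0] [Fintype κ1] [Fintype κT] {b bp : ℕ}

variable {S : SWS M κ0 κ1 κT} {cc : κ1 → κ0 → M → EuclideanSpace ℝ (Fin 4)}
  {ww : Fin 3 → Fin 3 → M → ℝ} {τ : E3 → TD M κT} {C : ℝ}
  {th : E3 → κT → M → ℝ} {pi : C2 → E3} {U : C2 → κ0 → M → ℝ} {j : JD M κT b} {d : SWD M κT}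

/-- the real data of the system. -/
def jdata (hND : ND.{0}) (hZ : ZER.{0}) (hc : Sym S cc) (hg : GrdH S) (hj : j.OK S)
    (hH : HopfD S ww τ C th pi U) (hF : d.FFit S ww τ C th)
    (hfix : ∀ t : E3, ‖t‖ ≤ 1 → ∃ φ : Fin 4 → M → ℝ, SmV (n := 4) φ ∧
      (∀ x z, S.H.A φ x z = 0) ∧ ipp (rhs S d t 0) φ ≠ 0)
    {d0 d1 : ℕ} (hK0 : Nonempty (KerD S.D0 S.P.A d0)) (hK1 : Nonempty (KerD S.D1 S.P.B d1))
    (hnum : d0 + b = d1 + 1 + bp) (hS : S.OK) (hd : d.Adm S) (s0 : Spec S.DL) (sT : Spec S.DT)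
    (HB : HarB hS bp) {J1 : κ1 → κ1 → M → ℝ} (CJ : CJ1 S cc J1) {R C0 : ℝ} (hR : 0 < R)
    (hC : C0 < R ^ 2)
    (hsup : ∀ (h : Fin b → ℝ) (t : E3) (a : κT → M → ℝ) (u : κ0 → M → ℝ), ‖t‖ ≤ 1 →
      TSol S (d.tw j h) R t a u → ∀ᵐ z ∂(μHE[4] : Measure M), ∑ y, u y z ^ 2 ≤ C0)
    (hbdd : ∃ ρ : ℝ, ∀ (t : E3) (h : Fin b → ℝ) (x : S.D0.toAD.WE), ‖t‖ ≤ 1 →
      (∀ i, h i ∈ Icc (0 : ℝ) 1) → KA HB d R t x = 0 →
      Ah S.P x + ∑ i, h i • LI hS hj i x + KP hS hd s0 R t x = 0 → ‖x‖ ≤ ρ)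
    (hB : ∀ s : C2, ‖s‖ = 1 → ∀ z, ∑ y, us τ pi U d.r s y z ^ 2 < R ^ 2) :
    JData b bp S.D0.toAD.WE S.D1.toAD.HE :=
  have he0 : ‖e0‖ = 1 := by simp [e0]
  have ht0 : pi e0 ∈ BB := (hH.npi e0 he0).le
  { L := Ah S.P
    M := LI hS hj
    KA := KA HB d R
    KP := KP hS hd s0 R
    I := SWJu_435.II hc
    B := Bl S.D0
    U := SWJu_435.UU hc hj
    V := SWJu_435.VV CJ hj
    pi := pi
    Q := QQ hH d.r
    KA' := SWJd_952.KA' HB hd ht0 ⟨us τ pi U d.r e0, sm_us hH d.r he0, sec_us hH d.r he0⟩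
    KP' := SWJd_952.KP' hS hd s0 (SWJn_333.e4 _) (SWJn_333.e4 _) R ht0
      ⟨us τ pi U d.r e0, sm_us hH d.r he0, sec_us hH d.r he0⟩
    fred := (SwjFred_649.fred4 S.P hK0 hK1).1
    index := by
      rw [(SwjFred_649.fred4 S.P hK0 hK1).2]
      have : (d0 : ℤ) + b = d1 + 1 + bp := by exact_mod_cast hnum
      linarith
    cptM := compact_LI hS hj
    cKA := SWJn_333.cKA hd HB hR
    cKP := SWJn_333.cKP hS hd s0 hR
    cptA := SWJn_333.cptA hd HB hR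
    cptP := SWJn_333.cptP hS hd s0 hR
    evenA := fun t x ht => SWJn_333.evenA hd HB hR ht x
    oddP := fun t x ht => SWJn_333.oddP hS hd s0 hR ht x
    U_add := SWJu_435.UU_add hc hj
    V_add := SWJu_435.VV_add CJ hj
    latA := fun m t x ht => SWJu_435.latKA hS HB hd hc hj hR ht m x
    latP := fun m t x ht => SWJu_435.latP hS hd s0 hc CJ hj hR ht m x
    latM := fun m i x => SWJu_435.latM hS hc CJ hj m i x
    latL := fun m x => SWJu_435.latL hS hc CJ hj m x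
    I_I := SWJu_435.II_II hc
    B_symm := Bl_symm S.D0
    B_I := Bl_I hc (SWJu_435.coe_II hc)
    bdd := hbdd
    irred := fun t ht => SWJn_333.irred hd HB hR ht (hfix t ht)
    cpi := hH.cpi
    npi := hH.npi
    fpi := hH.fpi
    cQ := SWJq_649.cQQ hH d.r
    eqQ := eqQ hH d.r (SWJu_435.coe_II hc)
    posQ := fun s hs => posQ hH hF.rpos hs
    solA := by
      show HB.har (Fq d R (pi e0) (QQ hH d.r e0)) = 0
      rw [fq_us hS hd hH hF hR he0 fun z => (hB e0 he0 z).le, map_zero]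
    solP := solP hZ hc hj hS hd hH hF s0 (SWJn_333.e4 _) (SWJn_333.e4 _) hR he0
      fun z => (hB e0 he0 z).le
    uniq := fun t h x ht h1 h2 => uniq hZ hc hj hS hd hH hF s0 HB hR hC
      (fun t h x ht h1 h2 => (SWJn_333.zero_iff hS hj hd s0 HB hR h ht x).1 ⟨h1, h2⟩) hsup
      (SWJu_435.UU hc hj) (SWJu_435.coe_UU hc hj) t h x ht h1 h2
    dA := by
      rw [QQ_eq hH d.r he0]
      exact SWJd_952.dA HB hd (SWJn_333.e4 _) hR ht0 _ (hB e0 he0)
    dP := by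
      rw [QQ_eq hH d.r he0]
      exact SWJd_952.dP hS hd s0 (SWJn_333.e4 _) (SWJn_333.e4 _) hR ht0 _ (hB e0 he0)
    ker := fun κ v h1 h2 => by
      rw [QQ_eq hH d.r he0] at h2 ⊢
      exact SWJd_952.ker hND hH hF hS hd hc hg he0 ht0 s0 sT (SWJn_333.e4 _) (SWJn_333.e4 _) hR _
        (us_sc _ _) (hB e0 he0) hj HB (SWJu_435.II hc) (SWJu_435.coe_II hc) κ v h1 h2 }

end main

end Crest.Agent.R235.SWJa_365

end
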