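import Crest.Agent.R235.SWJn_900
import Crest.Agent.R235.SWJz_333

/-!
Row 235 (S0364), node SWJA (helper900): `bdd`, the last field of the real data.
-/

set_option autoImplicit false
set_option maxSynthPendingDepth 3
set_option linter.unusedSectionVars false

open scoped ContDiff ENNReal NNReal Topology Manifold Bundle RealInnerProductSpace
open MeasureTheory Set Filter Metric Bundle

universe v

noncomputable section

namespace Crest.Agent.R235.SWJn_900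

open Crest.Agent.R249.Tv57 Crest.Agent.R247.Ms322 Crest.Agent.R247.Dir593
open Crest.Agent.R235.SWDefs_53 Crest.Agent.R235.CptB_755 Crest.Agent.R235.Fs4_546
open Crest.Agent.R235.CptC_755 Crest.Agent.R235.Cpt_755 Crest.Agent.R235.Fred_649
open Crest.Agent.R235.Swx_333 Crest.Agent.R235.SWSym_451 Crest.Agent.R235.SWJc_365

section main

variable {M : Type v} [MetricSpace M] [CompactSpace M] [ConnectedSpace M]
  [ChartedSpace (EuclideanSpace ℝ (Fin 4)) M] [IsManifold (𝓡 4) ∞ M]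
  [RiemannianBundle (fun p : M => TangentSpace (𝓡 4) p)]
  [IsContMDiffRiemannianBundle (𝓡 4) ∞ (EuclideanSpace ℝ (Fin 4))
    (fun p : M => TangentSpace (𝓡 4) p)]
  [IsRiemannianManifold (𝓡 4) M] [MeasurableSpace M] [BorelSpace M]
  [SecondCountableTopology M] [Nonempty M] [IsFiniteMeasureOnCompacts (μHE[4] : Measure M)]
  {κ0 κ1 κT : Type} [Fintype κ0] [Fintype κ1] [Fintype κT] {b bp : ℕ}

/-- **BDD**. -/
theorem bdd {S : SWS M κ0 κ1 κT} {j : JD M κT b} {d : SWD M κT} (hS : S.OK)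
    (hj : j.OK S) (hd : d.Adm S) (s0 : Spec S.DL) (H : HarB hS bp) {R : ℝ} (hR : 0 < R) {C0 : ℝ}
    (hsup : ∀ (h : Fin b → ℝ) (t : E3) (a : κT → M → ℝ) (u : κ0 → M → ℝ), ‖t‖ ≤ 1 →
      TSol S (d.tw j h) R t a u → ∀ᵐ z ∂(μHE[4] : Measure M), ∑ y, u y z ^ 2 ≤ C0) :
    ∃ ρ : ℝ, ∀ (t : E3) (h : Fin b → ℝ) (x : S.D0.toAD.WE), ‖t‖ ≤ 1 →
      (∀ i, h i ∈ Icc (0 : ℝ) 1) → KA H d R t x = 0 →
      Ah S.P x + ∑ i, h i • LI hS hj i x + KP hS hd s0 R t x = 0 → ‖x‖ ≤ ρ := by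
  obtain ⟨r, -, hr⟩ := bddJ hS hj hd s0 H (SWJn_333.e4 _) (SWJn_333.e4 _) hR hsup
    fun h t x ht h1 h2 => (SWJn_333.zero_iff hS hj hd s0 H hR h ht x).1 ⟨h1, h2⟩
  exact ⟨r, hr⟩

/-- the sup bound and the norm bound together: the hypotheses `hC`, `hsup`, `hbdd` of
`SWJa_365.jdata`, for every `R` large enough. -/
theorem exists_bounds {S : SWS M κ0 κ1 κT} {j : JD M κT b} {d : SWD M κT} (hS : S.OK)
    (hj : j.OK S) (hd : d.Adm S) (s0 : Spec S.DL) (H : HarB hS bp) :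
    ∃ C0 : ℝ, 0 ≤ C0 ∧ ∀ R : ℝ, 0 < R → C0 < R ^ 2 →
      (∀ (h : Fin b → ℝ) (t : E3) (a : κT → M → ℝ) (u : κ0 → M → ℝ), ‖t‖ ≤ 1 →
        TSol S (d.tw j h) R t a u → ∀ᵐ z ∂(μHE[4] : Measure M), ∑ y, u y z ^ 2 ≤ C0) ∧
      ∃ ρ : ℝ, ∀ (t : E3) (h : Fin b → ℝ) (x : S.D0.toAD.WE), ‖t‖ ≤ 1 →
        (∀ i, h i ∈ Icc (0 : ℝ) 1) → KA H d R t x = 0 →
        Ah S.P x + ∑ i, h i • LI hS hj i x + KP hS hd s0 R t x = 0 → ‖x‖ ≤ ρ := by
  obtain ⟨C0, h0, h1⟩ := supJ hS hj hd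
  refine ⟨C0, h0, fun R hR hC => ?_⟩
  have h2 : ∀ (h : Fin b → ℝ) (t : E3) (a : κT → M → ℝ) (u : κ0 → M → ℝ), ‖t‖ ≤ 1 →
      TSol S (d.tw j h) R t a u → ∀ᵐ z ∂(μHE[4] : Measure M), ∑ y, u y z ^ 2 ≤ C0 :=
    fun h t a u => h1 h R hC hR t a u
  exact ⟨h2, bdd hS hj hd s0 H hR h2⟩

end main

end Crest.Agent.R235.SWJn_900

end
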