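import Crest.Agent.R235.SWJc_365
import Crest.Agent.R235.SwxT_333

/-!
Row 235 (S0364), node SWJA (owner helper365), leaf (b) (helper333): analytic fields of `JData` for the
Seiberg-Witten system over the Jacobian torus.

* `cKA`, `cKP`     : continuity over the closed ball;
* `cptA`, `cptP`   : compactness;
* `evenA`, `oddP`  : parity;
* `irred`          : no reducible solution;
* `zero_iff`       : zeros = solutions of the truncated twisted system;
* `conv`           : solutions of the true twisted system are zeros.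
-/

set_option autoImplicit false
set_option maxSynthPendingDepth 3
set_option linter.unusedSectionVars false

open scoped ContDiff ENNReal NNReal Topology Manifold Bundle RealInnerProductSpace
open MeasureTheory Set Filter Metric Bundle

universe v

noncomputable section

namespace Crest.Agent.R235.SWJn_333

open Crest.Agent.R249.Tv57 Crest.Agent.R247.Ms322 Crest.Agent.R247.Dir593
open Crest.Agent.R235.SWDefs_53 Crest.Agent.R235.CptB_755 Crest.Agent.R235.Fs4_546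
open Crest.Agent.R235.CptC_755 Crest.Agent.R235.Cpt_755 Crest.Agent.R235.Fred_649
open Crest.Agent.R235.Swx_333 Crest.Agent.R235.SWSym_451 Crest.Agent.R235.SWJc_365

local notation "ipp" => Crest.Agent.R249.Tv57.ip 4

section main

variable {M : Type v} [MetricSpace M] [CompactSpace M] [ConnectedSpace M]
  [ChartedSpace (EuclideanSpace ℝ (Fin 4)) M] [IsManifold (𝓡 4) ∞ M]
  [RiemannianBundle (fun p : M => TangentSpace (𝓡 4) p)]
  [IsContMDiffRiemannianBundle (𝓡 4) ∞ (EuclideanSpace ℝ (Fin 4))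
    (fun p : M => TangentSpace (𝓡 4) p)]
  [IsRiemannianManifold (𝓡 4) M] [MeasurableSpace M] [BorelSpace M]
  [SecondCountableTopology M] [Nonempty M] [IsFiniteMeasureOnCompacts (μHE[4] : Measure M)]
  {κ0 κ1 κT : Type} [Fintype κ0] [Fintype κ1] [Fintype κT] {b bp : ℕ}

/-- the Sobolev embedding. -/
theorem e4 {κ : Type} [Fintype κ] (D : Dat 4 M κ) : Emb4 D.toAD.i1 :=
  emb4_all M κ D

/-! ### continuity, compactness, parity -/

/-- **continuity of the harmonic part**. -/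
theorem cKA {S : SWS M κ0 κ1 κT} {hS : S.OK} {d : SWD M κT} (hd : d.Adm S) (H : HarB hS bp)
    {R : ℝ} (hR : 0 < R) :
    ContinuousOn (fun q : E3 × S.D0.toAD.WE => KA H d R q.1 q.2) {q | ‖q.1‖ ≤ 1} := by
  have := finM (M := M)
  exact HQ_continuousOn (j := S.D0.toAD.i1) (nemOK hS hd hR (μHE[4] : Measure M)) H.har

theorem contL {S : SWS M κ0 κ1 κT} {d : SWD M κT} (hS : S.OK) (hd : d.Adm S) :
    ContinuousOn (fun t => (matR (bm_mth hS hd t) :
      HH (μHE[4] : Measure M) κ0 →L[ℝ] HH (μHE[4] : Measure M) κ1)) BB :=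
  matR_family (bm_mth hS hd) fun _ ht0 _ hε => mth_unif hS hd ht0 hε

/-- **continuity of the Dirac part**. -/
theorem cKP {S : SWS M κ0 κ1 κT} {d : SWD M κT} (hS : S.OK) (hd : d.Adm S) (s0 : Spec S.DL)
    {R : ℝ} (hR : 0 < R) :
    ContinuousOn (fun q : E3 × S.D0.toAD.WE => KP hS hd s0 R q.1 q.2) {q | ‖q.1‖ ≤ 1} := by
  have := finM (M := M)
  have h1 := KK_continuousOn (e4 S.D0) (e4 S.DT) (nemOK hS hd hR (μHE[4] : Measure M))
    (GG1 S s0) (cc S) (bm_cc hS) (contL hS hd)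
  exact (Swx_333.PL S.D1).continuous.comp_continuousOn h1

/-- **compactness of the harmonic part**. -/
theorem cptA {S : SWS M κ0 κ1 κT} {hS : S.OK} {d : SWD M κT} (hd : d.Adm S) (H : HarB hS bp)
    {R : ℝ} (hR : 0 < R) (ρ : ℝ) :
    ∃ C : Set (EuclideanSpace ℝ (Fin bp)), IsCompact C ∧
      ∀ (t : E3) (x : S.D0.toAD.WE), ‖t‖ ≤ 1 → ‖x‖ ≤ ρ → KA H d R t x ∈ C := by
  have := finM (M := M)
  exact HQ_compact (S.D0.toAD.compact_i1 fried4) (nemOK hS hd hR (μHE[4] : Measure M)) H.har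
    isCompact_BB ρ

/-- **compactness of the Dirac part**. -/
theorem cptP {S : SWS M κ0 κ1 κT} {d : SWD M κT} (hS : S.OK) (hd : d.Adm S) (s0 : Spec S.DL)
    {R : ℝ} (hR : 0 < R) (ρ : ℝ) :
    ∃ C : Set S.D1.toAD.HE, IsCompact C ∧
      ∀ (t : E3) (x : S.D0.toAD.WE), ‖t‖ ≤ 1 → ‖x‖ ≤ ρ → KP hS hd s0 R t x ∈ C := by
  have := finM (M := M)
  obtain ⟨C, hC, h1⟩ := KK_compact (e4 S.D0) (S.D0.toAD.compact_i1 fried4) (e4 S.DT)
    (nemOK hS hd hR (μHE[4] : Measure M)) (GG1 S s0) (cc S) (bm_cc hS) (contL hS hd)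
    isCompact_BB ρ
  exact ⟨Swx_333.PL S.D1 '' C, hC.image (Swx_333.PL S.D1).continuous,
    fun t x ht hx => ⟨_, h1 t x ht hx, rfl⟩⟩

theorem Fq_even {S : SWS M κ0 κ1 κT} {d : SWD M κT} (hS : S.OK) (hd : d.Adm S)
    {R : ℝ} (hR : 0 < R) {t : E3} (ht : ‖t‖ ≤ 1) (x : S.D0.toAD.WE) :
    Fq d R t (-x) = Fq d R t x := by
  have := finM (M := M)
  show nem (Qf S d R) t (S.D0.toAD.i1 (-x)) = nem (Qf S d R) t (S.D0.toAD.i1 x)
  rw [map_neg]
  exact nem_even (fun x v => Qf_even S d R t x v) _ (nemOK hS hd hR (μHE[4] : Measure M)) ht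

/-- **the harmonic part is even**. -/
theorem evenA {S : SWS M κ0 κ1 κT} {hS : S.OK} {d : SWD M κT} (hd : d.Adm S) (H : HarB hS bp)
    {R : ℝ} (hR : 0 < R) {t : E3} (ht : ‖t‖ ≤ 1) (x : S.D0.toAD.WE) :
    KA H d R t (-x) = KA H d R t x := by
  unfold KA
  rw [Fq_even hS hd hR ht]

/-- **the Dirac part is odd**. -/
theorem oddP {S : SWS M κ0 κ1 κT} {d : SWD M κT} (hS : S.OK) (hd : d.Adm S) (s0 : Spec S.DL)
    {R : ℝ} (hR : 0 < R) {t : E3} (ht : ‖t‖ ≤ 1) (x : S.D0.toAD.WE) :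
    KP hS hd s0 R t (-x) = - KP hS hd s0 R t x := by
  have := finM (M := M)
  unfold KP
  rw [← map_neg]
  congr 1
  exact KK_odd (nemOK hS hd hR (μHE[4] : Measure M)) (GG1 S s0) (cc S) (bm_cc hS) ht
    (fun x v => Qf_even S d R t x v) x

/-! ### no reducible solution -/

/-- the pairing of the curvature term with `(1,0)` vanishes. -/
theorem Fq_cst {S : SWS M κ0 κ1 κT} {d : SWD M κT} (hS : S.OK) (hd : d.Adm S)
    {R : ℝ} (hR : 0 < R) {t : E3} (ht : ‖t‖ ≤ 1) (x : S.D0.toAD.WE) :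
    ⟪Fq d R t x, clH (cst M) sm_cst⟫ = (0 : ℝ) := by
  rw [inner_HH (Fq d R t x) (clH (cst M) sm_cst) (coe_Fq hS hd hR ht x)
    (coe_clH (cst M) sm_cst)]
  rw [← integral_zero M ℝ (μ := (μHE[4] : Measure M))]
  refine integral_congr_ae (Eventually.of_forall fun z => ?_)
  simp only [Fin.sum_univ_succ (n := 3)]
  have r0 : rhs S d t (trc R (rp x)) 0 z = 0 := rfl
  have r1 : ∀ k : Fin 3, (cst M) k.succ z = 0 := fun k => rfl
  simp only [r0, r1, zero_mul, mul_zero, Finset.sum_const_zero, add_zero]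

/-- **irreducibility**. -/
theorem irred {S : SWS M κ0 κ1 κT} {hS : S.OK} {d : SWD M κT} (hd : d.Adm S) (H : HarB hS bp)
    {R : ℝ} (hR : 0 < R) {t : E3} (ht : ‖t‖ ≤ 1)
    (hfix : ∃ φ : Fin 4 → M → ℝ, SmV (n := 4) φ ∧ (∀ x z, S.H.A φ x z = 0) ∧
      ipp (rhs S d t 0) φ ≠ 0) : KA H d R t (0 : S.D0.toAD.WE) ≠ 0 := by
  intro h
  obtain ⟨φ, hφ, hker, hne⟩ := hfix
  refine hne ?_
  have h1 := H.perp (Fq d R t (0 : S.D0.toAD.WE)) (Fq_cst hS hd hR ht 0) h φ hφ hker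
  rw [inner_HH (Fq d R t (0 : S.D0.toAD.WE)) (clH φ hφ) (coe_Fq hS hd hR ht 0)
    (coe_clH φ hφ)] at h1
  rw [← h1]
  unfold Crest.Agent.R249.Tv57.ip
  refine integral_congr_ae ?_
  have e0 : ∀ᵐ z ∂(μHE[4] : Measure M), ∀ a, (S.D0.toAD.i1 0 a : M → ℝ) z = 0 := by
    rw [ae_all_iff]
    intro a
    have : S.D0.toAD.i1 0 = 0 := map_zero _
    rw [this]
    exact Lp.coeFn_zero ℝ 2 (μHE[4] : Measure M)
  filter_upwards [e0] with z hz
  refine Finset.sum_congr rfl fun l _ => ?_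
  congr 1
  have e1 : (fun a => rp (0 : S.D0.toAD.WE) a z) = (0 : κ0 → ℝ) := funext hz
  rw [rhs_eq, e1]
  refine Fin.cases ?_ (fun k => ?_) l
  · rfl
  · rw [Qf_at_zero]
    show d.mu t z * ((1 / 2) * S.rq k 0 z) + d.r * d.wt t k z + d.et t k z = _
    have e2 : S.rq k (0 : κ0 → M → ℝ) z = 0 := by
      unfold SWS.rq
      simp
    rw [e2]
    ring

end main

end Crest.Agent.R235.SWJn_333

end
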