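import Crest.Agent.R235.SWJDefs_53
import Crest.Agent.R235.SWUni_312
import Crest.Agent.R235.Apx_649

/-!
Row 235 (S0364), node SWJA (owner helper365), leaf cQ (helper649): the solutions over `|t| = 1` depend
continuously, in `W^{1,2}`, on the point `s` of `S³`.

* `cont_H`   : families with jointly continuous representatives are continuous in `L²`;
* `cont_W`   : a family is continuous in `W^{1,2}` if it and its image under `Ah P` are in `L²` (Garding);
* `dir_zero` : a parallel section of the flat bundle solves the Dirac equation (`TD.OK.T1`);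
* `smu`, `secu` : `c ρ^{3/4} U s` is a smooth section;
* `cQ`       : `ContinuousOn Q {s | ‖s‖ = 1}`, for every `Q` represented by `c ρ^{3/4} U s`.
-/

set_option autoImplicit false
set_option maxSynthPendingDepth 3
set_option linter.unusedSectionVars false

open scoped ContDiff ENNReal NNReal Topology Manifold Bundle RealInnerProductSpace
open MeasureTheory Set Filter Metric Bundle

universe v

namespace Crest.Agent.R235.SWJq_649

open Crest.Agent.R249.Tv57 Crest.Agent.R247.Ms322 Crest.Agent.R247.Dir593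
open Crest.Agent.R235.SWDefs_53 Crest.Agent.R235.Fs4_546 Crest.Agent.R235.Fred_649
open Crest.Agent.R235.Cpt_755 Crest.Agent.R235.Apx_649

noncomputable section

variable {M : Type v} [MetricSpace M] [CompactSpace M] [ConnectedSpace M]
  [ChartedSpace (EuclideanSpace ℝ (Fin 4)) M] [IsManifold (𝓡 4) ∞ M]
  [RiemannianBundle (fun p : M => TangentSpace (𝓡 4) p)]
  [IsContMDiffRiemannianBundle (𝓡 4) ∞ (EuclideanSpace ℝ (Fin 4))
    (fun p : M => TangentSpace (𝓡 4) p)]
  [IsRiemannianManifold (𝓡 4) M] [MeasurableSpace M] [BorelSpace M]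
  [SecondCountableTopology M] [Nonempty M] [IsFiniteMeasureOnCompacts (μHE[4] : Measure M)]

/-! ### continuity of families -/

section fam

variable {X : Type*} [TopologicalSpace X]

/-- families with jointly continuous representatives are continuous in `L²`. -/
theorem cont_H [FirstCountableTopology X] [LocallyCompactSpace X] {κ : Type} [Fintype κ]
    {G : X → HH (μHE[4] : Measure M) κ} {w : X → κ → M → ℝ}
    (hw : ∀ a, Continuous fun q : X × M => w q.1 a q.2)
    (hG : ∀ x, ∀ᵐ z ∂(μHE[4] : Measure M), ∀ a, (G x a : M → ℝ) z = w x a z) : Continuous G := by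
  rw [continuous_iff_continuousAt]
  intro x0
  have h1 : ∀ x, ‖G x - G x0‖ ^ 2 =
      ∫ z in univ, ∑ a, ‖w x a z - w x0 a z‖ ^ 2 ∂(μHE[4] : Measure M) := by
    intro x
    rw [Measure.restrict_univ, ← norm_repF (G := G x - G x0) (g := fun a z => w x a z - w x0 a z)]
    filter_upwards [Apx_649.coe_sub (G x) (G x0), hG x, hG x0] with z e1 e2 e3 a
    rw [e1 a, e2 a, e3 a]
  have h2 : Continuous fun x =>
      ∫ z in univ, ∑ a, ‖w x a z - w x0 a z‖ ^ 2 ∂(μHE[4] : Measure M) := by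
    refine continuous_parametric_integral_of_continuous
      (f := fun x z => ∑ a, ‖w x a z - w x0 a z‖ ^ 2) ?_ isCompact_univ
    refine continuous_finsetSum _ fun a _ => ?_
    refine (((hw a).sub ?_).norm).pow 2
    exact (hw a).comp (continuous_const.prodMk continuous_snd)
  have h3 : Tendsto (fun x => ‖G x - G x0‖ ^ 2) (𝓝 x0) (𝓝 0) := by
    have h4 := h2.tendsto x0
    simp only [← h1] at h4
    have h5 : ‖G x0 - G x0‖ ^ 2 = 0 := by simp
    rwa [h5] at h4
  have h4 : Tendsto (fun x => ‖G x - G x0‖) (𝓝 x0) (𝓝 0) := by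
    have h5 := h3.sqrt
    simpa only [Real.sqrt_sq (norm_nonneg _), Real.sqrt_zero] using h5
  exact tendsto_iff_norm_sub_tendsto_zero.2 h4

/-- continuity in `W^{1,2}` (Garding). -/
theorem cont_W {κ κ' : Type} [Fintype κ] [Fintype κ'] {D0 : Dat 4 M κ} {D1 : Dat 4 M κ'}
    (P : OpPair D0 D1) {E : X → D0.toAD.WE} (h0 : Continuous fun x => D0.toAD.jj (E x))
    (h1 : Continuous fun x => Ah P (E x)) : Continuous E := by
  obtain ⟨C, hC0, hC⟩ := garding (P := P) (dns4 D0)
  rw [continuous_iff_continuousAt]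
  intro x0
  have h2 : Continuous fun x => C * (‖Ah P (E x) - Ah P (E x0)‖ ^ 2 +
      ‖D0.toAD.jj (E x) - D0.toAD.jj (E x0)‖ ^ 2) :=
    continuous_const.mul ((((h1.sub continuous_const).norm).pow 2).add
      (((h0.sub continuous_const).norm).pow 2))
  have h3 : Tendsto (fun x => ‖E x - E x0‖ ^ 2) (𝓝 x0) (𝓝 0) := by
    have h4 := h2.tendsto x0
    simp only [sub_self, norm_zero, ne_eq, OfNat.ofNat_ne_zero, not_false_eq_true, zero_pow,
      add_zero, mul_zero] at h4
    refine squeeze_zero (fun x => by positivity) (fun x => ?_) h4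
    have h5 := hC (E x - E x0)
    rw [map_sub, map_sub] at h5
    exact h5
  have h4 : Tendsto (fun x => ‖E x - E x0‖) (𝓝 x0) (𝓝 0) := by
    have h5 := h3.sqrt
    simpa only [Real.sqrt_sq (norm_nonneg _), Real.sqrt_zero] using h5
  exact tendsto_iff_norm_sub_tendsto_zero.2 h4

end fam

/-! ### the Dirac equation -/

variable {κ0 κ1 κT : Type} [Fintype κ0] [Fintype κ1] [Fintype κT]

theorem sm_sc {S : SWS M κ0 κ1 κT} {τ : TD M κT} {C : ℝ} (hτ : τ.OK S C) {s : κ0 → M → ℝ}
    (hs : SmV (n := 4) s) (p : ℝ) : SmV (n := 4) (τ.sc p s) := fun y =>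
  (SWUni_312.smooth_rpow hτ.smrr hτ.pos p).mul (hs y)

theorem sec_sc {S : SWS M κ0 κ1 κT} (τ : TD M κT) {s : κ0 → M → ℝ} (hs : S.D0.Sec s) (p : ℝ) :
    S.D0.Sec (τ.sc p s) := by
  intro y z
  have h : ∑ y', S.D0.p y y' z * s y' z = s y z := hs y z
  show ∑ y', S.D0.p y y' z * (τ.rr z ^ p * s y' z) = τ.rr z ^ p * s y z
  rw [← h, Finset.mul_sum]
  exact Finset.sum_congr rfl fun y' _ => by ring

/-- **a parallel section of the flat bundle solves the Dirac equation**. -/
theorem dir_zero {S : SWS M κ0 κ1 κT} {τ : TD M κT} {C r : ℝ} (hS : S.OK) (hτ : τ.OK S C)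
    {th : κT → M → ℝ} (hth : SmV (n := 4) th) (hsth : S.DT.Sec th) (hfl : τ.Flat S th)
    {s : κ0 → M → ℝ} (hs : τ.PSec S th r s) (x : κ1) (z : M) :
    S.P.A (τ.sc (3 / 4) s) x z = - S.cm th (τ.sc (3 / 4) s) x z := by
  have := isOpenPosMeasure 4 M
  have hu := sm_sc hτ hs.sm (3 / 4)
  have hus := sec_sc (S := S) τ hs.sec.1 (3 / 4)
  have h1 := hτ.T1 th s hth hsth hs.sm hs.sec
  have h2 : ∀ z, (τ.rr z * (∑ y, ‖τ.nE S th s y z‖ ^ 2) -
      τ.rr z * (∑ k, (S.H.B th k.succ z + τ.fE k z) * τ.n k z) * ∑ y, s y z ^ 2) = 0 := by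
    intro z
    have e1 : ∀ k, S.H.B th k.succ z + τ.fE k z = 0 := fun k => by
      have := hfl k z
      linarith
    simp only [hs.par, e1, norm_zero, ne_eq, OfNat.ofNat_ne_zero, not_false_eq_true, zero_pow,
      Finset.sum_const_zero, mul_zero, zero_mul, sub_self]
  simp only [h2, integral_zero] at h1
  -- the integrand is continuous and nonnegative
  have hcA : ∀ x, Continuous fun z => S.P.A (τ.sc (3 / 4) s) x z := fun x =>
    (S.P.smA _ hu hus x).continuous
  have hcc : ∀ x, Continuous fun z => S.cm th (τ.sc (3 / 4) s) x z := by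
    intro x
    unfold SWS.cm
    exact continuous_finsetSum _ fun A _ => continuous_finsetSum _ fun y _ =>
      ((hth A).continuous.mul (hu y).continuous).mul (hS.smcl A x y).continuous
  have hcr : Continuous fun z => τ.rr z ^ (-(1 / 2) : ℝ) :=
    (SWUni_312.smooth_rpow hτ.smrr hτ.pos _).continuous
  have hc : Continuous fun z => τ.rr z ^ (-(1 / 2) : ℝ) *
      ∑ x, ((S.P.A (τ.sc (3 / 4) s) + S.cm th (τ.sc (3 / 4) s)) x z) ^ 2 :=
    hcr.mul (continuous_finsetSum _ fun x _ => ((hcA x).add (hcc x)).pow 2)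
  have h0 : 0 ≤ fun z => τ.rr z ^ (-(1 / 2) : ℝ) *
      ∑ x, ((S.P.A (τ.sc (3 / 4) s) + S.cm th (τ.sc (3 / 4) s)) x z) ^ 2 := fun z =>
    mul_nonneg (Real.rpow_nonneg (hτ.pos z).le _) (Finset.sum_nonneg fun x _ => sq_nonneg _)
  have hint : Integrable (fun z => τ.rr z ^ (-(1 / 2) : ℝ) *
      ∑ x, ((S.P.A (τ.sc (3 / 4) s) + S.cm th (τ.sc (3 / 4) s)) x z) ^ 2)
      (μHE[4] : Measure M) :=
    hc.integrable_of_hasCompactSupport (HasCompactSupport.of_compactSpace _)
  have h3 := (integral_eq_zero_iff_of_nonneg h0 hint).1 h1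
  have h4 := (hc.ae_eq_iff_eq (μHE[4] : Measure M) continuous_const).1 h3
  have h5 : τ.rr z ^ (-(1 / 2) : ℝ) *
      ∑ x, ((S.P.A (τ.sc (3 / 4) s) + S.cm th (τ.sc (3 / 4) s)) x z) ^ 2 = 0 := congrFun h4 z
  have h6 : 0 < τ.rr z ^ (-(1 / 2) : ℝ) := Real.rpow_pos_of_pos (hτ.pos z) _
  have h7 := (mul_eq_zero.1 h5).resolve_left h6.ne'
  have h8 := (Finset.sum_eq_zero_iff_of_nonneg fun x _ => sq_nonneg _).1 h7 x (Finset.mem_univ x)
  have h9 := pow_eq_zero_iff two_ne_zero |>.1 h8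
  have h10 : S.P.A (τ.sc (3 / 4) s) x z + S.cm th (τ.sc (3 / 4) s) x z = 0 := h9
  linarith

/-! ### the family over `S³` -/

section hopf

variable {S : SWS M κ0 κ1 κT} {ww : Fin 3 → Fin 3 → M → ℝ} {τ : E3 → TD M κT} {C : ℝ}
  {th : E3 → κT → M → ℝ} {pi : EuclideanSpace ℂ (Fin 2) → E3}
  {U : EuclideanSpace ℂ (Fin 2) → κ0 → M → ℝ}

/-- `ρ^{3/4} U s`. -/
def us (τ : E3 → TD M κT) (pi : EuclideanSpace ℂ (Fin 2) → E3)
    (U : EuclideanSpace ℂ (Fin 2) → κ0 → M → ℝ) (s : EuclideanSpace ℂ (Fin 2)) : κ0 → M → ℝ :=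
  (τ (pi s)).sc (3 / 4) (U s)

theorem smu (hp : HopfD S ww τ C th pi U) {s : EuclideanSpace ℂ (Fin 2)} (hs : ‖s‖ = 1) :
    SmV (n := 4) (us τ pi U s) :=
  sm_sc (hp.fam.tau _ (hp.npi s hs)) (hp.psec s hs).sm _

theorem secu (hp : HopfD S ww τ C th pi U) {s : EuclideanSpace ℂ (Fin 2)} (hs : ‖s‖ = 1) :
    S.D0.Sec (us τ pi U s) :=
  sec_sc _ (hp.psec s hs).sec.1 _

/-- **Dirac equation** of the family. -/
theorem dir_us (hp : HopfD S ww τ C th pi U) {s : EuclideanSpace ℂ (Fin 2)} (hs : ‖s‖ = 1) (x : κ1)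
    (z : M) : S.P.A (us τ pi U s) x z = - S.cm (th (pi s)) (us τ pi U s) x z :=
  dir_zero hp.fam.ok (hp.fam.tau _ (hp.npi s hs)) (hp.fam.smth _ (hp.npi s hs))
    (hp.fam.secth _ (hp.npi s hs)) (hp.fam.flat _ (hp.npi s hs)) (hp.psec s hs) x z

/-- the sphere. -/
abbrev S3 : Type := {s : EuclideanSpace ℂ (Fin 2) // s ∈ Metric.sphere (0 : EuclideanSpace ℂ (Fin 2)) 1}

theorem nS3 (s : S3) : ‖(s : EuclideanSpace ℂ (Fin 2))‖ = 1 := by
  have h := s.2
  rwa [mem_sphere_zero_iff_norm] at h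

/-- `ρ^{3/4} U s` is jointly continuous. -/
theorem cont_us (hp : HopfD S ww τ C th pi U) (y : κ0) :
    Continuous fun q : S3 × M => us τ pi U q.1 y q.2 := by
  have e : (fun q : S3 × M => us τ pi U q.1 y q.2) = fun q : S3 × M =>
      (√(∑ k, (∑ i, pi q.1 i * ww i k q.2) ^ 2)) ^ (3 / 4 : ℝ) * U q.1 y q.2 := by
    funext q
    show (τ (pi q.1)).rr q.2 ^ (3 / 4 : ℝ) * U q.1 y q.2 = _
    rw [hp.fam.rr _ _ (hp.npi _ (nS3 q.1))]
  rw [e]
  have hpi : Continuous fun q : S3 × M => pi q.1 :=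
    hp.cpi.comp (continuous_subtype_val.comp continuous_fst)
  refine Continuous.mul ?_ ?_
  · refine Continuous.rpow_const ?_ fun q => Or.inr (by norm_num)
    refine Real.continuous_sqrt.comp (continuous_finsetSum _ fun k _ => ?_)
    refine (continuous_finsetSum _ fun i _ => ?_).pow 2
    refine Continuous.mul ?_ ((hp.fam.smw i k).continuous.comp continuous_snd)
    exact (EuclideanSpace.proj (𝕜 := ℝ) i).continuous.comp hpi
  · have h1 : Continuous fun q : S3 × M => ((q.1 : EuclideanSpace ℂ (Fin 2)), q.2) :=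
      (continuous_subtype_val.comp continuous_fst).prodMk continuous_snd
    exact (hp.cU y).comp_continuous h1 fun q => nS3 q.1

/-- `c(ϑ) i ρ^{3/4} U s` is jointly continuous. -/
theorem cont_cm (hp : HopfD S ww τ C th pi U) (x : κ1) :
    Continuous fun q : S3 × M => - S.cm (th (pi q.1)) (us τ pi U q.1) x q.2 := by
  unfold SWS.cm
  refine (continuous_finsetSum _ fun A _ => continuous_finsetSum _ fun y _ => ?_).neg
  refine Continuous.mul (Continuous.mul ?_ (cont_us hp y))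
    ((hp.fam.ok.smcl A x y).continuous.comp continuous_snd)
  have h1 : Continuous fun q : S3 × M => (pi q.1, q.2) :=
    (hp.cpi.comp (continuous_subtype_val.comp continuous_fst)).prodMk continuous_snd
  exact (hp.fam.cth A).comp_continuous h1 fun q => hp.npi _ (nS3 q.1)

/-- the family in `W^{1,2}`. -/
def Qs (hp : HopfD S ww τ C th pi U) (s : S3) : S.D0.toAD.WE :=
  cW S.D0 ⟨us τ pi U s, smu hp (nS3 s), secu hp (nS3 s)⟩

theorem cont_Qs (hp : HopfD S ww τ C th pi U) : Continuous (Qs hp) := by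
  refine cont_W S.P ?_ ?_
  · refine Continuous.subtype_mk (f := fun s => S.D0.toAD.i1 (Qs hp s)) ?_ _
    exact cont_H (w := fun (s : S3) => us τ pi U s) (cont_us hp) fun s => coe_cW _
  · refine continuous_induced_rng.2 ?_
    refine cont_H (w := fun (s : S3) x z => - S.cm (th (pi s)) (us τ pi U s) x z) (cont_cm hp)
      fun s => ?_
    filter_upwards [Apx_649.coe_Ah S.P ⟨us τ pi U s, smu hp (nS3 s), secu hp (nS3 s)⟩] with z e1 x
    refine (e1 x).trans ?_
    exact dir_us hp (nS3 s) x z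

/-- **cQ** : every `Q` represented by `c ρ^{3/4} U s` on the sphere is continuous there. -/
theorem cQ (hp : HopfD S ww τ C th pi U) (c : ℝ)
    {Q : EuclideanSpace ℂ (Fin 2) → S.D0.toAD.WE}
    (hQ : ∀ s, ‖s‖ = 1 → ∀ᵐ z ∂(μHE[4] : Measure M), ∀ y,
      rp (Q s) y z = c * (τ (pi s)).rr z ^ (3 / 4 : ℝ) * U s y z) :
    ContinuousOn Q {s | ‖s‖ = 1} := by
  have h1 : ∀ s : S3, Q s = c • Qs hp s := by
    intro s
    apply S.D0.toAD.jj_injective
    rw [map_smul]
    apply Subtype.ext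
    ext y
    have e0 := coe_cW (⟨us τ pi U s, smu hp (nS3 s), secu hp (nS3 s)⟩ : SmS S.D0)
    filter_upwards [hQ s (nS3 s), e0, Lp.coeFn_smul c (S.D0.toAD.i1 (Qs hp s) y)] with z e1 e2 e3
    refine (e1 y).trans ?_
    refine Eq.trans ?_ e3.symm
    rw [Pi.smul_apply]
    have e4 : (S.D0.toAD.i1 (Qs hp s) y : M → ℝ) z = us τ pi U s y z := e2 y
    rw [e4]
    show _ = c • ((τ (pi s)).rr z ^ (3 / 4 : ℝ) * U s y z)
    rw [smul_eq_mul, mul_assoc]
  have hset : {s : EuclideanSpace ℂ (Fin 2) | ‖s‖ = 1} =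
      Metric.sphere (0 : EuclideanSpace ℂ (Fin 2)) 1 := by
    ext s
    simp
  rw [hset, continuousOn_iff_continuous_domRestrict]
  have h2 : (Metric.sphere (0 : EuclideanSpace ℂ (Fin 2)) 1).domRestrict Q =
      fun s => c • Qs hp s := funext h1
  rw [h2]
  exact (cont_Qs hp).const_smul c

end hopf

end

end Crest.Agent.R235.SWJq_649
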