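import Crest.Agent.R235.SWTd_451

/-!
Row 235 (S0364), PACKAGE SW, MODEL-4 (helper451): the shift `sh` of the connection of the eigenline
`E`, and the structure `TE` of `TauG_483` (Dirac operator on `E` and on its complement).
-/

set_option autoImplicit false
set_option maxSynthPendingDepth 3
set_option linter.unusedSectionVars false

open scoped ContDiff ENNReal NNReal Topology Manifold Bundle RealInnerProductSpace
open MeasureTheory Set Filter Metric Bundle

universe v

namespace Crest.Agent.R235.SWTe_451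

open Crest.Agent.R249.Tv57 Crest.Agent.R247.Ms322 Crest.Agent.R247.Dir593
open Crest.Agent.R247.Frd657
open Crest.Agent.R235.SWDefs_53 Crest.Agent.R235.SWSym_451 Crest.Agent.R235.SWTd_451
open Crest.Agent.R235.SWPt_451
open Crest.Agent.R249.Tz805 (ToF)

noncomputable section

variable {M : Type v} [MetricSpace M] [CompactSpace M] [ConnectedSpace M]
  [ChartedSpace (EuclideanSpace ℝ (Fin 4)) M] [IsManifold (𝓡 4) ∞ M]
  [RiemannianBundle (fun p : M => TangentSpace (𝓡 4) p)]
  [IsContMDiffRiemannianBundle (𝓡 4) ∞ (EuclideanSpace ℝ (Fin 4))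
    (fun p : M => TangentSpace (𝓡 4) p)]
  [IsRiemannianManifold (𝓡 4) M] [MeasurableSpace M] [BorelSpace M]
  [SecondCountableTopology M] [Nonempty M]
  {κ0 κ1 κT : Type} [Fintype κ0] [Fintype κ1] [Fintype κT]

/-! ### the projections -/

/-- `(p + ∑ m_k ρ_k) / 2`. -/
def Pr (S : SWS M κ0 κ1 κT) (m : Fin 3 → M → ℝ) (y y' : κ0) (z : M) : ℝ :=
  (1 / 2) * (S.D0.p y y' z + ∑ k, m k z * S.rho k y y' z)

variable {S : SWS M κ0 κ1 κT} {cc : κ1 → κ0 → M → EuclideanSpace ℝ (Fin 4)}

/-- matrices at a point. -/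
def mp (S : SWS M κ0 κ1 κT) (z : M) : Matrix κ0 κ0 ℝ := fun a b => S.D0.p a b z
def mr (S : SWS M κ0 κ1 κT) (k : Fin 3) (z : M) : Matrix κ0 κ0 ℝ := fun a b => S.rho k a b z
def mJ (S : SWS M κ0 κ1 κT) (z : M) : Matrix κ0 κ0 ℝ := fun a b => S.J a b z

theorem mp_idem (z : M) : mp S z * mp S z = mp S z := by
  ext a b; simpa [Matrix.mul_apply, mp] using S.D0.idem a b z

theorem mp_symm (z : M) : (mp S z).transpose = mp S z := by
  ext a b; exact S.D0.symmp b a z

theorem mr_symm (H : Sym S cc) (k : Fin 3) (z : M) : (mr S k z).transpose = mr S k z := by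
  ext a b; exact H.symrho k b a z

theorem mJ_skew (H : Sym S cc) (z : M) : (mJ S z).transpose = - mJ S z := by
  ext a b; exact H.skewJ b a z

theorem mp_mr (H : Sym S cc) (k : Fin 3) (z : M) : mp S z * mr S k z = mr S k z := by
  ext a b; simpa [Matrix.mul_apply, mp, mr] using H.prho k a b z

theorem mr_mp (H : Sym S cc) (k : Fin 3) (z : M) : mr S k z * mp S z = mr S k z := by
  have := congrArg Matrix.transpose (mp_mr H k z)
  rwa [Matrix.transpose_mul, mp_symm, mr_symm H] at this

theorem mp_mJ (H : Sym S cc) (z : M) : mp S z * mJ S z = mJ S z := by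
  ext a b; simpa [Matrix.mul_apply, mp, mJ] using H.pJ a b z

theorem mJ_mp (H : Sym S cc) (z : M) : mJ S z * mp S z = mJ S z := by
  have := congrArg Matrix.transpose (mp_mJ H z)
  rw [Matrix.transpose_mul, mp_symm, mJ_skew H, Matrix.neg_mul] at this
  exact neg_injective this

theorem mJ_mr (H : Sym S cc) (k : Fin 3) (z : M) : mJ S z * mr S k z = mr S k z * mJ S z := by
  ext a b; simpa [Matrix.mul_apply, mJ, mr] using H.Jrho k a b z

theorem mr_anti (H : Sym S cc) (j k : Fin 3) (z : M) :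
    mr S j z * mr S k z + mr S k z * mr S j z = if j = k then (2 : ℝ) • mp S z else 0 := by
  ext a b
  have h := H.anti j k a b z
  rw [Finset.sum_add_distrib] at h
  split_ifs with hjk
  · rw [if_pos hjk] at h
    simpa [Matrix.mul_apply, mr, mp] using h
  · rw [if_neg hjk] at h
    simpa [Matrix.mul_apply, mr, mp] using h

theorem mr_sq (H : Sym S cc) (k : Fin 3) (z : M) : mr S k z * mr S k z = mp S z := by
  have h := mr_anti H k k z
  rw [if_pos rfl, ← two_smul ℝ] at h
  exact smul_right_injective _ (two_ne_zero' ℝ) h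

theorem mr_trace (H : Sym S cc) (k : Fin 3) (z : M) : (mr S k z).trace = 0 := by
  have hj : ∃ j : Fin 3, j ≠ k := by
    fin_cases k
    · exact ⟨1, by decide⟩
    · exact ⟨0, by decide⟩
    · exact ⟨0, by decide⟩
  obtain ⟨j, hj⟩ := hj
  have h1 : (mr S k z).trace = (mr S j z * mr S k z * mr S j z).trace := by
    rw [Matrix.trace_mul_comm, ← Matrix.mul_assoc, mr_sq H, mp_mr H]
  have h2 := mr_anti H j k z
  rw [if_neg hj] at h2
  have h3 : mr S j z * mr S k z = - (mr S k z * mr S j z) := eq_neg_of_add_eq_zero_left h2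
  rw [h3, Matrix.neg_mul, Matrix.mul_assoc, mr_sq H, mr_mp H, Matrix.trace_neg] at h1
  linarith

/-- `R = ∑ m_k ρ_k` at a point. -/
def mR (S : SWS M κ0 κ1 κT) (m : Fin 3 → M → ℝ) (z : M) : Matrix κ0 κ0 ℝ :=
  ∑ k, m k z • mr S k z

theorem mR_apply (m : Fin 3 → M → ℝ) (z : M) (a b : κ0) :
    mR S m z a b = ∑ k, m k z * S.rho k a b z := by
  simp [mR, Matrix.sum_apply, mr]

theorem mR_sq (H : Sym S cc) {m : Fin 3 → M → ℝ} (z : M) (hm : ∑ k, m k z ^ 2 = 1) :
    mR S m z * mR S m z = mp S z := by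
  have h1 : mR S m z * mR S m z = ∑ j, ∑ k, (m j z * m k z) • (mr S j z * mr S k z) := by
    rw [mR, Matrix.sum_mul]
    refine Finset.sum_congr rfl fun j _ => ?_
    rw [Matrix.mul_sum]
    refine Finset.sum_congr rfl fun k _ => ?_
    rw [Matrix.smul_mul, Matrix.mul_smul, smul_smul]
  have h2 : mR S m z * mR S m z = ∑ j, ∑ k, (m j z * m k z) • (mr S k z * mr S j z) := by
    rw [h1, Finset.sum_comm]
    refine Finset.sum_congr rfl fun j _ => Finset.sum_congr rfl fun k _ => ?_
    rw [mul_comm]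
  have h3 : (2 : ℝ) • (mR S m z * mR S m z) = (2 : ℝ) • mp S z := by
    rw [two_smul]
    conv_lhs =>
      congr
      · rw [h1]
      · rw [h2]
    rw [← Finset.sum_add_distrib]
    simp only [← Finset.sum_add_distrib, ← smul_add, mr_anti H]
    simp only [smul_ite, smul_zero, Finset.sum_ite_eq, Finset.mem_univ, if_true, smul_smul]
    rw [← Finset.sum_smul]
    congr 1
    rw [← Finset.sum_mul]
    have : ∑ k, m k z * m k z = 1 := by
      rw [← hm]; exact Finset.sum_congr rfl fun k _ => (sq _).symm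
    rw [this, one_mul]
  exact smul_right_injective _ (two_ne_zero' ℝ) h3

/-- the matrix of `Pr` at a point. -/
def mP (S : SWS M κ0 κ1 κT) (m : Fin 3 → M → ℝ) (z : M) : Matrix κ0 κ0 ℝ :=
  (1 / 2 : ℝ) • (mp S z + mR S m z)

theorem mP_apply (m : Fin 3 → M → ℝ) (z : M) (a b : κ0) : mP S m z a b = Pr S m a b z := by
  simp only [mP, Pr, Matrix.smul_apply, Matrix.add_apply, mR_apply, smul_eq_mul, mp]

theorem mR_symm (H : Sym S cc) (m : Fin 3 → M → ℝ) (z : M) :
    (mR S m z).transpose = mR S m z := by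
  rw [mR, Matrix.transpose_sum]
  refine Finset.sum_congr rfl fun k _ => ?_
  rw [Matrix.transpose_smul, mr_symm H]

theorem mp_mR (H : Sym S cc) (m : Fin 3 → M → ℝ) (z : M) : mp S z * mR S m z = mR S m z := by
  rw [mR, Matrix.mul_sum]
  refine Finset.sum_congr rfl fun k _ => ?_
  rw [Matrix.mul_smul, mp_mr H]

theorem mR_mp (H : Sym S cc) (m : Fin 3 → M → ℝ) (z : M) : mR S m z * mp S z = mR S m z := by
  rw [mR, Matrix.sum_mul]
  refine Finset.sum_congr rfl fun k _ => ?_
  rw [Matrix.smul_mul, mr_mp H]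

theorem mR_mJ (H : Sym S cc) (m : Fin 3 → M → ℝ) (z : M) :
    mR S m z * mJ S z = mJ S z * mR S m z := by
  rw [mR, Matrix.sum_mul, Matrix.mul_sum]
  refine Finset.sum_congr rfl fun k _ => ?_
  rw [Matrix.smul_mul, Matrix.mul_smul, mJ_mr H]

theorem mP_idem (H : Sym S cc) {m : Fin 3 → M → ℝ} (z : M) (hm : ∑ k, m k z ^ 2 = 1) :
    mP S m z * mP S m z = mP S m z := by
  rw [mP, Matrix.smul_mul, Matrix.mul_smul, Matrix.add_mul, Matrix.mul_add, Matrix.mul_add,
    mp_idem, mp_mR H, mR_mp H, mR_sq H z hm]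
  have : mp S z + mR S m z + (mR S m z + mp S z) = (2 : ℝ) • (mp S z + mR S m z) := by
    rw [two_smul]; abel
  rw [this, smul_smul, smul_smul]
  norm_num

theorem mP_symm (H : Sym S cc) (m : Fin 3 → M → ℝ) (z : M) :
    (mP S m z).transpose = mP S m z := by
  rw [mP, Matrix.transpose_smul, Matrix.transpose_add, mp_symm, mR_symm H]

theorem mp_mP (H : Sym S cc) (m : Fin 3 → M → ℝ) (z : M) : mp S z * mP S m z = mP S m z := by
  rw [mP, Matrix.mul_smul, Matrix.mul_add, mp_idem, mp_mR H]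

theorem mP_mJ (H : Sym S cc) (m : Fin 3 → M → ℝ) (z : M) :
    mP S m z * mJ S z = mJ S z * mP S m z := by
  rw [mP, Matrix.smul_mul, Matrix.add_mul, mp_mJ H, mR_mJ H, Matrix.mul_smul, Matrix.mul_add,
    mJ_mp H]

theorem mP_trace (H : Sym S cc) (m : Fin 3 → M → ℝ) (z : M) : (mP S m z).trace = 2 := by
  have h1 : (mp S z).trace = 4 := H.rk0 z
  rw [mP, Matrix.trace_smul, Matrix.trace_add, mR, Matrix.trace_sum, h1]
  simp only [Matrix.trace_smul, mr_trace H, smul_eq_mul]
  norm_num

theorem pj (H : Sym S cc) {m : Fin 3 → M → ℝ}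
    (hsm : ∀ k, ContMDiff (𝓡 4) 𝓘(ℝ, ℝ) ∞ (m k)) (hm : ∀ z, ∑ k, m k z ^ 2 = 1) :
    Pj S (Pr S m) where
  sm a b := contMDiff_const.mul ((S.D0.smp a b).add
    (contMDiff_finsetSum fun k _ => (hsm k).mul (H.smrho k a b)))
  symm a b z := by
    have h := congrFun (congrFun (mP_symm H m z) b) a
    rw [Matrix.transpose_apply, mP_apply, mP_apply] at h
    exact h
  idem a b z := by
    have h := congrFun (congrFun (mP_idem H z (hm z)) a) b
    rw [Matrix.mul_apply] at h
    simpa only [mP_apply] using h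
  pP a b z := by
    have h := congrFun (congrFun (mp_mP H m z) a) b
    rw [Matrix.mul_apply] at h
    simpa only [mP_apply, mp] using h
  PJ a b z := by
    have h := congrFun (congrFun (mP_mJ H m z) a) b
    rw [Matrix.mul_apply, Matrix.mul_apply] at h
    simpa only [mP_apply, mJ] using h

/-! ### the point data -/

/-- the Clifford matrices of the standard basis. -/
def mc (cc : κ1 → κ0 → M → EuclideanSpace ℝ (Fin 4)) (i : Fin 4) (z : M) : Matrix κ1 κ0 ℝ :=
  fun x y => ⟪cc x y z, EuclideanSpace.single i (1 : ℝ)⟫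

def mp1 (S : SWS M κ0 κ1 κT) (z : M) : Matrix κ1 κ1 ℝ := fun a b => S.D1.p a b z

theorem exists_pnt (H : Sym S cc) {m : Fin 3 → M → ℝ} (z : M) (hm : ∑ k, m k z ^ 2 = 1) :
    ∃ J1 : Matrix κ1 κ1 ℝ, Pnt (mp S z) (mJ S z) (mP S m z) (mp1 S z) J1 (fun i => mc cc i z) ∧
      ∀ x y, ∑ x', J1 x x' • cc x' y z = ∑ y', S.J y' y z • cc x y' z := by
  obtain ⟨J1, hJ1, hJc⟩ := H.exJ1 z
  refine ⟨Matrix.of J1, ?_, hJc⟩
  refine
    { clif := fun i j => ?_
      cp := fun i => ?_
      pc := fun i => ?_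
      p1s := ?_
      p1i := ?_
      p1t := H.rk1 z
      Js := mJ_skew H z
      J1s := ?_
      Jsq := ?_
      Jc := fun i => ?_
      Ps := mP_symm H m z
      PP := mP_idem H z hm
      trP := mP_trace H m z
      pP := mp_mP H m z
      PJ := mP_mJ H m z }
  · ext a b
    have h := H.clif0 z (EuclideanSpace.single i (1 : ℝ)) (EuclideanSpace.single j (1 : ℝ)) a b
    rw [Finset.sum_add_distrib] at h
    rw [Matrix.add_apply, Matrix.mul_apply, Matrix.mul_apply]
    have h2 : (⟪(EuclideanSpace.single i (1 : ℝ) : EuclideanSpace ℝ (Fin 4)),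
        EuclideanSpace.single j (1 : ℝ)⟫ : ℝ) = if i = j then 1 else 0 := by
      rw [EuclideanSpace.inner_single_left]
      by_cases hij : i = j
      · subst hij; simp
      · simp [hij]
    rw [h2] at h
    simp only [Matrix.transpose_apply]
    unfold mc
    rw [h]
    split_ifs with hij
    · simp [mp]
    · simp
  · ext x y
    rw [Matrix.mul_apply]
    unfold mc mp
    rw [← H.cc_p x y z, sum_inner]
    refine Finset.sum_congr rfl fun y' _ => ?_
    rw [real_inner_smul_left, mul_comm]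
  · ext x y
    rw [Matrix.mul_apply]
    unfold mc mp1
    rw [← H.p_cc x y z, sum_inner]
    refine Finset.sum_congr rfl fun y' _ => ?_
    rw [real_inner_smul_left]
  · ext a b; exact S.D1.symmp b a z
  · ext a b; simpa [Matrix.mul_apply, mp1] using S.D1.idem a b z
  · ext a b; exact hJ1 b a
  · ext a b; simpa [Matrix.mul_apply, mp, mJ] using H.Jsq a b z
  · ext x y
    rw [Matrix.mul_apply, Matrix.mul_apply]
    unfold mc mJ
    have h := congrArg (fun v : EuclideanSpace ℝ (Fin 4) =>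
      (⟪v, EuclideanSpace.single i (1 : ℝ)⟫ : ℝ)) (hJc x y)
    simp only [sum_inner, real_inner_smul_left] at h
    simp only [Matrix.of_apply]
    rw [h]
    refine Finset.sum_congr rfl fun y' _ => ?_
    rw [mul_comm]

end

end Crest.Agent.R235.SWTe_451
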