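import Crest.Agent.R235.SupbA_433

/-!
# Row 235, SW-SUPB (helper433): the sup bound of the spinor from the Weitzenboeck identity on `W^{1,2}`

`supb_of : (∀ S, S.OK → WtzH S) → SUPB`.
-/

set_option autoImplicit false
set_option linter.unusedSectionVars false
set_option maxSynthPendingDepth 3
open scoped ContDiff ENNReal NNReal Topology Manifold Bundle RealInnerProductSpace
open MeasureTheory Set Filter Metric Bundle

universe v

noncomputable section
namespace Crest.Agent.R235.Supb_433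

open Crest.Agent.R247.Dir593 Crest.Agent.R247.Ms322 Crest.Agent.R247.Frd657
open Crest.Agent.R249.Tv57 Crest.Agent.R235.Dens_433 Crest.Agent.R235.Fs4_546
open Crest.Agent.R235.Dns_433 Crest.Agent.R235.SWDefs_53 Crest.Agent.R235.W12_109
open Crest.Agent.R235.SupbA_433

/-! ### pointwise algebra -/

section alg
variable {ι : Type} [Fintype ι] {F : Type*} [NormedAddCommGroup F] [InnerProductSpace ℝ F]

/-- the gradient part is nonnegative -/
theorem grad_nonneg {N : ι → F} {u : ι → ℝ} {q : F} {h h' : ℝ} (hh : 0 ≤ h) (hh' : 0 ≤ h')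
    (hq : ∑ y, u y • N y = q) : 0 ≤ ∑ y, (⟪N y, h • N y + (2 * h' * u y) • q⟫ : ℝ) := by
  have e : ∑ y, (⟪N y, h • N y + (2 * h' * u y) • q⟫ : ℝ) =
      h * ∑ y, ‖N y‖ ^ 2 + 2 * h' * ‖q‖ ^ 2 := by
    have e1 : ∀ y, (⟪N y, h • N y + (2 * h' * u y) • q⟫ : ℝ) =
        h * ‖N y‖ ^ 2 + 2 * h' * ⟪u y • N y, q⟫ := by
      intro y
      rw [inner_add_right, real_inner_smul_right, real_inner_smul_right, real_inner_smul_left,
        real_inner_self_eq_norm_sq]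
      ring
    simp only [e1]
    rw [Finset.sum_add_distrib, ← Finset.mul_sum, ← Finset.mul_sum, ← sum_inner, hq,
      real_inner_self_eq_norm_sq]
  rw [e]
  positivity

/-- a skew matrix gives a null quadratic form -/
theorem skew_zero {J : ι → ι → ℝ} (hJ : ∀ y y', J y y' = - J y' y) (u : ι → ℝ) :
    ∑ y, u y * ∑ y', J y y' * u y' = 0 := by
  have h1 : ∑ y, u y * ∑ y', J y y' * u y' = - ∑ y, u y * ∑ y', J y y' * u y' := by
    conv_lhs => simp only [Finset.mul_sum]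
    rw [Finset.sum_comm]
    simp only [Finset.mul_sum, ← Finset.sum_neg_distrib]
    refine Finset.sum_congr rfl fun y _ => Finset.sum_congr rfl fun y' _ => ?_
    rw [hJ y' y]
    ring
  linarith

/-- bounded symmetric forms -/
theorem quad_bound {Q : ι → ι → ℝ} {K : ℝ} (hK : ∀ y y', |Q y y'| ≤ K) (u : ι → ℝ) :
    |∑ y, ∑ y', Q y y' * u y' * u y| ≤ K * (Fintype.card ι) ^ 2 * nsq u := by
  calc |∑ y, ∑ y', Q y y' * u y' * u y| ≤ ∑ y, ∑ y', |Q y y' * u y' * u y| :=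
        (Finset.abs_sum_le_sum_abs _ _).trans
          (Finset.sum_le_sum fun y _ => Finset.abs_sum_le_sum_abs _ _)
    _ ≤ ∑ _y : ι, ∑ _y' : ι, K * nsq u := by
        refine Finset.sum_le_sum fun y _ => Finset.sum_le_sum fun y' _ => ?_
        rw [mul_assoc, abs_mul]
        exact mul_le_mul (hK y y') (abs_mul_le_nsq u y' y) (abs_nonneg _)
          ((abs_nonneg _).trans (hK y y'))
    _ = K * (Fintype.card ι) ^ 2 * nsq u := by
        simp only [Finset.sum_const, Finset.card_univ, nsmul_eq_mul]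
        ring

/-- the zeroth order part -/
theorem zero_order {s h Qu μ μ0 τ2 C0 Kq K : ℝ} {r c : Fin 3 → ℝ} (hh : 0 ≤ h) (hs0 : 0 ≤ s)
    (hQ : |Qu| ≤ Kq * s) (hμ : μ0 ≤ μ) (hμ0 : 0 < μ0) (hτ : C0 ≤ τ2 * s) (hC0 : 0 ≤ C0)
    (hr : ∑ k, r k ^ 2 = s ^ 2) (hc : ∀ k, |c k| ≤ K)
    (hbig : Kq + 3 * K + 1 ≤ 1 / 2 * μ0 * C0) :
    h * s ≤ h * Qu + ∑ k, (μ * ((1 / 2) * (τ2 * r k)) + c k) * (h * r k) := by
  have hrk : ∀ k, |r k| ≤ s := by
    intro k
    have h1 : r k ^ 2 ≤ s ^ 2 := by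
      rw [← hr]
      exact Finset.single_le_sum (f := fun k => r k ^ 2) (fun _ _ => sq_nonneg _) (Finset.mem_univ k)
    exact abs_le_of_sq_le_sq h1 hs0
  have e1 : ∑ k, (μ * ((1 / 2) * (τ2 * r k)) + c k) * (h * r k) =
      h * (1 / 2 * μ * τ2 * s ^ 2 + ∑ k, c k * r k) := by
    rw [← hr]
    simp only [Finset.mul_sum, mul_add, ← Finset.sum_add_distrib]
    exact Finset.sum_congr rfl fun k _ => by ring
  rw [e1, ← mul_add]
  refine mul_le_mul_of_nonneg_left ?_ hh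
  have h2 : |∑ k, c k * r k| ≤ 3 * K * s := by
    calc |∑ k, c k * r k| ≤ ∑ k, |c k * r k| := Finset.abs_sum_le_sum_abs _ _
      _ ≤ ∑ _k : Fin 3, K * s := by
          refine Finset.sum_le_sum fun k _ => ?_
          rw [abs_mul]
          exact mul_le_mul (hc k) (hrk k) (abs_nonneg _) ((abs_nonneg _).trans (hc k))
      _ = 3 * K * s := by simp; ring
  have h3 := (abs_le.1 h2).1
  have h4 := (abs_le.1 hQ).1
  have h5 : 1 / 2 * μ0 * C0 * s ≤ 1 / 2 * μ * τ2 * s ^ 2 := by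
    have a1 : μ0 * C0 ≤ μ * (τ2 * s) := mul_le_mul hμ hτ hC0 (hμ0.le.trans hμ)
    have a2 := mul_le_mul_of_nonneg_right a1 hs0
    nlinarith
  have h6 := mul_le_mul_of_nonneg_right hbig hs0
  nlinarith

end alg

/-! ### the manifold -/

section mfd
variable {M : Type v} [MetricSpace M] [CompactSpace M] [ConnectedSpace M]
  [ChartedSpace (EuclideanSpace ℝ (Fin 4)) M] [IsManifold (𝓡 4) ∞ M]
  [RiemannianBundle (fun p : M => TangentSpace (𝓡 4) p)]
  [IsContMDiffRiemannianBundle (𝓡 4) ∞ (EuclideanSpace ℝ (Fin 4))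
    (fun p : M => TangentSpace (𝓡 4) p)]
  [IsRiemannianManifold (𝓡 4) M] [MeasurableSpace M] [BorelSpace M]
  [SecondCountableTopology M] [Nonempty M] [IsFiniteMeasureOnCompacts (μHE[4] : Measure M)]
  {κ0 κ1 κT : Type} [Fintype κ0] [Fintype κ1] [Fintype κT] (S : SWS M κ0 κ1 κT)

/-- `nab` of the test section -/
theorem nabW_tst (hOK : S.OK) {C : ℝ} (hC : 0 ≤ C) (α : S.DT.toAD.WE) (U : S.D0.toAD.WE) :
    ∀ᵐ z ∂(μHE[4] : Measure M), (∀ y, nabW S α (tst S.D0.toAD (rf_hh hC) U) y z =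
      hh C (nsq fun b => rp U b z) • nabW S α U y z +
        (2 * hh' C (nsq fun b => rp U b z) * rp U y z) • qf S.D0.toAD U z) ∧
      ∑ y, rp U y z • nabW S α U y z = qf S.D0.toAD U z := by
  filter_upwards [cv_tst S.D0.toAD (rf_hh hC) U, coe_tst S.D0.toAD (rf_hh hC) U] with z e1 e2
  have hJ0 := skew_zero (J := fun y y' => S.J y y' z) (fun y y' => hOK.skewJ y y' z)
    (fun b => rp U b z)
  constructor
  · intro y
    have e3 : ∀ b, rp (tst S.D0.toAD (rf_hh hC) U) b z = hh C (nsq fun b => rp U b z) * rp U b z :=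
      fun b => e2 b
    have e4 : ∑ y', S.J y y' z * rp (tst S.D0.toAD (rf_hh hC) U) y' z =
        hh C (nsq fun b => rp U b z) * ∑ y', S.J y y' z * rp U y' z := by
      rw [Finset.mul_sum]
      exact Finset.sum_congr rfl fun b _ => by rw [e3 b]; ring
    unfold nabW
    rw [e1 y, e4, smul_add, smul_smul]
    simp only [rp]
    abel
  · unfold nabW
    simp only [smul_add, Finset.sum_add_distrib, smul_smul]
    rw [← Finset.sum_smul, hJ0, zero_smul, add_zero]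
    rfl

theorem sec_rp (U : S.D0.toAD.WE) : ∀ᵐ z ∂(μHE[4] : Measure M), ∀ y,
    ∑ y', S.D0.p y y' z * rp U y' z = rp U y z := by
  have h2 := S.D0.toAD.coe_P (S.D0.toAD.i1 U)
  rw [show S.D0.toAD.P (S.D0.toAD.i1 U) = S.D0.toAD.i1 U from U.2.2] at h2
  filter_upwards [h2] with z e1 a
  exact (e1 a).symm

/-- **the pointwise lower bound** -/
theorem pt_lower (hOK : S.OK) {C0 : ℝ} (hC0 : 0 ≤ C0) (α : S.DT.toAD.WE) (U : S.D0.toAD.WE)
    {Kq K μ0 : ℝ} (hQ : ∀ y y' z, |S.D0.Q y y' z| ≤ Kq) {μ : M → ℝ} {τ2 : M → ℝ}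
    {c : Fin 3 → M → ℝ} (hμ0 : 0 < μ0) (hμ : ∀ z, μ0 ≤ μ z) (hc : ∀ k z, |c k z| ≤ K)
    (hτ : ∀ z, C0 < nsq (fun b => rp U b z) → C0 ≤ τ2 z * nsq (fun b => rp U b z))
    (hbig : Kq * (Fintype.card κ0) ^ 2 + 3 * K + 1 ≤ 1 / 2 * μ0 * C0)
    (hcur : ∀ᵐ z ∂(μHE[4] : Measure M), ∀ k : Fin 3,
      (((Ah S.H.swap α : S.DL.toAD.HE) : HH (μHE[4] : Measure M) (Fin 4)) k.succ : M → ℝ) z =
        μ z * ((1 / 2) * (τ2 z * S.rq k (rp U) z)) + c k z) :
    ∀ᵐ z ∂(μHE[4] : Measure M), hh C0 (nsq fun b => rp U b z) * (nsq fun b => rp U b z) ≤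
      wInt S α U (tst S.D0.toAD (rf_hh hC0) U) z := by
  filter_upwards [nabW_tst S hOK hC0 α U, coe_tst S.D0.toAD (rf_hh hC0) U, hcur, sec_rp S U]
    with z e1 e2 e3 e4
  obtain ⟨e1, e1'⟩ := e1
  set s := nsq fun b => rp U b z with hs
  set h := hh C0 s with hh0
  have hs0 : 0 ≤ s := nsq_nonneg _
  have hh1 : 0 ≤ h := hh_nonneg _ _
  have hh2 : 0 ≤ hh' C0 s := hh'_nonneg hC0 hs0
  have e2' : ∀ b, rp (tst S.D0.toAD (rf_hh hC0) U) b z = h * rp U b z := fun b => e2 b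
  have hG : 0 ≤ ∑ y, (⟪nabW S α U y z, nabW S α (tst S.D0.toAD (rf_hh hC0) U) y z⟫ : ℝ) := by
    simp only [e1]
    exact grad_nonneg hh1 hh2 e1'
  have hQe : ∑ y, ∑ y', S.D0.Q y y' z * rp U y' z * rp (tst S.D0.toAD (rf_hh hC0) U) y z =
      h * ∑ y, ∑ y', S.D0.Q y y' z * rp U y' z * rp U y z := by
    simp only [e2', Finset.mul_sum]
    exact Finset.sum_congr rfl fun y _ => Finset.sum_congr rfl fun y' _ => by ring
  have hre : ∀ k : Fin 3, ∑ y, ∑ y', S.rho k y y' z * rp U y z *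
      rp (tst S.D0.toAD (rf_hh hC0) U) y' z = h * S.rq k (rp U) z := by
    intro k
    simp only [SWS.rq, e2', Finset.mul_sum]
    exact Finset.sum_congr rfl fun y _ => Finset.sum_congr rfl fun y' _ => by ring
  have hfz : ∑ k, S.rq k (rp U) z ^ 2 = s ^ 2 := hOK.fierz z (fun b => rp U b z) e4
  have e5 : wInt S α U (tst S.D0.toAD (rf_hh hC0) U) z =
      (∑ y, (⟪nabW S α U y z, nabW S α (tst S.D0.toAD (rf_hh hC0) U) y z⟫ : ℝ)) +
      (h * ∑ y, ∑ y', S.D0.Q y y' z * rp U y' z * rp U y z) +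
      ∑ k : Fin 3, (μ z * ((1 / 2) * (τ2 z * S.rq k (rp U) z)) + c k z) * (h * S.rq k (rp U) z) := by
    unfold wInt
    rw [hQe]
    congr 1
    exact Finset.sum_congr rfl fun k _ => by rw [hre k, e3 k]
  rw [e5]
  by_cases hsC : C0 < s
  · have h6 := zero_order (h := h) (s := s) (Qu := ∑ y, ∑ y', S.D0.Q y y' z * rp U y' z * rp U y z)
      (μ := μ z) (μ0 := μ0) (τ2 := τ2 z) (C0 := C0) (Kq := Kq * (Fintype.card κ0) ^ 2) (K := K)
      (r := fun k => S.rq k (rp U) z) (c := fun k => c k z) hh1 hs0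
      (quad_bound (Q := fun y y' => S.D0.Q y y' z) (fun y y' => hQ y y' z) (fun b => rp U b z))
      (hμ z) hμ0 (hτ z hsC) hC0 hfz (fun k => hc k z) hbig
    linarith
  · have h7 : h = 0 := hh_zero (not_lt.1 hsC)
    rw [h7]
    simp only [zero_mul, mul_zero, Finset.sum_const_zero, add_zero]
    exact hG

/-! ### the constants -/

theorem compact_ball : IsCompact {q : E3 × M | ‖q.1‖ ≤ 1} := by
  have h1 : {q : E3 × M | ‖q.1‖ ≤ 1} = Metric.closedBall (0 : E3) 1 ×ˢ (univ : Set M) := by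
    ext q
    simp
  rw [h1]
  exact (isCompact_closedBall _ _).prod isCompact_univ

/-- uniform bound for finitely many functions -/
theorem exists_bd {ι : Type} [Fintype ι] {X : Type*} [TopologicalSpace X] {s : Set X}
    (hs : IsCompact s) {f : ι → X → ℝ} (hf : ∀ i, ContinuousOn (f i) s) :
    ∃ K : ℝ, 0 ≤ K ∧ ∀ i, ∀ x ∈ s, |f i x| ≤ K := by
  choose K hK using fun i => hs.exists_bound_of_continuousOn (hf i)
  refine ⟨∑ i, |K i|, Finset.sum_nonneg fun _ _ => abs_nonneg _, fun i x hx => ?_⟩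
  calc |f i x| ≤ K i := hK i x hx
    _ ≤ |K i| := le_abs_self _
    _ ≤ ∑ i, |K i| := Finset.single_le_sum (f := fun i => |K i|) (fun _ _ => abs_nonneg _)
        (Finset.mem_univ i)

theorem exists_Q : ∃ K : ℝ, 0 ≤ K ∧ ∀ y y' z, |S.D0.Q y y' z| ≤ K := by
  obtain ⟨K, h1, h2⟩ := exists_bd (ι := κ0 × κ0) (isCompact_univ (X := M))
    (f := fun q z => S.D0.Q q.1 q.2 z) fun q => (S.D0.smQ q.1 q.2).continuous.continuousOn
  exact ⟨K, h1, fun y y' z => h2 (y, y') z (mem_univ z)⟩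

theorem exists_K (d : SWD M κT) (hd : d.Adm S) : ∃ K : ℝ, 0 ≤ K ∧ ∀ (t : E3) (z : M) (k : Fin 3),
    ‖t‖ ≤ 1 → |d.r * d.wt t k z + d.et t k z + S.H.B (d.th t) k.succ z| ≤ K := by
  obtain ⟨K, h1, h2⟩ := exists_bd (ι := Fin 3) (compact_ball (M := M))
    (f := fun k q => d.r * d.wt q.1 k q.2 + d.et q.1 k q.2 + S.H.B (d.th q.1) k.succ q.2) (by
      intro k
      have hw : Continuous fun q : E3 × M => d.wt q.1 k q.2 := by
        unfold SWD.wt
        refine continuous_finsetSum _ fun i _ => ?_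
        have h3 := (hd.smw i k).continuous.comp (continuous_snd (X := E3) (Y := M))
        have h4 : Continuous fun q : E3 × M => q.1 i := by fun_prop
        exact h4.mul h3
      exact ((continuous_const.mul hw).continuousOn.add (hd.cet k)).add (hd.cdth k.succ))
  exact ⟨K, h1, fun t z k ht => h2 k (t, z) ht⟩

theorem exists_mu (d : SWD M κT) (hd : d.Adm S) : ∃ μ0 : ℝ, 0 < μ0 ∧ ∀ (t : E3) (z : M),
    ‖t‖ ≤ 1 → μ0 ≤ d.mu t z := by
  obtain ⟨z0⟩ := ‹Nonempty M›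
  obtain ⟨q, hq, hm⟩ := (compact_ball (M := M)).exists_isMinOn
    ⟨((0 : E3), z0), by simp⟩ hd.cmu
  exact ⟨d.mu q.1 q.2, hd.pmu _ _ hq, fun t z ht => hm (show (t, z) ∈ {q : E3 × M | ‖q.1‖ ≤ 1} from ht)⟩

/-- the truncation factor -/
def tau2 (R : ℝ) (u : κ0 → M → ℝ) (z : M) : ℝ := (min 1 (R / √(∑ y', u y' z ^ 2))) ^ 2

theorem rq_trc (k : Fin 3) (R : ℝ) (u : κ0 → M → ℝ) (z : M) :
    S.rq k (trc R u) z = tau2 R u z * S.rq k u z := by
  unfold SWS.rq trc tau2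
  simp only [Finset.mul_sum]
  exact Finset.sum_congr rfl fun y _ => Finset.sum_congr rfl fun y' _ => by ring

theorem tau2_lower {R C0 : ℝ} (hR : C0 < R ^ 2) (hC0 : 0 ≤ C0) (u : κ0 → M → ℝ)
    (z : M) (h : C0 < nsq fun b => u b z) : C0 ≤ tau2 R u z * nsq fun b => u b z := by
  have hs : 0 < nsq fun b => u b z := lt_of_le_of_lt hC0 h
  unfold tau2
  rw [show ∑ y', u y' z ^ 2 = nsq fun b => u b z from rfl]
  set s := nsq fun b => u b z
  have hsq : 0 < √s := Real.sqrt_pos.2 hs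
  rcases le_total 1 (R / √s) with h1 | h1
  · rw [min_eq_left h1, one_pow, one_mul]
    exact h.le
  · rw [min_eq_right h1, div_pow, Real.sq_sqrt hs.le, div_mul_cancel₀ _ hs.ne']
    exact hR.le

/-- **SUPB from the Weitzenboeck identity on `W^{1,2}`** -/
theorem supb_one (hOK : S.OK) (hW : WtzH S) (d : SWD M κT) (hd : d.Adm S) :
    ∃ C0 : ℝ, ∀ R : ℝ, C0 < R ^ 2 → 0 < R → ∀ (t : E3) (a : κT → M → ℝ) (u : κ0 → M → ℝ),
      ‖t‖ ≤ 1 → TSol S d R t a u → ∀ᵐ z ∂(μHE[4] : Measure M), ∑ y, u y z ^ 2 ≤ C0 := by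
  obtain ⟨Kq, hKq0, hKq⟩ := exists_Q S
  obtain ⟨K, hK0, hK⟩ := exists_K S d hd
  obtain ⟨μ0, hμ00, hμ0⟩ := exists_mu S d hd
  set C0 : ℝ := 2 * (Kq * (Fintype.card κ0) ^ 2 + 3 * K + 1) / μ0 with hC0d
  have hC0 : 0 ≤ C0 := by positivity
  have hbig : Kq * (Fintype.card κ0) ^ 2 + 3 * K + 1 ≤ 1 / 2 * μ0 * C0 := by
    rw [hC0d]
    apply le_of_eq
    field_simp
  refine ⟨C0, fun R hR _ t a u ht hT => ?_⟩
  obtain ⟨α0, hα0⟩ := hT.wa
  obtain ⟨U, hU⟩ := hT.wu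
  have hUe : ∀ᵐ z ∂(μHE[4] : Measure M), ∀ y, rp U y z = u y z := ae_all_iff.2 hU
  have hαe : ∀ᵐ z ∂(μHE[4] : Measure M), ∀ A, rp α0 A z = a A z := ae_all_iff.2 hα0
  -- the shifted one-form
  set θ : SmS S.DT := ⟨d.th t, hd.smth t, hd.secth t⟩ with hθ
  set α : S.DT.toAD.WE := α0 + cW S.DT θ with hα
  have hαr : ∀ᵐ z ∂(μHE[4] : Measure M), ∀ A, rp α A z = (a + d.th t) A z := by
    have h1 : ∀ᵐ z ∂(μHE[4] : Measure M), ∀ A, (S.DT.toAD.i1 α A : M → ℝ) z =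
        (S.DT.toAD.i1 α0 A : M → ℝ) z + (S.DT.toAD.i1 (cW S.DT θ) A : M → ℝ) z := by
      rw [ae_all_iff]
      intro A
      have e : S.DT.toAD.i1 α A = S.DT.toAD.i1 α0 A + S.DT.toAD.i1 (cW S.DT θ) A := by
        rw [hα, map_add]; rfl
      rw [e]
      exact Lp.coeFn_add _ _
    filter_upwards [h1, hαe, coe_clH θ.1 θ.2.1] with z e1 e2 e3 A
    show (S.DT.toAD.i1 α A : M → ℝ) z = _
    rw [e1 A, Pi.add_apply, Pi.add_apply, ← e2 A]
    congr 1
    exact e3 A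
  -- the Dirac equation
  have hdir := Ah_of_WkA S.P hT.dir U hU
  have hdz : ∀ᵐ z ∂(μHE[4] : Measure M), ∀ x, dirW S α U x z = 0 := by
    filter_upwards [hdir, hαr, hUe] with z e1 e2 e3 x
    unfold dirW
    rw [e1 x]
    have : S.cm (rp α) (rp U) x z = S.cm (a + d.th t) u x z := by
      unfold SWS.cm
      exact Finset.sum_congr rfl fun A _ => Finset.sum_congr rfl fun y _ => by rw [e2 A, e3 y]
    rw [this]
    ring
  -- the curvature equation
  have hcur0 := Ah_of_WkA S.H.swap hT.cur α0 hα0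
  have hcur : ∀ᵐ z ∂(μHE[4] : Measure M), ∀ k : Fin 3,
      (((Ah S.H.swap α : S.DL.toAD.HE) : HH (μHE[4] : Measure M) (Fin 4)) k.succ : M → ℝ) z =
        d.mu t z * ((1 / 2) * (tau2 R (rp U) z * S.rq k (rp U) z)) +
          (d.r * d.wt t k z + d.et t k z + S.H.B (d.th t) k.succ z) := by
    have h1 : Ah S.H.swap α = Ah S.H.swap α0 + cH S.DL (lA S.H.swap θ) := by
      rw [hα, map_add, Ah_cW (dns S.DT (by norm_num))]
    have h2 : ∀ᵐ z ∂(μHE[4] : Measure M), ∀ k : Fin 4,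
        (((Ah S.H.swap α : S.DL.toAD.HE) : HH (μHE[4] : Measure M) (Fin 4)) k : M → ℝ) z =
        (((Ah S.H.swap α0 : S.DL.toAD.HE) : HH (μHE[4] : Measure M) (Fin 4)) k : M → ℝ) z +
        ((clH (S.H.B (d.th t)) (lA S.H.swap θ).2.1) k : M → ℝ) z := by
      rw [ae_all_iff]
      intro k
      rw [h1]
      exact Lp.coeFn_add _ _
    filter_upwards [h2, hcur0, coe_clH (S.H.B (d.th t)) (lA S.H.swap θ).2.1, hUe]
      with z e1 e2 e3 e4 k
    rw [e1 k.succ, e2 k.succ, e3 k.succ]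
    have e5 : S.rq k (trc R u) z = tau2 R (rp U) z * S.rq k (rp U) z := by
      rw [rq_trc]
      have : tau2 R u z = tau2 R (rp U) z := by
        unfold tau2
        simp only [e4]
      rw [this]
      congr 1
      unfold SWS.rq
      exact Finset.sum_congr rfl fun y _ => Finset.sum_congr rfl fun y' _ => by rw [e4 y, e4 y']
    simp only [rhs, Fin.cons_succ]
    rw [e5]
    ring
  -- the identity
  obtain ⟨hint, hid⟩ := hW α U (tst S.D0.toAD (rf_hh hC0) U)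
  have hz : ∫ z, ∑ x, dirW S α U x z * dirW S α (tst S.D0.toAD (rf_hh hC0) U) x z
      ∂(μHE[4] : Measure M) = 0 := by
    rw [integral_congr_ae (g := fun _ => (0:ℝ))]
    · simp
    · filter_upwards [hdz] with z e1
      exact Finset.sum_eq_zero fun x _ => by rw [e1 x, zero_mul]
  rw [hz] at hid
  have hlow := pt_lower S hOK hC0 α U (fun y y' z => hKq y y' z) (μ := fun z => d.mu t z)
    (τ2 := fun z => tau2 R (rp U) z)
    (c := fun k z => d.r * d.wt t k z + d.et t k z + S.H.B (d.th t) k.succ z) hμ00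
    (fun z => hμ0 t z ht) (fun k z => hK t z k ht)
    (fun z h => tau2_lower hR hC0 (rp U) z h) hbig hcur
  have hnn : ∀ᵐ z ∂(μHE[4] : Measure M), 0 ≤ wInt S α U (tst S.D0.toAD (rf_hh hC0) U) z := by
    filter_upwards [hlow] with z e1
    exact (mul_nonneg (hh_nonneg _ _) (nsq_nonneg _)).trans e1
  have hae := (integral_eq_zero_iff_of_nonneg_ae hnn hint).1 hid.symm
  filter_upwards [hae, hlow, hUe] with z e1 e2 e3
  rw [e1] at e2
  have e4 : ∑ y, u y z ^ 2 = nsq fun b => rp U b z := by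
    unfold nsq
    refine Finset.sum_congr rfl fun y _ => ?_
    show u y z ^ 2 = (rp U y z) ^ 2
    rw [e3 y]
  rw [e4]
  by_contra hcon
  have hgt := not_le.1 hcon
  have h1 := hh_pos hC0 hgt
  have h2 : 0 < nsq fun b => rp U b z := lt_of_le_of_lt hC0 hgt
  have h3 := mul_pos h1 h2
  exact absurd e2 (not_le.2 h3)

end mfd

/-- **SUPB** modulo the Weitzenboeck identity on `W^{1,2}` (task 335) -/
theorem supb_of (hW : ∀ (M : Type v) [MetricSpace M] [CompactSpace M] [ConnectedSpace M]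
    [ChartedSpace (EuclideanSpace ℝ (Fin 4)) M] [IsManifold (𝓡 4) ∞ M]
    [RiemannianBundle (fun p : M => TangentSpace (𝓡 4) p)]
    [IsContMDiffRiemannianBundle (𝓡 4) ∞ (EuclideanSpace ℝ (Fin 4))
      (fun p : M => TangentSpace (𝓡 4) p)]
    [IsRiemannianManifold (𝓡 4) M] [MeasurableSpace M] [BorelSpace M]
    [SecondCountableTopology M] [Nonempty M] [IsFiniteMeasureOnCompacts (μHE[4] : Measure M)]
    (κ0 κ1 κT : Type) [Fintype κ0] [Fintype κ1] [Fintype κT]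
    (S : SWS M κ0 κ1 κT), S.OK → WtzH S) : SUPB.{v} := by
  intro M _ _ _ _ _ _ _ _ _ _ _ _ _ κ0 κ1 κT _ _ _ S d hOK hd
  exact supb_one S hOK (hW M κ0 κ1 κT S hOK) d hd

end Crest.Agent.R235.Supb_433

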