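import Crest.Agent.R235.L4_433
import Crest.Agent.R235.Supb_433
import Crest.Agent.R235.SWTau_53

/-!
# Row 235, SW-TAUF (helper433): a parallel section forces `∫ F ∧ F = 0`

`tauf_one`, `tauf_of : (∀ D, Emb4 D.toAD.i1) → TAUF`.
-/

set_option autoImplicit false
set_option linter.unusedSectionVars false
set_option maxSynthPendingDepth 3
open scoped ContDiff ENNReal NNReal Topology Manifold Bundle RealInnerProductSpace
open MeasureTheory Set Filter Metric Bundle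

universe v

noncomputable section
namespace Crest.Agent.R235.Tauf_433

open Crest.Agent.R247.Dir593 Crest.Agent.R247.Ms322 Crest.Agent.R247.Frd657
open Crest.Agent.R249.Tv57 Crest.Agent.R235.Dens_433 Crest.Agent.R235.Fs4_546
open Crest.Agent.R235.Dns_433 Crest.Agent.R235.SWDefs_53 Crest.Agent.R235.W12_109
open Crest.Agent.R235.SupbA_433 Crest.Agent.R235.Cpt_755 Crest.Agent.R235.L4_433

/-! ### norms -/

section norms
variable {X : Type*} [MeasurableSpace X] {μ : Measure X} {F : Type*} [NormedAddCommGroup F]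
  [InnerProductSpace ℝ F] {κ : Type} [Fintype κ]

theorem norm_GG (G : GG F μ κ) : ‖G‖ ^ 2 = ∫ x, ∑ y, ‖(G y : X → F) x‖ ^ 2 ∂μ := by
  rw [← real_inner_self_eq_norm_sq, PiLp.inner_apply]
  simp only [L2.inner_def]
  rw [← integral_finsetSum]
  · refine integral_congr_ae (Eventually.of_forall fun x => ?_)
    exact Finset.sum_congr rfl fun y _ => real_inner_self_eq_norm_sq _
  · intro y _
    exact L2.integrable_inner _ _

theorem integrable_GG (G : GG F μ κ) : Integrable (fun x => ∑ y, ‖(G y : X → F) x‖ ^ 2) μ := by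
  refine integrable_finsetSum _ fun y _ => ?_
  have := L2.integrable_inner (𝕜 := ℝ) (G y) (G y)
  exact this.congr (Eventually.of_forall fun x => real_inner_self_eq_norm_sq _)

theorem norm_HH (G : HH μ κ) : ‖G‖ ^ 2 = ∫ x, ∑ y, ((G y : X → ℝ) x) ^ 2 ∂μ := by
  rw [← real_inner_self_eq_norm_sq, inner_HH G G (Eventually.of_forall fun _ _ => rfl)
    (Eventually.of_forall fun _ _ => rfl)]
  refine integral_congr_ae (Eventually.of_forall fun x => ?_)
  exact Finset.sum_congr rfl fun y _ => by ring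

theorem integrable_HH (G : HH μ κ) : Integrable (fun x => ∑ y, ((G y : X → ℝ) x) ^ 2) μ := by
  refine integrable_finsetSum _ fun y _ => ?_
  have := L2.integrable_inner (𝕜 := ℝ) (G y) (G y)
  exact this.congr (Eventually.of_forall fun x => by simp only [rin]; ring)

end norms

section mfd
variable {M : Type v} [MetricSpace M] [CompactSpace M] [ConnectedSpace M]
  [ChartedSpace (EuclideanSpace ℝ (Fin 4)) M] [IsManifold (𝓡 4) ∞ M]
  [RiemannianBundle (fun p : M => TangentSpace (𝓡 4) p)]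
  [IsContMDiffRiemannianBundle (𝓡 4) ∞ (EuclideanSpace ℝ (Fin 4))
    (fun p : M => TangentSpace (𝓡 4) p)]
  [IsRiemannianManifold (𝓡 4) M] [MeasurableSpace M] [BorelSpace M]
  [SecondCountableTopology M] [Nonempty M] [IsFiniteMeasureOnCompacts (μHE[4] : Measure M)]
  {κ0 κ1 κT : Type} [Fintype κ0] [Fintype κ1] [Fintype κT] (S : SWS M κ0 κ1 κT)

/-! ### the connection -/

/-- the field `J ⊗ s_A` -/
def cJ (A : κT) (y y' : κ0) (z : M) : EuclideanSpace ℝ (Fin 4) := S.J y y' z • S.s A z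

theorem bm_cJ (hOK : S.OK) (A : κT) (y y' : κ0) : BM (μHE[4] : Measure M) (cJ S A y y') :=
  (SmF.smul (hOK.smJ y y') (hOK.sms A)).bm

/-- `∇_α v` in `L²` -/
def GW (hOK : S.OK) (hE0 : Emb4 S.D0.toAD.i1) (hET : Emb4 S.DT.toAD.i1) (α : S.DT.toAD.WE)
    (v : S.D0.toAD.WE) : GG (EuclideanSpace ℝ (Fin 4)) (μHE[4] : Measure M) κ0 :=
  S.D0.toAD.c1 v + nab4 hET hE0 (fun A y y' => bm_cJ S hOK A y y') α v

theorem continuous_GW (hOK : S.OK) (hE0 : Emb4 S.D0.toAD.i1) (hET : Emb4 S.DT.toAD.i1) :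
    Continuous fun q : S.DT.toAD.WE × S.D0.toAD.WE => GW S hOK hE0 hET q.1 q.2 :=
  (S.D0.toAD.c1.continuous.comp continuous_snd).add (continuous_nab4 hET hE0 _)

theorem coe_GW (hOK : S.OK) (hE0 : Emb4 S.D0.toAD.i1) (hET : Emb4 S.DT.toAD.i1)
    (α : S.DT.toAD.WE) (v : S.D0.toAD.WE) : ∀ᵐ z ∂(μHE[4] : Measure M), ∀ y,
      (GW S hOK hE0 hET α v y : M → EuclideanSpace ℝ (Fin 4)) z = nabW S α v y z := by
  have h1 : ∀ᵐ z ∂(μHE[4] : Measure M), ∀ y,
      (GW S hOK hE0 hET α v y : M → EuclideanSpace ℝ (Fin 4)) z =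
      (S.D0.toAD.c1 v y : M → EuclideanSpace ℝ (Fin 4)) z +
      (nab4 hET hE0 (fun A y y' => bm_cJ S hOK A y y') α v y : M → EuclideanSpace ℝ (Fin 4)) z :=
    ae_all_iff.2 fun y => Lp.coeFn_add _ _
  filter_upwards [h1, coe_nab4 hET hE0 (fun A y y' => bm_cJ S hOK A y y') α v] with z e1 e2 y
  rw [e1 y, e2 y, nabW]
  congr 1
  rw [Finset.sum_comm, Finset.sum_smul]
  refine Finset.sum_congr rfl fun y' _ => ?_
  rw [Finset.smul_sum]
  refine Finset.sum_congr rfl fun A _ => ?_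
  simp only [cJ, rp, smul_smul]
  congr 1
  ring

/-! ### the projection on `E` -/

variable (τ : TD M κT)

/-- `Π₀` -/
def Pz (y y' : κ0) (z : M) : ℝ := (1 / 2) * (S.D0.p y y' z - ∑ k, τ.n k z * S.rho k y y' z)

variable {τ} {C : ℝ}

theorem smooth_Pz (hOK : S.OK) (hτ : τ.OK S C) (y y' : κ0) :
    ContMDiff (𝓡 4) 𝓘(ℝ, ℝ) ∞ (Pz S τ y y') :=
  contMDiff_const.mul ((S.D0.smp y y').sub
    (contMDiff_finsetSum fun k _ => (hτ.smn k).mul (hOK.smrho k y y')))

theorem p_Pz (hτ : τ.OK S C) (a b : κ0) (z : M) :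
    ∑ c, S.D0.p a c z * Pz S τ c b z = Pz S τ a b z := by
  have h1 : ∑ c, S.D0.p a c z * Pz S τ c b z =
      (1 / 2) * ((∑ c, S.D0.p a c z * S.D0.p c b z) -
        ∑ k, τ.n k z * ∑ c, S.D0.p a c z * S.rho k c b z) := by
    unfold Pz
    rw [mul_sub, Finset.mul_sum, Finset.mul_sum]
    simp only [mul_sub, Finset.sum_sub_distrib, Finset.mul_sum]
    congr 1
    · exact Finset.sum_congr rfl fun c _ => by ring
    · rw [Finset.sum_comm]
      exact Finset.sum_congr rfl fun k _ => Finset.sum_congr rfl fun c _ => by ring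
  rw [h1, S.D0.idem]
  simp only [hτ.rsec]
  rfl

theorem rho_p (hOK : S.OK) (hτ : τ.OK S C) (k : Fin 3) (y y'' : κ0) (z : M) :
    ∑ y', S.rho k y y' z * S.D0.p y' y'' z = S.rho k y y'' z := by
  rw [hOK.symrho k y y'' z, ← hτ.rsec k y'' y z]
  refine Finset.sum_congr rfl fun y' _ => ?_
  rw [hOK.symrho k y y' z, S.D0.symmp y' y'' z]
  ring

/-- `Π₀ u` is a section of `E` -/
theorem secE_Pz (hOK : S.OK) (hτ : τ.OK S C) (u : κ0 → M → ℝ) :
    τ.SecE S (fun y z => ∑ b, Pz S τ y b z * u b z) := by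
  constructor
  · intro y z
    simp only [Finset.mul_sum]
    rw [Finset.sum_comm]
    refine Finset.sum_congr rfl fun b _ => ?_
    rw [← p_Pz S hτ y b z, Finset.sum_mul]
    exact Finset.sum_congr rfl fun c _ => by ring
  · intro y z
    -- `R Π = - Π` as matrices
    have hR : ∀ b, ∑ y', (∑ k, τ.n k z * S.rho k y y' z) * Pz S τ y' b z = - Pz S τ y b z := by
      intro b
      have e1 : ∑ y', (∑ k, τ.n k z * S.rho k y y' z) * Pz S τ y' b z =
          (1 / 2) * ((∑ y', (∑ k, τ.n k z * S.rho k y y' z) * S.D0.p y' b z) -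
            ∑ y', (∑ k, τ.n k z * S.rho k y y' z) * (∑ k, τ.n k z * S.rho k y' b z)) := by
        unfold Pz
        rw [← Finset.sum_sub_distrib, Finset.mul_sum]
        exact Finset.sum_congr rfl fun y' _ => by ring
      have e2 : ∑ y', (∑ k, τ.n k z * S.rho k y y' z) * S.D0.p y' b z =
          ∑ k, τ.n k z * S.rho k y b z := by
        simp only [Finset.sum_mul]
        rw [Finset.sum_comm]
        refine Finset.sum_congr rfl fun k _ => ?_
        rw [← rho_p S hOK hτ k y b z, Finset.mul_sum]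
        exact Finset.sum_congr rfl fun y' _ => by ring
      rw [e1, e2, hτ.invol]
      unfold Pz
      ring
    unfold TD.R
    rw [Finset.sum_comm]
    have e3 : ∀ y', ∑ k, τ.n k z * S.rho k y y' z * ∑ b, Pz S τ y' b z * u b z =
        ∑ b, ((∑ k, τ.n k z * S.rho k y y' z) * Pz S τ y' b z) * u b z := by
      intro y'
      rw [← Finset.sum_mul, Finset.mul_sum]
      exact Finset.sum_congr rfl fun b _ => by ring
    simp only [e3]
    rw [Finset.sum_comm, ← Finset.sum_neg_distrib]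
    refine Finset.sum_congr rfl fun b _ => ?_
    rw [← Finset.sum_mul, hR b]
    ring

/-! ### `prE` -/

theorem prE_sub (G G' : κ0 → M → EuclideanSpace ℝ (Fin 4)) (s s' : κ0 → M → ℝ) (y : κ0) (z : M) :
    τ.prE S G s y z - τ.prE S G' s' y z =
      τ.prE S (fun y z => G y z - G' y z) (fun y z => s y z - s' y z) y z := by
  unfold TD.prE
  simp only [smul_sub, mul_sub, Finset.sum_sub_distrib, sub_smul]
  abel

/-- pointwise bound of `prE` -/
theorem prE_bound (hOK : S.OK) (hτ : τ.OK S C) : ∃ K : ℝ, 0 ≤ K ∧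
    ∀ (G : κ0 → M → EuclideanSpace ℝ (Fin 4)) (s : κ0 → M → ℝ) (z : M),
      ∑ y, ‖τ.prE S G s y z‖ ^ 2 ≤ K * (∑ y, ‖G y z‖ ^ 2 + ∑ y, s y z ^ 2) := by
  obtain ⟨K1, h10, h1⟩ := Crest.Agent.R235.Supb_433.exists_bd (ι := κ0 × κ0) (isCompact_univ (X := M))
    (f := fun q z => Pz S τ q.1 q.2 z) fun q => (smooth_Pz S hOK hτ q.1 q.2).continuous.continuousOn
  obtain ⟨K2, h20, h2⟩ := Crest.Agent.R235.Supb_433.exists_bd (ι := κ0 × κ0) (isCompact_univ (X := M))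
    (f := fun q z => S.J q.1 q.2 z) fun q => (hOK.smJ q.1 q.2).continuous.continuousOn
  -- the field `∑ sh_A s_A`
  have hf : SmF (fun z => ∑ A, τ.sh A z • S.s A z) :=
    SmF.sum _ fun A _ => SmF.smul (hτ.smsh A) (hOK.sms A)
  obtain ⟨K3, h30, h3⟩ := Crest.Agent.R235.Supb_433.exists_bd (ι := Unit) (isCompact_univ (X := M))
    (f := fun _ z => (⟪∑ A, τ.sh A z • S.s A z, ∑ A, τ.sh A z • S.s A z⟫ : ℝ))
    fun q => (hf.inner hf).continuous.continuousOn
  have hK3 : ∀ z, ‖∑ A, τ.sh A z • S.s A z‖ ≤ √K3 := by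
    intro z
    refine Real.le_sqrt_of_sq_le ?_
    have := h3 () z (mem_univ z)
    rw [real_inner_self_eq_norm_sq, abs_of_nonneg (sq_nonneg _)] at this
    exact this
  set N : ℝ := (Fintype.card κ0 : ℝ) with hN
  have hN0 : 0 ≤ N := Nat.cast_nonneg _
  refine ⟨N * (2 * (K1 ^ 2 * N + (K2 * √K3) ^ 2 * N)), by positivity, fun G s z => ?_⟩
  have hy : ∀ y, ‖τ.prE S G s y z‖ ^ 2 ≤
      2 * (K1 ^ 2 * N + (K2 * √K3) ^ 2 * N) * (∑ y, ‖G y z‖ ^ 2 + ∑ y, s y z ^ 2) := by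
    intro y
    have a1 : ‖∑ y', Pz S τ y y' z • G y' z‖ ≤ K1 * ∑ y', ‖G y' z‖ := by
      refine (norm_sum_le _ _).trans ?_
      rw [Finset.mul_sum]
      refine Finset.sum_le_sum fun y' _ => ?_
      rw [norm_smul]
      exact mul_le_mul_of_nonneg_right (h1 (y, y') z (mem_univ z)) (norm_nonneg _)
    have a2 : ‖(∑ y', S.J y y' z * s y' z) • ∑ A, τ.sh A z • S.s A z‖ ≤
        K2 * √K3 * ∑ y', |s y' z| := by
      rw [norm_smul]
      have b1 : ‖∑ y', S.J y y' z * s y' z‖ ≤ K2 * ∑ y', |s y' z| := by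
        refine (norm_sum_le _ _).trans ?_
        rw [Finset.mul_sum]
        refine Finset.sum_le_sum fun y' _ => ?_
        rw [norm_mul]
        exact mul_le_mul_of_nonneg_right (h2 (y, y') z (mem_univ z)) (norm_nonneg _)
      calc ‖∑ y', S.J y y' z * s y' z‖ * ‖∑ A, τ.sh A z • S.s A z‖
          ≤ (K2 * ∑ y', |s y' z|) * √K3 := mul_le_mul b1 (hK3 z) (norm_nonneg _) (by positivity)
        _ = K2 * √K3 * ∑ y', |s y' z| := by ring
    have a3 : (∑ y', ‖G y' z‖) ^ 2 ≤ N * ∑ y', ‖G y' z‖ ^ 2 := by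
      have := sq_sum_le_card_mul_sum_sq (s := (Finset.univ : Finset κ0)) (f := fun y' => ‖G y' z‖)
      simpa using this
    have a4 : (∑ y', |s y' z|) ^ 2 ≤ N * ∑ y', s y' z ^ 2 := by
      have := sq_sum_le_card_mul_sum_sq (s := (Finset.univ : Finset κ0)) (f := fun y' => |s y' z|)
      simpa using this
    have a5 : ‖τ.prE S G s y z‖ ≤ K1 * ∑ y', ‖G y' z‖ + K2 * √K3 * ∑ y', |s y' z| := by
      unfold TD.prE
      exact (norm_add_le _ _).trans (add_le_add a1 a2)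
    have a6 : ‖τ.prE S G s y z‖ ^ 2 ≤ 2 * (K1 * ∑ y', ‖G y' z‖) ^ 2 +
        2 * (K2 * √K3 * ∑ y', |s y' z|) ^ 2 := by
      have c0 : 0 ≤ ‖τ.prE S G s y z‖ := norm_nonneg _
      nlinarith [sq_nonneg (K1 * ∑ y', ‖G y' z‖ - K2 * √K3 * ∑ y', |s y' z|),
        pow_le_pow_left₀ c0 a5 2]
    have c1 : 0 ≤ ∑ y, ‖G y z‖ ^ 2 := Finset.sum_nonneg fun _ _ => sq_nonneg _
    have c2 : 0 ≤ ∑ y, s y z ^ 2 := Finset.sum_nonneg fun _ _ => sq_nonneg _
    have c3 : (K1 * ∑ y', ‖G y' z‖) ^ 2 ≤ K1 ^ 2 * N * ∑ y, ‖G y z‖ ^ 2 := by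
      rw [mul_pow, mul_assoc]
      exact mul_le_mul_of_nonneg_left a3 (sq_nonneg _)
    have c4 : (K2 * √K3 * ∑ y', |s y' z|) ^ 2 ≤ (K2 * √K3) ^ 2 * N * ∑ y, s y z ^ 2 := by
      rw [mul_pow, mul_assoc]
      exact mul_le_mul_of_nonneg_left a4 (sq_nonneg _)
    have c5 : 0 ≤ K1 ^ 2 * N * ∑ y, s y z ^ 2 := by positivity
    have c6 : 0 ≤ (K2 * √K3) ^ 2 * N * ∑ y, ‖G y z‖ ^ 2 := by positivity
    nlinarith
  calc ∑ y, ‖τ.prE S G s y z‖ ^ 2 ≤ ∑ _y : κ0,
        2 * (K1 ^ 2 * N + (K2 * √K3) ^ 2 * N) * (∑ y, ‖G y z‖ ^ 2 + ∑ y, s y z ^ 2) :=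
        Finset.sum_le_sum fun y _ => hy y
    _ = N * (2 * (K1 ^ 2 * N + (K2 * √K3) ^ 2 * N)) * (∑ y, ‖G y z‖ ^ 2 + ∑ y, s y z ^ 2) := by
        rw [Finset.sum_const, Finset.card_univ, nsmul_eq_mul]
        ring

/-! ### the left side -/

variable {fF : M → ℝ} {g : κT → M → EuclideanSpace ℝ (Fin 4)} {C' : ℝ}

theorem bm_g (h3 : τ.T3 S C' fF g) (a : Unit) (A : κT) :
    BM (μHE[4] : Measure M) ((fun (_ : Unit) (A : κT) => g A) a A) := (h3.smg A).bm

/-- `fF + ⟨∇α, g⟩` in `L²` -/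
def LL (h3 : τ.T3 S C' fF g) (α : S.DT.toAD.WE) : Lp ℝ 2 (μHE[4] : Measure M) :=
  GradS.tL (isT_smooth h3.smf) +
    opC S.DT.toAD (c := fun (_ : Unit) (A : κT) => g A) (fun a A => bm_g S h3 a A) α ()

theorem continuous_LL (h3 : τ.T3 S C' fF g) : Continuous (LL S h3) := by
  unfold LL
  fun_prop

theorem coe_LL (h3 : τ.T3 S C' fF g) (α : S.DT.toAD.WE) :
    ∀ᵐ z ∂(μHE[4] : Measure M), (LL S h3 α : M → ℝ) z =
      fF z + ∑ A, ⟪(S.DT.toAD.c1 α A : M → EuclideanSpace ℝ (Fin 4)) z, g A z⟫ := by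
  filter_upwards [Lp.coeFn_add (GradS.tL (isT_smooth h3.smf) : Lp ℝ 2 (μHE[4] : Measure M))
    (opC S.DT.toAD (c := fun (_ : Unit) (A : κT) => g A) (fun a A => bm_g S h3 a A) α ()),
    GradS.coe_tL (μ := (μHE[4] : Measure M)) (isT_smooth h3.smf),
    coe_opC S.DT.toAD (c := fun (_ : Unit) (A : κT) => g A) (fun a A => bm_g S h3 a A) α]
    with z e1 e2 e3
  rw [LL, e1, Pi.add_apply, e2, e3 ()]

/-- the left side -/
def LI (hE0 : Emb4 S.D0.toAD.i1) (h3 : τ.T3 S C' fF g) (α : S.DT.toAD.WE) (v : S.D0.toAD.WE) : ℝ :=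
  ∑ y, (⟪pr4 hE0 hE0 y y v v, LL S h3 α⟫ : ℝ)

theorem continuous_LI (hE0 : Emb4 S.D0.toAD.i1) (h3 : τ.T3 S C' fF g) :
    Continuous fun q : S.DT.toAD.WE × S.D0.toAD.WE => LI S hE0 h3 q.1 q.2 := by
  unfold LI
  refine continuous_finsetSum _ fun y _ => ?_
  exact ((continuous_pr4 hE0 hE0 y y).comp (continuous_snd.prodMk continuous_snd)).inner
    ((continuous_LL S h3).comp continuous_fst)

theorem LI_eq (hE0 : Emb4 S.D0.toAD.i1) (h3 : τ.T3 S C' fF g) (α : S.DT.toAD.WE)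
    (v : S.D0.toAD.WE) : LI S hE0 h3 α v = ∫ z, (∑ y, rp v y z ^ 2) *
      (fF z + ∑ A, ⟪(S.DT.toAD.c1 α A : M → EuclideanSpace ℝ (Fin 4)) z, g A z⟫)
        ∂(μHE[4] : Measure M) := by
  unfold LI
  simp only [L2.inner_def]
  rw [← integral_finsetSum]
  · refine integral_congr_ae ?_
    have h1 : ∀ᵐ z ∂(μHE[4] : Measure M), ∀ y, (pr4 hE0 hE0 y y v v : M → ℝ) z =
        rp v y z * rp v y z := ae_all_iff.2 fun y => coe_pr4 hE0 hE0 y y v v
    filter_upwards [coe_LL S h3 α, h1] with z e1 e2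
    rw [Finset.sum_mul]
    refine Finset.sum_congr rfl fun y _ => ?_
    rw [e1, e2 y, rin]
    ring
  · intro y _
    exact L2.integrable_inner _ _

/-- `∫ ⟨∇α, g⟩ = 0` for every `α` -/
theorem ex_WE (h3 : τ.T3 S C' fF g) (α : S.DT.toAD.WE) :
    ∫ z, ∑ A, ⟪(S.DT.toAD.c1 α A : M → EuclideanSpace ℝ (Fin 4)) z, g A z⟫
      ∂(μHE[4] : Measure M) = 0 := by
  set one : Lp ℝ 2 (μHE[4] : Measure M) :=
    GradS.tL (isT_smooth (n := 4) (contMDiff_const (c := (1:ℝ)))) with hone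
  have hI : ∀ α : S.DT.toAD.WE,
      ∫ z, ∑ A, ⟪(S.DT.toAD.c1 α A : M → EuclideanSpace ℝ (Fin 4)) z, g A z⟫
      ∂(μHE[4] : Measure M) = ⟪one,
      opC S.DT.toAD (c := fun (_ : Unit) (A : κT) => g A) (fun a A => bm_g S h3 a A) α ()⟫ := by
    intro α
    rw [L2.inner_def]
    refine integral_congr_ae ?_
    filter_upwards [coe_opC S.DT.toAD (c := fun (_ : Unit) (A : κT) => g A)
      (fun a A => bm_g S h3 a A) α,
      GradS.coe_tL (μ := (μHE[4] : Measure M)) (isT_smooth (n := 4) (contMDiff_const (c := (1:ℝ))))]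
      with z e1 e2
    rw [e1 (), e2, rin, one_mul]
  have h0 := eq_of_smooth S.DT (by norm_num)
    (f := fun α : S.DT.toAD.WE =>
      ∫ z, ∑ A, ⟪(S.DT.toAD.c1 α A : M → EuclideanSpace ℝ (Fin 4)) z, g A z⟫ ∂(μHE[4] : Measure M))
    (g := fun _ => (0:ℝ)) (by
      rw [funext hI]
      fun_prop) continuous_const (fun a ha hs => by
      have h1 := h3.ex a ha hs
      rw [← h1]
      refine integral_congr_ae ?_
      filter_upwards [coe_c1_secW S.DT ha hs] with z e1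
      exact Finset.sum_congr rfl fun A _ => by rw [e1 A]) α
  exact h0

/-! ### the theorem -/

/-- the energy of smooth approximations tends to zero -/
theorem energy_small (hOK : S.OK) (hτ : τ.OK S C) (hE0 : Emb4 S.D0.toAD.i1)
    (hET : Emb4 S.DT.toAD.i1) : ∃ K : ℝ, 0 ≤ K ∧ ∀ (β : S.DT.toAD.WE) (w : S.D0.toAD.WE),
    (∀ᵐ z ∂(μHE[4] : Measure M), ∀ y, τ.prE S (nabW S β w) (rp w) y z = 0) →
    ∀ (a : κT → M → ℝ) (ha : SmV (n := 4) a) (hs : S.DT.Sec a) (s : κ0 → M → ℝ)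
      (hs1 : SmV (n := 4) s) (hs2 : S.D0.Sec s),
      ∫ z, ∑ y, ‖τ.nE S a s y z‖ ^ 2 ∂(μHE[4] : Measure M) ≤
        K * (‖GW S hOK hE0 hET (secW S.DT ha hs) (secW S.D0 hs1 hs2) - GW S hOK hE0 hET β w‖ ^ 2 +
          ‖S.D0.toAD.i1 (secW S.D0 hs1 hs2) - S.D0.toAD.i1 w‖ ^ 2) := by
  obtain ⟨K, hK0, hK⟩ := prE_bound S hOK hτ
  refine ⟨K, hK0, fun β w hz a ha hs s hs1 hs2 => ?_⟩
  set α' := secW S.DT ha hs with hα'
  set v := secW S.D0 hs1 hs2 with hv
  set DG := GW S hOK hE0 hET α' v - GW S hOK hE0 hET β w with hDG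
  set DH := S.D0.toAD.i1 v - S.D0.toAD.i1 w with hDH
  rw [norm_GG DG, norm_HH DH, ← integral_add (integrable_GG DG) (integrable_HH DH),
    ← integral_const_mul]
  have hDGe : ∀ᵐ z ∂(μHE[4] : Measure M), ∀ y, (DG y : M → EuclideanSpace ℝ (Fin 4)) z =
      nabW S α' v y z - nabW S β w y z := by
    have h1 : ∀ᵐ z ∂(μHE[4] : Measure M), ∀ y, (DG y : M → EuclideanSpace ℝ (Fin 4)) z =
        (GW S hOK hE0 hET α' v y : M → EuclideanSpace ℝ (Fin 4)) z -
        (GW S hOK hE0 hET β w y : M → EuclideanSpace ℝ (Fin 4)) z :=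
      ae_all_iff.2 fun y => Lp.coeFn_sub _ _
    filter_upwards [h1, coe_GW S hOK hE0 hET α' v, coe_GW S hOK hE0 hET β w] with z e1 e2 e3 y
    rw [e1 y, e2 y, e3 y]
  have hDHe : ∀ᵐ z ∂(μHE[4] : Measure M), ∀ y, (DH y : M → ℝ) z = rp v y z - rp w y z :=
    ae_all_iff.2 fun y => Lp.coeFn_sub _ _
  have hnE : ∀ᵐ z ∂(μHE[4] : Measure M), ∀ y, τ.nE S a s y z =
      τ.prE S (fun y z => nabW S α' v y z - nabW S β w y z) (fun y z => rp v y z - rp w y z) y z := by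
    filter_upwards [hz, coe_secW S.D0 hs1 hs2, coe_secW S.DT ha hs, coe_c1_secW S.D0 hs1 hs2]
      with z e0 e1 e2 e3 y
    rw [← prE_sub, e0 y, sub_zero, TD.nE]
    have r1 : ∀ y, rp v y z = s y z := fun y => e1 y
    have r2 : ∀ A, rp α' A z = a A z := fun A => e2 A
    have r3 : ∀ y, S.nab a s y z = nabW S α' v y z := by
      intro y
      rw [SWS.nab, nabW, e3 y]
      simp only [r1, r2]
    unfold TD.prE
    simp only [r1, r3]
  refine integral_mono_of_nonneg (Eventually.of_forall fun z => Finset.sum_nonneg fun _ _ =>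
    sq_nonneg _) (((integrable_GG DG).add (integrable_HH DH)).const_mul K) ?_
  filter_upwards [hDGe, hDHe, hnE] with z e1 e2 e3
  simp only [e1, e2, e3]
  exact hK _ _ z

/-- **TAUF** -/
theorem tauf_one (hOK : S.OK) (hτ : τ.OK S C) (h3 : τ.T3 S C' fF g) (hE0 : Emb4 S.D0.toAD.i1)
    (hET : Emb4 S.DT.toAD.i1) {d : SWD M κT} {t : E3} (hfit : τ.Fit S d t) (hr : 0 < d.r)
    {a : κT → M → ℝ} {u : κ0 → M → ℝ} (ha : InW S.DT a) {w : S.D0.toAD.WE}
    (hpar : τ.Par S d t a u w) : ∫ z, fF z ∂(μHE[4] : Measure M) = 0 := by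
  obtain ⟨α0, hα0⟩ := ha
  have hα0e : ∀ᵐ z ∂(μHE[4] : Measure M), ∀ A, rp α0 A z = a A z := ae_all_iff.2 hα0
  set β : S.DT.toAD.WE := α0 + secW S.DT hfit.smth hfit.secth with hβ
  have hβe : ∀ᵐ z ∂(μHE[4] : Measure M), ∀ A, rp β A z = a A z + d.th t A z := by
    have h1 : ∀ᵐ z ∂(μHE[4] : Measure M), ∀ A, rp β A z =
        rp α0 A z + rp (secW S.DT hfit.smth hfit.secth) A z := by
      rw [ae_all_iff]
      intro A
      have e : S.DT.toAD.i1 β A = S.DT.toAD.i1 α0 A +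
          S.DT.toAD.i1 (secW S.DT hfit.smth hfit.secth) A := by
        rw [hβ, map_add]; rfl
      unfold rp
      rw [e]
      exact Lp.coeFn_add _ _
    filter_upwards [h1, hα0e, coe_secW S.DT hfit.smth hfit.secth] with z e1 e2 e3 A
    rw [e1 A, e2 A]
    congr 1
    exact e3 A
  -- `∇^E w = 0`
  have hz : ∀ᵐ z ∂(μHE[4] : Measure M), ∀ y, τ.prE S (nabW S β w) (rp w) y z = 0 := by
    filter_upwards [hpar.par, hβe] with z e1 e2 y
    have h1 := e1 y
    unfold TD.prE at h1 ⊢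
    rw [← h1]
    unfold nabW
    simp only [e2]
    rfl
  obtain ⟨K, hK0, hK⟩ := energy_small S hOK hτ hE0 hET
  -- sequences
  obtain ⟨an, han, hans, hant⟩ := exists_seq_secW S.DT (by norm_num) β
  obtain ⟨un, hun, huns, hunt⟩ := exists_seq_secW S.D0 (by norm_num) w
  have hsm := fun a b => smooth_Pz S hOK hτ a b
  have hpp := fun a b z => p_Pz S hτ a b z
  choose k1 k2 k3 using fun n => mulS_secW S.D0 S.D0 hsm hpp (hun n) (huns n)
  -- `Π w = w`
  have hPw : mulS S.D0 S.D0 hsm hpp w = w := by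
    refine i1_injective S.D0.toAD ?_
    ext y
    have h4 := S.D0.toAD.coe_P (S.D0.toAD.i1 w)
    rw [show S.D0.toAD.P (S.D0.toAD.i1 w) = S.D0.toAD.i1 w from w.2.2] at h4
    filter_upwards [coe_mulS S.D0 S.D0 hsm hpp w, hpar.sec, h4] with z e1 e2 e3
    rw [e1 y]
    have e4 : ∑ b, Pz S τ y b z * (S.D0.toAD.i1 w b : M → ℝ) z =
        (1 / 2) * ((∑ b, S.D0.p y b z * (S.D0.toAD.i1 w b : M → ℝ) z) -
          ∑ k, ∑ y', τ.n k z * S.rho k y y' z * (S.D0.toAD.i1 w y' : M → ℝ) z) := by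
      unfold Pz
      rw [Finset.sum_comm (f := fun k y' => τ.n k z * S.rho k y y' z *
        (S.D0.toAD.i1 w y' : M → ℝ) z), ← Finset.sum_sub_distrib, Finset.mul_sum]
      refine Finset.sum_congr rfl fun b _ => ?_
      rw [← Finset.sum_mul]
      ring
    rw [e4, e2 y]
    have e5 : ∑ b, S.D0.p y b z * (S.D0.toAD.i1 w b : M → ℝ) z =
        (S.D0.toAD.i1 w y : M → ℝ) z := (e3 y).symm
    rw [e5]
    ring
  set sn : ℕ → κ0 → M → ℝ := fun n y z => ∑ b, Pz S τ y b z * un n b z with hsn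
  have hSn : Tendsto (fun n => secW S.D0 (k1 n) (k2 n)) atTop (𝓝 w) := by
    have h1 : Tendsto (fun n => mulS S.D0 S.D0 hsm hpp (secW S.D0 (hun n) (huns n))) atTop
        (𝓝 (mulS S.D0 S.D0 hsm hpp w)) :=
      ((mulS S.D0 S.D0 hsm hpp).continuous.tendsto _).comp hunt
    rw [hPw] at h1
    exact h1.congr fun n => (k3 n).symm
  have hpair : Tendsto (fun n => (secW S.DT (han n) (hans n), secW S.D0 (k1 n) (k2 n))) atTop
      (𝓝 (β, w)) := hant.prodMk_nhds hSn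
  -- the two sides
  have hL : Tendsto (fun n => |LI S hE0 h3 (secW S.DT (han n) (hans n)) (secW S.D0 (k1 n) (k2 n))|)
      atTop (𝓝 |LI S hE0 h3 β w|) :=
    (((continuous_LI S hE0 h3).tendsto (β, w)).comp hpair).abs
  have hR : Tendsto (fun n => |C'| * (K *
      (‖GW S hOK hE0 hET (secW S.DT (han n) (hans n)) (secW S.D0 (k1 n) (k2 n)) -
        GW S hOK hE0 hET β w‖ ^ 2 +
      ‖S.D0.toAD.i1 (secW S.D0 (k1 n) (k2 n)) - S.D0.toAD.i1 w‖ ^ 2))) atTop (𝓝 0) := by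
    have h1 : Tendsto (fun n => GW S hOK hE0 hET (secW S.DT (han n) (hans n))
        (secW S.D0 (k1 n) (k2 n)) - GW S hOK hE0 hET β w) atTop (𝓝 0) := by
      have := (((continuous_GW S hOK hE0 hET).tendsto (β, w)).comp hpair).sub_const
        (GW S hOK hE0 hET β w)
      simpa using this
    have h2 : Tendsto (fun n => S.D0.toAD.i1 (secW S.D0 (k1 n) (k2 n)) - S.D0.toAD.i1 w) atTop
        (𝓝 0) := by
      have := ((S.D0.toAD.i1.continuous.tendsto w).comp hSn).sub_const (S.D0.toAD.i1 w)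
      simpa using this
    have h3' := (((h1.norm.pow 2).add (h2.norm.pow 2)).const_mul K).const_mul |C'|
    simpa using h3'
  have hle : ∀ n, |LI S hE0 h3 (secW S.DT (han n) (hans n)) (secW S.D0 (k1 n) (k2 n))| ≤
      |C'| * (K * (‖GW S hOK hE0 hET (secW S.DT (han n) (hans n)) (secW S.D0 (k1 n) (k2 n)) -
        GW S hOK hE0 hET β w‖ ^ 2 +
      ‖S.D0.toAD.i1 (secW S.D0 (k1 n) (k2 n)) - S.D0.toAD.i1 w‖ ^ 2)) := by
    intro n
    have h1 := h3.st (an n) (sn n) (han n) (hans n) (k1 n) (secE_Pz S hOK hτ (un n))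
    have h2 := hK β w hz (an n) (han n) (hans n) (sn n) (k1 n) (k2 n)
    have h4 : LI S hE0 h3 (secW S.DT (han n) (hans n)) (secW S.D0 (k1 n) (k2 n)) =
        ∫ z, (∑ y, sn n y z ^ 2) * (fF z + ∑ A, ⟪S.DT.cv (an n) A z, g A z⟫)
          ∂(μHE[4] : Measure M) := by
      rw [LI_eq]
      refine integral_congr_ae ?_
      filter_upwards [coe_secW S.D0 (k1 n) (k2 n), coe_c1_secW S.DT (han n) (hans n)] with z e1 e2
      have r1 : ∀ y, rp (secW S.D0 (k1 n) (k2 n)) y z = sn n y z := fun y => e1 y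
      simp only [r1, e2]
    rw [h4]
    have h5 : 0 ≤ ∫ z, ∑ y, ‖τ.nE S (an n) (sn n) y z‖ ^ 2 ∂(μHE[4] : Measure M) :=
      integral_nonneg fun z => Finset.sum_nonneg fun _ _ => sq_nonneg _
    calc _ ≤ C' * ∫ z, ∑ y, ‖τ.nE S (an n) (sn n) y z‖ ^ 2 ∂(μHE[4] : Measure M) := h1
      _ ≤ |C'| * ∫ z, ∑ y, ‖τ.nE S (an n) (sn n) y z‖ ^ 2 ∂(μHE[4] : Measure M) :=
          mul_le_mul_of_nonneg_right (le_abs_self _) h5
      _ ≤ _ := mul_le_mul_of_nonneg_left h2 (abs_nonneg _)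
  have hLI0 : LI S hE0 h3 β w = 0 := by
    have h1 := le_of_tendsto_of_tendsto' hL hR hle
    exact abs_eq_zero.1 (le_antisymm h1 (abs_nonneg _))
  -- evaluation
  have hint1 : Integrable fF (μHE[4] : Measure M) :=
    (isT_smooth h3.smf).memLp.integrable (by norm_num)
  have hint2 : Integrable (fun z => ∑ A, ⟪(S.DT.toAD.c1 β A : M → EuclideanSpace ℝ (Fin 4)) z,
      g A z⟫) (μHE[4] : Measure M) := by
    have h1 := (Lp.memLp (opC S.DT.toAD (c := fun (_ : Unit) (A : κT) => g A)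
      (fun a A => bm_g S h3 a A) β ())).integrable (by norm_num)
    refine h1.congr ?_
    filter_upwards [coe_opC S.DT.toAD (c := fun (_ : Unit) (A : κT) => g A)
      (fun a A => bm_g S h3 a A) β] with z e1
    exact e1 ()
  have hval : LI S hE0 h3 β w = 2 * d.r * ∫ z, fF z ∂(μHE[4] : Measure M) := by
    rw [LI_eq]
    have h1 : ∫ z, (∑ y, rp w y z ^ 2) *
        (fF z + ∑ A, ⟪(S.DT.toAD.c1 β A : M → EuclideanSpace ℝ (Fin 4)) z, g A z⟫)
          ∂(μHE[4] : Measure M) = ∫ z, (2 * d.r) *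
        (fF z + ∑ A, ⟪(S.DT.toAD.c1 β A : M → EuclideanSpace ℝ (Fin 4)) z, g A z⟫)
          ∂(μHE[4] : Measure M) := by
      refine integral_congr_ae ?_
      filter_upwards [hpar.nrm] with z e1
      have e2 : ∑ y, rp w y z ^ 2 = 2 * d.r := e1
      simp only [e2]
    rw [h1, integral_const_mul, integral_add hint1 hint2, ex_WE S h3 β, add_zero]
  rw [hval] at hLI0
  rcases mul_eq_zero.1 hLI0 with h | h
  · linarith
  · exact h

end mfd

/-- **TAUF** modulo Sobolev (`Emb4` for every bundle) -/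
theorem tauf_of (hSob : ∀ (M : Type v) [MetricSpace M] [CompactSpace M] [ConnectedSpace M]
    [ChartedSpace (EuclideanSpace ℝ (Fin 4)) M] [IsManifold (𝓡 4) ∞ M]
    [RiemannianBundle (fun p : M => TangentSpace (𝓡 4) p)]
    [IsContMDiffRiemannianBundle (𝓡 4) ∞ (EuclideanSpace ℝ (Fin 4))
      (fun p : M => TangentSpace (𝓡 4) p)]
    [IsRiemannianManifold (𝓡 4) M] [MeasurableSpace M] [BorelSpace M]
    [SecondCountableTopology M] [Nonempty M] [IsFiniteMeasureOnCompacts (μHE[4] : Measure M)]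
    (κ : Type) [Fintype κ] (D : Dat 4 M κ), Emb4 D.toAD.i1) : TAUF.{v} := by
  intro M _ _ _ _ _ _ _ _ _ _ _ _ _ κ0 κ1 κT _ _ _ S d τ C C' t fF g hOK hτ h3 hfit hr a u ha w hpar
  exact tauf_one S hOK hτ h3 (hSob M κ0 S.D0) (hSob M κT S.DT) hfit hr ha hpar

end Crest.Agent.R235.Tauf_433
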