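import Crest.Agent.R235.SWJDefs_53
import Crest.Agent.R235.Fred_649
import Crest.Agent.R235.Tauf_433
import Crest.Agent.R235.SWTe_451
import Crest.Agent.R249.Ker57a_57

/-!
Row 235 (S0364), PACKAGE SW, ND (helper918), part A: pointwise algebra, expansions for smooth sections.
-/

set_option autoImplicit false
set_option maxSynthPendingDepth 3
set_option linter.unusedSectionVars false

open scoped ContDiff ENNReal NNReal Topology Manifold Bundle RealInnerProductSpace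
open MeasureTheory Set Filter Metric Bundle

universe v

namespace Crest.Agent.R235.SWNd_918

open Crest.Agent.R249.Tv57 Crest.Agent.R247.Ms322 Crest.Agent.R247.Dir593
open Crest.Agent.R247.Frd657
open Crest.Agent.R235.SWDefs_53 Crest.Agent.R235.SWSym_451 Crest.Agent.R235.SWTd_451
open Crest.Agent.R235.SWTe_451 Crest.Agent.R235.Fs4_546

noncomputable section

local notation "ipp" => Crest.Agent.R249.Tv57.ip 4
local notation "𝔼4" => EuclideanSpace ℝ (Fin 4)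

variable {M : Type v} [MetricSpace M] [CompactSpace M] [ConnectedSpace M]
  [ChartedSpace (EuclideanSpace ℝ (Fin 4)) M] [IsManifold (𝓡 4) ∞ M]
  [RiemannianBundle (fun p : M => TangentSpace (𝓡 4) p)]
  [IsContMDiffRiemannianBundle (𝓡 4) ∞ (EuclideanSpace ℝ (Fin 4))
    (fun p : M => TangentSpace (𝓡 4) p)]
  [IsRiemannianManifold (𝓡 4) M] [MeasurableSpace M] [BorelSpace M]
  [SecondCountableTopology M] [Nonempty M] [IsFiniteMeasureOnCompacts (μHE[4] : Measure M)]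
  {κ0 κ1 κT : Type} [Fintype κ0] [Fintype κ1] [Fintype κT]

/-! ### the two projections -/

/-- `Π₀` -/
def P0 (S : SWS M κ0 κ1 κT) (τ : TD M κT) : κ0 → κ0 → M → ℝ := Pr S (fun k z => - τ.n k z)
/-- `Π₁` -/
def P1 (S : SWS M κ0 κ1 κT) (τ : TD M κT) : κ0 → κ0 → M → ℝ := Pr S τ.n

variable {S : SWS M κ0 κ1 κT} {cc : κ1 → κ0 → M → EuclideanSpace ℝ (Fin 4)} {τ : TD M κT} {C : ℝ}

theorem P0_eq (y y' : κ0) (z : M) :
    (1 / 2) * (S.D0.p y y' z - ∑ k, τ.n k z * S.rho k y y' z) = P0 S τ y y' z := by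
  unfold P0 Pr
  congr 1
  rw [sub_eq_add_neg, ← Finset.sum_neg_distrib]
  congr 1
  exact Finset.sum_congr rfl fun k _ => by ring

theorem P0_add_P1 (y y' : κ0) (z : M) : P0 S τ y y' z + P1 S τ y y' z = S.D0.p y y' z := by
  rw [← P0_eq]
  unfold P1 Pr
  ring

theorem pj0 (H : Sym S cc) (hτ : τ.OK S C) : Pj S (P0 S τ) :=
  pj H (fun k => (hτ.smn k).neg) fun z => by
    rw [← hτ.norm z]
    exact Finset.sum_congr rfl fun k _ => by ring

theorem pj1 (H : Sym S cc) (hτ : τ.OK S C) : Pj S (P1 S τ) := pj H hτ.smn hτ.norm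

theorem R_eq (s : κ0 → M → ℝ) (y : κ0) (z : M) :
    τ.R S s y z = ∑ b, P1 S τ y b z * s b z - ∑ b, P0 S τ y b z * s b z := by
  rw [← Finset.sum_sub_distrib, TD.R, Finset.sum_comm]
  refine Finset.sum_congr rfl fun b _ => ?_
  rw [← Finset.sum_mul, ← sub_mul]
  congr 1
  unfold P0 P1 Pr
  have : ∑ k, - τ.n k z * S.rho k y b z = - ∑ k, τ.n k z * S.rho k y b z := by
    rw [← Finset.sum_neg_distrib]
    exact Finset.sum_congr rfl fun k _ => by ring
  rw [this]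
  ring

theorem p_eq (s : κ0 → M → ℝ) (y : κ0) (z : M) :
    ∑ b, S.D0.p y b z * s b z = ∑ b, P0 S τ y b z * s b z + ∑ b, P1 S τ y b z * s b z := by
  rw [← Finset.sum_add_distrib]
  exact Finset.sum_congr rfl fun b _ => by rw [← P0_add_P1 (τ := τ)]; ring

/-- `p P u = P u` -/
theorem sec_of_pj {P : κ0 → κ0 → M → ℝ} (hP : Pj S P) {s : κ0 → M → ℝ}
    (h : ∀ y z, ∑ b, P y b z * s b z = s y z) : S.D0.Sec s := by
  intro y z
  calc ∑ b, S.D0.p y b z * s b z = ∑ b, S.D0.p y b z * ∑ c, P b c z * s c z := by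
        refine Finset.sum_congr rfl fun b _ => ?_
        rw [h]
    _ = ∑ c, (∑ b, S.D0.p y b z * P b c z) * s c z := by
        simp only [Finset.mul_sum, Finset.sum_mul]
        rw [Finset.sum_comm]
        refine Finset.sum_congr rfl fun c _ => Finset.sum_congr rfl fun b _ => ?_
        ring
    _ = s y z := by
        simp only [hP.pP]
        exact h y z

theorem secE_iff (H : Sym S cc) (hτ : τ.OK S C) {s : κ0 → M → ℝ} :
    τ.SecE S s ↔ ∀ y z, ∑ b, P0 S τ y b z * s b z = s y z := by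
  constructor
  · rintro ⟨h1, h2⟩ y z
    have e1 := R_eq (S := S) (τ := τ) s y z
    have e2 := p_eq (S := S) (τ := τ) s y z
    rw [h1 y z] at e2
    rw [h2 y z] at e1
    linarith
  · intro h
    have hs := sec_of_pj (pj0 H hτ) h
    refine ⟨hs, fun y z => ?_⟩
    have e1 := R_eq (S := S) (τ := τ) s y z
    have e2 := p_eq (S := S) (τ := τ) s y z
    rw [hs y z, h y z] at e2
    rw [h y z] at e1
    linarith

theorem secE'_iff (H : Sym S cc) (hτ : τ.OK S C) {s : κ0 → M → ℝ} :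
    τ.SecE' S s ↔ ∀ y z, ∑ b, P1 S τ y b z * s b z = s y z := by
  constructor
  · rintro ⟨h1, h2⟩ y z
    have e1 := R_eq (S := S) (τ := τ) s y z
    have e2 := p_eq (S := S) (τ := τ) s y z
    rw [h1 y z] at e2
    rw [h2 y z] at e1
    linarith
  · intro h
    have hs := sec_of_pj (pj1 H hτ) h
    refine ⟨hs, fun y z => ?_⟩
    have e1 := R_eq (S := S) (τ := τ) s y z
    have e2 := p_eq (S := S) (τ := τ) s y z
    rw [hs y z, h y z] at e2
    rw [h y z] at e1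
    linarith

/-- `P (P u) = P u` -/
theorem pj_idem {P : κ0 → κ0 → M → ℝ} (hP : Pj S P) (u : κ0 → M → ℝ) (y : κ0) (z : M) :
    ∑ b, P y b z * ∑ c, P b c z * u c z = ∑ c, P y c z * u c z := by
  simp only [Finset.mul_sum]
  rw [Finset.sum_comm]
  refine Finset.sum_congr rfl fun c _ => ?_
  rw [← hP.idem y c z, Finset.sum_mul]
  exact Finset.sum_congr rfl fun b _ => by ring

/-- `P J s = J s` -/
theorem P_iu {P : κ0 → κ0 → M → ℝ} (hP : Pj S P) {s : κ0 → M → ℝ}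
    (hs : ∀ y z, ∑ b, P y b z * s b z = s y z) (y : κ0) (z : M) :
    ∑ b, P y b z * S.iu s b z = S.iu s y z := by
  unfold SWS.iu
  calc ∑ y', P y y' z * ∑ b, S.J y' b z * s b z
      = ∑ b, (∑ y', P y y' z * S.J y' b z) * s b z := by
        simp only [Finset.mul_sum, Finset.sum_mul]
        rw [Finset.sum_comm]
        refine Finset.sum_congr rfl fun b _ => Finset.sum_congr rfl fun y' _ => ?_
        ring
    _ = ∑ b, (∑ y', S.J y y' z * P y' b z) * s b z := by simp only [hP.PJ]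
    _ = ∑ y', S.J y y' z * ∑ b, P y' b z * s b z := by
        simp only [Finset.mul_sum, Finset.sum_mul]
        rw [Finset.sum_comm]
        refine Finset.sum_congr rfl fun b _ => Finset.sum_congr rfl fun y' _ => ?_
        ring
    _ = ∑ b, S.J y b z * s b z := by simp only [hs]

/-! ### the connection of `E` -/

/-- `∇^E s` for a section of `E` -/
theorem nE_eq (H : Sym S cc) (hτ : τ.OK S C) (a : κT → M → ℝ) {s : κ0 → M → ℝ}
    (hs : τ.SecE S s) (y : κ0) (z : M) :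
    τ.nE S a s y z = ∑ b, P0 S τ y b z • S.D0.cv s b z + S.iu s y z • (S.vf a z + S.vf τ.sh z) := by
  have h1 := P_iu (pj0 H hτ) ((secE_iff H hτ).1 hs) y z
  unfold TD.nE TD.prE SWS.nab
  simp only [P0_eq, smul_add, Finset.sum_add_distrib, smul_smul]
  rw [← Finset.sum_smul]
  have h2 : ∑ b, P0 S τ y b z * ∑ y', S.J b y' z * s y' z = S.iu s y z := h1
  rw [h2]
  unfold SWS.vf SWS.iu
  rw [add_assoc]

/-- linearity of `i` -/
theorem iu_add (s s1 : κ0 → M → ℝ) (ε : ℝ) (y : κ0) (z : M) :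
    S.iu (fun y z => s y z + ε * s1 y z) y z = S.iu s y z + ε * S.iu s1 y z := by
  unfold SWS.iu
  rw [Finset.mul_sum, ← Finset.sum_add_distrib]
  exact Finset.sum_congr rfl fun b _ => by ring

theorem vf_add (a b : κT → M → ℝ) (ε : ℝ) (z : M) :
    S.vf (fun A z => a A z + ε * b A z) z = S.vf a z + ε • S.vf b z := by
  unfold SWS.vf
  rw [Finset.smul_sum, ← Finset.sum_add_distrib]
  exact Finset.sum_congr rfl fun b _ => by rw [add_smul, smul_smul]

theorem cv_add' {κ : Type} [Fintype κ] (D : Dat 4 M κ) {u w : κ → M → ℝ} (hu : SmV (n := 4) u)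
    (hw : SmV (n := 4) w) (ε : ℝ) (a : κ) (z : M) :
    D.cv (fun a z => u a z + ε * w a z) a z = D.cv u a z + ε • D.cv w a z := by
  have h := Crest.Agent.R249.Ker57.cv_lin (D := D) hu hw 1 ε a z
  simp only [one_mul, one_smul] at h
  exact h

theorem smV_add' {κ : Type} {u w : κ → M → ℝ} (hu : SmV (n := 4) u)
    (hw : SmV (n := 4) w) (ε : ℝ) : SmV (n := 4) (fun a z => u a z + ε * w a z) := fun a =>
  (hu a).add (contMDiff_const.mul (hw a))

theorem sec_add' {κ : Type} [Fintype κ] (D : Dat 4 M κ) {u w : κ → M → ℝ} (hu : D.Sec u)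
    (hw : D.Sec w) (ε : ℝ) : D.Sec (fun a z => u a z + ε * w a z) := by
  intro a z
  simp only [mul_add, Finset.sum_add_distrib]
  rw [hu a z, ← hw a z, Finset.mul_sum]
  congr 1
  exact Finset.sum_congr rfl fun b _ => by ring

theorem secE_add (H : Sym S cc) (hτ : τ.OK S C) {s s1 : κ0 → M → ℝ} (hs : τ.SecE S s)
    (hs1 : τ.SecE S s1) (ε : ℝ) : τ.SecE S (fun y z => s y z + ε * s1 y z) := by
  rw [secE_iff H hτ] at *
  intro y z
  simp only [mul_add, Finset.sum_add_distrib]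
  rw [hs y z, ← hs1 y z, Finset.mul_sum]
  congr 1
  exact Finset.sum_congr rfl fun b _ => by ring

/-- the linearised connection -/
def NN (S : SWS M κ0 κ1 κT) (τ : TD M κT) (th : κT → M → ℝ) (s0 : κ0 → M → ℝ)
    (al : κT → M → ℝ) (s1 : κ0 → M → ℝ) (y : κ0) (z : M) : 𝔼4 :=
  τ.nE S th s1 y z + S.iu s0 y z • S.vf al z

/-- expansion of `∇^E` -/
theorem nE_exp (H : Sym S cc) (hτ : τ.OK S C) (th al : κT → M → ℝ) {s0 s1 : κ0 → M → ℝ}
    (h0 : SmV (n := 4) s0) (h1 : SmV (n := 4) s1)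
    (hs : τ.SecE S s0) (hs1 : τ.SecE S s1) (ε : ℝ) (y : κ0) (z : M)
    (hpar : ∀ y z, τ.nE S th s0 y z = 0) :
    τ.nE S (fun A z => th A z + ε * al A z) (fun y z => s0 y z + ε * s1 y z) y z =
      ε • (NN S τ th s0 al s1 y z + ε • (S.iu s1 y z • S.vf al z)) := by
  have e0 := hpar y z
  rw [nE_eq H hτ _ hs] at e0
  rw [nE_eq H hτ _ (secE_add H hτ hs hs1 ε), NN, nE_eq H hτ _ hs1]
  simp only [cv_add' S.D0 h0 h1, iu_add, vf_add, smul_add, Finset.sum_add_distrib]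
  rw [smul_add] at e0
  have e1 : ∑ b, P0 S τ y b z • ε • S.D0.cv s1 b z = ε • ∑ b, P0 S τ y b z • S.D0.cv s1 b z := by
    rw [Finset.smul_sum]
    exact Finset.sum_congr rfl fun b _ => smul_comm _ _ _
  rw [e1]
  have e2 : ∑ b, P0 S τ y b z • S.D0.cv s0 b z =
      - (S.iu s0 y z • S.vf th z + S.iu s0 y z • S.vf τ.sh z) := eq_neg_of_add_eq_zero_left e0
  rw [e2]
  module

/-! ### the Dirac operator -/

theorem A_lin {κ κ' : Type} [Fintype κ] [Fintype κ'] {D0 : Dat 4 M κ} {D1 : Dat 4 M κ'}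
    (P : OpPair D0 D1) {u w : κ → M → ℝ} (hu : SmV (n := 4) u) (hus : D0.Sec u)
    (hw : SmV (n := 4) w) (hws : D0.Sec w) (ε : ℝ) (x : κ') (z : M) :
    P.A (fun y z => u y z + ε * w y z) x z = P.A u x z + ε * P.A w x z := by
  have h1 : lA P (⟨u, hu, hus⟩ + ε • ⟨w, hw, hws⟩) = lA P ⟨u, hu, hus⟩ + ε • lA P ⟨w, hw, hws⟩ := by
    rw [map_add, map_smul]
  exact congrFun (congrFun (congrArg Subtype.val h1) x) z

theorem cm_exp (th al : κT → M → ℝ) (u w : κ0 → M → ℝ) (ε : ℝ) (x : κ1) (z : M) :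
    S.cm (fun A z => th A z + ε * al A z) (fun y z => u y z + ε * w y z) x z =
      S.cm th u x z + ε * (S.cm th w x z + S.cm al u x z) + ε ^ 2 * S.cm al w x z := by
  unfold SWS.cm
  simp only [Finset.mul_sum, ← Finset.sum_add_distrib]
  refine Finset.sum_congr rfl fun A _ => Finset.sum_congr rfl fun y _ => ?_
  ring

theorem smV_sc (hτ : τ.OK S C) (q : ℝ) {s : κ0 → M → ℝ} (hs : SmV (n := 4) s) :
    SmV (n := 4) (τ.sc q s) := fun y => (smooth_rpow hτ.smrr hτ.pos q).mul (hs y)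

theorem sec_sc (q : ℝ) {s : κ0 → M → ℝ} (hs : S.D0.Sec s) : S.D0.Sec (τ.sc q s) := by
  intro y z
  unfold TD.sc
  rw [← hs y z, Finset.mul_sum]
  exact Finset.sum_congr rfl fun b _ => by ring

theorem sc_add (q : ℝ) (s s1 : κ0 → M → ℝ) (ε : ℝ) :
    τ.sc q (fun y z => s y z + ε * s1 y z) = fun y z => τ.sc q s y z + ε * τ.sc q s1 y z := by
  funext y z
  unfold TD.sc
  ring

/-- `D_a u` -/
def dd (S : SWS M κ0 κ1 κT) (τ : TD M κT) (a : κT → M → ℝ) (s : κ0 → M → ℝ) (x : κ1) (z : M) : ℝ :=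
  S.P.A (τ.sc (3 / 4) s) x z + S.cm a (τ.sc (3 / 4) s) x z

/-- the linearised Dirac equation -/
def XX (S : SWS M κ0 κ1 κT) (τ : TD M κT) (th : κT → M → ℝ) (s0 : κ0 → M → ℝ)
    (al : κT → M → ℝ) (s1 : κ0 → M → ℝ) (x : κ1) (z : M) : ℝ :=
  dd S τ th s1 x z + S.cm al (τ.sc (3 / 4) s0) x z

theorem dd_exp (hτ : τ.OK S C) (th al : κT → M → ℝ) {s0 s1 : κ0 → M → ℝ}
    (h0 : SmV (n := 4) s0) (h1 : SmV (n := 4) s1) (hs0 : S.D0.Sec s0) (hs1 : S.D0.Sec s1)
    (ε : ℝ) (x : κ1) (z : M) :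
    dd S τ (fun A z => th A z + ε * al A z) (fun y z => s0 y z + ε * s1 y z) x z =
      dd S τ th s0 x z + ε * (XX S τ th s0 al s1 x z + ε * S.cm al (τ.sc (3 / 4) s1) x z) := by
  unfold XX dd
  rw [sc_add, A_lin S.P (smV_sc hτ _ h0) (sec_sc _ hs0) (smV_sc hτ _ h1) (sec_sc _ hs1), cm_exp]
  ring

/-- the same with a fixed second section -/
theorem dd_exp' (th al : κT → M → ℝ) (s' : κ0 → M → ℝ) (ε : ℝ) (x : κ1) (z : M) :
    dd S τ (fun A z => th A z + ε * al A z) s' x z =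
      dd S τ th s' x z + ε * S.cm al (τ.sc (3 / 4) s') x z := by
  unfold dd
  have h := cm_exp (S := S) th al (τ.sc (3 / 4) s') (fun _ _ => 0) ε x z
  have e : ∀ a : κT → M → ℝ, S.cm a (fun _ _ => 0) x z = 0 := by
    intro a
    unfold SWS.cm
    simp
  rw [e, e] at h
  simp only [mul_zero, add_zero] at h
  rw [h]
  ring

/-! ### continuity -/

theorem ic {f : M → ℝ} (h : Continuous f) : Integrable f (μHE[4] : Measure M) :=
  h.integrable_of_hasCompactSupport (HasCompactSupport.of_compactSpace f)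

theorem smooth_cm (hOK : S.OK) {a : κT → M → ℝ} {u : κ0 → M → ℝ} (ha : SmV (n := 4) a)
    (hu : SmV (n := 4) u) (x : κ1) : ContMDiff (𝓡 4) 𝓘(ℝ, ℝ) ∞ (S.cm a u x) :=
  contMDiff_finsetSum fun A _ => contMDiff_finsetSum fun y _ =>
    ((ha A).mul (hu y)).mul (hOK.smcl A x y)

theorem smooth_dd (hOK : S.OK) (hτ : τ.OK S C) {a : κT → M → ℝ} {s : κ0 → M → ℝ}
    (ha : SmV (n := 4) a) (hs : SmV (n := 4) s) (hse : S.D0.Sec s) (x : κ1) :
    ContMDiff (𝓡 4) 𝓘(ℝ, ℝ) ∞ (dd S τ a s x) :=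
  (S.P.smA _ (smV_sc hτ _ hs) (sec_sc _ hse) x).add (smooth_cm hOK ha (smV_sc hτ _ hs) x)

theorem smooth_XX (hOK : S.OK) (hτ : τ.OK S C) {th al : κT → M → ℝ} {s0 s1 : κ0 → M → ℝ}
    (hth : SmV (n := 4) th) (hal : SmV (n := 4) al) (h0 : SmV (n := 4) s0) (h1 : SmV (n := 4) s1)
    (hs1 : S.D0.Sec s1) (x : κ1) : ContMDiff (𝓡 4) 𝓘(ℝ, ℝ) ∞ (XX S τ th s0 al s1 x) :=
  (smooth_dd hOK hτ hth h1 hs1 x).add (smooth_cm hOK hal (smV_sc hτ _ h0) x)

theorem smF_vf (hOK : S.OK) {a : κT → M → ℝ} (ha : SmV (n := 4) a) : SmF (S.vf a) :=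
  SmF.sum _ fun A _ => SmF.smul (ha A) (hOK.sms A)

theorem smV_iu (hOK : S.OK) {s : κ0 → M → ℝ} (hs : SmV (n := 4) s) : SmV (n := 4) (S.iu s) :=
  fun y => contMDiff_finsetSum fun b _ => (hOK.smJ y b).mul (hs b)

theorem smF_nE (hOK : S.OK) (H : Sym S cc) (hτ : τ.OK S C) {a : κT → M → ℝ} {s : κ0 → M → ℝ}
    (ha : SmV (n := 4) a) (hs : SmV (n := 4) s) (hE : τ.SecE S s) (y : κ0) :
    SmF (τ.nE S a s y) := by
  refine SmF.congr ?_ fun z => nE_eq H hτ a hE y z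
  exact (SmF.sum _ fun b _ => SmF.smul ((pj0 H hτ).sm y b) (smF_cv S.D0 hs b)).add
    (SmF.smul (smV_iu hOK hs y) ((smF_vf hOK ha).add (smF_vf hOK hτ.smsh)))

theorem smF_NN (hOK : S.OK) (H : Sym S cc) (hτ : τ.OK S C) {th al : κT → M → ℝ}
    {s0 s1 : κ0 → M → ℝ} (hth : SmV (n := 4) th) (hal : SmV (n := 4) al) (h0 : SmV (n := 4) s0)
    (h1 : SmV (n := 4) s1) (hE : τ.SecE S s1) (y : κ0) :
    SmF (NN S τ th s0 al s1 y) :=
  (smF_nE hOK H hτ hth h1 hE y).add (SmF.smul (smV_iu hOK h0 y) (smF_vf hOK hal))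

theorem cont_nsq {X : κ0 → M → 𝔼4} (hX : ∀ y, SmF (X y)) :
    Continuous fun z => ∑ y, ‖X y z‖ ^ 2 := by
  refine continuous_finsetSum _ fun y _ => ?_
  have h := ((hX y).inner (hX y)).continuous
  simp only [real_inner_self_eq_norm_sq] at h
  exact h

theorem cont_nin {X Y : κ0 → M → 𝔼4} (hX : ∀ y, SmF (X y)) (hY : ∀ y, SmF (Y y)) :
    Continuous fun z => ∑ y, (⟪X y z, Y y z⟫ : ℝ) :=
  continuous_finsetSum _ fun y _ => ((hX y).inner (hY y)).continuous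

/-! ### scalar lemmas -/

theorem sum_sq_exp {ι : Type*} [Fintype ι] (ε : ℝ) (X Z : ι → ℝ) :
    ∑ x, (ε * (X x + ε * Z x)) ^ 2 =
      ε ^ 2 * ∑ x, X x ^ 2 + 2 * ε ^ 3 * ∑ x, X x * Z x + ε ^ 4 * ∑ x, Z x ^ 2 := by
  simp only [Finset.mul_sum, ← Finset.sum_add_distrib]
  exact Finset.sum_congr rfl fun x _ => by ring

theorem sum_norm_exp {ι : Type*} [Fintype ι] (ε : ℝ) (X Z : ι → 𝔼4) :
    ∑ x, ‖X x + ε • Z x‖ ^ 2 =
      ∑ x, ‖X x‖ ^ 2 + 2 * ε * ∑ x, (⟪X x, Z x⟫ : ℝ) + ε ^ 2 * ∑ x, ‖Z x‖ ^ 2 := by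
  simp only [Finset.mul_sum, ← Finset.sum_add_distrib]
  refine Finset.sum_congr rfl fun x _ => ?_
  rw [norm_add_sq_real, real_inner_smul_right, norm_smul, mul_pow, Real.norm_eq_abs, sq_abs]
  ring

theorem sum_norm_smul {ι : Type*} [Fintype ι] (ε : ℝ) (X : ι → 𝔼4) :
    ∑ x, ‖ε • X x‖ ^ 2 = ε ^ 2 * ∑ x, ‖X x‖ ^ 2 := by
  simp only [Finset.mul_sum]
  refine Finset.sum_congr rfl fun x _ => ?_
  rw [norm_smul, mul_pow, Real.norm_eq_abs, sq_abs]

theorem lim_le {a0 a1 a2 b0 b1 b2 : ℝ}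
    (h : ∀ ε > (0:ℝ), |a0 + ε * a1 + ε ^ 2 * a2| ≤ b0 + ε * b1 + ε ^ 2 * b2) : |a0| ≤ b0 := by
  have h1 : Tendsto (fun ε : ℝ => |a0 + ε * a1 + ε ^ 2 * a2|) (𝓝[>] 0) (𝓝 |a0|) := by
    have hc : Continuous fun ε : ℝ => |a0 + ε * a1 + ε ^ 2 * a2| := by fun_prop
    have := (hc.tendsto 0).mono_left (nhdsWithin_le_nhds (s := Ioi 0))
    simpa using this
  have h2 : Tendsto (fun ε : ℝ => b0 + ε * b1 + ε ^ 2 * b2) (𝓝[>] 0) (𝓝 b0) := by
    have hc : Continuous fun ε : ℝ => b0 + ε * b1 + ε ^ 2 * b2 := by fun_prop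
    have := (hc.tendsto 0).mono_left (nhdsWithin_le_nhds (s := Ioi 0))
    simpa using this
  exact le_of_tendsto_of_tendsto h1 h2 (eventually_nhdsWithin_of_forall fun ε hε => h ε hε)

theorem int_poly {f0 f1 f2 : M → ℝ} (h0 : Continuous f0) (h1 : Continuous f1) (h2 : Continuous f2)
    (ε : ℝ) : ∫ z, (f0 z + ε * f1 z + ε ^ 2 * f2 z) ∂(μHE[4] : Measure M) =
      ∫ z, f0 z ∂(μHE[4] : Measure M) + ε * ∫ z, f1 z ∂(μHE[4] : Measure M) +
        ε ^ 2 * ∫ z, f2 z ∂(μHE[4] : Measure M) := by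
  have i0 := ic h0
  have i1 : Integrable (fun z => ε * f1 z) (μHE[4] : Measure M) := (ic h1).const_mul ε
  have i2 : Integrable (fun z => ε ^ 2 * f2 z) (μHE[4] : Measure M) := (ic h2).const_mul _
  have i3 : Integrable (fun z => f0 z + ε * f1 z) (μHE[4] : Measure M) := i0.add i1
  rw [integral_add i3 i2, integral_add i0 i1, integral_const_mul, integral_const_mul]

theorem amgm {ρ r c x y : ℝ} (hρ : 0 < ρ) (hc : c ^ 2 ≤ r * ρ ^ 3) :
    c * (x * y) ≤ (1 / 2) * (ρ * x ^ 2 + r * ρ ^ 2 * y ^ 2) := by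
  have h1 : 0 ≤ (ρ * x - c * y) ^ 2 := sq_nonneg _
  have h2 : c ^ 2 * y ^ 2 ≤ r * ρ ^ 3 * y ^ 2 := mul_le_mul_of_nonneg_right hc (sq_nonneg _)
  have h3 : ρ * (2 * (c * (x * y))) ≤ ρ * (ρ * x ^ 2 + r * ρ ^ 2 * y ^ 2) := by nlinarith
  have h4 := le_of_mul_le_mul_left h3 hρ
  linarith

/-! ### the hypotheses -/

/-- the hypotheses of ND on the data -/
structure Hyp (S : SWS M κ0 κ1 κT) (cc : κ1 → κ0 → M → EuclideanSpace ℝ (Fin 4))
    (τ : TD M κT) (C r : ℝ) (th : κT → M → ℝ) (s0 : κ0 → M → ℝ) : Prop where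
  ok : S.OK
  sym : Sym S cc
  grd : GrdH S
  tau : τ.OK S C
  smth : SmV (n := 4) th
  secth : S.DT.Sec th
  rpos : 0 < r
  big : ∀ z, C ^ 2 ≤ r * τ.rr z ^ 3
  flat : τ.Flat S th
  par : τ.PSec S th r s0

variable {r : ℝ} {th : κT → M → ℝ} {s0 : κ0 → M → ℝ}

namespace Hyp

/-- the function `ρ^q` is continuous -/
theorem cont_rpow (hτ : τ.OK S C) (q : ℝ) : Continuous fun z => τ.rr z ^ q :=
  (smooth_rpow hτ.smrr hτ.pos q).continuous

/-- `D_th (ρ^{3/4} s0) = 0` -/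
theorem dd0 (h : Hyp S cc τ C r th s0) (x : κ1) (z : M) : dd S τ th s0 x z = 0 := by
  have h1 := h.tau.T1 th s0 h.smth h.secth h.par.sm h.par.sec
  have h2 : ∫ z, (τ.rr z * (∑ y, ‖τ.nE S th s0 y z‖ ^ 2) -
      τ.rr z * (∑ k, (S.H.B th k.succ z + τ.fE k z) * τ.n k z) * ∑ y, s0 y z ^ 2)
      ∂(μHE[4] : Measure M) = 0 := by
    rw [← integral_zero M ℝ (μ := (μHE[4] : Measure M))]
    refine integral_congr_ae (Eventually.of_forall fun z => ?_)
    simp only [h.par.par]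
    have e : ∀ k, S.H.B th k.succ z + τ.fE k z = 0 := fun k => by
      rw [add_comm]; exact h.flat k z
    simp [e]
  rw [h2] at h1
  set u : κ1 → M → ℝ := fun x z => τ.rr z ^ (-(1 / 4) : ℝ) * dd S τ th s0 x z with hu
  have hus : SmV (n := 4) u := fun x => (smooth_rpow h.tau.smrr h.tau.pos _).mul
    (smooth_dd h.ok h.tau h.smth h.par.sm h.par.sec.1 x)
  have h3 : ipp u u = 0 := by
    rw [← h1]
    refine integral_congr_ae (Eventually.of_forall fun z => ?_)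
    simp only [hu]
    rw [Finset.mul_sum]
    refine Finset.sum_congr rfl fun x _ => ?_
    have e : τ.rr z ^ (-(1 / 2) : ℝ) = τ.rr z ^ (-(1 / 4) : ℝ) * τ.rr z ^ (-(1 / 4) : ℝ) := by
      rw [← Real.rpow_add (h.tau.pos z)]
      norm_num
    rw [e]
    simp only [dd, Pi.add_apply]
    ring
  have h4 := eq_zero_of_ip hus h3 x z
  rcases mul_eq_zero.1 h4 with h5 | h5
  · exact absurd h5 (Real.rpow_pos_of_pos (h.tau.pos z) _).ne'
  · exact h5

theorem B_exp (h : Hyp S cc τ C r th s0) {al : κT → M → ℝ} (hal : SmV (n := 4) al)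
    (has : S.DT.Sec al) (ε : ℝ) (k : Fin 3) (z : M) :
    S.H.B (fun A z => th A z + ε * al A z) k.succ z + τ.fE k z = ε * S.H.B al k.succ z := by
  have h1 := A_lin S.H.swap h.smth h.secth hal has ε k.succ z
  have h2 := h.flat k z
  have h3 : S.H.B (fun A z => th A z + ε * al A z) k.succ z =
    S.H.B th k.succ z + ε * S.H.B al k.succ z := h1
  rw [h3]
  linarith

/-- the integrand of (Q1) -/
def G1 (S : SWS M κ0 κ1 κT) (τ : TD M κT) (th : κT → M → ℝ) (s0 : κ0 → M → ℝ)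
    (al : κT → M → ℝ) (s1 : κ0 → M → ℝ) (z : M) : ℝ :=
  τ.rr z ^ (-(1 / 2) : ℝ) * ∑ x, XX S τ th s0 al s1 x z ^ 2 -
    τ.rr z * ∑ y, ‖NN S τ th s0 al s1 y z‖ ^ 2 +
    2 * (τ.rr z * (∑ k : Fin 3, S.H.B al k.succ z * τ.n k z) * ∑ y, s0 y z * s1 y z)

/-- **(Q1)** -/
theorem q1 (h : Hyp S cc τ C r th s0) {al : κT → M → ℝ} {s1 : κ0 → M → ℝ}
    (hal : SmV (n := 4) al) (has : S.DT.Sec al) (h1 : SmV (n := 4) s1) (hE : τ.SecE S s1) :
    ∫ z, G1 S τ th s0 al s1 z ∂(μHE[4] : Measure M) = 0 := by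
  set aε : ℝ → κT → M → ℝ := fun ε A z => th A z + ε * al A z with haε
  set sε : ℝ → κ0 → M → ℝ := fun ε y z => s0 y z + ε * s1 y z with hsε
  set L : ℝ → M → ℝ := fun ε z => τ.rr z ^ (-(1 / 2) : ℝ) * ∑ x, dd S τ (aε ε) (sε ε) x z ^ 2 with hL
  set R : ℝ → M → ℝ := fun ε z => τ.rr z * (∑ y, ‖τ.nE S (aε ε) (sε ε) y z‖ ^ 2) -
      τ.rr z * (∑ k, (S.H.B (aε ε) k.succ z + τ.fE k z) * τ.n k z) * ∑ y, sε ε y z ^ 2 with hR
  have sma : ∀ ε, SmV (n := 4) (aε ε) := fun ε => smV_add' h.smth hal ε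
  have sca : ∀ ε, S.DT.Sec (aε ε) := fun ε => sec_add' S.DT h.secth has ε
  have sms : ∀ ε, SmV (n := 4) (sε ε) := fun ε => smV_add' h.par.sm h1 ε
  have scs : ∀ ε, τ.SecE S (sε ε) := fun ε => secE_add h.sym h.tau h.par.sec hE ε
  have hLc : ∀ ε, Continuous (L ε) := fun ε => (cont_rpow h.tau _).mul
    (continuous_finsetSum _ fun x _ =>
      (smooth_dd h.ok h.tau (sma ε) (sms ε) (scs ε).1 x).continuous.pow 2)
  have hRc : ∀ ε, Continuous (R ε) := fun ε =>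
    (h.tau.smrr.continuous.mul (cont_nsq fun y => smF_nE h.ok h.sym h.tau (sma ε) (sms ε) (scs ε) y)).sub
      ((h.tau.smrr.continuous.mul (continuous_finsetSum _ fun k _ =>
        ((S.H.smB _ (sma ε) (sca ε) k.succ).continuous.add (h.tau.smfE k).continuous).mul
          (h.tau.smn k).continuous)).mul
        (continuous_finsetSum _ fun y _ => (sms ε y).continuous.pow 2))
  have hI : ∀ ε, ∫ z, (L ε z - R ε z) ∂(μHE[4] : Measure M) = 0 := fun ε => by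
    rw [integral_sub (ic (hLc ε)) (ic (hRc ε))]
    exact sub_eq_zero.2 (h.tau.T1 (aε ε) (sε ε) (sma ε) (sca ε) (sms ε) (scs ε))
  have hg : ∀ ε z, L ε z - R ε z = τ.rr z ^ (-(1 / 2) : ℝ) *
      (ε ^ 2 * ∑ x, XX S τ th s0 al s1 x z ^ 2 +
        2 * ε ^ 3 * ∑ x, XX S τ th s0 al s1 x z * S.cm al (τ.sc (3 / 4) s1) x z +
        ε ^ 4 * ∑ x, S.cm al (τ.sc (3 / 4) s1) x z ^ 2) -
      (τ.rr z * (ε ^ 2 * (∑ y, ‖NN S τ th s0 al s1 y z‖ ^ 2 +
        2 * ε * ∑ y, (⟪NN S τ th s0 al s1 y z, S.iu s1 y z • S.vf al z⟫ : ℝ) +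
        ε ^ 2 * ∑ y, ‖S.iu s1 y z • S.vf al z‖ ^ 2)) -
      τ.rr z * (ε * ∑ k : Fin 3, S.H.B al k.succ z * τ.n k z) *
        (∑ y, s0 y z ^ 2 + 2 * ε * ∑ y, s0 y z * s1 y z + ε ^ 2 * ∑ y, s1 y z ^ 2)) := by
    intro ε z
    simp only [hL, hR, haε, hsε]
    simp only [dd_exp h.tau th al h.par.sm h1 h.par.sec.1 hE.1, h.dd0, zero_add, sum_sq_exp]
    simp only [nE_exp h.sym h.tau th al h.par.sm h1 h.par.sec hE ε _ _ h.par.par, sum_norm_smul,
      sum_norm_exp, h.B_exp hal has]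
    have e1 : ∑ k : Fin 3, ε * S.H.B al k.succ z * τ.n k z =
        ε * ∑ k : Fin 3, S.H.B al k.succ z * τ.n k z := by
      rw [Finset.mul_sum]
      exact Finset.sum_congr rfl fun k _ => by ring
    have e2 : ∑ y, (s0 y z + ε * s1 y z) ^ 2 =
        ∑ y, s0 y z ^ 2 + 2 * ε * ∑ y, s0 y z * s1 y z + ε ^ 2 * ∑ y, s1 y z ^ 2 := by
      simp only [Finset.mul_sum, ← Finset.sum_add_distrib]
      exact Finset.sum_congr rfl fun x _ => by ring
    rw [e1, e2]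
  have key : ∀ z, G1 S τ th s0 al s1 z = (16 * ((L 1 z - R 1 z) + (L (-1) z - R (-1) z)) -
      ((L 2 z - R 2 z) + (L (-2) z - R (-2) z))) / 24 := by
    intro z
    rw [hg, hg, hg, hg, G1]
    ring
  simp only [key]
  have i : ∀ ε, Integrable (fun z => L ε z - R ε z) (μHE[4] : Measure M) := fun ε =>
    ic ((hLc ε).sub (hRc ε))
  have i12 : Integrable (fun z => 16 * ((L 1 z - R 1 z) + (L (-1) z - R (-1) z)))
    (μHE[4] : Measure M) := ((i 1).add (i (-1))).const_mul 16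
  have i22 : Integrable (fun z => ((L 2 z - R 2 z) + (L (-2) z - R (-2) z)))
    (μHE[4] : Measure M) := (i 2).add (i (-2))
  rw [integral_div, integral_sub i12 i22, integral_const_mul]
  have j1 : ∫ z, ((L 1 z - R 1 z) + (L (-1) z - R (-1) z)) ∂(μHE[4] : Measure M) = 0 := by
    rw [integral_add (i 1) (i (-1)), hI, hI, add_zero]
  have j2 : ∫ z, ((L 2 z - R 2 z) + (L (-2) z - R (-2) z)) ∂(μHE[4] : Measure M) = 0 := by
    rw [integral_add (i 2) (i (-2)), hI, hI, add_zero]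
  rw [j1, j2]
  norm_num

/-- the integrand of (Q2) -/
def G2 (S : SWS M κ0 κ1 κT) (τ : TD M κT) (th : κT → M → ℝ) (s0 : κ0 → M → ℝ)
    (al : κT → M → ℝ) (s1 s' : κ0 → M → ℝ) (z : M) : ℝ :=
  τ.rr z ^ (-(1 / 2) : ℝ) * ∑ x, XX S τ th s0 al s1 x z * dd S τ th s' x z -
    τ.rr z * ∑ k : Fin 3, S.H.B al k.succ z * ∑ y, ∑ y', S.rho k y y' z * s0 y z * s' y' z

/-- **(Q2)** -/
theorem q2 (h : Hyp S cc τ C r th s0) {al : κT → M → ℝ} {s1 s' : κ0 → M → ℝ}
    (hal : SmV (n := 4) al) (has : S.DT.Sec al) (h1 : SmV (n := 4) s1) (hE : τ.SecE S s1)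
    (h' : SmV (n := 4) s') (hE' : τ.SecE' S s') :
    |∫ z, G2 S τ th s0 al s1 s' z ∂(μHE[4] : Measure M)| ≤
      ∫ z, (1 / 2) * (τ.rr z * ∑ y, ‖NN S τ th s0 al s1 y z‖ ^ 2 +
        r * τ.rr z ^ 2 * ∑ y, s' y z ^ 2) ∂(μHE[4] : Measure M) := by
  set aε : ℝ → κT → M → ℝ := fun ε A z => th A z + ε * al A z with haε
  set sε : ℝ → κ0 → M → ℝ := fun ε y z => s0 y z + ε * s1 y z with hsε
  have sma : ∀ ε, SmV (n := 4) (aε ε) := fun ε => smV_add' h.smth hal ε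
  have sca : ∀ ε, S.DT.Sec (aε ε) := fun ε => sec_add' S.DT h.secth has ε
  have sms : ∀ ε, SmV (n := 4) (sε ε) := fun ε => smV_add' h.par.sm h1 ε
  have scs : ∀ ε, τ.SecE S (sε ε) := fun ε => secE_add h.sym h.tau h.par.sec hE ε
  set Z : κ1 → M → ℝ := S.cm al (τ.sc (3 / 4) s1) with hZ
  set Z' : κ1 → M → ℝ := S.cm al (τ.sc (3 / 4) s') with hZ'
  set K : κ0 → M → 𝔼4 := fun y z => S.iu s1 y z • S.vf al z with hK
  have smX := smooth_XX h.ok h.tau h.smth hal h.par.sm h1 hE.1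
  have smY := smooth_dd h.ok h.tau h.smth h' hE'.1
  have smZ := fun x => smooth_cm (x := x) h.ok hal (smV_sc h.tau (3 / 4) h1)
  have smZ' := fun x => smooth_cm (x := x) h.ok hal (smV_sc h.tau (3 / 4) h')
  have smK : ∀ y, SmF (K y) := fun y => SmF.smul (smV_iu h.ok h1 y) (smF_vf h.ok hal)
  have smN := smF_NN h.ok h.sym h.tau h.smth hal h.par.sm h1 hE
  have smB := fun k : Fin 3 => (S.H.smB _ hal has k.succ).continuous
  -- the coefficients
  set g1 : M → ℝ := fun z => τ.rr z ^ (-(1 / 2) : ℝ) *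
    (∑ x, XX S τ th s0 al s1 x z * Z' x z + ∑ x, Z x z * dd S τ th s' x z) -
    τ.rr z * ∑ k : Fin 3, S.H.B al k.succ z * ∑ y, ∑ y', S.rho k y y' z * s1 y z * s' y' z with hg1
  set g2 : M → ℝ := fun z => τ.rr z ^ (-(1 / 2) : ℝ) * ∑ x, Z x z * Z' x z with hg2
  have cB : ∀ s1 : κ0 → M → ℝ, SmV (n := 4) s1 → Continuous fun z => τ.rr z *
      ∑ k : Fin 3, S.H.B al k.succ z * ∑ y, ∑ y', S.rho k y y' z * s1 y z * s' y' z := fun s1 h1 =>
    h.tau.smrr.continuous.mul (continuous_finsetSum _ fun k _ => (smB k).mul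
      (continuous_finsetSum _ fun y _ => continuous_finsetSum _ fun y' _ =>
        ((h.ok.smrho k y y').continuous.mul (h1 y).continuous).mul (h' y').continuous))
  have c0 : Continuous (G2 S τ th s0 al s1 s') :=
    ((cont_rpow h.tau _).mul (continuous_finsetSum _ fun x _ =>
      (smX x).continuous.mul (smY x).continuous)).sub (cB s0 h.par.sm)
  have c1 : Continuous g1 :=
    ((cont_rpow h.tau _).mul ((continuous_finsetSum _ fun x _ =>
      (smX x).continuous.mul (smZ' x).continuous).add (continuous_finsetSum _ fun x _ =>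
      (smZ x).continuous.mul (smY x).continuous))).sub (cB s1 h1)
  have c2 : Continuous g2 := (cont_rpow h.tau _).mul (continuous_finsetSum _ fun x _ =>
      (smZ x).continuous.mul (smZ' x).continuous)
  -- the right side
  have cq : Continuous fun z => ∑ y, s' y z ^ 2 :=
    continuous_finsetSum _ fun y _ => (h' y).continuous.pow 2
  have cN := cont_nsq smN
  set e1 : M → ℝ := fun z => τ.rr z * ∑ y, (⟪NN S τ th s0 al s1 y z, K y z⟫ : ℝ) with he1
  set e2 : M → ℝ := fun z => (1 / 2) * (τ.rr z * ∑ y, ‖K y z‖ ^ 2) with he2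
  have d0 : Continuous fun z => (1 / 2) * (τ.rr z * ∑ y, ‖NN S τ th s0 al s1 y z‖ ^ 2 +
        r * τ.rr z ^ 2 * ∑ y, s' y z ^ 2) :=
    continuous_const.mul ((h.tau.smrr.continuous.mul cN).add
      ((continuous_const.mul (h.tau.smrr.continuous.pow 2)).mul cq))
  have d1 : Continuous e1 := h.tau.smrr.continuous.mul (cont_nin smN smK)
  have d2 : Continuous e2 := continuous_const.mul (h.tau.smrr.continuous.mul (cont_nsq smK))
  refine lim_le (a1 := ∫ z, g1 z ∂(μHE[4] : Measure M)) (a2 := ∫ z, g2 z ∂(μHE[4] : Measure M))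
    (b1 := ∫ z, e1 z ∂(μHE[4] : Measure M)) (b2 := ∫ z, e2 z ∂(μHE[4] : Measure M)) fun ε hε => ?_
  rw [← int_poly c0 c1 c2, ← int_poly d0 d1 d2]
  have hT := h.tau.T2 (aε ε) (sε ε) s' (sma ε) (sca ε) (sms ε) h' (scs ε) hE'
  have hl : ∫ z, (τ.rr z ^ (-(1 / 2) : ℝ) *
        (∑ x, (S.P.A (τ.sc (3 / 4) (sε ε)) + S.cm (aε ε) (τ.sc (3 / 4) (sε ε))) x z *
          (S.P.A (τ.sc (3 / 4) s') + S.cm (aε ε) (τ.sc (3 / 4) s')) x z) -
        τ.rr z * ∑ k, (S.H.B (aε ε) k.succ z + τ.fE k z) *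
          ∑ y, ∑ y', S.rho k y y' z * (sε ε) y z * s' y' z) ∂(μHE[4] : Measure M) =
      ε * ∫ z, (G2 S τ th s0 al s1 s' z + ε * g1 z + ε ^ 2 * g2 z) ∂(μHE[4] : Measure M) := by
    rw [← integral_const_mul]
    refine integral_congr_ae (Eventually.of_forall fun z => ?_)
    have a1 : ∑ x, (S.P.A (τ.sc (3 / 4) (sε ε)) + S.cm (aε ε) (τ.sc (3 / 4) (sε ε))) x z *
          (S.P.A (τ.sc (3 / 4) s') + S.cm (aε ε) (τ.sc (3 / 4) s')) x z =
        ε * (∑ x, XX S τ th s0 al s1 x z * dd S τ th s' x z +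
          ε * (∑ x, XX S τ th s0 al s1 x z * Z' x z + ∑ x, Z x z * dd S τ th s' x z) +
          ε ^ 2 * ∑ x, Z x z * Z' x z) := by
      simp only [Finset.mul_sum, ← Finset.sum_add_distrib]
      refine Finset.sum_congr rfl fun x _ => ?_
      have b1 : (S.P.A (τ.sc (3 / 4) (sε ε)) + S.cm (aε ε) (τ.sc (3 / 4) (sε ε))) x z =
          ε * (XX S τ th s0 al s1 x z + ε * Z x z) := by
        have := dd_exp h.tau th al h.par.sm h1 h.par.sec.1 hE.1 ε x z
        rw [h.dd0, zero_add] at this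
        exact this
      have b2 : (S.P.A (τ.sc (3 / 4) s') + S.cm (aε ε) (τ.sc (3 / 4) s')) x z =
          dd S τ th s' x z + ε * Z' x z := dd_exp' th al s' ε x z
      rw [b1, b2]
      ring
    have a2 : ∑ k, (S.H.B (aε ε) k.succ z + τ.fE k z) *
          ∑ y, ∑ y', S.rho k y y' z * (sε ε) y z * s' y' z =
        ε * (∑ k : Fin 3, S.H.B al k.succ z * ∑ y, ∑ y', S.rho k y y' z * s0 y z * s' y' z +
          ε * ∑ k : Fin 3, S.H.B al k.succ z * ∑ y, ∑ y', S.rho k y y' z * s1 y z * s' y' z) := by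
      rw [mul_add, Finset.mul_sum, Finset.mul_sum, Finset.mul_sum, ← Finset.sum_add_distrib]
      refine Finset.sum_congr rfl fun k _ => ?_
      rw [h.B_exp hal has]
      have b3 : ∑ y, ∑ y', S.rho k y y' z * (sε ε) y z * s' y' z =
          ∑ y, ∑ y', S.rho k y y' z * s0 y z * s' y' z +
            ε * ∑ y, ∑ y', S.rho k y y' z * s1 y z * s' y' z := by
        simp only [Finset.mul_sum, ← Finset.sum_add_distrib]
        refine Finset.sum_congr rfl fun y _ => Finset.sum_congr rfl fun y' _ => ?_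
        simp only [hsε]
        ring
      rw [b3]
      ring
    simp only [a1, a2, G2, hg1, hg2]
    ring
  rw [hl, abs_mul, abs_of_pos hε] at hT
  have hr : C * ∫ z, √(∑ y, ‖τ.nE S (aε ε) (sε ε) y z‖ ^ 2) * √(∑ y, s' y z ^ 2)
      ∂(μHE[4] : Measure M) ≤ ε * ∫ z, ((1 / 2) * (τ.rr z * ∑ y, ‖NN S τ th s0 al s1 y z‖ ^ 2 +
        r * τ.rr z ^ 2 * ∑ y, s' y z ^ 2) + ε * e1 z + ε ^ 2 * e2 z) ∂(μHE[4] : Measure M) := by
    rw [← integral_const_mul, ← integral_const_mul]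
    refine integral_mono (ic (continuous_const.mul ((Real.continuous_sqrt.comp (cont_nsq fun y =>
      smF_nE h.ok h.sym h.tau (sma ε) (sms ε) (scs ε) y)).mul (Real.continuous_sqrt.comp cq))))
      (ic (continuous_const.mul ((d0.add (continuous_const.mul d1)).add
        (continuous_const.mul d2)))) fun z => ?_
    have b0 : ∑ y, ‖τ.nE S (aε ε) (sε ε) y z‖ ^ 2 =
        ε ^ 2 * ∑ y, ‖NN S τ th s0 al s1 y z + ε • K y z‖ ^ 2 := by
      simp only [haε, hsε, nE_exp h.sym h.tau th al h.par.sm h1 h.par.sec hE ε _ _ h.par.par]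
      exact sum_norm_smul ε _
    have b1 := sum_norm_exp ε (fun y => NN S τ th s0 al s1 y z) (fun y => K y z)
    have b2 : √(∑ y, ‖τ.nE S (aε ε) (sε ε) y z‖ ^ 2) =
        ε * √(∑ y, ‖NN S τ th s0 al s1 y z + ε • K y z‖ ^ 2) := by
      rw [b0, Real.sqrt_mul (sq_nonneg _), Real.sqrt_sq hε.le]
    have b3 := amgm (x := √(∑ y, ‖NN S τ th s0 al s1 y z + ε • K y z‖ ^ 2))
      (y := √(∑ y, s' y z ^ 2)) (h.tau.pos z) (h.big z)
    rw [Real.sq_sqrt (Finset.sum_nonneg fun _ _ => sq_nonneg _),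
      Real.sq_sqrt (Finset.sum_nonneg fun _ _ => sq_nonneg _)] at b3
    have b4 := mul_le_mul_of_nonneg_left b3 hε.le
    simp only [b2]
    calc C * (ε * √(∑ y, ‖NN S τ th s0 al s1 y z + ε • K y z‖ ^ 2) * √(∑ y, s' y z ^ 2)) =
          ε * (C * (√(∑ y, ‖NN S τ th s0 al s1 y z + ε • K y z‖ ^ 2) * √(∑ y, s' y z ^ 2))) := by
            ring
      _ ≤ _ := b4
      _ = _ := by
        simp only [he1, he2]
        rw [b1]
        ring
  exact le_of_mul_le_mul_left (hT.trans hr) hε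

end Hyp

end

end Crest.Agent.R235.SWNd_918
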