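import Crest.Agent.R235.SWNdA_918

/-!
Row 235 (S0364), PACKAGE SW, ND (helper918), part B: pointwise algebra of `E`, the gradient identity.
-/

set_option autoImplicit false
set_option maxSynthPendingDepth 3
set_option linter.unusedSectionVars false

open scoped ContDiff ENNReal NNReal Topology Manifold Bundle RealInnerProductSpace Matrix
open MeasureTheory Set Filter Metric Bundle

universe v

namespace Crest.Agent.R235.SWNd_918

open Crest.Agent.R249.Tv57 Crest.Agent.R247.Ms322 Crest.Agent.R247.Dir593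
open Crest.Agent.R247.Frd657
open Crest.Agent.R235.SWDefs_53 Crest.Agent.R235.SWSym_451 Crest.Agent.R235.SWTd_451
open Crest.Agent.R235.SWTe_451 Crest.Agent.R235.Fs4_546

noncomputable section

local notation "ipp" => Crest.Agent.R249.Tv57.ip 4
local notation "𝔼4" => EuclideanSpace ℝ (Fin 4)

variable {M : Type v} [MetricSpace M] [CompactSpace M] [ConnectedSpace M]
  [ChartedSpace (EuclideanSpace ℝ (Fin 4)) M] [IsManifold (𝓡 4) ∞ M]
  [RiemannianBundle (fun p : M => TangentSpace (𝓡 4) p)]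
  [IsContMDiffRiemannianBundle (𝓡 4) ∞ (EuclideanSpace ℝ (Fin 4))
    (fun p : M => TangentSpace (𝓡 4) p)]
  [IsRiemannianManifold (𝓡 4) M] [MeasurableSpace M] [BorelSpace M]
  [SecondCountableTopology M] [Nonempty M] [IsFiniteMeasureOnCompacts (μHE[4] : Measure M)]
  {κ0 κ1 κT : Type} [Fintype κ0] [Fintype κ1] [Fintype κT]

variable {S : SWS M κ0 κ1 κT} {cc : κ1 → κ0 → M → EuclideanSpace ℝ (Fin 4)} {τ : TD M κT} {C : ℝ}

/-! ### pointwise algebra -/

theorem rho_dot (k : Fin 3) (z : M) (a b : κ0 → ℝ) :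
    ∑ y, ∑ y', S.rho k y y' z * a y * b y' = a ⬝ᵥ (mr S k z *ᵥ b) := by
  simp only [dotProduct, Matrix.mulVec, mr, Finset.mul_sum]
  refine Finset.sum_congr rfl fun y _ => Finset.sum_congr rfl fun y' _ => ?_
  ring

theorem rho_dot_comm (H : Sym S cc) (k : Fin 3) (z : M) (a b : κ0 → ℝ) :
    a ⬝ᵥ (mr S k z *ᵥ b) = b ⬝ᵥ (mr S k z *ᵥ a) := by
  rw [Matrix.dotProduct_mulVec, ← Matrix.mulVec_transpose, mr_symm H, dotProduct_comm]

theorem R_dot (H : Sym S cc) (m : Fin 3 → M → ℝ) (z : M) (a b : κ0 → ℝ) :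
    a ⬝ᵥ (mR S m z *ᵥ b) = (mR S m z *ᵥ a) ⬝ᵥ b := by
  rw [Matrix.dotProduct_mulVec, ← Matrix.mulVec_transpose, mR_symm H]

theorem anti_R (H : Sym S cc) (m : Fin 3 → M → ℝ) (k : Fin 3) (z : M) :
    mr S k z * mR S m z + mR S m z * mr S k z = (2 * m k z) • mp S z := by
  have h1 : mr S k z * mR S m z + mR S m z * mr S k z =
      ∑ j, m j z • (mr S k z * mr S j z + mr S j z * mr S k z) := by
    rw [mR, Matrix.mul_sum, Matrix.sum_mul, ← Finset.sum_add_distrib]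
    refine Finset.sum_congr rfl fun j _ => ?_
    rw [Matrix.mul_smul, Matrix.smul_mul, smul_add]
  rw [h1]
  simp only [mr_anti H, smul_ite, smul_zero, Finset.sum_ite_eq, Finset.mem_univ, if_true,
    smul_smul]
  rw [mul_comm]

/-- `2 ε ⟨ρ_k a, b⟩ = 2 n_k ⟨a, b⟩` -/
theorem rho_same (H : Sym S cc) {m : Fin 3 → M → ℝ} (k : Fin 3) (z : M) {a b : κ0 → ℝ} {ε : ℝ}
    (ha : mR S m z *ᵥ a = ε • a) (hb : mR S m z *ᵥ b = ε • b) (hp : mp S z *ᵥ b = b) :
    ε * (a ⬝ᵥ (mr S k z *ᵥ b)) = m k z * (a ⬝ᵥ b) := by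
  have h1 := congrArg (fun A => a ⬝ᵥ (A *ᵥ b)) (anti_R H m k z)
  simp only [Matrix.add_mulVec, dotProduct_add, Matrix.smul_mulVec, hp, dotProduct_smul,
    ← Matrix.mulVec_mulVec, hb, Matrix.mulVec_smul, smul_eq_mul] at h1
  rw [R_dot H, ha, smul_dotProduct, smul_eq_mul] at h1
  linarith

/-- `E ⊥ E'` -/
theorem dot_zero (H : Sym S cc) {m : Fin 3 → M → ℝ} (z : M) {a b : κ0 → ℝ}
    (ha : mR S m z *ᵥ a = - a) (hb : mR S m z *ᵥ b = b) : a ⬝ᵥ b = 0 := by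
  have h1 := R_dot H m z a b
  rw [ha, hb, neg_dotProduct] at h1
  linarith

theorem sum_n_rho (m : Fin 3 → M → ℝ) (z : M) (a b : κ0 → ℝ) :
    ∑ k, m k z * (a ⬝ᵥ (mr S k z *ᵥ b)) = a ⬝ᵥ (mR S m z *ᵥ b) := by
  rw [mR, Matrix.sum_mulVec, dotProduct_sum]
  refine Finset.sum_congr rfl fun k _ => ?_
  rw [Matrix.smul_mulVec, dotProduct_smul, smul_eq_mul]

/-- `∑ ⟨ρ_k a, b⟩² = |a|² |b|²` for `a ∈ E`, `b ∈ E'` -/
theorem sum_rho_sq (hOK : S.OK) (H : Sym S cc) (hτ : τ.OK S C) (z : M) {a b : κ0 → ℝ}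
    (ha : mR S τ.n z *ᵥ a = - a) (hb : mR S τ.n z *ᵥ b = b) (hpa : mp S z *ᵥ a = a)
    (hpb : mp S z *ᵥ b = b) :
    ∑ k, (a ⬝ᵥ (mr S k z *ᵥ b)) ^ 2 = (a ⬝ᵥ a) * (b ⬝ᵥ b) := by
  have h0 := dot_zero H z ha hb
  have h1 := hOK.fierz z (a + b) (fun y => by
    have h2 : (mp S z *ᵥ (a + b)) y = (a + b) y := by rw [Matrix.mulVec_add, hpa, hpb]
    exact h2)
  have h3 : ∀ k, ∑ y, ∑ y', S.rho k y y' z * (a + b) y * (a + b) y' =
      τ.n k z * (b ⬝ᵥ b - a ⬝ᵥ a) + 2 * (a ⬝ᵥ (mr S k z *ᵥ b)) := by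
    intro k
    rw [rho_dot, Matrix.mulVec_add, dotProduct_add, add_dotProduct, add_dotProduct]
    have e1 := rho_same H (m := τ.n) k z (ε := -1) (a := a) (b := a) (by rw [ha, neg_one_smul])
      (by rw [ha, neg_one_smul]) hpa
    have e2 := rho_same H (m := τ.n) k z (ε := 1) (a := b) (b := b) (by rw [hb, one_smul])
      (by rw [hb, one_smul]) hpb
    rw [rho_dot_comm H k z b a]
    linarith
  have h4 : ∑ y, (a + b) y ^ 2 = a ⬝ᵥ a + b ⬝ᵥ b := by
    have e : ∑ y, (a + b) y ^ 2 = (a + b) ⬝ᵥ (a + b) := by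
      simp only [dotProduct]
      exact Finset.sum_congr rfl fun y _ => by ring
    rw [e, dotProduct_add, add_dotProduct, add_dotProduct, dotProduct_comm b a, h0]
    ring
  rw [h4] at h1
  simp only [h3] at h1
  have h5 : ∑ k, τ.n k z * (a ⬝ᵥ (mr S k z *ᵥ b)) = 0 := by
    rw [sum_n_rho, hb, h0]
  have h6 : ∑ k, (τ.n k z * (b ⬝ᵥ b - a ⬝ᵥ a) + 2 * (a ⬝ᵥ (mr S k z *ᵥ b))) ^ 2 =
      (b ⬝ᵥ b - a ⬝ᵥ a) ^ 2 * ∑ k, τ.n k z ^ 2 +
        4 * (b ⬝ᵥ b - a ⬝ᵥ a) * ∑ k, τ.n k z * (a ⬝ᵥ (mr S k z *ᵥ b)) +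
        4 * ∑ k, (a ⬝ᵥ (mr S k z *ᵥ b)) ^ 2 := by
    simp only [Finset.mul_sum, ← Finset.sum_add_distrib]
    exact Finset.sum_congr rfl fun k _ => by ring
  rw [h6, h5, hτ.norm] at h1
  linarith

/-- `E` is spanned by `a`, `J a` -/
theorem eq_of_E (H : Sym S cc) (hτ : τ.OK S C) (z : M) {a b : κ0 → ℝ} {r : ℝ} (hr : 0 < r)
    (ha : mP S (fun k z => - τ.n k z) z *ᵥ a = a) (hb : mP S (fun k z => - τ.n k z) z *ᵥ b = b)
    (hn : a ⬝ᵥ a = 2 * r) (h0 : a ⬝ᵥ b = 0) :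
    b = ((1 / (2 * r)) * (b ⬝ᵥ (mJ S z *ᵥ a))) • (mJ S z *ᵥ a) := by
  set m : Fin 3 → M → ℝ := fun k z => - τ.n k z with hmd
  have hm : ∑ k, m k z ^ 2 = 1 := by
    rw [← hτ.norm z]
    exact Finset.sum_congr rfl fun k _ => by simp only [hmd]; ring
  obtain ⟨J1, hP, -⟩ := exists_pnt H z hm
  set c : ℝ := (√(2 * r))⁻¹ with hc
  have hc2 : c ^ 2 = 1 / (2 * r) := by
    rw [hc, inv_pow, Real.sq_sqrt (by positivity), one_div]
  have h1 : mP S m z *ᵥ (c • a) = c • a := by rw [Matrix.mulVec_smul, ha]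
  have h2 : (c • a) ⬝ᵥ (c • a) = 1 := by
    rw [smul_dotProduct, dotProduct_smul, smul_eq_mul, smul_eq_mul, hn, ← mul_assoc, ← sq, hc2]
    field_simp
  have h3 := hP.P_eq h1 h2
  rw [h3] at hb
  set e := mJ S z *ᵥ a with he
  have hJc : mJ S z *ᵥ (c • a) = c • e := Matrix.mulVec_smul _ _ _
  rw [Matrix.add_mulVec, Matrix.vecMulVec_mulVec, Matrix.vecMulVec_mulVec, hJc, smul_dotProduct,
    smul_dotProduct, h0, smul_eq_mul, mul_zero, op_smul_eq_smul, zero_smul, zero_add,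
    op_smul_eq_smul, smul_smul, smul_eq_mul] at hb
  have h4 : c * e ⬝ᵥ b * c = (1 / (2 * r)) * (b ⬝ᵥ e) := by
    rw [← hc2, dotProduct_comm b e]
    ring
  rw [h4] at hb
  exact hb.symm

/-! ### the gradient identity -/

theorem grad_ip {κ : Type} [Fintype κ] (D : Dat 4 M κ) {u w : κ → M → ℝ} (hu : SmV (n := 4) u)
    (hw : SmV (n := 4) w) (z : M) : Gr (n := 4) (fun z => ∑ a, u a z * w a z) z =
      ∑ a, (w a z • D.cv u a z + u a z • D.cv w a z) := by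
  rw [SWTd_451.Gr_sum' (f := fun a z => u a z * w a z) Finset.univ
    (fun a _ => (hu a).mul (hw a))]
  have h1 : ∀ a, Gr (n := 4) (fun z => u a z * w a z) z =
      u a z • Gr (n := 4) (w a) z + w a z • Gr (n := 4) (u a) z := fun a =>
    Gr_mul (SWTd_451.md (hu a) z) (SWTd_451.md (hw a) z)
  simp only [h1, Dat.cv, smul_add, Finset.sum_add_distrib, Finset.smul_sum, smul_smul]
  have h2 : ∑ a, ∑ b, (w a z * u b z) • D.X a b z = - ∑ a, ∑ b, (u a z * w b z) • D.X a b z := by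
    rw [Finset.sum_comm, ← Finset.sum_neg_distrib]
    refine Finset.sum_congr rfl fun a _ => ?_
    rw [← Finset.sum_neg_distrib]
    refine Finset.sum_congr rfl fun b _ => ?_
    rw [D.skew b a z, smul_neg, mul_comm]
  rw [h2]
  abel

theorem cv_iu (H : Sym S cc) {s : κ0 → M → ℝ} (hs : SmV (n := 4) s) (y : κ0) (z : M) :
    S.D0.cv (S.iu s) y z = ∑ b, S.J y b z • S.D0.cv s b z := by
  have h1 : Gr (n := 4) (S.iu s y) z =
      ∑ b, (S.J y b z • Gr (n := 4) (s b) z + s b z • Gr (n := 4) (S.J y b) z) := by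
    have e : S.iu s y = fun z => ∑ b, S.J y b z * s b z := rfl
    rw [e, SWTd_451.Gr_sum' (f := fun b z => S.J y b z * s b z) Finset.univ
      (fun b _ => (H.smJ y b).mul (hs b))]
    exact Finset.sum_congr rfl fun b _ =>
      Gr_mul (SWTd_451.md (H.smJ y b) z) (SWTd_451.md (hs b) z)
  have h2 : ∀ b, Gr (n := 4) (S.J y b) z =
      - ∑ c, (S.J c b z • S.D0.X y c z - S.J y c z • S.D0.X c b z) := fun b =>
    eq_neg_of_add_eq_zero_left (H.Jpar y b z)
  unfold Dat.cv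
  rw [h1]
  simp only [h2, SWS.iu, smul_add, Finset.sum_add_distrib, Finset.smul_sum, smul_sub,
    Finset.sum_sub_distrib, smul_smul, Finset.sum_smul, neg_sub]
  have e1 : ∑ b, ∑ c, (s b z * S.J y c z) • S.D0.X c b z =
      ∑ b, ∑ c, (S.J y b z * s c z) • S.D0.X b c z := by
    rw [Finset.sum_comm]
    exact Finset.sum_congr rfl fun b _ => Finset.sum_congr rfl fun c _ => by rw [mul_comm]
  have e2 : ∑ b, ∑ c, (s b z * S.J c b z) • S.D0.X y c z =
      ∑ b, ∑ c, (S.J b c z * s c z) • S.D0.X y b z := by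
    rw [Finset.sum_comm]
    exact Finset.sum_congr rfl fun b _ => Finset.sum_congr rfl fun c _ => by rw [mul_comm]
  rw [e1, e2]
  abel

theorem iu_ip (H : Sym S cc) (s : κ0 → M → ℝ) {w : κ0 → M → ℝ} (z : M)
    (hw : ∀ y, ∑ b, S.D0.p y b z * w b z = w y z) :
    ∑ y, S.iu s y z * S.iu w y z = ∑ y, s y z * w y z := by
  have h1 : ∑ y, S.iu s y z * S.iu w y z =
      ∑ b, s b z * ∑ c, (- ∑ y, S.J b y z * S.J y c z) * w c z := by
    calc ∑ y, S.iu s y z * S.iu w y z =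
          ∑ y, ∑ b, ∑ c, (S.J y b z * s b z) * (S.J y c z * w c z) := by
          simp only [SWS.iu, Finset.sum_mul_sum]
      _ = ∑ b, ∑ c, ∑ y, (S.J y b z * s b z) * (S.J y c z * w c z) := by
          rw [Finset.sum_comm]
          refine Finset.sum_congr rfl fun b _ => ?_
          rw [Finset.sum_comm]
      _ = _ := by
          simp only [Finset.mul_sum, Finset.sum_mul, ← Finset.sum_neg_distrib]
          refine Finset.sum_congr rfl fun b _ => Finset.sum_congr rfl fun c _ =>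
            Finset.sum_congr rfl fun y _ => ?_
          rw [H.skewJ y b z]
          ring
  rw [h1]
  refine Finset.sum_congr rfl fun b _ => ?_
  congr 1
  rw [← hw b]
  refine Finset.sum_congr rfl fun c _ => ?_
  rw [H.Jsq, neg_neg]

theorem iu_skew (H : Sym S cc) (s w : κ0 → M → ℝ) (z : M) :
    ∑ y, s y z * S.iu w y z = - ∑ y, S.iu s y z * w y z := by
  unfold SWS.iu
  simp only [Finset.mul_sum, Finset.sum_mul]
  rw [Finset.sum_comm, ← Finset.sum_neg_distrib]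
  refine Finset.sum_congr rfl fun b _ => ?_
  rw [← Finset.sum_neg_distrib]
  refine Finset.sum_congr rfl fun c _ => ?_
  rw [H.skewJ c b z]
  ring

/-- `∑ (P u)_y • V_y = ∑ u_y • (P V)_y` -/
theorem P_swap {P : κ0 → κ0 → M → ℝ} (hP : Pj S P) (u : κ0 → ℝ) (V : κ0 → 𝔼4) (z : M) :
    ∑ y, u y • ∑ b, P y b z • V b = ∑ b, (∑ y, P b y z * u y) • V b := by
  simp only [Finset.smul_sum, Finset.sum_smul, smul_smul]
  rw [Finset.sum_comm]
  refine Finset.sum_congr rfl fun b _ => Finset.sum_congr rfl fun y _ => ?_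
  rw [hP.symm y b z, mul_comm]

variable {r : ℝ} {th : κT → M → ℝ} {s0 : κ0 → M → ℝ}

namespace Hyp

/-- `2 r grad y = ∑ (J s0) ∇^E s1` -/
theorem grad_y (h : Hyp S cc τ C r th s0) {s1 : κ0 → M → ℝ} (h1 : SmV (n := 4) s1)
    (hE : τ.SecE S s1) (z : M) :
    Gr (n := 4) (fun z => ∑ y, s1 y z * S.iu s0 y z) z =
      ∑ y, S.iu s0 y z • τ.nE S th s1 y z := by
  have hP := pj0 h.sym h.tau
  rw [grad_ip S.D0 h1 (smV_iu h.ok h.par.sm)]
  simp only [cv_iu h.sym h.par.sm, nE_eq h.sym h.tau th hE, smul_add, Finset.sum_add_distrib]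
  have e1 : ∑ y, S.iu s0 y z • ∑ b, P0 S τ y b z • S.D0.cv s1 b z =
      ∑ b, S.iu s0 b z • S.D0.cv s1 b z := by
    rw [P_swap hP]
    refine Finset.sum_congr rfl fun b _ => ?_
    rw [P_iu hP ((secE_iff h.sym h.tau).1 h.par.sec)]
  have e2 : ∑ y, s1 y z • ∑ b, S.J y b z • S.D0.cv s0 b z =
      - ∑ b, S.iu s1 b z • S.D0.cv s0 b z := by
    simp only [Finset.smul_sum, smul_smul, SWS.iu, Finset.sum_smul]
    rw [Finset.sum_comm, ← Finset.sum_neg_distrib]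
    refine Finset.sum_congr rfl fun b _ => ?_
    rw [← Finset.sum_neg_distrib]
    refine Finset.sum_congr rfl fun y _ => ?_
    rw [h.sym.skewJ y b z, ← neg_smul]
    congr 1
    ring
  have e3 : ∑ b, S.iu s1 b z • S.D0.cv s0 b z =
      - ((∑ y, S.iu s1 y z * S.iu s0 y z) • (S.vf th z + S.vf τ.sh z)) := by
    have a1 : ∑ b, S.iu s1 b z • S.D0.cv s0 b z =
        ∑ y, S.iu s1 y z • ∑ b, P0 S τ y b z • S.D0.cv s0 b z := by
      rw [P_swap hP]
      refine Finset.sum_congr rfl fun b _ => ?_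
      rw [P_iu hP ((secE_iff h.sym h.tau).1 hE)]
    have a2 : ∀ y, ∑ b, P0 S τ y b z • S.D0.cv s0 b z =
        - (S.iu s0 y z • (S.vf th z + S.vf τ.sh z)) := by
      intro y
      have := h.par.par y z
      rw [nE_eq h.sym h.tau th h.par.sec] at this
      exact eq_neg_of_add_eq_zero_left this
    rw [a1]
    simp only [a2, smul_neg, Finset.sum_neg_distrib, smul_smul]
    rw [Finset.sum_smul]
  rw [e1, e2, e3]
  have e4 : ∑ y, S.iu s0 y z • S.iu s1 y z • S.vf th z +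
      ∑ y, S.iu s0 y z • S.iu s1 y z • S.vf τ.sh z =
      (∑ y, S.iu s1 y z * S.iu s0 y z) • (S.vf th z + S.vf τ.sh z) := by
    rw [smul_add, Finset.sum_smul, Finset.sum_smul]
    congr 1 <;> exact Finset.sum_congr rfl fun y _ => by rw [smul_smul, mul_comm]
  rw [e4, neg_neg]

theorem nrm_iu (h : Hyp S cc τ C r th s0) (z : M) : ∑ y, S.iu s0 y z ^ 2 = 2 * r := by
  have h1 := iu_ip h.sym s0 z (w := s0) (fun y => h.par.sec.1 y z)
  have h2 := h.par.nrm z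
  rw [← h2]
  simp only [sq]
  exact h1

/-- `∑ (J s0) N = 2 r (grad y + al)` -/
theorem pair_NN (h : Hyp S cc τ C r th s0) {s1 : κ0 → M → ℝ} (h1 : SmV (n := 4) s1)
    (hE : τ.SecE S s1) (al : κT → M → ℝ) (z : M) :
    ∑ y, S.iu s0 y z • NN S τ th s0 al s1 y z =
      Gr (n := 4) (fun z => ∑ y, s1 y z * S.iu s0 y z) z + (2 * r) • S.vf al z := by
  rw [h.grad_y h1 hE]
  simp only [NN, smul_add, Finset.sum_add_distrib, smul_smul]
  rw [← Finset.sum_smul, ← h.nrm_iu z]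
  simp only [sq]

end Hyp

end

end Crest.Agent.R235.SWNd_918
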