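import Crest.Agent.R235.SWNdB_918
import Crest.Agent.R235.L4_433

/-!
Row 235 (S0364), PACKAGE SW, ND (helper918), part C: the linearised operators on `W^{1,2}`, extension of
(Q1), (Q2) by density.
-/

set_option autoImplicit false
set_option maxSynthPendingDepth 3
set_option linter.unusedSectionVars false

open scoped ContDiff ENNReal NNReal Topology Manifold Bundle RealInnerProductSpace Matrix
open MeasureTheory Set Filter Metric Bundle

universe v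

namespace Crest.Agent.R235.SWNd_918

open Crest.Agent.R249.Tv57 Crest.Agent.R247.Ms322 Crest.Agent.R247.Dir593
open Crest.Agent.R247.Frd657
open Crest.Agent.R235.SWDefs_53 Crest.Agent.R235.SWSym_451 Crest.Agent.R235.SWTd_451
open Crest.Agent.R235.SWTe_451 Crest.Agent.R235.Fs4_546 Crest.Agent.R235.Cpt_755
open Crest.Agent.R235.L4_433 Crest.Agent.R235.Dens_433 Crest.Agent.R235.W12_109

noncomputable section

local notation "ipp" => Crest.Agent.R249.Tv57.ip 4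
local notation "𝔼4" => EuclideanSpace ℝ (Fin 4)

/-! ### bilinear forms with bounded coefficients -/

section gen
variable {X : Type*} [MeasurableSpace X] {μ : Measure X} {κ κ' : Type} [Fintype κ] [Fintype κ']

/-- `∫ ∑ c_ab F_a G_b` -/
def bil {c : κ → κ' → X → ℝ} (hc : ∀ a b, BM μ (c a b)) (F : HH μ κ) (G : HH μ κ') : ℝ :=
  ⟪F, matR hc G⟫

theorem continuous_bil {c : κ → κ' → X → ℝ} (hc : ∀ a b, BM μ (c a b)) {V : Type*}
    [TopologicalSpace V] {f : V → HH μ κ} {g : V → HH μ κ'} (hf : Continuous f)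
    (hg : Continuous g) : Continuous fun v => bil hc (f v) (g v) :=
  hf.inner ((matR hc).continuous.comp hg)

theorem bil_eq {c : κ → κ' → X → ℝ} (hc : ∀ a b, BM μ (c a b)) {F : HH μ κ} {G : HH μ κ'}
    {f : κ → X → ℝ} {g : κ' → X → ℝ} (hF : ∀ᵐ x ∂μ, ∀ a, (F a : X → ℝ) x = f a x)
    (hG : ∀ᵐ x ∂μ, ∀ b, (G b : X → ℝ) x = g b x) :
    bil hc F G = ∫ x, ∑ a, ∑ b, c a b x * (f a x * g b x) ∂μ := by
  have h1 : ∀ᵐ x ∂μ, ∀ a, (matR hc G a : X → ℝ) x = ∑ b, g b x * c a b x := by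
    filter_upwards [coe_matR hc G, hG] with x e1 e2 a
    rw [e1 a]
    exact Finset.sum_congr rfl fun b _ => by rw [e2 b]
  rw [bil, inner_HH F (matR hc G) hF h1]
  refine integral_congr_ae (Eventually.of_forall fun x => ?_)
  refine Finset.sum_congr rfl fun a _ => ?_
  rw [Finset.mul_sum]
  exact Finset.sum_congr rfl fun b _ => by ring

theorem integrable_bil {c : κ → κ' → X → ℝ} (hc : ∀ a b, BM μ (c a b)) (F : HH μ κ) (G : HH μ κ') :
    Integrable (fun x => ∑ a, ∑ b, c a b x * ((F a : X → ℝ) x * (G b : X → ℝ) x)) μ := by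
  have h1 : Integrable (fun x => ∑ a, (⟪(F a : X → ℝ) x, (matR hc G a : X → ℝ) x⟫ : ℝ)) μ :=
    integrable_finsetSum _ fun a _ => L2.integrable_inner (𝕜 := ℝ) (F a) (matR hc G a)
  refine h1.congr ?_
  filter_upwards [coe_matR hc G] with x e1
  refine Finset.sum_congr rfl fun a _ => ?_
  rw [e1 a, rin, Finset.mul_sum]
  exact Finset.sum_congr rfl fun b _ => by ring

open Classical in
/-- diagonal matrices -/
def dg {κ : Type} (w : X → ℝ) (a b : κ) (x : X) : ℝ := if a = b then w x else 0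

theorem bm_zero : BM μ (fun _ : X => (0:ℝ)) :=
  ⟨aestronglyMeasurable_const, 0, le_rfl, Eventually.of_forall fun _ => by simp⟩

theorem bm_dg {κ : Type} {w : X → ℝ} (hw : BM μ w) (a b : κ) : BM μ (dg w a b) := by
  unfold dg
  by_cases h : a = b
  · simp only [if_pos h]
    exact hw
  · simp only [if_neg h]
    exact bm_zero

theorem sum_dg (w : X → ℝ) (x : X) (f g : κ → ℝ) :
    ∑ a, ∑ b, dg w a b x * (f a * g b) = w x * ∑ a, f a * g a := by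
  classical
  rw [Finset.mul_sum]
  refine Finset.sum_congr rfl fun a _ => ?_
  simp only [dg, ite_mul, zero_mul]
  rw [Finset.sum_ite_eq]
  simp

end gen

/-! ### bounded functions -/

section bm
variable {X : Type*} [MeasurableSpace X] {μ : Measure X} {F : Type*} [NormedAddCommGroup F]
  [InnerProductSpace ℝ F]

theorem bm_mul {f g : X → ℝ} (hf : BM μ f) (hg : BM μ g) : BM μ (fun x => f x * g x) := by
  obtain ⟨A, hA0, hA⟩ := hf.bd
  obtain ⟨B, hB0, hB⟩ := hg.bd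
  refine ⟨hf.meas.mul hg.meas, A * B, mul_nonneg hA0 hB0, ?_⟩
  filter_upwards [hA, hB] with x e1 e2
  rw [norm_mul]
  exact mul_le_mul e1 e2 (norm_nonneg _) hA0

theorem bm_smul_const {f : X → ℝ} (hf : BM μ f) (e : F) : BM μ (fun x => f x • e) := by
  obtain ⟨A, hA0, hA⟩ := hf.bd
  refine ⟨hf.meas.smul_const e, A * ‖e‖, mul_nonneg hA0 (norm_nonneg _), ?_⟩
  filter_upwards [hA] with x e1
  rw [norm_smul]
  exact mul_le_mul_of_nonneg_right e1 (norm_nonneg _)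

theorem bm_inner_const {f : X → F} (hf : BM μ f) (e : F) : BM μ (fun x => (⟪f x, e⟫ : ℝ)) := by
  obtain ⟨A, hA0, hA⟩ := hf.bd
  refine ⟨hf.meas.inner aestronglyMeasurable_const, A * ‖e‖, mul_nonneg hA0 (norm_nonneg _), ?_⟩
  filter_upwards [hA] with x e1
  exact (norm_inner_le_norm _ _).trans (mul_le_mul_of_nonneg_right e1 (norm_nonneg _))

end bm

/-- the standard basis -/
def ei (i : Fin 4) : 𝔼4 := EuclideanSpace.single i (1 : ℝ)

theorem sum_ei (X Y : 𝔼4) : ∑ i, (⟪X, ei i⟫ : ℝ) * ⟪Y, ei i⟫ = ⟪X, Y⟫ := by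
  have h := (EuclideanSpace.basisFun (Fin 4) ℝ).sum_inner_mul_inner X Y
  rw [← h]
  refine Finset.sum_congr rfl fun i _ => ?_
  rw [EuclideanSpace.basisFun_apply, real_inner_comm Y]
  rfl

section mfd

variable {M : Type v} [MetricSpace M] [CompactSpace M] [ConnectedSpace M]
  [ChartedSpace (EuclideanSpace ℝ (Fin 4)) M] [IsManifold (𝓡 4) ∞ M]
  [RiemannianBundle (fun p : M => TangentSpace (𝓡 4) p)]
  [IsContMDiffRiemannianBundle (𝓡 4) ∞ (EuclideanSpace ℝ (Fin 4))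
    (fun p : M => TangentSpace (𝓡 4) p)]
  [IsRiemannianManifold (𝓡 4) M] [MeasurableSpace M] [BorelSpace M]
  [SecondCountableTopology M] [Nonempty M] [IsFiniteMeasureOnCompacts (μHE[4] : Measure M)]
  {κ0 κ1 κT : Type} [Fintype κ0] [Fintype κ1] [Fintype κT]

/-- multipliers on smooth sections -/
theorem mulS_cW {κ : Type} [Fintype κ] (D D' : Dat 4 M κ) {m : κ → κ → M → ℝ}
    (hm : ∀ a b, ContMDiff (𝓡 4) 𝓘(ℝ, ℝ) ∞ (m a b))
    (hp : ∀ a b x, ∑ c, D'.p a c x * m c b x = m a b x) (u : SmS D) (w : SmS D')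
    (h : ∀ a z, ∑ b, m a b z * u.1 b z = w.1 a z) : mulS D D' hm hp (cW D u) = cW D' w := by
  refine i1_injective D'.toAD ?_
  ext a
  filter_upwards [coe_mulS D D' hm hp (cW D u), coe_clH u.1 u.2.1, coe_clH w.1 w.2.1]
    with z e1 e2 e3
  rw [e1 a]
  have e4 : (D'.toAD.i1 (cW D' w) a : M → ℝ) z = w.1 a z := e3 a
  rw [e4, ← h a z]
  refine Finset.sum_congr rfl fun b _ => ?_
  congr 1
  exact e2 b

variable {S : SWS M κ0 κ1 κT} {cc : κ1 → κ0 → M → EuclideanSpace ℝ (Fin 4)} {τ : TD M κT}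
  {C r : ℝ} {th : κT → M → ℝ} {s0 : κ0 → M → ℝ}

/-- the pairs -/
abbrev VV (S : SWS M κ0 κ1 κT) := S.DT.toAD.WE × S.D0.toAD.WE

namespace Hyp

/-! #### the multipliers -/

theorem bm_cth (h : Hyp S cc τ C r th s0) (x : κ1) (y : κ0) :
    BM (μHE[4] : Measure M) (fun z => ∑ A, th A z * S.cl A x y z) :=
  bm_smooth (contMDiff_finsetSum fun A _ => (h.smth A).mul (h.ok.smcl A x y))

theorem bm_cS (h : Hyp S cc τ C r th s0) (x : κ1) (A : κT) :
    BM (μHE[4] : Measure M) (fun z => ∑ y, τ.sc (3 / 4) s0 y z * S.cl A x y z) :=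
  bm_smooth (contMDiff_finsetSum fun y _ => (smV_sc h.tau _ h.par.sm y).mul (h.ok.smcl A x y))

/-- `D_th` -/
def DL (h : Hyp S cc τ C r th s0) : S.D0.toAD.WE →L[ℝ] HH (μHE[4] : Measure M) κ1 :=
  S.D1.toAD.HE.subtypeL.comp (Ah S.P) + (matR (κ' := κ1) h.bm_cth).comp S.D0.toAD.i1

theorem sm_msc (h : Hyp S cc τ C r th s0) (q : ℝ) (a b : κ0) :
    ContMDiff (𝓡 4) 𝓘(ℝ, ℝ) ∞ (fun z => τ.rr z ^ q * S.D0.p a b z) :=
  (smooth_rpow h.tau.smrr h.tau.pos q).mul (S.D0.smp a b)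

theorem p_msc (_h : Hyp S cc τ C r th s0) (q : ℝ) (a b : κ0) (z : M) :
    ∑ c, S.D0.p a c z * (τ.rr z ^ q * S.D0.p c b z) = τ.rr z ^ q * S.D0.p a b z := by
  rw [← S.D0.idem a b z, Finset.mul_sum]
  exact Finset.sum_congr rfl fun c _ => by ring

/-- `ρ^q` on `W^{1,2}` -/
def Sq (h : Hyp S cc τ C r th s0) (q : ℝ) : S.D0.toAD.WE →L[ℝ] S.D0.toAD.WE :=
  mulS S.D0 S.D0 (h.sm_msc q) (h.p_msc q)

/-- `Π₀` on `W^{1,2}` -/
def A0 (h : Hyp S cc τ C r th s0) : S.D0.toAD.WE →L[ℝ] S.D0.toAD.WE :=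
  mulS S.D0 S.D0 (pj0 h.sym h.tau).sm (pj0 h.sym h.tau).pP

/-- `Π₁` on `W^{1,2}` -/
def A1 (h : Hyp S cc τ C r th s0) : S.D0.toAD.WE →L[ℝ] S.D0.toAD.WE :=
  mulS S.D0 S.D0 (pj1 h.sym h.tau).sm (pj1 h.sym h.tau).pP

/-- `P u`, smooth -/
def PS (S : SWS M κ0 κ1 κT) {P : κ0 → κ0 → M → ℝ} (hP : Pj S P) (u : SmS S.D0) : SmS S.D0 :=
  ⟨fun y z => ∑ b, P y b z * u.1 b z,
    fun y => contMDiff_finsetSum fun b _ => (hP.sm y b).mul (u.2.1 b),
    sec_of_pj hP fun y z => pj_idem hP u.1 y z⟩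

theorem A0_cW (h : Hyp S cc τ C r th s0) (u : SmS S.D0) :
    h.A0 (cW S.D0 u) = cW S.D0 (PS S (pj0 h.sym h.tau) u) :=
  mulS_cW S.D0 S.D0 _ _ _ _ fun _ _ => rfl

theorem A1_cW (h : Hyp S cc τ C r th s0) (u : SmS S.D0) :
    h.A1 (cW S.D0 u) = cW S.D0 (PS S (pj1 h.sym h.tau) u) :=
  mulS_cW S.D0 S.D0 _ _ _ _ fun _ _ => rfl

/-- `ρ^q u`, smooth -/
def SS (h : Hyp S cc τ C r th s0) (q : ℝ) (u : SmS S.D0) : SmS S.D0 :=
  ⟨τ.sc q u.1, smV_sc h.tau q u.2.1, sec_sc q u.2.2⟩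

theorem Sq_cW (h : Hyp S cc τ C r th s0) (q : ℝ) (u : SmS S.D0) :
    h.Sq q (cW S.D0 u) = cW S.D0 (h.SS q u) :=
  mulS_cW S.D0 S.D0 _ _ _ _ fun a z => by
    show ∑ b, τ.rr z ^ q * S.D0.p a b z * u.1 b z = τ.rr z ^ q * u.1 a z
    rw [← u.2.2 a z, Finset.mul_sum]
    exact Finset.sum_congr rfl fun b _ => by ring

theorem DL_cW (h : Hyp S cc τ C r th s0) (w : SmS S.D0) : ∀ᵐ z ∂(μHE[4] : Measure M), ∀ x,
    (h.DL (cW S.D0 w) x : M → ℝ) z = S.P.A w.1 x z + S.cm th w.1 x z := by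
  have h0 : Ah S.P (cW S.D0 w) = cH S.D1 (lA S.P w) := Ah_cW (Fred_649.dns4 S.D0) w
  have h1 : ∀ᵐ z ∂(μHE[4] : Measure M), ∀ x, (h.DL (cW S.D0 w) x : M → ℝ) z =
      (clH (lA S.P w).1 (lA S.P w).2.1 x : M → ℝ) z +
      (matR (κ' := κ1) h.bm_cth (S.D0.toAD.i1 (cW S.D0 w)) x : M → ℝ) z := by
    rw [ae_all_iff]
    intro x
    have e : h.DL (cW S.D0 w) x = clH (lA S.P w).1 (lA S.P w).2.1 x +
        matR (κ' := κ1) h.bm_cth (S.D0.toAD.i1 (cW S.D0 w)) x := by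
      show ((Ah S.P (cW S.D0 w) : S.D1.toAD.HE) : HH (μHE[4] : Measure M) κ1) x + _ = _
      rw [h0]
      rfl
    rw [e]
    exact Lp.coeFn_add _ _
  filter_upwards [h1, coe_clH (lA S.P w).1 (lA S.P w).2.1,
    coe_matR (κ' := κ1) h.bm_cth (S.D0.toAD.i1 (cW S.D0 w)), coe_clH w.1 w.2.1] with z e1 e2 e3 e4 x
  rw [e1 x, e2 x, e3 x]
  congr 1
  unfold SWS.cm
  rw [Finset.sum_comm]
  refine Finset.sum_congr rfl fun y _ => ?_
  have e5 : (S.D0.toAD.i1 (cW S.D0 w) y : M → ℝ) z = w.1 y z := e4 y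
  rw [e5, Finset.mul_sum]
  exact Finset.sum_congr rfl fun A _ => by ring

/-- the linearised Dirac equation -/
def XL (h : Hyp S cc τ C r th s0) : VV S →L[ℝ] HH (μHE[4] : Measure M) κ1 :=
  (h.DL.comp ((h.Sq (3 / 4)).comp h.A0)).comp (ContinuousLinearMap.snd ℝ _ _) +
    ((matR (κ' := κ1) h.bm_cS).comp S.DT.toAD.i1).comp (ContinuousLinearMap.fst ℝ _ _)

/-- `D_th s'` -/
def YL (h : Hyp S cc τ C r th s0) : VV S →L[ℝ] HH (μHE[4] : Measure M) κ1 :=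
  (h.DL.comp ((h.Sq (3 / 4)).comp h.A1)).comp (ContinuousLinearMap.snd ℝ _ _)

theorem YL_cW (h : Hyp S cc τ C r th s0) (al : SmS S.DT) (u : SmS S.D0) :
    ∀ᵐ z ∂(μHE[4] : Measure M), ∀ x, (h.YL (cW S.DT al, cW S.D0 u) x : M → ℝ) z =
      dd S τ th (PS S (pj1 h.sym h.tau) u).1 x z := by
  have e : h.YL (cW S.DT al, cW S.D0 u) =
      h.DL (cW S.D0 (h.SS (3 / 4) (PS S (pj1 h.sym h.tau) u))) := by
    show h.DL (h.Sq (3 / 4) (h.A1 (cW S.D0 u))) = _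
    rw [A1_cW, Sq_cW]
  rw [e]
  exact h.DL_cW _

theorem XL_cW (h : Hyp S cc τ C r th s0) (al : SmS S.DT) (u : SmS S.D0) :
    ∀ᵐ z ∂(μHE[4] : Measure M), ∀ x, (h.XL (cW S.DT al, cW S.D0 u) x : M → ℝ) z =
      XX S τ th s0 al.1 (PS S (pj0 h.sym h.tau) u).1 x z := by
  have h1 : ∀ᵐ z ∂(μHE[4] : Measure M), ∀ x, (h.XL (cW S.DT al, cW S.D0 u) x : M → ℝ) z =
      (h.DL (cW S.D0 (h.SS (3 / 4) (PS S (pj0 h.sym h.tau) u))) x : M → ℝ) z +
      (matR (κ' := κ1) h.bm_cS (S.DT.toAD.i1 (cW S.DT al)) x : M → ℝ) z := by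
    rw [ae_all_iff]
    intro x
    have e : h.XL (cW S.DT al, cW S.D0 u) x =
        h.DL (cW S.D0 (h.SS (3 / 4) (PS S (pj0 h.sym h.tau) u))) x +
        matR (κ' := κ1) h.bm_cS (S.DT.toAD.i1 (cW S.DT al)) x := by
      show h.DL (h.Sq (3 / 4) (h.A0 (cW S.D0 u))) x + _ = _
      rw [A0_cW, Sq_cW]
      rfl
    rw [e]
    exact Lp.coeFn_add _ _
  filter_upwards [h1, h.DL_cW (h.SS (3 / 4) (PS S (pj0 h.sym h.tau) u)),
    coe_matR (κ' := κ1) h.bm_cS (S.DT.toAD.i1 (cW S.DT al)), coe_clH al.1 al.2.1]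
    with z e1 e2 e3 e4 x
  rw [e1 x, e2 x, e3 x, XX]
  congr 1
  unfold SWS.cm
  refine Finset.sum_congr rfl fun A _ => ?_
  have e5 : (S.DT.toAD.i1 (cW S.DT al) A : M → ℝ) z = al.1 A z := e4 A
  rw [e5, Finset.mul_sum]
  exact Finset.sum_congr rfl fun y _ => by ring

/-! #### the connection -/

theorem bm_cN (h : Hyp S cc τ C r th s0) (q : κ0 × Fin 4) (b : κ0) :
    BM (μHE[4] : Measure M) (fun z => P0 S τ q.1 b z • ei q.2) :=
  bm_smul_const (bm_smooth ((pj0 h.sym h.tau).sm q.1 b)) _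

theorem bm_mJ (h : Hyp S cc τ C r th s0) (q : κ0 × Fin 4) (b : κ0) :
    BM (μHE[4] : Measure M) (fun z => S.J q.1 b z * ⟪S.vf th z + S.vf τ.sh z, ei q.2⟫) :=
  bm_mul (bm_smooth (h.ok.smJ q.1 b))
    (bm_inner_const ((smF_vf h.ok h.smth).add (smF_vf h.ok h.tau.smsh)).bm _)

theorem bm_mA (h : Hyp S cc τ C r th s0) (q : κ0 × Fin 4) (A : κT) :
    BM (μHE[4] : Measure M) (fun z => S.iu s0 q.1 z * ⟪S.s A z, ei q.2⟫) :=
  bm_mul (bm_smooth (smV_iu h.ok h.par.sm q.1)) (bm_inner_const (h.ok.sms A).bm _)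

/-- the linearised connection, in components -/
def NL (h : Hyp S cc τ C r th s0) : VV S →L[ℝ] HH (μHE[4] : Measure M) (κ0 × Fin 4) :=
  ((opC S.D0.toAD (κ' := κ0 × Fin 4) h.bm_cN +
    (matR (κ' := κ0 × Fin 4) h.bm_mJ).comp S.D0.toAD.i1).comp h.A0).comp
      (ContinuousLinearMap.snd ℝ _ _) +
    ((matR (κ' := κ0 × Fin 4) h.bm_mA).comp S.DT.toAD.i1).comp (ContinuousLinearMap.fst ℝ _ _)

theorem NL_cW (h : Hyp S cc τ C r th s0) (al : SmS S.DT) (u : SmS S.D0) :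
    ∀ᵐ z ∂(μHE[4] : Measure M), ∀ q, (h.NL (cW S.DT al, cW S.D0 u) q : M → ℝ) z =
      ⟪NN S τ th s0 al.1 (PS S (pj0 h.sym h.tau) u).1 q.1 z, ei q.2⟫ := by
  set s1 := PS S (pj0 h.sym h.tau) u with hs1
  have hE : τ.SecE S s1.1 := (secE_iff h.sym h.tau).2 fun y z => pj_idem (pj0 h.sym h.tau) u.1 y z
  have h1 : ∀ᵐ z ∂(μHE[4] : Measure M), ∀ q, (h.NL (cW S.DT al, cW S.D0 u) q : M → ℝ) z =
      (opC S.D0.toAD (κ' := κ0 × Fin 4) h.bm_cN (cW S.D0 s1) q : M → ℝ) z +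
      (matR (κ' := κ0 × Fin 4) h.bm_mJ (S.D0.toAD.i1 (cW S.D0 s1)) q : M → ℝ) z +
      (matR (κ' := κ0 × Fin 4) h.bm_mA (S.DT.toAD.i1 (cW S.DT al)) q : M → ℝ) z := by
    rw [ae_all_iff]
    intro q
    have e : h.NL (cW S.DT al, cW S.D0 u) q =
        opC S.D0.toAD (κ' := κ0 × Fin 4) h.bm_cN (cW S.D0 s1) q +
        matR (κ' := κ0 × Fin 4) h.bm_mJ (S.D0.toAD.i1 (cW S.D0 s1)) q +
        matR (κ' := κ0 × Fin 4) h.bm_mA (S.DT.toAD.i1 (cW S.DT al)) q := by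
      show opC S.D0.toAD (κ' := κ0 × Fin 4) h.bm_cN (h.A0 (cW S.D0 u)) q +
        matR (κ' := κ0 × Fin 4) h.bm_mJ (S.D0.toAD.i1 (h.A0 (cW S.D0 u))) q + _ = _
      rw [A0_cW]
      rfl
    rw [e]
    filter_upwards [Lp.coeFn_add (opC S.D0.toAD (κ' := κ0 × Fin 4) h.bm_cN (cW S.D0 s1) q +
        matR (κ' := κ0 × Fin 4) h.bm_mJ (S.D0.toAD.i1 (cW S.D0 s1)) q)
        (matR (κ' := κ0 × Fin 4) h.bm_mA (S.DT.toAD.i1 (cW S.DT al)) q),
      Lp.coeFn_add (opC S.D0.toAD (κ' := κ0 × Fin 4) h.bm_cN (cW S.D0 s1) q)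
        (matR (κ' := κ0 × Fin 4) h.bm_mJ (S.D0.toAD.i1 (cW S.D0 s1)) q)] with z e1 e2
    rw [e1, Pi.add_apply, e2, Pi.add_apply]
  filter_upwards [h1, coe_opC S.D0.toAD (κ' := κ0 × Fin 4) h.bm_cN (cW S.D0 s1),
    coe_matR (κ' := κ0 × Fin 4) h.bm_mJ (S.D0.toAD.i1 (cW S.D0 s1)),
    coe_matR (κ' := κ0 × Fin 4) h.bm_mA (S.DT.toAD.i1 (cW S.DT al)),
    coe_clH al.1 al.2.1, coe_clH s1.1 s1.2.1, coe_c1_secW S.D0 s1.2.1 s1.2.2]
    with z e1 e2 e3 e4 e5 e6 e7 q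
  have f5 : ∀ A, (S.DT.toAD.i1 (cW S.DT al) A : M → ℝ) z = al.1 A z := e5
  have f6 : ∀ y, (S.D0.toAD.i1 (cW S.D0 s1) y : M → ℝ) z = s1.1 y z := e6
  have f7 : ∀ y, (S.D0.toAD.c1 (cW S.D0 s1) y : M → 𝔼4) z = S.D0.cv s1.1 y z := e7
  rw [e1 q, e2 q, e3 q, e4 q, NN, nE_eq h.sym h.tau th hE]
  simp only [f5, f6, f7, inner_add_left, real_inner_smul_left, real_inner_smul_right, sum_inner]
  have g1 : S.iu s1.1 q.1 z * (⟪S.vf th z, ei q.2⟫ + ⟪S.vf τ.sh z, ei q.2⟫) =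
      ∑ b, s1.1 b z * (S.J q.1 b z * (⟪S.vf th z, ei q.2⟫ + ⟪S.vf τ.sh z, ei q.2⟫)) := by
    unfold SWS.iu
    rw [Finset.sum_mul]
    exact Finset.sum_congr rfl fun b _ => by ring
  have g2 : S.iu s0 q.1 z * ⟪S.vf al.1 z, ei q.2⟫ =
      ∑ A, al.1 A z * (S.iu s0 q.1 z * ⟪S.s A z, ei q.2⟫) := by
    unfold SWS.vf
    rw [sum_inner, Finset.mul_sum]
    refine Finset.sum_congr rfl fun A _ => ?_
    rw [real_inner_smul_left]
    ring
  rw [g1, g2]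

/-- the curvature -/
def BL (_h : Hyp S cc τ C r th s0) : VV S →L[ℝ] HH (μHE[4] : Measure M) (Fin 4) :=
  (S.DL.toAD.HE.subtypeL.comp (Ah S.H.swap)).comp (ContinuousLinearMap.fst ℝ _ _)

theorem BL_cW (h : Hyp S cc τ C r th s0) (al : SmS S.DT) (u : SmS S.D0) :
    ∀ᵐ z ∂(μHE[4] : Measure M), ∀ k, (h.BL (cW S.DT al, cW S.D0 u) k : M → ℝ) z =
      S.H.B al.1 k z := by
  have h0 : Ah S.H.swap (cW S.DT al) = cH S.DL (lA S.H.swap al) := Ah_cW (Fred_649.dns4 S.DT) al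
  have e : h.BL (cW S.DT al, cW S.D0 u) = clH (lA S.H.swap al).1 (lA S.H.swap al).2.1 := by
    show ((Ah S.H.swap (cW S.DT al) : S.DL.toAD.HE) : HH (μHE[4] : Measure M) (Fin 4)) = _
    rw [h0]
    rfl
  rw [e]
  exact coe_clH _ _

/-- `s1` and `s'` -/
def U0 (h : Hyp S cc τ C r th s0) : VV S →L[ℝ] HH (μHE[4] : Measure M) κ0 :=
  (S.D0.toAD.i1.comp h.A0).comp (ContinuousLinearMap.snd ℝ _ _)

def U1 (h : Hyp S cc τ C r th s0) : VV S →L[ℝ] HH (μHE[4] : Measure M) κ0 :=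
  (S.D0.toAD.i1.comp h.A1).comp (ContinuousLinearMap.snd ℝ _ _)

theorem U0_cW (h : Hyp S cc τ C r th s0) (al : SmS S.DT) (u : SmS S.D0) :
    ∀ᵐ z ∂(μHE[4] : Measure M), ∀ y, (h.U0 (cW S.DT al, cW S.D0 u) y : M → ℝ) z =
      (PS S (pj0 h.sym h.tau) u).1 y z := by
  have e : h.U0 (cW S.DT al, cW S.D0 u) = clH (PS S (pj0 h.sym h.tau) u).1
      (PS S (pj0 h.sym h.tau) u).2.1 := by
    show S.D0.toAD.i1 (h.A0 (cW S.D0 u)) = _
    rw [A0_cW]
    rfl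
  rw [e]
  exact coe_clH _ _

theorem U1_cW (h : Hyp S cc τ C r th s0) (al : SmS S.DT) (u : SmS S.D0) :
    ∀ᵐ z ∂(μHE[4] : Measure M), ∀ y, (h.U1 (cW S.DT al, cW S.D0 u) y : M → ℝ) z =
      (PS S (pj1 h.sym h.tau) u).1 y z := by
  have e : h.U1 (cW S.DT al, cW S.D0 u) = clH (PS S (pj1 h.sym h.tau) u).1
      (PS S (pj1 h.sym h.tau) u).2.1 := by
    show S.D0.toAD.i1 (h.A1 (cW S.D0 u)) = _
    rw [A1_cW]
    rfl
  rw [e]
  exact coe_clH _ _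

/-- density -/
theorem dense_VV (S : SWS M κ0 κ1 κT) : DenseRange (Prod.map (cW S.DT) (cW S.D0)) :=
  (Fred_649.dns4 S.DT).prodMap (Fred_649.dns4 S.D0)

/-! #### the forms -/

theorem bm_rpow (h : Hyp S cc τ C r th s0) (q : ℝ) :
    BM (μHE[4] : Measure M) (fun z => τ.rr z ^ q) :=
  bm_smooth (smooth_rpow h.tau.smrr h.tau.pos q)

/-- coefficients of the curvature term of (Q1) -/
def c1c (τ : TD M κT) (s0 : κ0 → M → ℝ) : Fin 4 → κ0 → M → ℝ :=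
  Fin.cons (fun _ _ => 0) fun k y z => τ.rr z * τ.n k z * s0 y z

theorem bm_c1c (h : Hyp S cc τ C r th s0) (k : Fin 4) (y : κ0) :
    BM (μHE[4] : Measure M) (c1c τ s0 k y) := by
  refine Fin.cases ?_ (fun k => ?_) k
  · exact bm_zero
  · exact bm_smooth ((h.tau.smrr.mul (h.tau.smn k)).mul (h.par.sm y))

/-- coefficients of the curvature term of (Q2) -/
def c2c (S : SWS M κ0 κ1 κT) (τ : TD M κT) (s0 : κ0 → M → ℝ) : Fin 4 → κ0 → M → ℝ :=
  Fin.cons (fun _ _ => 0) fun k y' z => τ.rr z * ∑ y, S.rho k y y' z * s0 y z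

theorem bm_c2c (h : Hyp S cc τ C r th s0) (k : Fin 4) (y : κ0) :
    BM (μHE[4] : Measure M) (c2c S τ s0 k y) := by
  refine Fin.cases ?_ (fun k => ?_) k
  · exact bm_zero
  · exact bm_smooth (h.tau.smrr.mul (contMDiff_finsetSum fun y' _ =>
      (h.ok.smrho k y' y).mul (h.par.sm y')))

/-- `∫ ρ^{-1/2} ⟨X, Y⟩` -/
def fX (h : Hyp S cc τ C r th s0) (X Y : HH (μHE[4] : Measure M) κ1) : ℝ :=
  bil (c := dg fun z => τ.rr z ^ (-(1 / 2) : ℝ)) (bm_dg (h.bm_rpow _)) X Y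

/-- `∫ ρ |N|²` -/
def fN (h : Hyp S cc τ C r th s0) (X : HH (μHE[4] : Measure M) (κ0 × Fin 4)) : ℝ :=
  bil (c := dg fun z => τ.rr z) (bm_dg (bm_smooth h.tau.smrr)) X X

/-- `∫ ρ² |s'|²` -/
def fS (h : Hyp S cc τ C r th s0) (X : HH (μHE[4] : Measure M) κ0) : ℝ :=
  bil (c := dg fun z => τ.rr z ^ 2) (bm_dg (bm_smooth (h.tau.smrr.pow 2))) X X

/-- `∫ ρ (∑ n_k B_k) ⟨s0, s1⟩` -/
def f1 (h : Hyp S cc τ C r th s0) (B : HH (μHE[4] : Measure M) (Fin 4))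
    (X : HH (μHE[4] : Measure M) κ0) : ℝ := bil (c := c1c τ s0) h.bm_c1c B X

/-- `∫ ρ ∑ B_k ⟨ρ_k s0, s'⟩` -/
def f2 (h : Hyp S cc τ C r th s0) (B : HH (μHE[4] : Measure M) (Fin 4))
    (X : HH (μHE[4] : Measure M) κ0) : ℝ := bil (c := c2c S τ s0) h.bm_c2c B X

theorem sum_c1c (z : M) (B : Fin 4 → ℝ) (X : κ0 → ℝ) :
    ∑ k, ∑ y, c1c τ s0 k y z * (B k * X y) =
      τ.rr z * (∑ k : Fin 3, B k.succ * τ.n k z) * ∑ y, s0 y z * X y := by
  rw [Fin.sum_univ_succ]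
  simp only [c1c, Fin.cons_zero, Fin.cons_succ, zero_mul, Finset.sum_const_zero, zero_add]
  rw [mul_assoc, Finset.sum_mul, Finset.mul_sum]
  refine Finset.sum_congr rfl fun k _ => ?_
  rw [Finset.mul_sum, Finset.mul_sum]
  exact Finset.sum_congr rfl fun y _ => by ring

theorem sum_c2c (z : M) (B : Fin 4 → ℝ) (X : κ0 → ℝ) :
    ∑ k, ∑ y, c2c S τ s0 k y z * (B k * X y) =
      τ.rr z * ∑ k : Fin 3, B k.succ * ∑ y, ∑ y', S.rho k y y' z * s0 y z * X y' := by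
  rw [Fin.sum_univ_succ]
  simp only [c2c, Fin.cons_zero, Fin.cons_succ, zero_mul, Finset.sum_const_zero, zero_add]
  rw [Finset.mul_sum]
  refine Finset.sum_congr rfl fun k _ => ?_
  rw [Finset.sum_comm, Finset.mul_sum, Finset.mul_sum]
  refine Finset.sum_congr rfl fun y _ => ?_
  have e : ∑ i, S.rho k i y z * s0 i z * X y = (∑ i, S.rho k i y z * s0 i z) * X y := by
    rw [Finset.sum_mul]
  rw [e]
  ring

theorem sum_nn {ι : Type*} [Fintype ι] (X : ι → 𝔼4) :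
    ∑ q : ι × Fin 4, (⟪X q.1, ei q.2⟫ : ℝ) * ⟪X q.1, ei q.2⟫ = ∑ y, ‖X y‖ ^ 2 := by
  rw [Fintype.sum_prod_type]
  refine Finset.sum_congr rfl fun y _ => ?_
  have := sum_ei (X y) (X y)
  rw [real_inner_self_eq_norm_sq] at this
  exact this

/-- **(Q1) on `W^{1,2}`** -/
theorem Q1 (h : Hyp S cc τ C r th s0) (v : VV S) :
    h.fX (h.XL v) (h.XL v) - h.fN (h.NL v) + 2 * h.f1 (h.BL v) (h.U0 v) = 0 := by
  refine DenseRange.induction_on (dense_VV S) v ?_ ?_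
  · refine isClosed_eq ?_ continuous_const
    exact ((continuous_bil _ h.XL.continuous h.XL.continuous).sub
      (continuous_bil _ h.NL.continuous h.NL.continuous)).add
      (continuous_const.mul (continuous_bil _ h.BL.continuous h.U0.continuous))
  · rintro ⟨al, u⟩
    set s1 := PS S (pj0 h.sym h.tau) u with hs1
    have hE : τ.SecE S s1.1 := (secE_iff h.sym h.tau).2 fun y z => pj_idem (pj0 h.sym h.tau) u.1 y z
    have q := h.q1 al.2.1 al.2.2 s1.2.1 hE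
    have smX := smooth_XX h.ok h.tau h.smth al.2.1 h.par.sm s1.2.1 hE.1
    have smN := smF_NN h.ok h.sym h.tau h.smth al.2.1 h.par.sm s1.2.1 hE
    have smB := fun k : Fin 3 => (S.H.smB _ al.2.1 al.2.2 k.succ).continuous
    have e1 : h.fX (h.XL (cW S.DT al, cW S.D0 u)) (h.XL (cW S.DT al, cW S.D0 u)) =
        ∫ z, τ.rr z ^ (-(1 / 2) : ℝ) * ∑ x, XX S τ th s0 al.1 s1.1 x z ^ 2
          ∂(μHE[4] : Measure M) := by
      rw [fX, bil_eq _ (h.XL_cW al u) (h.XL_cW al u)]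
      simp only [sum_dg, sq]
      rfl
    have e2 : h.fN (h.NL (cW S.DT al, cW S.D0 u)) =
        ∫ z, τ.rr z * ∑ y, ‖NN S τ th s0 al.1 s1.1 y z‖ ^ 2 ∂(μHE[4] : Measure M) := by
      rw [fN, bil_eq _ (h.NL_cW al u) (h.NL_cW al u)]
      simp only [sum_dg]
      refine integral_congr_ae (Eventually.of_forall fun z => ?_)
      simp only
      rw [sum_nn (fun y => NN S τ th s0 al.1 s1.1 y z)]
    have e3 : h.f1 (h.BL (cW S.DT al, cW S.D0 u)) (h.U0 (cW S.DT al, cW S.D0 u)) =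
        ∫ z, τ.rr z * (∑ k : Fin 3, S.H.B al.1 k.succ z * τ.n k z) * ∑ y, s0 y z * s1.1 y z
          ∂(μHE[4] : Measure M) := by
      rw [f1, bil_eq _ (h.BL_cW al u) (h.U0_cW al u)]
      simp only [sum_c1c]
      rfl
    have c1 : Continuous fun z => τ.rr z ^ (-(1 / 2) : ℝ) * ∑ x, XX S τ th s0 al.1 s1.1 x z ^ 2 :=
      (cont_rpow h.tau _).mul (continuous_finsetSum _ fun x _ => (smX x).continuous.pow 2)
    have c2 : Continuous fun z => τ.rr z * ∑ y, ‖NN S τ th s0 al.1 s1.1 y z‖ ^ 2 :=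
      h.tau.smrr.continuous.mul (cont_nsq smN)
    have c3 : Continuous fun z => τ.rr z * (∑ k : Fin 3, S.H.B al.1 k.succ z * τ.n k z) *
        ∑ y, s0 y z * s1.1 y z :=
      (h.tau.smrr.continuous.mul (continuous_finsetSum _ fun k _ =>
        (smB k).mul (h.tau.smn k).continuous)).mul (continuous_finsetSum _ fun y _ =>
          (h.par.sm y).continuous.mul (s1.2.1 y).continuous)
    show h.fX (h.XL (cW S.DT al, cW S.D0 u)) (h.XL (cW S.DT al, cW S.D0 u)) -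
      h.fN (h.NL (cW S.DT al, cW S.D0 u)) +
      2 * h.f1 (h.BL (cW S.DT al, cW S.D0 u)) (h.U0 (cW S.DT al, cW S.D0 u)) = 0
    have i12 : Integrable (fun z => τ.rr z ^ (-(1 / 2) : ℝ) * ∑ x, XX S τ th s0 al.1 s1.1 x z ^ 2 -
        τ.rr z * ∑ y, ‖NN S τ th s0 al.1 s1.1 y z‖ ^ 2) (μHE[4] : Measure M) := (ic c1).sub (ic c2)
    have i3 : Integrable (fun z => 2 * (τ.rr z * (∑ k : Fin 3, S.H.B al.1 k.succ z * τ.n k z) *
        ∑ y, s0 y z * s1.1 y z)) (μHE[4] : Measure M) := (ic c3).const_mul 2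
    rw [e1, e2, e3, ← integral_const_mul, ← integral_sub (ic c1) (ic c2), ← integral_add i12 i3]
    exact q

set_option maxHeartbeats 1000000 in
/-- **(Q2) on `W^{1,2}`** -/
theorem Q2 (h : Hyp S cc τ C r th s0) (v : VV S) :
    |h.fX (h.XL v) (h.YL v) - h.f2 (h.BL v) (h.U1 v)| ≤
      (1 / 2) * (h.fN (h.NL v) + r * h.fS (h.U1 v)) := by
  refine DenseRange.induction_on (dense_VV S) v ?_ ?_
  · refine isClosed_le ?_ ?_
    · exact ((continuous_bil _ h.XL.continuous h.YL.continuous).sub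
        (continuous_bil _ h.BL.continuous h.U1.continuous)).abs
    · exact continuous_const.mul ((continuous_bil _ h.NL.continuous h.NL.continuous).add
        (continuous_const.mul (continuous_bil _ h.U1.continuous h.U1.continuous)))
  · rintro ⟨al, u⟩
    set s1 := PS S (pj0 h.sym h.tau) u with hs1
    set s' := PS S (pj1 h.sym h.tau) u with hs'
    have hE : τ.SecE S s1.1 := (secE_iff h.sym h.tau).2 fun y z => pj_idem (pj0 h.sym h.tau) u.1 y z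
    have hE' : τ.SecE' S s'.1 :=
      (secE'_iff h.sym h.tau).2 fun y z => pj_idem (pj1 h.sym h.tau) u.1 y z
    have q := h.q2 al.2.1 al.2.2 s1.2.1 hE s'.2.1 hE'
    have smX := smooth_XX h.ok h.tau h.smth al.2.1 h.par.sm s1.2.1 hE.1
    have smY := smooth_dd h.ok h.tau h.smth s'.2.1 hE'.1
    have smN := smF_NN h.ok h.sym h.tau h.smth al.2.1 h.par.sm s1.2.1 hE
    have smB := fun k : Fin 3 => (S.H.smB _ al.2.1 al.2.2 k.succ).continuous
    have e1 : h.fX (h.XL (cW S.DT al, cW S.D0 u)) (h.YL (cW S.DT al, cW S.D0 u)) =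
        ∫ z, τ.rr z ^ (-(1 / 2) : ℝ) * ∑ x, XX S τ th s0 al.1 s1.1 x z * dd S τ th s'.1 x z
          ∂(μHE[4] : Measure M) := by
      rw [fX, bil_eq _ (h.XL_cW al u) (h.YL_cW al u)]
      simp only [sum_dg]
      rfl
    have e2 : h.fN (h.NL (cW S.DT al, cW S.D0 u)) =
        ∫ z, τ.rr z * ∑ y, ‖NN S τ th s0 al.1 s1.1 y z‖ ^ 2 ∂(μHE[4] : Measure M) := by
      rw [fN, bil_eq _ (h.NL_cW al u) (h.NL_cW al u)]
      simp only [sum_dg]
      refine integral_congr_ae (Eventually.of_forall fun z => ?_)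
      simp only
      rw [sum_nn (fun y => NN S τ th s0 al.1 s1.1 y z)]
    have e3 : h.f2 (h.BL (cW S.DT al, cW S.D0 u)) (h.U1 (cW S.DT al, cW S.D0 u)) =
        ∫ z, τ.rr z * ∑ k : Fin 3, S.H.B al.1 k.succ z *
          ∑ y, ∑ y', S.rho k y y' z * s0 y z * s'.1 y' z ∂(μHE[4] : Measure M) := by
      rw [f2, bil_eq _ (h.BL_cW al u) (h.U1_cW al u)]
      simp only [sum_c2c]
      rfl
    have e4 : h.fS (h.U1 (cW S.DT al, cW S.D0 u)) =
        ∫ z, τ.rr z ^ 2 * ∑ y, s'.1 y z ^ 2 ∂(μHE[4] : Measure M) := by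
      rw [fS, bil_eq _ (h.U1_cW al u) (h.U1_cW al u)]
      simp only [sum_dg, ← sq]
      rfl
    have c1 : Continuous fun z => τ.rr z ^ (-(1 / 2) : ℝ) *
        ∑ x, XX S τ th s0 al.1 s1.1 x z * dd S τ th s'.1 x z :=
      (cont_rpow h.tau _).mul (continuous_finsetSum _ fun x _ =>
        (smX x).continuous.mul (smY x).continuous)
    have c2 : Continuous fun z => τ.rr z * ∑ y, ‖NN S τ th s0 al.1 s1.1 y z‖ ^ 2 :=
      h.tau.smrr.continuous.mul (cont_nsq smN)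
    have c3 : Continuous fun z => τ.rr z * ∑ k : Fin 3, S.H.B al.1 k.succ z *
          ∑ y, ∑ y', S.rho k y y' z * s0 y z * s'.1 y' z :=
      h.tau.smrr.continuous.mul (continuous_finsetSum _ fun k _ => (smB k).mul
        (continuous_finsetSum _ fun y _ => continuous_finsetSum _ fun y' _ =>
          ((h.ok.smrho k y y').continuous.mul (h.par.sm y).continuous).mul
            (s'.2.1 y').continuous))
    have c4 : Continuous fun z => τ.rr z ^ 2 * ∑ y, s'.1 y z ^ 2 :=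
      (h.tau.smrr.continuous.pow 2).mul
        (continuous_finsetSum _ fun y _ => (s'.2.1 y).continuous.pow 2)
    show |h.fX (h.XL (cW S.DT al, cW S.D0 u)) (h.YL (cW S.DT al, cW S.D0 u)) -
      h.f2 (h.BL (cW S.DT al, cW S.D0 u)) (h.U1 (cW S.DT al, cW S.D0 u))| ≤
      (1 / 2) * (h.fN (h.NL (cW S.DT al, cW S.D0 u)) + r * h.fS (h.U1 (cW S.DT al, cW S.D0 u)))
    have i4 : Integrable (fun z => r * (τ.rr z ^ 2 * ∑ y, s'.1 y z ^ 2)) (μHE[4] : Measure M) :=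
      (ic c4).const_mul r
    rw [e1]
    rw [e3]
    rw [e2]
    rw [e4, ← integral_const_mul]
    rw [← integral_sub (ic c1) (ic c3)]
    rw [← integral_add (ic c2) i4, ← integral_const_mul]
    simp only [G2] at q
    have e5 : ∫ z, (1 / 2) * (τ.rr z * ∑ y, ‖NN S τ th s0 al.1 s1.1 y z‖ ^ 2 +
        r * τ.rr z ^ 2 * ∑ y, s'.1 y z ^ 2) ∂(μHE[4] : Measure M) =
        ∫ z, (1 / 2) * (τ.rr z * ∑ y, ‖NN S τ th s0 al.1 s1.1 y z‖ ^ 2 +
        r * (τ.rr z ^ 2 * ∑ y, s'.1 y z ^ 2)) ∂(μHE[4] : Measure M) := by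
      refine integral_congr_ae (Eventually.of_forall fun z => ?_)
      simp only
      ring
    rw [e5] at q
    exact q

end Hyp

end mfd

end

end Crest.Agent.R235.SWNd_918
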