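import Crest.Agent.R235.SWNdC_918

/-!
Row 235 (S0364), PACKAGE SW, ND (helper918), part D: the linearised equations at a flat solution.
-/

set_option autoImplicit false
set_option maxSynthPendingDepth 3
set_option linter.unusedSectionVars false

open scoped ContDiff ENNReal NNReal Topology Manifold Bundle RealInnerProductSpace Matrix
open MeasureTheory Set Filter Metric Bundle

universe v

namespace Crest.Agent.R235.SWNd_918

open Crest.Agent.R249.Tv57 Crest.Agent.R247.Ms322 Crest.Agent.R247.Dir593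
open Crest.Agent.R247.Frd657
open Crest.Agent.R235.SWDefs_53 Crest.Agent.R235.SWSym_451 Crest.Agent.R235.SWTd_451
open Crest.Agent.R235.SWTe_451 Crest.Agent.R235.Fs4_546 Crest.Agent.R235.Cpt_755
open Crest.Agent.R235.L4_433 Crest.Agent.R235.Dens_433 Crest.Agent.R235.W12_109

noncomputable section

local notation "ipp" => Crest.Agent.R249.Tv57.ip 4
local notation "𝔼4" => EuclideanSpace ℝ (Fin 4)

section gen
variable {X : Type*} [MeasurableSpace X] {μ : Measure X} {κ : Type} [Fintype κ]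

theorem bil_dg_eq {w : X → ℝ} (hw : BM μ w) (F : HH μ κ) :
    bil (c := dg w) (bm_dg hw) F F = ∫ x, w x * ∑ a, (F a : X → ℝ) x ^ 2 ∂μ := by
  rw [bil_eq (bm_dg hw) (F := F) (G := F) (f := fun a x => (F a : X → ℝ) x)
    (g := fun a x => (F a : X → ℝ) x) (Eventually.of_forall fun _ _ => rfl)
    (Eventually.of_forall fun _ _ => rfl)]
  simp only [sum_dg, sq]

theorem bil_dg_nonneg {w : X → ℝ} (hw : BM μ w) (h0 : ∀ x, 0 < w x) (F : HH μ κ) :
    0 ≤ bil (c := dg w) (bm_dg hw) F F := by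
  rw [bil_dg_eq hw]
  exact integral_nonneg fun x => mul_nonneg (h0 x).le (Finset.sum_nonneg fun _ _ => sq_nonneg _)

theorem bil_dg_zero {w : X → ℝ} (hw : BM μ w) (h0 : ∀ x, 0 < w x) {F : HH μ κ}
    (h : bil (c := dg w) (bm_dg hw) F F = 0) : ∀ᵐ x ∂μ, ∀ a, (F a : X → ℝ) x = 0 := by
  rw [bil_dg_eq hw] at h
  have hi : Integrable (fun x => w x * ∑ a, (F a : X → ℝ) x ^ 2) μ := by
    refine (integrable_bil (bm_dg hw) F F).congr (Eventually.of_forall fun x => ?_)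
    simp only [sum_dg, sq]
  have h1 := (integral_eq_zero_iff_of_nonneg (fun x => mul_nonneg (h0 x).le
    (Finset.sum_nonneg fun _ _ => sq_nonneg _)) hi).1 h
  filter_upwards [h1] with x hx a
  have hx' : w x * ∑ a, (F a : X → ℝ) x ^ 2 = 0 := hx
  have h2 := (mul_eq_zero.1 hx').resolve_left (h0 x).ne'
  have h3 := (Finset.sum_eq_zero_iff_of_nonneg fun a _ => sq_nonneg _).1 h2 a (Finset.mem_univ a)
  exact pow_eq_zero_iff two_ne_zero |>.1 h3

theorem eq_zero_of_ae {F : HH μ κ} (h : ∀ᵐ x ∂μ, ∀ a, (F a : X → ℝ) x = 0) : F = 0 := by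
  ext a
  filter_upwards [h, Lp.coeFn_zero ℝ 2 μ] with x e1 e2
  rw [e1 a]
  exact e2.symm

end gen

variable {M : Type v} [MetricSpace M] [CompactSpace M] [ConnectedSpace M]
  [ChartedSpace (EuclideanSpace ℝ (Fin 4)) M] [IsManifold (𝓡 4) ∞ M]
  [RiemannianBundle (fun p : M => TangentSpace (𝓡 4) p)]
  [IsContMDiffRiemannianBundle (𝓡 4) ∞ (EuclideanSpace ℝ (Fin 4))
    (fun p : M => TangentSpace (𝓡 4) p)]
  [IsRiemannianManifold (𝓡 4) M] [MeasurableSpace M] [BorelSpace M]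
  [SecondCountableTopology M] [Nonempty M] [IsFiniteMeasureOnCompacts (μHE[4] : Measure M)]
  {κ0 κ1 κT : Type} [Fintype κ0] [Fintype κ1] [Fintype κT]

variable {S : SWS M κ0 κ1 κT} {cc : κ1 → κ0 → M → EuclideanSpace ℝ (Fin 4)} {τ : TD M κT}
  {C r : ℝ} {th : κT → M → ℝ} {s0 : κ0 → M → ℝ}

/-! ### matrices of the projections -/

theorem R_P1 (H : Sym S cc) {m : Fin 3 → M → ℝ} (z : M) (hm : ∑ k, m k z ^ 2 = 1) :
    mR S m z * mP S m z = mP S m z := by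
  rw [mP, Matrix.mul_smul, Matrix.mul_add, mR_mp H, mR_sq H z hm, add_comm]

theorem mR_neg (m : Fin 3 → M → ℝ) (z : M) : mR S (fun k z => - m k z) z = - mR S m z := by
  unfold mR
  rw [← Finset.sum_neg_distrib]
  exact Finset.sum_congr rfl fun k _ => by rw [neg_smul]

theorem R_P0 (H : Sym S cc) {m : Fin 3 → M → ℝ} (z : M) (hm : ∑ k, m k z ^ 2 = 1) :
    mR S m z * mP S (fun k z => - m k z) z = - mP S (fun k z => - m k z) z := by
  rw [mP, mR_neg, Matrix.mul_smul, Matrix.mul_add, mR_mp H, Matrix.mul_neg, mR_sq H z hm,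
    ← smul_neg]
  congr 1
  abel

theorem mP_add (m : Fin 3 → M → ℝ) (z : M) :
    mP S (fun k z => - m k z) z + mP S m z = mp S z := by
  rw [mP, mP, mR_neg, ← smul_add]
  have : mp S z + -mR S m z + (mp S z + mR S m z) = (2 : ℝ) • mp S z := by
    rw [two_smul]; abel
  rw [this, smul_smul]
  norm_num

theorem P0_vec (u : κ0 → ℝ) (y : κ0) (z : M) :
    ∑ b, P0 S τ y b z * u b = (mP S (fun k z => - τ.n k z) z *ᵥ u) y := by
  simp only [Matrix.mulVec, dotProduct, mP_apply]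
  rfl

theorem P1_vec (u : κ0 → ℝ) (y : κ0) (z : M) :
    ∑ b, P1 S τ y b z * u b = (mP S τ.n z *ᵥ u) y := by
  simp only [Matrix.mulVec, dotProduct, mP_apply]
  rfl

namespace Hyp

theorem R_s0 (h : Hyp S cc τ C r th s0) (z : M) :
    mR S τ.n z *ᵥ (fun y => s0 y z) = - fun y => s0 y z := by
  funext y
  have h1 := h.par.sec.2 y z
  rw [TD.R, Finset.sum_comm] at h1
  simp only [Matrix.mulVec, dotProduct, mR_apply, Pi.neg_apply]
  rw [← h1]
  refine Finset.sum_congr rfl fun b _ => ?_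
  rw [Finset.sum_mul]

theorem p_s0 (h : Hyp S cc τ C r th s0) (z : M) :
    mp S z *ᵥ (fun y => s0 y z) = fun y => s0 y z := funext fun y => h.par.sec.1 y z

theorem nrm_s0 (h : Hyp S cc τ C r th s0) (z : M) :
    (fun y => s0 y z) ⬝ᵥ (fun y => s0 y z) = 2 * r := by
  rw [← h.par.nrm z]
  simp only [dotProduct, sq]

theorem pt1 (h : Hyp S cc τ C r th s0) (z : M) {u : κ0 → ℝ} (hp : mp S z *ᵥ u = u) :
    ∑ k, τ.n k z * (∑ y, ∑ y', S.rho k y y' z * s0 y z * u y') =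
      - ∑ y, s0 y z * ∑ b, P0 S τ y b z * u b := by
  have g : ∀ k, ∑ y, ∑ y', S.rho k y y' z * s0 y z * u y' =
      (fun y => s0 y z) ⬝ᵥ (mr S k z *ᵥ u) := fun k => rho_dot k z _ u
  simp only [g, P0_vec]
  rw [sum_n_rho, R_dot h.sym, h.R_s0, neg_dotProduct]
  congr 1
  have e1 : mP S (fun k z => - τ.n k z) z *ᵥ u + mP S τ.n z *ᵥ u = u := by
    rw [← Matrix.add_mulVec, mP_add, hp]
  have e2 : (fun y => s0 y z) ⬝ᵥ (mP S τ.n z *ᵥ u) = 0 :=
    dot_zero h.sym z (h.R_s0 z) (by rw [Matrix.mulVec_mulVec, R_P1 h.sym z (h.tau.norm z)])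
  conv_lhs => rw [← e1]
  rw [dotProduct_add, e2, add_zero]
  rfl

theorem pt2 (h : Hyp S cc τ C r th s0) (z : M) {u : κ0 → ℝ} (hp : mp S z *ᵥ u = u) :
    ∑ k, (∑ y, ∑ y', S.rho k y y' z * s0 y z * u y') *
      (∑ y, ∑ y', S.rho k y y' z * s0 y z * ∑ b, P1 S τ y' b z * u b) =
      2 * r * ∑ y, (∑ b, P1 S τ y b z * u b) ^ 2 := by
  set a : κ0 → ℝ := fun y => s0 y z with ha
  set s' : κ0 → ℝ := mP S τ.n z *ᵥ u with hs'
  set s1 : κ0 → ℝ := mP S (fun k z => - τ.n k z) z *ᵥ u with hs1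
  have e0 : ∀ y, ∑ b, P1 S τ y b z * u b = s' y := fun y => P1_vec u y z
  simp only [e0]
  have e1 : s1 + s' = u := by rw [hs1, hs', ← Matrix.add_mulVec, mP_add, hp]
  have f1 : mR S τ.n z *ᵥ s' = s' := by rw [hs', Matrix.mulVec_mulVec, R_P1 h.sym z (h.tau.norm z)]
  have f2 : mR S τ.n z *ᵥ s1 = - s1 := by
    rw [hs1, Matrix.mulVec_mulVec, R_P0 h.sym z (h.tau.norm z), Matrix.neg_mulVec]
  have f3 : mp S z *ᵥ s' = s' := by rw [hs', Matrix.mulVec_mulVec, mp_mP h.sym]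
  have f4 : mp S z *ᵥ s1 = s1 := by rw [hs1, Matrix.mulVec_mulVec, mp_mP h.sym]
  have f5 : a ⬝ᵥ s' = 0 := dot_zero h.sym z (h.R_s0 z) f1
  have f6 := sum_rho_sq h.ok h.sym h.tau z (h.R_s0 z) f1 (h.p_s0 z) f3
  have f7 : ∑ k, τ.n k z * (a ⬝ᵥ (mr S k z *ᵥ s')) = 0 := by rw [sum_n_rho, f1, f5]
  have g1 : ∀ k, ∑ y, ∑ y', S.rho k y y' z * s0 y z * u y' =
      - (τ.n k z * (a ⬝ᵥ s1)) + a ⬝ᵥ (mr S k z *ᵥ s') := by
    intro k
    have := rho_dot (S := S) k z a u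
    rw [this]
    conv_lhs => rw [← e1]
    rw [Matrix.mulVec_add, dotProduct_add]
    have := rho_same h.sym (m := τ.n) k z (ε := -1) (a := a) (b := s1)
      (by rw [neg_one_smul]; exact h.R_s0 z) (by rw [neg_one_smul]; exact f2) f4
    linarith
  have g2 : ∀ k, ∑ y, ∑ y', S.rho k y y' z * s0 y z * s' y' = a ⬝ᵥ (mr S k z *ᵥ s') := fun k =>
    rho_dot k z a s'
  simp only [g1, g2]
  have g3 : ∑ k, (- (τ.n k z * (a ⬝ᵥ s1)) + a ⬝ᵥ (mr S k z *ᵥ s')) * (a ⬝ᵥ (mr S k z *ᵥ s')) =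
      - (a ⬝ᵥ s1) * ∑ k, τ.n k z * (a ⬝ᵥ (mr S k z *ᵥ s')) +
        ∑ k, (a ⬝ᵥ (mr S k z *ᵥ s')) ^ 2 := by
    rw [Finset.mul_sum, ← Finset.sum_add_distrib]
    exact Finset.sum_congr rfl fun k _ => by ring
  rw [g3, f7, f6, h.nrm_s0, mul_zero, zero_add]
  congr 1
  simp only [dotProduct, sq]

/-! ### representatives -/

theorem U0_ae (h : Hyp S cc τ C r th s0) (v : VV S) : ∀ᵐ z ∂(μHE[4] : Measure M), ∀ y,
    (h.U0 v y : M → ℝ) z = ∑ b, P0 S τ y b z * (S.D0.toAD.i1 v.2 b : M → ℝ) z :=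
  coe_mulS S.D0 S.D0 (pj0 h.sym h.tau).sm (pj0 h.sym h.tau).pP v.2

theorem U1_ae (h : Hyp S cc τ C r th s0) (v : VV S) : ∀ᵐ z ∂(μHE[4] : Measure M), ∀ y,
    (h.U1 v y : M → ℝ) z = ∑ b, P1 S τ y b z * (S.D0.toAD.i1 v.2 b : M → ℝ) z :=
  coe_mulS S.D0 S.D0 (pj1 h.sym h.tau).sm (pj1 h.sym h.tau).pP v.2

theorem sec_ae (U : S.D0.toAD.WE) : ∀ᵐ z ∂(μHE[4] : Measure M),
    mp S z *ᵥ (fun y => (S.D0.toAD.i1 U y : M → ℝ) z) = fun y => (S.D0.toAD.i1 U y : M → ℝ) z := by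
  filter_upwards [Fred_649.sec_rp U] with z e1
  funext y
  exact e1 y

/-- `⟨s0, s1⟩` -/
def SG (h : Hyp S cc τ C r th s0) : VV S →L[ℝ] HH (μHE[4] : Measure M) (Fin 1) :=
  (matR (κ' := Fin 1) (m := fun _ y => s0 y) fun _ y => bm_smooth (h.par.sm y)).comp h.U0

theorem SG_ae (h : Hyp S cc τ C r th s0) (v : VV S) : ∀ᵐ z ∂(μHE[4] : Measure M), ∀ a,
    (h.SG v a : M → ℝ) z = ∑ y, s0 y z * (h.U0 v y : M → ℝ) z := by
  filter_upwards [coe_matR (κ' := Fin 1) (m := fun _ y => s0 y)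
    (fun _ y => bm_smooth (h.par.sm y)) (h.U0 v)] with z e1 a
  refine (e1 a).trans ?_
  exact Finset.sum_congr rfl fun y _ => mul_comm _ _

set_option maxHeartbeats 2000000 in
/-- **the main estimate** -/
theorem step4 (h : Hyp S cc τ C r th s0) (v : VV S) (hD : h.XL v + h.YL v = 0)
    (hC : ∀ᵐ z ∂(μHE[4] : Measure M), ∀ k : Fin 3, (h.BL v k.succ : M → ℝ) z =
      τ.rr z * ∑ y, ∑ y', S.rho k y y' z * s0 y z * (S.D0.toAD.i1 v.2 y' : M → ℝ) z) :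
    h.NL v = 0 ∧ (∀ᵐ z ∂(μHE[4] : Measure M), ∑ y, s0 y z * (h.U0 v y : M → ℝ) z = 0) ∧
      ∀ᵐ z ∂(μHE[4] : Measure M), ∀ y, (h.U1 v y : M → ℝ) z = 0 := by
  have hρ2 : ∀ z, 0 < τ.rr z ^ 2 := fun z => pow_pos (h.tau.pos z) 2
  set nG : ℝ := bil (c := dg fun z => τ.rr z ^ 2) (bm_dg (bm_smooth (h.tau.smrr.pow 2)))
    (h.SG v) (h.SG v) with hnG
  have e1 : h.fX (h.XL v) (h.YL v) = - h.fX (h.XL v) (h.XL v) := by
    have hY : h.YL v = - h.XL v := eq_neg_of_add_eq_zero_right hD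
    rw [hY]
    unfold fX bil
    rw [map_neg, inner_neg_right]
  have e2 : h.f1 (h.BL v) (h.U0 v) = - nG := by
    rw [hnG, bil_dg_eq (bm_smooth (h.tau.smrr.pow 2)), ← integral_neg, f1,
      bil_eq h.bm_c1c (F := h.BL v) (G := h.U0 v) (f := fun a x => (h.BL v a : M → ℝ) x)
        (g := fun a x => (h.U0 v a : M → ℝ) x) (Eventually.of_forall fun _ _ => rfl)
        (Eventually.of_forall fun _ _ => rfl)]
    refine integral_congr_ae ?_
    filter_upwards [h.U0_ae v, sec_ae v.2, hC, h.SG_ae v] with z a1 a2 a3 a4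
    rw [sum_c1c]
    simp only [a4, a3, Finset.univ_unique, Finset.sum_singleton]
    have p := h.pt1 z a2
    have a5 : ∑ y, s0 y z * (h.U0 v y : M → ℝ) z =
        ∑ y, s0 y z * ∑ b, P0 S τ y b z * (S.D0.toAD.i1 v.2 b : M → ℝ) z :=
      Finset.sum_congr rfl fun y _ => by rw [a1 y]
    rw [a5]
    have a6 : ∑ k, τ.rr z * (∑ y, ∑ y', S.rho k y y' z * s0 y z *
        (S.D0.toAD.i1 v.2 y' : M → ℝ) z) * τ.n k z = τ.rr z * ∑ k, τ.n k z *
          (∑ y, ∑ y', S.rho k y y' z * s0 y z * (S.D0.toAD.i1 v.2 y' : M → ℝ) z) := by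
      rw [Finset.mul_sum]
      exact Finset.sum_congr rfl fun k _ => by ring
    rw [a6, p]
    ring
  have e3 : h.f2 (h.BL v) (h.U1 v) = 2 * r * h.fS (h.U1 v) := by
    rw [fS, bil_dg_eq (bm_smooth (h.tau.smrr.pow 2)), ← integral_const_mul, f2,
      bil_eq h.bm_c2c (F := h.BL v) (G := h.U1 v) (f := fun a x => (h.BL v a : M → ℝ) x)
        (g := fun a x => (h.U1 v a : M → ℝ) x) (Eventually.of_forall fun _ _ => rfl)
        (Eventually.of_forall fun _ _ => rfl)]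
    refine integral_congr_ae ?_
    filter_upwards [h.U1_ae v, sec_ae v.2, hC] with z a1 a2 a3
    rw [sum_c2c]
    have p := h.pt2 z a2
    simp only [a3, a1]
    have a6 : ∑ k, τ.rr z * (∑ y, ∑ y', S.rho k y y' z * s0 y z *
        (S.D0.toAD.i1 v.2 y' : M → ℝ) z) * (∑ y, ∑ y', S.rho k y y' z * s0 y z *
          ∑ b, P1 S τ y' b z * (S.D0.toAD.i1 v.2 b : M → ℝ) z) = τ.rr z * ∑ k,
        (∑ y, ∑ y', S.rho k y y' z * s0 y z *
        (S.D0.toAD.i1 v.2 y' : M → ℝ) z) * (∑ y, ∑ y', S.rho k y y' z * s0 y z *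
          ∑ b, P1 S τ y' b z * (S.D0.toAD.i1 v.2 b : M → ℝ) z) := by
      rw [Finset.mul_sum]
      exact Finset.sum_congr rfl fun k _ => by ring
    rw [a6, p]
    ring
  have q1 := h.Q1 v
  have q2 := h.Q2 v
  rw [e2] at q1
  rw [e1, e3] at q2
  have b1 : BM (μHE[4] : Measure M) (fun z => τ.rr z) := bm_smooth h.tau.smrr
  have b2 : BM (μHE[4] : Measure M) (fun z => τ.rr z ^ 2) := bm_smooth (h.tau.smrr.pow 2)
  have nN0 : 0 ≤ h.fN (h.NL v) := bil_dg_nonneg b1 h.tau.pos _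
  have nG0 : 0 ≤ nG := bil_dg_nonneg b2 hρ2 _
  have nS0 : 0 ≤ h.fS (h.U1 v) := bil_dg_nonneg b2 hρ2 _
  have q3 := neg_le_of_abs_le q2
  have hr := h.rpos
  have rS : 0 ≤ r * h.fS (h.U1 v) := mul_nonneg hr.le nS0
  have z1 : h.fN (h.NL v) = 0 := by linarith
  have z2 : nG = 0 := by linarith
  have z3 : h.fS (h.U1 v) = 0 := by
    have : r * h.fS (h.U1 v) = 0 := by linarith
    exact (mul_eq_zero.1 this).resolve_left hr.ne'
  refine ⟨eq_zero_of_ae (bil_dg_zero b1 h.tau.pos z1), ?_, bil_dg_zero b2 hρ2 z3⟩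
  filter_upwards [h.SG_ae v, bil_dg_zero b2 hρ2 z2] with z a1 a2
  rw [← a1 0, a2 0]

end Hyp

end

end Crest.Agent.R235.SWNd_918
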