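import Crest.Agent.R235.SWNdD_918

/-!
Row 235 (S0364), PACKAGE SW, ND (helper918), part E: `d^* a = 0` forces `a = 0`; `y` is constant.
-/

set_option autoImplicit false
set_option maxSynthPendingDepth 3
set_option linter.unusedSectionVars false

open scoped ContDiff ENNReal NNReal Topology Manifold Bundle RealInnerProductSpace Matrix
open MeasureTheory Set Filter Metric Bundle

universe v

namespace Crest.Agent.R235.SWNd_918

open Crest.Agent.R249.Tv57 Crest.Agent.R247.Ms322 Crest.Agent.R247.Dir593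
open Crest.Agent.R247.Frd657
open Crest.Agent.R235.SWDefs_53 Crest.Agent.R235.SWSym_451 Crest.Agent.R235.SWTd_451
open Crest.Agent.R235.SWTe_451 Crest.Agent.R235.Fs4_546 Crest.Agent.R235.Cpt_755
open Crest.Agent.R235.L4_433 Crest.Agent.R235.Dens_433 Crest.Agent.R235.W12_109

noncomputable section

local notation "ipp" => Crest.Agent.R249.Tv57.ip 4
local notation "𝔼4" => EuclideanSpace ℝ (Fin 4)

variable {M : Type v} [MetricSpace M] [CompactSpace M] [ConnectedSpace M]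
  [ChartedSpace (EuclideanSpace ℝ (Fin 4)) M] [IsManifold (𝓡 4) ∞ M]
  [RiemannianBundle (fun p : M => TangentSpace (𝓡 4) p)]
  [IsContMDiffRiemannianBundle (𝓡 4) ∞ (EuclideanSpace ℝ (Fin 4))
    (fun p : M => TangentSpace (𝓡 4) p)]
  [IsRiemannianManifold (𝓡 4) M] [MeasurableSpace M] [BorelSpace M]
  [SecondCountableTopology M] [Nonempty M] [IsFiniteMeasureOnCompacts (μHE[4] : Measure M)]
  {κ0 κ1 κT : Type} [Fintype κ0] [Fintype κ1] [Fintype κT]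

variable {S : SWS M κ0 κ1 κT} {cc : κ1 → κ0 → M → EuclideanSpace ℝ (Fin 4)} {τ : TD M κT}
  {C r : ℝ} {th : κT → M → ℝ} {s0 : κ0 → M → ℝ}

/-- a function with vanishing gradient is constant -/
theorem const_of_Gr {f : M → ℝ} (hf : ContMDiff (𝓡 4) 𝓘(ℝ, ℝ) ∞ f)
    (h : ∀ z, Gr (n := 4) f z = 0) : ∃ c : ℝ, ∀ z, f z = c := by
  obtain ⟨z0⟩ := ‹Nonempty M›
  refine ⟨f z0, fun z => ?_⟩
  exact Crest.Agent.R249.Grn324.const_of_mGam_zero (n := 4) (hf.of_le (by simp)) (fun p => by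
    rw [← inner_Gr_eq_mGam, h p, inner_zero_left]) z z0

/-- the functions as sections of `ℝ ⊕ Λ⁺` -/
def fn0 (hOK : S.OK) {f : M → ℝ} (hf : ContMDiff (𝓡 4) 𝓘(ℝ, ℝ) ∞ f) : SmS S.DL :=
  ⟨Fin.cons f fun _ _ => 0, by
    intro a
    refine Fin.cases ?_ (fun k => ?_) a
    · exact hf
    · exact contMDiff_const, by
    intro a z
    simp only [hOK.fullL, ite_mul, one_mul, zero_mul, Finset.sum_ite_eq, Finset.mem_univ, if_true]⟩

namespace Hyp

theorem bm_cA (h : Hyp S cc τ C r th s0) (i : Fin 4) (A : κT) :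
    BM (μHE[4] : Measure M) (fun z => (⟪S.s A z, ei i⟫ : ℝ)) := bm_inner_const (h.ok.sms A).bm _

/-- the vector field of `α` -/
def AS (h : Hyp S cc τ C r th s0) : S.DT.toAD.WE →L[ℝ] HH (μHE[4] : Measure M) (Fin 4) :=
  (matR (κ' := Fin 4) h.bm_cA).comp S.DT.toAD.i1

theorem AS_ae (h : Hyp S cc τ C r th s0) (α : S.DT.toAD.WE) : ∀ᵐ z ∂(μHE[4] : Measure M), ∀ i,
    (h.AS α i : M → ℝ) z = ⟪∑ A, (S.DT.toAD.i1 α A : M → ℝ) z • S.s A z, ei i⟫ := by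
  filter_upwards [coe_matR (κ' := Fin 4) h.bm_cA (S.DT.toAD.i1 α)] with z e1 i
  refine (e1 i).trans ?_
  rw [sum_inner]
  exact Finset.sum_congr rfl fun A _ => by rw [real_inner_smul_left]

theorem AS_cW (h : Hyp S cc τ C r th s0) (al : SmS S.DT) : ∀ᵐ z ∂(μHE[4] : Measure M), ∀ i,
    (h.AS (cW S.DT al) i : M → ℝ) z = ⟪S.vf al.1 z, ei i⟫ := by
  filter_upwards [h.AS_ae (cW S.DT al), coe_clH al.1 al.2.1] with z e1 e2 i
  rw [e1 i, SWS.vf]
  congr 1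
  refine Finset.sum_congr rfl fun A _ => ?_
  congr 1
  exact e2 A

open Classical in
/-- the coefficients of the pairing with `J s0` -/
def cJS (S : SWS M κ0 κ1 κT) (s0 : κ0 → M → ℝ) (i : Fin 4) (q : κ0 × Fin 4) (z : M) : ℝ :=
  if i = q.2 then S.iu s0 q.1 z else 0

theorem bm_cJS (h : Hyp S cc τ C r th s0) (i : Fin 4) (q : κ0 × Fin 4) :
    BM (μHE[4] : Measure M) (cJS S s0 i q) := by
  unfold cJS
  by_cases hq : i = q.2
  · simp only [if_pos hq]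
    exact bm_smooth (smV_iu h.ok h.par.sm q.1)
  · simp only [if_neg hq]
    exact bm_zero

theorem sum_cJS (i : Fin 4) (z : M) (N : κ0 × Fin 4 → ℝ) :
    ∑ q, N q * cJS S s0 i q z = ∑ y, S.iu s0 y z * N (y, i) := by
  classical
  rw [Fintype.sum_prod_type]
  refine Finset.sum_congr rfl fun y _ => ?_
  simp only [cJS, mul_ite, mul_zero]
  rw [Finset.sum_ite_eq]
  simp only [Finset.mem_univ, if_true]
  ring

/-- `2 r grad y` -/
def GY (h : Hyp S cc τ C r th s0) : VV S →L[ℝ] HH (μHE[4] : Measure M) (Fin 4) :=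
  (matR (κ' := Fin 4) h.bm_cJS).comp h.NL -
    (2 * r) • h.AS.comp (ContinuousLinearMap.fst ℝ _ _)

/-- `y` up to the factor `2 r` -/
def Yf (S : SWS M κ0 κ1 κT) (s0 s1 : κ0 → M → ℝ) (z : M) : ℝ := ∑ y, s1 y z * S.iu s0 y z

theorem sm_Yf (h : Hyp S cc τ C r th s0) {s1 : κ0 → M → ℝ} (h1 : SmV (n := 4) s1) :
    ContMDiff (𝓡 4) 𝓘(ℝ, ℝ) ∞ (Yf S s0 s1) :=
  contMDiff_finsetSum fun y _ => (h1 y).mul (smV_iu h.ok h.par.sm y)

theorem GY_cW (h : Hyp S cc τ C r th s0) (al : SmS S.DT) (u : SmS S.D0) :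
    ∀ᵐ z ∂(μHE[4] : Measure M), ∀ i, (h.GY (cW S.DT al, cW S.D0 u) i : M → ℝ) z =
      ⟪Gr (n := 4) (Yf S s0 (PS S (pj0 h.sym h.tau) u).1) z, ei i⟫ := by
  set s1 := PS S (pj0 h.sym h.tau) u with hs1
  have hE : τ.SecE S s1.1 := (secE_iff h.sym h.tau).2 fun y z => pj_idem (pj0 h.sym h.tau) u.1 y z
  have h1 : ∀ᵐ z ∂(μHE[4] : Measure M), ∀ i, (h.GY (cW S.DT al, cW S.D0 u) i : M → ℝ) z =
      (matR (κ' := Fin 4) h.bm_cJS (h.NL (cW S.DT al, cW S.D0 u)) i : M → ℝ) z -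
        (2 * r) * (h.AS (cW S.DT al) i : M → ℝ) z := by
    rw [ae_all_iff]
    intro i
    have e : h.GY (cW S.DT al, cW S.D0 u) i =
      matR (κ' := Fin 4) h.bm_cJS (h.NL (cW S.DT al, cW S.D0 u)) i -
        (2 * r) • h.AS (cW S.DT al) i := rfl
    rw [e]
    filter_upwards [Lp.coeFn_sub (matR (κ' := Fin 4) h.bm_cJS (h.NL (cW S.DT al, cW S.D0 u)) i)
      ((2 * r) • h.AS (cW S.DT al) i), Lp.coeFn_smul (2 * r) (h.AS (cW S.DT al) i)] with z a1 a2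
    rw [a1, Pi.sub_apply, a2, Pi.smul_apply, smul_eq_mul]
  filter_upwards [h1, coe_matR (κ' := Fin 4) h.bm_cJS (h.NL (cW S.DT al, cW S.D0 u)),
    h.NL_cW al u, h.AS_cW al] with z a1 a2 a3 a4 i
  rw [a1 i, a2 i, a4 i, sum_cJS]
  have p := h.pair_NN s1.2.1 hE al.1 z
  have p2 := congrArg (fun X : 𝔼4 => (⟪X, ei i⟫ : ℝ)) p
  simp only [inner_add_left, sum_inner, real_inner_smul_left] at p2
  have a5 : ∑ y, S.iu s0 y z * (h.NL (cW S.DT al, cW S.D0 u) (y, i) : M → ℝ) z =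
      ∑ y, S.iu s0 y z * ⟪NN S τ th s0 al.1 s1.1 y z, ei i⟫ :=
    Finset.sum_congr rfl fun y _ => by rw [a3 (y, i)]
  rw [a5, p2]
  unfold Yf
  ring

/-- the coexactness of `α`: orthogonality to gradients -/
def CoEx (h : Hyp S cc τ C r th s0) (α : S.DT.toAD.WE) : Prop :=
  ∀ (f : M → ℝ) (hf : ContMDiff (𝓡 4) 𝓘(ℝ, ℝ) ∞ f),
    (⟪S.DT.toAD.jj α, cH S.DT (lA S.H (fn0 h.ok hf))⟫ : ℝ) = 0

theorem inner_AS (h : Hyp S cc τ C r th s0) (α : S.DT.toAD.WE) {f : M → ℝ}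
    {G : HH (μHE[4] : Measure M) (Fin 4)}
    (hG : ∀ᵐ z ∂(μHE[4] : Measure M), ∀ i, (G i : M → ℝ) z = ⟪Gr (n := 4) f z, ei i⟫) :
    (⟪G, h.AS α⟫ : ℝ) = ∫ z, ∑ A, (S.DT.toAD.i1 α A : M → ℝ) z * ⟪Gr (n := 4) f z, S.s A z⟫
      ∂(μHE[4] : Measure M) := by
  rw [inner_HH G (h.AS α) hG (h.AS_ae α)]
  refine integral_congr_ae (Eventually.of_forall fun z => ?_)
  simp only
  rw [sum_ei, inner_sum]
  exact Finset.sum_congr rfl fun A _ => by rw [real_inner_smul_right]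

theorem inner_GY_AS (h : Hyp S cc τ C r th s0) {α : S.DT.toAD.WE} (hα : h.CoEx α) (v : VV S) :
    (⟪h.GY v, h.AS α⟫ : ℝ) = 0 := by
  obtain ⟨c, hc0, hc⟩ := h.grd
  refine DenseRange.induction_on (dense_VV S) v ?_ ?_
  · exact isClosed_eq (h.GY.continuous.inner continuous_const) continuous_const
  · rintro ⟨al, u⟩
    show (⟪h.GY (cW S.DT al, cW S.D0 u), h.AS α⟫ : ℝ) = 0
    rw [h.inner_AS α (h.GY_cW al u)]
    set f := Yf S s0 (PS S (pj0 h.sym h.tau) u).1 with hfd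
    have hf : ContMDiff (𝓡 4) 𝓘(ℝ, ℝ) ∞ f := h.sm_Yf (PS S (pj0 h.sym h.tau) u).2.1
    have h1 := hα f hf
    rw [← Fred_649.ip_rp α (lA S.H (fn0 h.ok hf))] at h1
    have h2 : ipp (Fred_649.rp α) (lA S.H (fn0 h.ok hf)).1 =
        c * ∫ z, ∑ A, (S.DT.toAD.i1 α A : M → ℝ) z * ⟪Gr (n := 4) f z, S.s A z⟫
          ∂(μHE[4] : Measure M) := by
      rw [← integral_const_mul]
      refine integral_congr_ae (Eventually.of_forall fun z => ?_)
      simp only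
      rw [Finset.mul_sum]
      refine Finset.sum_congr rfl fun A _ => ?_
      have h3 : (lA S.H (fn0 h.ok hf)).1 A z = c * ⟪Gr (n := 4) f z, S.s A z⟫ := hc f hf A z
      rw [h3]
      show (S.DT.toAD.i1 α A : M → ℝ) z * _ = _
      ring
    rw [h2] at h1
    exact (mul_eq_zero.1 h1).resolve_left hc0

/-- `α = 0` -/
theorem alpha_zero (h : Hyp S cc τ C r th s0) {v : VV S} (hα : h.CoEx v.1) (hN : h.NL v = 0) :
    h.AS v.1 = 0 ∧ v.1 = 0 := by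
  have h1 := h.inner_GY_AS hα v
  have h2 : h.GY v = - ((2 * r) • h.AS v.1) := by
    show matR (κ' := Fin 4) h.bm_cJS (h.NL v) - (2 * r) • h.AS v.1 = _
    rw [hN, map_zero, zero_sub]
  rw [h2, inner_neg_left, real_inner_smul_left, neg_eq_zero] at h1
  have hr := h.rpos
  have h3 : h.AS v.1 = 0 := by
    rcases mul_eq_zero.1 h1 with h4 | h4
    · linarith
    · exact inner_self_eq_zero.1 h4
  refine ⟨h3, ?_⟩
  refine i1_injective S.DT.toAD ?_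
  rw [map_zero]
  refine eq_zero_of_ae ?_
  have h5 : ∀ᵐ z ∂(μHE[4] : Measure M), ∀ i, (h.AS v.1 i : M → ℝ) z = 0 := by
    rw [h3, ae_all_iff]
    intro i
    exact Lp.coeFn_zero _ _ _
  filter_upwards [h.AS_ae v.1, h5, Fred_649.sec_rp v.1] with z a1 a2 a3 A
  have b1 : ∑ B, (S.DT.toAD.i1 v.1 B : M → ℝ) z • S.s B z = 0 := by
    have b2 := sum_ei (∑ B, (S.DT.toAD.i1 v.1 B : M → ℝ) z • S.s B z)
      (∑ B, (S.DT.toAD.i1 v.1 B : M → ℝ) z • S.s B z)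
    simp only [← a1, a2, mul_zero, Finset.sum_const_zero] at b2
    exact inner_self_eq_zero.1 b2.symm
  have b3 := a3 A
  rw [show (S.DT.toAD.i1 v.1 A : M → ℝ) z = Fred_649.rp v.1 A z from rfl, ← b3]
  have b4 : ∑ B, S.DT.p A B z * Fred_649.rp v.1 B z =
      ⟪S.s A z, ∑ B, (S.DT.toAD.i1 v.1 B : M → ℝ) z • S.s B z⟫ := by
    rw [inner_sum]
    refine Finset.sum_congr rfl fun B _ => ?_
    rw [real_inner_smul_right, h.sym.pT]
    show _ * (S.DT.toAD.i1 v.1 B : M → ℝ) z = _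
    ring
  rw [b4, b1, inner_zero_right]

/-! ### `y` is constant -/

/-- the coefficients of `∫ y (H.B w)_0` -/
def c7 (S : SWS M κ0 κ1 κT) (s0 : κ0 → M → ℝ) (y : κ0) : Fin 4 → M → ℝ :=
  Fin.cons (fun z => S.iu s0 y z) fun _ _ => 0

theorem bm_c7 (h : Hyp S cc τ C r th s0) (y : κ0) (j : Fin 4) :
    BM (μHE[4] : Measure M) (c7 S s0 y j) := by
  refine Fin.cases ?_ (fun k => ?_) j
  · exact bm_smooth (smV_iu h.ok h.par.sm y)
  · exact bm_zero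

theorem sum_c7 (z : M) (U : κ0 → ℝ) (B : Fin 4 → ℝ) :
    ∑ y, ∑ j, c7 S s0 y j z * (U y * B j) = (∑ y, U y * S.iu s0 y z) * B 0 := by
  rw [Finset.sum_mul]
  refine Finset.sum_congr rfl fun y _ => ?_
  rw [Fin.sum_univ_succ]
  simp only [c7, Fin.cons_zero, Fin.cons_succ, zero_mul, Finset.sum_const_zero, add_zero]
  ring

/-- `∫ y (H.B w)_0 = c ∫ ⟨grad y, w⟩` -/
theorem bil_c7 (h : Hyp S cc τ C r th s0) {c : ℝ} (hc : ∀ f : M → ℝ,
    ContMDiff (𝓡 4) 𝓘(ℝ, ℝ) ∞ f → ∀ A z,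
    S.H.A (Fin.cons f fun _ _ => 0) A z = c * ⟪Gr (n := 4) f z, S.s A z⟫) (w : SmS S.DT) (v : VV S) :
    bil (c := c7 S s0) h.bm_c7 (h.U0 v) (clH (lA S.H.swap w).1 (lA S.H.swap w).2.1) =
      c * ⟪h.GY v, h.AS (cW S.DT w)⟫ := by
  refine DenseRange.induction_on (dense_VV S) v ?_ ?_
  · exact isClosed_eq (continuous_bil _ h.U0.continuous continuous_const)
      (continuous_const.mul (h.GY.continuous.inner continuous_const))
  · rintro ⟨al, u⟩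
    show bil (c := c7 S s0) h.bm_c7 (h.U0 (cW S.DT al, cW S.D0 u))
      (clH (lA S.H.swap w).1 (lA S.H.swap w).2.1) =
      c * ⟪h.GY (cW S.DT al, cW S.D0 u), h.AS (cW S.DT w)⟫
    set s1 := PS S (pj0 h.sym h.tau) u with hs1
    set f := Yf S s0 s1.1 with hfd
    have hf : ContMDiff (𝓡 4) 𝓘(ℝ, ℝ) ∞ f := h.sm_Yf s1.2.1
    have e1 : bil (c := c7 S s0) h.bm_c7 (h.U0 (cW S.DT al, cW S.D0 u))
        (clH (lA S.H.swap w).1 (lA S.H.swap w).2.1) = ipp (fn0 h.ok hf).1 (S.H.B w.1) := by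
      rw [bil_eq _ (h.U0_cW al u) (coe_clH _ _)]
      simp only [sum_c7]
      refine integral_congr_ae (Eventually.of_forall fun z => ?_)
      simp only
      rw [Fin.sum_univ_succ]
      simp only [fn0, Fin.cons_zero, Fin.cons_succ, zero_mul, Finset.sum_const_zero, add_zero]
      rfl
    have e2 := S.H.adj (fn0 h.ok hf).1 w.1 (fn0 h.ok hf).2.1 (fn0 h.ok hf).2.2 w.2.1 w.2.2
    have e3 : (⟪h.GY (cW S.DT al, cW S.D0 u), h.AS (cW S.DT w)⟫ : ℝ) =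
        ∫ z, ∑ A, w.1 A z * ⟪Gr (n := 4) f z, S.s A z⟫ ∂(μHE[4] : Measure M) := by
      rw [inner_HH _ _ (h.GY_cW al u) (h.AS_cW w)]
      refine integral_congr_ae (Eventually.of_forall fun z => ?_)
      simp only
      rw [sum_ei, SWS.vf, inner_sum]
      exact Finset.sum_congr rfl fun A _ => by rw [real_inner_smul_right]
    rw [e1, ← e2, e3, ← integral_const_mul]
    refine integral_congr_ae (Eventually.of_forall fun z => ?_)
    simp only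
    rw [Finset.mul_sum]
    refine Finset.sum_congr rfl fun A _ => ?_
    have h3 : S.H.A (fn0 h.ok hf).1 A z = c * ⟪Gr (n := 4) f z, S.s A z⟫ := hc f hf A z
    rw [h3]
    ring

/-- the function `⟨J s0, s1⟩` in `L²` -/
def yL (h : Hyp S cc τ C r th s0) (v : VV S) : Lp ℝ 2 (μHE[4] : Measure M) :=
  ∑ y, mulF (bm_smooth (smV_iu h.ok h.par.sm y)) (S.D0.toAD.i1 (h.A0 v.2) y)

theorem yL_mem (h : Hyp S cc τ C r th s0) (v : VV S) : h.yL v ∈ (gradS 4 M).V :=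
  (gradS 4 M).V.sum_mem fun y _ =>
    (mulF_mem (bm_smooth (smV_iu h.ok h.par.sm y)) (isT_smooth (smV_iu h.ok h.par.sm y))
      (i1_mem S.D0.toAD (h.A0 v.2) y)).1

theorem yL_ae (h : Hyp S cc τ C r th s0) (v : VV S) : ∀ᵐ z ∂(μHE[4] : Measure M),
    (h.yL v : M → ℝ) z = ∑ y, (h.U0 v y : M → ℝ) z * S.iu s0 y z := by
  have h1 : ∀ᵐ z ∂(μHE[4] : Measure M), ∀ y,
      (mulF (bm_smooth (smV_iu h.ok h.par.sm y)) (S.D0.toAD.i1 (h.A0 v.2) y) : M → ℝ) z =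
      (S.D0.toAD.i1 (h.A0 v.2) y : M → ℝ) z • S.iu s0 y z :=
    ae_all_iff.2 fun y => coe_mulF _ _
  filter_upwards [h1, Lp.coeFn_fun_finsetSum Finset.univ
    (fun y => mulF (bm_smooth (smV_iu h.ok h.par.sm y)) (S.D0.toAD.i1 (h.A0 v.2) y))] with z e1 e2
  refine e2.trans ?_
  exact Finset.sum_congr rfl fun y _ => e1 y

/-- the function `⟨J s0, s1⟩` in `W^{1,2}(ℝ ⊕ Λ⁺)` -/
def YW (h : Hyp S cc τ C r th s0) (v : VV S) : S.DL.toAD.WE :=
  S.DL.toAD.mkW (WithLp.toLp 2 (Fin.cons (h.yL v) fun _ => 0)) (by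
    intro a
    refine Fin.cases ?_ (fun k => ?_) a
    · exact h.yL_mem v
    · exact (gradS 4 M).V.zero_mem) (by
    ext a
    filter_upwards [S.DL.toAD.coe_P (WithLp.toLp 2 (Fin.cons (h.yL v) fun _ => 0))] with z e1
    rw [e1 a]
    have e2 : ∀ b, S.DL.toAD.p a b z = if a = b then 1 else 0 := fun b => h.ok.fullL a b z
    simp only [e2, ite_mul, one_mul, zero_mul, Finset.sum_ite_eq, Finset.mem_univ, if_true])

theorem YW_ae (h : Hyp S cc τ C r th s0) (v : VV S) : ∀ᵐ z ∂(μHE[4] : Measure M),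
    (S.DL.toAD.i1 (h.YW v) 0 : M → ℝ) z = ∑ y, (h.U0 v y : M → ℝ) z * S.iu s0 y z ∧
      ∀ k : Fin 3, (S.DL.toAD.i1 (h.YW v) k.succ : M → ℝ) z = 0 := by
  have h1 : ∀ᵐ z ∂(μHE[4] : Measure M), ∀ k : Fin 3,
      (S.DL.toAD.i1 (h.YW v) k.succ : M → ℝ) z = 0 := by
    rw [ae_all_iff]
    intro k
    exact Lp.coeFn_zero _ _ _
  filter_upwards [h.yL_ae v, h1] with z e1 e2
  exact ⟨e1, e2⟩

theorem Ah_YW (h : Hyp S cc τ C r th s0) {v : VV S} (hG : h.GY v = 0) : Ah S.H (h.YW v) = 0 := by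
  obtain ⟨c, hc0, hc⟩ := h.grd
  refine Dns_433.eq_of_inner_cH S.DT (by norm_num) fun w => ?_
  rw [inner_zero_left]
  have h1 := adj (P := S.H) (Fred_649.dns4 S.DL) (Fred_649.dns4 S.DT) (h.YW v) (cW S.DT w)
  rw [jj_cW, Ah_cW (Fred_649.dns4 S.DT)] at h1
  rw [h1]
  have h2 := h.bil_c7 hc w v
  rw [hG, inner_zero_left, mul_zero] at h2
  rw [← h2]
  have h3 : (⟪S.DL.toAD.jj (h.YW v), cH S.DL (lA S.H.swap w)⟫ : ℝ) =
      ⟪S.DL.toAD.i1 (h.YW v), clH (lA S.H.swap w).1 (lA S.H.swap w).2.1⟫ := rfl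
  rw [h3, inner_HH (S.DL.toAD.i1 (h.YW v)) (clH (lA S.H.swap w).1 (lA S.H.swap w).2.1)
    (f := fun j z => (S.DL.toAD.i1 (h.YW v) j : M → ℝ) z) (Eventually.of_forall fun _ _ => rfl)
    (coe_clH _ _), bil_eq h.bm_c7 (F := h.U0 v) (f := fun j z => (h.U0 v j : M → ℝ) z)
    (Eventually.of_forall fun _ _ => rfl) (coe_clH _ _)]
  refine integral_congr_ae ?_
  filter_upwards [h.YW_ae v] with z e1
  rw [sum_c7, Fin.sum_univ_succ]
  simp only [e1.2, zero_mul, Finset.sum_const_zero, add_zero, e1.1]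

/-- **`⟨J s0, s1⟩` is constant** -/
theorem y_const (h : Hyp S cc τ C r th s0) {v : VV S} (hG : h.GY v = 0) :
    ∃ c : ℝ, ∀ᵐ z ∂(μHE[4] : Measure M), ∑ y, (h.U0 v y : M → ℝ) z * S.iu s0 y z = c := by
  obtain ⟨z0⟩ := ‹Nonempty M›
  have := isLocallyFiniteMeasure 4 M
  have hop := isOpenPosMeasure 4 M
  obtain ⟨k, hk, hRic⟩ := Crest.Agent.R249.Grn324.exists_ricciLowerBound 4 M
  have hp : S.DL.p 0 0 z0 ≠ 0 := by rw [h.ok.fullL]; norm_num
  obtain ⟨Sp⟩ := exists_spec (by norm_num) hk hRic S.DL hp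
  have h0 := h.Ah_YW hG
  have h1 := ker_eq Sp (Fred_649.dns4 S.DL) h0
  set f : SmS S.DL := ∑ k ∈ Sp.ker, (⟪S.DL.toAD.jj (h.YW v),
    S.DL.toAD.jj (cW S.DL (ph Sp k))⟫ : ℝ) • ph Sp k with hf
  have h2 : h.YW v = cW S.DL f := by
    rw [hf, map_sum]
    simp only [map_smul]
    exact h1
  have h3 : lA S.H f = 0 := by
    rw [h2, Ah_cW (Fred_649.dns4 S.DL)] at h0
    exact cH_injective S.DT (h0.trans (map_zero _).symm)
  have h4 : ∀ᵐ z ∂(μHE[4] : Measure M), ∀ j, (S.DL.toAD.i1 (h.YW v) j : M → ℝ) z = f.1 j z := by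
    rw [h2]
    exact coe_clH f.1 f.2.1
  have h5 : ∀ k : Fin 3, f.1 k.succ = fun _ => 0 := by
    intro k
    refine ((f.2.1 k.succ).continuous.ae_eq_iff_eq (μHE[4] : Measure M) continuous_const).1 ?_
    filter_upwards [h4, h.YW_ae v] with z e1 e2
    rw [← e1, e2.2]
  have h6 : f.1 = Fin.cons (f.1 0) fun _ _ => 0 := by
    funext j
    refine Fin.cases ?_ (fun k => ?_) j
    · rfl
    · rw [h5 k]
      rfl
  obtain ⟨c, hc0, hc⟩ := h.grd
  have h7 : ∀ z, Gr (n := 4) (f.1 0) z = 0 := by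
    intro z
    rw [← h.sym.tight z (Gr (n := 4) (f.1 0) z)]
    refine Finset.sum_eq_zero fun A _ => ?_
    have e1 : S.H.A f.1 A z = 0 := congrFun (congrFun (congrArg Subtype.val h3) A) z
    rw [h6, hc (f.1 0) (f.2.1 0)] at e1
    rw [(mul_eq_zero.1 e1).resolve_left hc0, zero_smul]
  obtain ⟨c', hc'⟩ := const_of_Gr (f.2.1 0) h7
  refine ⟨c', ?_⟩
  filter_upwards [h4, h.YW_ae v] with z e1 e2
  rw [← e2.1, e1 0, hc']

end Hyp

end

end Crest.Agent.R235.SWNd_918
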