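import Crest.Agent.R235.SWHil_53
import Crest.Agent.R235.L4_433
import Crest.Agent.R235.Swx4_333
import Crest.Agent.R235.SWPfA_435

/-!
Row 235 (S0364), PACKAGE SW, leaf PFX (helper435), part B: multiplication operators on `L²(E)` and
`W^{1,2}(E)`, the complex structures.
-/

set_option autoImplicit false
set_option maxSynthPendingDepth 3
set_option linter.unusedSectionVars false

open scoped ContDiff ENNReal NNReal Topology Manifold Bundle RealInnerProductSpace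
open MeasureTheory Set Filter Metric Bundle Module

universe v

namespace Crest.Agent.R235.SWPf_435

open Crest.Agent.R249.Tv57 Crest.Agent.R247.Ms322 Crest.Agent.R247.Dir593
open Crest.Agent.R235.SWSym_451 Crest.Agent.R235.Fs4_546 Crest.Agent.R235.Fred_649
open Crest.Agent.R235.FamR_151 Crest.Agent.R235.SWDefs_53 Crest.Agent.R235.L4_433
open Crest.Agent.R235.Cpt_755 Crest.Agent.R275 Crest.Agent.R235.SWPfA_435

noncomputable section

section gen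

variable {M : Type v} [MetricSpace M] [CompactSpace M] [ConnectedSpace M]
  [ChartedSpace (EuclideanSpace ℝ (Fin 4)) M] [IsManifold (𝓡 4) ∞ M]
  [RiemannianBundle (fun p : M => TangentSpace (𝓡 4) p)]
  [IsContMDiffRiemannianBundle (𝓡 4) ∞ (EuclideanSpace ℝ (Fin 4))
    (fun p : M => TangentSpace (𝓡 4) p)]
  [IsRiemannianManifold (𝓡 4) M] [MeasurableSpace M] [BorelSpace M]
  [SecondCountableTopology M] [Nonempty M] [IsFiniteMeasureOnCompacts (μHE[4] : Measure M)]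
  {κ κ' : Type} [Fintype κ] [Fintype κ'] {D : Dat 4 M κ} {D' : Dat 4 M κ'}

local notation "μM" => (μHE[4] : Measure M)

/-! ### representatives -/

/-- the representative of an element of `L²(E)`. -/
def rf (f : D.toAD.HE) : κ → M → ℝ := fun a => ((f : HH μM κ) a : M → ℝ)

theorem HE_ext {f g : D.toAD.HE} (h : ∀ᵐ z ∂μM, ∀ a, rf f a z = rf g a z) : f = g := by
  apply Subtype.ext
  ext a
  filter_upwards [h] with z hz
  exact hz a

theorem WE_ext {u v : D.toAD.WE} (h : ∀ᵐ z ∂μM, ∀ a, rp u a z = rp v a z) : u = v := by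
  apply Green_649.i1_injective D
  ext a
  filter_upwards [h] with z hz
  exact hz a

theorem rf_add (f g : D.toAD.HE) : ∀ᵐ z ∂μM, ∀ a, rf (f + g) a z = rf f a z + rf g a z := by
  rw [ae_all_iff]
  intro a
  exact Lp.coeFn_add ((f : HH μM κ) a) ((g : HH μM κ) a)

theorem rf_neg (f : D.toAD.HE) : ∀ᵐ z ∂μM, ∀ a, rf (-f) a z = - rf f a z := by
  rw [ae_all_iff]
  intro a
  exact Lp.coeFn_neg ((f : HH μM κ) a)

theorem rf_smul (c : ℝ) (f : D.toAD.HE) : ∀ᵐ z ∂μM, ∀ a, rf (c • f) a z = c * rf f a z := by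
  rw [ae_all_iff]
  intro a
  exact Lp.coeFn_smul c ((f : HH μM κ) a)

theorem rp_add (u v : D.toAD.WE) : ∀ᵐ z ∂μM, ∀ a, rp (u + v) a z = rp u a z + rp v a z := by
  rw [ae_all_iff]
  intro a
  exact Lp.coeFn_add (D.toAD.i1 u a) (D.toAD.i1 v a)

theorem rp_neg (u : D.toAD.WE) : ∀ᵐ z ∂μM, ∀ a, rp (-u) a z = - rp u a z := by
  rw [ae_all_iff]
  intro a
  exact Lp.coeFn_neg (D.toAD.i1 u a)

theorem rp_smul (c : ℝ) (u : D.toAD.WE) : ∀ᵐ z ∂μM, ∀ a, rp (c • u) a z = c * rp u a z := by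
  rw [ae_all_iff]
  intro a
  exact Lp.coeFn_smul c (D.toAD.i1 u a)

theorem sec_rf (f : D.toAD.HE) : ∀ᵐ z ∂μM, ∀ a, ∑ b, D.p a b z * rf f b z = rf f a z := by
  have h0 : D.toAD.P (f : HH μM κ) = f := f.2
  have h1 := D.toAD.coe_P (f : HH μM κ)
  rw [h0] at h1
  filter_upwards [h1] with z hz a
  exact (hz a).symm

theorem rf_jj (u : D.toAD.WE) : rf (D.toAD.jj u) = rp u := rfl

theorem rf_cH (u : SmS D) : ∀ᵐ z ∂μM, ∀ a, rf (cH D u) a z = u.1 a z := coe_clH u.1 u.2.1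

theorem rp_cW (u : SmS D) : ∀ᵐ z ∂μM, ∀ a, rp (cW D u) a z = u.1 a z := coe_clH u.1 u.2.1

theorem norm_sq_HE (f : D.toAD.HE) : ‖f‖ ^ 2 = ∫ z, ∑ a, rf f a z ^ 2 ∂μM :=
  Swx_333.norm_sq_HH (f : HH μM κ)

/-! ### complex structures -/

/-- a complex structure of the bundle `D`. -/
structure CS (D : Dat 4 M κ) (J : κ → κ → M → ℝ) : Prop where
  sm : ∀ a b, ContMDiff (𝓡 4) 𝓘(ℝ, ℝ) ∞ (J a b)
  skew : ∀ a b z, J a b z = - J b a z
  pJ : ∀ a b z, ∑ c, D.p a c z * J c b z = J a b z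
  sq : ∀ a b z, ∑ c, J a c z * J c b z = - D.p a b z

/-- `i v`. -/
def jv (J : κ → κ → M → ℝ) (v : κ → ℝ) (z : M) : κ → ℝ := fun a => ∑ b, J a b z * v b

/-- `c v`, `c` complex. -/
def cv' (J : κ → κ → M → ℝ) (c : ℂ) (v : κ → ℝ) (z : M) : κ → ℝ :=
  fun a => c.re * v a + c.im * jv J v z a

variable {J : κ → κ → M → ℝ}

theorem jv_jv (H : CS D J) {v : κ → ℝ} {z : M} (hv : ∀ a, ∑ b, D.p a b z * v b = v a) (a : κ) :
    jv J (jv J v z) z a = - v a := by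
  unfold jv
  simp only [Finset.mul_sum]
  rw [Finset.sum_comm]
  calc ∑ c, ∑ b, J a b z * (J b c z * v c) = ∑ c, (∑ b, J a b z * J b c z) * v c := by
        refine Finset.sum_congr rfl fun c _ => ?_
        rw [Finset.sum_mul]
        exact Finset.sum_congr rfl fun b _ => by ring
    _ = - v a := by
        rw [← hv a, ← Finset.sum_neg_distrib]
        refine Finset.sum_congr rfl fun c _ => ?_
        rw [H.sq]
        ring

theorem jv_add (v w : κ → ℝ) (z : M) (a : κ) : jv J (fun b => v b + w b) z a =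
    jv J v z a + jv J w z a := by
  unfold jv
  simp only [mul_add, Finset.sum_add_distrib]

theorem jv_smul (c : ℝ) (v : κ → ℝ) (z : M) (a : κ) : jv J (fun b => c * v b) z a =
    c * jv J v z a := by
  unfold jv
  rw [Finset.mul_sum]
  exact Finset.sum_congr rfl fun b _ => by ring

theorem p_jv (H : CS D J) (v : κ → ℝ) (z : M) (a : κ) :
    ∑ b, D.p a b z * jv J v z b = jv J v z a := by
  unfold jv
  simp only [Finset.mul_sum]
  rw [Finset.sum_comm]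
  refine Finset.sum_congr rfl fun c _ => ?_
  rw [← H.pJ a c z, Finset.sum_mul]
  exact Finset.sum_congr rfl fun b _ => by ring

theorem inner_jv (H : CS D J) (v w : κ → ℝ) (z : M) :
    ∑ a, v a * jv J w z a = - ∑ a, jv J v z a * w a := by
  unfold jv
  simp only [Finset.mul_sum, Finset.sum_mul]
  rw [Finset.sum_comm, ← Finset.sum_neg_distrib]
  refine Finset.sum_congr rfl fun a _ => ?_
  rw [← Finset.sum_neg_distrib]
  refine Finset.sum_congr rfl fun b _ => ?_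
  rw [H.skew b a z]
  ring

theorem orth_jv (H : CS D J) (v : κ → ℝ) (z : M) : ∑ a, v a * jv J v z a = 0 := by
  have h1 := inner_jv H v v z
  have h2 : ∑ a, jv J v z a * v a = ∑ a, v a * jv J v z a :=
    Finset.sum_congr rfl fun a _ => mul_comm _ _
  rw [h2] at h1
  linarith

theorem norm_jv (H : CS D J) {v : κ → ℝ} {z : M} (hv : ∀ a, ∑ b, D.p a b z * v b = v a) :
    ∑ a, jv J v z a ^ 2 = ∑ a, v a ^ 2 := by
  have h1 := inner_jv H (jv J v z) v z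
  have h2 : ∑ a, jv J v z a ^ 2 = ∑ a, jv J v z a * jv J v z a :=
    Finset.sum_congr rfl fun a _ => sq _
  rw [h2, h1, ← Finset.sum_neg_distrib]
  refine Finset.sum_congr rfl fun a _ => ?_
  rw [jv_jv H hv]
  ring

theorem sec_cv (H : CS D J) (c : ℂ) {v : κ → ℝ} {z : M} (hv : ∀ a, ∑ b, D.p a b z * v b = v a)
    (a : κ) : ∑ b, D.p a b z * cv' J c v z b = cv' J c v z a := by
  unfold cv'
  have h1 : ∀ b, D.p a b z * (c.re * v b + c.im * jv J v z b) =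
      c.re * (D.p a b z * v b) + c.im * (D.p a b z * jv J v z b) := fun b => by ring
  simp only [h1, Finset.sum_add_distrib, ← Finset.mul_sum, hv, p_jv H]

theorem norm_cv (H : CS D J) (c : ℂ) {v : κ → ℝ} {z : M}
    (hv : ∀ a, ∑ b, D.p a b z * v b = v a) :
    ∑ a, cv' J c v z a ^ 2 = Complex.normSq c * ∑ a, v a ^ 2 := by
  unfold cv'
  have h1 : ∀ a, (c.re * v a + c.im * jv J v z a) ^ 2 =
      c.re ^ 2 * v a ^ 2 + 2 * c.re * c.im * (v a * jv J v z a) + c.im ^ 2 * jv J v z a ^ 2 :=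
    fun a => by ring
  simp only [h1, Finset.sum_add_distrib, ← Finset.mul_sum]
  rw [orth_jv H, norm_jv H hv, Complex.normSq_apply]
  ring

theorem cv_cv (H : CS D J) (c c' : ℂ) {v : κ → ℝ} {z : M}
    (hv : ∀ a, ∑ b, D.p a b z * v b = v a) (a : κ) :
    cv' J c (cv' J c' v z) z a = cv' J (c * c') v z a := by
  have h1 : jv J (cv' J c' v z) z a = c'.re * jv J v z a - c'.im * v a := by
    have h2 : jv J (cv' J c' v z) z a = jv J (fun b => c'.re * v b) z a +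
        jv J (fun b => c'.im * jv J v z b) z a := jv_add _ _ z a
    rw [h2, jv_smul, jv_smul, jv_jv H hv]
    ring
  unfold cv' at h1 ⊢
  rw [h1, Complex.mul_re, Complex.mul_im]
  ring

theorem jv_cv (H : CS D J) (c : ℂ) {v : κ → ℝ} {z : M}
    (hv : ∀ a, ∑ b, D.p a b z * v b = v a) (a : κ) :
    jv J (cv' J c v z) z a = cv' J c (jv J v z) z a := by
  have h2 : jv J (cv' J c v z) z a = jv J (fun b => c.re * v b) z a +
      jv J (fun b => c.im * jv J v z b) z a := jv_add _ _ z a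
  rw [h2, jv_smul, jv_smul]
  rfl

/-! ### operators on `L²(E)` -/

/-- `J` on `L²(E)`. -/
def JH (H : CS D J) : D.toAD.HE →L[ℝ] D.toAD.HE :=
  ((matF fun a b => bm_smooth (H.sm a b)).comp D.toAD.HE.subtypeL).codRestrict D.toAD.HE
    fun f => P_matF D.toAD (fun a b => bm_smooth (H.sm a b)) H.pJ _

theorem coe_JH (H : CS D J) (f : D.toAD.HE) :
    ∀ᵐ z ∂μM, ∀ a, rf (JH H f) a z = jv J (fun b => rf f b z) z a := by
  filter_upwards [coe_matF (fun a b => bm_smooth (H.sm a b)) (f : HH μM κ)] with z e1 a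
  refine (e1 a).trans ?_
  exact Finset.sum_congr rfl fun b _ => by rw [smul_eq_mul, mul_comm]; rfl

/-- multiplication by a bounded measurable function. -/
def NH {g : M → ℝ} (hg : BM μM g) : D.toAD.HE →L[ℝ] D.toAD.HE :=
  ((cw κ (mulF hg)).comp D.toAD.HE.subtypeL).codRestrict D.toAD.HE fun f => by
    show D.toAD.P (cw κ (mulF hg) (f : HH μM κ)) = cw κ (mulF hg) (f : HH μM κ)
    have h1 : ∀ᵐ z ∂μM, ∀ a, (cw κ (mulF hg) (f : HH μM κ) a : M → ℝ) z = g z * rf f a z := by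
      rw [ae_all_iff]
      intro a
      rw [cw_apply]
      filter_upwards [coe_mulF hg ((f : HH μM κ) a)] with z hz
      rw [hz, smul_eq_mul, mul_comm]
      rfl
    ext a
    filter_upwards [D.toAD.coe_P (cw κ (mulF hg) (f : HH μM κ)), h1, sec_rf f] with z e1 e2 e3
    rw [e1 a, e2 a]
    simp only [e2]
    rw [← e3 a, Finset.mul_sum]
    exact Finset.sum_congr rfl fun b _ => by
      show D.p a b z * (g z * rf f b z) = _
      ring

theorem coe_NH {g : M → ℝ} (hg : BM μM g) (f : D.toAD.HE) :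
    ∀ᵐ z ∂μM, ∀ a, rf (NH hg f) a z = g z * rf f a z := by
  rw [ae_all_iff]
  intro a
  have h0 : rf (NH hg f) a = (cw κ (mulF hg) (f : HH μM κ) a : M → ℝ) := rfl
  rw [h0, cw_apply]
  filter_upwards [coe_mulF hg ((f : HH μM κ) a)] with z hz
  rw [hz, smul_eq_mul, mul_comm]
  rfl

theorem norm_le_of_ae {f g : D.toAD.HE} {C : ℝ} (hC : 0 ≤ C)
    (h : ∀ᵐ z ∂μM, ∑ a, rf f a z ^ 2 ≤ C ^ 2 * ∑ a, rf g a z ^ 2) : ‖f‖ ≤ C * ‖g‖ := by
  refine (pow_le_pow_iff_left₀ (norm_nonneg _) (by positivity) two_ne_zero).1 ?_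
  rw [mul_pow, norm_sq_HE, norm_sq_HE, ← integral_const_mul]
  exact integral_mono_ae (Swx_333.int_sq (f : HH μM κ))
    ((Swx_333.int_sq (g : HH μM κ)).const_mul _) h

theorem norm_eq_of_ae {f g : D.toAD.HE}
    (h : ∀ᵐ z ∂μM, ∑ a, rf f a z ^ 2 = ∑ a, rf g a z ^ 2) : ‖f‖ = ‖g‖ := by
  have h1 : ‖f‖ ^ 2 = ‖g‖ ^ 2 := by
    rw [norm_sq_HE, norm_sq_HE]
    exact integral_congr_ae h
  exact (pow_left_inj₀ (norm_nonneg _) (norm_nonneg _) two_ne_zero).1 h1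

theorem norm_NH_le {g : M → ℝ} (hg : BM μM g) {C : ℝ} (hC : 0 ≤ C) (h : ∀ z, |g z| ≤ C)
    (f : D.toAD.HE) : ‖NH hg f‖ ≤ C * ‖f‖ := by
  refine norm_le_of_ae hC ?_
  filter_upwards [coe_NH hg f] with z e1
  rw [Finset.mul_sum]
  refine Finset.sum_le_sum fun a _ => ?_
  rw [e1 a, mul_pow, ← sq_abs (g z)]
  exact mul_le_mul_of_nonneg_right (pow_le_pow_left₀ (abs_nonneg _) (h z) 2) (sq_nonneg _)

theorem norm_JH (H : CS D J) (f : D.toAD.HE) : ‖JH H f‖ = ‖f‖ := by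
  refine norm_eq_of_ae ?_
  filter_upwards [coe_JH H f, sec_rf f] with z e1 e2
  simp only [e1]
  exact norm_jv H e2

theorem JH_JH (H : CS D J) (f : D.toAD.HE) : JH H (JH H f) = -f := by
  refine HE_ext ?_
  filter_upwards [coe_JH H (JH H f), coe_JH H f, sec_rf f, rf_neg f] with z e1 e2 e3 e4 a
  rw [e1 a, e4 a]
  simp only [e2]
  exact jv_jv H e3 a

theorem JH_NH (H : CS D J) {g : M → ℝ} (hg : BM μM g) (f : D.toAD.HE) :
    NH hg (JH H f) = JH H (NH hg f) := by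
  refine HE_ext ?_
  filter_upwards [coe_NH hg (JH H f), coe_JH H f, coe_JH H (NH hg f), coe_NH hg f]
    with z e1 e2 e3 e4 a
  rw [e1 a, e2 a, e3 a]
  simp only [e4]
  rw [jv_smul]

/-! ### operators on `W^{1,2}(E)` -/

/-- `J` on `W^{1,2}(E)`. -/
def JW (H : CS D J) : D.toAD.WE →L[ℝ] D.toAD.WE := mulS D D H.sm H.pJ

theorem coe_JW (H : CS D J) (u : D.toAD.WE) :
    ∀ᵐ z ∂μM, ∀ a, rp (JW H u) a z = jv J (fun b => rp u b z) z a := coe_mulS D D H.sm H.pJ u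

theorem jj_JW (H : CS D J) (u : D.toAD.WE) : D.toAD.jj (JW H u) = JH H (D.toAD.jj u) := by
  refine HE_ext ?_
  filter_upwards [coe_JW H u, coe_JH H (D.toAD.jj u)] with z e1 e2 a
  rw [e2 a]
  exact e1 a

theorem JW_JW (H : CS D J) (u : D.toAD.WE) : JW H (JW H u) = -u := by
  apply D.toAD.jj_injective
  rw [jj_JW, jj_JW, JH_JH, map_neg]

/-- multiplication by a smooth complex function (a matrix `α p + β J`). -/
def MW (H : CS D J) {α β : M → ℝ} (hα : ContMDiff (𝓡 4) 𝓘(ℝ, ℝ) ∞ α)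
    (hβ : ContMDiff (𝓡 4) 𝓘(ℝ, ℝ) ∞ β) : D.toAD.WE →L[ℝ] D.toAD.WE :=
  mulS D D (m := fun a b z => α z * D.p a b z + β z * J a b z)
    (fun a b => (hα.mul (D.smp a b)).add (hβ.mul (H.sm a b)))
    (fun a b z => by
      have h1 : ∀ c, D.p a c z * (α z * D.p c b z + β z * J c b z) =
        α z * (D.p a c z * D.p c b z) + β z * (D.p a c z * J c b z) := fun c => by ring
      simp only [h1, Finset.sum_add_distrib, ← Finset.mul_sum, D.idem, H.pJ])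

theorem mat_apply (H : CS D J) (α β : M → ℝ) {v : κ → ℝ} {z : M}
    (hv : ∀ a, ∑ b, D.p a b z * v b = v a) (a : κ) :
    ∑ b, (α z * D.p a b z + β z * J a b z) * v b = cv' J ⟨α z, β z⟩ v z a := by
  have h1 : ∀ b, (α z * D.p a b z + β z * J a b z) * v b =
      α z * (D.p a b z * v b) + β z * (J a b z * v b) := fun b => by ring
  simp only [h1, Finset.sum_add_distrib, ← Finset.mul_sum, hv]
  rfl

theorem coe_MW (H : CS D J) {α β : M → ℝ} (hα : ContMDiff (𝓡 4) 𝓘(ℝ, ℝ) ∞ α)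
    (hβ : ContMDiff (𝓡 4) 𝓘(ℝ, ℝ) ∞ β) (u : D.toAD.WE) :
    ∀ᵐ z ∂μM, ∀ a, rp (MW H hα hβ u) a z = cv' J ⟨α z, β z⟩ (fun b => rp u b z) z a := by
  filter_upwards [coe_mulS D D (m := fun a b z => α z * D.p a b z + β z * J a b z)
    (fun a b => (hα.mul (D.smp a b)).add (hβ.mul (H.sm a b)))
    (fun a b z => by
      have h1 : ∀ c, D.p a c z * (α z * D.p c b z + β z * J c b z) =
        α z * (D.p a c z * D.p c b z) + β z * (D.p a c z * J c b z) := fun c => by ring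
      simp only [h1, Finset.sum_add_distrib, ← Finset.mul_sum, D.idem, H.pJ]) u, sec_rp u]
    with z e1 e2 a
  refine (e1 a).trans ?_
  exact mat_apply H α β e2 a

/-- the smooth section `c u`, `c = α + i β`. -/
def mS (H : CS D J) {α β : M → ℝ} (hα : ContMDiff (𝓡 4) 𝓘(ℝ, ℝ) ∞ α)
    (hβ : ContMDiff (𝓡 4) 𝓘(ℝ, ℝ) ∞ β) (u : SmS D) : SmS D :=
  ⟨fun a z => cv' J ⟨α z, β z⟩ (fun b => u.1 b z) z a,
    fun a => (hα.mul (u.2.1 a)).add (hβ.mul (contMDiff_finsetSum fun b _ =>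
      (H.sm a b).mul (u.2.1 b))), fun a z => sec_cv H _ (fun a => u.2.2 a z) a⟩

theorem MW_cW (H : CS D J) {α β : M → ℝ} (hα : ContMDiff (𝓡 4) 𝓘(ℝ, ℝ) ∞ α)
    (hβ : ContMDiff (𝓡 4) 𝓘(ℝ, ℝ) ∞ β) (u : SmS D) :
    MW H hα hβ (cW D u) = cW D (mS H hα hβ u) := by
  refine WE_ext ?_
  filter_upwards [coe_MW H hα hβ (cW D u), rp_cW u, rp_cW (mS H hα hβ u)] with z e1 e2 e3 a
  rw [e1 a, e3 a]
  simp only [e2]
  rfl

/-- the smooth section `i u`. -/
def jS (H : CS D J) (u : SmS D) : SmS D :=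
  ⟨fun a z => jv J (fun b => u.1 b z) z a, fun a => contMDiff_finsetSum fun b _ =>
      (H.sm a b).mul (u.2.1 b), fun a z => p_jv H _ z a⟩

theorem JW_cW (H : CS D J) (u : SmS D) : JW H (cW D u) = cW D (jS H u) := by
  refine WE_ext ?_
  filter_upwards [coe_JW H (cW D u), rp_cW u, rp_cW (jS H u)] with z e1 e2 e3 a
  rw [e1 a, e3 a]
  simp only [e2]
  rfl

theorem JH_cH (H : CS D J) (u : SmS D) : JH H (cH D u) = cH D (jS H u) := by
  refine HE_ext ?_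
  filter_upwards [coe_JH H (cH D u), rf_cH u, rf_cH (jS H u)] with z e1 e2 e3 a
  rw [e1 a, e3 a]
  simp only [e2]
  rfl

/-- multiplication by a bounded measurable complex function on `L²(E)`. -/
def MH (H : CS D J) {α β : M → ℝ} (hα : BM μM α) (hβ : BM μM β) : D.toAD.HE →L[ℝ] D.toAD.HE :=
  NH hα + (NH hβ).comp (JH H)

theorem coe_MH (H : CS D J) {α β : M → ℝ} (hα : BM μM α) (hβ : BM μM β) (f : D.toAD.HE) :
    ∀ᵐ z ∂μM, ∀ a, rf (MH H hα hβ f) a z = cv' J ⟨α z, β z⟩ (fun b => rf f b z) z a := by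
  filter_upwards [rf_add (NH hα f) (NH hβ (JH H f)), coe_NH hα f, coe_NH hβ (JH H f), coe_JH H f]
    with z e1 e2 e3 e4 a
  refine (e1 a).trans ?_
  rw [e2 a, e3 a, e4 a]
  rfl

theorem MH_comp (H : CS D J) {α β α' β' α'' β'' : M → ℝ} (hα : BM μM α) (hβ : BM μM β)
    (hα' : BM μM α') (hβ' : BM μM β') (hα'' : BM μM α'') (hβ'' : BM μM β'')
    (h : ∀ z, (⟨α z, β z⟩ : ℂ) * ⟨α' z, β' z⟩ = ⟨α'' z, β'' z⟩) (f : D.toAD.HE) :
    MH H hα hβ (MH H hα' hβ' f) = MH H hα'' hβ'' f := by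
  refine HE_ext ?_
  filter_upwards [coe_MH H hα hβ (MH H hα' hβ' f), coe_MH H hα' hβ' f, coe_MH H hα'' hβ'' f,
    sec_rf f] with z e1 e2 e3 e4 a
  rw [e1 a, e3 a]
  simp only [e2]
  rw [cv_cv H _ _ e4, h]

theorem MW_comp (H : CS D J) {α β α' β' α'' β'' : M → ℝ}
    (hα : ContMDiff (𝓡 4) 𝓘(ℝ, ℝ) ∞ α) (hβ : ContMDiff (𝓡 4) 𝓘(ℝ, ℝ) ∞ β)
    (hα' : ContMDiff (𝓡 4) 𝓘(ℝ, ℝ) ∞ α') (hβ' : ContMDiff (𝓡 4) 𝓘(ℝ, ℝ) ∞ β')
    (hα'' : ContMDiff (𝓡 4) 𝓘(ℝ, ℝ) ∞ α'') (hβ'' : ContMDiff (𝓡 4) 𝓘(ℝ, ℝ) ∞ β'')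
    (h : ∀ z, (⟨α z, β z⟩ : ℂ) * ⟨α' z, β' z⟩ = ⟨α'' z, β'' z⟩) (u : D.toAD.WE) :
    MW H hα hβ (MW H hα' hβ' u) = MW H hα'' hβ'' u := by
  refine WE_ext ?_
  filter_upwards [coe_MW H hα hβ (MW H hα' hβ' u), coe_MW H hα' hβ' u, coe_MW H hα'' hβ'' u,
    sec_rp u] with z e1 e2 e3 e4 a
  rw [e1 a, e3 a]
  simp only [e2]
  rw [cv_cv H _ _ e4, h]

theorem MH_one (H : CS D J) {α β : M → ℝ} (hα : BM μM α) (hβ : BM μM β)
    (h1 : ∀ z, α z = 1) (h2 : ∀ z, β z = 0) (f : D.toAD.HE) : MH H hα hβ f = f := by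
  refine HE_ext ?_
  filter_upwards [coe_MH H hα hβ f] with z e1 a
  rw [e1 a, h1, h2]
  simp [cv']

theorem MW_one (H : CS D J) {α β : M → ℝ} (hα : ContMDiff (𝓡 4) 𝓘(ℝ, ℝ) ∞ α)
    (hβ : ContMDiff (𝓡 4) 𝓘(ℝ, ℝ) ∞ β)
    (h1 : ∀ z, α z = 1) (h2 : ∀ z, β z = 0) (u : D.toAD.WE) : MW H hα hβ u = u := by
  refine WE_ext ?_
  filter_upwards [coe_MW H hα hβ u] with z e1 a
  rw [e1 a, h1, h2]
  simp [cv']

theorem norm_MH (H : CS D J) {α β : M → ℝ} (hα : BM μM α) (hβ : BM μM β)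
    (h : ∀ z, α z ^ 2 + β z ^ 2 = 1) (f : D.toAD.HE) : ‖MH H hα hβ f‖ = ‖f‖ := by
  refine norm_eq_of_ae ?_
  filter_upwards [coe_MH H hα hβ f, sec_rf f] with z e1 e2
  simp only [e1]
  rw [norm_cv H _ e2, Complex.normSq_apply]
  simp only
  rw [← sq, ← sq, h z, one_mul]

theorem MH_JH (H : CS D J) {α β : M → ℝ} (hα : BM μM α) (hβ : BM μM β) (f : D.toAD.HE) :
    MH H hα hβ (JH H f) = JH H (MH H hα hβ f) := by
  show NH hα (JH H f) + NH hβ (JH H (JH H f)) = JH H (NH hα f + NH hβ (JH H f))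
  rw [map_add, JH_NH, JH_NH]

theorem MW_JW (H : CS D J) {α β : M → ℝ} (hα : ContMDiff (𝓡 4) 𝓘(ℝ, ℝ) ∞ α)
    (hβ : ContMDiff (𝓡 4) 𝓘(ℝ, ℝ) ∞ β) (u : D.toAD.WE) :
    MW H hα hβ (JW H u) = JW H (MW H hα hβ u) := by
  refine WE_ext ?_
  filter_upwards [coe_MW H hα hβ (JW H u), coe_JW H u, coe_JW H (MW H hα hβ u), coe_MW H hα hβ u,
    sec_rp u] with z e1 e2 e3 e4 e5 a
  rw [e1 a, e3 a]
  simp only [e2, e4]
  rw [jv_cv H _ e5]

/-- the inclusion `W^{1,2} → L²` intertwines the multiplications. -/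
theorem jj_MW (H : CS D J) {α β : M → ℝ} (hα : ContMDiff (𝓡 4) 𝓘(ℝ, ℝ) ∞ α)
    (hβ : ContMDiff (𝓡 4) 𝓘(ℝ, ℝ) ∞ β) (u : D.toAD.WE) :
    D.toAD.jj (MW H hα hβ u) = MH H (bm_smooth hα) (bm_smooth hβ) (D.toAD.jj u) := by
  refine HE_ext ?_
  filter_upwards [coe_MW H hα hβ u, coe_MH H (bm_smooth hα) (bm_smooth hβ) (D.toAD.jj u)]
    with z e1 e2 a
  rw [e2 a]
  exact e1 a

end gen

end

end Crest.Agent.R235.SWPf_435
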