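import Mathlib

/-!
Row 235 (S0364), PACKAGE SW, task 445 (helper463), part A: linear algebra of the eigenline
`E = {s : p s = s, R s = -s}`, `R = ∑ n_k ρ_k` (real dimension two).
-/

set_option autoImplicit false
set_option linter.unusedSectionVars false
set_option linter.unusedVariables false

open Matrix Finset

namespace Crest.Agent.R235.SWZerA_463

noncomputable section

variable {κ : Type} [Fintype κ] [DecidableEq κ]

/-- pointwise data: projection `p` of rank 4, complex structure `J`, Clifford matrices `ρ_k`. -/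
structure Pt (p J : Matrix κ κ ℝ) (ρ : Fin 3 → Matrix κ κ ℝ) : Prop where
  symp : pᵀ = p
  idem : p * p = p
  tr : p.trace = 4
  skew : Jᵀ = - J
  pJ : p * J = J
  JJ : J * J = - p
  symρ : ∀ k, (ρ k)ᵀ = ρ k
  pρ : ∀ k, p * ρ k = ρ k
  Jρ : ∀ k, J * ρ k = ρ k * J
  anti : ∀ j k, ρ j * ρ k + ρ k * ρ j = if j = k then (2 : ℝ) • p else 0

/-- `R = ∑ n_k ρ_k`. -/
def RR (ρ : Fin 3 → Matrix κ κ ℝ) (n : Fin 3 → ℝ) : Matrix κ κ ℝ := ∑ k, n k • ρ k

/-- the projection on `E`. -/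
def Pi0 (p : Matrix κ κ ℝ) (ρ : Fin 3 → Matrix κ κ ℝ) (n : Fin 3 → ℝ) : Matrix κ κ ℝ :=
  (1 / 2 : ℝ) • (p - RR ρ n)

namespace Pt

variable {p J : Matrix κ κ ℝ} {ρ : Fin 3 → Matrix κ κ ℝ} (h : Pt p J ρ) {n : Fin 3 → ℝ}
include h

theorem ρp (k : Fin 3) : ρ k * p = ρ k := by
  have := congrArg Matrix.transpose (h.pρ k)
  rwa [Matrix.transpose_mul, h.symρ, h.symp] at this

theorem Jp : J * p = J := by
  have := congrArg Matrix.transpose h.pJ
  rw [Matrix.transpose_mul, h.skew, h.symp, Matrix.neg_mul] at this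
  exact neg_injective this

theorem sq (k : Fin 3) : ρ k * ρ k = p := by
  have := h.anti k k
  rw [if_pos rfl, ← two_smul ℝ (ρ k * ρ k)] at this
  exact smul_right_injective _ (two_ne_zero (α := ℝ)) this

theorem trρ (k : Fin 3) : (ρ k).trace = 0 := by
  obtain ⟨j, hj⟩ : ∃ j : Fin 3, j ≠ k := ⟨k + 1, by fin_cases k <;> decide⟩
  have h1 : ρ j * ρ k = - (ρ k * ρ j) := by
    have := h.anti j k
    rw [if_neg hj] at this
    exact eq_neg_of_add_eq_zero_left this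
  have h2 : (ρ k).trace = (ρ j * (ρ j * ρ k)).trace := by
    rw [← Matrix.mul_assoc, h.sq, h.pρ]
  have h3 : (ρ j * (ρ j * ρ k)).trace = - (ρ k).trace := by
    rw [h1, Matrix.mul_neg, Matrix.trace_neg, ← Matrix.mul_assoc, Matrix.trace_mul_comm,
      ← Matrix.mul_assoc, h.sq, h.pρ]
  linarith

theorem trR : (RR ρ n).trace = 0 := by
  unfold RR
  rw [Matrix.trace_sum]
  exact Finset.sum_eq_zero fun k _ => by rw [Matrix.trace_smul, h.trρ, smul_zero]

theorem pR : p * RR ρ n = RR ρ n := by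
  unfold RR
  rw [Matrix.mul_sum]
  exact Finset.sum_congr rfl fun k _ => by rw [Matrix.mul_smul, h.pρ]

theorem Rp : RR ρ n * p = RR ρ n := by
  unfold RR
  rw [Matrix.sum_mul]
  exact Finset.sum_congr rfl fun k _ => by rw [Matrix.smul_mul, h.ρp]

theorem JR : J * RR ρ n = RR ρ n * J := by
  unfold RR
  rw [Matrix.mul_sum, Matrix.sum_mul]
  exact Finset.sum_congr rfl fun k _ => by rw [Matrix.mul_smul, Matrix.smul_mul, h.Jρ]

theorem symR : (RR ρ n)ᵀ = RR ρ n := by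
  unfold RR
  rw [Matrix.transpose_sum]
  exact Finset.sum_congr rfl fun k _ => by rw [Matrix.transpose_smul, h.symρ]

/-- `ρ_k R + R ρ_k = 2 n_k p`. -/
theorem antiR (k : Fin 3) : ρ k * RR ρ n + RR ρ n * ρ k = (2 * n k) • p := by
  unfold RR
  rw [Matrix.mul_sum, Matrix.sum_mul, ← Finset.sum_add_distrib]
  rw [Finset.sum_eq_single k]
  · rw [Matrix.mul_smul, Matrix.smul_mul, ← smul_add, h.anti, if_pos rfl, smul_smul, mul_comm]
  · intro j _ hj
    rw [Matrix.mul_smul, Matrix.smul_mul, ← smul_add, h.anti, if_neg (Ne.symm hj), smul_zero]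
  · intro hk; exact absurd (Finset.mem_univ k) hk

theorem RR_sq (hn : ∑ k, n k ^ 2 = 1) : RR ρ n * RR ρ n = p := by
  have h1 : RR ρ n * RR ρ n + RR ρ n * RR ρ n = (2 : ℝ) • p := by
    have h2 : ∀ k, n k • (ρ k * RR ρ n + RR ρ n * ρ k) = (2 * n k ^ 2) • p := by
      intro k
      rw [h.antiR, smul_smul]
      congr 1
      ring
    have h3 : ∑ k, n k • (ρ k * RR ρ n + RR ρ n * ρ k) = RR ρ n * RR ρ n + RR ρ n * RR ρ n := by
      simp only [smul_add, Finset.sum_add_distrib]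
      congr 1
      · conv_rhs => rw [RR, Matrix.sum_mul]
        exact Finset.sum_congr rfl fun k _ => by rw [Matrix.smul_mul]; rfl
      · conv_rhs => rw [RR, Matrix.mul_sum]
        exact Finset.sum_congr rfl fun k _ => by rw [Matrix.mul_smul]; rfl
    rw [← h3, Finset.sum_congr rfl fun k _ => h2 k, ← Finset.sum_smul, ← Finset.mul_sum, hn,
      mul_one]
  rw [← two_smul ℝ (RR ρ n * RR ρ n)] at h1
  exact smul_right_injective _ (two_ne_zero (α := ℝ)) h1

theorem Pi0_idem (hn : ∑ k, n k ^ 2 = 1) : Pi0 p ρ n * Pi0 p ρ n = Pi0 p ρ n := by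
  unfold Pi0
  rw [Matrix.smul_mul, Matrix.mul_smul, Matrix.sub_mul, Matrix.mul_sub, Matrix.mul_sub, h.idem,
    h.pR, h.Rp, h.RR_sq hn, smul_smul]
  have : p - RR ρ n - (RR ρ n - p) = (2 : ℝ) • (p - RR ρ n) := by
    rw [two_smul]; abel
  rw [this, smul_smul]
  norm_num

theorem Pi0_tr : (Pi0 p ρ n).trace = 2 := by
  unfold Pi0
  rw [Matrix.trace_smul, Matrix.trace_sub, h.tr, h.trR]
  norm_num

theorem Pi0_J : Pi0 p ρ n * J = J * Pi0 p ρ n := by
  unfold Pi0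
  rw [Matrix.smul_mul, Matrix.mul_smul, Matrix.sub_mul, Matrix.mul_sub, h.pJ, h.Jp, h.JR]

theorem mem_iff (hn : ∑ k, n k ^ 2 = 1) (v : κ → ℝ) :
    Pi0 p ρ n *ᵥ v = v ↔ p *ᵥ v = v ∧ RR ρ n *ᵥ v = - v := by
  constructor
  · intro hv
    have h1 : p *ᵥ v = v := by
      rw [← hv, Matrix.mulVec_mulVec]
      congr 1
      unfold Pi0
      rw [Matrix.mul_smul, Matrix.mul_sub, h.idem, h.pR]
    refine ⟨h1, ?_⟩
    have h2 : Pi0 p ρ n *ᵥ v = (1 / 2 : ℝ) • (p *ᵥ v - RR ρ n *ᵥ v) := by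
      unfold Pi0
      rw [Matrix.smul_mulVec, Matrix.sub_mulVec]
    rw [hv, h1] at h2
    have h3 : (2 : ℝ) • v = v - RR ρ n *ᵥ v := by
      conv_lhs => rw [h2]
      rw [smul_smul]
      norm_num
    rw [two_smul] at h3
    have h4 : RR ρ n *ᵥ v = v - (v + v) := by rw [h3]; abel
    rw [h4]; abel
  · rintro ⟨h1, h2⟩
    unfold Pi0
    rw [Matrix.smul_mulVec, Matrix.sub_mulVec, h1, h2, sub_neg_eq_add, ← two_smul ℝ v, smul_smul]
    norm_num

/-- the dimension of `E`. -/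
theorem finrank_range (hn : ∑ k, n k ^ 2 = 1) :
    Module.finrank ℝ (LinearMap.range (Matrix.toLin' (Pi0 p ρ n))) = 2 := by
  have hi : LinearMap.IsProj (LinearMap.range (Matrix.toLin' (Pi0 p ρ n)))
      (Matrix.toLin' (Pi0 p ρ n)) := by
    constructor
    · intro x; exact LinearMap.mem_range_self _ x
    · rintro x ⟨y, rfl⟩
      rw [← LinearMap.comp_apply, ← Matrix.toLin'_mul, h.Pi0_idem hn]
  have h1 := hi.trace
  rw [Matrix.trace_toLin'_eq, h.Pi0_tr] at h1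
  exact_mod_cast h1.symm

/-- **E2**: `E` is spanned by `e` and `J e`. -/
theorem E2 (hn : ∑ k, n k ^ 2 = 1) {e s : κ → ℝ} (he0 : e ⬝ᵥ e = 1)
    (he : p *ᵥ e = e) (he' : RR ρ n *ᵥ e = - e) (hs : p *ᵥ s = s) (hs' : RR ρ n *ᵥ s = - s) :
    s = (s ⬝ᵥ e) • e + (s ⬝ᵥ (J *ᵥ e)) • (J *ᵥ e) := by
  set E := LinearMap.range (Matrix.toLin' (Pi0 p ρ n)) with hE
  have hmem : ∀ v, p *ᵥ v = v → RR ρ n *ᵥ v = - v → v ∈ E := by
    intro v h1 h2
    exact ⟨v, by rw [Matrix.toLin'_apply]; exact (h.mem_iff hn v).2 ⟨h1, h2⟩⟩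
  have hJe : p *ᵥ (J *ᵥ e) = J *ᵥ e := by rw [Matrix.mulVec_mulVec, h.pJ]
  have hJe' : RR ρ n *ᵥ (J *ᵥ e) = - (J *ᵥ e) := by
    rw [Matrix.mulVec_mulVec, ← h.JR, ← Matrix.mulVec_mulVec, he', Matrix.mulVec_neg]
  have hJJ : J *ᵥ (J *ᵥ e) = - e := by
    rw [Matrix.mulVec_mulVec, h.JJ, Matrix.neg_mulVec, he]
  have hJd : ∀ v w : κ → ℝ, v ⬝ᵥ (J *ᵥ w) = - ((J *ᵥ v) ⬝ᵥ w) := by
    intro v w
    rw [Matrix.dotProduct_mulVec, ← Matrix.mulVec_transpose, h.skew, Matrix.neg_mulVec,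
      neg_dotProduct]
  have h01 : e ⬝ᵥ (J *ᵥ e) = 0 := by
    have h1 := hJd e e
    rw [dotProduct_comm (J *ᵥ e)] at h1
    linarith
  have h11 : (J *ᵥ e) ⬝ᵥ (J *ᵥ e) = 1 := by
    rw [hJd, hJJ, neg_dotProduct, neg_neg, he0]
  set α := s ⬝ᵥ e with hα
  set β := s ⬝ᵥ (J *ᵥ e) with hβ
  set r := s - α • e - β • (J *ᵥ e) with hr
  have hre : r ⬝ᵥ e = 0 := by
    rw [hr, sub_dotProduct, sub_dotProduct, smul_dotProduct, smul_dotProduct, he0,
      dotProduct_comm (J *ᵥ e), h01]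
    simp [hα]
  have hrJ : r ⬝ᵥ (J *ᵥ e) = 0 := by
    rw [hr, sub_dotProduct, sub_dotProduct, smul_dotProduct, smul_dotProduct, h01, h11]
    simp [hβ]
  have hrE : r ∈ E := by
    refine Submodule.sub_mem _ (Submodule.sub_mem _ (hmem s hs hs') ?_) ?_
    · exact Submodule.smul_mem _ _ (hmem e he he')
    · exact Submodule.smul_mem _ _ (hmem _ hJe hJe')
  have hr0 : r = 0 := by
    by_contra hne
    let L0 : (Fin 3 → ℝ) →ₗ[ℝ] (κ → ℝ) := Fintype.linearCombination ℝ ![e, J *ᵥ e, r]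
    have hL0 : ∀ c, L0 c = c 0 • e + c 1 • (J *ᵥ e) + c 2 • r := by
      intro c
      simp [L0, Fintype.linearCombination_apply, Fin.sum_univ_three]
    let L : (Fin 3 → ℝ) →ₗ[ℝ] E := L0.codRestrict E (fun c => by
      rw [hL0]
      refine Submodule.add_mem _ (Submodule.add_mem _ ?_ ?_) ?_
      · exact Submodule.smul_mem _ _ (hmem e he he')
      · exact Submodule.smul_mem _ _ (hmem _ hJe hJe')
      · exact Submodule.smul_mem _ _ hrE)
    have hk : LinearMap.ker L ≠ ⊥ := by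
      apply LinearMap.ker_ne_bot_of_finrank_lt
      rw [h.finrank_range hn]
      simp
    obtain ⟨c, hc, hc0⟩ := Submodule.exists_mem_ne_zero_of_ne_bot hk
    have h1 : c 0 • e + c 1 • (J *ᵥ e) + c 2 • r = 0 := by
      rw [← hL0]
      have := congrArg Subtype.val (LinearMap.mem_ker.1 hc)
      exact this
    have e0 : c 0 = 0 := by
      have := congrArg (fun v => v ⬝ᵥ e) h1
      simp only [add_dotProduct, smul_dotProduct, he0, hre, dotProduct_comm (J *ᵥ e), h01,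
        zero_dotProduct] at this
      simpa using this
    have e1 : c 1 = 0 := by
      have := congrArg (fun v => v ⬝ᵥ (J *ᵥ e)) h1
      simp only [add_dotProduct, smul_dotProduct, h01, hrJ, h11, zero_dotProduct] at this
      simpa using this
    rw [e0, e1, zero_smul, zero_smul, zero_add, zero_add] at h1
    rcases smul_eq_zero.1 h1 with h2 | h2
    · apply hc0
      funext i
      fin_cases i
      · exact e0
      · exact e1
      · exact h2
    · exact hne h2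
  have : s = r + α • e + β • (J *ᵥ e) := by rw [hr]; abel
  rw [hr0, zero_add] at this
  exact this

/-- `⟨ρ_k s, s⟩ = - n_k |s|²` on `E`. -/
theorem rho_E {s : κ → ℝ} (hs : p *ᵥ s = s) (hs' : RR ρ n *ᵥ s = - s) (k : Fin 3) :
    s ⬝ᵥ (ρ k *ᵥ s) = - n k * (s ⬝ᵥ s) := by
  have h1 := congrArg (fun A : Matrix κ κ ℝ => s ⬝ᵥ (A *ᵥ s)) (h.antiR (n := n) k)
  simp only [Matrix.add_mulVec, dotProduct_add, ← Matrix.mulVec_mulVec, hs', Matrix.smul_mulVec,
    hs, dotProduct_smul, Matrix.mulVec_neg, dotProduct_neg, smul_eq_mul] at h1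
  have h2 : s ⬝ᵥ (RR ρ n *ᵥ (ρ k *ᵥ s)) = - (s ⬝ᵥ (ρ k *ᵥ s)) := by
    rw [Matrix.dotProduct_mulVec, ← Matrix.mulVec_transpose, h.symR, hs', neg_dotProduct]
  rw [h2] at h1
  linarith

end Pt

end

end Crest.Agent.R235.SWZerA_463
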