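import Crest.Agent.R235.SWJDefs_53
import Crest.Agent.R235.SWTd_451
import Crest.Agent.R235.SWZerA_463

/-!
Row 235 (S0364), PACKAGE SW, task 445 (helper463), part B: pointwise algebra of the eigenline `E`
for `Sym S cc`, the Leibniz rule of `∇^E` for `f U + g i U`, circle valued functions (`Cm`).
-/

set_option autoImplicit false
set_option maxSynthPendingDepth 3
set_option linter.unusedSectionVars false
set_option linter.unusedVariables false

open scoped ContDiff ENNReal NNReal Topology Manifold Bundle RealInnerProductSpace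
open MeasureTheory Set Filter Metric Bundle

universe v

namespace Crest.Agent.R235.SWZerB_463

open Crest.Agent.R249.Tv57 Crest.Agent.R247.Ms322 Crest.Agent.R247.Dir593
open Crest.Agent.R247.Frd657
open Crest.Agent.R235.SWDefs_53 Crest.Agent.R235.SWSym_451 Crest.Agent.R235.SWTd_451
open Crest.Agent.R235.SWZerA_463

noncomputable section

local notation "𝔼4" => EuclideanSpace ℝ (Fin 4)

/-! ### constants -/

section const

variable {n : ℕ} {M : Type*} [MetricSpace M] [ChartedSpace (EuclideanSpace ℝ (Fin n)) M]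
  [IsManifold (𝓡 n) ∞ M]
  [RiemannianBundle (fun p : M => TangentSpace (𝓡 n) p)]
  [IsContMDiffRiemannianBundle (𝓡 n) ∞ (EuclideanSpace ℝ (Fin n)) (fun p : M => TangentSpace (𝓡 n) p)]
  [IsRiemannianManifold (𝓡 n) M] [MeasurableSpace M] [BorelSpace M]
  [SecondCountableTopology M] [Nonempty M]

local notation "𝔼" => EuclideanSpace ℝ (Fin n)

/-- a function with vanishing gradient is locally constant. -/
theorem ev_const_of_Gr {f : M → ℝ} (hf : ∀ y, MDifferentiableAt (𝓡 n) 𝓘(ℝ, ℝ) f y)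
    (hG : ∀ y, Gr (n := n) f y = 0) (z : M) : ∀ᶠ y in 𝓝 z, f y = f z := by
  have hz := mem_chart_source 𝔼 z
  have hat := (chartAt 𝔼 z).map_source hz
  have h1 : ∀ᶠ b in 𝓝 (chartAt 𝔼 z z), b ∈ (chartAt 𝔼 z).target :=
    (chartAt 𝔼 z).open_target.mem_nhds hat
  obtain ⟨r, hr, hball⟩ := Metric.eventually_nhds_iff_ball.1 h1
  have hd : ∀ b ∈ ball (chartAt 𝔼 z z) r,
      DifferentiableAt ℝ (fun b => f ((chartAt 𝔼 z).symm b)) b := by
    intro b hb
    have h3 : MDifferentiableAt (𝓡 n) (𝓡 n) (chartAt 𝔼 z).symm b :=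
      ((contMDiffOn_chart_symm (I := 𝓡 n) (n := ∞) (x := z)).contMDiffAt
        ((chartAt 𝔼 z).open_target.mem_nhds (hball b hb))).mdifferentiableAt (by simp)
    exact ((hf _).comp b h3).differentiableAt
  have h0 : ∀ b ∈ ball (chartAt 𝔼 z z) r, fderiv ℝ (fun b => f ((chartAt 𝔼 z).symm b)) b = 0 := by
    intro b hb
    have hbt := hball b hb
    ext v
    rw [fderiv_eq_sum]
    simp only [zero_apply]
    refine Finset.sum_eq_zero fun i _ => ?_
    have h4 := inner_Ef_Gr z ((chartAt 𝔼 z).map_target hbt) i f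
    rw [hG, inner_zero_right, (chartAt 𝔼 z).right_inv hbt] at h4
    rw [← h4, mul_zero]
  have hcst : ∀ b ∈ ball (chartAt 𝔼 z z) r,
      f ((chartAt 𝔼 z).symm b) = f ((chartAt 𝔼 z).symm (chartAt 𝔼 z z)) := by
    intro b hb
    refine (convex_ball (chartAt 𝔼 z z) r).is_const_of_fderivWithin_eq_zero (𝕜 := ℝ)
      (f := fun b => f ((chartAt 𝔼 z).symm b))
      (fun w hw => (hd w hw).differentiableWithinAt) ?_ hb (mem_ball_self hr)
    intro w hw
    rw [fderivWithin_of_isOpen isOpen_ball hw]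
    exact h0 w hw
  have h5 : ∀ᶠ y in 𝓝 z, chartAt 𝔼 z y ∈ ball (chartAt 𝔼 z z) r :=
    ((chartAt 𝔼 z).continuousAt hz).eventually (ball_mem_nhds _ hr)
  filter_upwards [h5, (chartAt 𝔼 z).open_source.mem_nhds hz] with y hy hy'
  have h6 := hcst _ hy
  rwa [(chartAt 𝔼 z).left_inv hy', (chartAt 𝔼 z).left_inv hz] at h6

/-- a function with vanishing gradient on a connected manifold is constant. -/
theorem const_of_Gr [ConnectedSpace M] {f : M → ℝ}
    (hf : ∀ y, MDifferentiableAt (𝓡 n) 𝓘(ℝ, ℝ) f y)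
    (hG : ∀ y, Gr (n := n) f y = 0) (y z : M) : f y = f z := by
  have h1 : IsLocallyConstant f := (IsLocallyConstant.iff_eventually_eq f).2 fun z =>
    ev_const_of_Gr hf hG z
  exact h1.apply_eq_of_isPreconnected isPreconnected_univ (mem_univ _) (mem_univ _)

end const

section basic

variable {M : Type v} [MetricSpace M] [ChartedSpace (EuclideanSpace ℝ (Fin 4)) M]
  [IsManifold (𝓡 4) ∞ M]
  [RiemannianBundle (fun p : M => TangentSpace (𝓡 4) p)]
  [IsContMDiffRiemannianBundle (𝓡 4) ∞ (EuclideanSpace ℝ (Fin 4))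
    (fun p : M => TangentSpace (𝓡 4) p)]
  [IsRiemannianManifold (𝓡 4) M] [MeasurableSpace M] [BorelSpace M]
  [SecondCountableTopology M] [Nonempty M]

/-! ### circle valued functions -/

/-- `f : M → U(1)` smooth, `df = 2 π i V f`. -/
structure Cm (V : M → EuclideanSpace ℝ (Fin 4)) (f : M → ℂ) : Prop where
  smr : ContMDiff (𝓡 4) 𝓘(ℝ, ℝ) ∞ (fun z => (f z).re)
  smi : ContMDiff (𝓡 4) 𝓘(ℝ, ℝ) ∞ (fun z => (f z).im)
  nrm : ∀ z, (f z).re ^ 2 + (f z).im ^ 2 = 1
  dr : ∀ z, Gr (n := 4) (fun z => (f z).re) z = (-(2 * Real.pi * (f z).im)) • V z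
  di : ∀ z, Gr (n := 4) (fun z => (f z).im) z = (2 * Real.pi * (f z).re) • V z

namespace Cm

variable {V W : M → 𝔼4} {f g : M → ℂ}

theorem congr (h : Cm V f) (hV : ∀ z, W z = V z) (hf : ∀ z, g z = f z) : Cm W g := by
  have e1 : W = V := funext hV
  have e2 : g = f := funext hf
  rw [e1, e2]
  exact h

theorem one : Cm (fun _ : M => (0 : 𝔼4)) (fun _ => 1) where
  smr := contMDiff_const
  smi := contMDiff_const
  nrm := fun z => by simp
  dr := fun z => by
    rw [smul_zero]
    exact Gr_const (n := 4) _ z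
  di := fun z => by
    rw [smul_zero]
    exact Gr_const (n := 4) _ z

theorem mul (h : Cm V f) (h' : Cm W g) : Cm (fun z => V z + W z) (fun z => f z * g z) where
  smr := by
    have : (fun z => (f z * g z).re) = fun z => (f z).re * (g z).re - (f z).im * (g z).im := by
      funext z; exact Complex.mul_re _ _
    rw [this]
    exact (h.smr.mul h'.smr).sub (h.smi.mul h'.smi)
  smi := by
    have : (fun z => (f z * g z).im) = fun z => (f z).re * (g z).im + (f z).im * (g z).re := by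
      funext z; exact Complex.mul_im _ _
    rw [this]
    exact (h.smr.mul h'.smi).add (h.smi.mul h'.smr)
  nrm := fun z => by
    have e1 := h.nrm z
    have e2 := h'.nrm z
    rw [Complex.mul_re, Complex.mul_im]
    calc _ = ((f z).re ^ 2 + (f z).im ^ 2) * ((g z).re ^ 2 + (g z).im ^ 2) := by ring
      _ = 1 := by rw [e1, e2, one_mul]
  dr := fun z => by
    have : (fun z => (f z * g z).re) = fun z => (f z).re * (g z).re + (-1) * ((f z).im * (g z).im) := by
      funext z; rw [Complex.mul_re]; ring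
    rw [this, Gr_add ((md h.smr z).mul (md h'.smr z))
      (f := fun z => (f z).re * (g z).re) (g := fun z => (-1) * ((f z).im * (g z).im))
      ((md (contMDiff_const.mul (h.smi.mul h'.smi)) z)),
      Gr_mul (md h.smr z) (md h'.smr z),
      Gr_const_mul (f := fun z => (f z).im * (g z).im) _ (md (h.smi.mul h'.smi) z),
      Gr_mul (md h.smi z) (md h'.smi z), h.dr, h.di, h'.dr, h'.di, Complex.mul_im]
    module
  di := fun z => by
    have : (fun z => (f z * g z).im) = fun z => (f z).re * (g z).im + (f z).im * (g z).re := by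
      funext z; exact Complex.mul_im _ _
    rw [this, Gr_add (f := fun z => (f z).re * (g z).im) (g := fun z => (f z).im * (g z).re)
      (md (h.smr.mul h'.smi) z) (md (h.smi.mul h'.smr) z),
      Gr_mul (md h.smr z) (md h'.smi z), Gr_mul (md h.smi z) (md h'.smr z), h.dr, h.di, h'.dr,
      h'.di, Complex.mul_re]
    module

theorem inv_eq (h : Cm V f) (z : M) : (f z)⁻¹ = ⟨(f z).re, - (f z).im⟩ := by
  have h1 : Complex.normSq (f z) = 1 := by
    rw [Complex.normSq_apply, ← sq, ← sq]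
    exact h.nrm z
  rw [Complex.inv_def, h1]
  simp [Complex.ext_iff]

theorem ne_zero (h : Cm V f) (z : M) : f z ≠ 0 := by
  intro h0
  have := h.nrm z
  rw [h0] at this
  simp at this

theorem norm_eq (h : Cm V f) (z : M) : ‖f z‖ = 1 := by
  have h1 : ‖f z‖ ^ 2 = 1 := by
    rw [← Complex.normSq_eq_norm_sq, Complex.normSq_apply, ← sq, ← sq]
    exact h.nrm z
  exact (pow_eq_one_iff_of_nonneg (norm_nonneg _) two_ne_zero).1 h1

theorem inv (h : Cm V f) : Cm (fun z => - V z) (fun z => (f z)⁻¹) where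
  smr := by
    have : (fun z => ((f z)⁻¹).re) = fun z => (f z).re := by
      funext z; rw [h.inv_eq]
    rw [this]
    exact h.smr
  smi := by
    have : (fun z => ((f z)⁻¹).im) = fun z => (-1) * (f z).im := by
      funext z; rw [h.inv_eq]; ring
    rw [this]
    exact contMDiff_const.mul h.smi
  nrm := fun z => by
    rw [h.inv_eq]
    have := h.nrm z
    simpa using this
  dr := fun z => by
    have : (fun z => ((f z)⁻¹).re) = fun z => (f z).re := by
      funext z; rw [h.inv_eq]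
    rw [this, h.dr, h.inv_eq]
    simp
  di := fun z => by
    have : (fun z => ((f z)⁻¹).im) = fun z => (-1) * (f z).im := by
      funext z; rw [h.inv_eq]; ring
    rw [this, Gr_const_mul _ (md h.smi z), h.di, h.inv_eq]
    simp

theorem npow (h : Cm V f) (k : ℕ) : Cm (fun z => (k : ℝ) • V z) (fun z => f z ^ k) := by
  induction k with
  | zero => exact one.congr (fun z => by simp) (fun z => by simp)
  | succ k ih =>
    refine (ih.mul h).congr (fun z => ?_) (fun z => pow_succ _ _)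
    push_cast
    rw [add_smul, one_smul]

theorem zpow (h : Cm V f) (k : ℤ) : Cm (fun z => (k : ℝ) • V z) (fun z => f z ^ k) := by
  cases k with
  | ofNat k => exact (h.npow k).congr (fun z => by simp) (fun z => by simp)
  | negSucc k =>
    refine ((h.npow (k + 1)).inv).congr (fun z => ?_) (fun z => zpow_negSucc _ _)
    rw [Int.cast_negSucc, neg_smul]

theorem prod {ι : Type*} (s : Finset ι) {V : ι → M → 𝔼4} {f : ι → M → ℂ}
    (h : ∀ i ∈ s, Cm (V i) (f i)) : Cm (fun z => ∑ i ∈ s, V i z) (fun z => ∏ i ∈ s, f i z) := by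
  classical
  induction s using Finset.induction_on with
  | empty => exact one.congr (fun z => by simp) (fun z => by simp)
  | insert i s hi ih =>
    refine ((h i (Finset.mem_insert_self i s)).mul
      (ih fun j hj => h j (Finset.mem_insert_of_mem hj))).congr (fun z => ?_) (fun z => ?_)
    · rw [Finset.sum_insert hi]
    · rw [Finset.prod_insert hi]

theorem const [ConnectedSpace M] (h : Cm (fun _ => 0) f) (y z : M) : f y = f z := by
  apply Complex.ext
  · exact const_of_Gr (n := 4) (f := fun z => (f z).re) (fun y => md h.smr y)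
      (fun y => by rw [h.dr, smul_zero]) y z
  · exact const_of_Gr (n := 4) (f := fun z => (f z).im) (fun y => md h.smi y)
      (fun y => by rw [h.di, smul_zero]) y z

end Cm

end basic

section main

variable {M : Type v} [MetricSpace M] [CompactSpace M] [ConnectedSpace M]
  [ChartedSpace (EuclideanSpace ℝ (Fin 4)) M] [IsManifold (𝓡 4) ∞ M]
  [RiemannianBundle (fun p : M => TangentSpace (𝓡 4) p)]
  [IsContMDiffRiemannianBundle (𝓡 4) ∞ (EuclideanSpace ℝ (Fin 4))
    (fun p : M => TangentSpace (𝓡 4) p)]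
  [IsRiemannianManifold (𝓡 4) M] [MeasurableSpace M] [BorelSpace M]
  [SecondCountableTopology M] [Nonempty M]
  {κ0 κ1 κT : Type} [Fintype κ0] [Fintype κ1] [Fintype κT]
  {S : SWS M κ0 κ1 κT} {cc : κ1 → κ0 → M → EuclideanSpace ℝ (Fin 4)} {τ : TD M κT}

/-! ### matrices -/

/-- the matrices at `z`. -/
def pM (S : SWS M κ0 κ1 κT) (z : M) : Matrix κ0 κ0 ℝ := fun y y' => S.D0.p y y' z
def JM (S : SWS M κ0 κ1 κT) (z : M) : Matrix κ0 κ0 ℝ := fun y y' => S.J y y' z
def rM (S : SWS M κ0 κ1 κT) (z : M) (k : Fin 3) : Matrix κ0 κ0 ℝ := fun y y' => S.rho k y y' z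

theorem pt (H : Sym S cc) (z : M) : Pt (pM S z) (JM S z) (rM S z) where
  symp := by
    ext i j
    exact S.D0.symmp j i z
  idem := by
    ext i j
    exact S.D0.idem i j z
  tr := H.rk0 z
  skew := by
    ext i j
    exact H.skewJ j i z
  pJ := by
    ext i j
    exact H.pJ i j z
  JJ := by
    ext i j
    exact H.Jsq i j z
  symρ := fun k => by
    ext i j
    exact H.symrho k j i z
  pρ := fun k => by
    ext i j
    exact H.prho k i j z
  Jρ := fun k => by
    ext i j
    exact H.Jrho k i j z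
  anti := fun j k => by
    ext a b
    have h := H.anti j k a b z
    rw [Finset.sum_add_distrib] at h
    rw [Matrix.add_apply, Matrix.mul_apply, Matrix.mul_apply]
    refine h.trans ?_
    split_ifs
    · rfl
    · rfl

theorem RR_mulVec {κ : Type} [Fintype κ] (ρ : Fin 3 → Matrix κ κ ℝ) (n : Fin 3 → ℝ) (v : κ → ℝ)
    (y : κ) : (RR ρ n).mulVec v y = ∑ k, ∑ y', n k * ρ k y y' * v y' := by
  simp only [RR, Matrix.mulVec, dotProduct, Matrix.sum_apply, Matrix.smul_apply, smul_eq_mul,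
    Finset.sum_mul]
  rw [Finset.sum_comm]

theorem secp {s : κ0 → M → ℝ} (hs : S.D0.Sec s) (z : M) :
    (pM S z).mulVec (fun y => s y z) = fun y => s y z := by
  funext y
  exact hs y z

theorem secR {s : κ0 → M → ℝ} (hs : τ.SecE S s) (z : M) :
    (RR (rM S z) (fun k => τ.n k z)).mulVec (fun y => s y z) = - fun y => s y z := by
  funext y
  rw [RR_mulVec]
  exact hs.2 y z

theorem iu_eq (u : κ0 → M → ℝ) (z : M) :
    (JM S z).mulVec (fun y => u y z) = fun y => S.iu u y z := rfl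

theorem sec_iu (H : Sym S cc) (u : κ0 → M → ℝ) : S.D0.Sec (S.iu u) := by
  intro y z
  have h1 : (pM S z).mulVec ((JM S z).mulVec fun y => u y z) =
      (JM S z).mulVec fun y => u y z := by
    rw [Matrix.mulVec_mulVec, (pt H z).pJ]
  exact congrFun h1 y

theorem secE_iu (H : Sym S cc) {u : κ0 → M → ℝ} (hu : τ.SecE S u) : τ.SecE S (S.iu u) := by
  classical
  refine ⟨sec_iu H u, fun y z => ?_⟩
  have h1 : (RR (rM S z) (fun k => τ.n k z)).mulVec ((JM S z).mulVec fun y => u y z) =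
      - (JM S z).mulVec fun y => u y z := by
    rw [Matrix.mulVec_mulVec, ← (pt H z).JR, ← Matrix.mulVec_mulVec, secR hu, Matrix.mulVec_neg]
  have h2 := congrFun h1 y
  rw [RR_mulVec] at h2
  exact h2

theorem iu_iu (H : Sym S cc) {u : κ0 → M → ℝ} (hu : S.D0.Sec u) (y : κ0) (z : M) :
    S.iu (S.iu u) y z = - u y z := by
  have h1 : (JM S z).mulVec ((JM S z).mulVec fun y => u y z) = - fun y => u y z := by
    rw [Matrix.mulVec_mulVec, (pt H z).JJ, Matrix.neg_mulVec, secp hu]
  exact congrFun h1 y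

theorem iu_lin (S : SWS M κ0 κ1 κT) (f g : M → ℝ) (u w : κ0 → M → ℝ) (y : κ0) (z : M) :
    S.iu (fun y z => f z * u y z + g z * w y z) y z = f z * S.iu u y z + g z * S.iu w y z := by
  unfold SWS.iu
  rw [Finset.mul_sum, Finset.mul_sum, ← Finset.sum_add_distrib]
  exact Finset.sum_congr rfl fun y' _ => by ring

theorem smV_iu (H : Sym S cc) {u : κ0 → M → ℝ} (hu : SmV (n := 4) u) : SmV (n := 4) (S.iu u) :=
  fun y => contMDiff_finsetSum fun y' _ => (H.smJ y y').mul (hu y')

/-- `⟨i u, w⟩ = - ⟨u, i w⟩`. -/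
theorem ip_iu (H : Sym S cc) (u w : κ0 → M → ℝ) (z : M) :
    ∑ y, S.iu u y z * w y z = - ∑ y, u y z * S.iu w y z := by
  unfold SWS.iu
  simp only [Finset.sum_mul, Finset.mul_sum]
  rw [Finset.sum_comm, ← Finset.sum_neg_distrib]
  refine Finset.sum_congr rfl fun y _ => ?_
  rw [← Finset.sum_neg_distrib]
  refine Finset.sum_congr rfl fun y' _ => ?_
  rw [H.skewJ y' y z]
  ring

theorem ip_self_iu (H : Sym S cc) (u : κ0 → M → ℝ) (z : M) : ∑ y, u y z * S.iu u y z = 0 := by
  have h1 := ip_iu H u u z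
  have h2 : ∑ y, S.iu u y z * u y z = ∑ y, u y z * S.iu u y z :=
    Finset.sum_congr rfl fun y _ => mul_comm _ _
  linarith

theorem sq_iu (H : Sym S cc) {u : κ0 → M → ℝ} (hu : S.D0.Sec u) (z : M) :
    ∑ y, S.iu u y z ^ 2 = ∑ y, u y z ^ 2 := by
  have h1 := ip_iu H u (S.iu u) z
  simp only [iu_iu H hu] at h1
  simp only [sq]
  rw [h1, ← Finset.sum_neg_distrib]
  exact Finset.sum_congr rfl fun y _ => by ring

theorem secE_lin {u w : κ0 → M → ℝ} (hu : τ.SecE S u) (hw : τ.SecE S w) (f g : M → ℝ) :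
    τ.SecE S (fun y z => f z * u y z + g z * w y z) := by
  constructor
  · intro y z
    have h1 := hu.1 y z
    have h2 := hw.1 y z
    calc ∑ b, S.D0.p y b z * (f z * u b z + g z * w b z) =
        f z * ∑ b, S.D0.p y b z * u b z + g z * ∑ b, S.D0.p y b z * w b z := by
          rw [Finset.mul_sum, Finset.mul_sum, ← Finset.sum_add_distrib]
          exact Finset.sum_congr rfl fun b _ => by ring
      _ = _ := by rw [h1, h2]
  · intro y z
    have h1 := hu.2 y z
    have h2 := hw.2 y z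
    unfold TD.R at h1 h2 ⊢
    have e : ∀ k : Fin 3, ∑ y', τ.n k z * S.rho k y y' z * (f z * u y' z + g z * w y' z) =
        f z * ∑ y', τ.n k z * S.rho k y y' z * u y' z +
          g z * ∑ y', τ.n k z * S.rho k y y' z * w y' z := by
      intro k
      rw [Finset.mul_sum, Finset.mul_sum, ← Finset.sum_add_distrib]
      exact Finset.sum_congr rfl fun b _ => by ring
    rw [Finset.sum_congr rfl fun k _ => e k, Finset.sum_add_distrib, ← Finset.mul_sum,
      ← Finset.mul_sum, h1, h2]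
    ring

/-- **the eigenline is spanned by `e, i e`.** -/
theorem e2 (H : Sym S cc) (hn : ∀ z, ∑ k, τ.n k z ^ 2 = 1) {e s : κ0 → M → ℝ} (he : τ.SecE S e)
    (he1 : ∀ z, ∑ y, e y z ^ 2 = 1) (hs : τ.SecE S s) (y : κ0) (z : M) :
    s y z = (∑ y', s y' z * e y' z) * e y z + (∑ y', s y' z * S.iu e y' z) * S.iu e y z := by
  classical
  have h0 : (fun y => e y z) ⬝ᵥ (fun y => e y z) = 1 := by
    rw [← he1 z]
    exact Finset.sum_congr rfl fun y _ => (sq _).symm
  have h := (pt H z).E2 (n := fun k => τ.n k z) (hn z) h0 (secp he.1 z) (secR he z) (secp hs.1 z)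
    (secR hs z)
  exact congrFun h y

/-- `⟨ρ_k s, s⟩ = - n_k |s|²` on `E`. -/
theorem rq_E (H : Sym S cc) {s : κ0 → M → ℝ} (hs : τ.SecE S s) (k : Fin 3) (z : M) :
    S.rq k s z = - τ.n k z * ∑ y, s y z ^ 2 := by
  classical
  have h := (pt H z).rho_E (n := fun k => τ.n k z) (secp hs.1 z) (secR hs z) k
  have e1 : S.rq k s z = (fun y => s y z) ⬝ᵥ (rM S z k).mulVec fun y => s y z := by
    unfold SWS.rq
    refine Finset.sum_congr rfl fun y _ => ?_
    rw [Matrix.mulVec, dotProduct, Finset.mul_sum]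
    refine Finset.sum_congr rfl fun y' _ => ?_
    rw [rM]
    ring
  rw [e1, h]
  congr 1
  exact Finset.sum_congr rfl fun y _ => (sq _).symm

/-! ### Leibniz -/

/-- the projection onto `E`. -/
def Pe (τ : TD M κT) (S : SWS M κ0 κ1 κT) (y y' : κ0) (z : M) : ℝ :=
  (1 / 2) * (S.D0.p y y' z - ∑ k, τ.n k z * S.rho k y y' z)

theorem Pe_eq (z : M) (y y' : κ0) :
    Pe τ S y y' z = Pi0 (pM S z) (rM S z) (fun k => τ.n k z) y y' := by
  simp only [Pe, Pi0, RR, Matrix.smul_apply, Matrix.sub_apply, Matrix.sum_apply, smul_eq_mul, pM,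
    rM]

theorem Pe_sec {u : κ0 → M → ℝ} (hu : τ.SecE S u) (y : κ0) (z : M) :
    ∑ y', Pe τ S y y' z * u y' z = u y z := by
  have h1 := hu.1 y z
  have h2 := hu.2 y z
  unfold TD.R at h2
  have e : ∀ y', Pe τ S y y' z * u y' z = (1 / 2) * (S.D0.p y y' z * u y' z) -
      (1 / 2) * ∑ k, τ.n k z * S.rho k y y' z * u y' z := by
    intro y'
    unfold Pe
    rw [mul_sub, sub_mul, ← Finset.sum_mul]
    ring
  rw [Finset.sum_congr rfl fun y' _ => e y', Finset.sum_sub_distrib, ← Finset.mul_sum, h1,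
    ← Finset.mul_sum, Finset.sum_comm, h2]
  ring

theorem Pe_J (H : Sym S cc) (y c : κ0) (z : M) :
    ∑ y', Pe τ S y y' z * S.J y' c z = ∑ y', S.J y y' z * Pe τ S y' c z := by
  classical
  simp only [Pe_eq]
  exact congrFun (congrFun ((pt H z).Pi0_J (n := fun k => τ.n k z)) y) c

theorem cv_lin (D : Dat 4 M κ0) {f g : M → ℝ} {u w : κ0 → M → ℝ}
    (hf : ContMDiff (𝓡 4) 𝓘(ℝ, ℝ) ∞ f) (hg : ContMDiff (𝓡 4) 𝓘(ℝ, ℝ) ∞ g)
    (hu : SmV (n := 4) u) (hw : SmV (n := 4) w) (y : κ0) (z : M) :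
    D.cv (fun y z => f z * u y z + g z * w y z) y z =
      f z • D.cv u y z + g z • D.cv w y z + u y z • Gr (n := 4) f z + w y z • Gr (n := 4) g z := by
  unfold Dat.cv
  rw [Gr_add (f := fun z => f z * u y z) (g := fun z => g z * w y z)
    (md (hf.mul (hu y)) z) (md (hg.mul (hw y)) z), Gr_mul (md hf z) (md (hu y) z),
    Gr_mul (md hg z) (md (hw y) z)]
  have e : ∑ b, (f z * u b z + g z * w b z) • D.X y b z =
      f z • ∑ b, u b z • D.X y b z + g z • ∑ b, w b z • D.X y b z := by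
    rw [Finset.smul_sum, Finset.smul_sum, ← Finset.sum_add_distrib]
    exact Finset.sum_congr rfl fun b _ => by rw [add_smul, smul_smul, smul_smul]
  rw [e]
  module

/-- `J` is parallel. -/
theorem cv_iu (H : Sym S cc) {u : κ0 → M → ℝ} (hu : SmV (n := 4) u) (y : κ0) (z : M) :
    S.D0.cv (S.iu u) y z = ∑ c, S.J y c z • S.D0.cv u c z := by
  have h1 : Gr (n := 4) (S.iu u y) z =
      ∑ b, (S.J y b z • Gr (n := 4) (u b) z + u b z • Gr (n := 4) (S.J y b) z) := by
    have h2 : S.iu u y = fun x => ∑ b, S.J y b x * u b x := rfl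
    rw [h2, Gr_sum' (f := fun b x => S.J y b x * u b x) Finset.univ
      (fun b _ => (H.smJ y b).mul (hu b))]
    exact Finset.sum_congr rfl fun b _ => Gr_mul (md (H.smJ y b) z) (md (hu b) z)
  have h3 : ∀ b, Gr (n := 4) (S.J y b) z =
      ∑ c, (S.J y c z • S.D0.X c b z - S.J c b z • S.D0.X y c z) := by
    intro b
    have h4 := H.Jpar y b z
    rw [eq_neg_of_add_eq_zero_left h4, ← Finset.sum_neg_distrib]
    exact Finset.sum_congr rfl fun c _ => by rw [neg_sub]
  unfold Dat.cv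
  rw [h1]
  simp only [h3, smul_add, Finset.sum_add_distrib, Finset.smul_sum, smul_sub,
    Finset.sum_sub_distrib, smul_smul]
  have e1 : ∑ b, ∑ c, (u b z * S.J c b z) • S.D0.X y c z =
      ∑ b, S.iu u b z • S.D0.X y b z := by
    rw [Finset.sum_comm]
    refine Finset.sum_congr rfl fun c _ => ?_
    rw [← Finset.sum_smul]
    congr 1
    exact Finset.sum_congr rfl fun b _ => mul_comm _ _
  have e2 : ∑ b, ∑ c, (u b z * S.J y c z) • S.D0.X c b z =
      ∑ b, ∑ c, (S.J y b z * u c z) • S.D0.X b c z := by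
    rw [Finset.sum_comm]
    refine Finset.sum_congr rfl fun c _ => Finset.sum_congr rfl fun b _ => ?_
    rw [mul_comm]
  rw [e1, e2]
  abel

/-- `∇^E s = Π ∇ s + i s ⊗ (a + sh)`. -/
theorem nE_eq (H : Sym S cc) {s : κ0 → M → ℝ} (hs : τ.SecE S s) (a : κT → M → ℝ) (y : κ0) (z : M) :
    τ.nE S a s y z = ∑ y', Pe τ S y y' z • S.D0.cv s y' z +
      S.iu s y z • (S.vf a z + S.vf τ.sh z) := by
  have h1 := Pe_sec (secE_iu H hs) y z
  unfold TD.nE TD.prE SWS.nab
  have e : ∑ y', ((1 / 2) * (S.D0.p y y' z - ∑ k, τ.n k z * S.rho k y y' z)) •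
      (S.D0.cv s y' z + (∑ y'', S.J y' y'' z * s y'' z) • ∑ A, a A z • S.s A z) =
      ∑ y', Pe τ S y y' z • S.D0.cv s y' z + S.iu s y z • S.vf a z := by
    simp only [smul_add, Finset.sum_add_distrib]
    congr 1
    conv_rhs => rw [← h1]
    rw [Finset.sum_smul]
    refine Finset.sum_congr rfl fun y' _ => ?_
    rw [smul_smul]
    rfl
  rw [e, smul_add, ← add_assoc]
  rfl

theorem vf_add (S : SWS M κ0 κ1 κT) (a b : κT → M → ℝ) (z : M) :
    S.vf (a + b) z = S.vf a z + S.vf b z := by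
  unfold SWS.vf
  rw [← Finset.sum_add_distrib]
  exact Finset.sum_congr rfl fun A _ => add_smul _ _ _

/-- **Leibniz rule.** -/
theorem nE_lin (H : Sym S cc) {U : κ0 → M → ℝ} (hU : τ.SecE S U) (hUs : SmV (n := 4) U)
    {f g : M → ℝ} (hf : ContMDiff (𝓡 4) 𝓘(ℝ, ℝ) ∞ f) (hg : ContMDiff (𝓡 4) 𝓘(ℝ, ℝ) ∞ g)
    (th η : κT → M → ℝ) (y : κ0) (z : M) :
    τ.nE S (th + η) (fun y z => f z * U y z + g z * S.iu U y z) y z =
      f z • τ.nE S th U y z + g z • (∑ c, S.J y c z • τ.nE S th U c z) +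
        U y z • (Gr (n := 4) f z - g z • S.vf η z) +
        S.iu U y z • (Gr (n := 4) g z + f z • S.vf η z) := by
  have hiU := secE_iu H hU
  have hs := secE_lin hU hiU f g
  rw [nE_eq H hs]
  have e1 : S.iu (fun y z => f z * U y z + g z * S.iu U y z) y z =
      f z * S.iu U y z - g z * U y z := by
    rw [iu_lin, iu_iu H hU.1]
    ring
  have e2 : ∑ y', Pe τ S y y' z •
      S.D0.cv (fun y z => f z * U y z + g z * S.iu U y z) y' z =
      f z • ∑ y', Pe τ S y y' z • S.D0.cv U y' z +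
        g z • ∑ y', Pe τ S y y' z • S.D0.cv (S.iu U) y' z +
        U y z • Gr (n := 4) f z + S.iu U y z • Gr (n := 4) g z := by
    have h3 : ∀ y', Pe τ S y y' z •
        S.D0.cv (fun y z => f z * U y z + g z * S.iu U y z) y' z =
        f z • (Pe τ S y y' z • S.D0.cv U y' z) + g z • (Pe τ S y y' z • S.D0.cv (S.iu U) y' z) +
          (Pe τ S y y' z * U y' z) • Gr (n := 4) f z +
          (Pe τ S y y' z * S.iu U y' z) • Gr (n := 4) g z := by
      intro y'
      rw [cv_lin S.D0 hf hg hUs (smV_iu H hUs)]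
      module
    rw [Finset.sum_congr rfl fun y' _ => h3 y', Finset.sum_add_distrib, Finset.sum_add_distrib,
      Finset.sum_add_distrib, ← Finset.smul_sum, ← Finset.smul_sum, ← Finset.sum_smul,
      ← Finset.sum_smul, Pe_sec hU, Pe_sec hiU]
  have e3 : ∑ y', Pe τ S y y' z • S.D0.cv (S.iu U) y' z =
      ∑ c, S.J y c z • ∑ y', Pe τ S c y' z • S.D0.cv U y' z := by
    simp only [cv_iu H hUs, Finset.smul_sum, smul_smul]
    rw [Finset.sum_comm]
    conv_rhs => rw [Finset.sum_comm]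
    refine Finset.sum_congr rfl fun c _ => ?_
    rw [← Finset.sum_smul, ← Finset.sum_smul, Pe_J H]
  have e4 : ∑ c, S.J y c z • τ.nE S th U c z =
      ∑ c, S.J y c z • ∑ y', Pe τ S c y' z • S.D0.cv U y' z -
        U y z • (S.vf th z + S.vf τ.sh z) := by
    have h4 : ∀ c, S.J y c z • τ.nE S th U c z =
        S.J y c z • ∑ y', Pe τ S c y' z • S.D0.cv U y' z +
          (S.J y c z * S.iu U c z) • (S.vf th z + S.vf τ.sh z) := by
      intro c
      rw [nE_eq H hU, smul_add, smul_smul]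
    rw [Finset.sum_congr rfl fun c _ => h4 c, Finset.sum_add_distrib, ← Finset.sum_smul]
    have h5 : ∑ c, S.J y c z * S.iu U c z = - U y z := iu_iu H hU.1 y z
    rw [h5, neg_smul, sub_eq_add_neg]
  rw [e1, e2, e3, e4, nE_eq H hU, vf_add]
  module

theorem pair_sum {κ : Type} [Fintype κ] (w u v : κ → ℝ) (A B : EuclideanSpace ℝ (Fin 4))
    (h : ∀ y, u y • A + v y • B = 0) :
    (∑ y, w y * u y) • A + (∑ y, w y * v y) • B = 0 := by
  have h1 : ∑ y, w y • (u y • A + v y • B) = 0 :=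
    Finset.sum_eq_zero fun y _ => by rw [h, smul_zero]
  rw [← h1, Finset.sum_smul, Finset.sum_smul, ← Finset.sum_add_distrib]
  exact Finset.sum_congr rfl fun y _ => by rw [smul_add, smul_smul, smul_smul]

/-! ### the action of complex functions -/

/-- `f u`, `f : M → ℂ`. -/
def act (S : SWS M κ0 κ1 κT) (f : M → ℂ) (u : κ0 → M → ℝ) : κ0 → M → ℝ :=
  fun y z => (f z).re * u y z + (f z).im * S.iu u y z

theorem gau_eq {b : ℕ} (j : JD M κT b) (k : Fin b → ℤ) (u : κ0 → M → ℝ) :
    j.gau S k u =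
      act S (fun z => ∏ i, ((j.gc i z : ℂ) + (j.gs i z : ℂ) * Complex.I) ^ k i) u := rfl

theorem act_mul (H : Sym S cc) (f g : M → ℂ) {u : κ0 → M → ℝ} (hu : S.D0.Sec u) (y : κ0) (z : M) :
    act S (fun z => f z * g z) u y z = act S f (act S g u) y z := by
  have h1 : S.iu (act S g u) y z = (g z).re * S.iu u y z - (g z).im * u y z := by
    unfold act
    rw [iu_lin S (fun z => (g z).re) (fun z => (g z).im), iu_iu H hu]
    ring
  show (f z * g z).re * u y z + (f z * g z).im * S.iu u y z =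
    (f z).re * ((g z).re * u y z + (g z).im * S.iu u y z) + (f z).im * S.iu (act S g u) y z
  rw [h1, Complex.mul_re, Complex.mul_im]
  ring

/-- `|a U + b i U|² = a² + b²`. -/
theorem sq_lin (H : Sym S cc) {U : κ0 → M → ℝ} (hU : S.D0.Sec U) {z : M}
    (hU1 : ∑ y, U y z ^ 2 = 1) (a b : ℝ) :
    ∑ y, (a * U y z + b * S.iu U y z) ^ 2 = a ^ 2 + b ^ 2 := by
  have h1 := ip_self_iu H U z
  have h2 := sq_iu H hU z
  calc ∑ y, (a * U y z + b * S.iu U y z) ^ 2 =
      a ^ 2 * ∑ y, U y z ^ 2 + 2 * a * b * ∑ y, U y z * S.iu U y z +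
        b ^ 2 * ∑ y, S.iu U y z ^ 2 := by
        rw [Finset.mul_sum, Finset.mul_sum, Finset.mul_sum, ← Finset.sum_add_distrib,
          ← Finset.sum_add_distrib]
        exact Finset.sum_congr rfl fun y _ => by ring
    _ = a ^ 2 + b ^ 2 := by rw [h1, h2, hU1]; ring

/-- **twisting a parallel section**: `√(2 r) f U` is parallel for `th + η` if `df = - i η f`. -/
theorem psec_act (H : Sym S cc) {th η : κT → M → ℝ} {W : M → 𝔼4}
    (hη : ∀ z, S.vf η z = (2 * Real.pi) • W z) {U : κ0 → M → ℝ} (hU : τ.PSec S th (1 / 2) U)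
    {f : M → ℂ} (hf : Cm (fun z => - W z) f) {c r : ℝ} (hc : c ^ 2 = 2 * r) :
    τ.PSec S (th + η) r (fun y z => c * act S f U y z) := by
  have hU1 : ∀ z, ∑ y, U y z ^ 2 = 1 := fun z => by rw [hU.nrm]; norm_num
  have e0 : (fun (y : κ0) z => c * act S f U y z) =
      fun y z => (c * (f z).re) * U y z + (c * (f z).im) * S.iu U y z := by
    funext y z
    unfold act
    ring
  have s1 : ContMDiff (𝓡 4) 𝓘(ℝ, ℝ) ∞ fun z => c * (f z).re := contMDiff_const.mul hf.smr
  have s2 : ContMDiff (𝓡 4) 𝓘(ℝ, ℝ) ∞ fun z => c * (f z).im := contMDiff_const.mul hf.smi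
  rw [e0]
  constructor
  · intro y
    exact (s1.mul (hU.sm y)).add (s2.mul (smV_iu H hU.sm y))
  · exact secE_lin hU.sec (secE_iu H hU.sec) (fun z => c * (f z).re) (fun z => c * (f z).im)
  · intro z
    rw [sq_lin H hU.sec.1 (hU1 z)]
    have := hf.nrm z
    calc (c * (f z).re) ^ 2 + (c * (f z).im) ^ 2 = c ^ 2 * ((f z).re ^ 2 + (f z).im ^ 2) := by ring
      _ = 2 * r := by rw [this, mul_one, hc]
  · intro y z
    rw [nE_lin H hU.sec hU.sm s1 s2]
    have h1 : Gr (n := 4) (fun z => c * (f z).re) z - (c * (f z).im) • S.vf η z = 0 := by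
      rw [Gr_const_mul _ (md hf.smr z), hf.dr, hη]
      module
    have h2 : Gr (n := 4) (fun z => c * (f z).im) z + (c * (f z).re) • S.vf η z = 0 := by
      rw [Gr_const_mul _ (md hf.smi z), hf.di, hη]
      module
    simp only [h1, h2, hU.par, smul_zero, Finset.sum_const_zero, add_zero]

/-- **two parallel sections**: if `U` is parallel of length one for `th` and `s` is parallel of
length `√(2r)` for `th + η`, `s = √(2 r) f U`, `df = - i η f`. -/
theorem exists_act (H : Sym S cc) (hn : ∀ z, ∑ k, τ.n k z ^ 2 = 1) {th η : κT → M → ℝ}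
    {W : M → 𝔼4} (hη : ∀ z, S.vf η z = (2 * Real.pi) • W z) {U s : κ0 → M → ℝ}
    (hU : τ.PSec S th (1 / 2) U) {c r : ℝ} (hc : c ^ 2 = 2 * r) (hc0 : 0 < c)
    (hs : τ.PSec S (th + η) r s) :
    ∃ f : M → ℂ, Cm (fun z => - W z) f ∧ ∀ y z, s y z = c * act S f U y z := by
  have hU1 : ∀ z, ∑ y, U y z ^ 2 = 1 := fun z => by rw [hU.nrm]; norm_num
  set f : M → ℝ := fun z => ∑ y', s y' z * U y' z with hf
  set g : M → ℝ := fun z => ∑ y', s y' z * S.iu U y' z with hg
  have hfs : ContMDiff (𝓡 4) 𝓘(ℝ, ℝ) ∞ f :=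
    contMDiff_finsetSum fun y' _ => (hs.sm y').mul (hU.sm y')
  have hgs : ContMDiff (𝓡 4) 𝓘(ℝ, ℝ) ∞ g :=
    contMDiff_finsetSum fun y' _ => (hs.sm y').mul (smV_iu H hU.sm y')
  have e0 : s = fun y z => f z * U y z + g z * S.iu U y z := by
    funext y z
    exact e2 H hn hU.sec hU1 hs.sec y z
  have hsq : ∀ z, f z ^ 2 + g z ^ 2 = c ^ 2 := by
    intro z
    have h1 := hs.nrm z
    rw [e0, sq_lin H hU.sec.1 (hU1 z)] at h1
    rw [h1, hc]
  have hpar : ∀ y z, U y z • (Gr (n := 4) f z - g z • S.vf η z) +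
      S.iu U y z • (Gr (n := 4) g z + f z • S.vf η z) = 0 := by
    intro y z
    have h1 := hs.par y z
    rw [e0, nE_lin H hU.sec hU.sm hfs hgs] at h1
    simpa only [hU.par, smul_zero, Finset.sum_const_zero, zero_add] using h1
  have hd1 : ∀ z, Gr (n := 4) f z = g z • S.vf η z := by
    intro z
    have h1 := pair_sum (fun y => U y z) (fun y => U y z) (fun y => S.iu U y z) _ _
      (fun y => hpar y z)
    have h2 : ∑ y, U y z * U y z = 1 := by
      rw [← hU1 z]
      exact Finset.sum_congr rfl fun y _ => (sq _).symm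
    rw [h2, ip_self_iu H, zero_smul, add_zero, one_smul] at h1
    exact sub_eq_zero.1 h1
  have hd2 : ∀ z, Gr (n := 4) g z = - (f z • S.vf η z) := by
    intro z
    have h1 := pair_sum (fun y => S.iu U y z) (fun y => U y z) (fun y => S.iu U y z) _ _
      (fun y => hpar y z)
    have h2 : ∑ y, S.iu U y z * U y z = 0 := by
      rw [ip_iu H, ip_self_iu H, neg_zero]
    have h3 : ∑ y, S.iu U y z * S.iu U y z = 1 := by
      rw [← hU1 z, ← sq_iu H hU.sec.1]
      exact Finset.sum_congr rfl fun y _ => (sq _).symm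
    rw [h2, h3, zero_smul, zero_add, one_smul] at h1
    exact eq_neg_of_add_eq_zero_left h1
  refine ⟨fun z => ⟨c⁻¹ * f z, c⁻¹ * g z⟩, ?_, ?_⟩
  · constructor
    · exact contMDiff_const.mul hfs
    · exact contMDiff_const.mul hgs
    · intro z
      have h1 := hsq z
      show (c⁻¹ * f z) ^ 2 + (c⁻¹ * g z) ^ 2 = 1
      calc (c⁻¹ * f z) ^ 2 + (c⁻¹ * g z) ^ 2 = c⁻¹ ^ 2 * (f z ^ 2 + g z ^ 2) := by ring
        _ = 1 := by rw [h1]; field_simp
    · intro z
      show Gr (n := 4) (fun z => c⁻¹ * f z) z = (-(2 * Real.pi * (c⁻¹ * g z))) • (- W z)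
      rw [Gr_const_mul _ (md hfs z), hd1, hη]
      module
    · intro z
      show Gr (n := 4) (fun z => c⁻¹ * g z) z = (2 * Real.pi * (c⁻¹ * f z)) • (- W z)
      rw [Gr_const_mul _ (md hgs z), hd2, hη]
      module
  · intro y z
    have h1 := congrFun (congrFun e0 y) z
    rw [h1]
    show _ = c * (c⁻¹ * f z * U y z + c⁻¹ * g z * S.iu U y z)
    have hc' : c ≠ 0 := hc0.ne'
    field_simp

end main

end

end Crest.Agent.R235.SWZerB_463
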