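import Crest.Agent.R235.AdjSheet_688

/-!
Row 235 (S0364), package ADJ, node JSAME (helper796), part A: **isolated zeros of the local equation
of a curve along another disc** (planar; the estimates are those of `AdjPos_688`, `AdjSheet_688`
without the hypothesis that the function does not vanish off the centre).
-/

set_option autoImplicit false

open Complex Set Filter Topology Metric MeasureTheory
open scoped Real ContDiff

namespace Crest.Agent.R235.Same_796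

open Crest.Agent.R235.Wind_688 Crest.Agent.R235.CauchyV_679 Crest.Agent.R235.AdjPos_688
open Crest.Agent.R235.NWDefs_334 Crest.Agent.R235.AdjMu_688 Crest.Agent.R235.BrNF_266
open Crest.Agent.R235.RootProd_266 Crest.Agent.R235.BranchProd_266
open Crest.Agent.R235.AdjSheet_688 

noncomputable section

/-- **dichotomy**: isolated zero, or zero near `0`. -/
theorem iso_of {H : ℂ → ℂ} {r C : ℝ} (hr : 0 < r)
    (hC1 : ContDiffOn ℝ 1 H (ball 0 r \ {0}))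
    (hdb : ∀ s ∈ ball (0 : ℂ) r, s ≠ 0 → ‖db H s‖ ≤ C * ‖H s‖)
    (hO : ∀ s ∈ ball (0 : ℂ) r, s ≠ 0 → ‖H s‖ ≤ C)
    (hD : ∀ s ∈ ball (0 : ℂ) r, s ≠ 0 → ‖fderiv ℝ H s‖ ≤ C) :
    (∀ᶠ s in 𝓝[≠] (0 : ℂ), H s = 0) ∨ ∀ᶠ s in 𝓝[≠] (0 : ℂ), H s ≠ 0 := by
  have hU : IsOpen (ball (0 : ℂ) r \ {0}) := isOpen_ball.sdiff isClosed_singleton
  have hC : 0 ≤ C := by
    have hs : ((r / 2 : ℝ) : ℂ) ∈ ball (0 : ℂ) r := by
      rw [mem_ball, dist_zero_right, Complex.norm_real, Real.norm_of_nonneg (by positivity)]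
      linarith
    exact (norm_nonneg _).trans (hD _ hs (by exact_mod_cast (by positivity : (r / 2 : ℝ) ≠ 0)))
  set G : ℂ → ℂ := fun s => s ^ 2 * H s with hG
  -- derivative of `G` off `0`
  have hGd : ∀ s ∈ ball (0 : ℂ) r, s ≠ 0 → HasFDerivAt G
      (s ^ 2 • fderiv ℝ H s + H s • ((2 * s) • (ContinuousLinearMap.id ℝ ℂ))) s := by
    intro s hs hs0
    have h1 : HasFDerivAt H (fderiv ℝ H s) s :=
      ((hC1.contDiffAt (hU.mem_nhds ⟨hs, hs0⟩)).differentiableAt one_ne_zero).hasFDerivAt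
    have h2 : HasFDerivAt (fun s : ℂ => s ^ 2) ((2 * s) • (ContinuousLinearMap.id ℝ ℂ)) s := by
      have := (hasFDerivAt_id (𝕜 := ℝ) s).pow 2
      refine this.congr_fderiv ?_
      ext v; simp
    exact h2.mul h1
  set G' : ℂ → ℂ →L[ℝ] ℂ := fun s =>
    s ^ 2 • fderiv ℝ H s + H s • ((2 * s) • (ContinuousLinearMap.id ℝ ℂ)) with hG'
  have hbd : ∀ s ∈ ball (0 : ℂ) r, ‖G s‖ ≤ C * ‖s‖ ^ 2 := by
    intro s hs
    by_cases hs0 : s = 0
    · simp [hG, hs0]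
    · rw [hG]
      simp only [norm_mul, norm_pow]
      nlinarith [hO s hs hs0, pow_nonneg (norm_nonneg s) 2]
  have hG0 : HasFDerivAt G (G' 0) 0 := by
    have e : G' 0 = 0 := by ext v; simp [hG']
    rw [e, hasFDerivAt_iff_isLittleO_nhds_zero]
    simp only [zero_add, _root_.zero_apply, sub_zero]
    have h1 : G 0 = 0 := by simp [hG]
    simp only [h1, sub_zero]
    have h2 : G =O[𝓝 0] fun s : ℂ => ‖s‖ ^ 2 := by
      refine Asymptotics.IsBigO.of_bound C ?_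
      filter_upwards [ball_mem_nhds (0 : ℂ) hr] with s hs
      refine (hbd s hs).trans ?_
      rw [norm_pow, norm_norm]
    refine h2.trans_isLittleO ?_
    simpa using (Asymptotics.isLittleO_norm_pow_id (E' := ℂ) one_lt_two)
  have hG'c : ContinuousOn G' (ball 0 r) := by
    intro s hs
    refine ContinuousAt.continuousWithinAt ?_
    by_cases hs0 : s = 0
    · rw [hs0]
      have e : G' 0 = 0 := by ext v; simp [hG']
      rw [ContinuousAt, e]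
      rw [tendsto_zero_iff_norm_tendsto_zero]
      have h1 : Tendsto (fun s : ℂ => ‖s‖ ^ 2 * C + C * (2 * ‖s‖)) (𝓝 0) (𝓝 0) := by
        have : Continuous fun s : ℂ => ‖s‖ ^ 2 * C + C * (2 * ‖s‖) := by fun_prop
        have h2 := this.tendsto 0
        simpa using h2
      refine squeeze_zero_norm' ?_ h1
      filter_upwards [ball_mem_nhds (0 : ℂ) hr] with s hs
      rw [norm_norm]
      by_cases hs0 : s = 0
      · rw [hs0, e]; simp
      · rw [hG']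
        refine (norm_add_le _ _).trans ?_
        rw [norm_smul, norm_smul, norm_smul, norm_pow]
        have e1 : ‖(ContinuousLinearMap.id ℝ ℂ)‖ ≤ 1 := ContinuousLinearMap.norm_id_le
        have e2 : ‖(2 * s : ℂ)‖ = 2 * ‖s‖ := by simp
        rw [e2]
        have e3 : ‖H s‖ ≤ C := hO s hs hs0
        have e4 := hD s hs hs0
        have e5 : ‖H s‖ * (2 * ‖s‖ * ‖(ContinuousLinearMap.id ℝ ℂ)‖) ≤
            C * (2 * ‖s‖ * 1) := by gcongr
        have e6 : ‖s‖ ^ 2 * ‖fderiv ℝ H s‖ ≤ ‖s‖ ^ 2 * C := by gcongr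
        linarith
    · have hm := hU.mem_nhds (show s ∈ ball (0 : ℂ) r \ {0} from ⟨hs, hs0⟩)
      have h1 : ContinuousAt (fderiv ℝ H) s :=
        (hC1.continuousOn_fderiv_of_isOpen hU le_rfl).continuousAt hm
      have h2 : ContinuousAt H s := hC1.continuousOn.continuousAt hm
      have h3 : ContinuousAt (fun s : ℂ => s ^ 2) s := by fun_prop
      have h4 : ContinuousAt (fun s : ℂ => (2 * s) • (ContinuousLinearMap.id ℝ ℂ)) s := by
        fun_prop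
      exact (h3.smul h1).add (h2.smul h4)
  have hGd' : ∀ s ∈ ball (0 : ℂ) r, HasFDerivAt G (G' s) s := by
    intro s hs
    by_cases hs0 : s = 0
    · rw [hs0]; exact hG0
    · exact hGd s hs hs0
  have hGC : ContDiffAt ℝ 1 G 0 :=
    contDiffAt_one_iff.2 ⟨G', ball 0 r, ball_mem_nhds _ hr, hG'c, hGd'⟩
  have hsub : Sim3_679.Sub G 0 := by
    refine ⟨C, ?_⟩
    filter_upwards [ball_mem_nhds (0 : ℂ) hr] with s hs
    by_cases hs0 : s = 0
    · rw [hs0, db_def, hG0.fderiv]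
      simp [hG', hG]
    · have e1 : db G s = s ^ 2 * db H s := by
        rw [db_def, db_def, (hGd s hs hs0).fderiv]
        simp only [_root_.add_apply, _root_.smul_apply, smul_eq_mul,
          ContinuousLinearMap.id_apply]
        linear_combination (H s * s) * Complex.I_sq
      rw [e1, norm_mul]
      have e2 : ‖G s‖ = ‖s ^ 2‖ * ‖H s‖ := by rw [hG]; exact norm_mul _ _
      rw [e2]
      have := hdb s hs hs0
      nlinarith [norm_nonneg (s ^ 2)]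
  have hG2 : ∀ s : ℂ, s ≠ 0 → (G s = 0 ↔ H s = 0) := fun s hs => by
    rw [hG]
    simp [hs]
  rcases Sim3_679.isolated hGC hsub with h1 | h1
  · left
    filter_upwards [nhdsWithin_le_nhds h1, self_mem_nhdsWithin] with s hs hs0
    exact (hG2 s hs0).1 hs
  · right
    filter_upwards [h1, self_mem_nhdsWithin] with s hs hs0 h
    exact hs ((hG2 s hs0).2 h)

/-- dichotomy for a product of differences. -/
theorem iso_prod {μ β : ℂ × ℂ → ℂ} {ζ z H : ℂ → ℂ} {r κ L B Λ C : ℝ} {m k' : ℕ} (hr : 0 < r)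
    (hz1 : ContDiffOn ℝ 1 z (ball 0 r))
    (hJ : ∀ s ∈ ball (0 : ℂ) r, s ≠ 0 → JC μ β ζ z s) (hL : 0 ≤ L)
    (hζC : ∀ s ∈ ball (0 : ℂ) r, ‖fderiv ℝ ζ s‖ ≤ C) (hzC : ∀ s ∈ ball (0 : ℂ) r, ‖fderiv ℝ z s‖ ≤ C)
    (hzm : ∀ s ∈ ball (0 : ℂ) r, ‖z s‖ ≤ C * ‖s‖ ^ m)
    (hκ : ∀ s ∈ ball (0 : ℂ) r, ∀ w, ‖w‖ ≤ C * ‖s‖ ^ m → ‖μ (ζ s, w)‖ ≤ κ)
    (hB : ∀ s ∈ ball (0 : ℂ) r, ∀ w, ‖w‖ ≤ C * ‖s‖ ^ m → ‖β (ζ s, w)‖ ≤ B)
    (hμ : ∀ s ∈ ball (0 : ℂ) r, ∀ w, ‖w‖ ≤ C * ‖s‖ ^ m →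
      ‖μ (ζ s, z s) - μ (ζ s, w)‖ ≤ L * ‖z s - w‖)
    (hβ : ∀ s ∈ ball (0 : ℂ) r, ∀ w, ‖w‖ ≤ C * ‖s‖ ^ m →
      ‖β (ζ s, z s) - β (ζ s, w)‖ ≤ L * ‖z s - w‖)
    (hloc : ∀ s ∈ ball (0 : ℂ) r, s ≠ 0 → ∃ y : Fin k' → ℂ → ℂ,
      (∀ i, ContDiffAt ℝ 1 (y i) s ∧ GC μ β ζ (y i) Λ s ∧ ‖y i s‖ ≤ C * ‖s‖ ^ m) ∧
      H =ᶠ[𝓝 s] fun t => ∏ i, (z t - y i t)) :
    (∀ᶠ s in 𝓝[≠] (0 : ℂ), H s = 0) ∨ ∀ᶠ s in 𝓝[≠] (0 : ℂ), H s ≠ 0 := by
  have hU : IsOpen (ball (0 : ℂ) r \ {0}) := isOpen_ball.sdiff isClosed_singleton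
  -- constants
  have hC0 : 0 ≤ C := (norm_nonneg _).trans (hζC 0 (mem_ball_self hr))
  set c : ℝ := C * (L + max Λ 0 * L) with hc
  have hc0 : 0 ≤ c := by positivity
  set A : ℝ := max 1 (max (2 * C * r ^ m)
    (C + (max Λ 0 * (C + max κ 0 * C) + max B 0 * C))) with hA
  have hA1 : 1 ≤ A := le_max_left _ _
  set D : ℝ := max (k' * c) (max (k' * A ^ k') (A ^ k')) with hD
  have key : ∀ s ∈ ball (0 : ℂ) r, s ≠ 0 → ContDiffAt ℝ 1 H s ∧ ‖db H s‖ ≤ D * ‖H s‖ ∧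
      ‖H s‖ ≤ D ∧ ‖fderiv ℝ H s‖ ≤ D := by
    intro s hs hs0
    obtain ⟨y, hy, hHy⟩ := hloc s hs hs0
    have hsn := isOpen_ball.mem_nhds hs
    have hzs : ContDiffAt ℝ 1 z s := hz1.contDiffAt hsn
    have hfac : ∀ i, ContDiffAt ℝ 1 (fun t => z t - y i t) s := fun i => hzs.sub (hy i).1
    have hsr : ‖s‖ ≤ r := by rw [mem_ball, dist_zero_right] at hs; exact hs.le
    have hdiff : ∀ i, ‖z s - y i s‖ ≤ 2 * C * ‖s‖ ^ m := fun i => by
      refine (norm_sub_le _ _).trans ?_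
      have := hzm s hs
      have := (hy i).2.2
      linarith
    have hb : ∀ i, ‖db (fun t => z t - y i t) s‖ ≤ c * ‖z s - y i s‖ ∧
        ‖fderiv ℝ (fun t => z t - y i t) s‖ ≤ A := by
      intro i
      obtain ⟨h1, ⟨l, hl, hl2⟩, h3⟩ := hy i
      have h4 := diff_bound (Λ := max Λ 0) (κ := max κ 0) (B := max B 0) (hJ s hs hs0)
        ⟨l, hl.trans (le_max_left _ _), hl2⟩ (hzs.differentiableAt one_ne_zero)
        (h1.differentiableAt one_ne_zero) ((hκ s hs _ h3).trans (le_max_left _ _))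
        ((hB s hs _ h3).trans (le_max_left _ _)) (hμ s hs _ h3) (hβ s hs _ h3)
        (hζC s hs) (hzC s hs)
      exact ⟨h4.1, h4.2.trans ((le_max_right _ _).trans (le_max_right _ _))⟩
    have hAi : ∀ i, ‖z s - y i s‖ ≤ A := fun i => by
      refine (hdiff i).trans ?_
      refine le_trans ?_ ((le_max_left _ _).trans (le_max_right _ _))
      gcongr
    obtain ⟨p1, p2, p3, p4⟩ := prod_bounds (fun i t => z t - y i t) s hA1 hfac
      (fun i => (hb i).1) hAi (fun i => (hb i).2) Finset.univ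
    rw [Finset.card_univ, Fintype.card_fin] at p2 p4
    have hHs : H s = ∏ i, (z s - y i s) := hHy.self_of_nhds
    refine ⟨p1.congr_of_eventuallyEq hHy, ?_, ?_, ?_⟩
    · rw [db_congr hHy, hHs]
      refine p2.trans ?_
      gcongr
      exact le_max_left _ _
    · rw [hHs]
      rw [Finset.card_univ, Fintype.card_fin] at p3
      exact p3.trans ((le_max_right _ _).trans (le_max_right _ _))
    · rw [hHy.fderiv_eq]
      exact p4.trans ((le_max_left _ _).trans (le_max_right _ _))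
  exact iso_of (C := D) hr (fun s hs => (key s hs.1 hs.2).1.contDiffWithinAt)
    (fun s hs hs0 => (key s hs hs0).2.1) (fun s hs hs0 => (key s hs hs0).2.2.1)
    (fun s hs hs0 => (key s hs hs0).2.2.2)

section many

variable {J : ℂ × ℂ → ℂ × ℂ →L[ℝ] ℂ × ℂ} {n : ℕ} {v : Fin n → ℂ → ℂ × ℂ} {r1 : ℝ}
  {m : Fin n → ℕ} {a : Fin n → ℂ} {C : ℝ} {e : Fin n → OpenPartialHomeomorph ℂ ℂ}

/-- dichotomy for a product of differences of sheets. -/
theorem isoS {δ L : ℝ} (hB : MB J δ L) (B : ∀ c, Br J (v c) r1 (m c) (a c) C (e c))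
    {u : ℂ → ℂ × ℂ} {r C' : ℝ} {M k' : ℕ} (hM : 1 ≤ M) (hr : 0 < r)
    (hu : ContDiffOn ℝ 1 u (ball 0 r)) (hJ : JHol J u (ball 0 r))
    (h1 : ∀ s ∈ ball (0 : ℂ) r, ‖(u s).1‖ ≤ C' * ‖s‖ ^ M)
    (h2 : ∀ s ∈ ball (0 : ℂ) r, ‖(u s).2‖ ≤ C' * ‖s‖ ^ M) {H : ℂ → ℂ}
    (hloc : ∀ s ∈ ball (0 : ℂ) r, s ≠ 0 → ∃ (c : Fin k' → Fin n) (om : Fin k' → ℂ → ℂ),
      (∀ i, ContDiffAt ℝ 1 (om i) s ∧ om i s ≠ 0 ∧ ∀ᶠ t in 𝓝 s, om i t ^ m (c i) = (u t).1) ∧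
      H =ᶠ[𝓝 s] fun t => ∏ i, ((u t).2 - Zf (v (c i)) (e (c i)) (om i t))) :
    (∀ᶠ s in 𝓝[≠] (0 : ℂ), H s = 0) ∨ ∀ᶠ s in 𝓝[≠] (0 : ℂ), H s ≠ 0 := by
  choose η hη D Λ hD hsh using fun c => sheet hB (B c)
  obtain ⟨D0, hD0, hDle⟩ := exists_ge D
  obtain ⟨Λ0, hΛ0, hΛle⟩ := exists_ge Λ
  have h00 : (0 : ℂ) ∈ ball (0 : ℂ) r := mem_ball_self hr
  have hMne : M ≠ 0 := by omega
  have hu0 : u 0 = 0 := by
    have e1 := h1 0 h00
    have e2 := h2 0 h00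
    rw [norm_zero, zero_pow hMne, mul_zero] at e1 e2
    exact Prod.ext (norm_le_zero_iff.1 e1) (norm_le_zero_iff.1 e2)
  have hC' : 0 ≤ C' := by
    by_contra hneg
    have hs : ((r / 2 : ℝ) : ℂ) ∈ ball (0 : ℂ) r := by
      rw [mem_ball, dist_zero_right, Complex.norm_real, Real.norm_of_nonneg (by positivity)]
      linarith
    have e1 := (norm_nonneg _).trans (h1 _ hs)
    have e2 : 0 < ‖((r / 2 : ℝ) : ℂ)‖ ^ M := by
      rw [Complex.norm_real, Real.norm_of_nonneg (by positivity)]; positivity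
    nlinarith
  have huc : ContinuousAt u 0 := hu.continuousOn.continuousAt (ball_mem_nhds _ hr)
  have hdc : ContinuousAt (fderiv ℝ u) 0 :=
    (hu.continuousOn_fderiv_of_isOpen isOpen_ball le_rfl).continuousAt (ball_mem_nhds _ hr)
  set C1 : ℝ := ‖fderiv ℝ u 0‖ + 1 with hC1
  set E : ℝ := max C' (max C1 (D0 * C')) with hE
  have hE0 : 0 ≤ E := hC'.trans (le_max_left _ _)
  have hev : ∀ᶠ s in 𝓝 (0 : ℂ), ‖fderiv ℝ u s‖ < C1 ∧ u s ∈ ball (0 : ℂ × ℂ) δ ∧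
      E * ‖s‖ ^ M < δ ∧ ∀ c, ‖(u s).1‖ < η c ^ m c := by
    refine Filter.Eventually.and ?_ (Filter.Eventually.and ?_ (Filter.Eventually.and ?_ ?_))
    · exact hdc.norm.eventually (Iio_mem_nhds (by rw [hC1]; linarith))
    · refine huc.preimage_mem_nhds ?_
      rw [hu0]; exact ball_mem_nhds _ hB.pos
    · have e1 : Continuous fun s : ℂ => E * ‖s‖ ^ M := by fun_prop
      have e2 := e1.tendsto 0
      rw [norm_zero, zero_pow hMne, mul_zero] at e2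
      exact e2.eventually (Iio_mem_nhds hB.pos)
    · rw [Filter.eventually_all]
      intro c
      have e1 : ContinuousAt (fun s => ‖(u s).1‖) 0 := (continuous_fst.continuousAt.comp huc).norm
      have e2 : ‖(u 0).1‖ = 0 := by rw [hu0]; simp
      refine e1.eventually (Iio_mem_nhds ?_)
      show ‖(u 0).1‖ < _
      rw [e2]
      exact pow_pos (hη c) _
  obtain ⟨r2, hr2, hr3⟩ := Metric.eventually_nhds_iff_ball.1 hev
  set r0 : ℝ := min r r2 with hr0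
  have hr00 : 0 < r0 := lt_min hr hr2
  have hs1 : ball (0 : ℂ) r0 ⊆ ball 0 r := ball_subset_ball (min_le_left _ _)
  have hs2 : ball (0 : ℂ) r0 ⊆ ball 0 r2 := ball_subset_ball (min_le_right _ _)
  have hfd : ∀ s ∈ ball (0 : ℂ) r0, DifferentiableAt ℝ u s := fun s hs =>
    (hu.contDiffAt (isOpen_ball.mem_nhds (hs1 hs))).differentiableAt one_ne_zero
  have hf1 : ∀ s ∈ ball (0 : ℂ) r0, ‖fderiv ℝ (fun s => (u s).1) s‖ ≤ E := by
    intro s hs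
    have h : HasFDerivAt (fun s => (u s).1) ((ContinuousLinearMap.fst ℝ ℂ ℂ).comp (fderiv ℝ u s))
      s := hasFDerivAt_fst.comp s (hfd s hs).hasFDerivAt
    rw [h.fderiv]
    have h3 : ‖(ContinuousLinearMap.fst ℝ ℂ ℂ).comp (fderiv ℝ u s)‖ ≤ ‖fderiv ℝ u s‖ := by
      refine ContinuousLinearMap.opNorm_le_bound _ (norm_nonneg _) fun w => ?_
      exact (norm_fst_le (fderiv ℝ u s w)).trans ((fderiv ℝ u s).le_opNorm w)
    exact h3.trans ((hr3 s (hs2 hs)).1.le.trans ((le_max_left _ _).trans (le_max_right _ _)))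
  have hf2 : ∀ s ∈ ball (0 : ℂ) r0, ‖fderiv ℝ (fun s => (u s).2) s‖ ≤ E := by
    intro s hs
    have h : HasFDerivAt (fun s => (u s).2) ((ContinuousLinearMap.snd ℝ ℂ ℂ).comp (fderiv ℝ u s))
      s := hasFDerivAt_snd.comp s (hfd s hs).hasFDerivAt
    rw [h.fderiv]
    have h3 : ‖(ContinuousLinearMap.snd ℝ ℂ ℂ).comp (fderiv ℝ u s)‖ ≤ ‖fderiv ℝ u s‖ := by
      refine ContinuousLinearMap.opNorm_le_bound _ (norm_nonneg _) fun w => ?_
      exact (norm_snd_le (fderiv ℝ u s w)).trans ((fderiv ℝ u s).le_opNorm w)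
    exact h3.trans ((hr3 s (hs2 hs)).1.le.trans ((le_max_left _ _).trans (le_max_right _ _)))
  have hmem : ∀ s ∈ ball (0 : ℂ) r0, ∀ w : ℂ, ‖w‖ ≤ E * ‖s‖ ^ M →
      ((u s).1, w) ∈ ball (0 : ℂ × ℂ) δ := by
    intro s hs w hw
    obtain ⟨-, e2, e3, -⟩ := hr3 s (hs2 hs)
    rw [mem_ball, dist_zero_right] at e2 ⊢
    exact max_lt ((norm_fst_le (u s)).trans_lt e2) (hw.trans_lt e3)
  have hbeta : ∀ s ∈ ball (0 : ℂ) r0, ∀ w : ℂ, ‖(u s) - ((u s).1, w)‖ = ‖(u s).2 - w‖ := by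
    intro s _ w
    have : (u s) - ((u s).1, w) = (0, (u s).2 - w) := by
      refine Prod.ext ?_ rfl
      simp
    rw [this, Prod.norm_def]
    simp
  refine iso_prod (μ := fun x => mu (J x)) (β := fun x => be (J x))
    (ζ := fun s => (u s).1) (z := fun s => (u s).2) (H := H) (κ := 1 / 2) (L := L) (B := 1)
    (Λ := Λ0) (C := E) (m := M) (k' := k') hr00 ((hu.mono hs1).snd) ?_ hB.posL hf1 hf2 ?_ ?_ ?_ ?_
    ?_ ?_
  · intro s hs _
    exact jc_of (hB.vj _ (hr3 s (hs2 hs)).2.1) rfl (hJ s (hs1 hs)).1 (hJ s (hs1 hs)).2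
  · intro s hs
    refine (h2 s (hs1 hs)).trans ?_
    gcongr
    exact le_max_left _ _
  · intro s hs w hw
    exact hB.mle _ (hmem s hs w hw)
  · intro s hs w hw
    exact hB.ble _ (hmem s hs w hw)
  · intro s hs w hw
    have := hB.mlip _ (hr3 s (hs2 hs)).2.1 _ (hmem s hs w hw)
    rw [hbeta s hs w] at this
    exact this
  · intro s hs w hw
    have := hB.blip _ (hr3 s (hs2 hs)).2.1 _ (hmem s hs w hw)
    rw [hbeta s hs w] at this
    exact this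
  · intro s hs hs0
    obtain ⟨c, om, hom, hH⟩ := hloc s (hs1 hs) hs0
    refine ⟨fun i t => Zf (v (c i)) (e (c i)) (om i t), fun i => ?_, hH⟩
    obtain ⟨o1, o2, o3⟩ := hom i
    have hlt : ‖om i s‖ < η (c i) := by
      have e1 := (hr3 s (hs2 hs)).2.2.2 (c i)
      rw [← o3.self_of_nhds, norm_pow] at e1
      exact lt_of_pow_lt_pow_left₀ _ (hη _).le e1
    obtain ⟨q1, ⟨l, hl, hl2⟩, q3⟩ := hsh (c i) (fun s => (u s).1) (om i) s o1 o3 o2 hlt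
    refine ⟨q1, ⟨l, hl.trans (hΛle _), hl2⟩, ?_⟩
    refine q3.trans ?_
    calc D (c i) * ‖(u s).1‖ ≤ D0 * (C' * ‖s‖ ^ M) := by
          have := hDle (c i)
          have := h1 s (hs1 hs)
          gcongr
      _ = (D0 * C') * ‖s‖ ^ M := by ring
      _ ≤ E * ‖s‖ ^ M := by
          gcongr
          exact (le_max_right _ _).trans (le_max_right _ _)

theorem isoT {δ L : ℝ} (hB : MB J δ L) (B : ∀ c, Br J (v c) r1 (m c) (a c) C (e c))
    {u : ℂ → ℂ × ℂ} {r C' : ℝ} {M : ℕ} (hM : 1 ≤ M) (hr : 0 < r)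
    (hu : ContDiffOn ℝ 1 u (ball 0 r)) (hJ : JHol J u (ball 0 r))
    (h1 : ∀ s ∈ ball (0 : ℂ) r, ‖(u s).1‖ ≤ C' * ‖s‖ ^ M)
    (h2 : ∀ s ∈ ball (0 : ℂ) r, ‖(u s).2‖ ≤ C' * ‖s‖ ^ M) {H : ℂ → ℂ}
    (T : Finset (Σ _ : Fin n, ℕ))
    (hloc : ∀ s ∈ ball (0 : ℂ) r, s ≠ 0 → ∃ (om : (Σ _ : Fin n, ℕ) → ℂ → ℂ),
      (∀ p ∈ T, ContDiffAt ℝ 1 (om p) s ∧ om p s ≠ 0 ∧
        ∀ᶠ t in 𝓝 s, om p t ^ m p.1 = (u t).1) ∧
      H =ᶠ[𝓝 s] fun t => ∏ p ∈ T, ((u t).2 - Zf (v p.1) (e p.1) (om p t))) :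
    (∀ᶠ s in 𝓝[≠] (0 : ℂ), H s = 0) ∨ ∀ᶠ s in 𝓝[≠] (0 : ℂ), H s ≠ 0 := by
  refine isoS (k' := T.card) hB B hM hr hu hJ h1 h2 fun s hs hs0 => ?_
  obtain ⟨om, hom, hH⟩ := hloc s hs hs0
  refine ⟨fun i => (T.equivFin.symm i).1.1, fun i => om (T.equivFin.symm i).1,
    fun i => hom _ (T.equivFin.symm i).2, ?_⟩
  filter_upwards [hH] with t ht
  rw [ht]
  have e1 := Equiv.prod_comp T.equivFin.symm
    (fun p : T => ((u t).2 - Zf (v p.1.1) (e p.1.1) (om p.1 t)))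
  rw [e1]
  exact (Finset.prod_coe_sort T fun p => ((u t).2 - Zf (v p.1) (e p.1) (om p t))).symm

/-- **dichotomy along another curve** -/
theorem isoF {δ L : ℝ} (hB : MB J δ L) (B : ∀ c, Br J (v c) r1 (m c) (a c) C (e c))
    {u : ℂ → ℂ × ℂ} {r C' : ℝ} {M : ℕ} (hM : 1 ≤ M) (hr : 0 < r)
    (hu : ContDiffOn ℝ 1 u (ball 0 r)) (hJ : JHol J u (ball 0 r))
    (h1 : ∀ s ∈ ball (0 : ℂ) r, ‖(u s).1‖ ≤ C' * ‖s‖ ^ M)
    (h2 : ∀ s ∈ ball (0 : ℂ) r, ‖(u s).2‖ ≤ C' * ‖s‖ ^ M)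
    (hne : ∀ s ∈ ball (0 : ℂ) r, s ≠ 0 → (u s).1 ≠ 0) :
    (∀ᶠ s in 𝓝[≠] (0 : ℂ), bp m (fun c => Zf (v c) (e c)) (u s).1 (u s).2 = 0) ∨
      ∀ᶠ s in 𝓝[≠] (0 : ℂ), bp m (fun c => Zf (v c) (e c)) (u s).1 (u s).2 ≠ 0 := by
  have hm : ∀ c, m c ≠ 0 := fun c => by have := (B c).m_pos; omega
  set T : Finset (Σ _ : Fin n, ℕ) := Finset.univ.sigma (fun c => Finset.range (m c)) with hT
  refine isoT hB B hM hr hu hJ h1 h2 T fun s hs hs0 => ?_
  have hus : ContDiffAt ℝ 1 u s := hu.contDiffAt (isOpen_ball.mem_nhds hs)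
  choose w hw hw0 using fun c => exists_root_ne (hm c) (hne s hs hs0)
  refine ⟨fun p t => xi (m p.1) ^ p.2 * bt (m p.1) (w p.1) (u t).1, fun p _ => ⟨?_, ?_, ?_⟩, ?_⟩
  · exact contDiffAt_bt_comp (hw0 p.1) p.2 hus.fst (hw p.1).symm
  · exact mul_ne_zero (xi_pow_ne (hm _) _) (bt_ne (hm _) (hw0 _) (hne s hs hs0))
  · refine Eventually.of_forall fun t => ?_
    rw [mul_pow, xi_pow_pow (hm _), one_mul, bt_pow (hm _) (hw0 _)]
  · refine Eventually.of_forall fun t => ?_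
    show bp m (fun c => Zf (v c) (e c)) (u t).1 (u t).2 = _
    rw [bp, hT]
    refine Eq.trans ?_ (Finset.prod_sigma _ _ _).symm
    refine Finset.prod_congr rfl fun c _ => ?_
    exact rp_bt (hm c) _ (hw0 c) _ _

end many

end

end Crest.Agent.R235.Same_796
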