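import Crest.Agent.R235.SameA_796
import Crest.Agent.R235.BoxC_266

/-!
Row 235 (S0364), package ADJ, node JSAME (helper796), part B: **unique continuation in a foliation
box**: a `J`-disc which meets the curve `c` in points accumulating at its centre lies in `c` near the
centre.
-/

set_option autoImplicit false
set_option maxSynthPendingDepth 3

open Set Function Filter MeasureTheory Metric
open scoped Manifold ContDiff Topology

universe u

namespace Crest.Agent.R235.Same_796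

open Crest.Agent.R240 Crest.Agent.R240.Ch Crest.Agent.R240.Int
open Crest.Agent.R235 Crest.Agent.R235.Glob_370 Crest.Agent.R235.Wind_688
open Crest.Agent.R235.NWDefs_334 Crest.Agent.R235.BrNF_266 Crest.Agent.R235.Adj
open Crest.Agent.R235.RootProd_266 Crest.Agent.R235.BranchProd_266 Crest.Agent.R235.BoxL2_266
open Crest.Agent.R235.AdjMu_688
open Crest.Agent.R235.BoxL2_266.Pl (DS hasFDerivAt_DS Θ_smoothAt symm_mem_ball)

noncomputable section

section box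

variable {M : Type u} [TopologicalSpace M] [ChartedSpace E4 M] [IsManifold 𝓘(ℝ, E4) ∞ M]
variable {J : EndF E4 M} {c : JCurve J} {p : M} {V : Set M}

/-- `DS` is a left inverse of `dΘ`. -/
theorem DS_dmap (B : FBox c p V) {y : ℂ × ℂ} (hy : y ∈ ball (0 : ℂ × ℂ) B.R) (v : ℂ × ℂ) :
    DS B (B.Θ y) (dmap B.Θ y v) = v := by
  have hys : y ∈ B.Θ.source := by rw [B.source]; exact hy
  have hx : B.Θ y ∈ B.Θ.target := B.Θ.map_source hys
  have h1 : HasFDerivAt (fun q : ℂ × ℂ => chartAt E4 (B.Θ y) (B.Θ q))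
      (fderiv ℝ (fun q : ℂ × ℂ => chartAt E4 (B.Θ y) (B.Θ q)) y) y :=
    (AdjGen_83.diffAt_chart (Θ_smoothAt hy) (mem_chart_source E4 (B.Θ y))).hasFDerivAt
  have h2 := hasFDerivAt_DS (B := B) hx
  have h4 := HasFDerivAt.comp (f := fun q : ℂ × ℂ => chartAt E4 (B.Θ y) (B.Θ q))
    (g := fun z : E4 => B.Θ.symm ((chartAt E4 (B.Θ y)).symm z)) y h2 h1
  have h5 : ((fun z : E4 => B.Θ.symm ((chartAt E4 (B.Θ y)).symm z)) ∘
      fun q : ℂ × ℂ => chartAt E4 (B.Θ y) (B.Θ q)) =ᶠ[𝓝 y] fun q => q := by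
    have h6 : ∀ᶠ q in 𝓝 y, B.Θ q ∈ (chartAt E4 (B.Θ y)).source :=
      (B.Θ.continuousAt hys).eventually_mem
        ((chartAt E4 (B.Θ y)).open_source.mem_nhds (mem_chart_source E4 (B.Θ y)))
    filter_upwards [h6, B.Θ.open_source.mem_nhds hys] with q h7 h8
    show B.Θ.symm ((chartAt E4 (B.Θ y)).symm (chartAt E4 (B.Θ y) (B.Θ q))) = q
    rw [(chartAt E4 (B.Θ y)).left_inv h7, B.Θ.left_inv h8]
  have h6 := (h4.congr_of_eventuallyEq h5.symm).unique (hasFDerivAt_id y)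
  exact DFunLike.congr_fun h6 v

theorem dmap_Θ_inj (B : FBox c p V) {y : ℂ × ℂ} (hy : y ∈ ball (0 : ℂ × ℂ) B.R) {v w : ℂ × ℂ}
    (h : dmap B.Θ y v = dmap B.Θ y w) : v = w := by
  rw [← DS_dmap B hy v, h, DS_dmap B hy w]

theorem J'_sq (B : FBox c p V) (hJ2 : ∀ x v, atJ J x (atJ J x v) = -v) {x : ℂ × ℂ}
    (hx : x ∈ ball (0 : ℂ × ℂ) B.R) (v : ℂ × ℂ) : B.J' x (B.J' x v) = -v := by
  refine dmap_Θ_inj B hx ?_
  rw [B.conj x hx, B.conj x hx, hJ2]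
  have h1 := AdjGen_83.dmap_smul B.Θ x (-1 : ℝ) v
  rw [neg_one_smul, neg_one_smul] at h1
  exact h1.symm

/-- the branch data of helper688. -/
theorem br_of {B : FBox c p V} (P : Pl B) (j : Fin (c.L p).n) :
    AdjSheet_688.Br B.J' (B.v j) B.r1 (B.m j) (B.a j) B.C (P.e j) where
  r1_pos := B.r1_pos
  smooth := B.v_smooth j
  hol := B.v_hol j
  m_pos := B.m_pos j
  a_ne := B.a_ne j
  C_nonneg := B.C_nonneg
  ζ0 := B.ζ0 j
  ζ1 := B.ζ1 j
  z0 := B.z0 j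
  z1 := B.z1 j
  src := P.src j
  mem0 := (P.nf j).src
  zero := (P.nf j).zero
  cs := by rw [(P.nf j).tgt]; exact (P.nf j).c1s
  c1 := (P.nf j).c1
  pow := (P.nf j).pow

/-- a `J`-disc in the box. -/
theorem hol_lift (B : FBox c p V) {u : ℂ → M} {O : Set ℂ} (hO : IsOpen O) (hu : IsJHol J u O)
    (hT : ∀ s ∈ O, u s ∈ B.Θ.target) :
    ContDiffOn ℝ ∞ (fun s => B.Θ.symm (u s)) O ∧ JHol B.J' (fun s => B.Θ.symm (u s)) O := by
  have h1 : ∀ s ∈ O, ContDiffAt ℝ ∞ (fun s => B.Θ.symm (u s)) s := by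
    intro s hs
    have h2 : ContMDiffAt 𝓘(ℝ, E4) 𝓘(ℝ, ℂ × ℂ) ∞ B.Θ.symm (u s) :=
      B.smooth_symm.contMDiffAt (B.Θ.open_target.mem_nhds (hT s hs))
    have h3 : ContMDiffAt 𝓘(ℝ, ℂ) 𝓘(ℝ, E4) ∞ u s := hu.smooth.contMDiffAt (hO.mem_nhds hs)
    exact (ContMDiffAt.comp s h2 h3).contDiffAt
  refine ⟨fun s hs => (h1 s hs).contDiffWithinAt, fun s hs => ?_⟩
  have hd : DifferentiableAt ℝ (fun s => B.Θ.symm (u s)) s :=
    (h1 s hs).differentiableAt (by simp)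
  refine ⟨hd, fun v => ?_⟩
  have hb : B.Θ.symm (u s) ∈ ball (0 : ℂ × ℂ) B.R := symm_mem_ball (hT s hs)
  have hev : u =ᶠ[𝓝 s] fun t => B.Θ (B.Θ.symm (u t)) := by
    filter_upwards [hO.mem_nhds hs] with t ht
    exact (B.Θ.right_inv (hT t ht)).symm
  have hdm : ∀ t : ℂ, dmap u s t = dmap B.Θ (B.Θ.symm (u s))
      (fderiv ℝ (fun s => B.Θ.symm (u s)) s t) := by
    intro t
    rw [AdjGen_83.dmap_congr hev]
    exact AdjGen_83.dmap_comp hd.hasFDerivAt (Θ_smoothAt hb) t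
  refine dmap_Θ_inj B hb ?_
  rw [B.conj _ hb, ← hdm, ← hdm, B.Θ.right_inv (hT s hs), hu.jhol s hs]

/-- **unique continuation at the centre of a disc.** -/
theorem uc_box [T2Space M] [CompactSpace M] (B : FBox c p V)
    (hJ2 : ∀ x v, atJ J x (atJ J x v) = -v) {u : ℂ → M} (hu : IsDisc J u) (hu0 : u 0 = p)
    (hfr : ∃ᶠ z in 𝓝[≠] (0 : ℂ), u z ∈ range c.f) : ∀ᶠ z in 𝓝 (0 : ℂ), u z ∈ range c.f := by
  obtain ⟨P⟩ := exists_pl B
  obtain ⟨δ, L, hδR, hB⟩ := exists_mb B.R_pos B.smoothJ (fun x hx v => J'_sq B hJ2 hx v)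
    B.leaf B.J0
  set w : ℂ → ℂ × ℂ := fun s => B.Θ.symm (u s) with hw
  have h01 : (0 : ℂ) ∈ ball (0 : ℂ) 1 := mem_ball_self one_pos
  have huc : ContinuousAt u 0 := hu.hol.smooth.continuousOn.continuousAt (isOpen_ball.mem_nhds h01)
  have hw0 : w 0 = 0 := by
    show B.Θ.symm (u 0) = 0
    rw [hu0, symm_p]
  have hwc : ContinuousAt w 0 := by
    have h1 : ContinuousAt B.Θ.symm (u 0) := B.Θ.symm.continuousAt (by rw [hu0]; exact p_mem B)
    exact ContinuousAt.comp (f := u) h1 huc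
  have hcl : IsClosed (range c.f) := (isCompact_range c.cont).isClosed
  have hp : p ∈ range c.f := by
    have h1 : ∃ᶠ z in 𝓝 (0 : ℂ), u z ∈ range c.f := hfr.filter_mono nhdsWithin_le_nhds
    have h2 : u 0 ∈ closure (range c.f) := by
      rw [mem_closure_iff_frequently]
      exact huc.tendsto.frequently h1
    rwa [hcl.closure_eq, hu0] at h2
  -- the radius
  have hev : ∀ᶠ s in 𝓝 (0 : ℂ), s ∈ ball (0 : ℂ) 1 ∧ u s ∈ B.Θ.target ∧
      w s ∈ ball (0 : ℂ × ℂ) δ ∧ w s ∈ ball (0 : ℂ × ℂ) P.δ := by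
    refine (show ∀ᶠ s in 𝓝 (0 : ℂ), s ∈ ball (0 : ℂ) 1 from isOpen_ball.mem_nhds h01).and
      ((huc.eventually_mem ?_).and ((hwc.eventually_mem ?_).and (hwc.eventually_mem ?_)))
    · rw [hu0]; exact B.Θ.open_target.mem_nhds (p_mem B)
    · rw [hw0]; exact ball_mem_nhds _ hB.pos
    · rw [hw0]; exact ball_mem_nhds _ P.δ_pos
  obtain ⟨r, hr, hrr⟩ := Metric.eventually_nhds_iff_ball.1 hev
  obtain ⟨hws, hwJ⟩ := hol_lift B isOpen_ball (O := ball (0 : ℂ) r)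
    ⟨hu.hol.smooth.mono fun s hs => (hrr s hs).1, fun s hs => hu.hol.jhol s (hrr s hs).1⟩
    (fun s hs => (hrr s hs).2.1)
  have hiff : ∀ s ∈ ball (0 : ℂ) r, (u s ∈ range c.f ↔ P.G (w s) = 0) := fun s hs =>
    (P.F_zero ⟨(hrr s hs).2.1, (hrr s hs).2.2.2⟩).symm
  rcases zeta_isolated hB hr (hws.of_le (WithTop.coe_le_coe.2 le_top)) (fun s hs => (hrr s hs).2.2.1)
    hwJ with hA | hA
  · -- the disc is vertical
    exfalso
    have hA' : ∀ᶠ s in 𝓝[≠] (0 : ℂ), (w s).1 = 0 ∧ s ∈ ball (0 : ℂ) r ∧ s ≠ 0 := by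
      filter_upwards [nhdsWithin_le_nhds hA, nhdsWithin_le_nhds (ball_mem_nhds (0 : ℂ) hr),
        self_mem_nhdsWithin] with s h1 h2 h3 using ⟨h1, h2, h3⟩
    obtain ⟨s, hs1, hs2, hs3, hs0⟩ := (hfr.and_eventually hA').exists
    obtain ⟨j, t, ht, htw⟩ := (Pl.G_eq_zero (Pl.norm_fst_lt (hrr s hs3).2.2.2)).1
      ((hiff s hs3).1 hs1)
    have h1 : (B.v j t).1 = 0 := by rw [htw]; exact hs2
    rw [Pl.v_eq ht] at h1
    have h3 : P.e j t = 0 := pow_eq_zero_iff (Pl.m_ne B j) |>.1 h1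
    have h4 : t = 0 := by
      by_contra h5
      exact Pl.e_ne ht h5 h3
    rw [h4, v_zero] at htw
    have h5 : u s = u 0 := by
      have h6 : B.Θ (w s) = u s := B.Θ.right_inv (hrr s hs3).2.1
      rw [hu0, ← h6, ← htw, B.centre]
    exact hs0 (hu.inj (hrr s hs3).1 h01 h5)
  · -- bounds
    have hwd : DifferentiableAt ℝ w 0 :=
      ((hws.contDiffAt (ball_mem_nhds (0 : ℂ) hr))).differentiableAt (by simp)
    obtain ⟨C, hC⟩ := hwd.hasFDerivAt.isBigO_sub.bound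
    have hev2 : ∀ᶠ s in 𝓝 (0 : ℂ), s ∈ ball (0 : ℂ) r ∧ (s ≠ 0 → (w s).1 ≠ 0) ∧
        ‖w s - w 0‖ ≤ C * ‖s - 0‖ :=
      (show ∀ᶠ s in 𝓝 (0 : ℂ), s ∈ ball (0 : ℂ) r from ball_mem_nhds (0 : ℂ) hr).and
        ((eventually_nhdsWithin_iff.1 hA).and hC)
    obtain ⟨r2, hr2, hrr2⟩ := Metric.eventually_nhds_iff_ball.1 hev2
    have hsub : ball (0 : ℂ) r2 ⊆ ball 0 r := fun s hs => (hrr2 s hs).1
    have hbd : ∀ s ∈ ball (0 : ℂ) r2, ‖w s‖ ≤ C * ‖s‖ ^ 1 := fun s hs => by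
      have h1 := (hrr2 s hs).2.2
      rwa [hw0, sub_zero, sub_zero, ← pow_one ‖s‖] at h1
    have key := isoF hB (br_of P) (u := w) (r := r2) (C' := C) (M := 1) le_rfl hr2
      ((hws.mono hsub).of_le (by exact_mod_cast le_top)) (fun s hs => hwJ s (hsub hs))
      (fun s hs => (norm_fst_le (w s)).trans (hbd s hs))
      (fun s hs => (norm_snd_le (w s)).trans (hbd s hs))
      (fun s hs hs0 => (hrr2 s hs).2.1 hs0)
    rcases key with h1 | h1
    · have h2 : ∀ᶠ s in 𝓝[≠] (0 : ℂ), u s ∈ range c.f := by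
        filter_upwards [h1, nhdsWithin_le_nhds (ball_mem_nhds (0 : ℂ) hr)] with s hs hsr
        exact (hiff s hsr).2 hs
      rw [eventually_nhdsWithin_iff] at h2
      filter_upwards [h2] with s hs
      by_cases hs0 : s = 0
      · rw [hs0, hu0]; exact hp
      · exact hs hs0
    · exfalso
      have h1' : ∀ᶠ s in 𝓝[≠] (0 : ℂ), P.G (w s) ≠ 0 ∧ s ∈ ball (0 : ℂ) r := by
        filter_upwards [h1, nhdsWithin_le_nhds (ball_mem_nhds (0 : ℂ) hr)] with s h2 h3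
          using ⟨h2, h3⟩
      obtain ⟨s, hs1, hs2, hs3⟩ := (hfr.and_eventually h1').exists
      exact hs2 ((hiff s hs3).1 hs1)

end box

end

end Crest.Agent.R235.Same_796
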