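import Crest.Agent.R235.IndSig3_723
import Crest.Agent.R235.HodgeEnd_194

/-!
Row 235 (S0364), package IND (helper723): **`SIG235` is a theorem** (from `HODGE` of helper194, `KER4` of
helper936, the index theorem of R249 and the density identities of helper167, helper819).
-/

set_option autoImplicit false

namespace Crest.Agent.R235.Sig235_723

/-- **`SIG235`**. -/
theorem sig235 : DichProps_723.SIG235.{0} := IndSig2_723.sig235_of_HODGE Hodge_194.hodge

end Crest.Agent.R235.Sig235_723
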