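import Crest.Agent.R235.Sim_679

/-!
Row 235, NW4 (S1): the Carleman similarity principle, final forms.
-/

set_option autoImplicit false

noncomputable section

namespace Crest.Agent.R235.Sim2_679

open Set Metric MeasureTheory Filter Topology
open scoped ContDiff NNReal Real
open Crest.Agent.R235.CauchyV_679 Crest.Agent.R235.Sim_679

/-- a `C¹` function on a ball coincides on a smaller ball with a global `C¹` function -/
theorem exists_ext {G : Type*} [NormedAddCommGroup G] [NormedSpace ℝ G] {f : ℂ → G} {r r' : ℝ}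
    (h0 : 0 < r') (hr : r' < r) (hf : ContDiffOn ℝ 1 f (ball 0 r)) :
    ∃ g : ℂ → G, ContDiff ℝ 1 g ∧ ∃ r1, r' < r1 ∧ r1 < r ∧ ∀ z ∈ ball (0:ℂ) r1, g z = f z := by
  let χ : ContDiffBump (0:ℂ) := ⟨(r' + r) / 2, (r' + 3 * r) / 4, by linarith, by linarith⟩
  refine ⟨fun z => χ z • f z, ?_, (r' + r) / 2, by linarith, by linarith, fun z hz => ?_⟩
  · rw [contDiff_iff_contDiffAt]
    intro z
    by_cases hz : ‖z‖ < r
    · have h1 : ContDiffAt ℝ 1 f z := hf.contDiffAt (isOpen_ball.mem_nhds (by simpa using hz))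
      exact χ.contDiff.contDiffAt.smul h1
    · have h2 : (fun z => χ z • f z) =ᶠ[𝓝 z] fun _ => 0 := by
        have h3 : IsOpen {w : ℂ | (r' + 3 * r) / 4 < ‖w‖} := isOpen_lt continuous_const continuous_norm
        filter_upwards [h3.mem_nhds (show (r' + 3 * r) / 4 < ‖z‖ by linarith [not_lt.1 hz])] with w hw
        have : χ w = 0 := χ.zero_of_le_dist (by rw [dist_zero_right]; exact hw.le)
        rw [this, zero_smul]
      exact contDiffAt_const.congr_of_eventuallyEq h2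
  · have : χ z = 1 := χ.one_of_mem_closedBall (ball_subset_closedBall hz)
    show χ z • f z = f z
    rw [this, one_smul]

theorem db_congr {F : Type*} [NormedAddCommGroup F] [NormedSpace ℂ F] {f g : ℂ → F} {z : ℂ}
    (h : f =ᶠ[𝓝 z] g) : db f z = db g z := by
  unfold db
  rw [h.fderiv_eq]

/-- **similarity principle, scalar version** -/
theorem sim_scalar {f : ℂ → ℂ} {r C : ℝ} (hf : ContDiffOn ℝ 1 f (ball 0 r))
    (h : ∀ z ∈ ball (0:ℂ) r, ‖db f z‖ ≤ C * ‖f z‖) {r' : ℝ} (h0 : 0 < r') (hr : r' < r) :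
    ∃ s h : ℂ → ℂ, ContinuousOn s (closedBall 0 r') ∧ DifferentiableOn ℂ h (ball 0 r') ∧
      ∀ z ∈ ball (0:ℂ) r', f z = Complex.exp (s z) * h z := by
  obtain ⟨g, hg, r1, hr1, hr2, hgf⟩ := exists_ext h0 hr hf
  have hdb : ∀ z ∈ ball (0:ℂ) r1, db g z = db f z := by
    intro z hz
    apply db_congr
    filter_upwards [isOpen_ball.mem_nhds hz] with w hw using hgf w hw
  set C' := max C 0 with hC'
  set u : ℂ → ℂ := (closedBall (0:ℂ) r').indicator (fun z => db g z / g z) with hu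
  have hsub : closedBall (0:ℂ) r' ⊆ ball 0 r1 := closedBall_subset_ball hr1
  have hub : ∀ z, ‖u z‖ ≤ C' := by
    intro z
    by_cases hz : z ∈ closedBall (0:ℂ) r'
    · rw [hu, indicator_of_mem hz]
      have h1 : ‖db g z‖ ≤ C * ‖g z‖ := by
        rw [hdb z (hsub hz), hgf z (hsub hz)]
        exact h z (ball_subset_ball hr2.le (hsub hz))
      rw [norm_div]
      by_cases h2 : g z = 0
      · rw [h2, norm_zero, div_zero]; exact le_max_right _ _
      · rw [div_le_iff₀ (norm_pos_iff.2 h2)]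
        exact h1.trans (by gcongr; exact le_max_left _ _)
    · rw [hu, indicator_of_notMem hz, norm_zero]; exact le_max_right _ _
  have hum : AEStronglyMeasurable u volume := by
    apply Measurable.aestronglyMeasurable
    apply Measurable.indicator _ measurableSet_closedBall
    exact (db_continuous hg).measurable.div hg.continuous.measurable
  have hu0 : ∀ ζ, r' < ‖ζ‖ → u ζ = 0 := by
    intro ζ hζ
    apply indicator_of_notMem
    rw [mem_closedBall, dist_zero_right]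
    exact not_le.2 hζ
  have hmem : MemLp u 3 volume := memLp_bdd hum hu0 hub
  have hcore := core_scalar hg h0 hmem hu0 (by
    intro z hz
    have hzc : z ∈ closedBall (0:ℂ) r' := ball_subset_closedBall hz
    rw [hu, indicator_of_mem hzc]
    by_cases h2 : g z = 0
    · have h1 : ‖db g z‖ ≤ C * ‖g z‖ := by
        rw [hdb z (hsub hzc), hgf z (hsub hzc)]
        exact h z (ball_subset_ball hr2.le (hsub hzc))
      rw [h2, norm_zero, mul_zero] at h1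
      rw [h2, mul_zero, norm_le_zero_iff.1 h1]
    · field_simp)
  refine ⟨PV u, _, (continuousOn_PV h0 hmem hu0).mono (closedBall_subset_closedBall (by linarith)),
    hcore, fun z hz => ?_⟩
  rw [← hgf z (hsub (ball_subset_closedBall hz)), ← mul_assoc, ← Complex.exp_add]
  simp

/-! ### the vector version -/

section vec
variable {F : Type*} [NormedAddCommGroup F] [NormedSpace ℂ F]

/-- smallness constant -/
def kap (ρ : ℝ) : ℝ := (KC 1 * volume (closedBall (0:ℂ) ρ) ^ (1 / (3:ℝ))).toReal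

theorem KC_mono {ρ : ℝ} (h : ρ ≤ 1) : KC ρ ≤ KC 1 := by
  unfold KC
  apply ENNReal.rpow_le_rpow _ (by norm_num)
  apply lintegral_mono
  intro ζ
  apply ENNReal.rpow_le_rpow _ (by norm_num)
  rw [enorm_indicator_eq_indicator_enorm, enorm_indicator_eq_indicator_enorm]
  exact indicator_le_indicator_of_subset (closedBall_subset_closedBall (by linarith))
    (fun _ => bot_le) ζ

theorem norm_PV_small {ρ M : ℝ} (hρ1 : ρ ≤ 1) (hM : 0 ≤ M) {u : ℂ → F}
    (hu : AEStronglyMeasurable u volume) (h0 : ∀ ζ, ρ < ‖ζ‖ → u ζ = 0) (hb : ∀ ζ, ‖u ζ‖ ≤ M)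
    {z : ℂ} (hz : ‖z‖ ≤ ρ) : ‖PV u z‖ ≤ kap ρ * M := by
  have hV : volume (closedBall (0:ℂ) ρ) < ⊤ := measure_closedBall_lt_top
  have h1 : eLpNorm u 3 volume ≤ ENNReal.ofReal M * volume (closedBall (0:ℂ) ρ) ^ (1 / (3:ℝ)) := by
    have h2 : eLpNorm u 3 volume ≤
        eLpNorm ((closedBall (0:ℂ) ρ).indicator fun _ => (M : ℝ)) 3 volume := by
      apply eLpNorm_mono
      intro ζ
      by_cases hζ : ζ ∈ closedBall (0:ℂ) ρ
      · rw [indicator_of_mem hζ]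
        exact (hb ζ).trans (le_abs_self _)
      · rw [mem_closedBall, dist_zero_right, not_le] at hζ
        rw [h0 ζ hζ]; simp
    refine h2.trans ?_
    rw [eLpNorm_indicator_const measurableSet_closedBall (by norm_num) (by norm_num)]
    rw [← ofReal_norm, Real.norm_of_nonneg hM]
    norm_num
  have h2 : ‖PV u z‖ₑ ≤ KC 1 * volume (closedBall (0:ℂ) ρ) ^ (1 / (3:ℝ)) * ENNReal.ofReal M := by
    refine (enorm_PV_le' (memLp_bdd hu h0 hb) h0 hz).trans ?_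
    calc KC ρ * eLpNorm u 3 volume
        ≤ KC 1 * (ENNReal.ofReal M * volume (closedBall (0:ℂ) ρ) ^ (1 / (3:ℝ))) := by
          gcongr
          exact KC_mono hρ1
      _ = _ := by ring
  have hfin : KC 1 * volume (closedBall (0:ℂ) ρ) ^ (1 / (3:ℝ)) ≠ ⊤ :=
    ENNReal.mul_ne_top (KC_lt _).ne (ENNReal.rpow_lt_top_of_nonneg (by norm_num) hV.ne).ne
  have h3 := ENNReal.toReal_mono (ENNReal.mul_ne_top hfin ENNReal.ofReal_ne_top) h2
  rw [toReal_enorm, ENNReal.toReal_mul, ENNReal.toReal_ofReal hM] at h3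
  exact h3

theorem kap_nonneg (ρ : ℝ) : 0 ≤ kap ρ := ENNReal.toReal_nonneg

theorem kap_tendsto : Tendsto kap (𝓝[>] 0) (𝓝 0) := by
  have h1 : Tendsto (fun ρ : ℝ => volume (closedBall (0:ℂ) ρ)) (𝓝[>] 0) (𝓝 0) := by
    have h2 : (fun ρ : ℝ => volume (closedBall (0:ℂ) ρ)) =
        fun ρ : ℝ => ENNReal.ofReal ρ ^ 2 * (NNReal.pi : ENNReal) := by
      funext ρ
      rw [Complex.volume_closedBall]
    rw [h2]
    have h3 : Tendsto (fun ρ : ℝ => ENNReal.ofReal ρ ^ 2 * (NNReal.pi : ENNReal)) (𝓝 0)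
        (𝓝 (ENNReal.ofReal 0 ^ 2 * (NNReal.pi : ENNReal))) := by
      have h4 : Continuous fun ρ : ℝ => ENNReal.ofReal ρ ^ 2 :=
        ENNReal.continuous_pow 2 |>.comp ENNReal.continuous_ofReal
      exact ENNReal.Tendsto.mul_const (h4.tendsto 0) (Or.inr ENNReal.coe_ne_top)
    simp only [ENNReal.ofReal_zero, ne_eq, OfNat.ofNat_ne_zero, not_false_eq_true, zero_pow,
      zero_mul] at h3
    exact h3.mono_left nhdsWithin_le_nhds
  have h5 : Tendsto (fun ρ : ℝ => KC 1 * volume (closedBall (0:ℂ) ρ) ^ (1 / (3:ℝ))) (𝓝[>] 0)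
      (𝓝 (KC 1 * 0)) := by
    apply ENNReal.Tendsto.const_mul _ (Or.inr (KC_lt 1).ne)
    have := (ENNReal.continuous_rpow_const (y := 1 / (3:ℝ))).tendsto 0 |>.comp h1
    rw [ENNReal.zero_rpow_of_pos (by norm_num)] at this
    exact this
  rw [mul_zero] at h5
  have h6 := (ENNReal.tendsto_toReal (by simp)).comp h5
  rw [ENNReal.toReal_zero] at h6
  exact h6

theorem exists_small (C : ℝ) {r : ℝ} (hr : 0 < r) :
    ∃ ρ, 0 < ρ ∧ ρ < r ∧ ρ ≤ 1 ∧ kap ρ * C ≤ 1 / 4 := by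
  have h1 : Tendsto (fun ρ => kap ρ * C) (𝓝[>] 0) (𝓝 0) := by
    simpa using kap_tendsto.mul_const C
  have h2 : ∀ᶠ ρ in 𝓝[>] (0:ℝ), kap ρ * C < 1 / 4 := (tendsto_order.1 h1).2 _ (by norm_num)
  have h3 : ∀ᶠ ρ in 𝓝[>] (0:ℝ), ρ ∈ Ioo 0 (min r 1) := Ioo_mem_nhdsGT (by positivity)
  obtain ⟨ρ, h4, h5⟩ := (h2.and h3).exists
  exact ⟨ρ, h5.1, h5.2.trans_le (min_le_left _ _), (h5.2.trans_le (min_le_right _ _)).le, h4.le⟩

/-- retraction on the closed ball -/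
def pr (ρ : ℝ) (ζ : ℂ) : ℂ := (ρ / max ρ ‖ζ‖ : ℝ) • ζ

theorem pr_mem {ρ : ℝ} (hρ : 0 < ρ) (ζ : ℂ) : pr ρ ζ ∈ closedBall (0:ℂ) ρ := by
  rw [mem_closedBall, dist_zero_right, pr, norm_smul, Real.norm_eq_abs]
  have h1 : 0 < max ρ ‖ζ‖ := lt_max_of_lt_left hρ
  rw [abs_of_pos (by positivity), div_mul_eq_mul_div, div_le_iff₀ h1]
  gcongr
  exact le_max_right _ _

theorem pr_of_mem {ρ : ℝ} (hρ : 0 < ρ) {ζ : ℂ} (h : ζ ∈ closedBall (0:ℂ) ρ) : pr ρ ζ = ζ := by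
  rw [mem_closedBall, dist_zero_right] at h
  rw [pr, max_eq_left h, div_self hρ.ne', one_smul]

theorem pr_continuous {ρ : ℝ} (hρ : 0 < ρ) : Continuous (pr ρ) := by
  have h1 : Continuous fun ζ : ℂ => (ρ / max ρ ‖ζ‖ : ℝ) := by
    apply Continuous.div continuous_const (continuous_const.max continuous_norm)
    intro ζ
    exact (lt_max_of_lt_left hρ).ne'
  exact h1.smul continuous_id

variable {E : Type*} [NormedAddCommGroup E] [NormedSpace ℂ E] [FiniteDimensional ℂ E]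

/-- existence of the matrix solution `Ψ = 1 - P(Ψ A 1_B)` on a small ball -/
theorem exists_sol {A : ℂ → E →L[ℂ] E} (hA : AEStronglyMeasurable A volume) {r C : ℝ} (hr : 0 < r)
    (hC : 0 ≤ C) (hb : ∀ ζ ∈ ball (0:ℂ) r, ‖A ζ‖ ≤ C) :
    ∃ ρ, 0 < ρ ∧ ρ < r ∧ ∃ Ψ u : ℂ → E →L[ℂ] E, ContinuousOn Ψ (closedBall 0 ρ) ∧
      (∀ z ∈ closedBall (0:ℂ) ρ, ‖Ψ z - 1‖ ≤ 1 / 2) ∧ MemLp u 3 volume ∧
      (∀ ζ, ρ < ‖ζ‖ → u ζ = 0) ∧ (∀ ζ ∈ closedBall (0:ℂ) ρ, u ζ = (Ψ ζ).comp (A ζ)) ∧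
      ∀ z ∈ closedBall (0:ℂ) ρ, Ψ z = 1 - PV u z := by
  have hcs : CompleteSpace E := FiniteDimensional.complete ℂ E
  obtain ⟨ρ, hρ, hρr, hρ1, hk⟩ := exists_small C hr
  have hsub : closedBall (0:ℂ) ρ ⊆ ball 0 r := closedBall_subset_ball hρr
  let K := closedBall (0:ℂ) ρ
  have hKc : CompactSpace K := isCompact_iff_compactSpace.1 (isCompact_closedBall _ _)
  let prK : ℂ → K := fun ζ => ⟨pr ρ ζ, pr_mem hρ ζ⟩
  have hprK : Continuous prK := (pr_continuous hρ).subtype_mk _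
  let U : C(K, E →L[ℂ] E) → ℂ → E →L[ℂ] E := fun Φ =>
    K.indicator (fun ζ => (Φ (prK ζ)).comp (A ζ))
  have hUin : ∀ Φ : C(K, E →L[ℂ] E), ∀ ζ (hζ : ζ ∈ K), U Φ ζ = (Φ ⟨ζ, hζ⟩).comp (A ζ) := by
    intro Φ ζ hζ
    show K.indicator _ ζ = _
    rw [indicator_of_mem hζ]
    congr 2
    exact Subtype.ext (pr_of_mem hρ hζ)
  have hUm : ∀ Φ : C(K, E →L[ℂ] E), AEStronglyMeasurable (U Φ) volume := by
    intro Φ
    apply AEStronglyMeasurable.indicator _ measurableSet_closedBall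
    have h1 : AEStronglyMeasurable (fun ζ => Φ (prK ζ)) volume :=
      (Φ.continuous.comp hprK).aestronglyMeasurable
    exact (ContinuousLinearMap.compL ℂ E E E).continuous₂.comp_aestronglyMeasurable
      (h1.prodMk hA)
  have hU0 : ∀ Φ : C(K, E →L[ℂ] E), ∀ ζ, ρ < ‖ζ‖ → U Φ ζ = 0 := by
    intro Φ ζ hζ
    apply indicator_of_notMem
    show ζ ∉ closedBall (0:ℂ) ρ
    rw [mem_closedBall, dist_zero_right]
    exact not_le.2 hζ
  have hUb : ∀ Φ : C(K, E →L[ℂ] E), ∀ ζ, ‖U Φ ζ‖ ≤ ‖Φ‖ * C := by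
    intro Φ ζ
    by_cases hζ : ζ ∈ K
    · rw [hUin Φ ζ hζ]
      refine (ContinuousLinearMap.opNorm_comp_le _ _).trans ?_
      exact mul_le_mul (Φ.norm_coe_le_norm _) (hb ζ (hsub hζ)) (norm_nonneg _) (norm_nonneg Φ)
    · have : U Φ ζ = 0 := indicator_of_notMem hζ _
      rw [this, norm_zero]; positivity
  have hUl : ∀ Φ : C(K, E →L[ℂ] E), MemLp (U Φ) 3 volume := fun Φ => memLp_bdd (hUm Φ) (hU0 Φ) (hUb Φ)
  have hUsub : ∀ Φ Φ' : C(K, E →L[ℂ] E), ∀ ζ, U Φ ζ - U Φ' ζ = U (Φ - Φ') ζ := by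
    intro Φ Φ' ζ
    by_cases hζ : ζ ∈ K
    · rw [hUin _ ζ hζ, hUin _ ζ hζ, hUin _ ζ hζ, ContinuousMap.sub_apply,
        ContinuousLinearMap.sub_comp]
    · have h1 : ∀ Φ : C(K, E →L[ℂ] E), U Φ ζ = 0 := fun Φ => indicator_of_notMem hζ _
      rw [h1, h1, h1, sub_zero]
  let T : C(K, E →L[ℂ] E) → C(K, E →L[ℂ] E) := fun Φ => ⟨fun z : K => 1 - PV (U Φ) z, by
    have h1 : ContinuousOn (PV (U Φ)) K :=
      (continuousOn_PV hρ (hUl Φ) (hU0 Φ)).mono (closedBall_subset_closedBall (by linarith))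
    exact continuous_const.sub (continuousOn_iff_continuous_domRestrict.1 h1)⟩
  have hPb : ∀ Φ : C(K, E →L[ℂ] E), ∀ z ∈ K, ‖PV (U Φ) z‖ ≤ (1 / 4) * ‖Φ‖ := by
    intro Φ z hz
    have h1 := norm_PV_small (ρ := ρ) (M := ‖Φ‖ * C) hρ1 (by positivity) (hUm Φ) (hU0 Φ) (hUb Φ)
      (z := z) (by
        have : z ∈ closedBall (0:ℂ) ρ := hz
        rwa [mem_closedBall, dist_zero_right] at this)
    calc ‖PV (U Φ) z‖ ≤ kap ρ * (‖Φ‖ * C) := h1
      _ = (kap ρ * C) * ‖Φ‖ := by ring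
      _ ≤ (1 / 4) * ‖Φ‖ := by gcongr
  have hT : ContractingWith (1 / 4 : ℝ≥0) T := by
    refine ⟨by rw [← NNReal.coe_lt_coe]; norm_num, ?_⟩
    apply LipschitzWith.of_dist_le_mul
    intro Φ Φ'
    rw [ContinuousMap.dist_le (by positivity)]
    intro z
    have hzz : ‖(z:ℂ)‖ ≤ ρ := by
      have := z.2
      rwa [mem_closedBall, dist_zero_right] at this
    have h1 : (T Φ) z - (T Φ') z = -PV (U (Φ - Φ')) z := by
      have h2 : PV (U (Φ - Φ')) z = PV (U Φ) z - PV (U Φ') z := by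
        rw [← PV_sub (hUl Φ) (hUl Φ') (hU0 Φ) (hU0 Φ') hzz]
        congr 1
        funext ζ
        exact (hUsub Φ Φ' ζ).symm
      rw [h2]
      show (1 - PV (U Φ) z) - (1 - PV (U Φ') z) = _
      abel
    rw [dist_eq_norm, h1, norm_neg, dist_eq_norm Φ Φ']
    have := hPb (Φ - Φ') z z.2
    simpa using this
  let Φ := hT.fixedPoint T
  have hΦ : T Φ = Φ := hT.fixedPoint_isFixedPt
  have hΦ' : ∀ z (hz : z ∈ K), Φ ⟨z, hz⟩ = 1 - PV (U Φ) z := by
    intro z hz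
    conv_lhs => rw [← hΦ]
    rfl
  have hn1 : ∀ z : K, ‖Φ z - 1‖ ≤ (1 / 4) * ‖Φ‖ := by
    intro z
    have h1 : Φ z = 1 - PV (U Φ) z := hΦ' z z.2
    rw [h1]
    have h2 : (1 - PV (U Φ) (z:ℂ)) - 1 = -PV (U Φ) z := by abel
    rw [h2, norm_neg]
    exact hPb Φ z z.2
  have hone : ‖(1 : E →L[ℂ] E)‖ ≤ 1 := ContinuousLinearMap.norm_id_le
  have hn2 : ‖Φ‖ ≤ 4 / 3 := by
    have h1 : ‖Φ‖ ≤ 1 + (1 / 4) * ‖Φ‖ := by
      rw [ContinuousMap.norm_le _ (by positivity)]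
      intro z
      calc ‖Φ z‖ = ‖1 + (Φ z - 1)‖ := by congr 1; abel
        _ ≤ ‖(1 : E →L[ℂ] E)‖ + ‖Φ z - 1‖ := norm_add_le _ _
        _ ≤ 1 + (1 / 4) * ‖Φ‖ := add_le_add hone (hn1 z)
    linarith
  refine ⟨ρ, hρ, hρr, fun ζ => Φ (prK ζ), U Φ, (Φ.continuous.comp hprK).continuousOn, ?_,
    hUl Φ, hU0 Φ, ?_, ?_⟩
  · intro z hz
    refine (hn1 _).trans ?_
    linarith
  · intro ζ hζ
    rw [hUin Φ ζ hζ]
    congr 2
    exact (Subtype.ext (pr_of_mem hρ hζ)).symm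
  · intro z hz
    have h1 : prK z = ⟨z, hz⟩ := Subtype.ext (pr_of_mem hρ hz)
    show Φ (prK z) = _
    rw [h1, hΦ' z hz]

end vec

end Crest.Agent.R235.Sim2_679
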