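import Crest.Agent.R235.Sim2_679

/-!
Row 235, NW4 (S1), (S3): the similarity principle for vector valued functions, leading monomial,
unique continuation.
-/

set_option autoImplicit false

noncomputable section

namespace Crest.Agent.R235.Sim3_679

open Set Metric MeasureTheory Filter Topology
open scoped ContDiff NNReal Real
open Crest.Agent.R235.CauchyV_679 Crest.Agent.R235.Sim_679 Crest.Agent.R235.Sim2_679

theorem db_clm {E F : Type*} [NormedAddCommGroup E] [NormedSpace ℂ E] [NormedAddCommGroup F]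
    [NormedSpace ℂ F] (l : E →L[ℂ] F) {f : ℂ → E} {z : ℂ} (hf : DifferentiableAt ℝ f z) :
    db (fun z => l (f z)) z = l (db f z) := by
  have h1 : fderiv ℝ (fun z => l (f z)) z = (l.restrictScalars ℝ).comp (fderiv ℝ f z) :=
    ((l.restrictScalars ℝ).hasFDerivAt.comp z hf.hasFDerivAt).fderiv
  unfold db
  rw [h1]
  simp

theorem sim_inner {E : Type*} [NormedAddCommGroup E] [InnerProductSpace ℂ E]
    [FiniteDimensional ℂ E] {f : ℂ → E} {r C : ℝ} (hr : 0 < r) (hf : ContDiffOn ℝ 1 f (ball 0 r))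
    (h : ∀ z ∈ ball (0:ℂ) r, ‖db f z‖ ≤ C * ‖f z‖) :
    ∃ ρ, 0 < ρ ∧ ρ < r ∧ ∃ Ψ : ℂ → E →L[ℂ] E, ContinuousOn Ψ (closedBall 0 ρ) ∧
      (∀ z ∈ closedBall (0:ℂ) ρ, ‖Ψ z - 1‖ ≤ 1 / 2) ∧
      DifferentiableOn ℂ (fun z => Ψ z (f z)) (ball 0 ρ) := by
  have hcs : CompleteSpace E := FiniteDimensional.complete ℂ E
  obtain ⟨g, hg, r1, hr1, hr2, hgf⟩ := exists_ext (r' := r / 2) (by linarith) (by linarith) hf
  have hdb : ∀ z ∈ ball (0:ℂ) r1, db g z = db f z := by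
    intro z hz
    apply db_congr
    filter_upwards [isOpen_ball.mem_nhds hz] with w hw using hgf w hw
  have hineq : ∀ z ∈ ball (0:ℂ) r1, ‖db g z‖ ≤ C * ‖g z‖ := by
    intro z hz
    rw [hdb z hz, hgf z hz]
    exact h z (ball_subset_ball hr2.le hz)
  set A : ℂ → E →L[ℂ] E := fun z =>
    ((‖g z‖ ^ 2)⁻¹ : ℝ) • (innerSL ℂ (g z)).smulRight (db g z) with hA
  have hA1 : ∀ z ∈ ball (0:ℂ) r1, A z (g z) = db g z := by
    intro z hz
    by_cases h2 : g z = 0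
    · have h1 := hineq z hz
      rw [h2, norm_zero, mul_zero] at h1
      rw [h2, map_zero, norm_le_zero_iff.1 h1]
    · have h3 : ‖g z‖ ≠ 0 := norm_ne_zero_iff.2 h2
      simp only [hA, smul_apply, ContinuousLinearMap.smulRight_apply, innerSL_apply_apply]
      rw [inner_self_eq_norm_sq_to_K]
      have h4 : ((‖g z‖ : ℂ) ^ 2) • db g z = ((‖g z‖ ^ 2 : ℝ)) • db g z := by
        rw [← Complex.ofReal_pow]
        exact Complex.coe_smul _ _
      rw [show ((RCLike.ofReal ‖g z‖ : ℂ) ^ 2) • db g z = ((‖g z‖ : ℂ) ^ 2) • db g z from rfl, h4,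
        smul_smul, inv_mul_cancel₀ (by positivity), one_smul]
  have hA2 : ∀ z ∈ ball (0:ℂ) r1, ‖A z‖ ≤ max C 0 := by
    intro z hz
    simp only [hA]
    rw [norm_smul, ContinuousLinearMap.norm_smulRight_apply, innerSL_apply_norm, norm_inv,
      Real.norm_of_nonneg (by positivity)]
    by_cases h2 : g z = 0
    · rw [h2]; simp
    · have h3 : 0 < ‖g z‖ := norm_pos_iff.2 h2
      rw [inv_mul_le_iff₀ (by positivity)]
      calc ‖g z‖ * ‖db g z‖ ≤ ‖g z‖ * (C * ‖g z‖) := by gcongr; exact hineq z hz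
        _ = C * ‖g z‖ ^ 2 := by ring
        _ ≤ max C 0 * ‖g z‖ ^ 2 := by gcongr; exact le_max_left _ _
        _ = _ := by ring
  have hAm : AEStronglyMeasurable A volume := by
    have h1 : Measurable fun z => ((‖g z‖ ^ 2)⁻¹ : ℝ) :=
      ((hg.continuous.norm.pow 2).measurable).inv
    have h2 : Continuous fun z => (innerSL ℂ (g z)).smulRight (db g z) := by
      have h3 : Continuous fun z => innerSL ℂ (g z) := (innerSL ℂ).continuous.comp hg.continuous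
      exact (ContinuousLinearMap.smulRightL ℂ E E).continuous₂.comp
        (h3.prodMk (db_continuous hg))
    exact h1.aestronglyMeasurable.smul h2.aestronglyMeasurable
  obtain ⟨ρ, hρ, hρr, Ψ, u, h1, h2, h3, h4, h5, h6⟩ :=
    exists_sol hAm (r := r1) (C := max C 0) (by linarith) (le_max_right _ _) hA2
  have hsub : closedBall (0:ℂ) ρ ⊆ ball 0 r1 := closedBall_subset_ball hρr
  have hcore := core hg hρ h3 h4 (Ψ := Ψ) (fun z hz => h6 z (ball_subset_closedBall hz)) (by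
    intro z hz
    have hzc := ball_subset_closedBall hz
    rw [h5 z hzc, ContinuousLinearMap.comp_apply, hA1 z (hsub hzc)])
  refine ⟨ρ, hρ, hρr.trans hr2, Ψ, h1, h2, hcore.congr fun z hz => ?_⟩
  rw [hgf z (hsub (ball_subset_closedBall hz))]

section gen
variable {E : Type*} [NormedAddCommGroup E] [NormedSpace ℂ E] [FiniteDimensional ℂ E]

/-- **similarity principle** -/
theorem sim {f : ℂ → E} {r C : ℝ} (hr : 0 < r) (hf : ContDiffOn ℝ 1 f (ball 0 r))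
    (h : ∀ z ∈ ball (0:ℂ) r, ‖db f z‖ ≤ C * ‖f z‖) :
    ∃ ρ, 0 < ρ ∧ ρ < r ∧ ∃ Φ : ℂ → E →L[ℂ] E, ∃ g : ℂ → E, ContinuousOn Φ (closedBall 0 ρ) ∧
      Φ 0 = 1 ∧ (∀ z ∈ closedBall (0:ℂ) ρ, IsUnit (Φ z)) ∧ DifferentiableOn ℂ g (ball 0 ρ) ∧
      ∀ z ∈ ball (0:ℂ) ρ, f z = Φ z (g z) := by
  have hcs : CompleteSpace E := FiniteDimensional.complete ℂ E
  let E' := EuclideanSpace ℂ (Fin (Module.finrank ℂ E))
  let e : E ≃L[ℂ] E' := ContinuousLinearEquiv.ofFinrankEq (by simp [E'])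
  let C' := ‖(e : E →L[ℂ] E')‖ * (max C 0 * ‖(e.symm : E' →L[ℂ] E)‖)
  have hf' : ContDiffOn ℝ 1 (fun z => e (f z)) (ball 0 r) :=
    ((e : E →L[ℂ] E').restrictScalars ℝ).contDiff.comp_contDiffOn hf
  have hd : ∀ z ∈ ball (0:ℂ) r, DifferentiableAt ℝ f z := fun z hz =>
    (hf.differentiableOn (by norm_num)).differentiableAt (isOpen_ball.mem_nhds hz)
  have h' : ∀ z ∈ ball (0:ℂ) r, ‖db (fun z => e (f z)) z‖ ≤ C' * ‖e (f z)‖ := by
    intro z hz
    have h1 : db (fun z => e (f z)) z = e (db f z) := db_clm (e : E →L[ℂ] E') (hd z hz)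
    rw [h1]
    calc ‖e (db f z)‖ ≤ ‖(e : E →L[ℂ] E')‖ * ‖db f z‖ := (e : E →L[ℂ] E').le_opNorm _
      _ ≤ ‖(e : E →L[ℂ] E')‖ * (C * ‖f z‖) := by gcongr; exact h z hz
      _ ≤ ‖(e : E →L[ℂ] E')‖ * (max C 0 * (‖(e.symm : E' →L[ℂ] E)‖ * ‖e (f z)‖)) := by
          gcongr
          · exact le_max_left _ _
          · have := (e.symm : E' →L[ℂ] E).le_opNorm (e (f z))
            simpa using this
      _ = C' * ‖e (f z)‖ := by ring
  obtain ⟨ρ, hρ, hρr, Ψ, h1, h2, h3⟩ := sim_inner hr hf' h'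
  have hu : ∀ z ∈ closedBall (0:ℂ) ρ, IsUnit (Ψ z) := by
    intro z hz
    have h4 : IsUnit (1 - (1 - Ψ z)) := isUnit_one_sub_of_norm_lt_one (by
      rw [norm_sub_rev]
      exact (h2 z hz).trans_lt (by norm_num))
    simpa using h4
  have h0 : (0:ℂ) ∈ closedBall (0:ℂ) ρ := mem_closedBall_self hρ.le
  have hconj : ∀ A : E' →L[ℂ] E', IsUnit A →
      IsUnit ((e.symm : E' →L[ℂ] E).comp (A.comp (e : E →L[ℂ] E'))) := by
    intro A hA
    obtain ⟨B, hB⟩ := hA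
    refine ⟨⟨(e.symm : E' →L[ℂ] E).comp ((B : E' →L[ℂ] E').comp (e : E →L[ℂ] E')),
      (e.symm : E' →L[ℂ] E).comp ((↑B⁻¹ : E' →L[ℂ] E').comp (e : E →L[ℂ] E')), ?_, ?_⟩, ?_⟩
    · ext x
      have := congrArg (fun T : E' →L[ℂ] E' => T (e x)) B.mul_inv
      simp only [mul_apply_eq_comp, one_apply_eq_self] at this ⊢
      simp [this]
    · ext x
      have := congrArg (fun T : E' →L[ℂ] E' => T (e x)) B.inv_mul
      simp only [mul_apply_eq_comp, one_apply_eq_self] at this ⊢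
      simp [this]
    · rw [← hB]
  refine ⟨ρ, hρ, hρr,
    fun z => (e.symm : E' →L[ℂ] E).comp ((Ring.inverse (Ψ z) * Ψ 0).comp (e : E →L[ℂ] E')),
    fun z => e.symm (Ring.inverse (Ψ 0) (Ψ z (e (f z)))), ?_, ?_, ?_, ?_, ?_⟩
  · have h4 : ContinuousOn (fun z => Ring.inverse (Ψ z) * Ψ 0) (closedBall 0 ρ) := by
      apply ContinuousOn.mul _ continuousOn_const
      intro z hz
      obtain ⟨U, hU⟩ := hu z hz
      have h5 := NormedRing.inverse_continuousAt U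
      rw [hU] at h5
      exact ContinuousAt.comp_continuousWithinAt h5 (h1 z hz)
    have h6 : Continuous fun A : E' →L[ℂ] E' =>
        (e.symm : E' →L[ℂ] E).comp (A.comp (e : E →L[ℂ] E')) := by fun_prop
    exact h6.comp_continuousOn h4
  · have h4 : Ring.inverse (Ψ 0) * Ψ 0 = 1 := Ring.inverse_mul_cancel _ (hu 0 h0)
    simp only [h4]
    ext x; simp
  · intro z hz
    apply hconj
    exact ((isUnit_ringInverse.2 (hu z hz))).mul (hu 0 h0)
  · have h4 := ((Ring.inverse (Ψ 0)).differentiable.comp_differentiableOn h3)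
    exact (e.symm : E' →L[ℂ] E).differentiable.comp_differentiableOn h4
  · intro z hz
    have hz' := ball_subset_closedBall hz
    have h4 : Ring.inverse (Ψ z) * Ψ z = 1 := Ring.inverse_mul_cancel _ (hu z hz')
    have h5 : Ψ 0 * Ring.inverse (Ψ 0) = 1 := Ring.mul_inverse_cancel _ (hu 0 h0)
    have h6 : (Ring.inverse (Ψ z) * Ψ 0) (Ring.inverse (Ψ 0) (Ψ z (e (f z)))) = e (f z) := by
      have h7 : (Ring.inverse (Ψ z) * Ψ 0 * (Ring.inverse (Ψ 0) * Ψ z)) = 1 := by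
        rw [mul_assoc, ← mul_assoc (Ψ 0), h5, one_mul, h4]
      have h8 := congrArg (fun T : E' →L[ℂ] E' => T (e (f z))) h7
      simpa using h8
    simp only [ContinuousLinearMap.comp_apply, ContinuousLinearEquiv.coe_coe,
      ContinuousLinearEquiv.apply_symm_apply]
    rw [h6]
    simp

/-- leading monomial at `0` -/
theorem lead0 {f : ℂ → E} {r C : ℝ} (hr : 0 < r) (hf : ContDiffOn ℝ 1 f (ball 0 r))
    (h : ∀ z ∈ ball (0:ℂ) r, ‖db f z‖ ≤ C * ‖f z‖) :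
    (∀ᶠ z in 𝓝 (0:ℂ), f z = 0) ∨ ∃ (k : ℕ) (G : ℂ → E), ContinuousAt G 0 ∧ G 0 ≠ 0 ∧
      ∀ᶠ z in 𝓝 (0:ℂ), f z = z ^ k • G z := by
  obtain ⟨ρ, hρ, hρr, Φ, g, h1, h2, h3, h4, h5⟩ := sim hr hf h
  have hcs : CompleteSpace E := FiniteDimensional.complete ℂ E
  have hball : ball (0:ℂ) ρ ∈ 𝓝 (0:ℂ) := isOpen_ball.mem_nhds (mem_ball_self hρ)
  have hg : AnalyticAt ℂ g 0 := h4.analyticAt hball
  by_cases hz : ∀ᶠ z in 𝓝 (0:ℂ), g z = 0
  · left
    filter_upwards [hz, hball] with z hz1 hz2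
    rw [h5 z hz2, hz1, map_zero]
  · right
    obtain ⟨k, G, hG1, hG2, hG3⟩ := (hg.exists_eventuallyEq_pow_smul_nonzero_iff).2 hz
    have hΦ : ContinuousAt Φ 0 := h1.continuousAt (closedBall_mem_nhds _ hρ)
    refine ⟨k, fun z => Φ z (G z), hΦ.clm_apply hG1.continuousAt, ?_, ?_⟩
    · show Φ 0 (G 0) ≠ 0
      rw [h2]; exact hG2
    · filter_upwards [hG3, hball] with z hz1 hz2
      rw [h5 z hz2, hz1, sub_zero, map_smul]

/-- the pointwise hypothesis: `‖∂̄ f‖ ≤ C ‖f‖` near `z₀` -/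
def Sub (f : ℂ → E) (z₀ : ℂ) : Prop := ∃ C : ℝ, ∀ᶠ z in 𝓝 z₀, ‖db f z‖ ≤ C * ‖f z‖

theorem lead {f : ℂ → E} {z₀ : ℂ} (hf : ContDiffAt ℝ 1 f z₀) (h : Sub f z₀) :
    (∀ᶠ z in 𝓝 z₀, f z = 0) ∨ ∃ (k : ℕ) (G : ℂ → E), ContinuousAt G z₀ ∧ G z₀ ≠ 0 ∧
      ∀ᶠ z in 𝓝 z₀, f z = (z - z₀) ^ k • G z := by
  obtain ⟨C, hC⟩ := h
  have h1 : ∀ᶠ z in 𝓝 z₀, ContDiffAt ℝ 1 f z := hf.eventually (by norm_num)
  obtain ⟨r, hr, hr'⟩ := Metric.eventually_nhds_iff_ball.1 (h1.and hC)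
  have ht : ∀ z : ℂ, z ∈ ball (0:ℂ) r → z₀ + z ∈ ball z₀ r := by
    intro z hz
    rw [mem_ball, dist_eq_norm] at hz ⊢
    simpa using hz
  have hf' : ContDiffOn ℝ 1 (fun z => f (z₀ + z)) (ball 0 r) := by
    intro z hz
    have h2 := (hr' _ (ht z hz)).1
    exact (h2.comp z (contDiffAt_const.add contDiffAt_id)).contDiffWithinAt
  have hdb : ∀ z ∈ ball (0:ℂ) r, db (fun z => f (z₀ + z)) z = db f (z₀ + z) := by
    intro z hz
    have h2 := ((hr' _ (ht z hz)).1).differentiableAt (by norm_num)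
    have h3 : fderiv ℝ (fun z => f (z₀ + z)) z = fderiv ℝ f (z₀ + z) := by
      exact fderiv_comp_add_left z₀
    unfold db
    rw [h3]
  rcases lead0 (C := C) hr hf' (by
    intro z hz
    rw [hdb z hz]
    exact (hr' _ (ht z hz)).2) with h4 | ⟨k, G, hG1, hG2, hG3⟩
  · left
    have h5 : Tendsto (fun z : ℂ => z - z₀) (𝓝 z₀) (𝓝 0) := by
      have h6 : Continuous fun z : ℂ => z - z₀ := by fun_prop
      have h7 := h6.tendsto z₀
      rw [sub_self] at h7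
      exact h7
    filter_upwards [h5.eventually h4] with z hz
    simpa using hz
  · right
    have h5 : Tendsto (fun z : ℂ => z - z₀) (𝓝 z₀) (𝓝 0) := by
      have h6 : Continuous fun z : ℂ => z - z₀ := by fun_prop
      have h7 := h6.tendsto z₀
      rw [sub_self] at h7
      exact h7
    refine ⟨k, fun z => G (z - z₀), ?_, by simpa using hG2, ?_⟩
    · have h6 : ContinuousAt G (z₀ - z₀) := by rw [sub_self]; exact hG1
      exact ContinuousAt.comp (f := fun z => z - z₀) h6 (by fun_prop)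
    · filter_upwards [h5.eventually hG3] with z hz
      simpa using hz

theorem isolated {f : ℂ → E} {z₀ : ℂ} (hf : ContDiffAt ℝ 1 f z₀) (h : Sub f z₀) :
    (∀ᶠ z in 𝓝 z₀, f z = 0) ∨ ∀ᶠ z in 𝓝[≠] z₀, f z ≠ 0 := by
  rcases lead hf h with h1 | ⟨k, G, hG1, hG2, hG3⟩
  · exact Or.inl h1
  · right
    have h2 : ∀ᶠ z in 𝓝 z₀, G z ≠ 0 := hG1.eventually_ne hG2
    filter_upwards [nhdsWithin_le_nhds h2, nhdsWithin_le_nhds hG3, self_mem_nhdsWithin] with z h3 h4 h5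
    rw [h4]
    exact smul_ne_zero (pow_ne_zero _ (sub_ne_zero.2 h5)) h3

/-- the topological part of unique continuation -/
theorem uniq_of {Y : Type*} [Zero Y] {f : ℂ → Y} {U : Set ℂ}
    (hUc : IsPreconnected U)
    (h : ∀ z ∈ U, (∀ᶠ w in 𝓝 z, f w = 0) ∨ ∀ᶠ w in 𝓝[≠] z, f w ≠ 0)
    {z₀ : ℂ} (hz₀ : z₀ ∈ U) (h0 : ∀ᶠ w in 𝓝 z₀, f w = 0) : ∀ z ∈ U, f z = 0 := by
  let S : Set ℂ := {z | ∀ᶠ w in 𝓝 z, f w = 0}
  have hS : IsOpen S := by
    rw [isOpen_iff_mem_nhds]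
    intro z hz
    exact eventually_eventually_nhds.2 hz
  have hsub : U ⊆ S := by
    refine hUc.subset_of_closure_inter_subset hS ⟨z₀, hz₀, h0⟩ ?_
    rintro z ⟨hz1, hz2⟩
    rcases h z hz2 with h3 | h3
    · exact h3
    · exfalso
      have h4 : ∃ᶠ w in 𝓝 z, w ∈ S := mem_closure_iff_frequently.1 hz1
      have h3' : ∀ᶠ w in 𝓝 z, w ≠ z → f w ≠ 0 := by
        rw [eventually_nhdsWithin_iff] at h3
        exact h3
      have h5 := h3'.eventually_nhds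
      obtain ⟨w, hw1, hw2⟩ := (h4.and_eventually h5).exists
      -- near `w` all values vanish, but they are nonzero off `z`
      have h6 : ∀ᶠ v in 𝓝 w, v = z := by
        filter_upwards [hw1, hw2] with v hv1 hv2
        by_contra hne
        exact hv2 hne hv1
      have h7 : ∀ᶠ v in 𝓝[≠] w, v = z := h6.filter_mono nhdsWithin_le_nhds
      have h8 : w = z := h6.self_of_nhds
      have h9 : ∀ᶠ v in 𝓝[≠] w, False := by
        filter_upwards [h7, self_mem_nhdsWithin] with v hv1 hv2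
        exact hv2 (hv1.trans h8.symm)
      rw [eventually_false_iff_eq_bot] at h9
      exact (inferInstance : (𝓝[≠] w).NeBot).ne h9
  intro z hz
  exact (hsub hz : ∀ᶠ w in 𝓝 z, f w = 0).self_of_nhds

/-- **unique continuation** -/
theorem uniq {f : ℂ → E} {U : Set ℂ} (hU : IsOpen U) (hUc : IsPreconnected U)
    (hf : ContDiffOn ℝ 1 f U) (h : ∀ z ∈ U, Sub f z) {z₀ : ℂ} (hz₀ : z₀ ∈ U)
    (h0 : ∀ᶠ w in 𝓝 z₀, f w = 0) : ∀ z ∈ U, f z = 0 :=
  uniq_of hUc (fun z hz => isolated (hf.contDiffAt (hU.mem_nhds hz)) (h z hz)) hz₀ h0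

end gen

end Crest.Agent.R235.Sim3_679
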