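import Crest.Agent.R235.CauchyV_679

/-!
Row 235, NW4 (S1): the Carleman similarity principle, scalar and vector valued.
-/

set_option autoImplicit false

noncomputable section

namespace Crest.Agent.R235.Sim_679

open Set Metric MeasureTheory Filter Topology
open scoped ContDiff NNReal Real
open Crest.Agent.R235.CauchyV_679

/-! ### calculus of `db` -/

section calculus
variable {F : Type*} [NormedAddCommGroup F] [NormedSpace ℂ F]

theorem db_continuous {f : ℂ → F} (hf : ContDiff ℝ 1 f) : Continuous (db f) := by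
  have := hf.continuous_fderiv (by norm_num)
  unfold db
  fun_prop

theorem db_apply {E : Type*} [NormedAddCommGroup E] [NormedSpace ℂ E] {Ψ : ℂ → E →L[ℂ] F}
    {f : ℂ → E} {z : ℂ}
    (hΨ : DifferentiableAt ℝ Ψ z) (hf : DifferentiableAt ℝ f z) :
    db (fun z => Ψ z (f z)) z = (db Ψ z) (f z) + Ψ z (db f z) := by
  let B : (E →L[ℂ] F) →L[ℝ] E →L[ℝ] F :=
    LinearMap.mkContinuous₂
      { toFun := fun A => (A.restrictScalars ℝ : E →L[ℝ] F).toLinearMap
        map_add' := fun A B => rfl
        map_smul' := fun c A => rfl } 1 (by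
          intro A x
          simpa using A.le_opNorm x)
  have hB : ∀ A x, B A x = A x := fun A x => rfl
  have h1 := (B.hasFDerivAt_of_bilinear hΨ.hasFDerivAt hf.hasFDerivAt)
  have h2 : fderiv ℝ (fun z => Ψ z (f z)) z = _ := h1.fderiv
  unfold db
  rw [h2]
  simp only [add_apply, ContinuousLinearMap.precompR_apply, ContinuousLinearMap.compL_apply,
    ContinuousLinearMap.comp_apply, ContinuousLinearMap.precompL_apply, hB]
  simp only [smul_apply, add_apply, map_smul, map_add, smul_add]
  abel

theorem db_const_sub {u : ℂ → F} (c : F) (z : ℂ) : db (fun z => c - u z) z = - db u z := by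
  unfold db
  rw [fderiv_const_sub]
  simp
  abel

end calculus

section core
variable {E : Type*} [NormedAddCommGroup E] [NormedSpace ℂ E] [FiniteDimensional ℂ E]

/-- the core: `∂̄Ψ = -u`, `u f = Ψ ∂̄f` gives `Ψ f` holomorphic -/
theorem core {f : ℂ → E} (hf : ContDiff ℝ 1 f) {ρ : ℝ} (hρ : 0 < ρ) {u : ℂ → E →L[ℂ] E}
    (hu : MemLp u 3 volume) (h0 : ∀ ζ, ρ < ‖ζ‖ → u ζ = 0) {Ψ : ℂ → E →L[ℂ] E}
    (hΨ : ∀ z ∈ ball (0:ℂ) ρ, Ψ z = 1 - PV u z)
    (heq : ∀ z ∈ ball (0:ℂ) ρ, u z (f z) = Ψ z (db f z)) :
    DifferentiableOn ℂ (fun z => Ψ z (f z)) (ball 0 ρ) := by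
  have : CompleteSpace E := FiniteDimensional.complete ℂ E
  obtain ⟨a, h1, h2, h3, h4, h5, h6, h7⟩ := exists_approx hρ hu h0
  have hdb : Continuous (db f) := db_continuous hf
  obtain ⟨M1, hM1⟩ := (isCompact_closedBall (0:ℂ) ρ).exists_bound_of_continuousOn
    hf.continuous.continuousOn
  obtain ⟨M2, hM2⟩ := (isCompact_closedBall (0:ℂ) ρ).exists_bound_of_continuousOn
    hdb.continuousOn
  have hM1' : 0 ≤ M1 := (norm_nonneg _).trans (hM1 0 (mem_closedBall_self hρ.le))
  have hM2' : 0 ≤ M2 := (norm_nonneg _).trans (hM2 0 (mem_closedBall_self hρ.le))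
  have hC : ∀ n, ContDiff ℝ 1 (fun z => (1 - PV (a n) z) (f z)) := by
    intro n
    have h8 : ContDiff ℝ 1 (fun z => 1 - PV (a n) z) :=
      contDiff_const.sub ((h2 n).of_le (by simp))
    let B : (E →L[ℂ] E) →L[ℝ] E →L[ℝ] E :=
      LinearMap.mkContinuous₂
        { toFun := fun A => (A.restrictScalars ℝ : E →L[ℝ] E).toLinearMap
          map_add' := fun A B => rfl
          map_smul' := fun c A => rfl } 1 (by
            intro A x
            simpa using A.le_opNorm x)
    exact B.isBoundedBilinearMap.contDiff.comp (h8.prodMk hf)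
  refine holo hC ?_ ?_
  · -- uniform convergence
    rw [EMetric.tendstoUniformlyOn_iff]
    intro ε hε
    have h8 : Tendsto (fun n => (KC (ρ + 1) * ENNReal.ofReal M1) *
        eLpNorm (fun ζ => u ζ - a n ζ) 3 volume) atTop (𝓝 0) := by
      have := ENNReal.Tendsto.const_mul (a := KC (ρ + 1) * ENNReal.ofReal M1) h5
        (Or.inr (ENNReal.mul_ne_top (KC_lt _).ne ENNReal.ofReal_ne_top))
      simpa using this
    filter_upwards [(tendsto_order.1 h8).2 ε hε] with n hn
    intro z hz
    have hz' : ‖z‖ < ρ := by simpa using hz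
    rw [edist_eq_enorm_sub, hΨ z hz]
    have h9 : (1 - PV u z) (f z) - (1 - PV (a n) z) (f z) = -((PV u z - PV (a n) z) (f z)) := by
      simp
    rw [h9, enorm_neg]
    refine lt_of_le_of_lt ?_ hn
    calc ‖(PV u z - PV (a n) z) (f z)‖ₑ ≤ ‖PV u z - PV (a n) z‖ₑ * ‖f z‖ₑ :=
          ContinuousLinearMap.le_opENorm _ _
      _ ≤ (KC (ρ + 1) * eLpNorm (fun ζ => u ζ - a n ζ) 3 volume) * ENNReal.ofReal M1 := by
          gcongr
          · exact h7 n z (by linarith)
          · rw [← ofReal_norm]
            exact ENNReal.ofReal_le_ofReal (hM1 z (by simpa using hz'.le))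
      _ = _ := by ring
  · -- the derivative
    set e : ℕ → ENNReal := fun n => eLpNorm (fun ζ => u ζ - a n ζ) 3 volume with he
    set V : ENNReal := volume (ball (0:ℂ) ρ) with hV
    have hVt : V < ⊤ := measure_ball_lt_top
    have hV' : V ^ (1 / (1:ENNReal).toReal - 1 / (3:ENNReal).toReal) < ⊤ := by
      apply ENNReal.rpow_lt_top_of_nonneg _ hVt.ne
      norm_num
    have hbd : ∀ n, ∫⁻ z in ball 0 ρ, ‖db (fun z => (1 - PV (a n) z) (f z)) z‖ₑ ≤
        (V ^ (1 / (1:ENNReal).toReal - 1 / (3:ENNReal).toReal) * ENNReal.ofReal M1 +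
          KC (ρ + 1) * ENNReal.ofReal M2 * V) * e n := by
      intro n
      have hae : ∀ z ∈ ball (0:ℂ) ρ, ‖db (fun z => (1 - PV (a n) z) (f z)) z‖ₑ ≤
          ‖u z - a n z‖ₑ * ENNReal.ofReal M1 + KC (ρ + 1) * e n * ENNReal.ofReal M2 := by
        intro z hz
        have hz' : ‖z‖ < ρ := by simpa using hz
        have hzc : z ∈ closedBall (0:ℂ) ρ := ball_subset_closedBall hz
        have hd1 : DifferentiableAt ℝ (fun z => 1 - PV (a n) z) z :=
          ((h2 n).differentiable (by simp) z).const_sub _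
        have hd2 : DifferentiableAt ℝ f z := hf.differentiable (by norm_num) z
        have h9 := db_apply (Ψ := fun z => 1 - PV (a n) z) hd1 hd2
        rw [h9, db_const_sub, h3]
        have h10 : (-a n z) (f z) + (1 - PV (a n) z) (db f z) =
            (u z - a n z) (f z) + (PV u z - PV (a n) z) (db f z) := by
          have := heq z hz
          rw [hΨ z hz] at this
          simp only [neg_apply, sub_apply, one_apply_eq_self] at this ⊢
          rw [this]
          abel
        rw [h10]
        refine (enorm_add_le _ _).trans ?_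
        gcongr
        · refine (ContinuousLinearMap.le_opENorm _ _).trans ?_
          gcongr
          rw [← ofReal_norm]
          exact ENNReal.ofReal_le_ofReal (hM1 z hzc)
        · refine (ContinuousLinearMap.le_opENorm _ _).trans ?_
          gcongr
          · exact h7 n z (by linarith)
          · rw [← ofReal_norm]
            exact ENNReal.ofReal_le_ofReal (hM2 z hzc)
      have hm : AEStronglyMeasurable (fun ζ => u ζ - a n ζ) volume := hu.1.sub (h4 n).1
      calc ∫⁻ z in ball 0 ρ, ‖db (fun z => (1 - PV (a n) z) (f z)) z‖ₑ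
          ≤ ∫⁻ z in ball 0 ρ, (‖u z - a n z‖ₑ * ENNReal.ofReal M1 +
            KC (ρ + 1) * e n * ENNReal.ofReal M2) := setLIntegral_mono' measurableSet_ball hae
        _ = (∫⁻ z in ball 0 ρ, ‖u z - a n z‖ₑ) * ENNReal.ofReal M1 +
            KC (ρ + 1) * e n * ENNReal.ofReal M2 * V := by
            rw [lintegral_add_right _ measurable_const, lintegral_const,
              lintegral_mul_const' _ _ ENNReal.ofReal_ne_top, Measure.restrict_apply_univ]
        _ ≤ (e n * V ^ (1 / (1:ENNReal).toReal - 1 / (3:ENNReal).toReal)) * ENNReal.ofReal M1 +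
            KC (ρ + 1) * e n * ENNReal.ofReal M2 * V := by
            gcongr
            have h11 := eLpNorm_le_eLpNorm_mul_rpow_measure_univ (p := 1) (q := 3)
              (μ := volume.restrict (ball (0:ℂ) ρ)) (by norm_num) hm.restrict
            rw [eLpNorm_one_eq_lintegral_enorm, Measure.restrict_apply_univ] at h11
            refine h11.trans ?_
            gcongr
            exact eLpNorm_mono_measure _ Measure.restrict_le_self
        _ = _ := by ring
    refine tendsto_of_tendsto_of_tendsto_of_le_of_le tendsto_const_nhds ?_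
      (fun _ => bot_le) hbd
    have := ENNReal.Tendsto.const_mul (a := (V ^ (1 / (1:ENNReal).toReal - 1 / (3:ENNReal).toReal) *
      ENNReal.ofReal M1 + KC (ρ + 1) * ENNReal.ofReal M2 * V)) h5
      (Or.inr (by
        apply ENNReal.add_ne_top.2
        exact ⟨ENNReal.mul_ne_top hV'.ne ENNReal.ofReal_ne_top,
          ENNReal.mul_ne_top (ENNReal.mul_ne_top (KC_lt _).ne ENNReal.ofReal_ne_top) hVt.ne⟩))
    simpa using this

/-- the scalar version of the core -/
theorem core_scalar {f : ℂ → ℂ} (hf : ContDiff ℝ 1 f) {ρ : ℝ} (hρ : 0 < ρ) {u : ℂ → ℂ}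
    (hu : MemLp u 3 volume) (h0 : ∀ ζ, ρ < ‖ζ‖ → u ζ = 0)
    (heq : ∀ z ∈ ball (0:ℂ) ρ, u z * f z = db f z) :
    DifferentiableOn ℂ (fun z => Complex.exp (-PV u z) * f z) (ball 0 ρ) := by
  obtain ⟨a, h1, h2, h3, h4, h5, h6, h7⟩ := exists_approx hρ hu h0
  have hdb : Continuous (db f) := db_continuous hf
  obtain ⟨M1, hM1⟩ := (isCompact_closedBall (0:ℂ) ρ).exists_bound_of_continuousOn
    hf.continuous.continuousOn
  have hM1' : 0 ≤ M1 := (norm_nonneg _).trans (hM1 0 (mem_closedBall_self hρ.le))
  have hcP : ContinuousOn (PV u) (closedBall 0 (ρ + 1)) := continuousOn_PV hρ hu h0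
  obtain ⟨M3, hM3⟩ := (isCompact_closedBall (0:ℂ) (ρ + 1)).exists_bound_of_continuousOn hcP
  have hC : ∀ n, ContDiff ℝ 1 (fun z => Complex.exp (-PV (a n) z) * f z) := by
    intro n
    exact (((h2 n).of_le (by simp)).neg.cexp).mul hf
  -- a uniform bound of the approximations
  have hev : ∀ᶠ n in atTop, ∀ z ∈ closedBall (0:ℂ) (ρ + 1), ‖PV (a n) z‖ ≤ M3 + 1 := by
    filter_upwards [Metric.tendstoUniformlyOn_iff.1 h6 1 one_pos] with n hn z hz
    have h8 := hn z hz
    rw [dist_eq_norm] at h8
    calc ‖PV (a n) z‖ = ‖PV u z - (PV u z - PV (a n) z)‖ := by congr 1; abel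
      _ ≤ ‖PV u z‖ + ‖PV u z - PV (a n) z‖ := norm_sub_le _ _
      _ ≤ M3 + 1 := by linarith [hM3 z hz]
  have hsub : ball (0:ℂ) ρ ⊆ closedBall 0 (ρ + 1) :=
    ball_subset_closedBall.trans (closedBall_subset_closedBall (by linarith))
  have hexp : TendstoUniformlyOn (fun n z => Complex.exp (-PV (a n) z))
      (fun z => Complex.exp (-PV u z)) atTop (ball 0 ρ) := by
    have h8 : TendstoUniformlyOn (fun n z => -PV (a n) z) (fun z => -PV u z) atTop (ball 0 ρ) := by
      have := h6.mono hsub
      exact this.neg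
    have hM3' : 0 ≤ M3 := (norm_nonneg _).trans (hM3 0 (mem_closedBall_self (by linarith)))
    have hK : IsCompact (closedBall (0:ℂ) (M3 + 1)) := isCompact_closedBall _ _
    have huc : UniformContinuousOn Complex.exp (closedBall (0:ℂ) (M3 + 1)) :=
      hK.uniformContinuousOn_of_continuous Complex.continuous_exp.continuousOn
    rw [Metric.tendstoUniformlyOn_iff] at h8 ⊢
    intro ε hε
    obtain ⟨δ, hδ, hδ'⟩ := Metric.uniformContinuousOn_iff.1 huc ε hε
    filter_upwards [h8 δ hδ, hev] with n hn hn2 z hz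
    apply hδ' _ _ _ _ (hn z hz)
    · rw [mem_closedBall, dist_zero_right, norm_neg]
      linarith [hM3 z (hsub hz)]
    · rw [mem_closedBall, dist_zero_right, norm_neg]
      exact hn2 z (hsub hz)
  obtain ⟨N, hN⟩ := eventually_atTop.1 hev
  refine holo (g := fun n z => Complex.exp (-PV (a (n + N)) z) * f z) (fun n => hC (n + N)) ?_ ?_
  · have h8 : TendstoUniformlyOn (fun n z => Complex.exp (-PV (a n) z) * f z)
        (fun z => Complex.exp (-PV u z) * f z) atTop (ball 0 ρ) := by
      rw [Metric.tendstoUniformlyOn_iff] at hexp ⊢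
      intro ε hε
      filter_upwards [hexp (ε / (M1 + 1)) (by positivity)] with n hn z hz
      have h9 := hn z hz
      rw [dist_eq_norm] at h9 ⊢
      rw [← sub_mul, norm_mul]
      have h10 : ‖f z‖ ≤ M1 := hM1 z (ball_subset_closedBall hz)
      calc ‖Complex.exp (-PV u z) - Complex.exp (-PV (a n) z)‖ * ‖f z‖
          ≤ (ε / (M1 + 1)) * M1 := by gcongr
        _ < (ε / (M1 + 1)) * (M1 + 1) := by gcongr; linarith
        _ = ε := by field_simp
    have h9 := (tendstoUniformlyOn_iff_tendsto.1 h8).comp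
      ((tendsto_add_atTop_nat N).prodMap tendsto_id)
    exact tendstoUniformlyOn_iff_tendsto.2 h9
  · set e : ℕ → ENNReal := fun n => eLpNorm (fun ζ => u ζ - a n ζ) 3 volume with he
    set V : ENNReal := volume (ball (0:ℂ) ρ) with hV
    have hVt : V < ⊤ := measure_ball_lt_top
    have hV' : V ^ (1 / (1:ENNReal).toReal - 1 / (3:ENNReal).toReal) < ⊤ := by
      apply ENNReal.rpow_lt_top_of_nonneg _ hVt.ne
      norm_num
    set M4 : ℝ := Real.exp (M3 + 1) with hM4
    have hbd : ∀ n, ∫⁻ z in ball 0 ρ, ‖db (fun z => Complex.exp (-PV (a (n + N)) z) * f z) z‖ₑ ≤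
        (V ^ (1 / (1:ENNReal).toReal - 1 / (3:ENNReal).toReal) * ENNReal.ofReal (M4 * M1)) *
          e (n + N) := by
      intro n
      have hae : ∀ z ∈ ball (0:ℂ) ρ,
          ‖db (fun z => Complex.exp (-PV (a (n + N)) z) * f z) z‖ₑ ≤
          ‖u z - a (n + N) z‖ₑ * ENNReal.ofReal (M4 * M1) := by
        intro z hz
        have hzc : z ∈ closedBall (0:ℂ) ρ := ball_subset_closedBall hz
        have hd1 : DifferentiableAt ℝ (PV (a (n + N))) z := (h2 (n + N)).differentiable (by simp) z
        have hd2 : DifferentiableAt ℝ f z := hf.differentiable (by norm_num) z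
        have h9 : db (fun z => Complex.exp (-PV (a (n + N)) z) * f z) z =
            Complex.exp (-PV (a (n + N)) z) * (-(db (PV (a (n + N))) z) * f z + db f z) := by
          have hh : HasFDerivAt (fun z => Complex.exp (-PV (a (n + N)) z) * f z)
              (Complex.exp (-PV (a (n + N)) z) • fderiv ℝ f z +
                f z • (Complex.exp (-PV (a (n + N)) z) • (-fderiv ℝ (PV (a (n + N))) z))) z :=
            (hd1.hasFDerivAt.neg.cexp).mul hd2.hasFDerivAt
          unfold db
          rw [hh.fderiv]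
          simp only [add_apply, smul_apply, neg_apply, smul_eq_mul]
          ring
        rw [h9, h3]
        have h10 : -(a (n + N) z) * f z + db f z = (u z - a (n + N) z) * f z := by
          rw [← heq z hz]; ring
        rw [h10]
        rw [← mul_assoc, mul_comm (Complex.exp _), mul_assoc, enorm_mul]
        gcongr
        rw [← ofReal_norm]
        apply ENNReal.ofReal_le_ofReal
        rw [norm_mul]
        gcongr
        · rw [Complex.norm_exp]
          apply Real.exp_le_exp.2
          have := hN (n + N) (by omega) z (hsub hz)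
          calc (-PV (a (n + N)) z).re ≤ ‖-PV (a (n + N)) z‖ := Complex.re_le_norm _
            _ ≤ M3 + 1 := by rw [norm_neg]; exact this
        · exact hM1 z hzc
      have hm : AEStronglyMeasurable (fun ζ => u ζ - a (n + N) ζ) volume := hu.1.sub (h4 _).1
      calc ∫⁻ z in ball 0 ρ, ‖db (fun z => Complex.exp (-PV (a (n + N)) z) * f z) z‖ₑ
          ≤ ∫⁻ z in ball 0 ρ, ‖u z - a (n + N) z‖ₑ * ENNReal.ofReal (M4 * M1) :=
            setLIntegral_mono' measurableSet_ball hae
        _ = (∫⁻ z in ball 0 ρ, ‖u z - a (n + N) z‖ₑ) * ENNReal.ofReal (M4 * M1) := by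
            rw [lintegral_mul_const' _ _ ENNReal.ofReal_ne_top]
        _ ≤ (e (n + N) * V ^ (1 / (1:ENNReal).toReal - 1 / (3:ENNReal).toReal)) *
            ENNReal.ofReal (M4 * M1) := by
            gcongr
            have h11 := eLpNorm_le_eLpNorm_mul_rpow_measure_univ (p := 1) (q := 3)
              (μ := volume.restrict (ball (0:ℂ) ρ)) (by norm_num) hm.restrict
            rw [eLpNorm_one_eq_lintegral_enorm, Measure.restrict_apply_univ] at h11
            refine h11.trans ?_
            gcongr
            exact eLpNorm_mono_measure _ Measure.restrict_le_self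
        _ = _ := by ring
    refine tendsto_of_tendsto_of_tendsto_of_le_of_le tendsto_const_nhds ?_
      (fun _ => bot_le) hbd
    have := ENNReal.Tendsto.const_mul (a := (V ^ (1 / (1:ENNReal).toReal - 1 / (3:ENNReal).toReal) *
      ENNReal.ofReal (M4 * M1))) (h5.comp (tendsto_add_atTop_nat N))
      (Or.inr (ENNReal.mul_ne_top hV'.ne ENNReal.ofReal_ne_top))
    simpa using this

end core

end Crest.Agent.R235.Sim_679
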