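import Mathlib

/-!
# Row 235, block SLICE (helper751), part A: the circle lemma

`f : ℝ → ℂ` is the section along a circle of radius `s` (`2π`-periodic in the angle), `b` the
connection form along the circle (times `s`), `g = f' - i b f` the covariant derivative.
If the energy `E = ∫ (|g|²/s + (l/2)(1-|f|²)² s)` is small compared with `√l`, the integral of
`(1-|f|²) b + Im(f̄ f')` is close to `2π ℤ`; quantitatively the distance is at most `60 E/√l`.
-/

set_option autoImplicit false

namespace Crest.Agent.R235.SliceA_751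

open Complex MeasureTheory Set Filter intervalIntegral
open scoped Real Topology ComplexConjugate Interval

noncomputable section

/-- distance to the integers -/
def dZ (x : ℝ) : ℝ := |x - round x|

theorem dZ_nonneg (x : ℝ) : 0 ≤ dZ x := abs_nonneg _

theorem dZ_le (x : ℝ) (m : ℤ) : dZ x ≤ |x - m| := round_le x m

theorem dZ_le_half (x : ℝ) : dZ x ≤ 1 / 2 := abs_sub_round x

/-- the algebraic heart of the isoperimetric inequality -/
theorem le_sq_add (t : ℝ) : t ≤ t ^ 2 + dZ t := by
  have h0 := dZ_nonneg t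
  by_cases h1 : t < 0
  · nlinarith [sq_nonneg t]
  by_cases h2 : 1 < t
  · nlinarith
  push Not at h1 h2
  rcases le_or_gt (round t) 0 with h | h
  · have h3 : ((round t : ℤ) : ℝ) ≤ 0 := by exact_mod_cast h
    have h4 : t ≤ dZ t := by
      unfold dZ
      exact le_trans (by linarith) (le_abs_self _)
    nlinarith [sq_nonneg t]
  · have h3 : (1 : ℝ) ≤ ((round t : ℤ) : ℝ) := by exact_mod_cast h
    have h4 : 1 - t ≤ dZ t := by
      unfold dZ
      rw [abs_sub_comm]
      exact le_trans (by linarith) (le_abs_self _)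
    nlinarith [sq_nonneg (1 - t)]

theorem continuous_dZ_comp_measurable {X : Type*} [MeasurableSpace X] {f : X → ℝ}
    (hf : Measurable f) : Measurable fun x => dZ (f x) := by
  unfold dZ
  have : Measurable fun x => ((round (f x) : ℤ) : ℝ) := by
    have h1 : Measurable (fun y : ℝ => ((round y : ℤ) : ℝ)) := by
      have : (fun y : ℝ => ((round y : ℤ) : ℝ)) = fun y : ℝ => ((⌊y + 1 / 2⌋ : ℤ) : ℝ) := by
        funext y; rw [round_eq]
      rw [this]
      exact (measurable_from_top (f := fun n : ℤ => (n : ℝ))).comp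
        (Int.measurable_floor.comp (measurable_id.add_const _))
    exact h1.comp hf
  exact (hf.sub this).norm

section circle

variable {f f' : ℝ → ℂ} {b : ℝ → ℝ} {s l : ℝ}

/-- the energy density along the circle -/
def ed (f f' : ℝ → ℂ) (b : ℝ → ℝ) (s l : ℝ) (t : ℝ) : ℝ :=
  ‖f' t - I * b t * f t‖ ^ 2 / s + l / 2 * (1 - ‖f t‖ ^ 2) ^ 2 * s

/-- the integrand -/
def be (f f' : ℝ → ℂ) (b : ℝ → ℝ) (t : ℝ) : ℝ :=
  (1 - ‖f t‖ ^ 2) * b t + (conj (f t) * f' t).im

theorem ed_nonneg (hs : 0 < s) (hl : 0 < l) (t : ℝ) : 0 ≤ ed f f' b s l t := by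
  unfold ed; positivity

/-- arithmetic-geometric mean -/
theorem amgm (hs : 0 < s) (hl : 0 < l) (t : ℝ) :
    |1 - ‖f t‖ ^ 2| * ‖f' t - I * b t * f t‖ ≤ ed f f' b s l t / √(2 * l) := by
  rw [le_div_iff₀ (by positivity)]
  unfold ed
  set x := |1 - ‖f t‖ ^ 2| with hx
  set y := ‖f' t - I * b t * f t‖ with hy
  have hx2 : (1 - ‖f t‖ ^ 2) ^ 2 = x ^ 2 := by rw [hx, sq_abs]
  rw [hx2]
  have h1 : √(2 * l) ^ 2 = 2 * l := Real.sq_sqrt (by positivity)
  set r := √(2 * l) with hr
  have hr0 : 0 < r := by rw [hr]; positivity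
  have h2 : y ^ 2 / s + l / 2 * x ^ 2 * s - x * y * r = (y - r / 2 * x * s) ^ 2 / s := by
    have hs' := hs.ne'
    field_simp
    linear_combination (-(s ^ 2 * x ^ 2)) * h1
  have h3 : 0 ≤ (y - r / 2 * x * s) ^ 2 / s := by positivity
  linarith

/-- the function `q / (1+q)²` of `q = |f|²` controls the modulus -/
def Ph (q : ℝ) : ℝ := 1 / 4 - q / (1 + q) ^ 2

theorem Ph_eq {q : ℝ} (hq : 0 ≤ q) : Ph q = (1 - q) ^ 2 / (4 * (1 + q) ^ 2) := by
  unfold Ph
  have h : (1 + q) ≠ 0 := by positivity
  field_simp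
  ring

theorem Ph_nonneg {q : ℝ} (hq : 0 ≤ q) : 0 ≤ Ph q := by
  rw [Ph_eq hq]; positivity

theorem Ph_le {q : ℝ} (hq : 0 ≤ q) : Ph q ≤ (1 - q) ^ 2 / 4 := by
  rw [Ph_eq hq]
  refine div_le_div_of_nonneg_left (sq_nonneg _) (by norm_num) ?_
  nlinarith

theorem Ph_small {q : ℝ} (hq : 0 ≤ q) (h : q < 1 / 4) : 9 / 100 ≤ Ph q := by
  rw [Ph_eq hq, div_le_div_iff₀ (by norm_num) (by positivity)]
  nlinarith

theorem hasDerivAt_Ph {q : ℝ} (hq : 0 ≤ q) : HasDerivAt Ph (-((1 - q) / (1 + q) ^ 3)) q := by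
  have h : (1 + q) ≠ 0 := by positivity
  have h1 : HasDerivAt (fun x : ℝ => (1 + x) ^ 2) (2 * (1 + q)) q := by
    have := ((hasDerivAt_id q).const_add 1).fun_pow 2
    simpa using this
  have h2 := ((hasDerivAt_id q).div h1 (by positivity)).const_sub (1 / 4)
  refine h2.congr_deriv ?_
  simp only [id]
  field_simp
  ring

theorem Ph_deriv_bound {q : ℝ} (hq : 0 ≤ q) :
    |(-((1 - q) / (1 + q) ^ 3))| * √q ≤ |1 - q| := by
  rw [abs_neg, abs_div, abs_of_pos (by positivity : 0 < (1 + q) ^ 3), div_mul_eq_mul_div,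
    div_le_iff₀ (by positivity)]
  refine mul_le_mul_of_nonneg_left ?_ (abs_nonneg _)
  have h1 : √q ≤ 1 + q := by
    rw [Real.sqrt_le_left (by positivity)]
    nlinarith
  have h2 : 1 + q ≤ (1 + q) ^ 3 := by nlinarith [sq_nonneg q, mul_nonneg hq (sq_nonneg q)]
  linarith

/-- the energy -/
def En (f f' : ℝ → ℂ) (b : ℝ → ℝ) (s l : ℝ) : ℝ := ∫ t in (-π)..π, ed f f' b s l t

theorem continuous_ed (hf : Continuous f) (hf' : Continuous f') (hb : Continuous b) :
    Continuous (ed f f' b s l) := by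
  unfold ed
  fun_prop

theorem continuous_be (hf : Continuous f) (hf' : Continuous f') (hb : Continuous b) :
    Continuous (be f f' b) := by
  unfold be
  have h1 : Continuous fun t => conj (f t) := Complex.continuous_conj.comp hf
  fun_prop

theorem En_nonneg (hs : 0 < s) (hl : 0 < l) : 0 ≤ En f f' b s l :=
  integral_nonneg (by linarith [Real.pi_pos]) fun t _ => ed_nonneg hs hl t

/-- case A: the section does not come close to zero. -/
theorem caseA (hs : 0 < s) (hl : 0 < l) (hf : ∀ t, HasDerivAt f (f' t) t) (hf' : Continuous f')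
    (hb : Continuous b) (hp : Function.Periodic f (2 * π)) (hq : ∀ t, 1 / 4 ≤ ‖f t‖ ^ 2) :
    dZ ((∫ t in (-π)..π, be f f' b t) / (2 * π)) ≤ En f f' b s l / √l := by
  have hfc : Continuous f := continuous_iff_continuousAt.2 fun t => (hf t).continuousAt
  have hf0 : ∀ t, f t ≠ 0 := by
    intro t h
    have := hq t
    rw [h] at this
    norm_num at this
  have hn : ∀ t, 1 / 2 ≤ ‖f t‖ := by
    intro t
    have := hq t
    nlinarith [norm_nonneg (f t)]
  set L : ℝ → ℂ := fun t => f' t / f t with hL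
  have hLc : Continuous L := hf'.div hfc hf0
  set G : ℝ → ℂ := fun t => f t * Complex.exp (-∫ x in (-π)..t, L x) with hG
  have hGd : ∀ t, HasDerivAt G 0 t := by
    intro t
    have h1 : HasDerivAt (fun t => ∫ x in (-π)..t, L x) (L t) t :=
      (hLc.integral_hasStrictDerivAt (-π) t).hasDerivAt
    have h2 := (hf t).mul (h1.neg.cexp)
    refine h2.congr_deriv ?_
    simp only [hL]
    have := hf0 t
    field_simp
    ring
  have hG2 : G π = G (-π) := is_const_of_deriv_eq_zero (fun t => (hGd t).differentiableAt)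
    (fun t => (hGd t).deriv) _ _
  have hfp : f π = f (-π) := by
    have := hp (-π)
    rw [← this]
    congr 1
    ring
  have hexp : Complex.exp (∫ x in (-π)..π, L x) = 1 := by
    simp only [hG, integral_same, neg_zero, Complex.exp_zero, mul_one] at hG2
    rw [hfp] at hG2
    have h3 : Complex.exp (-∫ x in (-π)..π, L x) = 1 := by
      have := mul_left_cancel₀ (hf0 (-π)) (a := f (-π)) (b := Complex.exp (-∫ x in (-π)..π, L x))
        (c := 1) (by rw [hG2, mul_one])
      exact this
    rw [Complex.exp_neg, inv_eq_one] at h3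
    exact h3
  obtain ⟨n, hn2⟩ := Complex.exp_eq_one_iff.1 hexp
  have him : ∫ x in (-π)..π, (L x).im = 2 * π * n := by
    have h1 := Complex.imCLM.intervalIntegral_comp_comm (μ := volume) (f := L) (a := -π) (b := π)
      (hLc.intervalIntegrable _ _)
    simp only [Complex.imCLM_apply] at h1
    rw [h1, hn2]
    simp
    ring
  have hbe : ∀ t, be f f' b t = (L t).im - (1 - ‖f t‖ ^ 2) * ((L t).im - b t) := by
    intro t
    have h1 : f' t = L t * f t := by
      simp only [hL]
      rw [div_mul_cancel₀ _ (hf0 t)]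
    have h2 : (conj (f t) * f' t).im = ‖f t‖ ^ 2 * (L t).im := by
      rw [h1]
      have h3 : conj (f t) * (L t * f t) = ((‖f t‖ ^ 2 : ℝ) : ℂ) * L t := by
        have h4 : conj (f t) * f t = ((‖f t‖ ^ 2 : ℝ) : ℂ) := by
          rw [mul_comm, Complex.mul_conj, Complex.normSq_eq_norm_sq]
        calc conj (f t) * (L t * f t) = (conj (f t) * f t) * L t := by ring
          _ = _ := by rw [h4]
      rw [h3, Complex.im_ofReal_mul]
    unfold be
    rw [h2]
    ring
  have hgf : ∀ t, |(L t).im - b t| ≤ 2 * ‖f' t - I * b t * f t‖ := by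
    intro t
    have h1 : (L t).im - b t = ((f' t - I * b t * f t) / f t).im := by
      have : (f' t - I * b t * f t) / f t = L t - I * b t := by
        simp only [hL]
        have := hf0 t
        field_simp
      rw [this]
      simp
    rw [h1]
    refine (Complex.abs_im_le_norm _).trans ?_
    rw [norm_div, div_le_iff₀ (by linarith [hn t])]
    nlinarith [hn t, norm_nonneg (f' t - I * b t * f t)]
  have hint : |(∫ t in (-π)..π, be f f' b t) - 2 * π * n| ≤ 2 * (En f f' b s l / √(2 * l)) := by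
    have hsub := integral_sub (μ := volume) (a := -π) (b := π) (f := be f f' b)
      (g := fun x => (L x).im) ((continuous_be hfc hf' hb).intervalIntegrable _ _)
      ((Complex.continuous_im.comp hLc : Continuous fun x => (L x).im).intervalIntegrable _ _)
    rw [← him, ← hsub]
    have h1 : 2 * (En f f' b s l / √(2 * l)) = ∫ t in (-π)..π, 2 * (ed f f' b s l t / √(2 * l)) := by
      rw [intervalIntegral.integral_const_mul, intervalIntegral.integral_div]
      rfl
    rw [h1, ← Real.norm_eq_abs]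
    refine norm_integral_le_of_norm_le (by linarith [Real.pi_pos]) (Eventually.of_forall ?_)
      (by
        have := continuous_ed (s := s) (l := l) hfc hf' hb
        exact (by fun_prop : Continuous fun t => 2 * (ed f f' b s l t / √(2 * l))).intervalIntegrable _ _)
    intro t _
    rw [hbe, Real.norm_eq_abs]
    have h2 : (L t).im - (1 - ‖f t‖ ^ 2) * ((L t).im - b t) - (L t).im =
      -((1 - ‖f t‖ ^ 2) * ((L t).im - b t)) := by ring
    rw [h2, abs_neg, abs_mul]
    have h3 := amgm (f := f) (f' := f') (b := b) hs hl t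
    have h4 := hgf t
    have h5 := abs_nonneg (1 - ‖f t‖ ^ 2)
    nlinarith
  have hE := En_nonneg (f := f) (f' := f') (b := b) hs hl
  calc dZ ((∫ t in (-π)..π, be f f' b t) / (2 * π))
      ≤ |(∫ t in (-π)..π, be f f' b t) / (2 * π) - n| := dZ_le _ _
    _ = |(∫ t in (-π)..π, be f f' b t) - 2 * π * n| / (2 * π) := by
        rw [← abs_of_pos (by positivity : 0 < 2 * π), ← abs_div,
          abs_of_pos (by positivity : 0 < 2 * π)]
        congr 1
        field_simp
    _ ≤ 2 * (En f f' b s l / √(2 * l)) / (2 * π) := by gcongr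
    _ ≤ En f f' b s l / √l := by
        rw [div_le_iff₀ (by positivity)]
        have h1 : En f f' b s l / √(2 * l) ≤ En f f' b s l / √l := by
          gcongr
          linarith
        have h2 : 1 ≤ π := by linarith [Real.pi_gt_three]
        have h3 : 0 ≤ En f f' b s l / √l := by positivity
        nlinarith

/-- case B: the section comes close to zero; then the energy is at least `c √l`. -/
theorem caseB (hs : 0 < s) (hl : 0 < l) (hls : 1 ≤ l * s ^ 2) (hf : ∀ t, HasDerivAt f (f' t) t)
    (hf' : Continuous f')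
    (hb : Continuous b) (hp : Function.Periodic f (2 * π)) (hq : ∃ t, ‖f t‖ ^ 2 < 1 / 4) :
    1 / 2 ≤ 60 * (En f f' b s l / √l) := by
  have hfc : Continuous f := continuous_iff_continuousAt.2 fun t => (hf t).continuousAt
  obtain ⟨t0, ht0⟩ := hq
  obtain ⟨t1, ht1, h01⟩ := hp.exists_mem_Ico (by positivity : 0 < 2 * π) t0 (-π)
  rw [h01] at ht0
  have ht1' : t1 ∈ Icc (-π) π := ⟨ht1.1, by have := ht1.2; linarith⟩
  set w : ℝ → ℝ := fun t => Ph (‖f t‖ ^ 2) with hw
  set g : ℝ → ℂ := fun t => f' t - I * b t * f t with hg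
  set w' : ℝ → ℝ := fun t => -((1 - ‖f t‖ ^ 2) / (1 + ‖f t‖ ^ 2) ^ 3) * (2 * inner ℝ (f t) (f' t))
    with hw'
  have hwd : ∀ t, HasDerivAt w (w' t) t := fun t =>
    HasDerivAt.comp (h₂ := Ph) (h := fun t => ‖f t‖ ^ 2) t (hasDerivAt_Ph (sq_nonneg ‖f t‖))
      (hf t).norm_sq
  have hwc : Continuous w := continuous_iff_continuousAt.2 fun t => (hwd t).continuousAt
  have hw'c : Continuous w' := by
    simp only [hw']
    have h1 : Continuous fun t => inner ℝ (f t) (f' t) := hfc.inner hf'
    have h2 : Continuous fun t => (1 - ‖f t‖ ^ 2) / (1 + ‖f t‖ ^ 2) ^ 3 := by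
      refine Continuous.div (by fun_prop) (by fun_prop) fun t => ?_
      positivity
    fun_prop
  have hinn : ∀ t, inner ℝ (f t) (f' t) = inner ℝ (f t) (g t) := by
    intro t
    have h1 : inner ℝ (f t) (I * b t * f t) = 0 := by
      rw [Complex.inner]
      have h4 : (starRingEnd ℂ) (f t) * f t = ((‖f t‖ ^ 2 : ℝ) : ℂ) := by
        rw [mul_comm, Complex.mul_conj, Complex.normSq_eq_norm_sq]
      have : I * (b t : ℂ) * f t * (starRingEnd ℂ) (f t) = I * ((b t * ‖f t‖ ^ 2 : ℝ) : ℂ) := by
        push_cast at h4 ⊢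
        rw [← h4]; ring
      first
        | rw [this, Complex.I_mul_re, Complex.ofReal_im, neg_zero]
        | rw [mul_comm, this, Complex.I_mul_re, Complex.ofReal_im, neg_zero]
    simp only [hg, inner_sub_right, h1, sub_zero]
  have hwb : ∀ t, |w' t| ≤ 2 * (ed f f' b s l t / √(2 * l)) := by
    intro t
    have h3 := amgm (f := f) (f' := f') (b := b) hs hl t
    have h1 := Ph_deriv_bound (sq_nonneg ‖f t‖)
    rw [Real.sqrt_sq (norm_nonneg _)] at h1
    simp only [hw']
    rw [abs_mul, hinn, abs_mul, abs_two]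
    have h2 : |inner ℝ (f t) (g t)| ≤ ‖f t‖ * ‖g t‖ := abs_real_inner_le_norm _ _
    have h5 := abs_nonneg (-((1 - ‖f t‖ ^ 2) / (1 + ‖f t‖ ^ 2) ^ 3))
    calc |(-((1 - ‖f t‖ ^ 2) / (1 + ‖f t‖ ^ 2) ^ 3))| * (2 * |inner ℝ (f t) (g t)|)
        ≤ |(-((1 - ‖f t‖ ^ 2) / (1 + ‖f t‖ ^ 2) ^ 3))| * (2 * (‖f t‖ * ‖g t‖)) := by gcongr
      _ = 2 * ((|(-((1 - ‖f t‖ ^ 2) / (1 + ‖f t‖ ^ 2) ^ 3))| * ‖f t‖) * ‖g t‖) := by ring
      _ ≤ 2 * (|1 - ‖f t‖ ^ 2| * ‖g t‖) := by gcongr
      _ ≤ _ := by
        have : ‖g t‖ = ‖f' t - I * b t * f t‖ := rfl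
        rw [this]
        linarith
  have hedc : Continuous fun t => 2 * (ed f f' b s l t / √(2 * l)) := by
    have := continuous_ed (s := s) (l := l) hfc hf' hb
    fun_prop
  set K : ℝ := 2 * (En f f' b s l / √(2 * l)) with hK
  have hKint : ∫ t in (-π)..π, 2 * (ed f f' b s l t / √(2 * l)) = K := by
    rw [intervalIntegral.integral_const_mul, intervalIntegral.integral_div]
    rfl
  have hpt : ∀ t ∈ Icc (-π) π, w t1 ≤ w t + K := by
    intro t ht
    have h1 : ∫ x in t..t1, w' x = w t1 - w t :=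
      integral_eq_sub_of_hasDerivAt (fun x _ => hwd x) (hw'c.intervalIntegrable _ _)
    have h2 : ‖∫ x in t..t1, w' x‖ ≤ ∫ x in Ι t t1, ‖w' x‖ := norm_integral_le_integral_norm_uIoc
    have h3 : ∫ x in Ι t t1, ‖w' x‖ ≤ ∫ x in Ioc (-π) π, 2 * (ed f f' b s l x / √(2 * l)) := by
      have hsub : Ι t t1 ⊆ Ioc (-π) π := by
        rw [uIoc]
        refine Ioc_subset_Ioc (le_min ht.1 ht1'.1) (max_le ht.2 ht1'.2)
      calc ∫ x in Ι t t1, ‖w' x‖ ≤ ∫ x in Ι t t1, 2 * (ed f f' b s l x / √(2 * l)) := by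
            refine setIntegral_mono_on ?_ ?_ measurableSet_uIoc fun x _ => hwb x
            · exact (hw'c.norm.integrableOn_Icc (a := -π) (b := π)).mono_set
                (hsub.trans Ioc_subset_Icc_self)
            · exact (hedc.integrableOn_Icc (a := -π) (b := π)).mono_set
                (hsub.trans Ioc_subset_Icc_self)
        _ ≤ _ := by
            refine setIntegral_mono_set ?_ ?_ (LE.le.eventuallyLE hsub)
            · exact (hedc.integrableOn_Icc (a := -π) (b := π)).mono_set Ioc_subset_Icc_self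
            · refine Eventually.of_forall fun x => ?_
              have := ed_nonneg (f := f) (f' := f') (b := b) hs hl x
              show 0 ≤ 2 * (ed f f' b s l x / √(2 * l))
              positivity
    rw [h1] at h2
    rw [← integral_of_le (by linarith [Real.pi_pos]), hKint] at h3
    have := le_abs_self (w t1 - w t)
    rw [← Real.norm_eq_abs] at this
    linarith
  have hmean : 2 * π * w t1 ≤ (∫ t in (-π)..π, w t) + 2 * π * K := by
    have h1 : ∫ _t in (-π)..π, w t1 = 2 * π * w t1 := by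
      rw [intervalIntegral.integral_const, smul_eq_mul]; ring
    have h2 : ∫ t in (-π)..π, (w t + K) = (∫ t in (-π)..π, w t) + 2 * π * K := by
      rw [intervalIntegral.integral_add (hwc.intervalIntegrable _ _) (by simp),
        intervalIntegral.integral_const, smul_eq_mul]; ring
    rw [← h1, ← h2]
    refine integral_mono_on (by linarith [Real.pi_pos]) (by simp)
      ((hwc.add continuous_const).intervalIntegrable _ _) fun t ht => hpt t ht
  have hwint : ∫ t in (-π)..π, w t ≤ En f f' b s l / (2 * (l * s)) := by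
    have h1 : En f f' b s l / (2 * (l * s)) = ∫ t in (-π)..π, ed f f' b s l t / (2 * (l * s)) := by
      rw [intervalIntegral.integral_div]; rfl
    rw [h1]
    refine integral_mono_on (by linarith [Real.pi_pos]) (hwc.intervalIntegrable _ _)
      (((continuous_ed hfc hf' hb).div_const _).intervalIntegrable _ _) fun t _ => ?_
    refine (Ph_le (sq_nonneg ‖f t‖)).trans ?_
    rw [div_le_div_iff₀ (by norm_num) (by positivity)]
    unfold ed
    have h2 : 0 ≤ ‖f' t - I * b t * f t‖ ^ 2 / s := by positivity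
    nlinarith
  have hw1 : 9 / 100 ≤ w t1 := Ph_small (sq_nonneg ‖f t1‖) ht0
  have hE := En_nonneg (f := f) (f' := f') (b := b) hs hl
  have hls' : √l ≤ l * s := by
    rw [Real.sqrt_le_left (by positivity)]
    nlinarith [mul_pos hl hs]
  have h1 : En f f' b s l / (2 * (l * s)) ≤ En f f' b s l / √l := by
    gcongr
    nlinarith [mul_pos hl hs]
  have h2 : K ≤ 2 * (En f f' b s l / √l) := by
    rw [hK]
    gcongr
    linarith
  have hpi := Real.pi_gt_three
  have hpi' := Real.pi_lt_four
  have h3 : 0 ≤ En f f' b s l / √l := by positivity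
  nlinarith

/-- **the circle lemma** -/
theorem circle (hs : 0 < s) (hl : 0 < l) (hls : 1 ≤ l * s ^ 2) (hf : ∀ t, HasDerivAt f (f' t) t)
    (hf' : Continuous f') (hb : Continuous b) (hp : Function.Periodic f (2 * π)) :
    dZ ((∫ t in (-π)..π, be f f' b t) / (2 * π)) ≤ 60 * (En f f' b s l / √l) := by
  have hE := En_nonneg (f := f) (f' := f') (b := b) hs hl
  by_cases h : ∀ t, 1 / 4 ≤ ‖f t‖ ^ 2
  · refine (caseA hs hl hf hf' hb hp h).trans ?_
    have : 0 ≤ En f f' b s l / √l := by positivity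
    linarith
  · push Not at h
    exact (dZ_le_half _).trans (caseB hs hl hls hf hf' hb hp h)

end circle

end

end Crest.Agent.R235.SliceA_751
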