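import Crest.Agent.R241.B7Moll2

/-!
Row 235 (S0364), SW-FS2 (helper984), part A: the Sobolev inequality `L⁴ ≤ C W^{1,2}` in `ℝ⁴` for
Lipschitz functions with compact support.
-/

set_option autoImplicit false

open MeasureTheory Filter Topology Set Metric
open scoped ENNReal NNReal ContDiff

namespace Crest.Agent.R235.Sob4_984

noncomputable section

local notation "𝔼" => EuclideanSpace ℝ (Fin 4)

/-- convergence of linear forms from the coordinates -/
theorem tendsto_clm {L : ℕ → 𝔼 →L[ℝ] ℝ} {L' : 𝔼 →L[ℝ] ℝ}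
    (h : ∀ j, Tendsto (fun n => L n (EuclideanSpace.single j 1)) atTop
      (𝓝 (L' (EuclideanSpace.single j 1)))) : Tendsto L atTop (𝓝 L') := by
  have e : ∀ T : 𝔼 →L[ℝ] ℝ, T = ∑ j : Fin 4, T (EuclideanSpace.single j 1) •
      (EuclideanSpace.proj j : 𝔼 →L[ℝ] ℝ) := by
    intro T
    ext v
    have hv : v = ∑ i, v i • (EuclideanSpace.single i (1 : ℝ) : 𝔼) := by
      ext j
      simp [Finset.sum_apply, Pi.single_apply]
    conv_lhs => rw [hv]
    rw [map_sum, _root_.sum_apply]
    refine Finset.sum_congr rfl fun i _ => ?_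
    rw [map_smul, _root_.smul_apply]
    simp [mul_comm]
  rw [e L']
  have e2 : L = fun n => ∑ j : Fin 4, L n (EuclideanSpace.single j 1) •
      (EuclideanSpace.proj j : 𝔼 →L[ℝ] ℝ) := funext fun n => e (L n)
  rw [e2]
  exact tendsto_finsetSum _ fun j _ => (h j).smul_const _

/-- the constant -/
def C4 : ℝ≥0 := SNormLESNormFDerivOfEqConst ℝ (volume : Measure 𝔼) ((2 : ℝ≥0) : ℝ)

theorem sob_C1 {f : 𝔼 → ℝ} (hf : ContDiff ℝ 1 f) (hc : HasCompactSupport f) :
    eLpNorm f 4 volume ≤ C4 * eLpNorm (fderiv ℝ f) 2 volume := by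
  have h := eLpNorm_le_eLpNorm_fderiv_of_eq (volume : Measure 𝔼) (F := ℝ) (u := f) hf hc
    (p := 2) (p' := 4) (by norm_num) (by simp) (by simp; norm_num)
  exact le_trans (le_of_eq rfl) h

theorem sob_lip {F : 𝔼 → ℝ} {K : ℝ≥0} (hF : LipschitzWith K F) (hc : HasCompactSupport F) :
    eLpNorm F 4 volume ≤ C4 * eLpNorm (fderiv ℝ F) 2 volume := by
  obtain ⟨G, hG1, hG2, hG3, hG4⟩ := Crest.Agent.R241.B7Moll2.exists_smooth_approx_ae hF
  obtain ⟨R, hR0, hR⟩ : ∃ R : ℝ, 0 < R ∧ tsupport F ⊆ ball 0 R := by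
    obtain ⟨R, hR⟩ := hc.isCompact.isBounded.subset_ball 0
    exact ⟨max R 1, lt_max_of_lt_right one_pos, hR.trans (ball_subset_ball (le_max_left _ _))⟩
  -- the cut-off
  let η : ContDiffBump (0 : 𝔼) := ⟨R, R + 1, hR0, by linarith⟩
  have hη1 : ∀ x ∈ ball (0 : 𝔼) R, η x = 1 := fun x hx =>
    η.one_of_mem_closedBall (ball_subset_closedBall hx)
  have hη0 : ∀ x, x ∉ ball (0 : 𝔼) (R + 1) → η x = 0 := fun x hx => by
    rw [← Function.notMem_support, η.support_eq]; exact hx
  have hηc : ContDiff ℝ ∞ (η : 𝔼 → ℝ) := η.contDiff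
  have hηF : (fun x => η x * F x) = F := by
    funext x
    by_cases hx : x ∈ ball (0 : 𝔼) R
    · rw [hη1 x hx, one_mul]
    · rw [image_eq_zero_of_notMem_tsupport fun h => hx (hR h), mul_zero]
  set f : ℕ → 𝔼 → ℝ := fun n x => η x * G n x with hf
  have hfs : ∀ n, ContDiff ℝ 1 (f n) := fun n =>
    (hηc.of_le (by simp)).mul ((hG1 n).of_le (by exact_mod_cast le_top))
  have hfc : ∀ n, HasCompactSupport (f n) := fun n => η.hasCompactSupport.mul_right
  -- derivatives
  have hdf : ∀ n x, fderiv ℝ (f n) x = η x • fderiv ℝ (G n) x + G n x • fderiv ℝ η x := by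
    intro n x
    rw [hf]
    exact fderiv_fun_mul ((hηc.differentiable (by simp)) x)
      (((hG1 n).differentiable (by simp)) x)
  have hlim : ∀ᵐ x : 𝔼, Tendsto (fun n => fderiv ℝ (f n) x) atTop (𝓝 (fderiv ℝ F x)) := by
    filter_upwards [hG4, hF.ae_differentiableAt (μ := volume)] with x h1 h2
    have h3 : fderiv ℝ F x = η x • fderiv ℝ F x + F x • fderiv ℝ η x := by
      conv_lhs => rw [← hηF]
      exact fderiv_fun_mul ((hηc.differentiable (by simp)) x) h2
    rw [h3]
    simp only [hdf]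
    exact ((tendsto_clm h1).const_smul _).add ((hG3 x).smul_const _)
  -- bounds
  obtain ⟨B, hB⟩ : ∃ B : ℝ, ∀ n, |G n 0| ≤ B := by
    obtain ⟨B, hB⟩ := (hG3 0).norm.bddAbove_range
    exact ⟨B, fun n => hB ⟨n, rfl⟩⟩
  obtain ⟨D, hD⟩ : ∃ D : ℝ, ∀ x, ‖fderiv ℝ η x‖ ≤ D := by
    have h1 : Continuous (fderiv ℝ (η : 𝔼 → ℝ)) := hηc.continuous_fderiv (by simp)
    have h2 : HasCompactSupport (fderiv ℝ (η : 𝔼 → ℝ)) := η.hasCompactSupport.fderiv ℝ
    exact h1.bounded_above_of_compact_support h2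
  have hD0 : 0 ≤ D := (norm_nonneg _).trans (hD 0)
  have hB0 : 0 ≤ B := (abs_nonneg _).trans (hB 0)
  set A : ℝ := K + (B + K * (R + 1)) * D with hA
  have hA0 : 0 ≤ A := by positivity
  have hbd : ∀ n x, ‖fderiv ℝ (f n) x‖ ≤ (ball (0 : 𝔼) (R + 1)).indicator (fun _ => A) x := by
    intro n x
    by_cases hx : x ∈ closedBall (0 : 𝔼) (R + 1)
    · by_cases hx' : x ∈ ball (0 : 𝔼) (R + 1)
      · rw [indicator_of_mem hx', hdf]
        refine (norm_add_le _ _).trans ?_
        rw [norm_smul, norm_smul]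
        have e1 : ‖η x‖ ≤ 1 := by rw [Real.norm_of_nonneg η.nonneg]; exact η.le_one
        have e2 : ‖fderiv ℝ (G n) x‖ ≤ K := norm_fderiv_le_of_lipschitz ℝ (hG2 n)
        have e3 : ‖G n x‖ ≤ B + K * (R + 1) := by
          have h1 := (hG2 n).dist_le_mul x 0
          rw [Real.dist_eq, dist_zero_right] at h1
          have h2 : ‖x‖ ≤ R + 1 := by rwa [mem_closedBall, dist_zero_right] at hx
          have h3 : |G n x| ≤ |G n x - G n 0| + |G n 0| := by
            have := abs_add_le (G n x - G n 0) (G n 0)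
            rwa [sub_add_cancel] at this
          have h4 : (K : ℝ) * ‖x‖ ≤ K * (R + 1) := mul_le_mul_of_nonneg_left h2 K.2
          rw [Real.norm_eq_abs]
          linarith [hB n]
        have e4 : ‖η x‖ * ‖fderiv ℝ (G n) x‖ ≤ 1 * K :=
          mul_le_mul e1 e2 (norm_nonneg _) zero_le_one
        have e5 : ‖G n x‖ * ‖fderiv ℝ η x‖ ≤ (B + K * (R + 1)) * D :=
          mul_le_mul e3 (hD x) (norm_nonneg _) (by positivity)
        rw [hA]; linarith
      · -- on the sphere: the function is nonnegative and zero, so `η = 0` and `dη = 0`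
        rw [indicator_of_notMem hx', hdf]
        have e1 : η x = 0 := hη0 x hx'
        have e2 : fderiv ℝ (η : 𝔼 → ℝ) x = 0 := by
          refine IsLocalMin.fderiv_eq_zero (Eventually.of_forall fun y => ?_)
          rw [e1]; exact η.nonneg
        rw [e1, e2]; simp
    · have hx' : x ∉ ball (0 : 𝔼) (R + 1) := fun h => hx (ball_subset_closedBall h)
      rw [indicator_of_notMem hx', hdf]
      have e1 : η x = 0 := hη0 x hx'
      have e2 : fderiv ℝ (η : 𝔼 → ℝ) x = 0 := by
        refine IsLocalMin.fderiv_eq_zero (Eventually.of_forall fun y => ?_)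
        rw [e1]; exact η.nonneg
      rw [e1, e2]; simp
  have hmeas : ∀ n, AEStronglyMeasurable (fderiv ℝ (f n)) (volume : Measure 𝔼) := fun n =>
    ((hfs n).continuous_fderiv one_ne_zero).aestronglyMeasurable
  -- convergence of the energies
  have hE : Tendsto (fun n => eLpNorm (fderiv ℝ (f n)) 2 (volume : Measure 𝔼)) atTop
      (𝓝 (eLpNorm (fderiv ℝ F) 2 volume)) := by
    have e : ∀ g : 𝔼 → (𝔼 →L[ℝ] ℝ), eLpNorm g 2 (volume : Measure 𝔼) =
        (∫⁻ x, ‖g x‖ₑ ^ (2 : ℝ)) ^ (1 / (2 : ℝ)) := by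
      intro g
      rw [eLpNorm_eq_lintegral_rpow_enorm_toReal (by norm_num) (by norm_num)]
      simp
    simp only [e]
    refine ((ENNReal.continuous_rpow_const).tendsto _).comp ?_
    refine tendsto_lintegral_of_dominated_convergence'
      (fun x => ((ball (0 : 𝔼) (R + 1)).indicator (fun _ => ENNReal.ofReal (A ^ 2)) x))
      (fun n => ?_) (fun n => ?_) ?_ ?_
    · exact (hmeas n).enorm.pow_const _
    · refine Eventually.of_forall fun x => ?_
      have h1 := hbd n x
      beta_reduce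
      by_cases hx : x ∈ ball (0 : 𝔼) (R + 1)
      · rw [indicator_of_mem hx] at h1 ⊢
        have : ‖fderiv ℝ (f n) x‖ₑ ^ (2 : ℝ) = ENNReal.ofReal (‖fderiv ℝ (f n) x‖ ^ 2) := by
          rw [← ofReal_norm, ENNReal.rpow_two, ENNReal.ofReal_pow (norm_nonneg _)]
        rw [this]
        exact ENNReal.ofReal_le_ofReal (by gcongr)
      · rw [indicator_of_notMem hx] at h1 ⊢
        have h2 : ‖fderiv ℝ (f n) x‖ = 0 := le_antisymm h1 (norm_nonneg _)
        have h3 : ‖fderiv ℝ (f n) x‖ₑ = 0 := by rw [← ofReal_norm, h2, ENNReal.ofReal_zero]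
        rw [h3, ENNReal.zero_rpow_of_pos (by norm_num)]
    · rw [lintegral_indicator measurableSet_ball]
      simp only [lintegral_const, Measure.restrict_apply MeasurableSet.univ, univ_inter]
      exact ENNReal.mul_ne_top ENNReal.ofReal_ne_top measure_ball_lt_top.ne
    · filter_upwards [hlim] with x hx
      exact ((ENNReal.continuous_rpow_const).tendsto _).comp
        ((continuous_enorm.tendsto _).comp hx)
  -- Fatou
  have h1 : eLpNorm F 4 volume ≤ atTop.liminf fun n => eLpNorm (f n) 4 volume := by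
    refine Lp.eLpNorm_lim_le_liminf_eLpNorm
      (fun n => ((hfs n).continuous.aestronglyMeasurable)) F (Eventually.of_forall fun x => ?_)
    have h2 : Tendsto (fun n => η x * G n x) atTop (𝓝 (η x * F x)) := (hG3 x).const_mul _
    have h3 : η x * F x = F x := congrFun hηF x
    rwa [h3] at h2
  have h2 : Tendsto (fun n => (C4 : ℝ≥0∞) * eLpNorm (fderiv ℝ (f n)) 2 (volume : Measure 𝔼)) atTop
      (𝓝 (C4 * eLpNorm (fderiv ℝ F) 2 volume)) :=
    ENNReal.Tendsto.const_mul hE (Or.inr ENNReal.coe_ne_top)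
  refine h1.trans ?_
  rw [← h2.liminf_eq]
  exact liminf_le_liminf (Eventually.of_forall fun n => sob_C1 (hfs n) (hfc n))

end

end Crest.Agent.R235.Sob4_984
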