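import Crest.Agent.R235.Sob4A_984
import Crest.Agent.R247.Ms12_322

/-!
Row 235 (S0364), SW-FS2 (helper984), part B: the Sobolev inequality for functions on `M`, `dim 4`,
supported in a compact set of a chart.
-/

set_option autoImplicit false
set_option maxSynthPendingDepth 3
set_option linter.unusedSectionVars false

open Bundle Bornology Set MeasureTheory Manifold Filter Metric
open scoped ENNReal ContDiff Topology NNReal
open Crest.GeometryTopology.CoordMetric Crest.GeometryTopology.ChartCurvature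
open Crest.Agent.R247 Crest.Agent.R247.Ms322

namespace Crest.Agent.R235.Sob4_984

noncomputable section

local notation "𝔼" => EuclideanSpace ℝ (Fin 4)

theorem norm_le_sum (L : 𝔼 →L[ℝ] ℝ) {A : ℝ} (hA : 0 ≤ A)
    (h : ∀ i, |L (EuclideanSpace.single i 1)| ≤ A) : ‖L‖ ≤ 4 * A := by
  refine ContinuousLinearMap.opNorm_le_bound _ (by positivity) fun v => ?_
  have hv : v = ∑ i, v i • (EuclideanSpace.single i (1 : ℝ) : 𝔼) := by
    ext j
    simp [Finset.sum_apply, Pi.single_apply]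
  have h1 : L v = ∑ i, v i * L (EuclideanSpace.single i 1) := by
    conv_lhs => rw [hv]
    rw [map_sum]
    exact Finset.sum_congr rfl fun i _ => by rw [map_smul, smul_eq_mul]
  rw [h1]
  refine (norm_sum_le _ _).trans ?_
  have h2 : ∀ i ∈ (Finset.univ : Finset (Fin 4)), ‖v i * L (EuclideanSpace.single i 1)‖ ≤
      ‖v‖ * A := by
    intro i _
    rw [norm_mul]
    exact mul_le_mul (PiLp.norm_apply_le v i) (h i) (norm_nonneg _) (norm_nonneg _)
  refine (Finset.sum_le_sum h2).trans ?_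
  simp
  linarith

/-- the fourth power of the `L⁴` norm, etc. -/
theorem eLpNorm_four {α F : Type*} [MeasurableSpace α] [NormedAddCommGroup F] (μ : Measure α)
    (g : α → F) : eLpNorm g 4 μ = (∫⁻ x, ‖g x‖ₑ ^ (4 : ℝ) ∂μ) ^ (1 / (4 : ℝ)) := by
  rw [eLpNorm_eq_lintegral_rpow_enorm_toReal (by norm_num) (by norm_num)]
  simp

theorem eLpNorm_two {α F : Type*} [MeasurableSpace α] [NormedAddCommGroup F] (μ : Measure α)
    (g : α → F) : eLpNorm g 2 μ = (∫⁻ x, ‖g x‖ₑ ^ (2 : ℝ) ∂μ) ^ (1 / (2 : ℝ)) := by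
  rw [eLpNorm_eq_lintegral_rpow_enorm_toReal (by norm_num) (by norm_num)]
  simp

variable {M : Type*} [MetricSpace M] [ChartedSpace (EuclideanSpace ℝ (Fin 4)) M]
  [IsManifold (𝓡 4) ∞ M]
  [RiemannianBundle (fun p : M => TangentSpace (𝓡 4) p)]
  [IsContMDiffRiemannianBundle (𝓡 4) ∞ (EuclideanSpace ℝ (Fin 4)) (fun p : M => TangentSpace (𝓡 4) p)]
  [SecondCountableTopology M] [Nonempty M] [IsRiemannianManifold (𝓡 4) M]
  [MeasurableSpace M] [BorelSpace M]

/-- **Sobolev in a chart.** -/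
theorem sob_chart (x₀ : M) {K : Set M} (hK : IsCompact K) (hKs : K ⊆ (chartAt 𝔼 x₀).source) :
    ∃ C : ℝ≥0, ∀ φ : M → ℝ, LocallyLipschitz φ → tsupport φ ⊆ K →
      eLpNorm φ 4 (μHE[4] : Measure M) ≤ C * eLpNorm (Gr (n := 4) φ) 2 (μHE[4] : Measure M) := by
  set T := (chartAt 𝔼 x₀).target with hT
  set K' : Set 𝔼 := chartAt 𝔼 x₀ '' K with hK'
  have hK'c : IsCompact K' := isCompact_chart_image x₀ hK hKs
  have hK'T : K' ⊆ T := by rintro _ ⟨z, hz, rfl⟩; exact (chartAt 𝔼 x₀).map_source (hKs hz)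
  have hdc : ContinuousOn (dens (n := 4) x₀) K' := (continuousOn_dens (n := 4) x₀).mono hK'T
  obtain ⟨D1, hD1⟩ := hK'c.exists_bound_of_continuousOn hdc
  obtain ⟨D2, hD2⟩ := hK'c.exists_bound_of_continuousOn
    (hdc.inv₀ fun a ha => (dens_pos (n := 4) x₀ (hK'T ha)).ne')
  choose CE hCE0 hCE using fun i : Fin 4 => exists_bound_Ef (n := 4) x₀ i hK hKs
  set A : ℝ := ∑ i, CE i with hA
  have hA0 : 0 ≤ A := Finset.sum_nonneg fun i _ => hCE0 i
  have hAi : ∀ i, CE i ≤ A := fun i => Finset.single_le_sum (fun i _ => hCE0 i) (Finset.mem_univ i)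
  set c1 : ℝ≥0∞ := ENNReal.ofReal |D1| with hc1
  set c2 : ℝ≥0∞ := ENNReal.ofReal ((4 * A) ^ 2 * |D2|) with hc2
  set Ct : ℝ≥0∞ := c1 ^ (1 / (4 : ℝ)) * (C4 * c2 ^ (1 / (2 : ℝ))) with hCt
  have hCtop : Ct ≠ ⊤ := by
    refine ENNReal.mul_ne_top (ENNReal.rpow_ne_top_of_nonneg (by positivity) ENNReal.ofReal_ne_top)
      (ENNReal.mul_ne_top ENNReal.coe_ne_top
        (ENNReal.rpow_ne_top_of_nonneg (by positivity) ENNReal.ofReal_ne_top))
  refine ⟨Ct.toNNReal, fun φ hφ hφK => ?_⟩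
  rw [ENNReal.coe_toNNReal hCtop]
  have hφc : HasCompactSupport φ := hK.of_isClosed_subset (isClosed_tsupport _) hφK
  have hφs : tsupport φ ⊆ (chartAt 𝔼 x₀).source := hφK.trans hKs
  have hsm : MeasurableSet (chartAt 𝔼 x₀).source := (chartAt 𝔼 x₀).open_source.measurableSet
  have hTm : MeasurableSet T := (chartAt 𝔼 x₀).open_target.measurableSet
  set F : 𝔼 → ℝ := pll (n := 4) x₀ φ with hF
  have hFc : HasCompactSupport F := hasCompactSupport_pll x₀ hφc hφs
  obtain ⟨k, hk⟩ := exists_lipschitzWith (locallyLipschitz_pll (n := 4) x₀ hφ hφc hφs) hFc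
  have hFK : tsupport F ⊆ K' := (tsupport_pll_subset x₀ hφc hφs).trans (image_mono hφK)
  -- step 1: the left-hand side
  have h1 : eLpNorm φ 4 (μHE[4] : Measure M) ≤ c1 ^ (1 / (4 : ℝ)) * eLpNorm F 4 volume := by
    rw [eLpNorm_four, eLpNorm_four, ← ENNReal.mul_rpow_of_nonneg _ _ (by norm_num)]
    refine ENNReal.rpow_le_rpow ?_ (by norm_num)
    have e1 : ∫⁻ z, ‖φ z‖ₑ ^ (4 : ℝ) ∂(μHE[4] : Measure M) =
        ∫⁻ z in (chartAt 𝔼 x₀).source, ‖φ z‖ₑ ^ (4 : ℝ) ∂(μHE[4] : Measure M) := by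
      rw [← lintegral_indicator hsm]
      refine lintegral_congr fun z => ?_
      by_cases hz : z ∈ (chartAt 𝔼 x₀).source
      · rw [indicator_of_mem hz]
      · rw [indicator_of_notMem hz, image_eq_zero_of_notMem_tsupport fun h => hz (hφs h)]
        simp
    rw [e1, lintegral_source, ← lintegral_const_mul' _ _ ENNReal.ofReal_ne_top]
    refine (setLIntegral_mono_ae' hTm (Eventually.of_forall fun a ha => ?_)).trans
      (setLIntegral_le_lintegral T _)
    rw [hF, pll_of_mem x₀ φ ha]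
    by_cases haK : a ∈ K'
    · refine mul_le_mul_left ?_ _
      refine ENNReal.ofReal_le_ofReal ?_
      exact ((le_abs_self _).trans (hD1 a haK)).trans (le_abs_self _)
    · have : φ ((chartAt 𝔼 x₀).symm a) = 0 := by
        refine image_eq_zero_of_notMem_tsupport fun h => haK ?_
        exact ⟨_, hφK h, (chartAt 𝔼 x₀).right_inv ha⟩
      rw [this]; simp
  -- step 2: the right-hand side
  have h2 : eLpNorm (fderiv ℝ F) 2 volume ≤
      c2 ^ (1 / (2 : ℝ)) * eLpNorm (Gr (n := 4) φ) 2 (μHE[4] : Measure M) := by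
    rw [eLpNorm_two, eLpNorm_two, ← ENNReal.mul_rpow_of_nonneg _ _ (by norm_num)]
    refine ENNReal.rpow_le_rpow ?_ (by norm_num)
    have e1 : ∫⁻ a, ‖fderiv ℝ F a‖ₑ ^ (2 : ℝ) = ∫⁻ a in T, ‖fderiv ℝ F a‖ₑ ^ (2 : ℝ) := by
      rw [← lintegral_indicator hTm]
      refine lintegral_congr fun a => ?_
      by_cases ha : a ∈ T
      · rw [indicator_of_mem ha]
      · have h3 : ‖fderiv ℝ F a‖ = 0 := by
          rw [fderiv_zero_off fun h => ha (hK'T (hFK h)), norm_zero]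
        have h4 : ‖fderiv ℝ F a‖ₑ = 0 := by rw [← ofReal_norm, h3, ENNReal.ofReal_zero]
        rw [indicator_of_notMem ha, h4, ENNReal.zero_rpow_of_pos (by norm_num)]
    have e2 : ∫⁻ z in (chartAt 𝔼 x₀).source, ‖Gr (n := 4) φ z‖ₑ ^ (2 : ℝ) ∂(μHE[4] : Measure M) ≤
        ∫⁻ z, ‖Gr (n := 4) φ z‖ₑ ^ (2 : ℝ) ∂(μHE[4] : Measure M) := setLIntegral_le_lintegral _ _
    refine le_trans ?_ (mul_le_mul_right e2 _)
    rw [e1, lintegral_source, ← lintegral_const_mul' _ _ ENNReal.ofReal_ne_top]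
    refine setLIntegral_mono_ae' hTm (Eventually.of_forall fun a ha => ?_)
    by_cases haK : a ∈ K'
    · set z := (chartAt 𝔼 x₀).symm a with hz
      have hzs : z ∈ (chartAt 𝔼 x₀).source := (chartAt 𝔼 x₀).map_target ha
      have hza : chartAt 𝔼 x₀ z = a := (chartAt 𝔼 x₀).right_inv ha
      have hzK : z ∈ K := by
        obtain ⟨w, hw, hwa⟩ := haK
        rw [hz, ← hwa, (chartAt 𝔼 x₀).left_inv (hKs hw)]; exact hw
      have h3 : ‖fderiv ℝ F a‖ ≤ 4 * (A * ‖Gr (n := 4) φ z‖) := by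
        refine norm_le_sum _ (by positivity) fun i => ?_
        have h4 := inner_Ef (n := 4) x₀ i hzs φ
        rw [hza] at h4
        have h5 : fderiv ℝ F a (EuclideanSpace.single i 1) =
            pderiv i (fun b => φ ((chartAt 𝔼 x₀).symm b)) a := by
          rw [(pll_eventually x₀ φ ha).fderiv_eq]; rfl
        rw [h5, ← h4]
        refine (abs_real_inner_le_norm _ _).trans ?_
        exact mul_le_mul_of_nonneg_right ((hCE i z hzK).trans (hAi i)) (norm_nonneg _)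
      have h6 : 1 ≤ |D2| * dens (n := 4) x₀ a := by
        have h7 := hD2 a haK
        have h8 := dens_pos (n := 4) x₀ ha
        rw [Pi.inv_apply, Real.norm_of_nonneg (inv_nonneg.2 h8.le)] at h7
        calc (1 : ℝ) = (dens (n := 4) x₀ a)⁻¹ * dens (n := 4) x₀ a := (inv_mul_cancel₀ h8.ne').symm
          _ ≤ |D2| * dens (n := 4) x₀ a :=
            mul_le_mul_of_nonneg_right (h7.trans (le_abs_self _)) h8.le
      have h9 : ‖fderiv ℝ F a‖ ^ 2 ≤
          ((4 * A) ^ 2 * |D2|) * (dens (n := 4) x₀ a * ‖Gr (n := 4) φ z‖ ^ 2) := by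
        calc ‖fderiv ℝ F a‖ ^ 2 ≤ (4 * (A * ‖Gr (n := 4) φ z‖)) ^ 2 := by gcongr
          _ = ((4 * A) ^ 2 * ‖Gr (n := 4) φ z‖ ^ 2) * 1 := by ring
          _ ≤ ((4 * A) ^ 2 * ‖Gr (n := 4) φ z‖ ^ 2) * (|D2| * dens (n := 4) x₀ a) :=
            mul_le_mul_of_nonneg_left h6 (by positivity)
          _ = _ := by ring
      have g1 : ‖fderiv ℝ F a‖ₑ ^ (2 : ℝ) = ENNReal.ofReal (‖fderiv ℝ F a‖ ^ 2) := by
        rw [← ofReal_norm, ENNReal.rpow_two, ENNReal.ofReal_pow (norm_nonneg _)]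
      have g2 : ‖Gr (n := 4) φ z‖ₑ ^ (2 : ℝ) = ENNReal.ofReal (‖Gr (n := 4) φ z‖ ^ 2) := by
        rw [← ofReal_norm, ENNReal.rpow_two, ENNReal.ofReal_pow (norm_nonneg _)]
      rw [g1, g2, ← ENNReal.ofReal_mul (dens_nonneg _ _), ← ENNReal.ofReal_mul (by positivity)]
      exact ENNReal.ofReal_le_ofReal h9
    · have h3 : ‖fderiv ℝ F a‖ = 0 := by
        rw [fderiv_zero_off fun h => haK (hFK h), norm_zero]
      have h4 : ‖fderiv ℝ F a‖ₑ = 0 := by rw [← ofReal_norm, h3, ENNReal.ofReal_zero]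
      rw [h4, ENNReal.zero_rpow_of_pos (by norm_num)]
      exact zero_le
  calc eLpNorm φ 4 (μHE[4] : Measure M) ≤ c1 ^ (1 / (4 : ℝ)) * eLpNorm F 4 volume := h1
    _ ≤ c1 ^ (1 / (4 : ℝ)) * (C4 * eLpNorm (fderiv ℝ F) 2 volume) :=
      mul_le_mul_right (sob_lip hk hFc) _
    _ ≤ c1 ^ (1 / (4 : ℝ)) * (C4 * (c2 ^ (1 / (2 : ℝ)) *
        eLpNorm (Gr (n := 4) φ) 2 (μHE[4] : Measure M))) :=
      mul_le_mul_right (mul_le_mul_right h2 _) _
    _ = Ct * eLpNorm (Gr (n := 4) φ) 2 (μHE[4] : Measure M) := by rw [hCt]; ring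

end

end Crest.Agent.R235.Sob4_984
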