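import Crest.Agent.R235.Pull_153

/-!
# Row 235, TOR / FIB-B1 (helper153): sprays

`exists_spray` : on a compact manifold `M` there are `n` and `F : M → ℝⁿ → M`, smooth near the zero
section, `F x 0 = x`, with `D_v F (x, 0)` onto for every `x`.
-/

set_option autoImplicit false
set_option maxSynthPendingDepth 3

open Set Function Filter Metric
open scoped Manifold ContDiff Topology

universe u

namespace Crest.Agent.R235.Spray_153

open Crest.Agent.R240 Crest.Agent.R240.Ch Crest.Agent.R235.Pull_153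

noncomputable section

variable {M : Type u} [TopologicalSpace M] [ChartedSpace E4 M]

/-- a spray over `K` -/
structure IsSpr {V : Type} [NormedAddCommGroup V] [NormedSpace ℝ V] (F : M → V → M) (r : ℝ)
    (K : Set M) : Prop where
  pos : 0 < r
  zero : ∀ x, F x 0 = x
  smooth : ∀ (x : M) (v : V), ‖v‖ < r →
    ContMDiffAt (𝓘(ℝ, E4).prod 𝓘(ℝ, V)) 𝓘(ℝ, E4) ∞ (fun q : M × V => F q.1 q.2) (x, v)
  onto : ∀ x ∈ K, Surjective (Dm (F x) 0)

/-- there is a spray over `K` -/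
def HasSpr (K : Set M) : Prop :=
  ∃ (V : Type) (_ : NormedAddCommGroup V) (_ : NormedSpace ℝ V) (_ : FiniteDimensional ℝ V)
    (F : M → V → M) (r : ℝ), IsSpr F r K

theorem IsSpr.mono {V : Type} [NormedAddCommGroup V] [NormedSpace ℝ V] {F : M → V → M} {r : ℝ}
    {K K' : Set M} (h : IsSpr F r K') (hK : K ⊆ K') : IsSpr F r K :=
  ⟨h.pos, h.zero, h.smooth, fun x hx => h.onto x (hK hx)⟩

theorem IsSpr.smooth1 {V : Type} [NormedAddCommGroup V] [NormedSpace ℝ V] {F : M → V → M} {r : ℝ}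
    {K : Set M} (h : IsSpr F r K) (x : M) {v : V} (hv : ‖v‖ < r) :
    ContMDiffAt 𝓘(ℝ, V) 𝓘(ℝ, E4) ∞ (F x) v :=
  ContMDiffAt.comp v (g := fun q : M × V => F q.1 q.2) (f := fun v : V => (x, v))
    (h.smooth x v hv) (contMDiffAt_const.prodMk contMDiffAt_id)

/-- change of the parameter space -/
theorem IsSpr.equiv {V V' : Type} [NormedAddCommGroup V] [NormedSpace ℝ V]
    [NormedAddCommGroup V'] [NormedSpace ℝ V'] [IsManifold 𝓘(ℝ, E4) ∞ M] {F : M → V → M} {r : ℝ}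
    {K : Set M} (h : IsSpr F r K) (e : V' ≃L[ℝ] V) :
    ∃ r' : ℝ, IsSpr (fun x v => F x (e v)) r' K := by
  have hc : 0 < ‖(e : V' →L[ℝ] V)‖ + 1 := by positivity
  have hlt : ∀ v : V', ‖v‖ < r / (‖(e : V' →L[ℝ] V)‖ + 1) → ‖e v‖ < r := by
    intro v hv
    rw [lt_div_iff₀ hc] at hv
    calc ‖e v‖ ≤ ‖(e : V' →L[ℝ] V)‖ * ‖v‖ := (e : V' →L[ℝ] V).le_opNorm v
      _ ≤ ‖v‖ * (‖(e : V' →L[ℝ] V)‖ + 1) := by nlinarith [norm_nonneg v]
      _ < r := hv
  refine ⟨r / (‖(e : V' →L[ℝ] V)‖ + 1), div_pos h.pos hc, fun x => by simp [h.zero],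
    fun x v hv => ?_, fun x hx => ?_⟩
  · have h1 := h.smooth x (e v) (hlt v hv)
    refine ContMDiffAt.comp (x, v) (g := fun q : M × V => F q.1 q.2)
      (f := fun q : M × V' => (q.1, e q.2)) h1 ?_
    refine contMDiffAt_fst.prodMk ?_
    exact ContMDiffAt.comp (x, v) (g := fun v : V' => e v) (f := fun q : M × V' => q.2)
      (e.contDiff.contMDiff.contMDiffAt) contMDiffAt_snd
  · have h1 : ContMDiffAt 𝓘(ℝ, V) 𝓘(ℝ, E4) 1 (F x) (e 0) := by
      rw [map_zero]
      exact (h.smooth1 x (by simpa using h.pos)).of_le (by simp)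
    have h2 := Dm_comp (σ := F x) (g := fun v : V' => e v) (y := 0) h1
      e.differentiableAt
    have h3 : Dm (fun v => F x (e v)) 0 = (Dm (F x) 0).comp (e : V' →L[ℝ] V) := by
      have h4 : fderiv ℝ (fun v : V' => e v) 0 = (e : V' →L[ℝ] V) := e.fderiv
      rw [h4, map_zero] at h2
      exact h2
    rw [h3]
    exact (h.onto x hx).comp e.surjective

section Chart

variable [T2Space M] [IsManifold 𝓘(ℝ, E4) ∞ M]

open Classical in
/-- the one-chart spray -/
def F1c (p : M) (θ : E4 → ℝ) (x : M) (v : E4) : M :=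
  if x ∈ (chartAt E4 p).source then (chartAt E4 p).symm (chartAt E4 p x + θ (chartAt E4 p x) • v)
  else x

theorem local_spray (p : M) : ∃ U ∈ 𝓝 p, HasSpr U := by
  classical
  set φ := chartAt E4 p with hφ
  have hp : p ∈ φ.source := mem_chart_source E4 p
  have ht : φ.target ∈ 𝓝 (φ p) := φ.open_target.mem_nhds (φ.map_source hp)
  obtain ⟨δ, hδ, hsub⟩ := Metric.mem_nhds_iff.1 ht
  set ρ := δ / 4 with hρ
  have hρ0 : 0 < ρ := by positivity
  let b : ContDiffBump (φ p) := ⟨ρ / 2, ρ, by positivity, by linarith⟩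
  have hb0 : ∀ y, y ∉ ball (φ p) ρ → b y = 0 := by
    intro y hy
    have h1 : y ∉ support b := by rw [b.support_eq]; exact hy
    simpa using h1
  have hb1 : ∀ y, y ∈ closedBall (φ p) (ρ / 2) → b y = 1 := fun y hy => b.one_of_mem_closedBall hy
  -- the moved point stays in the target
  have hmem : ∀ y ∈ φ.target, ∀ v : E4, ‖v‖ < ρ → y + b y • v ∈ φ.target := by
    intro y hy v hv
    by_cases h : y ∈ ball (φ p) ρ
    · apply hsub
      rw [mem_ball, dist_eq_norm]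
      have h1 : ‖y - φ p‖ < ρ := by rwa [mem_ball, dist_eq_norm] at h
      have h2 : ‖b y • v‖ ≤ ‖v‖ := by
        rw [norm_smul, Real.norm_eq_abs, abs_of_nonneg b.nonneg]
        exact mul_le_of_le_one_left (norm_nonneg _) b.le_one
      calc ‖y + b y • v - φ p‖ = ‖(y - φ p) + b y • v‖ := by congr 1; abel
        _ ≤ ‖y - φ p‖ + ‖b y • v‖ := norm_add_le _ _
        _ < δ := by linarith
    · rw [hb0 y h, zero_smul, add_zero]; exact hy
  -- the compact set off which nothing moves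
  have hcb : closedBall (φ p) ρ ⊆ φ.target :=
    (closedBall_subset_ball (by linarith)).trans hsub
  have hK : IsClosed (φ.symm '' closedBall (φ p) ρ) :=
    ((isCompact_closedBall (φ p) ρ).image_of_continuousOn
      (φ.continuousOn_symm.mono hcb)).isClosed
  have hoff : ∀ x, x ∉ φ.symm '' closedBall (φ p) ρ → ∀ v, F1c p b x v = x := by
    intro x hx v
    unfold F1c
    split_ifs with h
    · have h1 : φ x ∉ ball (φ p) ρ := fun h2 =>
        hx ⟨φ x, ball_subset_closedBall h2, φ.left_inv h⟩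
      rw [hb0 _ h1, zero_smul, add_zero]
      exact φ.left_inv h
    · rfl
  refine ⟨φ.source ∩ φ ⁻¹' ball (φ p) (ρ / 2), ?_, E4, inferInstance, inferInstance,
    inferInstance, F1c p b, ρ, hρ0, fun x => ?_, fun x v hv => ?_, fun x hx => ?_⟩
  · have h1 : φ ⁻¹' ball (φ p) (ρ / 2) ∈ 𝓝 p :=
      (φ.continuousAt hp).preimage_mem_nhds (ball_mem_nhds _ (by positivity))
    exact inter_mem (φ.open_source.mem_nhds hp) h1
  · unfold F1c
    split_ifs with h
    · rw [smul_zero, add_zero]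
      exact φ.left_inv h
    · rfl
  · by_cases h : x ∈ φ.source
    · have hev : (fun q : M × E4 => F1c p b q.1 q.2) =ᶠ[𝓝 (x, v)]
          fun q => φ.symm (φ q.1 + b (φ q.1) • q.2) := by
        have h1 : ∀ᶠ q : M × E4 in 𝓝 (x, v), q.1 ∈ φ.source :=
          (continuous_fst.tendsto (x, v)).eventually (φ.open_source.mem_nhds h)
        filter_upwards [h1] with q hq
        exact if_pos hq
      refine ContMDiffAt.congr_of_eventuallyEq ?_ hev
      have hs : ContMDiffAt 𝓘(ℝ, E4) 𝓘(ℝ, E4) ∞ φ.symm (φ x + b (φ x) • v) :=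
        (contMDiffOn_chart_symm (I := 𝓘(ℝ, E4)) (x := p)).contMDiffAt
          (φ.open_target.mem_nhds (hmem _ (φ.map_source h) v hv))
      have hc : ContMDiffAt 𝓘(ℝ, E4) 𝓘(ℝ, E4) ∞ φ x :=
        (contMDiffOn_chart (I := 𝓘(ℝ, E4)) (x := p)).contMDiffAt (φ.open_source.mem_nhds h)
      have hc1 : ContMDiffAt (𝓘(ℝ, E4).prod 𝓘(ℝ, E4)) 𝓘(ℝ, E4) ∞
          (fun q : M × E4 => φ q.1) (x, v) :=
        ContMDiffAt.comp (x, v) (g := φ) (f := fun q : M × E4 => q.1) hc contMDiffAt_fst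
      have hb : ContMDiffAt (𝓘(ℝ, E4).prod 𝓘(ℝ, E4)) 𝓘(ℝ, ℝ) ∞
          (fun q : M × E4 => b (φ q.1)) (x, v) :=
        ContMDiffAt.comp (x, v) (g := b) (f := fun q : M × E4 => φ q.1)
          (b.contDiff.contMDiff.contMDiffAt) hc1
      have hg : ContMDiffAt (𝓘(ℝ, E4).prod 𝓘(ℝ, E4)) 𝓘(ℝ, E4) ∞
          (fun q : M × E4 => φ q.1 + b (φ q.1) • q.2) (x, v) :=
        hc1.add (hb.smul contMDiffAt_snd)
      exact ContMDiffAt.comp (x, v) (g := φ.symm)
        (f := fun q : M × E4 => φ q.1 + b (φ q.1) • q.2) hs hg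
    · have hx : x ∉ φ.symm '' closedBall (φ p) ρ := by
        rintro ⟨y, hy, rfl⟩
        exact h (φ.map_target (hcb hy))
      have hev : (fun q : M × E4 => F1c p b q.1 q.2) =ᶠ[𝓝 (x, v)] fun q => q.1 := by
        have h1 : ∀ᶠ q : M × E4 in 𝓝 (x, v), q.1 ∉ φ.symm '' closedBall (φ p) ρ :=
          (continuous_fst.tendsto (x, v)).eventually (hK.isOpen_compl.mem_nhds hx)
        filter_upwards [h1] with q hq
        exact hoff _ hq _
      exact contMDiffAt_fst.congr_of_eventuallyEq hev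
  · -- surjectivity
    have hxs : x ∈ (chartAt E4 p).source := hx.1
    have hb : b (φ x) = 1 := hb1 _ (ball_subset_closedBall hx.2)
    have h0 : F1c p b x 0 = x := by
      unfold F1c
      rw [if_pos hx.1, smul_zero, add_zero]
      exact φ.left_inv hx.1
    have hFx : ∀ v, F1c p b x v = φ.symm (φ x + v) := by
      intro v
      unfold F1c
      rw [if_pos hx.1, hb, one_smul]
    have hs : ContMDiffAt 𝓘(ℝ, E4) 𝓘(ℝ, E4) 1 (F1c p b x) 0 := by
      have h1 : (F1c p b x) = φ.symm ∘ fun v => φ x + v := funext hFx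
      rw [h1]
      have h2 : ContMDiffAt 𝓘(ℝ, E4) 𝓘(ℝ, E4) 1 φ.symm (φ x + 0) := by
        rw [add_zero]
        exact ((contMDiffOn_chart_symm (I := 𝓘(ℝ, E4)) (n := ∞) (x := p)).contMDiffAt
          (φ.open_target.mem_nhds (φ.map_source hx.1))).of_le (by simp)
      refine ContMDiffAt.comp (0 : E4) (g := φ.symm) (f := fun v => φ x + v) h2 ?_
      exact (contDiff_const.add contDiff_id).contMDiff.contMDiffAt
    have h1 := fderiv_chart (σ := F1c p b x) (y := 0) hs (p := p) (by rw [h0]; exact hx.1)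
    have h2 : (fun v => chartAt E4 p (F1c p b x v)) =ᶠ[𝓝 0] fun v => φ x + v := by
      have h3 : ∀ᶠ v : E4 in 𝓝 0, φ x + v ∈ φ.target := by
        have h4 : ContinuousAt (fun v : E4 => φ x + v) 0 := by fun_prop
        apply h4.preimage_mem_nhds
        rw [add_zero]
        exact φ.open_target.mem_nhds (φ.map_source hx.1)
      filter_upwards [h3] with v hv
      rw [hFx]
      exact φ.right_inv hv
    have h5 : fderiv ℝ (fun v => chartAt E4 p (F1c p b x v)) 0 = ContinuousLinearMap.id ℝ E4 := by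
      rw [h2.fderiv_eq, fderiv_const_add]
      exact fderiv_fun_id
    rw [h5, h0] at h1
    intro w
    refine ⟨tcc x p x w, tcc_inj hxs ?_⟩
    have h6 := congrArg (fun L : E4 →L[ℝ] E4 => L (tcc x p x w)) h1
    simpa using h6.symm

end Chart

/-- the composition of two sprays -/
theorem IsSpr.union [IsManifold 𝓘(ℝ, E4) ∞ M] {V₁ V₂ : Type} [NormedAddCommGroup V₁]
    [NormedSpace ℝ V₁] [NormedAddCommGroup V₂] [NormedSpace ℝ V₂] {F₁ : M → V₁ → M}
    {F₂ : M → V₂ → M} {r₁ r₂ : ℝ} {K₁ K₂ : Set M} (h₁ : IsSpr F₁ r₁ K₁) (h₂ : IsSpr F₂ r₂ K₂) :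
    IsSpr (fun (x : M) (v : V₁ × V₂) => F₂ (F₁ x v.1) v.2) (min r₁ r₂) (K₁ ∪ K₂) := by
  have hsm : ∀ (x : M) (v : V₁ × V₂), ‖v‖ < min r₁ r₂ →
      ContMDiffAt (𝓘(ℝ, E4).prod 𝓘(ℝ, V₁ × V₂)) 𝓘(ℝ, E4) ∞
        (fun q : M × (V₁ × V₂) => F₂ (F₁ q.1 q.2.1) q.2.2) (x, v) := by
    intro x v hv
    have hv1 : ‖v.1‖ < r₁ := (norm_fst_le v).trans_lt (hv.trans_le (min_le_left _ _))
    have hv2 : ‖v.2‖ < r₂ := (norm_snd_le v).trans_lt (hv.trans_le (min_le_right _ _))
    have e1 : ContMDiffAt (𝓘(ℝ, E4).prod 𝓘(ℝ, V₁ × V₂)) 𝓘(ℝ, V₁) ∞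
        (fun q : M × (V₁ × V₂) => q.2.1) (x, v) :=
      ContMDiffAt.comp (x, v) (g := fun w : V₁ × V₂ => w.1) (f := fun q : M × (V₁ × V₂) => q.2)
        (contDiff_fst.contMDiff.contMDiffAt) contMDiffAt_snd
    have e2 : ContMDiffAt (𝓘(ℝ, E4).prod 𝓘(ℝ, V₁ × V₂)) 𝓘(ℝ, V₂) ∞
        (fun q : M × (V₁ × V₂) => q.2.2) (x, v) :=
      ContMDiffAt.comp (x, v) (g := fun w : V₁ × V₂ => w.2) (f := fun q : M × (V₁ × V₂) => q.2)
        (contDiff_snd.contMDiff.contMDiffAt) contMDiffAt_snd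
    have e3 : ContMDiffAt (𝓘(ℝ, E4).prod 𝓘(ℝ, V₁ × V₂)) 𝓘(ℝ, E4) ∞
        (fun q : M × (V₁ × V₂) => F₁ q.1 q.2.1) (x, v) :=
      ContMDiffAt.comp (x, v) (g := fun q : M × V₁ => F₁ q.1 q.2)
        (f := fun q : M × (V₁ × V₂) => (q.1, q.2.1)) (h₁.smooth x v.1 hv1)
        (contMDiffAt_fst.prodMk e1)
    exact ContMDiffAt.comp (x, v) (g := fun q : M × V₂ => F₂ q.1 q.2)
        (f := fun q : M × (V₁ × V₂) => (F₁ q.1 q.2.1, q.2.2)) (h₂.smooth (F₁ x v.1) v.2 hv2)
        (e3.prodMk e2)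
  have hpos : 0 < min r₁ r₂ := lt_min h₁.pos h₂.pos
  have hsm1 : ∀ x : M, ContMDiffAt 𝓘(ℝ, V₁ × V₂) 𝓘(ℝ, E4) 1
      (fun v : V₁ × V₂ => F₂ (F₁ x v.1) v.2) 0 := fun x =>
    (ContMDiffAt.comp (0 : V₁ × V₂) (g := fun q : M × (V₁ × V₂) => F₂ (F₁ q.1 q.2.1) q.2.2)
      (f := fun v : V₁ × V₂ => (x, v)) (hsm x 0 (by simpa using hpos))
      (contMDiffAt_const.prodMk contMDiffAt_id)).of_le (by simp)
  refine ⟨hpos, fun x => ?_, hsm, fun x hx => ?_⟩
  · show F₂ (F₁ x (0 : V₁ × V₂).1) (0 : V₁ × V₂).2 = x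
    rw [Prod.fst_zero, Prod.snd_zero, h₁.zero, h₂.zero]
  · rcases hx with hx | hx
    · have h1 : Dm (F₁ x) 0 = (Dm (fun v : V₁ × V₂ => F₂ (F₁ x v.1) v.2) 0).comp
          (ContinuousLinearMap.inl ℝ V₁ V₂) := by
        have h2 := Dm_comp (σ := fun v : V₁ × V₂ => F₂ (F₁ x v.1) v.2)
          (g := fun v : V₁ => ContinuousLinearMap.inl ℝ V₁ V₂ v) (y := 0)
          (by rw [map_zero]; exact hsm1 x)
          (ContinuousLinearMap.inl ℝ V₁ V₂).differentiableAt
        have h3 : ((fun v : V₁ × V₂ => F₂ (F₁ x v.1) v.2) ∘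
            fun v : V₁ => ContinuousLinearMap.inl ℝ V₁ V₂ v) = F₁ x := by
          funext v
          show F₂ (F₁ x v) 0 = F₁ x v
          exact h₂.zero _
        have h4 : fderiv ℝ (fun v : V₁ => ContinuousLinearMap.inl ℝ V₁ V₂ v) 0 =
            ContinuousLinearMap.inl ℝ V₁ V₂ := (ContinuousLinearMap.inl ℝ V₁ V₂).fderiv
        rw [h3, h4, map_zero] at h2
        exact h2
      have h5 := h₁.onto x hx
      rw [h1] at h5
      intro w
      obtain ⟨v, hv⟩ := h5 w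
      exact ⟨_, hv⟩
    · have h1 : Dm (F₂ x) 0 = (Dm (fun v : V₁ × V₂ => F₂ (F₁ x v.1) v.2) 0).comp
          (ContinuousLinearMap.inr ℝ V₁ V₂) := by
        have h2 := Dm_comp (σ := fun v : V₁ × V₂ => F₂ (F₁ x v.1) v.2)
          (g := fun v : V₂ => ContinuousLinearMap.inr ℝ V₁ V₂ v) (y := 0)
          (by rw [map_zero]; exact hsm1 x)
          (ContinuousLinearMap.inr ℝ V₁ V₂).differentiableAt
        have h3 : ((fun v : V₁ × V₂ => F₂ (F₁ x v.1) v.2) ∘
            fun v : V₂ => ContinuousLinearMap.inr ℝ V₁ V₂ v) = F₂ x := by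
          funext v
          show F₂ (F₁ x 0) v = F₂ x v
          rw [h₁.zero]
        have h4 : fderiv ℝ (fun v : V₂ => ContinuousLinearMap.inr ℝ V₁ V₂ v) 0 =
            ContinuousLinearMap.inr ℝ V₁ V₂ := (ContinuousLinearMap.inr ℝ V₁ V₂).fderiv
        rw [h3, h4, map_zero] at h2
        exact h2
      have h5 := h₂.onto x hx
      rw [h1] at h5
      intro w
      obtain ⟨v, hv⟩ := h5 w
      exact ⟨_, hv⟩

/-- **sprays exist** -/
theorem exists_spray [T2Space M] [CompactSpace M] [IsManifold 𝓘(ℝ, E4) ∞ M] :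
    ∃ (n : ℕ) (F : M → EuclideanSpace ℝ (Fin n) → M) (r : ℝ), IsSpr F r univ := by
  have h : HasSpr (univ : Set M) := by
    refine isCompact_univ.induction_on (p := HasSpr) ?_ ?_ ?_ ?_
    · refine ⟨ℝ, inferInstance, inferInstance, inferInstance, fun x _ => x, 1, one_pos,
        fun _ => rfl, fun x v _ => contMDiffAt_fst, fun x hx => hx.elim⟩
    · rintro s t hst ⟨V, _, _, _, F, r, hF⟩
      exact ⟨V, inferInstance, inferInstance, inferInstance, F, r, hF.mono hst⟩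
    · rintro s t ⟨V, _, _, _, F, r, hF⟩ ⟨V', _, _, _, F', r', hF'⟩
      exact ⟨V × V', inferInstance, inferInstance, inferInstance, _, _, hF.union hF'⟩
    · intro x _
      obtain ⟨U, hU, h⟩ := local_spray x
      exact ⟨U, mem_nhdsWithin_of_mem_nhds hU, h⟩
  obtain ⟨V, _, _, _, F, r, hF⟩ := h
  have e : EuclideanSpace ℝ (Fin (Module.finrank ℝ V)) ≃L[ℝ] V :=
    ContinuousLinearEquiv.ofFinrankEq (by simp)
  obtain ⟨r', hr'⟩ := hF.equiv e
  exact ⟨_, _, r', hr'⟩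

end

end Crest.Agent.R235.Spray_153
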