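import Mathlib

/-!
Row 235, package SW, node SUPA (1): the pointwise kernel inequality for first order systems of
Dirac type on `ℝ⁴`.
-/

namespace Crest.Agent.R235.SupA_260

open MeasureTheory Set Filter Topology Metric
open scoped ENNReal NNReal

/-- four dimensional Euclidean space -/
abbrev E := EuclideanSpace ℝ (Fin 4)

/-- the standard basis vectors -/
noncomputable def ee (j : Fin 4) : E := EuclideanSpace.single j 1

section kernel

variable (g : Fin 4 → Fin 4 → ℝ)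

/-- the linear form `p_i(z) = ∑ g_ij z_j` -/
def pp (i : Fin 4) (z : E) : ℝ := ∑ j, g i j * z j

/-- the quadratic form -/
def QQ (z : E) : ℝ := ∑ i, pp g i z * z i

/-- the regularised scalar kernels -/
noncomputable def ph (ε : ℝ) (i : Fin 4) (z : E) : ℝ := pp g i z * ((QQ g z + ε ^ 2) ^ 2)⁻¹

lemma hasFDerivAt_coord (j : Fin 4) (z : E) :
    HasFDerivAt (fun z : E => z j) (EuclideanSpace.proj j : E →L[ℝ] ℝ) z :=
  (EuclideanSpace.proj j : E →L[ℝ] ℝ).hasFDerivAt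

lemma contDiff_pp (i : Fin 4) : ContDiff ℝ 1 (pp g i) := by
  unfold pp
  fun_prop

lemma contDiff_QQ : ContDiff ℝ 1 (QQ g) := by
  unfold QQ
  have := contDiff_pp g
  fun_prop

lemma continuous_pp (i : Fin 4) : Continuous (pp g i) := (contDiff_pp g i).continuous
lemma continuous_QQ : Continuous (QQ g) := (contDiff_QQ g).continuous

/-- derivative along a line -/
lemma hasDerivAt_pp (i j : Fin 4) (z : E) :
    HasDerivAt (fun t : ℝ => pp g i (z + t • ee j)) (g i j) 0 := by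
  have h : (fun t : ℝ => pp g i (z + t • ee j)) = fun t => pp g i z + t * g i j := by
    funext t
    simp only [pp, ee, PiLp.add_apply, PiLp.smul_apply, smul_eq_mul, mul_add,
      Finset.sum_add_distrib]
    congr 1
    rw [Finset.sum_eq_single j]
    · simp; ring
    · intro b _ hb; simp [hb]
    · simp
  rw [h]
  simpa using ((hasDerivAt_id (0 : ℝ)).mul_const (g i j)).const_add (pp g i z)

lemma QQ_line (hg : ∀ i j, g i j = g j i) (j : Fin 4) (z : E) (t : ℝ) :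
    QQ g (z + t • ee j) = QQ g z + t * (2 * pp g j z) + t ^ 2 * g j j := by
  simp only [QQ, pp, ee, PiLp.add_apply, PiLp.smul_apply, smul_eq_mul]
  fin_cases j <;>
  · simp [Fin.sum_univ_four, hg 1 0, hg 2 0, hg 3 0, hg 2 1, hg 3 1, hg 3 2]
    ring

lemma hasDerivAt_QQ (hg : ∀ i j, g i j = g j i) (j : Fin 4) (z : E) :
    HasDerivAt (fun t : ℝ => QQ g (z + t • ee j)) (2 * pp g j z) 0 := by
  have h : (fun t : ℝ => QQ g (z + t • ee j)) =
      fun t => QQ g z + t * (2 * pp g j z) + t ^ 2 * g j j := by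
    funext t; exact QQ_line g hg j z t
  rw [h]
  have h1 : HasDerivAt (fun t : ℝ => QQ g z + t * (2 * pp g j z) + t ^ 2 * g j j)
      ((1 * (2 * pp g j z)) + (2 * (0:ℝ) ^ (2 - 1) * 1) * g j j) 0 := by
    refine HasDerivAt.add ?_ ?_
    · exact ((hasDerivAt_id (0 : ℝ)).mul_const _).const_add _
    · exact (((hasDerivAt_id (0 : ℝ)).pow 2).mul_const _)
  simpa using h1

/-- the derivative of the scalar kernels -/
lemma hasDerivAt_ph (hg : ∀ i j, g i j = g j i) {ε : ℝ} (hε : 0 < ε)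
    (hQ : ∀ z, 0 ≤ QQ g z) (i j : Fin 4) (z : E) :
    HasDerivAt (fun t : ℝ => ph g ε i (z + t • ee j))
      (g i j * ((QQ g z + ε ^ 2) ^ 2)⁻¹
        - 4 * pp g i z * pp g j z * ((QQ g z + ε ^ 2) ^ 3)⁻¹) 0 := by
  unfold ph
  have hne : QQ g z + ε ^ 2 ≠ 0 := by have := hQ z; positivity
  have h1 := hasDerivAt_pp g i j z
  have h2 := (((hasDerivAt_QQ g hg j z).add_const (ε ^ 2)).pow 2)
  have h3 := h2.inv (by simpa using pow_ne_zero 2 hne)
  have h4 := h1.mul h3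
  refine h4.congr_deriv ?_
  simp
  field_simp
  ring

lemma contDiff_ph {ε : ℝ} (hε : 0 < ε) (hQ : ∀ z, 0 ≤ QQ g z) (i : Fin 4) :
    ContDiff ℝ 1 (ph g ε i) := by
  unfold ph
  refine (contDiff_pp g i).mul (ContDiff.inv ?_ ?_)
  · exact ((contDiff_QQ g).add contDiff_const).pow 2
  · intro z
    have := hQ z
    positivity

lemma fderiv_ph (hg : ∀ i j, g i j = g j i) {ε : ℝ} (hε : 0 < ε)
    (hQ : ∀ z, 0 ≤ QQ g z) (i j : Fin 4) (z : E) :
    fderiv ℝ (ph g ε i) z (ee j) = g i j * ((QQ g z + ε ^ 2) ^ 2)⁻¹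
        - 4 * pp g i z * pp g j z * ((QQ g z + ε ^ 2) ^ 3)⁻¹ := by
  have h1 : DifferentiableAt ℝ (ph g ε i) z :=
    ((contDiff_ph g hε hQ i).differentiable (by norm_num)) z
  have h2 : HasLineDerivAt ℝ (ph g ε i) (fderiv ℝ (ph g ε i) z (ee j)) z (ee j) :=
    h1.hasFDerivAt.hasLineDerivAt _
  exact HasDerivAt.unique h2 (hasDerivAt_ph g hg hε hQ i j z)

lemma coord_le (z : E) (i : Fin 4) : |z i| ≤ ‖z‖ := by
  simpa using PiLp.norm_apply_le z i

lemma pp_le {M : ℝ} (hM : ∀ i j, |g i j| ≤ M) (i : Fin 4) (z : E) :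
    |pp g i z| ≤ 4 * M * ‖z‖ := by
  unfold pp
  calc |∑ j, g i j * z j| ≤ ∑ j, |g i j * z j| := Finset.abs_sum_le_sum_abs _ _
    _ ≤ ∑ _j : Fin 4, M * ‖z‖ := by
        refine Finset.sum_le_sum fun j _ => ?_
        rw [abs_mul]
        have h0 : 0 ≤ M := (abs_nonneg _).trans (hM i j)
        gcongr
        · exact hM i j
        · exact coord_le z j
    _ = 4 * M * ‖z‖ := by simp; ring

lemma QQ_le {M : ℝ} (hM : ∀ i j, |g i j| ≤ M) (z : E) :
    QQ g z ≤ 16 * M * ‖z‖ ^ 2 := by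
  unfold QQ
  calc ∑ i, pp g i z * z i ≤ ∑ _i : Fin 4, (4 * M * ‖z‖) * ‖z‖ := by
        refine Finset.sum_le_sum fun i _ => ?_
        refine (le_abs_self _).trans ?_
        rw [abs_mul]
        have h1 := pp_le g hM i z
        gcongr
        · exact (abs_nonneg _).trans h1
        · exact coord_le z i
    _ = 16 * M * ‖z‖ ^ 2 := by simp; ring

lemma ph_le {M : ℝ} (hM : ∀ i j, |g i j| ≤ M) (hM1 : 1 ≤ M)
    (hQ : ∀ z, ‖z‖ ^ 2 ≤ M * QQ g z) (ε : ℝ) (i : Fin 4) {z : E} (hz : z ≠ 0) :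
    |ph g ε i z| ≤ 4 * M ^ 3 * (‖z‖ ^ 3)⁻¹ := by
  have hz' : 0 < ‖z‖ := norm_pos_iff.2 hz
  have hM0 : 0 < M := by linarith
  unfold ph
  rw [abs_mul]
  have h1 := pp_le g hM i z
  have h2 : ‖z‖ ^ 2 ≤ M * (QQ g z + ε ^ 2) := by
    have := hQ z
    nlinarith [sq_nonneg ε]
  have h3 : |((QQ g z + ε ^ 2) ^ 2)⁻¹| ≤ M ^ 2 * (‖z‖ ^ 4)⁻¹ := by
    have hq : 0 < QQ g z + ε ^ 2 := by
      have : 0 < M * (QQ g z + ε ^ 2) := lt_of_lt_of_le (by positivity) h2
      exact (mul_pos_iff_of_pos_left hM0).1 this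
    rw [abs_of_nonneg (by positivity), ← div_eq_mul_inv, ← one_div,
      div_le_div_iff₀ (by positivity) (by positivity)]
    nlinarith [mul_le_mul h2 h2 (by positivity) (by positivity)]
  calc |pp g i z| * |((QQ g z + ε ^ 2) ^ 2)⁻¹|
      ≤ (4 * M * ‖z‖) * (M ^ 2 * (‖z‖ ^ 4)⁻¹) := by gcongr
    _ = 4 * M ^ 3 * (‖z‖ ^ 3)⁻¹ := by field_simp

lemma dph_le {M : ℝ} (hM : ∀ i j, |g i j| ≤ M) (hM1 : 1 ≤ M)
    (hQ : ∀ z, ‖z‖ ^ 2 ≤ M * QQ g z) (ε : ℝ) (i j : Fin 4) {z : E} (hz : z ≠ 0) :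
    |g i j * ((QQ g z + ε ^ 2) ^ 2)⁻¹
        - 4 * pp g i z * pp g j z * ((QQ g z + ε ^ 2) ^ 3)⁻¹| ≤ 65 * M ^ 5 * (‖z‖ ^ 4)⁻¹ := by
  have hz' : 0 < ‖z‖ := norm_pos_iff.2 hz
  have hM0 : 0 < M := by linarith
  have h2 : ‖z‖ ^ 2 ≤ M * (QQ g z + ε ^ 2) := by
    have := hQ z
    nlinarith [sq_nonneg ε]
  have hq : 0 < QQ g z + ε ^ 2 := by
    have : 0 < M * (QQ g z + ε ^ 2) := lt_of_lt_of_le (by positivity) h2
    exact (mul_pos_iff_of_pos_left hM0).1 this
  have h22 : ‖z‖ ^ 4 ≤ M ^ 2 * (QQ g z + ε ^ 2) ^ 2 := by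
    nlinarith [mul_le_mul h2 h2 (by positivity) (by positivity)]
  have h23 : ‖z‖ ^ 6 ≤ M ^ 3 * (QQ g z + ε ^ 2) ^ 3 := by
    have := mul_le_mul h22 h2 (by positivity) (by positivity)
    nlinarith
  have h3 : ((QQ g z + ε ^ 2) ^ 2)⁻¹ ≤ M ^ 2 * (‖z‖ ^ 4)⁻¹ := by
    rw [← div_eq_mul_inv, ← one_div,
      div_le_div_iff₀ (by positivity) (by positivity)]
    linarith
  have h4 : ((QQ g z + ε ^ 2) ^ 3)⁻¹ ≤ M ^ 3 * (‖z‖ ^ 6)⁻¹ := by
    rw [← div_eq_mul_inv, ← one_div,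
      div_le_div_iff₀ (by positivity) (by positivity)]
    linarith
  have hpi := pp_le g hM i z
  have hpj := pp_le g hM j z
  calc |g i j * ((QQ g z + ε ^ 2) ^ 2)⁻¹
        - 4 * pp g i z * pp g j z * ((QQ g z + ε ^ 2) ^ 3)⁻¹|
      ≤ |g i j * ((QQ g z + ε ^ 2) ^ 2)⁻¹|
        + |4 * pp g i z * pp g j z * ((QQ g z + ε ^ 2) ^ 3)⁻¹| := abs_sub _ _
    _ = |g i j| * ((QQ g z + ε ^ 2) ^ 2)⁻¹
        + 4 * |pp g i z| * |pp g j z| * ((QQ g z + ε ^ 2) ^ 3)⁻¹ := by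
        rw [abs_mul, abs_mul, abs_mul, abs_mul, abs_of_nonneg (a := ((QQ g z + ε ^ 2) ^ 2)⁻¹)
          (by positivity), abs_of_nonneg (a := ((QQ g z + ε ^ 2) ^ 3)⁻¹) (by positivity)]
        norm_num
    _ ≤ M * (M ^ 2 * (‖z‖ ^ 4)⁻¹)
        + 4 * (4 * M * ‖z‖) * (4 * M * ‖z‖) * (M ^ 3 * (‖z‖ ^ 6)⁻¹) := by
        gcongr
        exact hM i j
    _ = (M ^ 3 + 64 * M ^ 5) * (‖z‖ ^ 4)⁻¹ := by field_simp; ring
    _ ≤ 65 * M ^ 5 * (‖z‖ ^ 4)⁻¹ := by
        gcongr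
        have : M ^ 3 ≤ M ^ 5 := pow_le_pow_right₀ hM1 (by norm_num)
        linarith

end kernel

section ident

variable {F G : Type*} [NormedAddCommGroup F] [NormedSpace ℝ F]
  [NormedAddCommGroup G] [NormedSpace ℝ G]

lemma sum_ph_h (g h : Fin 4 → Fin 4 → ℝ)
    (hgh : ∀ i k, ∑ j, h i j * g j k = if i = k then 1 else 0) (z : E) (i : Fin 4) :
    ∑ j, h i j * pp g j z = z i := by
  simp only [pp, Finset.mul_sum]
  rw [Finset.sum_comm]
  have : ∀ k, ∑ j, h i j * (g j k * z k) = (if i = k then 1 else 0) * z k := by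
    intro k
    rw [← hgh i k, Finset.sum_mul]
    exact Finset.sum_congr rfl fun j _ => by ring
  simp [this]

/-- the algebraic identity: the kernel is a regularised fundamental solution of the frozen
operator -/
lemma kernel_ident (g h : Fin 4 → Fin 4 → ℝ) (hg : ∀ i j, g i j = g j i)
    (hgh : ∀ i k, ∑ j, h i j * g j k = if i = k then 1 else 0)
    (P : Fin 4 → G →L[ℝ] F) (A0 : Fin 4 → F →L[ℝ] G)
    (cliff : ∀ i j v, P i (A0 j v) + P j (A0 i v) = (2 * h i j) • v)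
    {ε : ℝ} (hε : 0 < ε) (hQ : ∀ z, 0 ≤ QQ g z) (z : E) (v : F) :
    ∑ i, ∑ j, (g i j * ((QQ g z + ε ^ 2) ^ 2)⁻¹
        - 4 * pp g i z * pp g j z * ((QQ g z + ε ^ 2) ^ 3)⁻¹) • P i (A0 j v)
      = (4 * ε ^ 2 * ((QQ g z + ε ^ 2) ^ 3)⁻¹) • v := by
  set s : Fin 4 → Fin 4 → ℝ := fun i j => (g i j * ((QQ g z + ε ^ 2) ^ 2)⁻¹
        - 4 * pp g i z * pp g j z * ((QQ g z + ε ^ 2) ^ 3)⁻¹) with hs
  have hsym : ∀ i j, s i j = s j i := by
    intro i j; simp only [hs]; rw [hg i j]; ring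
  have h1 : ∑ i, ∑ j, s i j • P i (A0 j v) = ∑ i, ∑ j, s i j • P j (A0 i v) := by
    rw [Finset.sum_comm]
    exact Finset.sum_congr rfl fun i _ => Finset.sum_congr rfl fun j _ => by rw [hsym j i]
  have h2 : (2 : ℝ) • ∑ i, ∑ j, s i j • P i (A0 j v)
      = (2 : ℝ) • ((∑ i, ∑ j, s i j * h i j) • v) := by
    rw [two_smul]
    nth_rewrite 2 [h1]
    rw [← Finset.sum_add_distrib]
    simp_rw [← Finset.sum_add_distrib, ← smul_add, cliff, smul_smul, ← Finset.sum_smul]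
    congr 1
    simp_rw [Finset.mul_sum]
    exact Finset.sum_congr rfl fun i _ => Finset.sum_congr rfl fun j _ => by ring
  have h3 : ∑ i, ∑ j, s i j • P i (A0 j v) = (∑ i, ∑ j, s i j * h i j) • v :=
    smul_right_injective F (two_ne_zero (α := ℝ)) h2
  rw [h3]
  congr 1
  have hne : QQ g z + ε ^ 2 ≠ 0 := by have := hQ z; positivity
  have t1 : ∑ i, ∑ j, g i j * h i j = 4 := by
    have : ∀ i, ∑ j, g i j * h i j = 1 := by
      intro i
      have := hgh i i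
      rw [if_pos rfl] at this
      rw [← this]
      exact Finset.sum_congr rfl fun j _ => by rw [hg i j]; ring
    simp [this]
  have t2 : ∑ i, ∑ j, pp g i z * pp g j z * h i j = QQ g z := by
    unfold QQ
    refine Finset.sum_congr rfl fun i _ => ?_
    rw [← sum_ph_h g h hgh z i, Finset.mul_sum]
    exact Finset.sum_congr rfl fun j _ => by ring
  have t3 : ∑ i, ∑ j, s i j * h i j
      = (∑ i, ∑ j, g i j * h i j) * ((QQ g z + ε ^ 2) ^ 2)⁻¹
        - 4 * (∑ i, ∑ j, pp g i z * pp g j z * h i j) * ((QQ g z + ε ^ 2) ^ 3)⁻¹ := by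
    simp only [hs, Finset.sum_mul, Finset.mul_sum, ← Finset.sum_sub_distrib]
    exact Finset.sum_congr rfl fun i _ => Finset.sum_congr rfl fun j _ => by ring
  rw [t3, t1, t2]
  field_simp
  ring

/-- integration by parts, smooth scalar times compactly supported -/
lemma ibp [CompleteSpace F] (φ : E → ℝ) (hφ : ContDiff ℝ 1 φ) (W : E → F) (hW : ContDiff ℝ 1 W)
    (hc : HasCompactSupport W) (v : E) :
    ∫ x, φ x • fderiv ℝ W x v = -∫ x, fderiv ℝ φ x v • W x := by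
  have cφ := hφ.continuous
  have cW := hW.continuous
  have cdφ : Continuous fun x => fderiv ℝ φ x v :=
    (hφ.continuous_fderiv (by norm_num)).clm_apply continuous_const
  have cdW : Continuous fun x => fderiv ℝ W x v :=
    (hW.continuous_fderiv (by norm_num)).clm_apply continuous_const
  have hcd : HasCompactSupport fun x => fderiv ℝ W x v := hc.fderiv_apply (𝕜 := ℝ) v
  refine integral_smul_fderiv_eq_neg_fderiv_smul_of_integrable ?_ ?_ ?_ ?_ ?_
  · exact (cdφ.smul cW).integrable_of_hasCompactSupport hc.smul_left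
  · exact (cφ.smul cdW).integrable_of_hasCompactSupport hcd.smul_left
  · exact (cφ.smul cW).integrable_of_hasCompactSupport hc.smul_left
  · exact fun x _ => hφ.differentiable (by norm_num) x
  · exact fun x _ => hW.differentiable (by norm_num) x

end ident

section limit

variable {F : Type*} [NormedAddCommGroup F] [NormedSpace ℝ F]

lemma integrable_J : Integrable (fun z : E => ((1 + ‖z‖ ^ 2) ^ 3)⁻¹) := by
  have h := integrable_rpow_neg_one_add_norm_sq (E := E) (μ := volume) (r := 6)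
    (by simp; norm_num)
  refine h.congr (Eventually.of_forall fun z => ?_)
  simp only
  rw [show (-6 / 2 : ℝ) = -((3 : ℕ) : ℝ) by norm_num, Real.rpow_neg (by positivity),
    Real.rpow_natCast]

/-- the basic constant -/
noncomputable def JJ : ℝ := ∫ z : E, ((1 + ‖z‖ ^ 2) ^ 3)⁻¹

lemma JJ_pos : 0 < JJ := by
  unfold JJ
  rw [integral_pos_iff_support_of_nonneg (fun z => by positivity) integrable_J]
  have : Function.support (fun z : E => ((1 + ‖z‖ ^ 2) ^ 3)⁻¹) = univ := by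
    ext z
    simp only [Function.mem_support, mem_univ, iff_true]
    positivity
  rw [this]
  simp

lemma integrable_Q (g : Fin 4 → Fin 4 → ℝ) {M : ℝ} (hM1 : 1 ≤ M)
    (hQ : ∀ z, ‖z‖ ^ 2 ≤ M * QQ g z) : Integrable (fun z : E => 4 * ((QQ g z + 1) ^ 3)⁻¹) := by
  have hM0 : 0 < M := by linarith
  refine (integrable_J.const_mul (4 * M ^ 3)).mono' ?_ (Eventually.of_forall fun z => ?_)
  · have := continuous_QQ g
    have hm : Measurable fun z : E => 4 * ((QQ g z + 1) ^ 3)⁻¹ := by fun_prop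
    exact hm.aestronglyMeasurable
  · have h1 : 1 + ‖z‖ ^ 2 ≤ M * (QQ g z + 1) := by have := hQ z; nlinarith
    have hq : 0 < QQ g z + 1 := by
      have : 0 < M * (QQ g z + 1) := lt_of_lt_of_le (by positivity) h1
      exact (mul_pos_iff_of_pos_left hM0).1 this
    have h2 : (1 + ‖z‖ ^ 2) ^ 3 ≤ M ^ 3 * (QQ g z + 1) ^ 3 := by
      rw [← mul_pow]; gcongr
    have h3 : ((QQ g z + 1) ^ 3)⁻¹ ≤ M ^ 3 * ((1 + ‖z‖ ^ 2) ^ 3)⁻¹ := by
      rw [← div_eq_mul_inv, ← one_div,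
        div_le_div_iff₀ (by positivity) (by positivity)]
      linarith
    rw [Real.norm_of_nonneg (by positivity)]
    linarith

lemma integral_Q_ge (g : Fin 4 → Fin 4 → ℝ) {M : ℝ} (hM1 : 1 ≤ M) (hM : ∀ i j, |g i j| ≤ M)
    (hQ : ∀ z, ‖z‖ ^ 2 ≤ M * QQ g z) :
    JJ / (1024 * M ^ 3) ≤ ∫ z : E, 4 * ((QQ g z + 1) ^ 3)⁻¹ := by
  have hM0 : 0 < M := by linarith
  have h1 : JJ / (1024 * M ^ 3) = ∫ z : E, ((1 + ‖z‖ ^ 2) ^ 3)⁻¹ / (1024 * M ^ 3) := by
    rw [integral_div, JJ]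
  rw [h1]
  refine integral_mono (integrable_J.div_const _) (integrable_Q g hM1 hQ) fun z => ?_
  have hq0 : 0 ≤ QQ g z := by
    have : 0 ≤ M * QQ g z := (sq_nonneg _).trans (hQ z)
    exact (mul_nonneg_iff_of_pos_left hM0).1 this
  have hq := QQ_le g hM z
  have h2 : QQ g z + 1 ≤ 16 * M * (1 + ‖z‖ ^ 2) := by nlinarith [sq_nonneg ‖z‖]
  have h3 : (QQ g z + 1) ^ 3 ≤ (16 * M) ^ 3 * (1 + ‖z‖ ^ 2) ^ 3 := by
    rw [← mul_pow]; gcongr
  simp only
  rw [div_eq_mul_inv, ← mul_inv, ← one_div, ← div_eq_mul_inv,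
    div_le_div_iff₀ (by positivity) (by positivity)]
  nlinarith

lemma QQ_smul (g : Fin 4 → Fin 4 → ℝ) (t : ℝ) (z : E) : QQ g (t • z) = t ^ 2 * QQ g z := by
  simp only [QQ, pp, PiLp.smul_apply, smul_eq_mul, Finset.sum_mul, Finset.mul_sum]
  exact Finset.sum_congr rfl fun i _ => Finset.sum_congr rfl fun j _ => by ring

lemma subst_int (g : Fin 4 → Fin 4 → ℝ) (w : E → F) (y : E) {ε : ℝ} (hε : 0 < ε) :
    ∫ x, (4 * ε ^ 2 * ((QQ g (x - y) + ε ^ 2) ^ 3)⁻¹) • w x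
      = ∫ z, (4 * ((QQ g z + 1) ^ 3)⁻¹) • w (y + ε • z) := by
  have h1 : ∫ x, (4 * ε ^ 2 * ((QQ g (x - y) + ε ^ 2) ^ 3)⁻¹) • w x
      = ∫ x, (4 * ε ^ 2 * ((QQ g x + ε ^ 2) ^ 3)⁻¹) • w (y + x) := by
    rw [← integral_add_left_eq_self _ y]
    simp
  have h2 := Measure.integral_comp_smul (volume : Measure E)
    (fun x => (4 * ε ^ 2 * ((QQ g x + ε ^ 2) ^ 3)⁻¹) • w (y + x)) ε
  have h3 : |(ε ^ Module.finrank ℝ E)⁻¹| = (ε ^ 4)⁻¹ := by
    rw [finrank_euclideanSpace_fin, abs_of_nonneg (by positivity)]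
  rw [h3] at h2
  have h4 : ∫ x, (4 * ε ^ 2 * ((QQ g x + ε ^ 2) ^ 3)⁻¹) • w (y + x)
      = ε ^ 4 • ∫ x, (4 * ε ^ 2 * ((QQ g (ε • x) + ε ^ 2) ^ 3)⁻¹) • w (y + ε • x) := by
    rw [h2, smul_smul, mul_inv_cancel₀ (by positivity), one_smul]
  rw [h1, h4, ← integral_smul]
  congr 1
  funext z
  rw [smul_smul, QQ_smul]
  congr 1
  have : (ε ^ 2 * QQ g z + ε ^ 2) ^ 3 = ε ^ 6 * (QQ g z + 1) ^ 3 := by ring
  rw [this, mul_inv]
  field_simp

lemma tendsto_int [CompleteSpace F] (g : Fin 4 → Fin 4 → ℝ) {M : ℝ} (hM1 : 1 ≤ M)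
    (hQ : ∀ z, ‖z‖ ^ 2 ≤ M * QQ g z) (w : E → F) (hw : Continuous w) (hc : HasCompactSupport w)
    (y : E) :
    Tendsto (fun n : ℕ => ∫ x, (4 * (1 / ((n : ℝ) + 1)) ^ 2 *
        ((QQ g (x - y) + (1 / ((n : ℝ) + 1)) ^ 2) ^ 3)⁻¹) • w x) atTop
      (𝓝 ((∫ z : E, 4 * ((QQ g z + 1) ^ 3)⁻¹) • w y)) := by
  have hM0 : 0 < M := by linarith
  have hq0 : ∀ z, 0 ≤ QQ g z := fun z => by
    have : 0 ≤ M * QQ g z := (sq_nonneg _).trans (hQ z)
    exact (mul_nonneg_iff_of_pos_left hM0).1 this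
  obtain ⟨C, hC⟩ := hw.bounded_above_of_compact_support hc
  have h0 : (fun n : ℕ => ∫ x, (4 * (1 / ((n : ℝ) + 1)) ^ 2 *
        ((QQ g (x - y) + (1 / ((n : ℝ) + 1)) ^ 2) ^ 3)⁻¹) • w x)
      = fun n : ℕ => ∫ z, (4 * ((QQ g z + 1) ^ 3)⁻¹) • w (y + (1 / ((n : ℝ) + 1)) • z) := by
    funext n
    exact subst_int g w y (by positivity)
  rw [h0, ← integral_smul_const]
  have cQ := continuous_QQ g
  refine tendsto_integral_of_dominated_convergence (fun z => 4 * ((QQ g z + 1) ^ 3)⁻¹ * C)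
    (fun n => ?_) ((integrable_Q g hM1 hQ).mul_const C) (fun n => ?_) ?_
  · have hne : ∀ z, (QQ g z + 1) ^ 3 ≠ 0 := fun z => by
      have := hq0 z; positivity
    have : Continuous fun z : E => (4 * ((QQ g z + 1) ^ 3)⁻¹) • w (y + (1 / ((n : ℝ) + 1)) • z) := by
      refine (continuous_const.mul (((cQ.add continuous_const).pow 3).inv₀ hne)).smul ?_
      exact hw.comp (by fun_prop)
    exact this.aestronglyMeasurable
  · refine Eventually.of_forall fun z => ?_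
    rw [norm_smul, Real.norm_of_nonneg (by have := hq0 z; positivity)]
    have := hq0 z
    gcongr
    exact hC _
  · refine Eventually.of_forall fun z => ?_
    refine Tendsto.const_smul ?_ _
    have h1 : Tendsto (fun n : ℕ => y + (1 / ((n : ℝ) + 1)) • z) atTop (𝓝 (y + (0 : ℝ) • z)) :=
      (tendsto_one_div_add_atTop_nhds_zero_nat.smul_const z).const_add y
    have h2 := (hw.tendsto (y + (0 : ℝ) • z)).comp h1
    simpa [Function.comp_def] using h2

end limit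

section point

variable {F G : Type*} [NormedAddCommGroup F] [NormedSpace ℝ F]
  [NormedAddCommGroup G] [NormedSpace ℝ G]

/-- the first order operator `w ↦ ∑ A_j ∂_j w + B w` -/
noncomputable def Lop (A : Fin 4 → E → F →L[ℝ] G) (B : E → F →L[ℝ] G) (w : E → F) (x : E) : G :=
  ∑ j, A j x (fderiv ℝ w x (ee j)) + B x (w x)

/-- the divergence term `∑ ∂_j A_j - B` -/
noncomputable def Dop (A : Fin 4 → E → F →L[ℝ] G) (B : E → F →L[ℝ] G) (x : E) : F →L[ℝ] G :=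
  ∑ j, fderiv ℝ (A j) x (ee j) - B x

lemma contDiff_of_tsupp {H : Type*} [NormedAddCommGroup H] [NormedSpace ℝ H] {f : E → H}
    (hf : ∀ x ∈ tsupport f, ContDiffAt ℝ 1 f x) : ContDiff ℝ 1 f := by
  rw [contDiff_iff_contDiffAt]
  intro x
  by_cases hx : x ∈ tsupport f
  · exact hf x hx
  · exact contDiffAt_const.congr_of_eventuallyEq (notMem_tsupport_iff_eventuallyEq.1 hx)

lemma contDiff_Aw (A : E → F →L[ℝ] G) (w : E → F) (hw : ContDiff ℝ 1 w)
    (hA : ∀ x ∈ tsupport w, ContDiffAt ℝ 1 A x) : ContDiff ℝ 1 fun x => A x (w x) := by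
  refine contDiff_of_tsupp fun x hx => ?_
  have hx' : x ∈ tsupport w := by
    refine closure_mono ?_ hx
    intro z hz hz'
    simp [hz'] at hz
  exact (hA x hx').clm_apply hw.contDiffAt

lemma fderiv_Aw (A : E → F →L[ℝ] G) (w : E → F) (x v : E) (hw : DifferentiableAt ℝ w x)
    (hA : DifferentiableAt ℝ A x) :
    fderiv ℝ (fun x => A x (w x)) x v = (fderiv ℝ A x v) (w x) + A x (fderiv ℝ w x v) := by
  have h := hA.hasFDerivAt.clm_apply hw.hasFDerivAt
  rw [h.fderiv]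
  simp [add_comm]

/-- a derivative vanishes outside of the topological support -/
lemma fderiv_zero_of_notMem (w : E → F) (x : E) (hx : x ∉ tsupport w) : fderiv ℝ w x = 0 := by
  by_contra h
  exact hx (support_fderiv_subset ℝ h)

/-- the identity before the limit -/
lemma ident_eps [CompleteSpace F] (g h : Fin 4 → Fin 4 → ℝ) (hg : ∀ i j, g i j = g j i)
    (hgh : ∀ i k, ∑ j, h i j * g j k = if i = k then 1 else 0)
    (P : Fin 4 → G →L[ℝ] F) (A : Fin 4 → E → F →L[ℝ] G) (B : E → F →L[ℝ] G) (y : E)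
    (cliff : ∀ i j v, P i (A j y v) + P j (A i y v) = (2 * h i j) • v)
    {ε : ℝ} (hε : 0 < ε) (hQ : ∀ z, 0 ≤ QQ g z)
    (w : E → F) (hw : ContDiff ℝ 1 w) (hc : HasCompactSupport w)
    (hA : ∀ j, ∀ x ∈ tsupport w, ContDiffAt ℝ 1 (A j) x) :
    ∫ x, (4 * ε ^ 2 * ((QQ g (x - y) + ε ^ 2) ^ 3)⁻¹) • w x
      = -∫ x, (∑ i, ph g ε i (x - y) • P i (Lop A B w x + Dop A B x (w x))
          + ∑ i, ∑ j, fderiv ℝ (ph g ε i) (x - y) (ee j) • P i ((A j x - A j y) (w x))) := by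
  set W : Fin 4 → E → G := fun j x => A j x (w x) with hW
  have cW : ∀ j, ContDiff ℝ 1 (W j) := fun j => contDiff_Aw (A j) w hw (hA j)
  have sW : ∀ j, HasCompactSupport (W j) := fun j => by
    refine hc.mono ?_
    intro z hz hz'
    simp only [hW, Function.mem_support] at hz
    exact hz (by simp [hz'])
  -- the total integrand
  set T : E → F := fun x => ∑ i, ∑ j, (ph g ε i (x - y) • P i (fderiv ℝ (W j) x (ee j))
      + fderiv ℝ (ph g ε i) (x - y) (ee j) • P i (W j x)) with hT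
  have cph : ∀ i, ContDiff ℝ 1 fun x : E => ph g ε i (x - y) := fun i =>
    (contDiff_ph g hε hQ i).comp (contDiff_id.sub contDiff_const)
  have fph : ∀ i (x v : E), fderiv ℝ (fun x : E => ph g ε i (x - y)) x v
      = fderiv ℝ (ph g ε i) (x - y) v := fun i x v => by
    rw [fderiv_comp_sub]
  have cPW : ∀ i j, ContDiff ℝ 1 fun x => P i (W j x) := fun i j =>
    (P i).contDiff.comp (cW j)
  have sPW : ∀ i j, HasCompactSupport fun x => P i (W j x) := fun i j => by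
    refine (sW j).mono ?_
    intro z hz hz'
    exact hz (by simp [hz'])
  have fPW : ∀ i j (x v : E), fderiv ℝ (fun x => P i (W j x)) x v = P i (fderiv ℝ (W j) x v) := by
    intro i j x v
    have h1 := (P i).hasFDerivAt.comp x ((cW j).differentiable (by norm_num) x).hasFDerivAt
    have h2 : fderiv ℝ (fun x => P i (W j x)) x = (P i).comp (fderiv ℝ (W j) x) := h1.fderiv
    rw [h2]; rfl
  have I1 : ∀ i j, Integrable fun x => ph g ε i (x - y) • P i (fderiv ℝ (W j) x (ee j)) := by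
    intro i j
    have h1 : Continuous fun x => P i (fderiv ℝ (W j) x (ee j)) :=
      (P i).continuous.comp (((cW j).continuous_fderiv (by norm_num)).clm_apply continuous_const)
    have h2 : HasCompactSupport fun x => P i (fderiv ℝ (W j) x (ee j)) := by
      refine ((sW j).fderiv_apply (𝕜 := ℝ) (ee j)).mono ?_
      intro z hz hz'
      exact hz (by simp [hz'])
    exact ((cph i).continuous.smul h1).integrable_of_hasCompactSupport h2.smul_left
  have I2 : ∀ i j, Integrable fun x => fderiv ℝ (ph g ε i) (x - y) (ee j) • P i (W j x) := by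
    intro i j
    have h1 : Continuous fun x => fderiv ℝ (ph g ε i) (x - y) (ee j) :=
      (((contDiff_ph g hε hQ i).continuous_fderiv (by norm_num)).comp
        (continuous_id.sub continuous_const)).clm_apply continuous_const
    exact (h1.smul (cPW i j).continuous).integrable_of_hasCompactSupport (sPW i j).smul_left
  have z0 : ∀ i j, ∫ x, (ph g ε i (x - y) • P i (fderiv ℝ (W j) x (ee j))
      + fderiv ℝ (ph g ε i) (x - y) (ee j) • P i (W j x)) = 0 := by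
    intro i j
    rw [integral_add (I1 i j) (I2 i j)]
    have h1 := ibp (fun x : E => ph g ε i (x - y)) (cph i) (fun x => P i (W j x)) (cPW i j)
      (sPW i j) (ee j)
    simp only [fph, fPW] at h1
    rw [h1]
    simp
  have hT0 : ∫ x, T x = 0 := by
    rw [hT, integral_finsetSum _ fun i _ => ?_]
    · refine Finset.sum_eq_zero fun i _ => ?_
      have h1 : ∀ j ∈ (Finset.univ : Finset (Fin 4)), Integrable fun x =>
          (ph g ε i (x - y) • P i (fderiv ℝ (W j) x (ee j))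
            + fderiv ℝ (ph g ε i) (x - y) (ee j) • P i (W j x)) :=
        fun j _ => (I1 i j).add (I2 i j)
      rw [integral_finsetSum _ h1]
      exact Finset.sum_eq_zero fun j _ => z0 i j
    · exact integrable_finsetSum _ fun j _ => (I1 i j).add (I2 i j)
  have hTi : Integrable T :=
    integrable_finsetSum _ fun i _ => integrable_finsetSum _ fun j _ => (I1 i j).add (I2 i j)
  -- the main term
  have hne : ∀ x, QQ g (x - y) + ε ^ 2 ≠ 0 := fun x => by
    have := hQ (x - y); positivity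
  have cm : Continuous fun x => (4 * ε ^ 2 * ((QQ g (x - y) + ε ^ 2) ^ 3)⁻¹) := by
    have cQ := continuous_QQ g
    refine continuous_const.mul (Continuous.inv₀ ?_ fun x => pow_ne_zero 3 (hne x))
    exact ((cQ.comp (continuous_id.sub continuous_const)).add continuous_const).pow 3
  have I3 : Integrable fun x => (4 * ε ^ 2 * ((QQ g (x - y) + ε ^ 2) ^ 3)⁻¹) • w x :=
    (cm.smul hw.continuous).integrable_of_hasCompactSupport hc.smul_left
  -- pointwise identity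
  have key : ∀ x, T x = (4 * ε ^ 2 * ((QQ g (x - y) + ε ^ 2) ^ 3)⁻¹) • w x
      + (∑ i, ph g ε i (x - y) • P i (Lop A B w x + Dop A B x (w x))
          + ∑ i, ∑ j, fderiv ℝ (ph g ε i) (x - y) (ee j) • P i ((A j x - A j y) (w x))) := by
    intro x
    have e1 : ∑ j, fderiv ℝ (W j) x (ee j) = Lop A B w x + Dop A B x (w x) := by
      by_cases hx : x ∈ tsupport w
      · have : ∀ j, fderiv ℝ (W j) x (ee j)
            = (fderiv ℝ (A j) x (ee j)) (w x) + A j x (fderiv ℝ w x (ee j)) := fun j =>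
          fderiv_Aw (A j) w x (ee j) (hw.differentiable (by norm_num) x)
            ((hA j x hx).differentiableAt (by norm_num))
        simp only [this, Finset.sum_add_distrib, Lop, Dop, _root_.sub_apply,
          _root_.sum_apply]
        abel
      · have hwx : w x = 0 := image_eq_zero_of_notMem_tsupport hx
        have hdw : fderiv ℝ w x = 0 := fderiv_zero_of_notMem w x hx
        have hdW : ∀ j, fderiv ℝ (W j) x = 0 := fun j => by
          refine fderiv_zero_of_notMem (W j) x fun hx' => hx ?_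
          refine closure_mono ?_ hx'
          intro z hz hz'
          exact hz (by simp [hW, hz'])
        simp [Lop, hwx, hdw, hdW]
    have e2 := kernel_ident g h hg hgh P (fun j => A j y) cliff hε hQ (x - y) (w x)
    simp_rw [← fderiv_ph g hg hε hQ] at e2
    rw [← e2, ← e1, hT]
    simp only [map_sum, Finset.smul_sum, Finset.sum_add_distrib, hW, _root_.sub_apply,
      map_sub, smul_sub, Finset.sum_sub_distrib]
    abel
  have e3 : ∀ x, (∑ i, ph g ε i (x - y) • P i (Lop A B w x + Dop A B x (w x))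
          + ∑ i, ∑ j, fderiv ℝ (ph g ε i) (x - y) (ee j) • P i ((A j x - A j y) (w x)))
      = T x - (4 * ε ^ 2 * ((QQ g (x - y) + ε ^ 2) ^ 3)⁻¹) • w x := by
    intro x; rw [key x]; abel
  simp_rw [e3]
  rw [integral_sub hTi I3, hT0]
  simp

/-- the norm bound for the right hand side -/
lemma rest_le (g : Fin 4 → Fin 4 → ℝ) (hg : ∀ i j, g i j = g j i)
    (P : Fin 4 → G →L[ℝ] F) (A : Fin 4 → E → F →L[ℝ] G) (B : E → F →L[ℝ] G) (y : E)
    {M : ℝ} (hM1 : 1 ≤ M) (hM : ∀ i j, |g i j| ≤ M) (hQ : ∀ z, ‖z‖ ^ 2 ≤ M * QQ g z)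
    (hP : ∀ i, ‖P i‖ ≤ M) {ε : ℝ} (hε : 0 < ε) (w : E → F) (x : E) (hxy : x ≠ y)
    (hD : w x ≠ 0 → ‖Dop A B x‖ ≤ M)
    (hL : w x ≠ 0 → ∀ j, ‖A j x - A j y‖ ≤ M * ‖x - y‖) :
    ‖∑ i, ph g ε i (x - y) • P i (Lop A B w x + Dop A B x (w x))
          + ∑ i, ∑ j, fderiv ℝ (ph g ε i) (x - y) (ee j) • P i ((A j x - A j y) (w x))‖
      ≤ 1056 * M ^ 7 * ((‖x - y‖ ^ 3)⁻¹ * (‖w x‖ + ‖Lop A B w x‖)) := by
  have hM0 : 0 < M := by linarith
  have hz : x - y ≠ 0 := sub_ne_zero.2 hxy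
  have hz' : 0 < ‖x - y‖ := norm_pos_iff.2 hz
  have hq0 : ∀ z, 0 ≤ QQ g z := fun z => by
    have : 0 ≤ M * QQ g z := (sq_nonneg _).trans (hQ z)
    exact (mul_nonneg_iff_of_pos_left hM0).1 this
  have hDw : ‖Dop A B x (w x)‖ ≤ M * ‖w x‖ := by
    by_cases h : w x = 0
    · simp [h]
    · exact (ContinuousLinearMap.le_opNorm _ _).trans (by gcongr; exact hD h)
  have hLw : ∀ j, ‖(A j x - A j y) (w x)‖ ≤ M * ‖x - y‖ * ‖w x‖ := by
    intro j
    by_cases h : w x = 0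
    · simp [h]
    · exact (ContinuousLinearMap.le_opNorm _ _).trans (by gcongr; exact hL h j)
  have b1 : ‖∑ i, ph g ε i (x - y) • P i (Lop A B w x + Dop A B x (w x))‖
      ≤ 4 * ((4 * M ^ 3 * (‖x - y‖ ^ 3)⁻¹) * (M * (‖Lop A B w x‖ + M * ‖w x‖))) := by
    calc _ ≤ ∑ i : Fin 4, ‖ph g ε i (x - y) • P i (Lop A B w x + Dop A B x (w x))‖ :=
          norm_sum_le _ _
      _ ≤ ∑ _i : Fin 4, (4 * M ^ 3 * (‖x - y‖ ^ 3)⁻¹) * (M * (‖Lop A B w x‖ + M * ‖w x‖)) := by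
          refine Finset.sum_le_sum fun i _ => ?_
          rw [norm_smul, Real.norm_eq_abs]
          have h1 := ph_le g hM hM1 hQ ε i hz
          have h2 : ‖P i (Lop A B w x + Dop A B x (w x))‖ ≤ M * (‖Lop A B w x‖ + M * ‖w x‖) := by
            refine (ContinuousLinearMap.le_opNorm _ _).trans ?_
            have h3 : ‖Lop A B w x + Dop A B x (w x)‖ ≤ ‖Lop A B w x‖ + M * ‖w x‖ :=
              (norm_add_le _ _).trans (by gcongr)
            gcongr
            exact hP i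
          gcongr
      _ = _ := by simp
  have b2 : ‖∑ i, ∑ j, fderiv ℝ (ph g ε i) (x - y) (ee j) • P i ((A j x - A j y) (w x))‖
      ≤ 16 * ((65 * M ^ 5 * (‖x - y‖ ^ 4)⁻¹) * (M * (M * ‖x - y‖ * ‖w x‖))) := by
    calc _ ≤ ∑ i : Fin 4, ∑ j : Fin 4,
          ‖fderiv ℝ (ph g ε i) (x - y) (ee j) • P i ((A j x - A j y) (w x))‖ :=
          (norm_sum_le _ _).trans (Finset.sum_le_sum fun i _ => norm_sum_le _ _)
      _ ≤ ∑ _i : Fin 4, ∑ _j : Fin 4,
          (65 * M ^ 5 * (‖x - y‖ ^ 4)⁻¹) * (M * (M * ‖x - y‖ * ‖w x‖)) := by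
          refine Finset.sum_le_sum fun i _ => Finset.sum_le_sum fun j _ => ?_
          rw [norm_smul, Real.norm_eq_abs, fderiv_ph g hg hε hq0]
          have h1 := dph_le g hM hM1 hQ ε i j hz
          have h2 : ‖P i ((A j x - A j y) (w x))‖ ≤ M * (M * ‖x - y‖ * ‖w x‖) := by
            refine (ContinuousLinearMap.le_opNorm _ _).trans ?_
            have := hLw j
            gcongr
            exact hP i
          gcongr
      _ = _ := by simp; ring
  refine (norm_add_le _ _).trans ((add_le_add b1 b2).trans ?_)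
  have e1 : 4 * ((4 * M ^ 3 * (‖x - y‖ ^ 3)⁻¹) * (M * (‖Lop A B w x‖ + M * ‖w x‖)))
      + 16 * ((65 * M ^ 5 * (‖x - y‖ ^ 4)⁻¹) * (M * (M * ‖x - y‖ * ‖w x‖)))
      = (‖x - y‖ ^ 3)⁻¹ * (16 * M ^ 4 * ‖Lop A B w x‖ + (16 * M ^ 5 + 1040 * M ^ 7) * ‖w x‖) := by
    field_simp
    ring
  rw [e1]
  have e2 : 16 * M ^ 4 * ‖Lop A B w x‖ + (16 * M ^ 5 + 1040 * M ^ 7) * ‖w x‖
      ≤ 1056 * M ^ 7 * (‖w x‖ + ‖Lop A B w x‖) := by
    have h4 : M ^ 4 ≤ M ^ 7 := pow_le_pow_right₀ hM1 (by norm_num)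
    have h5 : M ^ 5 ≤ M ^ 7 := pow_le_pow_right₀ hM1 (by norm_num)
    have := norm_nonneg (w x)
    have := norm_nonneg (Lop A B w x)
    nlinarith [mul_le_mul_of_nonneg_right h4 (norm_nonneg (Lop A B w x)),
      mul_le_mul_of_nonneg_right h5 (norm_nonneg (w x)),
      mul_nonneg (pow_nonneg hM0.le 7) (norm_nonneg (Lop A B w x))]
  calc _ ≤ (‖x - y‖ ^ 3)⁻¹ * (1056 * M ^ 7 * (‖w x‖ + ‖Lop A B w x‖)) := by gcongr
    _ = _ := by ring

/-- the constant of the kernel inequality -/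
noncomputable def cst (M : ℝ) : ℝ := 1056 * M ^ 7 * (1024 * M ^ 3 / JJ)

/-- **Pointwise kernel inequality** for compactly supported `C¹` functions and Dirac type
operators on `ℝ⁴`. -/
theorem point_ineq [CompleteSpace F] (g h : Fin 4 → Fin 4 → ℝ) (hg : ∀ i j, g i j = g j i)
    (hgh : ∀ i k, ∑ j, h i j * g j k = if i = k then 1 else 0)
    (P : Fin 4 → G →L[ℝ] F) (A : Fin 4 → E → F →L[ℝ] G) (B : E → F →L[ℝ] G) (y : E)
    (cliff : ∀ i j v, P i (A j y v) + P j (A i y v) = (2 * h i j) • v)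
    {M : ℝ} (hM1 : 1 ≤ M) (hM : ∀ i j, |g i j| ≤ M) (hQ : ∀ z, ‖z‖ ^ 2 ≤ M * QQ g z)
    (hP : ∀ i, ‖P i‖ ≤ M)
    (w : E → F) (hw : ContDiff ℝ 1 w) (hc : HasCompactSupport w)
    (hA : ∀ j, ∀ x ∈ tsupport w, ContDiffAt ℝ 1 (A j) x)
    (hD : ∀ x ∈ tsupport w, ‖Dop A B x‖ ≤ M)
    (hL : ∀ x ∈ tsupport w, ∀ j, ‖A j x - A j y‖ ≤ M * ‖x - y‖) :
    ENNReal.ofReal ‖w y‖ ≤ ENNReal.ofReal (cst M) *
      ∫⁻ x, ENNReal.ofReal ((‖x - y‖ ^ 3)⁻¹ * (‖w x‖ + ‖Lop A B w x‖)) := by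
  have hM0 : 0 < M := by linarith
  have hq0 : ∀ z, 0 ≤ QQ g z := fun z => by
    have : 0 ≤ M * QQ g z := (sq_nonneg _).trans (hQ z)
    exact (mul_nonneg_iff_of_pos_left hM0).1 this
  have hJ := JJ_pos
  -- bound for every ε
  have step : ∀ ε : ℝ, 0 < ε →
      ENNReal.ofReal ‖∫ x, (4 * ε ^ 2 * ((QQ g (x - y) + ε ^ 2) ^ 3)⁻¹) • w x‖
        ≤ ENNReal.ofReal (1056 * M ^ 7) *
          ∫⁻ x, ENNReal.ofReal ((‖x - y‖ ^ 3)⁻¹ * (‖w x‖ + ‖Lop A B w x‖)) := by
    intro ε hε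
    rw [ident_eps g h hg hgh P A B y cliff hε hq0 w hw hc hA, norm_neg, ofReal_norm]
    refine (enorm_integral_le_lintegral_enorm _).trans ?_
    rw [← lintegral_const_mul' _ _ ENNReal.ofReal_ne_top]
    refine lintegral_mono_ae ?_
    have hne : ∀ᵐ x ∂(volume : Measure E), x ≠ y := by
      rw [ae_iff]; simp
    filter_upwards [hne] with x hx
    rw [← ofReal_norm, ← ENNReal.ofReal_mul (by positivity)]
    refine ENNReal.ofReal_le_ofReal ?_
    exact rest_le g hg P A B y hM1 hM hQ hP hε w x hx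
      (fun h => hD x (subset_tsupport _ h)) (fun h => hL x (subset_tsupport _ h))
  -- the limit
  have lim := tendsto_int g hM1 hQ w hw.continuous hc y
  have lim2 : ENNReal.ofReal ‖(∫ z : E, 4 * ((QQ g z + 1) ^ 3)⁻¹) • w y‖
      ≤ ENNReal.ofReal (1056 * M ^ 7) *
          ∫⁻ x, ENNReal.ofReal ((‖x - y‖ ^ 3)⁻¹ * (‖w x‖ + ‖Lop A B w x‖)) := by
    refine le_of_tendsto' ((ENNReal.continuous_ofReal.tendsto _).comp lim.norm) fun n => ?_
    exact step _ (by positivity)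
  have hge := integral_Q_ge g hM1 hM hQ
  have hk : ‖w y‖ ≤ (1024 * M ^ 3 / JJ) * ‖(∫ z : E, 4 * ((QQ g z + 1) ^ 3)⁻¹) • w y‖ := by
    rw [norm_smul, Real.norm_of_nonneg ((by positivity : (0 : ℝ) ≤ JJ / (1024 * M ^ 3)).trans hge),
      ← mul_assoc]
    have : 1 ≤ (1024 * M ^ 3 / JJ) * ∫ z : E, 4 * ((QQ g z + 1) ^ 3)⁻¹ := by
      calc (1 : ℝ) = (1024 * M ^ 3 / JJ) * (JJ / (1024 * M ^ 3)) := by field_simp
        _ ≤ _ := by gcongr
    nlinarith [norm_nonneg (w y)]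
  calc ENNReal.ofReal ‖w y‖
      ≤ ENNReal.ofReal ((1024 * M ^ 3 / JJ) * ‖(∫ z : E, 4 * ((QQ g z + 1) ^ 3)⁻¹) • w y‖) :=
        ENNReal.ofReal_le_ofReal hk
    _ = ENNReal.ofReal (1024 * M ^ 3 / JJ)
        * ENNReal.ofReal ‖(∫ z : E, 4 * ((QQ g z + 1) ^ 3)⁻¹) • w y‖ :=
        ENNReal.ofReal_mul (by positivity)
    _ ≤ ENNReal.ofReal (1024 * M ^ 3 / JJ) * (ENNReal.ofReal (1056 * M ^ 7) *
          ∫⁻ x, ENNReal.ofReal ((‖x - y‖ ^ 3)⁻¹ * (‖w x‖ + ‖Lop A B w x‖))) := by gcongr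
    _ = _ := by
        rw [cst, ENNReal.ofReal_mul (p := 1056 * M ^ 7) (by positivity), ← mul_assoc]
        congr 1
        exact mul_comm _ _

end point

end Crest.Agent.R235.SupA_260
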