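import Crest.Agent.R235.SupA_260

/-!
Row 235, package SW, node SUPA (2): the kernel `|x-y|^{-3}` on `ℝ⁴` and the iteration
`u ≤ h + T u`, giving local sup bounds.
-/

namespace Crest.Agent.R235.SupB_260

open MeasureTheory Set Filter Topology Metric
open Crest.Agent.R235.SupA_260 (E)
open scoped ENNReal NNReal

/-- the kernel -/
noncomputable def kk (x y : E) : ℝ≥0∞ := ENNReal.ofReal ((‖x - y‖ ^ 3)⁻¹)

lemma kk_comm (x y : E) : kk x y = kk y x := by
  simp only [kk, norm_sub_rev]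

lemma measurable_kk : Measurable (fun p : E × E => kk p.1 p.2) := by
  unfold kk
  fun_prop

lemma measurable_kkl (y : E) : Measurable (fun x : E => kk x y) := by
  unfold kk
  fun_prop

lemma measurable_kkr (x : E) : Measurable (fun y : E => kk x y) := by
  unfold kk
  fun_prop

lemma measurable_kks : Measurable (fun p : E × E => kk p.2 p.1) := by
  unfold kk
  fun_prop

/-- four times the volume of the unit ball -/
noncomputable def c4 : ℝ := 4 * volume.real (ball (0 : E) 1)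

lemma c4_nonneg : 0 ≤ c4 := by unfold c4; positivity

lemma lint_kk (y : E) {ρ : ℝ} (hρ : 0 < ρ) :
    ∫⁻ x in ball y ρ, kk x y = ENNReal.ofReal (c4 * ρ) := by
  set f : ℝ → ℝ := (Iio ρ).indicator fun t => (t ^ 3)⁻¹ with hf
  have hfr : Module.finrank ℝ E - 1 = 3 := by simp
  have e0 : EqOn (fun t : ℝ => t ^ (Module.finrank ℝ E - 1) • f t) ((Iio ρ).indicator 1)
      (Ioi 0) := by
    intro t ht
    rw [mem_Ioi] at ht
    simp only [hfr, hf]
    by_cases h : t < ρ
    · simp [h, ht.ne']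
    · simp [h]
  have i1 : Integrable fun x : E => f ‖x‖ := by
    rw [integrable_fun_norm_addHaar]
    refine IntegrableOn.congr_fun ?_ e0.symm measurableSet_Ioi
    rw [← integrable_indicator_iff measurableSet_Ioi, indicator_indicator]
    rw [integrable_indicator_iff (measurableSet_Ioi.inter measurableSet_Iio)]
    rw [Ioi_inter_Iio]
    exact integrableOn_const (by simp) (by simp)
  have i2 : ∫ x : E, f ‖x‖ = c4 * ρ := by
    rw [integral_fun_norm_addHaar, setIntegral_congr_fun measurableSet_Ioi e0]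
    have : ∫ t in Ioi (0 : ℝ), (Iio ρ).indicator (1 : ℝ → ℝ) t = ρ := by
      rw [setIntegral_indicator measurableSet_Iio, Ioi_inter_Iio]
      simp [hρ.le]
    rw [this, c4]
    simp
    ring
  have e1 : ∫⁻ x in ball y ρ, kk x y = ∫⁻ x, ENNReal.ofReal (f ‖x - y‖) := by
    rw [← lintegral_indicator measurableSet_ball]
    congr 1
    funext x
    by_cases h : ‖x - y‖ < ρ
    · have : x ∈ ball y ρ := by simpa [mem_ball, dist_eq_norm] using h
      simp [this, hf, h, kk]
    · have : x ∉ ball y ρ := by simpa [mem_ball, dist_eq_norm] using h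
      simp [this, hf, h]
  rw [e1, lintegral_sub_right_eq_self (fun x : E => ENNReal.ofReal (f ‖x‖)) y,
    ← ofReal_integral_eq_lintegral_ofReal i1, i2]
  refine Eventually.of_forall fun x => ?_
  simp only [hf, indicator]
  split_ifs <;> positivity

lemma lint_kk' (y : E) {ρ : ℝ} (hρ : 0 < ρ) :
    ∫⁻ x in ball y ρ, kk y x = ENNReal.ofReal (c4 * ρ) := by
  simp_rw [kk_comm y]
  exact lint_kk y hρ

/-- the kernel over a ball `B_r(x0)`, seen from a point of this ball -/
lemma lint_ball_le (x0 : E) {r : ℝ} (hr : 0 < r) {y : E} (hy : y ∈ ball x0 r) :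
    ∫⁻ x in ball x0 r, kk x y ≤ ENNReal.ofReal (c4 * (2 * r)) := by
  rw [← lint_kk y (by positivity : 0 < 2 * r)]
  refine lintegral_mono_set fun x hx => ?_
  rw [mem_ball] at hx hy ⊢
  have := dist_triangle_right x y x0
  linarith

/-- the operator `T` -/
noncomputable def TT (κ : ℝ≥0∞) (S : Set E) (v : E → ℝ≥0∞) (y : E) : ℝ≥0∞ :=
  κ * ∫⁻ x in S, kk x y * v x

lemma measurable_TT (κ : ℝ≥0∞) (S : Set E) {v : E → ℝ≥0∞} (hv : Measurable v) :
    Measurable (TT κ S v) := by
  unfold TT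
  refine Measurable.const_mul ?_ κ
  refine Measurable.lintegral_prod_left' (f := fun p : E × E => kk p.1 p.2 * v p.1) ?_
  exact measurable_kk.mul (hv.comp measurable_fst)

lemma TT_mono (κ : ℝ≥0∞) (S : Set E) {v w : E → ℝ≥0∞}
    (h : ∀ᵐ x ∂(volume.restrict S), v x ≤ w x) (y : E) : TT κ S v y ≤ TT κ S w y := by
  unfold TT
  gcongr κ * ?_
  refine lintegral_mono_ae ?_
  filter_upwards [h] with x hx
  gcongr

lemma TT_add (κ : ℝ≥0∞) (S : Set E) {v w : E → ℝ≥0∞} (hv : Measurable v) (y : E) :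
    TT κ S (fun x => v x + w x) y = TT κ S v y + TT κ S w y := by
  unfold TT
  simp_rw [mul_add]
  rw [lintegral_add_left, mul_add]
  exact (measurable_kkl y).mul hv

/-- `L¹` bound for `T` on a ball -/
lemma lint_TT (κ : ℝ≥0∞) (x0 : E) {r : ℝ} (hr : 0 < r) {v : E → ℝ≥0∞} (hv : Measurable v) :
    ∫⁻ y in ball x0 r, TT κ (ball x0 r) v y
      ≤ κ * ENNReal.ofReal (c4 * (2 * r)) * ∫⁻ x in ball x0 r, v x := by
  have hm : Measurable (Function.uncurry fun (y x : E) => kk x y * v x) :=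
    measurable_kks.mul (hv.comp measurable_snd)
  unfold TT
  rw [lintegral_const_mul, mul_assoc]
  · gcongr κ * ?_
    rw [lintegral_lintegral_swap hm.aemeasurable]
    calc ∫⁻ x in ball x0 r, ∫⁻ y in ball x0 r, kk x y * v x
        = ∫⁻ x in ball x0 r, (∫⁻ y in ball x0 r, kk x y) * v x := by
          refine lintegral_congr fun x => ?_
          rw [lintegral_mul_const _ (measurable_kkr x)]
      _ ≤ ∫⁻ x in ball x0 r, ENNReal.ofReal (c4 * (2 * r)) * v x := by
          refine setLIntegral_mono' measurableSet_ball fun x hx => ?_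
          gcongr
          simp_rw [kk_comm x]
          exact lint_ball_le x0 hr hx
      _ = ENNReal.ofReal (c4 * (2 * r)) * ∫⁻ x in ball x0 r, v x :=
          lintegral_const_mul _ hv
  · exact hm.lintegral_prod_right'

/-- passage to the limit in a.e. inequalities -/
lemma ae_le_of_tendsto {α : Type*} [MeasurableSpace α] {μ : Measure α} {p q : α → ℝ≥0∞}
    (hp : AEMeasurable p μ) (hq : AEMeasurable q μ) (e : ℕ → α → ℝ≥0∞)
    (h : ∀ n, ∀ᵐ x ∂μ, p x ≤ q x + e n x)
    (he : Tendsto (fun n => ∫⁻ x, e n x ∂μ) atTop (𝓝 0)) : ∀ᵐ x ∂μ, p x ≤ q x := by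
  have h1 : ∫⁻ x, (p x - q x) ∂μ ≤ 0 := by
    refine ge_of_tendsto' he fun n => ?_
    refine lintegral_mono_ae ?_
    filter_upwards [h n] with x hx
    rw [tsub_le_iff_left]
    exact hx
  have h2 : ∫⁻ x, (p x - q x) ∂μ = 0 := le_antisymm h1 bot_le
  have h3 : (fun x => p x - q x) =ᵐ[μ] 0 := (lintegral_eq_zero_iff' (hp.sub hq)).1 h2
  filter_upwards [h3] with x hx
  simpa [tsub_eq_zero_iff_le] using hx

/-- the weight -/
noncomputable def DD (x0 : E) (r : ℝ) (y : E) : ℝ≥0∞ :=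
  ENNReal.ofReal (((r / 2 - ‖y - x0‖) ^ 3)⁻¹)

/-- one step of the iteration: pointwise bound -/
lemma step_point (x0 : E) {r : ℝ} (hr : 0 < r) (κ s : ℝ≥0∞)
    (hs : κ * ENNReal.ofReal (c4 * (2 * r)) ≤ s) {v : E → ℝ≥0∞} (hv : Measurable v)
    (K1 K2 : ℝ≥0∞) (hvK : ∀ x ∈ ball x0 (r / 2), v x ≤ K1 + K2 * DD x0 r x)
    {y : E} (hy : y ∈ ball x0 (r / 2)) :
    TT κ (ball x0 r) v y
      ≤ s * K1 + (8 * s * K2 + 8 * κ * ∫⁻ x in ball x0 r, v x) * DD x0 r y := by
  have hdy : 0 < r / 2 - ‖y - x0‖ := by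
    rw [mem_ball, dist_eq_norm] at hy; linarith
  have hyr : y ∈ ball x0 r := ball_subset_ball (by linarith) hy
  have hpt : ∀ x : E, kk x y * v x ≤ kk x y * (K1 + 8 * K2 * DD x0 r y)
      + (8 * DD x0 r y) * v x := by
    intro x
    by_cases hx : ‖x - x0‖ ≤ r / 2 - (r / 2 - ‖y - x0‖) / 2
    · have hxb : x ∈ ball x0 (r / 2) := by
        rw [mem_ball, dist_eq_norm]; linarith
      refine le_add_right ?_
      gcongr
      refine (hvK x hxb).trans ?_
      have h8 : DD x0 r x ≤ 8 * DD x0 r y := by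
        unfold DD
        have hdx : (r / 2 - ‖y - x0‖) / 2 ≤ r / 2 - ‖x - x0‖ := by linarith
        have e8 : (8 : ℝ≥0∞) = ENNReal.ofReal 8 := by norm_num
        rw [e8, ← ENNReal.ofReal_mul (by norm_num)]
        refine ENNReal.ofReal_le_ofReal ?_
        have hh : ((r / 2 - ‖y - x0‖) / 2) ^ 3 ≤ (r / 2 - ‖x - x0‖) ^ 3 := by gcongr
        calc ((r / 2 - ‖x - x0‖) ^ 3)⁻¹ ≤ (((r / 2 - ‖y - x0‖) / 2) ^ 3)⁻¹ := by gcongr
          _ = 8 * ((r / 2 - ‖y - x0‖) ^ 3)⁻¹ := by field_simp; norm_num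
      calc K1 + K2 * DD x0 r x ≤ K1 + K2 * (8 * DD x0 r y) := by gcongr
        _ = K1 + 8 * K2 * DD x0 r y := by ring
    · push Not at hx
      refine le_add_left ?_
      gcongr
      have hxy : (r / 2 - ‖y - x0‖) / 2 ≤ ‖x - y‖ := by
        have h1 := norm_sub_norm_le (x - x0) (y - x0)
        rw [sub_sub_sub_cancel_right] at h1
        linarith
      unfold kk DD
      have e8 : (8 : ℝ≥0∞) = ENNReal.ofReal 8 := by norm_num
      rw [e8, ← ENNReal.ofReal_mul (by norm_num)]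
      refine ENNReal.ofReal_le_ofReal ?_
      calc (‖x - y‖ ^ 3)⁻¹ ≤ (((r / 2 - ‖y - x0‖) / 2) ^ 3)⁻¹ := by gcongr
        _ = 8 * ((r / 2 - ‖y - x0‖) ^ 3)⁻¹ := by field_simp; norm_num
  have mk : Measurable fun x => kk x y := measurable_kkl y
  unfold TT
  calc κ * ∫⁻ x in ball x0 r, kk x y * v x
      ≤ κ * ∫⁻ x in ball x0 r, (kk x y * (K1 + 8 * K2 * DD x0 r y) + (8 * DD x0 r y) * v x) := by
        gcongr with x
        exact hpt x
    _ = κ * ((∫⁻ x in ball x0 r, kk x y) * (K1 + 8 * K2 * DD x0 r y)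
          + (8 * DD x0 r y) * ∫⁻ x in ball x0 r, v x) := by
        rw [lintegral_add_left (mk.mul_const _), lintegral_mul_const _ mk,
          lintegral_const_mul _ hv]
    _ ≤ κ * (ENNReal.ofReal (c4 * (2 * r)) * (K1 + 8 * K2 * DD x0 r y)
          + (8 * DD x0 r y) * ∫⁻ x in ball x0 r, v x) := by
        gcongr
        exact lint_ball_le x0 hr hyr
    _ = (κ * ENNReal.ofReal (c4 * (2 * r))) * (K1 + 8 * K2 * DD x0 r y)
          + κ * ((8 * DD x0 r y) * ∫⁻ x in ball x0 r, v x) := by ring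
    _ ≤ s * (K1 + 8 * K2 * DD x0 r y) + κ * ((8 * DD x0 r y) * ∫⁻ x in ball x0 r, v x) := by
        gcongr
    _ = _ := by ring

lemma measurable_DD (x0 : E) (r : ℝ) : Measurable (DD x0 r) := by
  unfold DD
  fun_prop

lemma inv16 : (16 : ℝ≥0∞) * 16⁻¹ = 1 := ENNReal.mul_inv_cancel (by norm_num) (by norm_num)

lemma inv16_2 : (16 : ℝ≥0∞)⁻¹ * 2 ≤ 1 := by
  calc (16 : ℝ≥0∞)⁻¹ * 2 ≤ 16⁻¹ * 16 := by gcongr; norm_num
    _ = 1 := by rw [mul_comm]; exact inv16

/-- the Picard iterates -/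
noncomputable def vv (κ : ℝ≥0∞) (S : Set E) (h : E → ℝ≥0∞) : ℕ → E → ℝ≥0∞
  | 0 => fun _ => 0
  | n + 1 => fun y => h y + TT κ S (vv κ S h n) y

/-- the remainders -/
noncomputable def RR (κ : ℝ≥0∞) (S : Set E) (u : E → ℝ≥0∞) : ℕ → E → ℝ≥0∞
  | 0 => u
  | n + 1 => fun y => TT κ S (RR κ S u n) y

lemma measurable_vv (κ : ℝ≥0∞) (S : Set E) {h : E → ℝ≥0∞} (hh : Measurable h) (n : ℕ) :
    Measurable (vv κ S h n) := by
  induction n with
  | zero => exact measurable_const
  | succ n ih => exact hh.add (measurable_TT κ S ih)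

lemma measurable_RR (κ : ℝ≥0∞) (S : Set E) {u : E → ℝ≥0∞} (hu : Measurable u) (n : ℕ) :
    Measurable (RR κ S u n) := by
  induction n with
  | zero => exact hu
  | succ n ih => exact measurable_TT κ S ih

/-- **The iteration**: local sup bounds for `u ≤ h + T u`. -/
theorem iterate_bound (x0 : E) {r : ℝ} (hr : 0 < r) (κ : ℝ≥0∞)
    (hs : κ * ENNReal.ofReal (c4 * (2 * r)) ≤ 16⁻¹) {u h : E → ℝ≥0∞} (hu : Measurable u)
    (hh : Measurable h) (hui : ∫⁻ x in ball x0 r, u x ≠ ∞)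
    (hle : ∀ᵐ y ∂(volume.restrict (ball x0 r)), u y ≤ h y + TT κ (ball x0 r) u y)
    (H1 H2 : ℝ≥0∞) (hhb : ∀ y ∈ ball x0 (r / 2), h y ≤ H1 + H2 * DD x0 r y) :
    ∀ᵐ y ∂(volume.restrict (ball x0 (r / 2))),
      u y ≤ 2 * H1 + 2 * (H2 + 16 * κ * ∫⁻ x in ball x0 r, h x) * DD x0 r y := by
  set S := ball x0 r with hS
  set I := ∫⁻ x in S, h x with hI
  set Mh := H2 + 16 * κ * I with hMh
  have mv := measurable_vv κ S hh
  have mR := measurable_RR κ S hu
  -- L¹ bounds of the iterates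
  have iv : ∀ n, ∫⁻ x in S, vv κ S h n x ≤ 2 * I := by
    intro n
    induction n with
    | zero => simp [vv]
    | succ n ih =>
      calc ∫⁻ x in S, vv κ S h (n + 1) x = I + ∫⁻ x in S, TT κ S (vv κ S h n) x := by
            simp only [vv]
            rw [lintegral_add_left hh]
        _ ≤ I + κ * ENNReal.ofReal (c4 * (2 * r)) * ∫⁻ x in S, vv κ S h n x := by
            gcongr
            exact lint_TT κ x0 hr (mv n)
        _ ≤ I + 16⁻¹ * (2 * I) := by gcongr
        _ = I + 16⁻¹ * 2 * I := by ring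
        _ ≤ I + 1 * I := by gcongr; exact inv16_2
        _ = 2 * I := by ring
  -- pointwise bounds of the iterates
  have pv : ∀ n, ∀ y ∈ ball x0 (r / 2), vv κ S h n y ≤ 2 * H1 + 2 * Mh * DD x0 r y := by
    intro n
    induction n with
    | zero => intro y _; simp [vv]
    | succ n ih =>
      intro y hy
      have h1 := step_point x0 hr κ 16⁻¹ hs (mv n) (2 * H1) (2 * Mh) ih hy
      calc vv κ S h (n + 1) y = h y + TT κ S (vv κ S h n) y := rfl
        _ ≤ (H1 + H2 * DD x0 r y) + (16⁻¹ * (2 * H1)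
            + (8 * 16⁻¹ * (2 * Mh) + 8 * κ * ∫⁻ x in S, vv κ S h n x) * DD x0 r y) := by
            gcongr
            exact hhb y hy
        _ ≤ (H1 + H2 * DD x0 r y) + (16⁻¹ * (2 * H1)
            + (8 * 16⁻¹ * (2 * Mh) + 8 * κ * (2 * I)) * DD x0 r y) := by
            gcongr
            exact iv n
        _ = (H1 + 16⁻¹ * 2 * H1) + (H2 + 16 * κ * I + (16 * 16⁻¹) * Mh) * DD x0 r y := by ring
        _ ≤ (H1 + 1 * H1) + (Mh + 1 * Mh) * DD x0 r y := by
            rw [inv16]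
            gcongr
            exact inv16_2
        _ = 2 * H1 + 2 * Mh * DD x0 r y := by ring
  -- the remainders
  have iR : ∀ n, ∫⁻ x in S, RR κ S u n x ≤ (16⁻¹) ^ n * ∫⁻ x in S, u x := by
    intro n
    induction n with
    | zero => simp [RR]
    | succ n ih =>
      calc ∫⁻ x in S, RR κ S u (n + 1) x = ∫⁻ x in S, TT κ S (RR κ S u n) x := rfl
        _ ≤ κ * ENNReal.ofReal (c4 * (2 * r)) * ∫⁻ x in S, RR κ S u n x :=
            lint_TT κ x0 hr (mR n)
        _ ≤ 16⁻¹ * ((16⁻¹) ^ n * ∫⁻ x in S, u x) := by gcongr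
        _ = (16⁻¹) ^ (n + 1) * ∫⁻ x in S, u x := by ring
  have dec : ∀ n, ∀ᵐ y ∂(volume.restrict S), u y ≤ vv κ S h n y + RR κ S u n y := by
    intro n
    induction n with
    | zero => exact Eventually.of_forall fun y => by simp [vv, RR]
    | succ n ih =>
      filter_upwards [hle] with y hy
      refine hy.trans ?_
      calc h y + TT κ S u y ≤ h y + TT κ S (fun x => vv κ S h n x + RR κ S u n x) y := by
            gcongr
            exact TT_mono κ S ih y
        _ = h y + (TT κ S (vv κ S h n) y + TT κ S (RR κ S u n) y) := by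
            rw [TT_add κ S (mv n)]
        _ = vv κ S h (n + 1) y + RR κ S u (n + 1) y := by
            simp only [vv, RR]; ring
  -- conclusion
  have hsub : ball x0 (r / 2) ⊆ S := ball_subset_ball (by linarith)
  refine ae_le_of_tendsto hu.aemeasurable
    (by have := measurable_DD x0 r; fun_prop) (RR κ S u) (fun n => ?_) ?_
  · have h1 := ae_restrict_of_ae_restrict_of_subset hsub (dec n)
    filter_upwards [h1, ae_restrict_mem measurableSet_ball] with y hy hyb
    refine hy.trans ?_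
    gcongr
    exact pv n y hyb
  · have lim : Tendsto (fun n : ℕ => ((16 : ℝ≥0∞)⁻¹) ^ n * ∫⁻ x in S, u x) atTop (𝓝 0) := by
      have h0 : Tendsto (fun n : ℕ => ((16 : ℝ≥0∞)⁻¹) ^ n) atTop (𝓝 0) := by
        refine ENNReal.tendsto_pow_atTop_nhds_zero_of_lt_one ?_
        rw [ENNReal.inv_lt_one]
        norm_num
      have := ENNReal.Tendsto.mul_const h0 (Or.inr hui)
      simpa using this
    refine tendsto_of_tendsto_of_tendsto_of_le_of_le tendsto_const_nhds lim (fun _ => bot_le)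
      fun n => ?_
    exact (lintegral_mono_set hsub).trans (iR n)

end Crest.Agent.R235.SupB_260
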