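import Crest.Agent.R235.SupB_260

/-!
Row 235, package SW, node SUPA (3): local sup bounds for Dirac type first order systems on open
subsets of `ℝ⁴`.
-/

namespace Crest.Agent.R235.SupC_260

open MeasureTheory Set Filter Topology Metric
open Crest.Agent.R235.SupA_260
open Crest.Agent.R235.SupB_260
open scoped ENNReal NNReal

lemma TT_congr_ae (κ : ℝ≥0∞) (S : Set E) {v w : E → ℝ≥0∞}
    (h : v =ᵐ[volume.restrict S] w) : TT κ S v = TT κ S w := by
  funext y
  unfold TT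
  congr 1
  refine lintegral_congr_ae ?_
  filter_upwards [h] with x hx
  rw [hx]

lemma measurable_TT_ae (κ : ℝ≥0∞) (S : Set E) {v : E → ℝ≥0∞}
    (hv : AEMeasurable v (volume.restrict S)) : Measurable (TT κ S v) := by
  rw [TT_congr_ae κ S hv.ae_eq_mk]
  exact measurable_TT κ S hv.measurable_mk

lemma lint_TT_ae (κ : ℝ≥0∞) (x0 : E) {r : ℝ} (hr : 0 < r) {v : E → ℝ≥0∞}
    (hv : AEMeasurable v (volume.restrict (ball x0 r))) :
    ∫⁻ y in ball x0 r, TT κ (ball x0 r) v y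
      ≤ κ * ENNReal.ofReal (c4 * (2 * r)) * ∫⁻ x in ball x0 r, v x := by
  rw [TT_congr_ae κ _ hv.ae_eq_mk, lintegral_congr_ae hv.ae_eq_mk]
  exact lint_TT κ x0 hr hv.measurable_mk

lemma TT_add_ae (κ : ℝ≥0∞) (S : Set E) {v w : E → ℝ≥0∞}
    (hv : AEMeasurable v (volume.restrict S)) (y : E) :
    TT κ S (fun x => v x + w x) y = TT κ S v y + TT κ S w y := by
  have h1 : (fun x => v x + w x) =ᵐ[volume.restrict S] fun x => hv.mk v x + w x := by
    filter_upwards [hv.ae_eq_mk] with x hx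
    rw [hx]
  rw [TT_congr_ae κ S h1, TT_add κ S hv.measurable_mk, ← TT_congr_ae κ S hv.ae_eq_mk]

/-- the iteration for a.e. measurable `u` -/
theorem iterate_bound_ae (x0 : E) {r : ℝ} (hr : 0 < r) (κ : ℝ≥0∞)
    (hs : κ * ENNReal.ofReal (c4 * (2 * r)) ≤ 16⁻¹) {u h : E → ℝ≥0∞}
    (hu : AEMeasurable u (volume.restrict (ball x0 r)))
    (hh : Measurable h) (hui : ∫⁻ x in ball x0 r, u x ≠ ∞)
    (hle : ∀ᵐ y ∂(volume.restrict (ball x0 r)), u y ≤ h y + TT κ (ball x0 r) u y)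
    (H1 H2 : ℝ≥0∞) (hhb : ∀ y ∈ ball x0 (r / 2), h y ≤ H1 + H2 * DD x0 r y) :
    ∀ᵐ y ∂(volume.restrict (ball x0 (r / 2))),
      u y ≤ 2 * H1 + 2 * (H2 + 16 * κ * ∫⁻ x in ball x0 r, h x) * DD x0 r y := by
  have h1 := iterate_bound x0 hr κ hs (u := hu.mk u) (h := h) hu.measurable_mk hh
    (by rwa [← lintegral_congr_ae hu.ae_eq_mk]) (by
      rw [← TT_congr_ae κ _ hu.ae_eq_mk]
      filter_upwards [hle, hu.ae_eq_mk] with y hy hy2
      rwa [← hy2]) H1 H2 hhb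
  have hsub : ball x0 (r / 2) ⊆ ball x0 r := ball_subset_ball (by linarith)
  have h2 := ae_restrict_of_ae_restrict_of_subset hsub hu.ae_eq_mk
  filter_upwards [h1, h2] with y hy hy2
  rwa [hy2]

variable {F G : Type*} [NormedAddCommGroup F] [NormedSpace ℝ F]
  [NormedAddCommGroup G] [NormedSpace ℝ G]

/-- `w ↦ ∑ A_j ∂_j w + B w` is a first order operator of Dirac type over `U`: there are `P_i` with
`P_i A_j + P_j A_i = 2 h^{ij}`, `h` the inverse of a positive definite symmetric matrix `g`. -/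
structure DiracOn (U : Set E) (A : Fin 4 → E → F →L[ℝ] G) (B : E → F →L[ℝ] G)
    (P : Fin 4 → E → G →L[ℝ] F) (g h : E → Fin 4 → Fin 4 → ℝ) : Prop where
  hA : ∀ j, ContDiffOn ℝ 1 (A j) U
  hB : ContinuousOn B U
  hP : ∀ i, ContinuousOn (P i) U
  hg : ∀ i j, ContinuousOn (fun x => g x i j) U
  symm : ∀ x ∈ U, ∀ i j, g x i j = g x j i
  inv : ∀ x ∈ U, ∀ i k, ∑ j, h x i j * g x j k = if i = k then 1 else 0
  pos : ∀ x ∈ U, ∀ z, z ≠ 0 → 0 < QQ (g x) z
  cliff : ∀ x ∈ U, ∀ i j v, P i x (A j x v) + P j x (A i x v) = (2 * h x i j) • v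

/-- a uniform bound for a continuous function on a compact set -/
lemma exists_bound {H : Type*} [NormedAddCommGroup H] {K : Set E} (hK : IsCompact K) (f : E → H)
    (hf : ContinuousOn f K) : ∃ C : ℝ, 0 ≤ C ∧ ∀ x ∈ K, ‖f x‖ ≤ C := by
  obtain ⟨C, hC⟩ := hK.exists_bound_of_continuousOn hf
  exact ⟨max C 0, le_max_right _ _, fun x hx => (hC x hx).trans (le_max_left _ _)⟩

/-- local uniform constants -/
lemma exists_consts {U : Set E} (hU : IsOpen U) {A : Fin 4 → E → F →L[ℝ] G}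
    {B : E → F →L[ℝ] G} {P : Fin 4 → E → G →L[ℝ] F} {g h : E → Fin 4 → Fin 4 → ℝ}
    (D : DiracOn U A B P g h) {x0 : E} {R : ℝ} (hR : closedBall x0 R ⊆ U) :
    ∃ M : ℝ, 1 ≤ M ∧ (∀ x ∈ closedBall x0 R, ∀ i j, |g x i j| ≤ M) ∧
      (∀ x ∈ closedBall x0 R, ∀ z, ‖z‖ ^ 2 ≤ M * QQ (g x) z) ∧
      (∀ x ∈ closedBall x0 R, ∀ i, ‖P i x‖ ≤ M) ∧
      (∀ x ∈ closedBall x0 R, ‖Dop A B x‖ ≤ M) ∧
      (∀ x ∈ closedBall x0 R, ∀ j, ‖A j x‖ ≤ M) ∧
      (∀ x ∈ closedBall x0 R, ∀ y ∈ closedBall x0 R, ∀ j, ‖A j x - A j y‖ ≤ M * ‖x - y‖) := by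
  set K := closedBall x0 R with hK
  have cK : IsCompact K := isCompact_closedBall x0 R
  have hfA : ∀ j, ContinuousOn (fun x => fderiv ℝ (A j) x) U := fun j =>
    (D.hA j).continuousOn_fderiv_of_isOpen hU (by norm_num)
  -- bound g
  have b1 : ∀ i j, ∃ C : ℝ, 0 ≤ C ∧ ∀ x ∈ K, ‖g x i j‖ ≤ C := fun i j =>
    exists_bound cK _ ((D.hg i j).mono hR)
  choose C1 hC1 hC1' using b1
  -- bound P
  have b2 : ∀ i, ∃ C : ℝ, 0 ≤ C ∧ ∀ x ∈ K, ‖P i x‖ ≤ C := fun i =>
    exists_bound cK _ ((D.hP i).mono hR)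
  choose C2 hC2 hC2' using b2
  -- bound A
  have b3 : ∀ j, ∃ C : ℝ, 0 ≤ C ∧ ∀ x ∈ K, ‖A j x‖ ≤ C := fun i =>
    exists_bound cK _ ((D.hA i).continuousOn.mono hR)
  choose C3 hC3 hC3' using b3
  -- bound fderiv A
  have b4 : ∀ j, ∃ C : ℝ, 0 ≤ C ∧ ∀ x ∈ K, ‖fderiv ℝ (A j) x‖ ≤ C := fun i =>
    exists_bound cK (fun x => fderiv ℝ (A i) x) ((hfA i).mono hR)
  choose C4 hC4 hC4' using b4
  -- bound Dop
  obtain ⟨C5, hC5, hC5'⟩ : ∃ C : ℝ, 0 ≤ C ∧ ∀ x ∈ K, ‖Dop A B x‖ ≤ C := by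
    refine exists_bound cK _ ?_
    unfold Dop
    refine ContinuousOn.sub (continuousOn_finsetSum _ fun j _ => ?_) (D.hB.mono hR)
    exact ((hfA j).mono hR).clm_apply continuousOn_const
  -- lower bound of Q
  obtain ⟨C6, hC6, hC6'⟩ : ∃ C : ℝ, 0 ≤ C ∧ ∀ x ∈ K, ∀ z, ‖z‖ ^ 2 ≤ C * QQ (g x) z := by
    by_cases hne : (K ×ˢ sphere (0 : E) 1).Nonempty
    · have cKS : IsCompact (K ×ˢ sphere (0 : E) 1) := cK.prod (isCompact_sphere 0 1)
      have hcont : ContinuousOn (fun p : E × E => QQ (g p.1) p.2) (K ×ˢ sphere (0 : E) 1) := by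
        unfold QQ pp
        refine continuousOn_finsetSum _ fun i _ => ContinuousOn.mul ?_ ?_
        · refine continuousOn_finsetSum _ fun j _ => ContinuousOn.mul ?_ ?_
          · exact ((D.hg i j).mono hR).comp continuousOn_fst fun p hp => hp.1
          · fun_prop
        · fun_prop
      obtain ⟨p, hp, hmin⟩ := cKS.exists_isMinOn hne hcont
      have hpos : 0 < QQ (g p.1) p.2 := D.pos p.1 (hR hp.1) p.2 (by
        have := hp.2
        intro h0
        rw [h0] at this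
        simp at this)
      refine ⟨(QQ (g p.1) p.2)⁻¹, by positivity, fun x hx z => ?_⟩
      by_cases hz : z = 0
      · subst hz
        simp [QQ]
      · have hz' : 0 < ‖z‖ := norm_pos_iff.2 hz
        have h1 : (x, ‖z‖⁻¹ • z) ∈ K ×ˢ sphere (0 : E) 1 := by
          refine ⟨hx, ?_⟩
          simp [norm_smul, hz'.ne']
        have h2 : QQ (g p.1) p.2 ≤ QQ (g x) (‖z‖⁻¹ • z) := hmin h1
        rw [QQ_smul] at h2
        have h3 : QQ (g p.1) p.2 * ‖z‖ ^ 2 ≤ QQ (g x) z := by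
          calc QQ (g p.1) p.2 * ‖z‖ ^ 2 ≤ (‖z‖⁻¹ ^ 2 * QQ (g x) z) * ‖z‖ ^ 2 := by gcongr
            _ = QQ (g x) z := by field_simp
        rw [inv_mul_eq_div, le_div_iff₀ hpos]
        linarith
    · refine ⟨0, le_rfl, fun x hx z => ?_⟩
      by_cases hz : z = 0
      · subst hz; simp
      · exfalso
        refine hne ⟨(x, ‖z‖⁻¹ • z), hx, ?_⟩
        have hz' : 0 < ‖z‖ := norm_pos_iff.2 hz
        simp [norm_smul, hz'.ne']
  set M := 1 + (∑ i, ∑ j, C1 i j) + (∑ i, C2 i) + (∑ i, C3 i) + (∑ i, C4 i) + C5 + C6 with hM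
  have s1 : ∀ i j, C1 i j ≤ ∑ i, ∑ j, C1 i j := fun i j =>
    (Finset.single_le_sum (f := fun j => C1 i j) (fun j _ => hC1 i j) (Finset.mem_univ j)).trans
      (Finset.single_le_sum (f := fun i => ∑ j, C1 i j)
        (fun i _ => Finset.sum_nonneg fun j _ => hC1 i j) (Finset.mem_univ i))
  have s2 : ∀ i, C2 i ≤ ∑ i, C2 i := fun i =>
    Finset.single_le_sum (fun j _ => hC2 j) (Finset.mem_univ i)
  have s3 : ∀ i, C3 i ≤ ∑ i, C3 i := fun i =>
    Finset.single_le_sum (fun j _ => hC3 j) (Finset.mem_univ i)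
  have s4 : ∀ i, C4 i ≤ ∑ i, C4 i := fun i =>
    Finset.single_le_sum (fun j _ => hC4 j) (Finset.mem_univ i)
  have n1 : 0 ≤ ∑ i, ∑ j, C1 i j := Finset.sum_nonneg fun i _ => Finset.sum_nonneg fun j _ => hC1 i j
  have n2 : 0 ≤ ∑ i, C2 i := Finset.sum_nonneg fun i _ => hC2 i
  have n3 : 0 ≤ ∑ i, C3 i := Finset.sum_nonneg fun i _ => hC3 i
  have n4 : 0 ≤ ∑ i, C4 i := Finset.sum_nonneg fun i _ => hC4 i
  refine ⟨M, by linarith, fun x hx i j => ?_, fun x hx z => ?_, fun x hx i => ?_, fun x hx => ?_,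
    fun x hx j => ?_, fun x hx y hy j => ?_⟩
  · have := hC1' i j x hx
    rw [Real.norm_eq_abs] at this
    have := s1 i j
    linarith
  · have h1 := hC6' x hx z
    have h2 : 0 ≤ QQ (g x) z := by
      by_cases hz : z = 0
      · subst hz; simp [QQ]
      · exact (D.pos x (hR hx) z hz).le
    refine h1.trans ?_
    gcongr
    linarith
  · have := hC2' i x hx
    have := s2 i
    linarith
  · have := hC5' x hx
    linarith
  · have := hC3' j x hx
    have := s3 j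
    linarith
  · have hconv : Convex ℝ K := convex_closedBall x0 R
    have h1 := hconv.norm_image_sub_le_of_norm_fderiv_le (𝕜 := ℝ) (f := A j) (C := C4 j)
      (fun z hz => ((D.hA j).contDiffAt (hU.mem_nhds (hR hz))).differentiableAt (by norm_num))
      (fun z hz => hC4' j z hz) hy hx
    refine h1.trans ?_
    gcongr
    have := s4 j
    linarith

/-- the operator applied to a product with a cut-off -/
lemma Lop_smul (A : Fin 4 → E → F →L[ℝ] G) (B : E → F →L[ℝ] G) (φ : E → ℝ) (a : E → F) (x : E)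
    (hφ : DifferentiableAt ℝ φ x) (ha : DifferentiableAt ℝ a x) :
    Lop A B (fun z => φ z • a z) x
      = φ x • Lop A B a x + ∑ j, (fderiv ℝ φ x (ee j)) • A j x (a x) := by
  have h1 : ∀ v, fderiv ℝ (fun z => φ z • a z) x v = φ x • fderiv ℝ a x v
      + (fderiv ℝ φ x v) • a x := by
    intro v
    have h := hφ.hasFDerivAt.smul ha.hasFDerivAt
    have h2 : fderiv ℝ (fun z => φ z • a z) x = φ x • fderiv ℝ a x
      + (fderiv ℝ φ x).smulRight (a x) := h.fderiv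
    rw [h2]
    simp
  simp only [Lop, h1, map_add, map_smul, Finset.sum_add_distrib, smul_add, Finset.smul_sum]
  abel

/-- `|x - y|⁻³` dominates the weight in the complement of the half ball -/
lemma kk_le_DD (x0 : E) {r : ℝ} {x y : E} (hx : x ∉ ball x0 (r / 2)) (hy : y ∈ ball x0 (r / 2)) :
    kk x y ≤ DD x0 r y := by
  have hdy : 0 < r / 2 - ‖y - x0‖ := by
    rw [mem_ball, dist_eq_norm] at hy; linarith
  have hx' : r / 2 ≤ ‖x - x0‖ := by
    rw [mem_ball, dist_eq_norm, not_lt] at hx; exact hx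
  have hxy : r / 2 - ‖y - x0‖ ≤ ‖x - y‖ := by
    have h1 := norm_sub_norm_le (x - x0) (y - x0)
    rw [sub_sub_sub_cancel_right] at h1
    linarith
  unfold kk DD
  refine ENNReal.ofReal_le_ofReal ?_
  gcongr

lemma norm_ee (j : Fin 4) : ‖ee j‖ = 1 := by simp [ee]

/-- the commutator term with a cut-off -/
lemma comm_le (A : Fin 4 → E → F →L[ℝ] G) {M Cφ : ℝ} (l : E →L[ℝ] ℝ) (x : E) (v : F)
    (hl : ‖l‖ ≤ Cφ) (hA : ∀ j, ‖A j x‖ ≤ M) :
    ‖∑ j, (l (ee j)) • A j x v‖ ≤ 4 * Cφ * M * ‖v‖ := by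
  have hC : 0 ≤ Cφ := (norm_nonneg _).trans hl
  calc ‖∑ j, (l (ee j)) • A j x v‖ ≤ ∑ j : Fin 4, ‖(l (ee j)) • A j x v‖ := norm_sum_le _ _
    _ ≤ ∑ _j : Fin 4, Cφ * (M * ‖v‖) := by
        refine Finset.sum_le_sum fun j _ => ?_
        rw [norm_smul]
        have h1 : ‖l (ee j)‖ ≤ Cφ := by
          refine (l.le_opNorm _).trans ?_
          rw [norm_ee, mul_one]
          exact hl
        have h2 : ‖A j x v‖ ≤ M * ‖v‖ := (A j x).le_of_opNorm_le (hA j) v
        gcongr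
    _ = 4 * Cφ * M * ‖v‖ := by simp; ring

/-- the key estimate before the limit -/
lemma pre_limit [CompleteSpace F] {U : Set E} (hU : IsOpen U) {A : Fin 4 → E → F →L[ℝ] G}
    {B : E → F →L[ℝ] G} {P : Fin 4 → E → G →L[ℝ] F} {g h : E → Fin 4 → Fin 4 → ℝ}
    (D : DiracOn U A B P g h) {x0 : E} {R : ℝ} (hR : closedBall x0 R ⊆ U) {M : ℝ}
    (hM1 : 1 ≤ M) (hMg : ∀ x ∈ closedBall x0 R, ∀ i j, |g x i j| ≤ M)
    (hMQ : ∀ x ∈ closedBall x0 R, ∀ z, ‖z‖ ^ 2 ≤ M * QQ (g x) z)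
    (hMP : ∀ x ∈ closedBall x0 R, ∀ i, ‖P i x‖ ≤ M)
    (hMD : ∀ x ∈ closedBall x0 R, ‖Dop A B x‖ ≤ M)
    (hMA : ∀ x ∈ closedBall x0 R, ∀ j, ‖A j x‖ ≤ M)
    (hML : ∀ x ∈ closedBall x0 R, ∀ y ∈ closedBall x0 R, ∀ j, ‖A j x - A j y‖ ≤ M * ‖x - y‖)
    {r : ℝ} (hr : 0 < r) (hrR : r ≤ R) (φ : ContDiffBump x0) (hφ1 : φ.rIn = r / 2)
    (hφ2 : φ.rOut = 3 * r / 4) {Cφ : ℝ} (hCφ : ∀ x, ‖fderiv ℝ φ x‖ ≤ Cφ)
    (a : E → F) (ha : ContDiffOn ℝ 1 a U) {y : E} (hy : y ∈ ball x0 r) :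
    ‖φ y • a y‖ₑ ≤ TT (ENNReal.ofReal (cst M)) (ball x0 r)
      (fun x => ‖φ x • a x‖ₑ + (‖Lop A B a x‖ₑ
        + (ball x0 (r / 2))ᶜ.indicator (fun _ => ENNReal.ofReal (4 * Cφ * M)) x * ‖a x‖ₑ)) y := by
  have hts : tsupport φ = closedBall x0 (3 * r / 4) := by rw [φ.tsupport_eq, hφ2]
  have hsub1 : closedBall x0 (3 * r / 4) ⊆ ball x0 r := closedBall_subset_ball (by linarith)
  have hsub2 : ball x0 r ⊆ closedBall x0 R :=
    (ball_subset_ball hrR).trans ball_subset_closedBall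
  set w : E → F := fun z => φ z • a z with hw
  have htw : tsupport w ⊆ closedBall x0 (3 * r / 4) := by
    rw [← hts]
    refine closure_mono ?_
    intro z hz hz'
    exact hz (by simp [hw, hz'])
  have φd : ContDiff ℝ 1 (φ : E → ℝ) := φ.contDiff
  have aU : ∀ x ∈ U, ContDiffAt ℝ 1 a x := fun x hx => ha.contDiffAt (hU.mem_nhds hx)
  have cw : ContDiff ℝ 1 w := by
    refine contDiff_of_tsupp fun x hx => ?_
    exact φd.contDiffAt.smul (aU x (hR (hsub2 (hsub1 (htw hx)))))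
  have sw : HasCompactSupport w := by
    refine HasCompactSupport.intro (isCompact_closedBall x0 (3 * r / 4)) fun x hx => ?_
    exact image_eq_zero_of_notMem_tsupport fun h => hx (htw h)
  have hyR : y ∈ closedBall x0 R := hsub2 hy
  have main := point_ineq (g y) (h y) (D.symm y (hR hyR)) (D.inv y (hR hyR))
    (fun i => P i y) A B y (D.cliff y (hR hyR)) hM1 (hMg y hyR) (hMQ y hyR) (hMP y hyR) w cw sw
    (fun j x hx => (D.hA j).contDiffAt (hU.mem_nhds (hR (hsub2 (hsub1 (htw hx))))))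
    (fun x hx => hMD x (hsub2 (hsub1 (htw hx))))
    (fun x hx j => hML x (hsub2 (hsub1 (htw hx))) y hyR j)
  rw [ofReal_norm] at main
  refine main.trans ?_
  unfold TT
  gcongr ENNReal.ofReal (cst M) * ?_
  rw [← lintegral_indicator measurableSet_ball]
  refine lintegral_mono fun x => ?_
  by_cases hx : x ∈ ball x0 r
  · rw [indicator_of_mem hx, ENNReal.ofReal_mul (by positivity)]
    change kk x y * _ ≤ _
    gcongr kk x y * ?_
    rw [ENNReal.ofReal_add (by positivity) (by positivity), ofReal_norm, ofReal_norm]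
    refine add_le_add (le_of_eq rfl) ?_
    have hxU : x ∈ U := hR (hsub2 hx)
    have e1 := Lop_smul A B φ a x (φd.differentiable (by norm_num) x)
      ((aU x hxU).differentiableAt (by norm_num))
    rw [show w = fun z => φ z • a z from rfl, e1]
    refine (enorm_add_le _ _).trans (add_le_add ?_ ?_)
    · rw [← ofReal_norm, ← ofReal_norm, norm_smul]
      refine ENNReal.ofReal_le_ofReal ?_
      rw [Real.norm_of_nonneg φ.nonneg]
      exact mul_le_of_le_one_left (norm_nonneg _) φ.le_one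
    · by_cases hx2 : x ∈ ball x0 (r / 2)
      · have h0 : fderiv ℝ φ x = 0 := by
          have h1 : (φ : E → ℝ) =ᶠ[𝓝 x] 1 := φ.eventuallyEq_one_of_mem_ball (by rwa [hφ1])
          rw [h1.fderiv_eq]
          exact fderiv_const_apply (1 : ℝ)
        simp [h0]
      · rw [indicator_of_mem (by exact hx2)]
        have hCφ0 : 0 ≤ Cφ := (norm_nonneg _).trans (hCφ x)
        rw [← ofReal_norm, ← ofReal_norm, ← ENNReal.ofReal_mul (by positivity)]
        refine ENNReal.ofReal_le_ofReal ?_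
        exact comm_le A (fderiv ℝ φ x) x (a x) (hCφ x) (hMA x (hsub2 hx))
  · rw [indicator_of_notMem hx]
    have hx2 : x ∉ tsupport w := fun h => hx (hsub1 (htw h))
    have h0 : w x = 0 := image_eq_zero_of_notMem_tsupport hx2
    have h1 : fderiv ℝ w x = 0 := fderiv_zero_of_notMem w x hx2
    simp [Lop, h0, h1]

/-- the operator applied to a `C¹` function is continuous -/
lemma continuousOn_Lop {U : Set E} (hU : IsOpen U) {A : Fin 4 → E → F →L[ℝ] G}
    {B : E → F →L[ℝ] G} {P : Fin 4 → E → G →L[ℝ] F} {g h : E → Fin 4 → Fin 4 → ℝ}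
    (D : DiracOn U A B P g h) (a : E → F) (ha : ContDiffOn ℝ 1 a U) :
    ContinuousOn (Lop A B a) U := by
  unfold Lop
  refine ContinuousOn.add (continuousOn_finsetSum _ fun j _ => ?_) ?_
  · refine (D.hA j).continuousOn.clm_apply ?_
    exact (ha.continuousOn_fderiv_of_isOpen hU (by norm_num)).clm_apply continuousOn_const
  · exact D.hB.clm_apply ha.continuousOn

/-- arithmetic of the final constant -/
lemma final_arith (Φ N κ c V D4 I : ℝ≥0∞) (hI : I ≤ Φ * V + c * N) :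
    2 * (16⁻¹ * Φ) + 2 * (κ * c * N + 16 * κ * I) * D4
      ≤ (2 + (32 * κ * V + 34 * κ * c) * D4) * (Φ + N) := by
  calc 2 * (16⁻¹ * Φ) + 2 * (κ * c * N + 16 * κ * I) * D4
      ≤ 2 * (1 * Φ) + 2 * (κ * c * N + 16 * κ * (Φ * V + c * N)) * D4 := by
        gcongr
        rw [ENNReal.inv_le_one]
        norm_num
    _ = 2 * Φ + (32 * κ * V) * D4 * Φ + (34 * κ * c) * D4 * N := by ring
    _ ≤ 2 * Φ + (32 * κ * V) * D4 * Φ + (34 * κ * c) * D4 * N
        + (2 * N + (32 * κ * V) * D4 * N + (34 * κ * c) * D4 * Φ) := le_self_add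
    _ = _ := by ring

/-- **Local sup bound.** -/
theorem local_sup [CompleteSpace F] {U : Set E} (hU : IsOpen U) {A : Fin 4 → E → F →L[ℝ] G}
    {B : E → F →L[ℝ] G} {P : Fin 4 → E → G →L[ℝ] F} {g h : E → Fin 4 → Fin 4 → ℝ}
    (D : DiracOn U A B P g h) {x0 : E} (hx0 : x0 ∈ U) :
    ∃ δ > 0, ball x0 δ ⊆ U ∧ ∃ C : ℝ≥0∞, C ≠ ∞ ∧
      ∀ (a : ℕ → E → F) (a' : E → F) (f : E → G) (Φ : ℝ≥0∞),
      (∀ n, ContDiffOn ℝ 1 (a n) U) → AEStronglyMeasurable a' (volume.restrict U) →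
      AEStronglyMeasurable f (volume.restrict U) →
      Tendsto (fun n => ∫⁻ x in U, ‖a n x - a' x‖ₑ) atTop (𝓝 0) →
      Tendsto (fun n => ∫⁻ x in U, ‖Lop A B (a n) x - f x‖ₑ) atTop (𝓝 0) →
      (∀ᵐ x ∂(volume.restrict U), ‖f x‖ₑ ≤ Φ) →
      ∀ᵐ x ∂(volume.restrict (ball x0 δ)), ‖a' x‖ₑ ≤ C * (Φ + ∫⁻ x in U, ‖a' x‖ₑ) := by
  obtain ⟨R, hR0, hR⟩ := nhds_basis_closedBall.mem_iff.1 (hU.mem_nhds hx0)
  obtain ⟨M, hM1, hMg, hMQ, hMP, hMD, hMA, hML⟩ := exists_consts hU D hR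
  have hM0 : 0 < M := by linarith
  have hJ := JJ_pos
  have hcst : 0 ≤ cst M := by unfold cst; positivity
  have hc4 := c4_nonneg
  set r : ℝ := min R (1 / (32 * (cst M * c4 + 1))) with hr
  have hr0 : 0 < r := lt_min hR0 (by positivity)
  have hrR : r ≤ R := min_le_left _ _
  have hsmall : cst M * (c4 * (2 * r)) ≤ 1 / 16 := by
    have h1 : r ≤ 1 / (32 * (cst M * c4 + 1)) := min_le_right _ _
    have h2 : 0 ≤ cst M * c4 := by positivity
    calc cst M * (c4 * (2 * r)) = 2 * (cst M * c4) * r := by ring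
      _ ≤ 2 * (cst M * c4 + 1) * (1 / (32 * (cst M * c4 + 1))) := by gcongr; linarith
      _ = 1 / 16 := by field_simp; norm_num
  set κ : ℝ≥0∞ := ENNReal.ofReal (cst M) with hκ
  have hs : κ * ENNReal.ofReal (c4 * (2 * r)) ≤ 16⁻¹ := by
    rw [hκ, ← ENNReal.ofReal_mul hcst]
    calc ENNReal.ofReal (cst M * (c4 * (2 * r))) ≤ ENNReal.ofReal (1 / 16) :=
          ENNReal.ofReal_le_ofReal hsmall
      _ = 16⁻¹ := by
          rw [one_div, ENNReal.ofReal_inv_of_pos (by norm_num)]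
          norm_num
  set φ : ContDiffBump x0 := ⟨r / 2, 3 * r / 4, by positivity, by linarith⟩ with hφ
  obtain ⟨Cφ, hCφ⟩ : ∃ C, ∀ x, ‖fderiv ℝ φ x‖ ≤ C := by
    have h1 : Continuous fun x => fderiv ℝ φ x :=
      (φ.contDiff (n := 1)).continuous_fderiv (by norm_num)
    exact h1.bounded_above_of_compact_support (φ.hasCompactSupport.fderiv (𝕜 := ℝ))
  set S := ball x0 r with hS
  have hsub2 : S ⊆ U := (ball_subset_ball hrR).trans (ball_subset_closedBall.trans hR)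
  have hhalf : ball x0 (r / 2) ⊆ S := ball_subset_ball (by linarith)
  set c : ℝ≥0∞ := ENNReal.ofReal (4 * Cφ * M) with hc
  set χ : E → ℝ≥0∞ := (ball x0 (r / 2))ᶜ.indicator (fun _ => c) with hχ
  have hχm : Measurable χ := measurable_const.indicator measurableSet_ball.compl
  have hχc : ∀ x, χ x ≤ c := fun x => indicator_le_self _ _ x
  set D4 : ℝ≥0∞ := ENNReal.ofReal (((r / 4) ^ 3)⁻¹) with hD4
  refine ⟨r / 4, by positivity, (ball_subset_ball (by linarith)).trans hsub2,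
    2 + (32 * κ * volume S + 34 * κ * c) * D4, ?_, ?_⟩
  · have hV : volume S ≠ ∞ := measure_ball_lt_top.ne
    have h1 : κ ≠ ∞ := ENNReal.ofReal_ne_top
    have h2 : c ≠ ∞ := ENNReal.ofReal_ne_top
    have h3 : D4 ≠ ∞ := ENNReal.ofReal_ne_top
    finiteness
  intro a a' f Φ ha ma' mf lima limf hf
  set N : ℝ≥0∞ := ∫⁻ x in U, ‖a' x‖ₑ with hN
  by_cases hNtop : N = ∞
  · refine Eventually.of_forall fun x => ?_
    rw [hNtop]
    have : (2 + (32 * κ * volume S + 34 * κ * c) * D4) * (Φ + ∞) = ∞ := by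
      rw [add_top]
      refine ENNReal.mul_top ?_
      simp
    rw [this]
    exact le_top
  -- restriction to the ball
  have ma'S : AEStronglyMeasurable a' (volume.restrict S) :=
    ma'.mono_measure (Measure.restrict_mono hsub2 le_rfl)
  have mfS : AEStronglyMeasurable f (volume.restrict S) :=
    mf.mono_measure (Measure.restrict_mono hsub2 le_rfl)
  have maS : ∀ n, AEStronglyMeasurable (a n) (volume.restrict S) := fun n =>
    ((ha n).continuousOn.mono hsub2).aestronglyMeasurable measurableSet_ball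
  have mLS : ∀ n, AEStronglyMeasurable (Lop A B (a n)) (volume.restrict S) := fun n =>
    ((continuousOn_Lop hU D (a n) (ha n)).mono hsub2).aestronglyMeasurable measurableSet_ball
  have mφ : AEStronglyMeasurable (fun x => φ x) (volume.restrict S) :=
    (φ.contDiff (n := 1)).continuous.aestronglyMeasurable
  have NS : ∫⁻ x in S, ‖a' x‖ₑ ≤ N := lintegral_mono_set hsub2
  -- the functions
  set u : E → ℝ≥0∞ := fun x => ‖φ x • a' x‖ₑ with hu
  have mu : AEMeasurable u (volume.restrict S) := (mφ.smul ma'S).enorm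
  set h0 : E → ℝ≥0∞ := fun x => Φ + χ x * ‖a' x‖ₑ with hh0
  have mh0 : AEMeasurable h0 (volume.restrict S) :=
    aemeasurable_const.add (hχm.aemeasurable.mul ma'S.enorm)
  set hh : E → ℝ≥0∞ := TT κ S h0 with hhh
  have mhh : Measurable hh := measurable_TT_ae κ S mh0
  set ε : ℕ → E → ℝ≥0∞ := fun n x => ‖a n x - a' x‖ₑ with hε
  have mε : ∀ n, AEMeasurable (ε n) (volume.restrict S) := fun n => ((maS n).sub ma'S).enorm
  set η : ℕ → E → ℝ≥0∞ := fun n x => ‖Lop A B (a n) x - f x‖ₑ with hη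
  have mη : ∀ n, AEMeasurable (η n) (volume.restrict S) := fun n => ((mLS n).sub mfS).enorm
  set er : ℕ → E → ℝ≥0∞ := fun n x => ε n x + (η n x + c * ε n x) with her
  have mer : ∀ n, AEMeasurable (er n) (volume.restrict S) := fun n =>
    (mε n).add ((mη n).add ((mε n).const_mul c))
  have φle : ∀ (x : E) (v : F), ‖φ x • v‖ₑ ≤ ‖v‖ₑ := fun x v => by
    rw [← ofReal_norm, ← ofReal_norm, norm_smul]
    refine ENNReal.ofReal_le_ofReal ?_
    rw [Real.norm_of_nonneg φ.nonneg]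
    exact mul_le_of_le_one_left (norm_nonneg _) φ.le_one
  have ule : ∀ x, u x ≤ ‖a' x‖ₑ := fun x => φle x _
  -- the integral inequality for `u` with an error
  have hfS : ∀ᵐ x ∂(volume.restrict S), ‖f x‖ₑ ≤ Φ := ae_restrict_of_ae_restrict_of_subset hsub2 hf
  have ineq : ∀ n, ∀ᵐ y ∂(volume.restrict S),
      u y ≤ (hh y + TT κ S u y) + (ε n y + TT κ S (er n) y) := by
    intro n
    filter_upwards [ae_restrict_mem measurableSet_ball] with y hy
    have h1 := pre_limit hU D hR hM1 hMg hMQ hMP hMD hMA hML hr0 hrR φ rfl rfl hCφ (a n) (ha n) hy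
    have h2 : ∀ x, ‖φ x • a n x‖ₑ ≤ u x + ε n x := by
      intro x
      have : φ x • a n x = φ x • a' x + φ x • (a n x - a' x) := by
        rw [← smul_add]; congr 1; abel
      rw [this]
      exact (enorm_add_le _ _).trans (add_le_add le_rfl (φle x _))
    have h3 : ∀ᵐ x ∂(volume.restrict S), ‖φ x • a n x‖ₑ + (‖Lop A B (a n) x‖ₑ
        + χ x * ‖a n x‖ₑ) ≤ h0 x + (u x + er n x) := by
      filter_upwards [hfS] with x hx
      have e1 : ‖Lop A B (a n) x‖ₑ ≤ Φ + η n x := by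
        have : Lop A B (a n) x = f x + (Lop A B (a n) x - f x) := by abel
        rw [this]
        exact (enorm_add_le _ _).trans (add_le_add hx le_rfl)
      have e2 : χ x * ‖a n x‖ₑ ≤ χ x * ‖a' x‖ₑ + c * ε n x := by
        have : a n x = a' x + (a n x - a' x) := by abel
        calc χ x * ‖a n x‖ₑ ≤ χ x * (‖a' x‖ₑ + ε n x) := by
              gcongr
              nth_rewrite 1 [this]
              exact enorm_add_le _ _
          _ = χ x * ‖a' x‖ₑ + χ x * ε n x := mul_add _ _ _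
          _ ≤ χ x * ‖a' x‖ₑ + c * ε n x := by
              gcongr
              exact hχc x
      calc ‖φ x • a n x‖ₑ + (‖Lop A B (a n) x‖ₑ + χ x * ‖a n x‖ₑ)
          ≤ (u x + ε n x) + ((Φ + η n x) + (χ x * ‖a' x‖ₑ + c * ε n x)) :=
            add_le_add (h2 x) (add_le_add e1 e2)
        _ = h0 x + (u x + er n x) := by simp only [hh0, her]; ring
    have h4 : ‖φ y • a n y‖ₑ ≤ hh y + (TT κ S u y + TT κ S (er n) y) := by
      refine h1.trans ((TT_mono κ S h3 y).trans ?_)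
      rw [TT_add_ae κ S mh0, TT_add_ae κ S mu]
    have h5 : u y ≤ ‖φ y • a n y‖ₑ + ε n y := by
      have : φ y • a' y = φ y • a n y + φ y • (a' y - a n y) := by
        rw [← smul_add]; congr 1; abel
      calc u y = ‖φ y • a n y + φ y • (a' y - a n y)‖ₑ := by rw [← this]
        _ ≤ ‖φ y • a n y‖ₑ + ‖φ y • (a' y - a n y)‖ₑ := enorm_add_le _ _
        _ ≤ ‖φ y • a n y‖ₑ + ‖a' y - a n y‖ₑ := by gcongr; exact φle y _
        _ = ‖φ y • a n y‖ₑ + ε n y := by rw [enorm_sub_rev]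
    calc u y ≤ ‖φ y • a n y‖ₑ + ε n y := h5
      _ ≤ (hh y + (TT κ S u y + TT κ S (er n) y)) + ε n y := by gcongr
      _ = _ := by ring
  -- the limit
  have hle : ∀ᵐ y ∂(volume.restrict S), u y ≤ hh y + TT κ S u y := by
    refine ae_le_of_tendsto mu (mhh.add (measurable_TT_ae κ S mu)).aemeasurable
      (fun n y => ε n y + TT κ S (er n) y) ineq ?_
    have l1 : ∀ n, ∫⁻ y in S, (ε n y + TT κ S (er n) y)
        ≤ (∫⁻ y in U, ε n y) + 16⁻¹ * ((∫⁻ y in U, ε n y)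
          + ((∫⁻ y in U, η n y) + c * ∫⁻ y in U, ε n y)) := by
      intro n
      rw [lintegral_add_right _ (measurable_TT_ae κ S (mer n))]
      refine add_le_add (lintegral_mono_set hsub2) ?_
      refine (lint_TT_ae κ x0 hr0 (mer n)).trans ?_
      refine mul_le_mul' hs ?_
      simp only [her]
      rw [lintegral_add_left' (mε n), lintegral_add_left' (mη n), lintegral_const_mul'' _ (mε n)]
      exact add_le_add (lintegral_mono_set hsub2) (add_le_add (lintegral_mono_set hsub2)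
        (mul_le_mul' le_rfl (lintegral_mono_set hsub2)))
    have l2 : Tendsto (fun n => (∫⁻ y in U, ε n y) + 16⁻¹ * ((∫⁻ y in U, ε n y)
          + ((∫⁻ y in U, η n y) + c * ∫⁻ y in U, ε n y))) atTop (𝓝 0) := by
      have h1 : Tendsto (fun n => c * ∫⁻ y in U, ε n y) atTop (𝓝 0) := by
        have := ENNReal.Tendsto.const_mul lima (Or.inr (ENNReal.ofReal_ne_top : c ≠ ∞))
        simpa using this
      have h2 := lima.add (limf.add h1)
      have h3 := ENNReal.Tendsto.const_mul h2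
        (Or.inr (by simp : (16 : ℝ≥0∞)⁻¹ ≠ ∞))
      have h4 := lima.add h3
      simpa using h4
    exact tendsto_of_tendsto_of_tendsto_of_le_of_le tendsto_const_nhds l2 (fun _ => bot_le) l1
  -- integrability of `u`
  have hui : ∫⁻ x in S, u x ≠ ∞ := by
    refine ne_top_of_le_ne_top hNtop ?_
    exact (lintegral_mono ule).trans NS
  -- bound of `hh` in the half ball
  have hhb : ∀ y ∈ ball x0 (r / 2), hh y ≤ 16⁻¹ * Φ + (κ * c * N) * DD x0 r y := by
    intro y hy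
    have p1 : ∀ x, kk x y * h0 x ≤ kk x y * Φ + (c * DD x0 r y) * ‖a' x‖ₑ := by
      intro x
      simp only [hh0, mul_add]
      refine add_le_add le_rfl ?_
      by_cases hx : x ∈ ball x0 (r / 2)
      · have : χ x = 0 := by simp [hχ, hx]
        simp [this]
      · have e1 : χ x = c := indicator_of_mem (by exact hx) _
        have e2 := kk_le_DD x0 hx hy
        rw [e1]
        calc kk x y * (c * ‖a' x‖ₑ) ≤ DD x0 r y * (c * ‖a' x‖ₑ) := by gcongr
          _ = _ := by ring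
    calc hh y = κ * ∫⁻ x in S, kk x y * h0 x := rfl
      _ ≤ κ * ∫⁻ x in S, (kk x y * Φ + (c * DD x0 r y) * ‖a' x‖ₑ) := by
          gcongr with x
          exact p1 x
      _ = κ * ((∫⁻ x in S, kk x y) * Φ + (c * DD x0 r y) * ∫⁻ x in S, ‖a' x‖ₑ) := by
          rw [lintegral_add_left ((measurable_kkl y).mul_const _),
            lintegral_mul_const _ (measurable_kkl y), lintegral_const_mul'' _ ma'S.enorm]
      _ ≤ κ * (ENNReal.ofReal (c4 * (2 * r)) * Φ + (c * DD x0 r y) * N) := by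
          gcongr
          exact lint_ball_le x0 hr0 (hhalf hy)
      _ = (κ * ENNReal.ofReal (c4 * (2 * r))) * Φ + (κ * c * N) * DD x0 r y := by ring
      _ ≤ 16⁻¹ * Φ + (κ * c * N) * DD x0 r y := by gcongr
  -- the iteration
  have it := iterate_bound_ae x0 hr0 κ hs mu mhh hui hle (16⁻¹ * Φ) (κ * c * N) hhb
  have hI : ∫⁻ x in S, hh x ≤ Φ * volume S + c * N := by
    calc ∫⁻ x in S, hh x ≤ κ * ENNReal.ofReal (c4 * (2 * r)) * ∫⁻ x in S, h0 x :=
          lint_TT_ae κ x0 hr0 mh0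
      _ ≤ 1 * ∫⁻ x in S, (Φ + c * ‖a' x‖ₑ) := by
          refine mul_le_mul' (hs.trans ?_) (lintegral_mono fun x => ?_)
          · rw [ENNReal.inv_le_one]; norm_num
          · simp only [hh0]
            gcongr
            exact hχc x
      _ = Φ * volume S + c * ∫⁻ x in S, ‖a' x‖ₑ := by
          rw [one_mul, lintegral_add_left measurable_const, lintegral_const_mul'' _ ma'S.enorm]
          simp
      _ ≤ Φ * volume S + c * N := by gcongr
  have hq : ball x0 (r / 4) ⊆ ball x0 (r / 2) := ball_subset_ball (by linarith)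
  filter_upwards [ae_restrict_of_ae_restrict_of_subset hq it, ae_restrict_mem measurableSet_ball]
    with y hy hyb
  have hφy : φ y = 1 := φ.one_of_mem_closedBall (by
    have h1 := ball_subset_closedBall (hq hyb)
    exact h1)
  have huy : u y = ‖a' y‖ₑ := by simp [hu, hφy]
  have hDy : DD x0 r y ≤ D4 := by
    unfold DD
    rw [hD4]
    refine ENNReal.ofReal_le_ofReal ?_
    have : r / 4 ≤ r / 2 - ‖y - x0‖ := by
      rw [mem_ball, dist_eq_norm] at hyb; linarith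
    gcongr
  rw [← huy]
  refine hy.trans (le_trans ?_ (final_arith Φ N κ c (volume S) D4 (∫⁻ x in S, hh x) hI))
  gcongr

/-- **SUPA, extended form.** Sup bound on a compact subset `K` of `U` for `L¹` limits. -/
theorem sup_bound_enorm [CompleteSpace F] {U : Set E} (hU : IsOpen U)
    {A : Fin 4 → E → F →L[ℝ] G} {B : E → F →L[ℝ] G} {P : Fin 4 → E → G →L[ℝ] F}
    {g h : E → Fin 4 → Fin 4 → ℝ} (D : DiracOn U A B P g h) {K : Set E} (hK : IsCompact K)
    (hKU : K ⊆ U) :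
    ∃ C : ℝ≥0∞, C ≠ ∞ ∧ ∀ (a : ℕ → E → F) (a' : E → F) (f : E → G) (Φ : ℝ≥0∞),
      (∀ n, ContDiffOn ℝ 1 (a n) U) → AEStronglyMeasurable a' (volume.restrict U) →
      AEStronglyMeasurable f (volume.restrict U) →
      Tendsto (fun n => ∫⁻ x in U, ‖a n x - a' x‖ₑ) atTop (𝓝 0) →
      Tendsto (fun n => ∫⁻ x in U, ‖Lop A B (a n) x - f x‖ₑ) atTop (𝓝 0) →
      (∀ᵐ x ∂(volume.restrict U), ‖f x‖ₑ ≤ Φ) →
      ∀ᵐ x ∂(volume.restrict K), ‖a' x‖ₑ ≤ C * (Φ + ∫⁻ x in U, ‖a' x‖ₑ) := by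
  refine hK.induction_on (p := fun s => ∃ C : ℝ≥0∞, C ≠ ∞ ∧
      ∀ (a : ℕ → E → F) (a' : E → F) (f : E → G) (Φ : ℝ≥0∞),
      (∀ n, ContDiffOn ℝ 1 (a n) U) → AEStronglyMeasurable a' (volume.restrict U) →
      AEStronglyMeasurable f (volume.restrict U) →
      Tendsto (fun n => ∫⁻ x in U, ‖a n x - a' x‖ₑ) atTop (𝓝 0) →
      Tendsto (fun n => ∫⁻ x in U, ‖Lop A B (a n) x - f x‖ₑ) atTop (𝓝 0) →
      (∀ᵐ x ∂(volume.restrict U), ‖f x‖ₑ ≤ Φ) →
      ∀ᵐ x ∂(volume.restrict s), ‖a' x‖ₑ ≤ C * (Φ + ∫⁻ x in U, ‖a' x‖ₑ)) ?_ ?_ ?_ ?_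
  · exact ⟨0, by simp, fun a a' f Φ _ _ _ _ _ _ => by simp⟩
  · rintro s t hst ⟨C, hC, h⟩
    exact ⟨C, hC, fun a a' f Φ h1 h2 h3 h4 h5 h6 =>
      ae_restrict_of_ae_restrict_of_subset hst (h a a' f Φ h1 h2 h3 h4 h5 h6)⟩
  · rintro s t ⟨C, hC, h⟩ ⟨C', hC', h'⟩
    refine ⟨C + C', by finiteness, fun a a' f Φ h1 h2 h3 h4 h5 h6 => ?_⟩
    rw [ae_restrict_union_iff]
    constructor
    · filter_upwards [h a a' f Φ h1 h2 h3 h4 h5 h6] with x hx
      exact hx.trans (by gcongr; exact le_self_add)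
    · filter_upwards [h' a a' f Φ h1 h2 h3 h4 h5 h6] with x hx
      exact hx.trans (by gcongr; exact le_add_self)
  · intro x hx
    obtain ⟨δ, hδ, -, C, hC, h⟩ := local_sup hU D (hKU hx)
    exact ⟨ball x δ, mem_nhdsWithin_of_mem_nhds (ball_mem_nhds x hδ), C, hC, h⟩

/-- **SUPA.** Let `L = ∑ A_j ∂_j + B` be a first order operator of Dirac type over the open set
`U ⊆ ℝ⁴` with `C¹` symbol, and `K ⊆ U` compact. There is a constant `C` such that: if `a_n` are
`C¹` on `U`, `a_n → a'` and `L a_n → f` in `L¹(U)`, and `|f| ≤ Φ` a.e., then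
`|a'| ≤ C (Φ + ∫_U |a'|)` a.e. on `K`. -/
theorem sup_bound [CompleteSpace F] {U : Set E} (hU : IsOpen U)
    {A : Fin 4 → E → F →L[ℝ] G} {B : E → F →L[ℝ] G} {P : Fin 4 → E → G →L[ℝ] F}
    {g h : E → Fin 4 → Fin 4 → ℝ} (D : DiracOn U A B P g h) {K : Set E} (hK : IsCompact K)
    (hKU : K ⊆ U) :
    ∃ C : ℝ, 0 ≤ C ∧ ∀ (a : ℕ → E → F) (a' : E → F) (f : E → G) (Φ : ℝ), 0 ≤ Φ →
      (∀ n, ContDiffOn ℝ 1 (a n) U) → IntegrableOn a' U → AEStronglyMeasurable f (volume.restrict U) →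
      Tendsto (fun n => ∫⁻ x in U, ‖a n x - a' x‖ₑ) atTop (𝓝 0) →
      Tendsto (fun n => ∫⁻ x in U, ‖Lop A B (a n) x - f x‖ₑ) atTop (𝓝 0) →
      (∀ᵐ x ∂(volume.restrict U), ‖f x‖ ≤ Φ) →
      ∀ᵐ x ∂(volume.restrict K), ‖a' x‖ ≤ C * (Φ + ∫ x in U, ‖a' x‖) := by
  obtain ⟨C, hC, h⟩ := sup_bound_enorm hU D hK hKU
  refine ⟨C.toReal, ENNReal.toReal_nonneg, fun a a' f Φ hΦ h1 h2 h3 h4 h5 h6 => ?_⟩
  have h7 : ∀ᵐ x ∂(volume.restrict U), ‖f x‖ₑ ≤ ENNReal.ofReal Φ := by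
    filter_upwards [h6] with x hx
    rw [← ofReal_norm]
    exact ENNReal.ofReal_le_ofReal hx
  have h8 := h a a' f (ENNReal.ofReal Φ) h1 h2.aestronglyMeasurable h3 h4 h5 h7
  filter_upwards [h8] with x hx
  have e1 : ∫⁻ x in U, ‖a' x‖ₑ = ENNReal.ofReal (∫ x in U, ‖a' x‖) := by
    rw [ofReal_integral_norm_eq_lintegral_enorm h2]
  rw [e1, ← ENNReal.ofReal_add hΦ (by positivity), ← ofReal_norm] at hx
  have h9 : ENNReal.ofReal ‖a' x‖ ≤ ENNReal.ofReal (C.toReal * (Φ + ∫ x in U, ‖a' x‖)) := by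
    rw [ENNReal.ofReal_mul ENNReal.toReal_nonneg, ENNReal.ofReal_toReal hC]
    exact hx
  exact (ENNReal.ofReal_le_ofReal_iff (by positivity)).1 h9

end Crest.Agent.R235.SupC_260
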