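import Crest.Agent.R235.SupC_260

/-!
Row 235, package SW, node SUPA (4): `L²` and `C¹` forms of the local sup bound.
-/

namespace Crest.Agent.R235.SupD_260

open MeasureTheory Set Filter Topology Metric
open Crest.Agent.R235.SupA_260
open Crest.Agent.R235.SupC_260
open scoped ENNReal NNReal

variable {F G : Type*} [NormedAddCommGroup F] [NormedSpace ℝ F]
  [NormedAddCommGroup G] [NormedSpace ℝ G]

lemma lint_le_L2 {H : Type*} [NormedAddCommGroup H] {U : Set E} (f : E → H)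
    (hf : AEStronglyMeasurable f (volume.restrict U)) :
    ∫⁻ x in U, ‖f x‖ₑ ≤ eLpNorm f 2 (volume.restrict U) * (volume U) ^ (1 / 2 : ℝ) := by
  have h := eLpNorm_le_eLpNorm_mul_rpow_measure_univ (μ := volume.restrict U) (p := 1) (q := 2)
    (by norm_num) hf
  rw [eLpNorm_one_eq_lintegral_enorm] at h
  refine h.trans (le_of_eq ?_)
  congr 1
  rw [Measure.restrict_apply_univ]
  congr 1
  norm_num

/-- **SUPA, `L²` form.** -/
theorem sup_bound_L2 [CompleteSpace F] {U : Set E} (hU : IsOpen U) (hUf : volume U ≠ ∞)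
    {A : Fin 4 → E → F →L[ℝ] G} {B : E → F →L[ℝ] G} {P : Fin 4 → E → G →L[ℝ] F}
    {g h : E → Fin 4 → Fin 4 → ℝ} (D : DiracOn U A B P g h) {K : Set E} (hK : IsCompact K)
    (hKU : K ⊆ U) :
    ∃ C : ℝ≥0∞, C ≠ ∞ ∧ ∀ (a : ℕ → E → F) (a' : E → F) (f : E → G) (Φ : ℝ≥0∞),
      (∀ n, ContDiffOn ℝ 1 (a n) U) → AEStronglyMeasurable a' (volume.restrict U) →
      AEStronglyMeasurable f (volume.restrict U) →
      Tendsto (fun n => eLpNorm (fun x => a n x - a' x) 2 (volume.restrict U)) atTop (𝓝 0) →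
      Tendsto (fun n => eLpNorm (fun x => Lop A B (a n) x - f x) 2 (volume.restrict U))
        atTop (𝓝 0) →
      (∀ᵐ x ∂(volume.restrict U), ‖f x‖ₑ ≤ Φ) →
      ∀ᵐ x ∂(volume.restrict K), ‖a' x‖ₑ ≤ C * (Φ + eLpNorm a' 2 (volume.restrict U)) := by
  obtain ⟨C, hC, hmain⟩ := sup_bound_enorm hU D hK hKU
  set V : ℝ≥0∞ := (volume U) ^ (1 / 2 : ℝ) with hV
  have hVt : V ≠ ∞ := ENNReal.rpow_ne_top_of_nonneg (by norm_num) hUf
  refine ⟨C * (1 + V), by finiteness, fun a a' f Φ h1 h2 h3 h4 h5 h6 => ?_⟩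
  have m1 : ∀ n, AEStronglyMeasurable (a n) (volume.restrict U) := fun n =>
    (h1 n).continuousOn.aestronglyMeasurable hU.measurableSet
  have m2 : ∀ n, AEStronglyMeasurable (Lop A B (a n)) (volume.restrict U) := fun n =>
    (continuousOn_Lop hU D (a n) (h1 n)).aestronglyMeasurable hU.measurableSet
  have l1 : Tendsto (fun n => ∫⁻ x in U, ‖a n x - a' x‖ₑ) atTop (𝓝 0) := by
    have t : Tendsto (fun n => eLpNorm (fun x => a n x - a' x) 2 (volume.restrict U) * V)
        atTop (𝓝 0) := by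
      simpa using ENNReal.Tendsto.mul_const h4 (Or.inr hVt)
    exact tendsto_of_tendsto_of_tendsto_of_le_of_le tendsto_const_nhds t (fun _ => bot_le)
      fun n => lint_le_L2 (fun x => a n x - a' x) ((m1 n).sub h2)
  have l2 : Tendsto (fun n => ∫⁻ x in U, ‖Lop A B (a n) x - f x‖ₑ) atTop (𝓝 0) := by
    have t : Tendsto (fun n => eLpNorm (fun x => Lop A B (a n) x - f x) 2 (volume.restrict U) * V)
        atTop (𝓝 0) := by
      simpa using ENNReal.Tendsto.mul_const h5 (Or.inr hVt)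
    exact tendsto_of_tendsto_of_tendsto_of_le_of_le tendsto_const_nhds t (fun _ => bot_le)
      fun n => lint_le_L2 (fun x => Lop A B (a n) x - f x) ((m2 n).sub h3)
  filter_upwards [hmain a a' f Φ h1 h2 h3 l1 l2 h6] with x hx
  refine hx.trans ?_
  have h7 := lint_le_L2 a' h2
  set N := eLpNorm a' 2 (volume.restrict U) with hN
  calc C * (Φ + ∫⁻ x in U, ‖a' x‖ₑ) ≤ C * (Φ + N * V) := by gcongr
    _ ≤ C * ((Φ + N * V) + (N + Φ * V)) := mul_le_mul' le_rfl le_self_add
    _ = C * (1 + V) * (Φ + N) := by ring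

/-- **SUPA, `C¹` form.** -/
theorem sup_bound_C1 [CompleteSpace F] {U : Set E} (hU : IsOpen U)
    {A : Fin 4 → E → F →L[ℝ] G} {B : E → F →L[ℝ] G} {P : Fin 4 → E → G →L[ℝ] F}
    {g h : E → Fin 4 → Fin 4 → ℝ} (D : DiracOn U A B P g h) {K : Set E} (hK : IsCompact K)
    (hKU : K ⊆ U) :
    ∃ C : ℝ, 0 ≤ C ∧ ∀ (a : E → F) (Φ : ℝ), 0 ≤ Φ → ContDiffOn ℝ 1 a U → IntegrableOn a U →
      (∀ x ∈ U, ‖Lop A B a x‖ ≤ Φ) → ∀ x ∈ K, ‖a x‖ ≤ C * (Φ + ∫ x in U, ‖a x‖) := by
  obtain ⟨K', hK', hKK', hK'U⟩ := exists_compact_between hK hU hKU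
  obtain ⟨C, hC, hmain⟩ := sup_bound hU D hK' hK'U
  refine ⟨C, hC, fun a Φ hΦ h1 h2 h3 x hx => ?_⟩
  have m2 : AEStronglyMeasurable (Lop A B a) (volume.restrict U) :=
    (continuousOn_Lop hU D a h1).aestronglyMeasurable hU.measurableSet
  have h4 := hmain (fun _ => a) a (Lop A B a) Φ hΦ (fun _ => h1) h2 m2 (by simp) (by simp)
    ((ae_restrict_mem hU.measurableSet).mono fun x hx => h3 x hx)
  set b := C * (Φ + ∫ x in U, ‖a x‖) with hb
  by_contra hlt
  push Not at hlt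
  set O := interior K' ∩ {z | b < ‖a z‖} with hO
  have hOo : IsOpen O := by
    have hc : ContinuousOn (fun z => ‖a z‖) (interior K') :=
      (h1.continuousOn.mono (interior_subset.trans hK'U)).norm
    have := hc.isOpen_inter_preimage isOpen_interior (isOpen_Ioi (a := b))
    exact this
  have hxO : x ∈ O := ⟨hKK' hx, hlt⟩
  have hpos : 0 < volume O := hOo.measure_pos volume ⟨x, hxO⟩
  have hz : volume O = 0 := by
    have h5 : ∀ᵐ z ∂(volume.restrict O), ‖a z‖ ≤ b :=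
      ae_restrict_of_ae_restrict_of_subset (inter_subset_left.trans interior_subset) h4
    have h6 : ∀ᵐ z ∂(volume.restrict O), False := by
      filter_upwards [h5, ae_restrict_mem hOo.measurableSet] with z hz1 hz2
      exact absurd hz1 (not_le.2 hz2.2)
    have h7 : volume.restrict O = 0 := by
      rw [← ae_eq_bot]
      exact Filter.eventually_false_iff_eq_bot.1 h6
    simpa using congrArg (fun μ => μ univ) h7
  exact hpos.ne' hz

end Crest.Agent.R235.SupD_260
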