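import Crest.Agent.R235.Supb_433

/-!
# Row 235, SW (helper433): the general core of the sup bound

`supc` : `A u + c(a) i u = 0` weakly, `B a = b` weakly (`L²`), and
`|u|² > C0 → ⟨Q u, u⟩ + ∑ b_k ⟨ρ_k u, u⟩ > 0` a.e.  ==>  `|u|² ≤ C0` a.e.
(modulo `WtzH S`, the Weitzenboeck identity on `W^{1,2}`, task 335)
-/

set_option autoImplicit false
set_option linter.unusedSectionVars false
set_option maxSynthPendingDepth 3
open scoped ContDiff ENNReal NNReal Topology Manifold Bundle RealInnerProductSpace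
open MeasureTheory Set Filter Metric Bundle

universe v

noncomputable section
namespace Crest.Agent.R235.Supc_433

open Crest.Agent.R247.Dir593 Crest.Agent.R247.Ms322 Crest.Agent.R247.Frd657
open Crest.Agent.R249.Tv57 Crest.Agent.R235.Dens_433 Crest.Agent.R235.Fs4_546
open Crest.Agent.R235.Dns_433 Crest.Agent.R235.SWDefs_53 Crest.Agent.R235.W12_109
open Crest.Agent.R235.SupbA_433 Crest.Agent.R235.Supb_433

variable {M : Type v} [MetricSpace M] [CompactSpace M] [ConnectedSpace M]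
  [ChartedSpace (EuclideanSpace ℝ (Fin 4)) M] [IsManifold (𝓡 4) ∞ M]
  [RiemannianBundle (fun p : M => TangentSpace (𝓡 4) p)]
  [IsContMDiffRiemannianBundle (𝓡 4) ∞ (EuclideanSpace ℝ (Fin 4))
    (fun p : M => TangentSpace (𝓡 4) p)]
  [IsRiemannianManifold (𝓡 4) M] [MeasurableSpace M] [BorelSpace M]
  [SecondCountableTopology M] [Nonempty M] [IsFiniteMeasureOnCompacts (μHE[4] : Measure M)]
  {κ0 κ1 κT : Type} [Fintype κ0] [Fintype κ1] [Fintype κT] (S : SWS M κ0 κ1 κT)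

/-- the integrand of the Weitzenboeck identity for the test section -/
theorem wInt_tst (hOK : S.OK) {C0 : ℝ} (hC0 : 0 ≤ C0) (α : S.DT.toAD.WE) (U : S.D0.toAD.WE) :
    ∀ᵐ z ∂(μHE[4] : Measure M), ∃ G : ℝ, 0 ≤ G ∧
      wInt S α U (tst S.D0.toAD (rf_hh hC0) U) z = G + hh C0 (nsq fun b => rp U b z) *
        ((∑ y, ∑ y', S.D0.Q y y' z * rp U y' z * rp U y z) + ∑ k : Fin 3,
          (((Ah S.H.swap α : S.DL.toAD.HE) : HH (μHE[4] : Measure M) (Fin 4)) k.succ : M → ℝ) z *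
            S.rq k (rp U) z) := by
  filter_upwards [nabW_tst S hOK hC0 α U, coe_tst S.D0.toAD (rf_hh hC0) U] with z e1 e2
  obtain ⟨e1, e1'⟩ := e1
  set s := nsq fun b => rp U b z with hs
  set h := hh C0 s with hh0
  have hs0 : 0 ≤ s := nsq_nonneg _
  have hh1 : 0 ≤ h := hh_nonneg _ _
  have hh2 : 0 ≤ hh' C0 s := hh'_nonneg hC0 hs0
  have e2' : ∀ b, rp (tst S.D0.toAD (rf_hh hC0) U) b z = h * rp U b z := fun b => e2 b
  have hG : 0 ≤ ∑ y, (⟪nabW S α U y z, nabW S α (tst S.D0.toAD (rf_hh hC0) U) y z⟫ : ℝ) := by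
    simp only [e1]
    exact grad_nonneg hh1 hh2 e1'
  have hQe : ∑ y, ∑ y', S.D0.Q y y' z * rp U y' z * rp (tst S.D0.toAD (rf_hh hC0) U) y z =
      h * ∑ y, ∑ y', S.D0.Q y y' z * rp U y' z * rp U y z := by
    simp only [e2', Finset.mul_sum]
    exact Finset.sum_congr rfl fun y _ => Finset.sum_congr rfl fun y' _ => by ring
  have hre : ∀ k : Fin 3, ∑ y, ∑ y', S.rho k y y' z * rp U y z *
      rp (tst S.D0.toAD (rf_hh hC0) U) y' z = h * S.rq k (rp U) z := by
    intro k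
    simp only [SWS.rq, e2', Finset.mul_sum]
    exact Finset.sum_congr rfl fun y _ => Finset.sum_congr rfl fun y' _ => by ring
  refine ⟨_, hG, ?_⟩
  unfold wInt
  rw [hQe, mul_add, ← add_assoc]
  congr 1
  rw [Finset.mul_sum]
  exact Finset.sum_congr rfl fun k _ => by rw [hre k]; ring

/-- **SUPC** -/
theorem supc (hOK : S.OK) (hW : WtzH S) {C0 : ℝ} (hC0 : 0 ≤ C0) {a : κT → M → ℝ}
    {u : κ0 → M → ℝ} {b : Fin 4 → M → ℝ} (ha : InW S.DT a) (hu : InW S.D0 u)
    (hdir : WkA S.P u (fun x z => - S.cm a u x z)) (hb : WkA S.H.swap a b)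
    (hpos : ∀ᵐ z ∂(μHE[4] : Measure M), C0 < ∑ y, u y z ^ 2 →
      0 < (∑ y, ∑ y', S.D0.Q y y' z * u y' z * u y z) + ∑ k : Fin 3, b k.succ z * S.rq k u z) :
    ∀ᵐ z ∂(μHE[4] : Measure M), ∑ y, u y z ^ 2 ≤ C0 := by
  obtain ⟨α, hα⟩ := ha
  obtain ⟨U, hU⟩ := hu
  have hUe : ∀ᵐ z ∂(μHE[4] : Measure M), ∀ y, rp U y z = u y z := ae_all_iff.2 hU
  have hαe : ∀ᵐ z ∂(μHE[4] : Measure M), ∀ A, rp α A z = a A z := ae_all_iff.2 hα
  have hdz : ∀ᵐ z ∂(μHE[4] : Measure M), ∀ x, dirW S α U x z = 0 := by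
    filter_upwards [Ah_of_WkA S.P hdir U hU, hαe, hUe] with z e1 e2 e3 x
    unfold dirW
    rw [e1 x]
    have : S.cm (rp α) (rp U) x z = S.cm a u x z := by
      unfold SWS.cm
      exact Finset.sum_congr rfl fun A _ => Finset.sum_congr rfl fun y _ => by rw [e2 A, e3 y]
    rw [this]
    ring
  obtain ⟨hint, hid⟩ := hW α U (tst S.D0.toAD (rf_hh hC0) U)
  have hz : ∫ z, ∑ x, dirW S α U x z * dirW S α (tst S.D0.toAD (rf_hh hC0) U) x z
      ∂(μHE[4] : Measure M) = 0 := by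
    rw [integral_congr_ae (g := fun _ => (0:ℝ))]
    · simp
    · filter_upwards [hdz] with z e1
      exact Finset.sum_eq_zero fun x _ => by rw [e1 x, zero_mul]
  rw [hz] at hid
  -- nonnegativity, with the positive part
  have hlow : ∀ᵐ z ∂(μHE[4] : Measure M), 0 ≤ wInt S α U (tst S.D0.toAD (rf_hh hC0) U) z ∧
      (C0 < ∑ y, u y z ^ 2 → 0 < wInt S α U (tst S.D0.toAD (rf_hh hC0) U) z) := by
    filter_upwards [wInt_tst S hOK hC0 α U, Ah_of_WkA S.H.swap hb α hα, hUe, hpos]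
      with z e1 e2 e3 e4
    obtain ⟨G, hG, e1⟩ := e1
    have e5 : (nsq fun b => rp U b z) = ∑ y, u y z ^ 2 := by
      unfold nsq
      refine Finset.sum_congr rfl fun y _ => ?_
      show (rp U y z) ^ 2 = _
      rw [e3 y]
    have e6 : (∑ y, ∑ y', S.D0.Q y y' z * rp U y' z * rp U y z) + ∑ k : Fin 3,
          (((Ah S.H.swap α : S.DL.toAD.HE) : HH (μHE[4] : Measure M) (Fin 4)) k.succ : M → ℝ) z *
            S.rq k (rp U) z =
        (∑ y, ∑ y', S.D0.Q y y' z * u y' z * u y z) + ∑ k : Fin 3, b k.succ z * S.rq k u z := by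
      simp only [SWS.rq, e3]
      congr 1
      exact Finset.sum_congr rfl fun k _ => by rw [e2 k.succ]
    rw [e1, e6, e5]
    by_cases hs : C0 < ∑ y, u y z ^ 2
    · have h1 := mul_pos (hh_pos hC0 hs) (e4 hs)
      exact ⟨by linarith, fun _ => by linarith⟩
    · rw [hh_zero (not_lt.1 hs), zero_mul, add_zero]
      exact ⟨hG, fun h => absurd h hs⟩
  have hae := (integral_eq_zero_iff_of_nonneg_ae (hlow.mono fun z h => h.1) hint).1 hid.symm
  filter_upwards [hae, hlow] with z e1 e2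
  by_contra hcon
  have h1 := e2.2 (not_le.1 hcon)
  rw [e1] at h1
  exact lt_irrefl _ h1

end Crest.Agent.R235.Supc_433
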