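import Mathlib
import Crest.Agent.R240.Nsq

/-!
Row 235 (S0364), SWC-AN (helper34): pointwise algebra of covectors for a pair `(J, F)`:
`m1 c = 2 q(F, c ∧ Jc c) = |c|²`, complex covectors, `P = 2 Re η ∧ Im η` and its type decomposition
in terms of `ζ = η ∘ J - i η`.
-/

set_option autoImplicit false
set_option maxSynthPendingDepth 3

open Set Function Filter

namespace Crest.Agent.R235.SwcAlg_34

open Crest.Agent.R240 Crest.Agent.R240.Ns

noncomputable section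

/-- squared norm of a covector. -/
def m1 (J : E4 →L[ℝ] E4) (F : Bil) (c : E4 →L[ℝ] ℝ) : ℝ := 2 * q F F (wed c (Jc J c))

/-- squared norm of a complex covector. -/
def mC (J : E4 →L[ℝ] E4) (F : Bil) (c : E4 →L[ℝ] ℂ) : ℝ :=
  m1 J F (Complex.reCLM.comp c) + m1 J F (Complex.imCLM.comp c)

/-- sum of squares of the entries of a covector. -/
def S4 (c : E4 →L[ℝ] ℝ) : ℝ := c (ee 0) ^ 2 + c (ee 1) ^ 2 + c (ee 2) ^ 2 + c (ee 3) ^ 2

theorem S4_nonneg (c : E4 →L[ℝ] ℝ) : 0 ≤ S4 c := by unfold S4; positivity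

variable {J : E4 →L[ℝ] E4} {F : Bil} {A : E4 ≃L[ℝ] E4}

theorem m1_frame (hF : SPos J F) (hA : IsFrame J F A) (c : E4 →L[ℝ] ℝ) :
    m1 J F c = S4 (c.comp (A : E4 →L[ℝ] E4)) := by
  unfold m1
  rw [hA.q_eq hF.alt hF.alt (wed_alt _ _), hA.pull_form]
  have h1 : ∀ v, J (A v) = A (J0 v) := hA.cplx
  have e : ∀ i j : Fin 4, ent (pull (A : E4 →L[ℝ] E4) (wed c (Jc J c))) i j =
      c (A (ee i)) * (- c (A (J0 (ee j)))) - (- c (A (J0 (ee i)))) * c (A (ee j)) := by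
    intro i j
    unfold ent
    rw [pull_apply]
    simp only [ContinuousLinearEquiv.coe_coe, wed_apply, Jc_apply, h1]
  have o : ∀ i j : Fin 4, ent om0 i j = om0 (ee i) (ee j) := fun i j => rfl
  unfold W S4
  simp only [e, o, om0_apply, ee_apply, J0_ee0, J0_ee1, J0_ee2, J0_ee3, map_neg]
  simp
  ring

theorem m1_nonneg (hJ : ∀ v, J (J v) = -v) (hF : SPos J F) (c : E4 →L[ℝ] ℝ) : 0 ≤ m1 J F c := by
  obtain ⟨A, hA⟩ := exists_frame hJ hF
  rw [m1_frame hF hA]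
  exact S4_nonneg _

theorem S4_cs (c : E4 →L[ℝ] ℝ) (v : E4) : c v ^ 2 ≤ S4 c * ‖v‖ ^ 2 := by
  have h : c v = v 0 * c (ee 0) + v 1 * c (ee 1) + v 2 * c (ee 2) + v 3 * c (ee 3) := by
    conv_lhs => rw [sum_ee v]
    simp only [map_add, map_smul, smul_eq_mul]
  rw [h, norm_sq_E4]
  unfold S4
  generalize c (ee 0) = a
  generalize c (ee 1) = b
  generalize c (ee 2) = d
  generalize c (ee 3) = e
  generalize v 0 = p
  generalize v 1 = q
  generalize v 2 = r
  generalize v 3 = s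
  nlinarith [sq_nonneg (p * b - q * a), sq_nonneg (p * d - r * a), sq_nonneg (p * e - s * a),
    sq_nonneg (q * d - r * b), sq_nonneg (q * e - s * b), sq_nonneg (r * e - s * d)]

theorem m1_cs (hJ : ∀ v, J (J v) = -v) (hF : SPos J F) (c : E4 →L[ℝ] ℝ) (v : E4) :
    c v ^ 2 ≤ m1 J F c * F v (J v) := by
  obtain ⟨A, hA⟩ := exists_frame hJ hF
  rw [m1_frame hF hA]
  have h := S4_cs (c.comp (A : E4 →L[ℝ] E4)) (A.symm v)
  rw [← hA.normsq] at h
  simpa using h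

theorem mC_nonneg (hJ : ∀ v, J (J v) = -v) (hF : SPos J F) (c : E4 →L[ℝ] ℂ) : 0 ≤ mC J F c :=
  add_nonneg (m1_nonneg hJ hF _) (m1_nonneg hJ hF _)

theorem mC_cs (hJ : ∀ v, J (J v) = -v) (hF : SPos J F) (c : E4 →L[ℝ] ℂ) (v : E4) :
    ‖c v‖ ^ 2 ≤ mC J F c * F v (J v) := by
  have h1 := m1_cs hJ hF (Complex.reCLM.comp c) v
  have h2 := m1_cs hJ hF (Complex.imCLM.comp c) v
  rw [← Complex.normSq_eq_norm_sq, Complex.normSq_apply]
  simp only [ContinuousLinearMap.comp_apply, Complex.reCLM_apply, Complex.imCLM_apply] at h1 h2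
  unfold mC
  nlinarith

theorem N0_wed (a b : E4 →L[ℝ] ℝ) : N0 (wed a b) ≤ S4 a * S4 b := by
  unfold N0 S4 ent
  simp only [wed_apply]
  generalize a (ee 0) = a0
  generalize a (ee 1) = a1
  generalize a (ee 2) = a2
  generalize a (ee 3) = a3
  generalize b (ee 0) = b0
  generalize b (ee 1) = b1
  generalize b (ee 2) = b2
  generalize b (ee 3) = b3
  nlinarith [sq_nonneg (a0 * b0 + a1 * b1 + a2 * b2 + a3 * b3)]

theorem pull_wed (a b : E4 →L[ℝ] ℝ) (A : E4 →L[ℝ] E4) :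
    pull A (wed a b) = wed (a.comp A) (b.comp A) := by
  ext u v
  simp

theorem nsq_wed (hJ : ∀ v, J (J v) = -v) (hF : SPos J F) (a b : E4 →L[ℝ] ℝ) :
    nsq J F (wed a b) ≤ m1 J F a * m1 J F b / 2 := by
  obtain ⟨A, hA⟩ := exists_frame hJ hF
  rw [frame_nsq hF hA (wed_alt a b), m1_frame hF hA, m1_frame hF hA, pull_wed]
  have := N0_wed (a.comp (A : E4 →L[ℝ] E4)) (b.comp (A : E4 →L[ℝ] E4))
  linarith

/-- `|a ∧ b| ≤ |a||b|`. -/
theorem nr_wed (hJ : ∀ v, J (J v) = -v) (hF : SPos J F) (a b : E4 →L[ℝ] ℝ) :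
    nr J F (wed a b) ≤ √(m1 J F a) * √(m1 J F b) := by
  have h := nsq_wed hJ hF a b
  have ha := m1_nonneg hJ hF a
  have hb := m1_nonneg hJ hF b
  unfold nr
  rw [← Real.sqrt_mul ha]
  apply Real.sqrt_le_sqrt
  nlinarith [mul_nonneg ha hb]

theorem nr_add_le (hJ : ∀ v, J (J v) = -v) (hF : SPos J F) {b c : Bil} (hb : Alt b) (hc : Alt c) :
    nr J F (b + c) ≤ nr J F b + nr J F c := pn_add_le hJ hF hb hc

theorem nr_smul (J : E4 →L[ℝ] E4) (F : Bil) (r : ℝ) (b : Bil) :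
    nr J F (r • b) = |r| * nr J F b := pn_smul J F r b

theorem nr_zero (J : E4 →L[ℝ] E4) (F : Bil) : nr J F 0 = 0 := pn_zero J F

/-! ### the form `2 Re η ∧ Im η` -/

/-- `2 Re η ∧ Im η`. -/
def pf (η : E4 →L[ℝ] ℂ) : Bil := (2 : ℝ) • wed (Complex.reCLM.comp η) (Complex.imCLM.comp η)

theorem pf_apply (η : E4 →L[ℝ] ℂ) (u v : E4) :
    pf η u v = 2 * ((η u).re * (η v).im - (η u).im * (η v).re) := by
  show 2 * (wed (Complex.reCLM.comp η) (Complex.imCLM.comp η) u v) = _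
  rw [wed_apply]
  simp only [ContinuousLinearMap.comp_apply, Complex.reCLM_apply, Complex.imCLM_apply]

theorem pf_alt (η : E4 →L[ℝ] ℂ) : Alt (pf η) := by
  intro v; rw [pf_apply]; ring

theorem nr_pf (hJ : ∀ v, J (J v) = -v) (hF : SPos J F) (η : E4 →L[ℝ] ℂ) :
    nr J F (pf η) ≤ mC J F η := by
  unfold pf
  rw [nr_smul]
  have h := nr_wed hJ hF (Complex.reCLM.comp η) (Complex.imCLM.comp η)
  have ha := m1_nonneg hJ hF (Complex.reCLM.comp η)
  have hb := m1_nonneg hJ hF (Complex.imCLM.comp η)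
  have h1 := Real.sq_sqrt ha
  have h2 := Real.sq_sqrt hb
  unfold mC
  rw [abs_of_pos (by norm_num : (0 : ℝ) < 2)]
  nlinarith [sq_nonneg (√(m1 J F (Complex.reCLM.comp η)) - √(m1 J F (Complex.imCLM.comp η)))]

/-- the `(0,1)`-part. -/
def zt (J : E4 →L[ℝ] E4) (η : E4 →L[ℝ] ℂ) : E4 →L[ℝ] ℂ := η.comp J - Complex.I • η

theorem zt_apply (J : E4 →L[ℝ] E4) (η : E4 →L[ℝ] ℂ) (v : E4) :
    zt J η v = η (J v) - Complex.I * η v := by
  simp [zt]

theorem eta_J (J : E4 →L[ℝ] E4) (η : E4 →L[ℝ] ℂ) (v : E4) :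
    (η (J v)).re = (zt J η v).re - (η v).im ∧ (η (J v)).im = (zt J η v).im + (η v).re := by
  have h : η (J v) = zt J η v + Complex.I * η v := by rw [zt_apply]; ring
  rw [h]
  constructor <;> simp
  ring

/-- almost positivity. -/
theorem pf_pos (hJ : ∀ v, J (J v) = -v) (hF : SPos J F) (η : E4 →L[ℝ] ℂ) (v : E4) :
    - (mC J F (zt J η) / 2) * F v (J v) ≤ invp J (pf η) v (J v) := by
  have h := mC_cs hJ hF (zt J η) v
  obtain ⟨h1, h2⟩ := eta_J J η v
  rw [invp_apply, hJ, pf_apply, pf_apply]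
  simp only [map_neg, Complex.neg_re, Complex.neg_im]
  rw [h1, h2]
  rw [← Complex.normSq_eq_norm_sq, Complex.normSq_apply] at h
  generalize (η v).re = x at *
  generalize (η v).im = y at *
  generalize (zt J η v).re = a at *
  generalize (zt J η v).im = b at *
  nlinarith [sq_nonneg (2 * x + b), sq_nonneg (2 * y - a)]

/-- the anti-invariant part of `pf η`. -/
theorem antip_pf (η : E4 →L[ℝ] ℂ) :
    antip J (pf η) = -(wed (Complex.reCLM.comp (zt J η)) (Complex.imCLM.comp (zt J η)) +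
      (wed (Complex.reCLM.comp (zt J η)) (Complex.reCLM.comp η) +
        wed (Complex.imCLM.comp (zt J η)) (Complex.imCLM.comp η))) := by
  ext u v
  obtain ⟨h1, h2⟩ := eta_J J η u
  obtain ⟨h3, h4⟩ := eta_J J η v
  rw [antip_apply, pf_apply, pf_apply, h1, h2, h3, h4]
  simp only [neg_apply, add_apply, wed_apply, ContinuousLinearMap.comp_apply,
    Complex.reCLM_apply, Complex.imCLM_apply]
  ring

theorem nr_antip_pf (hJ : ∀ v, J (J v) = -v) (hF : SPos J F) (η : E4 →L[ℝ] ℂ) :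
    nr J F (antip J (pf η)) ≤ mC J F (zt J η) + 2 * (√(mC J F (zt J η)) * √(mC J F η)) := by
  rw [antip_pf]
  have n : ∀ b : Bil, nr J F (-b) = nr J F b := fun b => pn_neg J F b
  rw [n]
  set a := Complex.reCLM.comp (zt J η)
  set b := Complex.imCLM.comp (zt J η)
  set x := Complex.reCLM.comp η
  set y := Complex.imCLM.comp η
  have ha := m1_nonneg hJ hF a
  have hb := m1_nonneg hJ hF b
  have hx := m1_nonneg hJ hF x
  have hy := m1_nonneg hJ hF y
  have e1 := nr_wed hJ hF a b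
  have e2 := nr_wed hJ hF a x
  have e3 := nr_wed hJ hF b y
  have e4 := nr_add_le hJ hF (wed_alt a x) (wed_alt b y)
  have e5 : Alt (wed a x + wed b y) := fun v => by
    rw [add_apply, add_apply, wed_alt a x v, wed_alt b y v, add_zero]
  have e6 := nr_add_le hJ hF (wed_alt a b) e5
  have z : mC J F (zt J η) = m1 J F a + m1 J F b := rfl
  have w : mC J F η = m1 J F x + m1 J F y := rfl
  have s1 : √(m1 J F a) ≤ √(mC J F (zt J η)) := Real.sqrt_le_sqrt (by rw [z]; linarith)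
  have s2 : √(m1 J F b) ≤ √(mC J F (zt J η)) := Real.sqrt_le_sqrt (by rw [z]; linarith)
  have s3 : √(m1 J F x) ≤ √(mC J F η) := Real.sqrt_le_sqrt (by rw [w]; linarith)
  have s4 : √(m1 J F y) ≤ √(mC J F η) := Real.sqrt_le_sqrt (by rw [w]; linarith)
  have t1 : √(m1 J F a) * √(m1 J F b) ≤ mC J F (zt J η) := by
    have h1 := Real.sq_sqrt ha
    have h2 := Real.sq_sqrt hb
    rw [z]
    nlinarith [sq_nonneg (√(m1 J F a) - √(m1 J F b))]
  have t2 : √(m1 J F a) * √(m1 J F x) ≤ √(mC J F (zt J η)) * √(mC J F η) :=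
    mul_le_mul s1 s3 (Real.sqrt_nonneg _) (Real.sqrt_nonneg _)
  have t3 : √(m1 J F b) * √(m1 J F y) ≤ √(mC J F (zt J η)) * √(mC J F η) :=
    mul_le_mul s2 s4 (Real.sqrt_nonneg _) (Real.sqrt_nonneg _)
  linarith

end

end Crest.Agent.R235.SwcAlg_34
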