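import Crest.Agent.R235.SwcAn_34
import Crest.Agent.R235.SwcPtw_766
import Crest.Agent.R235.SwcLoc_924
import Crest.Agent.R235.SwcQch_125
import Crest.Agent.R235.SwcQlow_82
import Crest.Agent.R235.SwcBox_193
import Crest.Agent.R235.SwcGns_734
import Crest.Agent.R235.Dens5_181
import Crest.Agent.R235.SwcNear_915
import Crest.Agent.R235.SwcGradF_168
import Crest.Agent.R235.SwcBoxe_312
import Crest.Agent.R235.SwcPsid_370
import Crest.Agent.R235.SwcSlice_751

/-!
Row 235 (S0364), PACKAGE SWC-AN: everything except the positivity (helper358) is a theorem: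
`POSDOM → AN`, `POSDOM2 → AN`.  Assembly: helper924.
-/

set_option autoImplicit false

universe u

namespace Crest.Agent.R235.SwcAnF_924

open Crest.Agent.R235.SwcDefs_34 Crest.Agent.R235.SwcGlob_34

theorem box : BOX := SwcBox_193.box SwcPsid_370.psid
  (SwcNear_915.nearint (SwcSlice_751.slice SwcPsid_370.psid)) SwcGns_734.gns2 SwcGradF_168.gradf

theorem qim : QIM.{u} := qim_of (SwcQch_125.qch (SwcBoxe_312.boxe box)) (SwcQlow_82.qlow Dens5_181.dens)

theorem an_of_posdom (h : POSDOM.{u}) : AN.{u} :=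
  an_of SwcPtw_766.ptw h SwcLoc_924.locrep qim

theorem an_of_posdom2 (h : SwcAn_34.POSDOM2.{u}) : AN.{u} :=
  SwcAn_34.an_of2 SwcPtw_766.ptw h SwcLoc_924.locrep qim

end Crest.Agent.R235.SwcAnF_924
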