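import Crest.Agent.R235.SwcGlob_34
import Crest.Agent.R240.En4D

/-!
Row 235 (S0364), PACKAGE SWC-AN (helper34), assembly with `POSDOM2`: it is enough to prove POSDOM
for sequences with `OK` along `atTop`, `0 < r n`, and for SOME filter `U ≤ atTop` (reindexing).
-/

set_option autoImplicit false
set_option maxSynthPendingDepth 3

open Set Function Filter MeasureTheory Metric
open scoped Manifold ContDiff Topology

universe u

namespace Crest.Agent.R235.SwcAn_34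

open Crest.Agent.R240 Crest.Agent.R240.Ch Crest.Agent.R235 Crest.Agent.R235.SwcDefs_34
open Crest.Agent.R235.Swc Crest.Agent.R235.SwcGlob_34

noncomputable section

/-- **POSDOM2**: variant of POSDOM; the filter is chosen by the prover. -/
def POSDOM2 : Prop :=
  ∀ (M : Type u) [MetricSpace M] [CompactSpace M] [ChartedSpace E4 M]
    [IsManifold 𝓘(ℝ, E4) ∞ M] [MeasurableSpace M] [BorelSpace M] (D : Dat M) (N : ℕ)
    (Q : TSeq M N) (lam C : ℝ), Q.OK D atTop lam C → (∀ n, 0 < Q.r n) →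
    ∀ T : ℕ → X2 M, (∀ n, (T n : F2 E4 M) = Q.Psi n) →
    ∃ U : Filter ℕ, U ≤ atTop ∧ U.NeBot ∧ ∃ (S : X2 M →ₗ[ℝ] ℝ) (s : Measure M), Lim D U T S s ∧
      ∀ b : Z2 M, S b.1 = D.I ((Q.a0 0).1.1 : F2 E4 M) (b.1.1 : F2 E4 M)

variable {M : Type u} [MetricSpace M] [CompactSpace M] [ChartedSpace E4 M]
  [IsManifold 𝓘(ℝ, E4) ∞ M] [MeasurableSpace M] [BorelSpace M] {N : ℕ}

/-- reindexing. -/
def re (Q : TSeq M N) (f : ℕ → ℕ) : TSeq M N where
  p := fun n => Q.p (f n)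
  a0 := fun n => Q.a0 (f n)
  r := fun n => Q.r (f n)
  α := fun n => Q.α (f n)
  θ := fun n => Q.θ (f n)

/-- classes and pairing. -/
theorem I_eq_of_cls (D : Dat M) (a a' b : Z2 M) (h : cls a = cls a') :
    D.I (a.1.1 : F2 E4 M) (b.1.1 : F2 E4 M) = D.I (a'.1.1 : F2 E4 M) (b.1.1 : F2 E4 M) := by
  have h0 : a - a' ∈ B2 M := (Submodule.Quotient.eq (B2 M)).1 h
  have h1 : IsEx ((a.1 - a'.1 : X2 M) : F2 E4 M) := h0
  have h2 := Int.dat_stokes D h1 b.1.2 b.2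
  have h3 := En4.I_sub_left D a.1 a'.1 b.1
  rw [h2] at h3
  linarith

theorem exists_re {D : Dat M} {Q : TSeq M N} {U : Filter ℕ} [U.NeBot] {lam C : ℝ}
    (h : Q.OK D U lam C) : ∃ f : ℕ → ℕ, (re Q f).OK D atTop lam C ∧ ∀ n, 0 < (re Q f).r n := by
  obtain ⟨p', hp', hp⟩ := h.plim
  have ev : ∀ k : ℕ, ∃ n : ℕ, ((k : ℝ) + 1 ≤ Q.r n ∧
      (∀ x i j, ‖Q.p n x i j - p' x i j‖ < ((k : ℝ) + 1)⁻¹) ∧
      ∫ x, nsqG D.J D.F ((Q.a0 n).1.1 : F2 E4 M) x ∂D.μ ≤ C) ∧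
      (∫ x, Q.neta D n x ∂D.μ ≤ C ∧ Q.r n * ∫ x, (1 - Q.nal n x) ^ 2 ∂D.μ ≤ C ∧
      ∫ x, nsqG D.J D.F (Q.Phi n) x ∂D.μ ≤ C * Q.r n) ∧
      (|(Q.r n)⁻¹ * ∫ x, (qG D.F (Q.Phi n) D.F x - lam * Q.r n * (1 - Q.nal n x)) ^ 2 ∂D.μ| <
        ((k : ℝ) + 1)⁻¹ ∧
      |(Q.r n)⁻¹ * ∫ x, nsqG D.J D.F (bpp D.J (Q.Phi n)) x ∂D.μ| < ((k : ℝ) + 1)⁻¹ ∧
      |∫ x, Q.ndb D n x ∂D.μ| < ((k : ℝ) + 1)⁻¹ ∧
      |(Q.r n)⁻¹ * ∫ x, n1 D x (at1 (Q.θ n) x) ∂D.μ| < ((k : ℝ) + 1)⁻¹) := by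
    intro k
    have hk : (0 : ℝ) < ((k : ℝ) + 1)⁻¹ := by positivity
    have ab : ∀ {g : ℕ → ℝ}, Tendsto g U (𝓝 0) → ∀ᶠ n in U, |g n| < ((k : ℝ) + 1)⁻¹ := by
      intro g hg
      have h1 := (tendsto_zero_iff_abs_tendsto_zero g).1 hg
      exact h1.eventually_lt_const hk
    exact (((h.rinf.eventually_ge_atTop ((k : ℝ) + 1)).and
      ((hp _ hk).and h.a0bd)).and ((h.e1.and (h.e2.and h.e3)).and
      ((ab h.o1).and ((ab h.o2).and ((ab h.o3).and (ab h.o4)))))).exists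
  choose f hf using ev
  have sq0 : Tendsto (fun k : ℕ => ((k : ℝ) + 1)⁻¹) atTop (𝓝 0) :=
    tendsto_inv_atTop_zero.comp (tendsto_atTop_add_const_right _ _ tendsto_natCast_atTop_atTop)
  have sq : ∀ {g : ℕ → ℝ}, (∀ k, |g k| < ((k : ℝ) + 1)⁻¹) → Tendsto g atTop (𝓝 0) := by
    intro g hg
    exact squeeze_zero_norm (fun k => (hg k).le) sq0
  refine ⟨f, ?_, fun n => ?_⟩
  · exact {
      clF := h.clF
      line := fun n => h.line (f n)
      chern := fun n => h.chern (f n)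
      cls0 := fun n => (h.cls0 (f n)).trans (h.cls0 (f 0)).symm
      plim := by
        refine ⟨p', hp', fun ε hε => ?_⟩
        filter_upwards [sq0.eventually_lt_const hε] with n hn x i j
        exact ((hf n).1.2.1 x i j).trans hn
      a0bd := Eventually.of_forall fun n => (hf n).1.2.2
      smα := fun n => h.smα (f n)
      secα := fun n => h.secα (f n)
      smθ := fun n => h.smθ (f n)
      rinf := tendsto_atTop_mono (fun n => (hf n).1.1)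
        (tendsto_atTop_add_const_right _ _ tendsto_natCast_atTop_atTop)
      lam_pos := h.lam_pos
      e1 := Eventually.of_forall fun n => (hf n).2.1.1
      e2 := Eventually.of_forall fun n => (hf n).2.1.2.1
      e3 := Eventually.of_forall fun n => (hf n).2.1.2.2
      o1 := sq fun n => (hf n).2.2.1
      o2 := sq fun n => (hf n).2.2.2.1
      o3 := sq fun n => (hf n).2.2.2.2.1
      o4 := sq fun n => (hf n).2.2.2.2.2 }
  · have h1 : (n : ℝ) + 1 ≤ Q.r (f n) := (hf n).1.1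
    have h2 : (0 : ℝ) ≤ n := n.cast_nonneg
    show 0 < Q.r (f n)
    linarith

theorem an_of2 (h1 : PTW.{u}) (h2 : POSDOM2.{u}) (h3 : LOCREP.{u}) (h4 : QIM.{u}) : AN.{u} := by
  intro M _ _ _ _ _ _ D N Q U _ lam C hQ
  obtain ⟨f, hf, hr⟩ := exists_re hQ
  have hT := h1 M D N (re Q f) atTop lam C hf
  let T : ℕ → X2 M := fun n => ⟨(re Q f).Psi n, (hT n).2.2.2.1⟩
  obtain ⟨V, hV, hV', S, s, hS, hcl⟩ := h2 M D N (re Q f) lam C hf hr T fun n => rfl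
  refine ⟨S, s, hS.cur, fun b => ?_, h4 M D _ (re Q f).r T S s
    (h3 M D N (re Q f) _ lam C (hf.mono hV) T fun n => rfl) hS⟩
  rw [hcl b]
  exact I_eq_of_cls D _ _ b (hQ.cls0 _)

end

end Crest.Agent.R235.SwcAn_34
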