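import Crest.Agent.R235.SwcProd2_215
import Crest.Agent.R235.Sob4_984
import Crest.Agent.R249.Ker57a_57

/-!
Row 235 (S0364), PACKAGE SWC, NODE PROD, leaf **KATO4** (helper984): Kato's inequality and the
Sobolev embedding `W^{1,2} ⊂ L⁴` with a constant independent of the connection form `b`.

* `sob_real` : `∫ f⁴ ≤ C (∫ |∇f|² + ∫ f²)²` for smooth `f`
* `kato`     : `|∇ √(|v|² + ε²)|² ≤ |∇^b v|²`
* `kato4`    : `SwcProd_215.KATO4`
-/

set_option autoImplicit false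
set_option maxSynthPendingDepth 3
set_option linter.unusedSectionVars false

open scoped ContDiff ENNReal NNReal Topology Manifold Bundle RealInnerProductSpace
open MeasureTheory Set Filter Metric Bundle

universe v

namespace Crest.Agent.R235.SwcKATO4_984

open Crest.Agent.R247 Crest.Agent.R247.Ms322 Crest.Agent.R247.Dir593 Crest.Agent.R247.Frd657
open Crest.Agent.R249.Tv57 Crest.Agent.R235.SWDefs_53

noncomputable section

section real

variable {X F : Type*} [MeasurableSpace X] {μ : Measure X} [NormedAddCommGroup F]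

theorem toReal_two {g : X → F} (hg : MemLp g 2 μ) :
    (eLpNorm g 2 μ).toReal ^ 2 = ∫ x, ‖g x‖ ^ 2 ∂μ := by
  rw [hg.eLpNorm_eq_integral_rpow_norm (by norm_num) (by norm_num)]
  have h0 : 0 ≤ ∫ x, ‖g x‖ ^ (2 : ℝ≥0∞).toReal ∂μ :=
    integral_nonneg fun x => Real.rpow_nonneg (norm_nonneg _) _
  rw [ENNReal.toReal_ofReal (Real.rpow_nonneg h0 _), ← Real.rpow_natCast, ← Real.rpow_mul h0]
  norm_num

theorem toReal_four {g : X → F} (hg : MemLp g 4 μ) :
    (eLpNorm g 4 μ).toReal ^ 4 = ∫ x, ‖g x‖ ^ 4 ∂μ := by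
  rw [hg.eLpNorm_eq_integral_rpow_norm (by norm_num) (by norm_num)]
  have h0 : 0 ≤ ∫ x, ‖g x‖ ^ (4 : ℝ≥0∞).toReal ∂μ :=
    integral_nonneg fun x => Real.rpow_nonneg (norm_nonneg _) _
  rw [ENNReal.toReal_ofReal (Real.rpow_nonneg h0 _), ← Real.rpow_natCast, ← Real.rpow_mul h0]
  norm_num

theorem memLp_bm [IsFiniteMeasure μ] {F : Type*} [NormedAddCommGroup F] {g : X → F}
    (hg : BM μ g) (p : ℝ≥0∞) : MemLp g p μ := by
  obtain ⟨C, -, hC⟩ := hg.bd
  exact MemLp.of_bound hg.meas C hC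

end real

variable {M : Type v} [MetricSpace M] [CompactSpace M]
  [ChartedSpace (EuclideanSpace ℝ (Fin 4)) M] [IsManifold (𝓡 4) ∞ M]
  [RiemannianBundle (fun p : M => TangentSpace (𝓡 4) p)]
  [IsContMDiffRiemannianBundle (𝓡 4) ∞ (EuclideanSpace ℝ (Fin 4))
    (fun p : M => TangentSpace (𝓡 4) p)]
  [IsRiemannianManifold (𝓡 4) M] [MeasurableSpace M] [BorelSpace M]
  [SecondCountableTopology M] [Nonempty M] [IsFiniteMeasureOnCompacts (μHE[4] : Measure M)]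

/-- **Sobolev, real form.** -/
theorem sob_real : ∃ C : ℝ, 0 < C ∧ ∀ f : M → ℝ, ContMDiff (𝓡 4) 𝓘(ℝ, ℝ) ∞ f →
    ∫ z, f z ^ 4 ∂(μHE[4] : Measure M) ≤
      C * ((∫ z, ‖Gr (n := 4) f z‖ ^ 2 ∂(μHE[4] : Measure M)) +
        ∫ z, f z ^ 2 ∂(μHE[4] : Measure M)) ^ 2 := by
  obtain ⟨C, hC⟩ := Sob4_984.sob_test (M := M)
  refine ⟨4 * (C : ℝ) ^ 4 + 1, by positivity, fun f hf => ?_⟩
  have hL : LocallyLipschitz f := locLip_of_contMDiff (n := 4) (hf.of_le (by simp))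
  have b1 : ∀ p, MemLp f p (μHE[4] : Measure M) := fun p => memLp_bm (bm_smooth (n := 4) hf) p
  have b2 : MemLp (Gr (n := 4) f) 2 (μHE[4] : Measure M) := memLp_bm (smF_Gr hf).bm 2
  have h1 := hC f hL
  set a := (eLpNorm (Gr (n := 4) f) 2 (μHE[4] : Measure M)).toReal with ha
  set b := (eLpNorm f 2 (μHE[4] : Measure M)).toReal with hb
  have h2 : (eLpNorm f 4 (μHE[4] : Measure M)).toReal ≤ C * (a + b) := by
    have h3 := ENNReal.toReal_mono (ENNReal.mul_ne_top ENNReal.coe_ne_top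
      (ENNReal.add_ne_top.2 ⟨b2.2.ne, (b1 2).2.ne⟩)) h1
    rwa [ENNReal.toReal_mul, ENNReal.coe_toReal, ENNReal.toReal_add b2.2.ne (b1 2).2.ne] at h3
  have e4 : ∫ z, f z ^ 4 ∂(μHE[4] : Measure M) = (eLpNorm f 4 (μHE[4] : Measure M)).toReal ^ 4 := by
    rw [toReal_four (b1 4)]
    refine integral_congr_ae (Eventually.of_forall fun z => ?_)
    simp only [Real.norm_eq_abs]
    rw [Even.pow_abs (by decide)]
  have e2 : ∫ z, f z ^ 2 ∂(μHE[4] : Measure M) = b ^ 2 := by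
    rw [hb, toReal_two (b1 2)]
    refine integral_congr_ae (Eventually.of_forall fun z => ?_)
    simp only [Real.norm_eq_abs, sq_abs]
  have e1 : ∫ z, ‖Gr (n := 4) f z‖ ^ 2 ∂(μHE[4] : Measure M) = a ^ 2 := by
    rw [ha, toReal_two b2]
  rw [e4, e2, e1]
  have ha0 : 0 ≤ a := ENNReal.toReal_nonneg
  have hb0 : 0 ≤ b := ENNReal.toReal_nonneg
  have hC0 : (0 : ℝ) ≤ C := C.2
  calc (eLpNorm f 4 (μHE[4] : Measure M)).toReal ^ 4 ≤ (C * (a + b)) ^ 4 :=
        pow_le_pow_left₀ ENNReal.toReal_nonneg h2 4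
    _ = C ^ 4 * ((a + b) ^ 2) ^ 2 := by ring
    _ ≤ C ^ 4 * (2 * (a ^ 2 + b ^ 2)) ^ 2 := by
        refine mul_le_mul_of_nonneg_left ?_ (by positivity)
        refine pow_le_pow_left₀ (by positivity) ?_ 2
        nlinarith [sq_nonneg (a - b)]
    _ = 4 * C ^ 4 * (a ^ 2 + b ^ 2) ^ 2 := by ring
    _ ≤ (4 * (C : ℝ) ^ 4 + 1) * (a ^ 2 + b ^ 2) ^ 2 :=
        mul_le_mul_of_nonneg_right (by linarith) (by positivity)

variable [ConnectedSpace M] {κ0 κ1 κT : Type} [Fintype κ0] [Fintype κ1] [Fintype κT]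
  {S : SWS M κ0 κ1 κT}

theorem smF_nab (hOK : S.OK) {b : κT → M → ℝ} {v : κ0 → M → ℝ} (hb : SmV (n := 4) b)
    (hv : SmV (n := 4) v) (y : κ0) : SmF (S.nab b v y) := by
  refine (smF_cv S.D0 hv y).add (SmF.smul (contMDiff_finsetSum fun y' _ =>
    (hOK.smJ y y').mul (hv y')) (SmF.sum _ fun A _ => SmF.smul (hb A) (hOK.sms A)))

/-- `∑ v_y ∇^b v_y = ∑ v_y ∇ v_y`. -/
theorem sum_nab (hOK : S.OK) (b : κT → M → ℝ) (v : κ0 → M → ℝ) (z : M) :
    ∑ y, v y z • S.nab b v y z = ∑ y, v y z • Gr (n := 4) (v y) z := by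
  have h1 : ∑ y, v y z • ∑ y', v y' z • S.D0.X y y' z = 0 := by
    have h2 : ∑ y, v y z • ∑ y', v y' z • S.D0.X y y' z =
        - ∑ y, v y z • ∑ y', v y' z • S.D0.X y y' z := by
      conv_lhs => simp only [Finset.smul_sum]
      rw [Finset.sum_comm]
      simp only [Finset.smul_sum]
      rw [← Finset.sum_neg_distrib]
      refine Finset.sum_congr rfl fun y _ => ?_
      rw [← Finset.sum_neg_distrib]
      refine Finset.sum_congr rfl fun y' _ => ?_
      rw [S.D0.skew y' y z, smul_neg, smul_neg, smul_smul, smul_smul, mul_comm]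
    rw [eq_neg_iff_add_eq_zero, ← two_smul ℝ] at h2
    exact (smul_eq_zero.1 h2).resolve_left two_ne_zero
  have h3 : ∑ y, v y z * ∑ y', S.J y y' z * v y' z = 0 := by
    have h4 : ∑ y, v y z * ∑ y', S.J y y' z * v y' z =
        - ∑ y, v y z * ∑ y', S.J y y' z * v y' z := by
      conv_lhs => simp only [Finset.mul_sum]
      rw [Finset.sum_comm]
      simp only [Finset.mul_sum]
      rw [← Finset.sum_neg_distrib]
      refine Finset.sum_congr rfl fun y _ => ?_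
      rw [← Finset.sum_neg_distrib]
      refine Finset.sum_congr rfl fun y' _ => ?_
      rw [hOK.skewJ y' y z]
      ring
    exact self_eq_neg.1 h4
  simp only [SWS.nab, Dat.cv, smul_add, Finset.sum_add_distrib, smul_smul]
  rw [h1, ← Finset.sum_smul, h3, zero_smul, add_zero, add_zero]

/-- the regularised norm. -/
def wn (v : κ0 → M → ℝ) (ε : ℝ) (z : M) : ℝ := √(∑ y, v y z ^ 2 + ε ^ 2)

theorem wn_pos (v : κ0 → M → ℝ) {ε : ℝ} (hε : 0 < ε) (z : M) : 0 < wn v ε z :=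
  Real.sqrt_pos.2 (by positivity)

theorem wn_sq (v : κ0 → M → ℝ) (ε : ℝ) (z : M) : wn v ε z * wn v ε z = ∑ y, v y z ^ 2 + ε ^ 2 :=
  Real.mul_self_sqrt (by positivity)

theorem smooth_wn {v : κ0 → M → ℝ} (hv : SmV (n := 4) v) {ε : ℝ} (hε : 0 < ε) :
    ContMDiff (𝓡 4) 𝓘(ℝ, ℝ) ∞ (wn v ε) := by
  have h1 : ContMDiff (𝓡 4) 𝓘(ℝ, ℝ) ∞ fun z => ∑ y, v y z ^ 2 + ε ^ 2 :=
    (contMDiff_finsetSum fun y _ => (hv y).pow 2).add contMDiff_const
  intro z
  have h2 : ContDiffAt ℝ ∞ (fun x : ℝ => √x) (∑ y, v y z ^ 2 + ε ^ 2) :=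
    Real.contDiffAt_sqrt (by positivity)
  exact (h2.contMDiffAt).comp z (h1 z)

/-- **Kato's inequality.** -/
theorem kato (hOK : S.OK) {b : κT → M → ℝ} {v : κ0 → M → ℝ}
    (hv : SmV (n := 4) v) {ε : ℝ} (hε : 0 < ε) (z : M) :
    ‖Gr (n := 4) (wn v ε) z‖ ^ 2 ≤ ∑ y, ‖S.nab b v y z‖ ^ 2 := by
  have h1 : Gr (n := 4) (fun y => wn v ε y * wn v ε y) z =
      (2 : ℝ) • ∑ y, v y z • Gr (n := 4) (v y) z := by
    have e1 : (fun y => wn v ε y * wn v ε y) = fun z => (∑ y, v y z * v y z) + ε ^ 2 := by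
      funext z
      rw [wn_sq]
      simp only [sq]
    have e2 : ∀ y, ContMDiff (𝓡 4) 𝓘(ℝ, ℝ) ∞ fun z => v y z * v y z := fun y =>
      (hv y).mul (hv y)
    rw [e1, Gr_add (R249.Ker57.md (contMDiff_finsetSum fun y _ => e2 y) z)
      (R249.Ker57.md contMDiff_const z), Gr_const, add_zero,
      R249.Ker57.Gr_sum' _ (fun y _ => e2 y), Finset.smul_sum]
    refine Finset.sum_congr rfl fun y _ => ?_
    rw [Gr_mul (R249.Ker57.md (hv y) z) (R249.Ker57.md (hv y) z), two_smul]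
  have hd := R249.Ker57.md (smooth_wn hv hε) z
  rw [Gr_mul hd hd, ← two_smul ℝ] at h1
  have h2 : wn v ε z • Gr (n := 4) (wn v ε) z = ∑ y, v y z • S.nab b v y z := by
    rw [sum_nab hOK]
    exact smul_right_injective _ (two_ne_zero' ℝ) h1
  have h3 : wn v ε z * ‖Gr (n := 4) (wn v ε) z‖ ≤ ∑ y, |v y z| * ‖S.nab b v y z‖ := by
    have h4 := congrArg norm h2
    rw [norm_smul, Real.norm_of_nonneg (wn_pos v hε z).le] at h4
    rw [h4]
    refine (norm_sum_le _ _).trans (le_of_eq (Finset.sum_congr rfl fun y _ => ?_))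
    rw [norm_smul, Real.norm_eq_abs]
  have h5 : (wn v ε z * ‖Gr (n := 4) (wn v ε) z‖) ^ 2 ≤
      (∑ y, v y z ^ 2) * ∑ y, ‖S.nab b v y z‖ ^ 2 := by
    refine (pow_le_pow_left₀ (mul_nonneg (wn_pos v hε z).le (norm_nonneg _)) h3 2).trans ?_
    have := Finset.sum_mul_sq_le_sq_mul_sq Finset.univ (fun y => |v y z|)
      (fun y => ‖S.nab b v y z‖)
    simpa only [sq_abs] using this
  have h6 : (∑ y, v y z ^ 2) * ∑ y, ‖S.nab b v y z‖ ^ 2 ≤
      wn v ε z ^ 2 * ∑ y, ‖S.nab b v y z‖ ^ 2 := by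
    refine mul_le_mul_of_nonneg_right ?_ (by positivity)
    rw [sq (wn v ε z), wn_sq]
    nlinarith [sq_nonneg ε]
  have h7 := h5.trans h6
  rw [mul_pow] at h7
  exact le_of_mul_le_mul_left h7 (pow_pos (wn_pos v hε z) 2)

/-- **KATO4.** -/
theorem kato4 : SwcProd_215.KATO4.{v} := by
  intro M _ _ _ _ _ _ _ _ _ _ _ _ _ κ0 κ1 κT _ _ _ S hOK
  obtain ⟨C, hC0, hC⟩ := sob_real (M := M)
  refine ⟨C, hC0, fun b v hb _ hv _ => ?_⟩
  have hN : ContMDiff (𝓡 4) 𝓘(ℝ, ℝ) ∞ fun z => ∑ y, ‖S.nab b v y z‖ ^ 2 := by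
    have h : ContMDiff (𝓡 4) 𝓘(ℝ, ℝ) ∞ fun z => ∑ y, (⟪S.nab b v y z, S.nab b v y z⟫ : ℝ) :=
      contMDiff_finsetSum fun y _ => (smF_nab hOK hb hv y).inner (smF_nab hOK hb hv y)
    refine h.congr fun z => ?_
    exact Finset.sum_congr rfl fun y _ => (real_inner_self_eq_norm_sq _).symm
  have hV : ContMDiff (𝓡 4) 𝓘(ℝ, ℝ) ∞ fun z => ∑ y, v y z ^ 2 :=
    contMDiff_finsetSum fun y _ => (hv y).pow 2
  have hint : ∀ {f : M → ℝ}, Continuous f → Integrable f (μHE[4] : Measure M) := fun hf =>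
    hf.integrable_of_hasCompactSupport (HasCompactSupport.of_compactSpace _)
  set A := ∫ z, ∑ y, ‖S.nab b v y z‖ ^ 2 ∂(μHE[4] : Measure M) with hA
  set B := ∫ z, ∑ y, v y z ^ 2 ∂(μHE[4] : Measure M) with hB
  set m := (μHE[4] : Measure M).real univ with hm
  have key : ∀ ε : ℝ, 0 < ε → ∫ z, (∑ y, v y z ^ 2) ^ 2 ∂(μHE[4] : Measure M) ≤
      C * (A + (B + ε ^ 2 * m)) ^ 2 := by
    intro ε hε
    have hw := smooth_wn hv hε
    have h1 : ∫ z, (∑ y, v y z ^ 2) ^ 2 ∂(μHE[4] : Measure M) ≤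
        ∫ z, wn v ε z ^ 4 ∂(μHE[4] : Measure M) := by
      refine integral_mono (hint (hV.continuous.pow 2)) (hint (hw.continuous.pow 4)) fun z => ?_
      have e : wn v ε z ^ 4 = (wn v ε z * wn v ε z) ^ 2 := by ring
      simp only [e, wn_sq]
      refine pow_le_pow_left₀ (by positivity) ?_ 2
      nlinarith [sq_nonneg ε]
    refine h1.trans ((hC _ hw).trans ?_)
    refine mul_le_mul_of_nonneg_left ?_ hC0.le
    have g1 : ∫ z, ‖Gr (n := 4) (wn v ε) z‖ ^ 2 ∂(μHE[4] : Measure M) ≤ A := by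
      refine integral_mono (hint ?_) (hint hN.continuous) fun z => kato hOK hv hε z
      have := ((smF_Gr hw).inner (smF_Gr hw)).continuous
      simpa only [real_inner_self_eq_norm_sq] using this
    have g2 : ∫ z, wn v ε z ^ 2 ∂(μHE[4] : Measure M) = B + ε ^ 2 * m := by
      have e : ∀ z, wn v ε z ^ 2 = ∑ y, v y z ^ 2 + ε ^ 2 := fun z => by rw [sq, wn_sq]
      simp only [e]
      rw [integral_add (hint hV.continuous) (hint continuous_const), integral_const, smul_eq_mul,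
        mul_comm]
    rw [g2]
    refine pow_le_pow_left₀ ?_ (by linarith) 2
    refine add_nonneg (integral_nonneg fun z => by positivity) ?_
    rw [← g2]
    exact integral_nonneg fun z => by positivity
  have hlim : Tendsto (fun ε : ℝ => C * (A + (B + ε ^ 2 * m)) ^ 2) (𝓝[>] 0)
      (𝓝 (C * (A + (B + 0 ^ 2 * m)) ^ 2)) := by
    have : Continuous fun ε : ℝ => C * (A + (B + ε ^ 2 * m)) ^ 2 := by fun_prop
    exact (this.tendsto 0).mono_left nhdsWithin_le_nhds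
  have := ge_of_tendsto hlim (eventually_nhdsWithin_of_forall fun ε hε => key ε hε)
  simpa using this

end

end Crest.Agent.R235.SwcKATO4_984
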