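import Crest.Agent.R235.SwcPair_659
import Crest.Agent.R240.SmCrX
import Crest.Agent.R240.DensM

/-!
Row 235 (S0364), PACKAGE SWC-AN, QCH part (iii) (helper125): facts about the cut-off `tf`, the
cut-off function `vv` on `M`, comparison of the masses.
-/

set_option autoImplicit false
set_option maxSynthPendingDepth 3

open Set Function Filter MeasureTheory Metric
open scoped Manifold ContDiff Topology ENNReal

universe u

namespace Crest.Agent.R235.SwcMass_125

open Crest.Agent.R240 Crest.Agent.R240.Ch Crest.Agent.R240.Int Crest.Agent.R235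
open Crest.Agent.R235.SwcDefs_34 Crest.Agent.R235.SwcGlob_34 Crest.Agent.R235.SwcPair_659

noncomputable section

/-! ### the cut-off `tf` -/

theorem hh_smooth : ContDiff ℝ ∞ hh := by
  unfold hh
  exact (Real.smoothTransition.contDiff.comp (contDiff_const.sub contDiff_id)).mul
    (Real.smoothTransition.contDiff.comp (contDiff_const.add contDiff_id))

theorem hh_nonneg (x : ℝ) : 0 ≤ hh x :=
  mul_nonneg (Real.smoothTransition.nonneg _) (Real.smoothTransition.nonneg _)

theorem hh_le_one (x : ℝ) : hh x ≤ 1 :=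
  mul_le_one₀ (Real.smoothTransition.le_one _) (Real.smoothTransition.nonneg _)
    (Real.smoothTransition.le_one _)

theorem hh_one {x : ℝ} (hx : |x| ≤ 1) : hh x = 1 := by
  have h := abs_le.1 hx
  unfold hh
  rw [Real.smoothTransition.one_of_one_le (by linarith [h.2]),
    Real.smoothTransition.one_of_one_le (by linarith [h.1]), one_mul]

theorem hh_zero {x : ℝ} (hx : 2 ≤ |x|) : hh x = 0 := by
  unfold hh
  rcases le_abs.1 hx with h | h
  · rw [Real.smoothTransition.zero_of_nonpos (by linarith), zero_mul]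
  · rw [Real.smoothTransition.zero_of_nonpos (x := 2 + x) (by linarith), mul_zero]

theorem norm_V4 (p : V4) : ‖p‖ = max (max |p.1.1| |p.1.2|) (max |p.2.1| |p.2.2|) := rfl

theorem abs_le_norm (p : V4) : |p.1.1| ≤ ‖p‖ ∧ |p.1.2| ≤ ‖p‖ ∧ |p.2.1| ≤ ‖p‖ ∧ |p.2.2| ≤ ‖p‖ := by
  rw [norm_V4]
  refine ⟨?_, ?_, ?_, ?_⟩
  · exact (le_max_left _ _).trans (le_max_left _ _)
  · exact (le_max_right _ _).trans (le_max_left _ _)
  · exact (le_max_left _ _).trans (le_max_right _ _)
  · exact (le_max_right _ _).trans (le_max_right _ _)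

theorem tf_smooth (t : ℝ) : ContDiff ℝ ∞ (tf t) := by
  have h : ∀ l : V4 →L[ℝ] ℝ, ContDiff ℝ ∞ fun p : V4 => hh (l p / t) := fun l =>
    hh_smooth.comp (l.contDiff.div_const t)
  have h1 := h ((ContinuousLinearMap.fst ℝ ℝ ℝ).comp (ContinuousLinearMap.fst ℝ (ℝ × ℝ) (ℝ × ℝ)))
  have h2 := h ((ContinuousLinearMap.snd ℝ ℝ ℝ).comp (ContinuousLinearMap.fst ℝ (ℝ × ℝ) (ℝ × ℝ)))
  have h3 := h ((ContinuousLinearMap.fst ℝ ℝ ℝ).comp (ContinuousLinearMap.snd ℝ (ℝ × ℝ) (ℝ × ℝ)))
  have h4 := h ((ContinuousLinearMap.snd ℝ ℝ ℝ).comp (ContinuousLinearMap.snd ℝ (ℝ × ℝ) (ℝ × ℝ)))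
  exact (((h1.mul h2).mul h3).mul h4).pow 2

theorem tf_nonneg (t : ℝ) (p : V4) : 0 ≤ tf t p := sq_nonneg _

theorem tf_le_one (t : ℝ) (p : V4) : tf t p ≤ 1 := by
  unfold tf
  have h0 : 0 ≤ hh (p.1.1 / t) * hh (p.1.2 / t) * hh (p.2.1 / t) * hh (p.2.2 / t) := by
    have := hh_nonneg
    exact mul_nonneg (mul_nonneg (mul_nonneg (this _) (this _)) (this _)) (this _)
  have h1 : hh (p.1.1 / t) * hh (p.1.2 / t) * hh (p.2.1 / t) * hh (p.2.2 / t) ≤ 1 := by
    have a := hh_nonneg
    have b := hh_le_one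
    refine mul_le_one₀ (mul_le_one₀ (mul_le_one₀ (b _) (a _) (b _)) (a _) (b _)) (a _) (b _)
  exact pow_le_one₀ h0 h1

theorem tf_one {t : ℝ} (ht : 0 < t) {p : V4} (hp : ‖p‖ ≤ t) : tf t p = 1 := by
  obtain ⟨h1, h2, h3, h4⟩ := abs_le_norm p
  have key : ∀ a : ℝ, |a| ≤ ‖p‖ → hh (a / t) = 1 := fun a ha => by
    refine hh_one ?_
    rw [abs_div, abs_of_pos ht, div_le_one ht]
    exact ha.trans hp
  unfold tf
  rw [key _ h1, key _ h2, key _ h3, key _ h4]
  norm_num

theorem tf_zero {t : ℝ} (ht : 0 < t) {p : V4} (hp : 2 * t ≤ ‖p‖) : tf t p = 0 := by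
  have key : ∀ a : ℝ, 2 * t ≤ |a| → hh (a / t) = 0 := fun a ha => by
    refine hh_zero ?_
    rw [abs_div, abs_of_pos ht, le_div_iff₀ ht]
    exact ha
  unfold tf
  rw [norm_V4] at hp
  rcases le_max_iff.1 hp with h | h
  · rcases le_max_iff.1 h with h | h
    · rw [key _ h]; ring
    · rw [key _ h]; ring
  · rcases le_max_iff.1 h with h | h
    · rw [key _ h]; ring
    · rw [key _ h]; ring

theorem tf_tsupport {t : ℝ} (ht : 0 < t) : tsupport (tf t) ⊆ closedBall (0 : V4) (2 * t) := by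
  refine closure_minimal (fun p hp => ?_) isClosed_closedBall
  rw [mem_closedBall_zero_iff]
  by_contra h
  exact hp (tf_zero ht (not_le.1 h).le)

theorem tf_compact {t : ℝ} (ht : 0 < t) : HasCompactSupport (tf t) :=
  HasCompactSupport.of_support_subset_isCompact (isCompact_closedBall (0 : V4) (2 * t))
    ((subset_tsupport _).trans (tf_tsupport ht))

/-! ### the cut-off `cu`: `1` on the `2t`-box, `0` outside the `3t`-box -/

/-- `1` on `[-2,2]`, `0` outside `(-3,3)`. -/
def hk (x : ℝ) : ℝ := Real.smoothTransition (3 - x) * Real.smoothTransition (3 + x)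

/-- `1` on the `2t`-box, `0` outside the `3t`-box. -/
def cu (t : ℝ) (p : V4) : ℝ :=
  hk (p.1.1 / t) * hk (p.1.2 / t) * hk (p.2.1 / t) * hk (p.2.2 / t)

theorem hk_smooth : ContDiff ℝ ∞ hk := by
  unfold hk
  exact (Real.smoothTransition.contDiff.comp (contDiff_const.sub contDiff_id)).mul
    (Real.smoothTransition.contDiff.comp (contDiff_const.add contDiff_id))

theorem hk_nonneg (x : ℝ) : 0 ≤ hk x :=
  mul_nonneg (Real.smoothTransition.nonneg _) (Real.smoothTransition.nonneg _)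

theorem hk_le_one (x : ℝ) : hk x ≤ 1 :=
  mul_le_one₀ (Real.smoothTransition.le_one _) (Real.smoothTransition.nonneg _)
    (Real.smoothTransition.le_one _)

theorem hk_one {x : ℝ} (hx : |x| ≤ 2) : hk x = 1 := by
  have h := abs_le.1 hx
  unfold hk
  rw [Real.smoothTransition.one_of_one_le (by linarith [h.2]),
    Real.smoothTransition.one_of_one_le (by linarith [h.1]), one_mul]

theorem hk_zero {x : ℝ} (hx : 3 ≤ |x|) : hk x = 0 := by
  unfold hk
  rcases le_abs.1 hx with h | h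
  · rw [Real.smoothTransition.zero_of_nonpos (by linarith), zero_mul]
  · rw [Real.smoothTransition.zero_of_nonpos (x := 3 + x) (by linarith), mul_zero]

theorem cu_smooth (t : ℝ) : ContDiff ℝ ∞ (cu t) := by
  have h : ∀ l : V4 →L[ℝ] ℝ, ContDiff ℝ ∞ fun p : V4 => hk (l p / t) := fun l =>
    hk_smooth.comp (l.contDiff.div_const t)
  have h1 := h ((ContinuousLinearMap.fst ℝ ℝ ℝ).comp (ContinuousLinearMap.fst ℝ (ℝ × ℝ) (ℝ × ℝ)))
  have h2 := h ((ContinuousLinearMap.snd ℝ ℝ ℝ).comp (ContinuousLinearMap.fst ℝ (ℝ × ℝ) (ℝ × ℝ)))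
  have h3 := h ((ContinuousLinearMap.fst ℝ ℝ ℝ).comp (ContinuousLinearMap.snd ℝ (ℝ × ℝ) (ℝ × ℝ)))
  have h4 := h ((ContinuousLinearMap.snd ℝ ℝ ℝ).comp (ContinuousLinearMap.snd ℝ (ℝ × ℝ) (ℝ × ℝ)))
  exact ((h1.mul h2).mul h3).mul h4

theorem cu_nonneg (t : ℝ) (p : V4) : 0 ≤ cu t p := by
  have := hk_nonneg
  exact mul_nonneg (mul_nonneg (mul_nonneg (this _) (this _)) (this _)) (this _)

theorem cu_le_one (t : ℝ) (p : V4) : cu t p ≤ 1 := by
  have a := hk_nonneg
  have b := hk_le_one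
  exact mul_le_one₀ (mul_le_one₀ (mul_le_one₀ (b _) (a _) (b _)) (a _) (b _)) (a _) (b _)

theorem cu_one {t : ℝ} (ht : 0 < t) {p : V4} (hp : ‖p‖ ≤ 2 * t) : cu t p = 1 := by
  obtain ⟨h1, h2, h3, h4⟩ := abs_le_norm p
  have key : ∀ a : ℝ, |a| ≤ ‖p‖ → hk (a / t) = 1 := fun a ha => by
    refine hk_one ?_
    rw [abs_div, abs_of_pos ht, div_le_iff₀ ht]
    exact ha.trans hp
  unfold cu
  rw [key _ h1, key _ h2, key _ h3, key _ h4]
  norm_num

theorem cu_zero {t : ℝ} (ht : 0 < t) {p : V4} (hp : 3 * t ≤ ‖p‖) : cu t p = 0 := by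
  have key : ∀ a : ℝ, 3 * t ≤ |a| → hk (a / t) = 0 := fun a ha => by
    refine hk_zero ?_
    rw [abs_div, abs_of_pos ht, le_div_iff₀ ht]
    exact ha
  unfold cu
  rw [norm_V4] at hp
  rcases le_max_iff.1 hp with h | h
  · rcases le_max_iff.1 h with h | h
    · rw [key _ h]; ring
    · rw [key _ h]; ring
  · rcases le_max_iff.1 h with h | h
    · rw [key _ h]; ring
    · rw [key _ h]; ring

section Man

variable {M : Type u} [MetricSpace M] [CompactSpace M] [ChartedSpace E4 M]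
  [IsManifold 𝓘(ℝ, E4) ∞ M] [MeasurableSpace M] [BorelSpace M]

/-- the cut-off function on `M`. -/
def vv (x : M) (L : V4 ≃L[ℝ] E4) (z : E4) (t : ℝ) : M → ℝ :=
  extF (E := E4) x (fun y => cu t (L.symm (y - z)))

omit [CompactSpace M] [IsManifold 𝓘(ℝ, E4) ∞ M] [MeasurableSpace M] [BorelSpace M] in
theorem vv_mem {x : M} (L : V4 ≃L[ℝ] E4) (z : E4) (t : ℝ) {y : M}
    (hy : y ∈ (chartAt E4 x).source) :
    vv x L z t y = cu t (L.symm (chartAt E4 x y - z)) := by
  unfold vv extF
  rw [if_pos hy]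

omit [CompactSpace M] [IsManifold 𝓘(ℝ, E4) ∞ M] [MeasurableSpace M] [BorelSpace M] in
theorem vv_off {x : M} (L : V4 ≃L[ℝ] E4) (z : E4) (t : ℝ) {y : M}
    (hy : y ∉ (chartAt E4 x).source) : vv x L z t y = 0 := by
  unfold vv extF
  rw [if_neg hy]

omit [CompactSpace M] [IsManifold 𝓘(ℝ, E4) ∞ M] [MeasurableSpace M] [BorelSpace M] in
theorem vv_nonneg (x : M) (L : V4 ≃L[ℝ] E4) (z : E4) (t : ℝ) (y : M) : 0 ≤ vv x L z t y := by
  by_cases hy : y ∈ (chartAt E4 x).source
  · rw [vv_mem L z t hy]; exact cu_nonneg _ _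
  · rw [vv_off L z t hy]

theorem im_eq (L : V4 ≃L[ℝ] E4) (z : E4) (r : ℝ) {y : E4} :
    y ∈ (fun p => z + L p) '' closedBall (0 : V4) r ↔ ‖L.symm (y - z)‖ ≤ r := by
  constructor
  · rintro ⟨p, hp, rfl⟩
    have h : z + L p - z = L p := by abel
    rw [h, L.symm_apply_apply]
    exact mem_closedBall_zero_iff.1 hp
  · intro h
    refine ⟨L.symm (y - z), mem_closedBall_zero_iff.2 h, ?_⟩
    show z + L (L.symm (y - z)) = y
    rw [L.apply_symm_apply]
    abel

theorem im_cpt (L : V4 ≃L[ℝ] E4) (z : E4) (r : ℝ) :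
    IsCompact ((fun p => z + L p) '' closedBall (0 : V4) r) :=
  (isCompact_closedBall _ _).image (continuous_const.add L.continuous)

omit [CompactSpace M] [MeasurableSpace M] [BorelSpace M] in
theorem vv_cont {x : M} (L : V4 ≃L[ℝ] E4) {z : E4} {t : ℝ} (ht : 0 < t)
    (hs : (fun p => z + L p) '' closedBall (0 : V4) (3 * t) ⊆ (chartAt E4 x).target) :
    Continuous (vv x L z t) := by
  have h1 : ContDiff ℝ ∞ fun y : E4 => cu t (L.symm (y - z)) :=
    (cu_smooth t).comp (L.symm.contDiff.comp (contDiff_id.sub contDiff_const))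
  refine En4.sF_continuous (smoothF_extF (im_cpt L z (3 * t)) hs h1 fun y hy => ?_)
  refine cu_zero ht ?_
  by_contra h
  exact hy ((im_eq L z _).2 (not_le.1 h).le)

omit [CompactSpace M] [IsManifold 𝓘(ℝ, E4) ∞ M] in
theorem bx_meas (x : M) (L : V4 ≃L[ℝ] E4) (z : E4) (t : ℝ) :
    MeasurableSet {y : M | y ∈ (chartAt E4 x).source ∧
      L.symm (chartAt E4 x y - z) ∈ closedBall (0 : V4) t} := by
  have h1 : ContinuousOn (fun y : M => L.symm (chartAt E4 x y - z)) (chartAt E4 x).source :=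
    L.symm.continuous.comp_continuousOn ((chartAt E4 x).continuousOn.sub continuousOn_const)
  have h2 : IsOpen ((chartAt E4 x).source ∩ (fun y : M => L.symm (chartAt E4 x y - z)) ⁻¹'
      (closedBall (0 : V4) t)ᶜ) :=
    h1.isOpen_inter_preimage (chartAt E4 x).open_source isClosed_closedBall.isOpen_compl
  have h3 : {y : M | y ∈ (chartAt E4 x).source ∧
      L.symm (chartAt E4 x y - z) ∈ closedBall (0 : V4) t} = (chartAt E4 x).source \
      ((chartAt E4 x).source ∩ (fun y : M => L.symm (chartAt E4 x y - z)) ⁻¹'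
      (closedBall (0 : V4) t)ᶜ) := by
    ext y
    simp only [mem_ofPred_eq, Set.mem_sdiff, mem_inter_iff, mem_preimage, mem_compl_iff]
    tauto
  rw [h3]
  exact (chartAt E4 x).open_source.measurableSet.diff h2.measurableSet

/-- the integral of the cut-off. -/
theorem int_vv_le {s : Measure M} [IsFiniteMeasure s] {x : M} (L : V4 ≃L[ℝ] E4) {z : E4} {t : ℝ}
    (ht : 0 < t)
    (hs : (fun p => z + L p) '' closedBall (0 : V4) (3 * t) ⊆ (chartAt E4 x).target) :
    ∫ y, vv x L z t y ∂s ≤ bxm s x L z (3 * t) := by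
  have hc := vv_cont L ht hs
  unfold bxm
  rw [← integral_indicator_one (bx_meas x L z (3 * t))]
  refine integral_mono (hc.integrable_of_hasCompactSupport (HasCompactSupport.of_compactSpace _))
    ((integrable_const (1 : ℝ)).indicator (bx_meas x L z (3 * t))) fun y => ?_
  by_cases hy : y ∈ (chartAt E4 x).source
  · rw [vv_mem L z t hy]
    by_cases h2 : L.symm (chartAt E4 x y - z) ∈ closedBall (0 : V4) (3 * t)
    · rw [indicator_of_mem (show y ∈ {y : M | y ∈ (chartAt E4 x).source ∧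
        L.symm (chartAt E4 x y - z) ∈ closedBall (0 : V4) (3 * t)} from ⟨hy, h2⟩)]
      exact cu_le_one _ _
    · rw [indicator_of_notMem (fun h => h2 h.2)]
      rw [mem_closedBall_zero_iff, not_le] at h2
      rw [cu_zero ht h2.le]
  · rw [vv_off L z t hy]
    exact indicator_nonneg (fun _ _ => zero_le_one) _

/-- **the masses**: the mass in the `2t`-box against the mass on `M` with the cut-off. -/
theorem mass_le (D : Dat M) (x : M) {R : ℝ}
    (hsub : closedBall (chartAt E4 x x) R ⊆ (chartAt E4 x).target) (L : V4 ≃L[ℝ] E4) :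
    ∃ C : ℝ, 0 < C ∧ ∀ (z : E4) (t : ℝ), 0 < t →
      (fun p => z + L p) '' closedBall (0 : V4) (3 * t) ⊆ ball (chartAt E4 x x) R → ∀ T : X2 M,
      ∫ p in closedBall (0 : V4) (2 * t), ‖rep x (T : F2 E4 M) (z + L p)‖ ≤
        C * ∫ y, vv x L z t y * D.nr (T : F2 E4 M) y ∂D.μ := by
  set K : Set E4 := closedBall (chartAt E4 x x) R with hKdef
  have hK : IsCompact K := isCompact_closedBall _ _
  rcases K.eq_empty_or_nonempty with he | hne
  · refine ⟨1, one_pos, fun z t ht hz T => ?_⟩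
    exfalso
    have h1 : z + L 0 ∈ ball (chartAt E4 x x) R :=
      hz ⟨0, mem_closedBall_self (by positivity), rfl⟩
    have h2 : z + L 0 ∈ K := ball_subset_closedBall h1
    rw [he] at h2
    exact h2
  obtain ⟨A, hA0, hA⟩ := Leak.rep_le_nr D x hK hsub
  have hvol := Int.dat_volF D
  obtain ⟨y1, hy1, hmin⟩ := hK.exists_isMinOn hne ((hvol.continuousOn_dens x).mono hsub)
  set w : ℝ := Int.dens D.F x y1 with hw
  have hw0 : 0 < w := hvol.dens_pos (hsub hy1)
  have hwle : ∀ y ∈ K, w ≤ Int.dens D.F x y := fun y hy => hmin hy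
  have hdt : 0 < |dt L| := abs_pos.2 (dt_ne L)
  refine ⟨(|dt L|)⁻¹ * ((A + 1) / w), by positivity, fun z t ht hz T => ?_⟩
  set b : F2 E4 M := (T : F2 E4 M) with hb
  have hbs : Smooth2 b := T.2
  have hnn : ∀ y, 0 ≤ D.nr b y := fun y => Real.sqrt_nonneg _
  set K2 : Set E4 := (fun p => z + L p) '' closedBall (0 : V4) (2 * t) with hK2
  have hK2c : IsCompact K2 := im_cpt L z (2 * t)
  have hK2K : K2 ⊆ K := by
    refine Subset.trans ?_ (hz.trans ball_subset_closedBall)
    exact image_mono (closedBall_subset_closedBall (by linarith))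
  have hK2t : K2 ⊆ (chartAt E4 x).target := hK2K.trans hsub
  have hvc : Continuous (vv x L z t) := vv_cont L ht ((hz.trans ball_subset_closedBall).trans hsub)
  have hnrc : Continuous (D.nr b) := NM.continuous_nr D hbs
  have hptw : ∀ y ∈ K2, ‖rep x b y‖ ≤ (A + 1) / w *
      (vv x L z t ((chartAt E4 x).symm y) * D.nr b ((chartAt E4 x).symm y) *
        Int.dens D.F x y) := by
    intro y hy
    have h2 : ‖rep x b y‖ ≤ A * D.nr b ((chartAt E4 x).symm y) := hA b hbs.1 y (hK2K hy)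
    have h3 : 0 ≤ D.nr b ((chartAt E4 x).symm y) := hnn _
    have h4 := hwle y (hK2K hy)
    have hs : (chartAt E4 x).symm y ∈ (chartAt E4 x).source := (chartAt E4 x).map_target (hK2t hy)
    have h5 : vv x L z t ((chartAt E4 x).symm y) = 1 := by
      rw [vv_mem L z t hs, (chartAt E4 x).right_inv (hK2t hy)]
      exact cu_one ht ((im_eq L z _).1 hy)
    rw [h5, one_mul]
    calc ‖rep x b y‖ ≤ A * D.nr b ((chartAt E4 x).symm y) := h2
      _ ≤ (A + 1) * D.nr b ((chartAt E4 x).symm y) := by gcongr; linarith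
      _ = (A + 1) / w * (D.nr b ((chartAt E4 x).symm y) * w) := by field_simp
      _ ≤ _ := by gcongr
  have hcont : ContinuousOn (fun y => rep x b y) K2 := ((hbs.2 x).continuousOn).mono hK2t
  set f : M → ℝ≥0∞ := (chartAt E4 x).source.indicator
    (fun y => ENNReal.ofReal (vv x L z t y * D.nr b y)) with hf
  have hfm : Measurable f :=
    (hvc.mul hnrc).measurable.ennreal_ofReal.indicator (chartAt E4 x).open_source.measurableSet
  have hf0 : ∀ y ∉ (chartAt E4 x).source, f y = 0 := fun y hy => indicator_of_notMem hy _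
  have hv := D.vol x f hfm hf0
  have hvn : ∀ y, 0 ≤ vv x L z t y * D.nr b y := fun y => mul_nonneg (vv_nonneg x L z t y) (hnn y)
  have hint : Integrable (fun y => vv x L z t y * D.nr b y) D.μ :=
    NM.integrable_cont D (hvc.mul hnrc)
  have hI0 : 0 ≤ ∫ y, vv x L z t y * D.nr b y ∂D.μ := integral_nonneg hvn
  have h1 : ∫⁻ y in K2, ‖rep x b y‖ₑ ≤
      ENNReal.ofReal ((A + 1) / w * ∫ y, vv x L z t y * D.nr b y ∂D.μ) := by
    calc ∫⁻ y in K2, ‖rep x b y‖ₑ
        ≤ ∫⁻ y in K2, ENNReal.ofReal ((A + 1) / w) * (f ((chartAt E4 x).symm y) *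
            ENNReal.ofReal (Int.dens D.F x y)) := by
          refine setLIntegral_mono' hK2c.measurableSet fun y hy => ?_
          have hs : (chartAt E4 x).symm y ∈ (chartAt E4 x).source :=
            (chartAt E4 x).map_target (hK2t hy)
          rw [hf, indicator_of_mem hs, ← ENNReal.ofReal_mul (hvn _),
            ← ENNReal.ofReal_mul (by positivity), ← ofReal_norm]
          exact ENNReal.ofReal_le_ofReal (hptw y hy)
      _ ≤ ∫⁻ y in (chartAt E4 x).target, ENNReal.ofReal ((A + 1) / w) *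
            (f ((chartAt E4 x).symm y) * ENNReal.ofReal (Int.dens D.F x y)) :=
          lintegral_mono_set hK2t
      _ = ENNReal.ofReal ((A + 1) / w) * ∫⁻ y, f y ∂D.μ := by
          rw [lintegral_const_mul' _ _ ENNReal.ofReal_ne_top, hv]
          rfl
      _ ≤ ENNReal.ofReal ((A + 1) / w) * ∫⁻ y, ENNReal.ofReal (vv x L z t y * D.nr b y) ∂D.μ := by
          gcongr with y
          exact indicator_le_self _ _ y
      _ = ENNReal.ofReal ((A + 1) / w) * ENNReal.ofReal (∫ y, vv x L z t y * D.nr b y ∂D.μ) := by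
          rw [← ofReal_integral_eq_lintegral_ofReal hint (Eventually.of_forall hvn)]
      _ = _ := by rw [← ENNReal.ofReal_mul (by positivity)]
  have h2 : ∫ y in K2, ‖rep x b y‖ ≤ (A + 1) / w * ∫ y, vv x L z t y * D.nr b y ∂D.μ := by
    rw [integral_norm_eq_lintegral_enorm (hcont.aestronglyMeasurable hK2c.measurableSet)]
    exact ENNReal.toReal_le_of_le_ofReal (by positivity) h1
  have h3 : ∫ y in K2, ‖rep x b y‖ =
      |dt L| * ∫ p in closedBall (0 : V4) (2 * t), ‖rep x b (z + L p)‖ := by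
    rw [← integral_indicator hK2c.measurableSet, cov_L L z,
      ← integral_indicator measurableSet_closedBall]
    congr 2
    funext p
    by_cases hp : p ∈ closedBall (0 : V4) (2 * t)
    · rw [indicator_of_mem hp, indicator_of_mem (show z + L p ∈ K2 from ⟨p, hp, rfl⟩)]
    · have hp' : z + L p ∉ K2 := by
        intro h
        have h4 := (im_eq L z _).1 h
        have h5 : z + L p - z = L p := by abel
        rw [h5, L.symm_apply_apply] at h4
        exact hp (mem_closedBall_zero_iff.2 h4)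
      rw [indicator_of_notMem hp, indicator_of_notMem hp']
  rw [h3] at h2
  rw [mul_assoc, ← div_eq_inv_mul, le_div_iff₀ hdt, mul_comm]
  exact h2

end Man

end

end Crest.Agent.R235.SwcMass_125
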