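import Crest.Agent.R235.SwcVs_34
import Crest.Agent.R235.SwcPtw_766

/-!
Row 235 (S0364), PACKAGE SWC, NODE PROD, leaf **NETC** (helper984): the densities of ONE step of a
Taubes sequence, from the weak hypotheses (`line n`, `smα n`, `secα n`, `smθ n`).

* `smooth_re`, `smooth_im` : the real and imaginary parts of `eta` are smooth one-forms
* `cont_neta`, `cont_ndb`, `cont_nal`, `neta_nonneg`, `ndb_nonneg`
* `n1_jj_le` : `|jj|² ≤ |α|² |eta|²`
-/

set_option autoImplicit false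
set_option maxSynthPendingDepth 3
set_option linter.unusedSectionVars false

open Set Function Filter MeasureTheory Metric
open scoped Manifold ContDiff Topology

universe u

namespace Crest.Agent.R235.SwcNETC_984

open Crest.Agent.R240 Crest.Agent.R240.Ch Crest.Agent.R235
open Crest.Agent.R235.SwcGlob_34 Crest.Agent.R235.SwcAlg_34 Crest.Agent.R235.SwcVs_34
open Crest.Agent.R235.Tau483

noncomputable section

variable {M : Type u} [MetricSpace M] [CompactSpace M] [ChartedSpace E4 M]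
  [IsManifold 𝓘(ℝ, E4) ∞ M] [MeasurableSpace M] [BorelSpace M] (D : Dat M) {N : ℕ}
  {Q : TSeq M N} {n : ℕ}

theorem re_eta (smα : ∀ i, ContMDiff 𝓘(ℝ, E4) 𝓘(ℝ, ℂ) ∞ (fun x => Q.α n x i)) (x : M) (i : Fin N) :
    Complex.reCLM.comp (Q.eta n x i) = at1 (reF Q n i) x := by
  ext v
  rw [ContinuousLinearMap.comp_apply, Complex.reCLM_apply, eta_apply, Complex.sub_re,
    Complex.re_sum]
  unfold reF
  rw [at1_add, at1_fmul1, Tau_692.at1_sum]
  have e1 : ((at1 (Q.θ n) x v : ℂ) * (Complex.I * Q.α n x i)).re =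
      - ((Q.α n x i).im * at1 (Q.θ n) x v) := by
    simp
    ring
  rw [e1, sub_neg_eq_add]
  congr 1
  refine Finset.sum_congr rfl fun j _ => ?_
  rw [at1_add, at1_fmul1, at1_fmul1, Complex.mul_re, dC_re (smα j), dC_im (smα j)]
  ring

theorem im_eta (smα : ∀ i, ContMDiff 𝓘(ℝ, E4) 𝓘(ℝ, ℂ) ∞ (fun x => Q.α n x i)) (x : M) (i : Fin N) :
    Complex.imCLM.comp (Q.eta n x i) = at1 (imF Q n i) x := by
  ext v
  rw [ContinuousLinearMap.comp_apply, Complex.imCLM_apply, eta_apply, Complex.sub_im,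
    Complex.im_sum]
  unfold imF
  rw [at1_add, at1_fmul1, Tau_692.at1_sum]
  have e1 : ((at1 (Q.θ n) x v : ℂ) * (Complex.I * Q.α n x i)).im =
      ((Q.α n x i).re * at1 (Q.θ n) x v) := by
    simp
    ring
  rw [e1, sub_eq_add_neg, ← neg_mul]
  congr 1
  refine Finset.sum_congr rfl fun j _ => ?_
  rw [at1_add, at1_fmul1, at1_fmul1, Complex.mul_im, dC_re (smα j), dC_im (smα j)]

theorem smooth_reF (line : IsLine (Q.p n))
    (smα : ∀ i, ContMDiff 𝓘(ℝ, E4) 𝓘(ℝ, ℂ) ∞ (fun x => Q.α n x i)) (smθ : Smooth1 (Q.θ n))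
    (i : Fin N) : Smooth1 (reF Q n i) := by
  refine Smooth1.add (Tau_692.smooth1_sum _ fun j _ => ?_) ?_
  · exact (Smooth1.fmul (SmC.re (line.smooth i j)) (Smooth1.dF (SmC.re (smα j)))).add
      (Smooth1.fmul (SmC.im (line.smooth i j)).neg (Smooth1.dF (SmC.im (smα j))))
  · exact Smooth1.fmul (SmC.im (smα i)) smθ

theorem smooth_imF (line : IsLine (Q.p n))
    (smα : ∀ i, ContMDiff 𝓘(ℝ, E4) 𝓘(ℝ, ℂ) ∞ (fun x => Q.α n x i)) (smθ : Smooth1 (Q.θ n))
    (i : Fin N) : Smooth1 (imF Q n i) := by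
  refine Smooth1.add (Tau_692.smooth1_sum _ fun j _ => ?_) ?_
  · exact (Smooth1.fmul (SmC.re (line.smooth i j)) (Smooth1.dF (SmC.im (smα j)))).add
      (Smooth1.fmul (SmC.im (line.smooth i j)) (Smooth1.dF (SmC.re (smα j))))
  · exact Smooth1.fmul (SmC.re (smα i)).neg smθ

/-- **(1)** the real part of `eta` is a smooth one-form. -/
theorem smooth_re (line : IsLine (Q.p n))
    (smα : ∀ i, ContMDiff 𝓘(ℝ, E4) 𝓘(ℝ, ℂ) ∞ (fun x => Q.α n x i)) (smθ : Smooth1 (Q.θ n))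
    (i : Fin N) : Smooth1 (fun x => (Complex.reCLM.comp (Q.eta n x i) : E4 →L[ℝ] ℝ)) := by
  have e : (fun x => (Complex.reCLM.comp (Q.eta n x i) : E4 →L[ℝ] ℝ)) = reF Q n i :=
    funext fun x => re_eta smα x i
  rw [e]
  exact smooth_reF line smα smθ i

theorem smooth_im (line : IsLine (Q.p n))
    (smα : ∀ i, ContMDiff 𝓘(ℝ, E4) 𝓘(ℝ, ℂ) ∞ (fun x => Q.α n x i)) (smθ : Smooth1 (Q.θ n))
    (i : Fin N) : Smooth1 (fun x => (Complex.imCLM.comp (Q.eta n x i) : E4 →L[ℝ] ℝ)) := by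
  have e : (fun x => (Complex.imCLM.comp (Q.eta n x i) : E4 →L[ℝ] ℝ)) = imF Q n i :=
    funext fun x => im_eta smα x i
  rw [e]
  exact smooth_imF line smα smθ i

theorem nC_eta (smα : ∀ i, ContMDiff 𝓘(ℝ, E4) 𝓘(ℝ, ℂ) ∞ (fun x => Q.α n x i)) (x : M) (i : Fin N) :
    nC D x (Q.eta n x i) = n1 D x (at1 (reF Q n i) x) + n1 D x (at1 (imF Q n i) x) := by
  unfold nC
  rw [re_eta smα, im_eta smα]

theorem cont_neta (line : IsLine (Q.p n))
    (smα : ∀ i, ContMDiff 𝓘(ℝ, E4) 𝓘(ℝ, ℂ) ∞ (fun x => Q.α n x i)) (smθ : Smooth1 (Q.θ n)) :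
    Continuous fun x => Q.neta D n x := by
  unfold TSeq.neta
  refine continuous_finsetSum _ fun i _ => ?_
  have h1 : (fun x => nC D x (Q.eta n x i)) =
      fun x => n1 D x (at1 (reF Q n i) x) + n1 D x (at1 (imF Q n i) x) :=
    funext fun x => nC_eta D smα x i
  rw [h1]
  exact (cont_n1 D (smooth_reF line smα smθ i)).add (cont_n1 D (smooth_imF line smα smθ i))

theorem nC_zt (smα : ∀ i, ContMDiff 𝓘(ℝ, E4) 𝓘(ℝ, ℂ) ∞ (fun x => Q.α n x i)) (x : M) (i : Fin N) :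
    nC D x ((Q.eta n x i).comp (atJ D.J x) - Complex.I • Q.eta n x i) =
      n1 D x (at1 ((-1 : ℝ) • jcG D.J (reF Q n i) + imF Q n i) x) +
      n1 D x (at1 ((-1 : ℝ) • jcG D.J (imF Q n i) + (-1 : ℝ) • reF Q n i) x) := by
  unfold nC
  congr 2
  · ext v
    have e1 : at1 (reF Q n i) x (atJ D.J x v) = (Q.eta n x i (atJ D.J x v)).re := by
      rw [← re_eta smα]; rfl
    have e2 : at1 (imF Q n i) x v = (Q.eta n x i v).im := by rw [← im_eta smα]; rfl
    have e3 : at1 ((-1 : ℝ) • jcG D.J (reF Q n i) + imF Q n i) x v =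
        -1 * (- at1 (reF Q n i) x (atJ D.J x v)) + at1 (imF Q n i) x v := rfl
    rw [e3, e1, e2]
    simp [Complex.reCLM_apply]
  · ext v
    have e1 : at1 (imF Q n i) x (atJ D.J x v) = (Q.eta n x i (atJ D.J x v)).im := by
      rw [← im_eta smα]; rfl
    have e2 : at1 (reF Q n i) x v = (Q.eta n x i v).re := by rw [← re_eta smα]; rfl
    have e3 : at1 ((-1 : ℝ) • jcG D.J (imF Q n i) + (-1 : ℝ) • reF Q n i) x v =
        -1 * (- at1 (imF Q n i) x (atJ D.J x v)) + -1 * at1 (reF Q n i) x v := rfl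
    rw [e3, e1, e2]
    simp [Complex.imCLM_apply]
    ring

theorem cont_ndb (line : IsLine (Q.p n))
    (smα : ∀ i, ContMDiff 𝓘(ℝ, E4) 𝓘(ℝ, ℂ) ∞ (fun x => Q.α n x i)) (smθ : Smooth1 (Q.θ n)) :
    Continuous fun x => Q.ndb D n x := by
  unfold TSeq.ndb
  refine continuous_finsetSum _ fun i _ => ?_
  have h1 : (fun x => nC D x ((Q.eta n x i).comp (atJ D.J x) - Complex.I • Q.eta n x i)) =
      fun x => n1 D x (at1 ((-1 : ℝ) • jcG D.J (reF Q n i) + imF Q n i) x) +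
      n1 D x (at1 ((-1 : ℝ) • jcG D.J (imF Q n i) + (-1 : ℝ) • reF Q n i) x) :=
    funext fun x => nC_zt D smα x i
  rw [h1]
  have hr := smooth_reF line smα smθ i
  have hi := smooth_imF line smα smθ i
  exact (cont_n1 D (((smooth_jcG D.smJ hr).smul (-1)).add hi)).add
    (cont_n1 D (((smooth_jcG D.smJ hi).smul (-1)).add (hr.smul (-1))))

theorem n1_nonneg (x : M) (c : E4 →L[ℝ] ℝ) : 0 ≤ n1 D x c := m1_nonneg (D.sq x) (En4.spos D x) c

theorem nC_nonneg (x : M) (c : E4 →L[ℝ] ℂ) : 0 ≤ nC D x c := mC_nonneg (D.sq x) (En4.spos D x) c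

theorem neta_nonneg (x : M) : 0 ≤ Q.neta D n x := Finset.sum_nonneg fun _ _ => nC_nonneg D x _

theorem ndb_nonneg (x : M) : 0 ≤ Q.ndb D n x := Finset.sum_nonneg fun _ _ => nC_nonneg D x _

theorem nal_nonneg (x : M) : 0 ≤ Q.nal n x := Finset.sum_nonneg fun _ _ => sq_nonneg _

theorem smooth_nal (smα : ∀ i, ContMDiff 𝓘(ℝ, E4) 𝓘(ℝ, ℂ) ∞ (fun x => Q.α n x i)) :
    SmoothF E4 fun x => Q.nal n x := by
  have h1 : (fun x => Q.nal n x) =
      fun x => ∑ i, ((Q.α n x i).re * (Q.α n x i).re + (Q.α n x i).im * (Q.α n x i).im) := by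
    funext x
    unfold TSeq.nal
    refine Finset.sum_congr rfl fun i _ => ?_
    rw [← Complex.normSq_eq_norm_sq, Complex.normSq_apply]
  rw [h1, ← smoothF_iff]
  refine ContMDiff.sum fun i _ => ?_
  exact ((smoothF_iff _).2 (En4.sF_add (En4.sF_mul (SmC.re (smα i)) (SmC.re (smα i)))
    (En4.sF_mul (SmC.im (smα i)) (SmC.im (smα i)))))

theorem cont_nal (smα : ∀ i, ContMDiff 𝓘(ℝ, E4) 𝓘(ℝ, ℂ) ∞ (fun x => Q.α n x i)) :
    Continuous fun x => Q.nal n x := En4.sF_continuous (smooth_nal smα)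

/-- Cauchy-Schwarz for a combination of complex covectors. -/
theorem m1_comb {J : E4 →L[ℝ] E4} {F : Bil} (hJ : ∀ v, J (J v) = -v) (hF : SPos J F) {ι : Type*}
    (s : Finset ι) (a : ι → ℂ) (η : ι → E4 →L[ℝ] ℂ) :
    m1 J F (∑ i ∈ s, ((a i).re • (Complex.imCLM.comp (η i)) -
      (a i).im • (Complex.reCLM.comp (η i)))) ≤ (∑ i ∈ s, ‖a i‖ ^ 2) * ∑ i ∈ s, mC J F (η i) := by
  obtain ⟨A, hA⟩ := exists_frame hJ hF
  have e1 : ∀ c : E4 →L[ℝ] ℝ, m1 J F c = ∑ k : Fin 4, c (A (ee k)) ^ 2 := by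
    intro c
    rw [m1_frame hF hA, Fin.sum_univ_four]
    rfl
  have e2 : ∑ i ∈ s, mC J F (η i) =
      ∑ k : Fin 4, ∑ i ∈ s, (((η i) (A (ee k))).re ^ 2 + ((η i) (A (ee k))).im ^ 2) := by
    rw [Finset.sum_comm]
    refine Finset.sum_congr rfl fun i _ => ?_
    unfold mC
    rw [e1, e1, ← Finset.sum_add_distrib]
    rfl
  rw [e1, e2, Finset.mul_sum]
  refine Finset.sum_le_sum fun k _ => ?_
  set v := A (ee k)
  have e3 : (∑ i ∈ s, ((a i).re • (Complex.imCLM.comp (η i)) -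
      (a i).im • (Complex.reCLM.comp (η i)))) v =
      ∑ i ∈ s, ((a i).re * ((η i) v).im - (a i).im * ((η i) v).re) := by
    rw [sum_apply]
    rfl
  rw [e3]
  have e4 : ∀ i, |(a i).re * ((η i) v).im - (a i).im * ((η i) v).re| ≤ ‖a i‖ * ‖(η i) v‖ := by
    intro i
    have h1 : (a i).re * ((η i) v).im - (a i).im * ((η i) v).re =
        ((starRingEnd ℂ) (a i) * (η i) v).im := by
      simp only [Complex.mul_im, Complex.conj_re, Complex.conj_im]
      ring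
    rw [h1]
    refine (Complex.abs_im_le_norm _).trans ?_
    rw [norm_mul, Complex.norm_conj]
  have e5 : ∀ i, ((η i) v).re ^ 2 + ((η i) v).im ^ 2 = ‖(η i) v‖ ^ 2 := by
    intro i
    rw [← Complex.normSq_eq_norm_sq, Complex.normSq_apply]
    ring
  simp only [e5]
  have e6 : |∑ i ∈ s, ((a i).re * ((η i) v).im - (a i).im * ((η i) v).re)| ≤
      ∑ i ∈ s, ‖a i‖ * ‖(η i) v‖ :=
    (Finset.abs_sum_le_sum_abs _ _).trans (Finset.sum_le_sum fun i _ => e4 i)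
  rw [← sq_abs]
  exact (pow_le_pow_left₀ (abs_nonneg _) e6 2).trans
    (Finset.sum_mul_sq_le_sq_mul_sq s (fun i => ‖a i‖) (fun i => ‖(η i) v‖))

/-- `|jj|² ≤ |α|² |eta|²`. -/
theorem n1_jj_le (x : M) : n1 D x (at1 (Q.jj n) x) ≤ Q.nal n x * Q.neta D n x :=
  m1_comb (D.sq x) (En4.spos D x) Finset.univ (Q.α n x) (Q.eta n x)

theorem pf_sum_alt {ι : Type*} (s : Finset ι) (η : ι → E4 →L[ℝ] ℂ) :
    Alt (∑ i ∈ s, pf (η i)) := by
  classical
  intro v
  induction s using Finset.induction_on with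
  | empty => simp
  | insert a s ha ih =>
    rw [Finset.sum_insert ha]
    show pf (η a) v v + (∑ i ∈ s, pf (η i)) v v = 0
    rw [ih, pf_alt, add_zero]

theorem nr_pf_sum {J : E4 →L[ℝ] E4} {F : Bil} (hJ : ∀ v, J (J v) = -v) (hF : SPos J F)
    {ι : Type*} (s : Finset ι) (η : ι → E4 →L[ℝ] ℂ) :
    nr J F (∑ i ∈ s, pf (η i)) ≤ ∑ i ∈ s, mC J F (η i) := by
  classical
  induction s using Finset.induction_on with
  | empty =>
    rw [Finset.sum_empty, Finset.sum_empty]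
    exact (SwcAlg_34.nr_zero J F).le
  | insert a s ha ih =>
    rw [Finset.sum_insert ha, Finset.sum_insert ha]
    exact (SwcAlg_34.nr_add_le hJ hF (pf_alt _) (pf_sum_alt s η)).trans
      (add_le_add (nr_pf hJ hF _) ih)

/-- the Prop of helper215 (`SwcPRD_215`). -/
def NETC : Prop :=
  ∀ (M : Type u) [MetricSpace M] [CompactSpace M] [ChartedSpace E4 M]
    [IsManifold 𝓘(ℝ, E4) ∞ M] [MeasurableSpace M] [BorelSpace M]
    (D : Crest.Agent.R240.Dat M) (N : ℕ) (Q : TSeq M N) (n : ℕ), IsLine (Q.p n) →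
    IsChern (Q.p n) (Q.a0 n) → (∀ i, ContMDiff 𝓘(ℝ, E4) 𝓘(ℝ, ℂ) ∞ (fun x => Q.α n x i)) →
    (∀ x, (Q.p n x).mulVec (Q.α n x) = Q.α n x) → Smooth1 (Q.θ n) →
    Continuous (Q.nal n) ∧ Continuous (Q.neta D n) ∧ (∀ x, 0 ≤ Q.neta D n x) ∧
    Continuous (Q.ndb D n) ∧
    (∀ x, n1 D x (at1 (Q.jj n) x) ≤ Q.nal n x * Q.neta D n x) ∧
    ∀ x, D.nr (Q.Psi n) x ≤ |1 - Q.nal n x| * D.nr (Q.Phi n) x + Q.neta D n x

theorem netc : NETC.{u} := by
  intro M _ _ _ _ _ _ D N Q n line chern smα secα smθ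
  obtain ⟨-, hPhi, -, -, -, hP⟩ := SwcPtw_766.ptw_weak Q n line chern smα secα smθ
  refine ⟨cont_nal smα, cont_neta D line smα smθ, neta_nonneg D, cont_ndb D line smα smθ,
    n1_jj_le D, fun x => ?_⟩
  have e1 : D.nr (Q.Psi n) x = nr (atJ D.J x) (at2 D.F x) (at2 (Q.Psi n) x) := rfl
  have e2 : D.nr (Q.Phi n) x = nr (atJ D.J x) (at2 D.F x) (at2 (Q.Phi n) x) := rfl
  have e3 : (2 : ℝ) • ∑ i, wed (Complex.reCLM.comp (Q.eta n x i))
      (Complex.imCLM.comp (Q.eta n x i)) = ∑ i, pf (Q.eta n x i) := Finset.smul_sum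
  have hal : Alt ((1 - Q.nal n x) • at2 (Q.Phi n) x) := by
    intro v
    show (1 - Q.nal n x) * at2 (Q.Phi n) x v v = 0
    rw [hPhi.1 x v, mul_zero]
  rw [e1, e2, hP x, e3]
  refine (SwcAlg_34.nr_add_le (D.sq x) (En4.spos D x) hal (pf_sum_alt _ _)).trans ?_
  rw [SwcAlg_34.nr_smul]
  exact add_le_add le_rfl (nr_pf_sum (D.sq x) (En4.spos D x) _ _)

end

end Crest.Agent.R235.SwcNETC_984
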