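import Crest.Agent.R235.TauE_483

/-!
Row 235 (S0364), SW-TAU (helper483), part F: adapted frames, the Clifford product in a frame, and the
pointwise identities `|c(∇^E s)|² = |∇^E s|² - 2σ ∑ n_k q(e_k, hwI)`.
-/

set_option autoImplicit false
set_option maxSynthPendingDepth 3
set_option linter.unusedSectionVars false

open scoped ContDiff ENNReal NNReal Topology Manifold Bundle RealInnerProductSpace
open MeasureTheory Set Filter Metric Bundle Matrix

universe v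

namespace Crest.Agent.R235.Tau483

open Crest.Agent.R240 Crest.Agent.R240.Ch Crest.Agent.R235.SWDefs_53 Crest.Agent.R235.IndTri_451
open Crest.Agent.R249.Tv57 (Dat OpPair SmF Spec)
open Crest.Agent.R247.Ms322 (Gr)
open Crest.Agent.R249.Vf281 (VSm mCov)
open Crest.Agent.R247.Bo84 (mgrad inner_mgrad)
open Crest.Agent.R249.Tz805 (ToF)

noncomputable section

/-! ### frames in `ℝ⁴` -/

section Lin

theorem q_frame {g : Bil} {e : Fin 3 → Bil} {I : Fin 3 → E4 →L[ℝ] E4} {T : E4 →L[ℝ] E4}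
    (H : Fr g e I T) (he : ∀ k, Alt (e k)) (k : Fin 3) {β : Bil} (hβ : Alt β) :
    ∑ i, ∑ j, e k (T (ee i)) (T (ee j)) * β (T (ee i)) (T (ee j)) = 4 * q (e 0) (e k) β := by
  have h1 : W (pull T (e k)) (pull T β) = 2 * q (e 0) (e k) β := by
    rw [W_pull (he k) hβ]
    unfold q
    have h2 := H.det
    have h3 : W (e 0) (e 0) ≠ 0 := by
      intro h0
      rw [h0, zero_mul] at h2
      exact two_ne_zero h2.symm
    field_simp
    linear_combination (W (e k) β) * h2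
  have h2 : 4 * q (e 0) (e k) β = 2 * W (pull T (e k)) (pull T β) := by rw [h1]; ring
  rw [h2]
  have b0 : ∀ i j, β (T (ee i)) (T (ee j)) = ent (pull T β) i j := fun i j => (pull_apply _ _ _ _).symm
  have e0 : ∀ i j, e k (T (ee i)) (T (ee j)) = ent (pull T (e k)) i j :=
    fun i j => (pull_apply _ _ _ _).symm
  have hβ' : Alt (pull T β) := fun v => by rw [pull_apply]; exact hβ _
  have he' : Alt (pull T (e k)) := fun v => by rw [pull_apply]; exact he _ _
  simp only [b0]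
  have hk : ∀ i j, ent (pull T (e k)) i j = e k (T (ee i)) (T (ee j)) :=
    fun i j => pull_apply _ _ _ _
  unfold W
  fin_cases k
  · simp only [hk]
    simp only [Fin.zero_eta, Fin.isValue, H.e0, ee_apply, Fin.sum_univ_four]
    simp [hβ'.ent_swap 1 0, hβ'.ent_swap 3 2]
    ring
  · simp only [hk]
    simp only [Fin.mk_one, Fin.isValue, H.e1, ee_apply, Fin.sum_univ_four]
    simp [hβ'.ent_swap 2 0, hβ'.ent_swap 3 1]
    ring
  · simp only [hk]
    simp only [Fin.reduceFinMk, Fin.isValue, H.e2, ee_apply, Fin.sum_univ_four]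
    simp [hβ'.ent_swap 3 0, hβ'.ent_swap 2 1]
    ring

theorem antisym {ε x : Fin 4 → Fin 4 → ℝ} (hε : ∀ i j, ε i j = - ε j i) :
    ∑ i, ∑ j, ε i j * x i j = (1 / 2) * ∑ i, ∑ j, ε i j * (x i j - x j i) := by
  have h1 : ∑ i, ∑ j, ε i j * x j i = - ∑ i, ∑ j, ε i j * x i j := by
    rw [Finset.sum_comm, ← Finset.sum_neg_distrib]
    refine Finset.sum_congr rfl fun i _ => ?_
    rw [← Finset.sum_neg_distrib]
    refine Finset.sum_congr rfl fun j _ => ?_
    rw [hε j i]; ring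
  simp only [mul_sub, Finset.sum_sub_distrib]
  rw [h1]; ring

end Lin

variable {M : Type v} [MetricSpace M] [CompactSpace M] [ConnectedSpace M]
  [ChartedSpace (EuclideanSpace ℝ (Fin 4)) M] [IsManifold (𝓡 4) ∞ M]
  [RiemannianBundle (fun p : M => TangentSpace (𝓡 4) p)]
  [IsContMDiffRiemannianBundle (𝓡 4) ∞ (EuclideanSpace ℝ (Fin 4))
    (fun p : M => TangentSpace (𝓡 4) p)]
  [IsRiemannianManifold (𝓡 4) M] [MeasurableSpace M] [BorelSpace M]
  [SecondCountableTopology M] [Nonempty M]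
  {κ0 κ1 κT : Type} [Fintype κ0] [Fintype κ1] [Fintype κT]

/-- a unit vector. -/
def u0 (e : Fin 3 → F2 E4 M) (z : M) : E4 := (√(at2 (gg e) z (ee 0) (ee 0)))⁻¹ • ee 0

/-- the adapted frame. -/
def frT (e : Fin 3 → F2 E4 M) (z : M) : E4 →L[ℝ] E4 :=
  frm (at2 (e 1) z) (at2 (e 2) z) (at2 (e 0) z) (u0 e z)

/-- the adapted frame. -/
def vf (e : Fin 3 → F2 E4 M) (z : M) (i : Fin 4) : TangentSpace (𝓡 4) z := (frT e z (ee i) : E4)

theorem ee_ne (i : Fin 4) : (ee i : E4) ≠ 0 := by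
  intro h0
  have := congrArg (fun z : E4 => z i) h0
  simp at this

section tri

variable {w e : Fin 3 → F2 E4 M}

theorem u0_unit (h : IsTri w e) (z : M) : at2 (gg e) z (u0 e z) (u0 e z) = 1 := by
  have h1 := h.pos z (ee 0) (ee_ne 0)
  unfold u0
  rw [map_smul, map_smul, _root_.smul_apply, smul_eq_mul, smul_eq_mul]
  have h2 := Real.mul_self_sqrt h1.le
  have h3 := (Real.sqrt_pos.2 h1).ne'
  field_simp
  nlinarith

theorem fr_of (h : IsTri w e) (z : M) :
    Fr (at2 (gg e) z) (fun i => at2 (e i) z) (fun i => atJ (II e i) z) (frT e z) :=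
  h.fr z (u0_unit h z)

theorem q_vf (h : IsTri w e) (k : Fin 3) (z : M) {β : Bil} (hβ : Alt β) :
    ∑ i, ∑ j, at2 (e k) z (vf e z i) (vf e z j) * β (vf e z i) (vf e z j) =
      4 * q (at2 (w 0) z) (at2 (e k) z) β := by
  have h1 := q_frame (fr_of h z) (fun k => (h.smooth k).1 z) k hβ
  rw [h.e_zero] at h1
  exact h1

theorem g_vf (h : IsTri w e) (z : M) (i j : Fin 4) :
    at2 (gg e) z (vf e z i) (vf e z j) = if i = j then 1 else 0 := by
  refine ((fr_of h z).g (ee i) (ee j)).trans ?_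
  fin_cases i <;> fin_cases j <;> simp

end tri

section frame

variable {w e : Fin 3 → F2 E4 M} (h : IsTri w e)
  (hg : ∀ (x : M) (u v : TangentSpace (𝓡 4) x), inner ℝ u v = at2 (gg e) x u v)
include h hg

theorem inner_vf (z : M) (i j : Fin 4) :
    inner ℝ (vf e z i) (vf e z j) = if i = j then (1 : ℝ) else 0 := (hg z _ _).trans (g_vf h z i j)

theorem sum_vf (z : M) (v : TangentSpace (𝓡 4) z) :
    ∑ i, (inner ℝ (vf e z i) v : ℝ) • vf e z i = v :=
  Crest.Agent.R249.Tz2_805.sum_frame (n := 4) (inner_vf h hg z) v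

theorem inner_sum_vf (T : ToF 4 M) (z : M) (G H : EuclideanSpace ℝ (Fin 4)) :
    ⟪G, H⟫ = ∑ i, ⟪G, T.toF z (vf e z i)⟫ * ⟪H, T.toF z (vf e z i)⟫ := by
  have hon : Orthonormal ℝ fun i => T.toF z (vf e z i) := by
    rw [orthonormal_iff_ite]
    intro i j
    rw [T.inner_toF]
    exact inner_vf h hg z i j
  have hfr : Module.finrank ℝ (EuclideanSpace ℝ (Fin 4)) = 4 := finrank_euclideanSpace_fin
  have hsp : ⊤ ≤ Submodule.span ℝ (Set.range fun i => T.toF z (vf e z i)) := by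
    have := hon.linearIndependent.span_eq_top_of_card_eq_finrank'
      (by rw [Fintype.card_fin]; exact hfr.symm)
    rw [this]
  have h1 := (OrthonormalBasis.mk hon hsp).sum_inner_mul_inner G H
  rw [← h1]
  refine Finset.sum_congr rfl fun i _ => ?_
  rw [OrthonormalBasis.coe_mk, real_inner_comm H]

theorem inner_toF_sum (T : ToF 4 M) (z : M) (G : EuclideanSpace ℝ (Fin 4))
    (X : TangentSpace (𝓡 4) z) :
    ⟪G, T.toF z X⟫ = ∑ i, ⟪G, T.toF z (vf e z i)⟫ * (inner ℝ X (vf e z i) : ℝ) := by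
  rw [inner_sum_vf h hg T z]
  exact Finset.sum_congr rfl fun i _ => by rw [T.inner_toF]

end frame

/-! ### the Clifford product -/

section cl

variable [IsFiniteMeasureOnCompacts (μHE[4] : Measure M)]
  {τ : TD M κT} {S : SWS M κ0 κ1 κT} {T : ToF 4 M}
    {cc : κ1 → κ0 → (z : M) → TangentSpace (𝓡 4) z}
    {W : κ0 → κ0 → (z : M) → TangentSpace (𝓡 4) z}
    {sT : κT → (z : M) → TangentSpace (𝓡 4) z} {w : Trip M} {e : Fin 3 → F2 E4 M}
    {σ ι : ℝ}

/-- the Clifford matrices of the frame. -/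
def Cm (cc : κ1 → κ0 → (z : M) → TangentSpace (𝓡 4) z) (e : Fin 3 → F2 E4 M) (z : M) (i : Fin 4) :
    Matrix κ1 κ0 ℝ := fun x y => inner ℝ (cc x y z) (vf e z i)

/-- the entries of `e_k` in the frame. -/
def ek (e : Fin 3 → F2 E4 M) (z : M) (k : Fin 3) (i j : Fin 4) : ℝ :=
  at2 (e k) z (vf e z i) (vf e z j)

theorem ek_skew (h : TG S T cc W sT w e σ ι) (z : M) (k : Fin 3) (i j : Fin 4) :
    ek e z k i j = - ek e z k j i := Alt.swap ((h.tri.smooth k).1 z) _ _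

theorem Cm_mul (h : TG S T cc W sT w e σ ι) (z : M) (i j : Fin 4) :
    (Cm cc e z i)ᵀ * Cm cc e z j = (if i = j then (1 : ℝ) else 0) • Pm S z +
      σ • ∑ k, ek e z k i j • (Jm S z * Rm S z k) := by
  ext y y'
  rw [Matrix.mul_apply]
  refine (h.clf z (vf e z i) (vf e z j) y y').trans ?_
  rw [inner_vf h.tri h.met, Matrix.add_apply, Matrix.smul_apply, Matrix.smul_apply,
    Matrix.sum_apply]
  congr 1

/-- the Clifford product of `G : κ0 → 𝔼`. -/
def clG (T : ToF 4 M) (cc : κ1 → κ0 → (z : M) → TangentSpace (𝓡 4) z) (z : M)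
    (G : κ0 → EuclideanSpace ℝ (Fin 4)) (x : κ1) : ℝ := ∑ y, ⟪G y, T.toF z (cc x y z)⟫

/-- the components of `G : κ0 → 𝔼` in the frame. -/
def Gf (T : ToF 4 M) (e : Fin 3 → F2 E4 M) (z : M) (G : κ0 → EuclideanSpace ℝ (Fin 4)) (i : Fin 4)
    (y : κ0) : ℝ := ⟪G y, T.toF z (vf e z i)⟫

theorem clG_eq (h : TG S T cc W sT w e σ ι) (z : M) (G : κ0 → EuclideanSpace ℝ (Fin 4)) :
    clG T cc z G = ∑ i, Cm cc e z i *ᵥ Gf T e z G i := by
  funext x
  rw [Finset.sum_apply]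
  show _ = ∑ i, ∑ y, Cm cc e z i x y * Gf T e z G i y
  rw [Finset.sum_comm]
  unfold clG
  refine Finset.sum_congr rfl fun y _ => ?_
  rw [inner_toF_sum h.tri h.met]
  exact Finset.sum_congr rfl fun i _ => mul_comm _ _

theorem sum_norm_sq (h : TG S T cc W sT w e σ ι) (z : M) (G : κ0 → EuclideanSpace ℝ (Fin 4)) :
    ∑ y, ‖G y‖ ^ 2 = ∑ i, Gf T e z G i ⬝ᵥ Gf T e z G i := by
  have h1 : ∀ y, ‖G y‖ ^ 2 = ∑ i, Gf T e z G i y * Gf T e z G i y := by
    intro y
    rw [← real_inner_self_eq_norm_sq]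
    exact inner_sum_vf h.tri h.met T z _ _
  simp only [h1]
  rw [Finset.sum_comm]
  rfl

/-- the hermitian wedge of `∇^E s`, `∇^E b`, real part. -/
def HR (τ : TD M κT) (S : SWS M κ0 κ1 κT) (W : κ0 → κ0 → (z : M) → TangentSpace (𝓡 4) z)
    (sT : κT → (z : M) → TangentSpace (𝓡 4) z) (e : Fin 3 → F2 E4 M) (a : κT → M → ℝ)
    (s b : κ0 → M → ℝ) (z : M) : Bil :=
  hwR (nX (PEf τ S) (tF τ S W sT e a) (hatf S s) z) (nY (PEf τ S) (tF τ S W sT e a) (hatf S s) z)
    (nX (PEf τ S) (tF τ S W sT e a) (hatf S b) z) (nY (PEf τ S) (tF τ S W sT e a) (hatf S b) z)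

/-- the hermitian wedge of `∇^E s`, `∇^E b`, imaginary part. -/
def HI (τ : TD M κT) (S : SWS M κ0 κ1 κT) (W : κ0 → κ0 → (z : M) → TangentSpace (𝓡 4) z)
    (sT : κT → (z : M) → TangentSpace (𝓡 4) z) (e : Fin 3 → F2 E4 M) (a : κT → M → ℝ)
    (s b : κ0 → M → ℝ) (z : M) : Bil :=
  hwI (nX (PEf τ S) (tF τ S W sT e a) (hatf S s) z) (nY (PEf τ S) (tF τ S W sT e a) (hatf S s) z)
    (nX (PEf τ S) (tF τ S W sT e a) (hatf S b) z) (nY (PEf τ S) (tF τ S W sT e a) (hatf S b) z)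

section pt

variable (hS : S.OK) (h : TG S T cc W sT w e σ ι) (nn : ∀ z, ∑ k, τ.n k z ^ 2 = 1)
  (a : κT → M → ℝ) {s b : κ0 → M → ℝ} (hsm : Crest.Agent.R249.Tv57.SmV (n := 4) s)
  (hs : τ.SecE S s) (hbm : Crest.Agent.R249.Tv57.SmV (n := 4) b) (hb : τ.SecE S b) (z : M)
include hS h nn hsm hs hbm hb

theorem HR_apply (u v : TangentSpace (𝓡 4) z) : HR τ S W sT e a s b z u v =
    gE τ S T a s z u ⬝ᵥ gE τ S T a b z v - gE τ S T a s z v ⬝ᵥ gE τ S T a b z u := by
  have hA := al_of hS h (n := nv τ z) z (nn z)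
  have h1 : HR τ S W sT e a s b z u v = _ := hwR_eq _ _ _ z u v
  rw [h1]
  unfold hw
  rw [← hat_gE hS h nn a hsm hs z u, ← hat_gE hS h nn a hsm hs z v,
    ← hat_gE hS h nn a hbm hb z u, ← hat_gE hS h nn a hbm hb z v,
    hA.hp_hat (inE_gE hS h nn a hb z v).1, hA.hp_hat (inE_gE hS h nn a hb z u).1]
  simp

theorem HI_apply (u v : TangentSpace (𝓡 4) z) : HI τ S W sT e a s b z u v =
    gE τ S T a s z u ⬝ᵥ (Jm S z *ᵥ gE τ S T a b z v) -
      gE τ S T a s z v ⬝ᵥ (Jm S z *ᵥ gE τ S T a b z u) := by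
  have hA := al_of hS h (n := nv τ z) z (nn z)
  have h1 : HI τ S W sT e a s b z u v = _ := hwI_eq _ _ _ z u v
  rw [h1]
  unfold hw
  rw [← hat_gE hS h nn a hsm hs z u, ← hat_gE hS h nn a hsm hs z v,
    ← hat_gE hS h nn a hbm hb z u, ← hat_gE hS h nn a hbm hb z v,
    hA.hp_hat (inE_gE hS h nn a hb z v).1, hA.hp_hat (inE_gE hS h nn a hb z u).1]
  simp

theorem sum_HR (k : Fin 3) : ∑ i, ∑ j, ek e z k i j *
    (gE τ S T a s z (vf e z i) ⬝ᵥ gE τ S T a b z (vf e z j)) =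
      2 * q (at2 ((w 0).1.1 : F2 E4 M) z) (at2 (e k) z) (HR τ S W sT e a s b z) := by
  rw [antisym (ek_skew h z k)]
  have hal : Alt (HR τ S W sT e a s b z) := fun v => by
    have := HR_apply hS h nn a hsm hs hbm hb z (v : TangentSpace (𝓡 4) z) v
    rw [sub_self] at this
    exact this
  have h1 := q_vf h.tri k z hal
  have h2 : ∑ i, ∑ j, ek e z k i j *
    (gE τ S T a s z (vf e z i) ⬝ᵥ gE τ S T a b z (vf e z j) -
      gE τ S T a s z (vf e z j) ⬝ᵥ gE τ S T a b z (vf e z i)) =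
      ∑ i, ∑ j, at2 (e k) z (vf e z i) (vf e z j) *
        HR τ S W sT e a s b z (vf e z i) (vf e z j) :=
    Finset.sum_congr rfl fun i _ => Finset.sum_congr rfl fun j _ => by
      have := HR_apply hS h nn a hsm hs hbm hb z (vf e z i) (vf e z j)
      rw [← this]
      rfl
  rw [h2, h1]
  ring

theorem sum_HI (k : Fin 3) : ∑ i, ∑ j, ek e z k i j *
    (gE τ S T a s z (vf e z i) ⬝ᵥ (Jm S z *ᵥ gE τ S T a b z (vf e z j))) =
      2 * q (at2 ((w 0).1.1 : F2 E4 M) z) (at2 (e k) z) (HI τ S W sT e a s b z) := by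
  rw [antisym (ek_skew h z k)]
  have hal : Alt (HI τ S W sT e a s b z) := fun v => by
    have := HI_apply hS h nn a hsm hs hbm hb z (v : TangentSpace (𝓡 4) z) v
    rw [sub_self] at this
    exact this
  have h1 := q_vf h.tri k z hal
  have h2 : ∑ i, ∑ j, ek e z k i j *
    (gE τ S T a s z (vf e z i) ⬝ᵥ (Jm S z *ᵥ gE τ S T a b z (vf e z j)) -
      gE τ S T a s z (vf e z j) ⬝ᵥ (Jm S z *ᵥ gE τ S T a b z (vf e z i))) =
      ∑ i, ∑ j, at2 (e k) z (vf e z i) (vf e z j) *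
        HI τ S W sT e a s b z (vf e z i) (vf e z j) :=
    Finset.sum_congr rfl fun i _ => Finset.sum_congr rfl fun j _ => by
      have := HI_apply hS h nn a hsm hs hbm hb z (vf e z i) (vf e z j)
      rw [← this]
      rfl
  rw [h2, h1]
  ring

/-- `|c(∇^E s)|²`, polarised. -/
theorem cl_sq : ∑ x, clG T cc z (fun y => τ.nE S a s y z) x * clG T cc z (fun y => τ.nE S a b y z) x =
    ∑ y, ⟪τ.nE S a s y z, τ.nE S a b y z⟫ -
      σ * ∑ k, τ.n k z * (2 * q (at2 ((w 0).1.1 : F2 E4 M) z) (at2 (e k) z) (HI τ S W sT e a s b z)) := by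
  have hA := al_of hS h (n := nv τ z) z (nn z)
  rw [clG_eq h, clG_eq h]
  have h1 := hA.clif_sq (Cm_mul h z) (G := fun i => gE τ S T a s z (vf e z i))
    (K := fun i => gE τ S T a b z (vf e z i)) (fun i => inE_gE hS h nn a hs z _)
    (fun i => inE_gE hS h nn a hb z _)
  simp only [sum_HI hS h nn a hsm hs hbm hb z] at h1
  have h2 : ∑ y, ⟪τ.nE S a s y z, τ.nE S a b y z⟫ =
      ∑ i, gE τ S T a s z (vf e z i) ⬝ᵥ gE τ S T a b z (vf e z i) := by
    simp only [dotProduct]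
    rw [Finset.sum_comm]
    exact Finset.sum_congr rfl fun y _ => inner_sum_vf h.tri h.met T z _ _
  rw [h2]
  exact h1

end pt

end cl

end

end Crest.Agent.R235.Tau483
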