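import Crest.Agent.R235.SwcProd3_215
import Crest.Agent.R235.SWUni_312
import Crest.Agent.R235.TauF_483
import Crest.Agent.R240.ChDens

/-!
Row 235 (S0364), PACKAGE SWC, NODE PROD (leader helper215), leaf PRB (helper766): `e1`, `e2`, `o3`.

Part a: linear algebra, nonnegativity of `n1`.
-/

set_option autoImplicit false
set_option maxSynthPendingDepth 3
set_option linter.unusedSectionVars false

open scoped ContDiff ENNReal NNReal Topology Manifold Bundle RealInnerProductSpace
open MeasureTheory Set Filter Metric Bundle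

universe v

namespace Crest.Agent.R235.SwcPRB_766

open Crest.Agent.R240 Crest.Agent.R240.Ch Crest.Agent.R235 Crest.Agent.R235.SWDefs_53
open Crest.Agent.R235.IndTri_451 Crest.Agent.R235.Tau483 Crest.Agent.R235.SwcGlob_34
open Crest.Agent.R235.SwcProd_215
open Crest.Agent.R249.Tv57 (OpPair SmF SmV KerD)
open Crest.Agent.R249.Tz805 (ToF)
open Crest.Agent.R247.Ms322 (Gr)

noncomputable section

/-! ### combinations of the `I_k` -/

section tri

variable {M : Type v} [TopologicalSpace M] [T2Space M] [CompactSpace M] [ChartedSpace E4 M]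
  [IsManifold 𝓘(ℝ, E4) ∞ M] {w e : Fin 3 → F2 E4 M}

/-- `∑ m_k I_k`. -/
def JX (e : Fin 3 → F2 E4 M) (m : Fin 3 → ℝ) (x : M) : E4 →L[ℝ] E4 := ∑ k, m k • atJ (II e k) x

theorem JX_apply (m : Fin 3 → ℝ) (x : M) (v : E4) :
    JX e m x v = m 0 • atJ (II e 0) x v + m 1 • atJ (II e 1) x v + m 2 • atJ (II e 2) x v := by
  unfold JX
  rw [Fin.sum_univ_three]
  rfl

theorem JX_sq (h : IsTri w e) (m : Fin 3 → ℝ) (x : M) (v : E4) :
    JX e m x (JX e m x v) = -((m 0 ^ 2 + m 1 ^ 2 + m 2 ^ 2) • v) := by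
  have h00 := h.I_sq 0 x v
  have h11 := h.I_sq 1 x v
  have h22 := h.I_sq 2 x v
  have h01 : atJ (II e 0) x (atJ (II e 1) x v) = atJ (II e 2) x v := h.I_mul 0 x v
  have h12 : atJ (II e 1) x (atJ (II e 2) x v) = atJ (II e 0) x v := h.I_mul 1 x v
  have h20 : atJ (II e 2) x (atJ (II e 0) x v) = atJ (II e 1) x v := h.I_mul 2 x v
  have h10 : atJ (II e 1) x (atJ (II e 0) x v) = - atJ (II e 2) x v := h.I_mul' 0 x v
  have h21 : atJ (II e 2) x (atJ (II e 1) x v) = - atJ (II e 0) x v := h.I_mul' 1 x v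
  have h02 : atJ (II e 0) x (atJ (II e 2) x v) = - atJ (II e 1) x v := h.I_mul' 2 x v
  rw [JX_apply m x (JX e m x v), JX_apply m x v]
  simp only [map_add, map_smul, h00, h11, h22, h01, h12, h20, h10, h21, h02]
  module

theorem g_JX (h : IsTri w e) (m : Fin 3 → ℝ) (x : M) (v : E4) :
    at2 (gg e) x (JX e m x v) (JX e m x v) = (m 0 ^ 2 + m 1 ^ 2 + m 2 ^ 2) * at2 (gg e) x v v := by
  have hsk : ∀ u u' : E4, at2 (gg e) x (JX e m x u) u' = - at2 (gg e) x u (JX e m x u') := by
    intro u u'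
    rw [JX_apply, JX_apply]
    simp only [map_add, map_smul, add_apply, smul_apply, smul_eq_mul, h.g_skew]
    ring
  rw [hsk, JX_sq h]
  simp only [map_neg, map_smul, smul_eq_mul]
  ring

end tri

/-! ### nonnegativity of `n1` -/

section n1

variable {M : Type v} [MetricSpace M] [CompactSpace M] [ChartedSpace E4 M]
  [IsManifold 𝓘(ℝ, E4) ∞ M] [MeasurableSpace M] [BorelSpace M]

theorem n1_nonneg (D : Crest.Agent.R240.Dat M) (x : M) (c : E4 →L[ℝ] ℝ) : 0 ≤ SwcGlob_34.n1 D x c := by
  obtain ⟨m, m', h⟩ := Crest.Agent.R240.ChDens.exists_Bd (D := D) x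
    (K := {chartAt E4 x x}) isCompact_singleton (by
      intro y hy
      rw [mem_singleton_iff.1 hy]
      exact mem_chart_target E4 x)
  have h1 := h _ (mem_singleton _)
  have e1 : repJ x D.J (chartAt E4 x x) = atJ D.J x := by
    refine ContinuousLinearMap.ext fun v => ?_
    have h2 := apply_eq_repJ (mem_chart_source E4 x) D.J v
    rw [tcc_self (mem_chart_source E4 x), tcc_self (mem_chart_source E4 x)] at h2
    exact h2.symm
  have e2 : rep x D.F (chartAt E4 x x) = at2 D.F x := by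
    ext u v
    exact rep_self x D.F u v
  rw [e1, e2] at h1
  have hP : Pos (atJ D.J x) (at2 D.F x) := ⟨h1.spos.alt, h1.spos.inv, fun v => by
    by_cases hv : v = 0
    · rw [hv]; simp
    · exact (h1.spos.pos v hv).le⟩
  have h2 := h1.q_wedJ_nonneg hP c
  unfold SwcGlob_34.n1
  linarith

end n1

end

end Crest.Agent.R235.SwcPRB_766
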