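import Crest.Agent.R235.SwcPRBa_766

/-!
Row 235 (S0364), PACKAGE SWC, NODE PROD (leader helper215), leaf PRB (helper766), part b: pointwise
estimates of `eta`.
-/

set_option autoImplicit false
set_option maxSynthPendingDepth 3
set_option linter.unusedSectionVars false

open scoped ContDiff ENNReal NNReal Topology Manifold Bundle RealInnerProductSpace Matrix
open MeasureTheory Set Filter Metric Bundle

universe v

namespace Crest.Agent.R235.SwcPRB_766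

open Crest.Agent.R240 Crest.Agent.R240.Ch Crest.Agent.R235 Crest.Agent.R235.SWDefs_53
open Crest.Agent.R235.IndTri_451 Crest.Agent.R235.Tau483 Crest.Agent.R235.SwcGlob_34
open Crest.Agent.R235.SwcProd_215
open Crest.Agent.R249.Tv57 (OpPair SmF SmV KerD)
open Crest.Agent.R249.Tz805 (ToF)
open Crest.Agent.R247.Ms322 (Gr)

noncomputable section

variable {M : Type v} [MetricSpace M] [CompactSpace M] [ConnectedSpace M]
  [ChartedSpace (EuclideanSpace ℝ (Fin 4)) M] [IsManifold (𝓡 4) ∞ M]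
  [RiemannianBundle (fun p : M => TangentSpace (𝓡 4) p)]
  [IsContMDiffRiemannianBundle (𝓡 4) ∞ (EuclideanSpace ℝ (Fin 4))
    (fun p : M => TangentSpace (𝓡 4) p)]
  [IsRiemannianManifold (𝓡 4) M] [MeasurableSpace M] [BorelSpace M]
  [SecondCountableTopology M] [Nonempty M]
  {κ0 κ1 κT : Type} [Fintype κ0] [Fintype κ1] [Fintype κT]

/-! ### `zv` -/

section zv

variable {S : SWS M κ0 κ1 κT} {x : M}

theorem zv_re (c : κ0 → ℝ) (y : κ0) : (zv S x c y).re = c y / √2 := by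
  unfold zv
  rw [Complex.div_ofReal_re]
  simp

theorem zv_im (c : κ0 → ℝ) (y : κ0) : (zv S x c y).im = -((Jm S x *ᵥ c) y) / √2 := by
  unfold zv
  rw [Complex.div_ofReal_im]
  have : (Jm S x *ᵥ c) y = ∑ y', S.J y y' x * c y' := rfl
  rw [this]
  simp

theorem zv_I {c : κ0 → ℝ} (hJ : Jm S x *ᵥ (Jm S x *ᵥ c) = -c) (y : κ0) :
    Complex.I * zv S x c y = zv S x (Jm S x *ᵥ c) y := by
  apply Complex.ext
  · rw [Complex.I_mul_re, zv_im, zv_re]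
    ring
  · rw [Complex.I_mul_im, zv_im, zv_re, hJ]
    simp

theorem zv_sub (c d : κ0 → ℝ) (y : κ0) : zv S x c y - zv S x d y = zv S x (c - d) y := by
  apply Complex.ext
  · rw [Complex.sub_re, zv_re, zv_re, zv_re]
    simp only [Pi.sub_apply]
    ring
  · rw [Complex.sub_im, zv_im, zv_im, zv_im, Matrix.mulVec_sub]
    simp only [Pi.sub_apply]
    ring

theorem sq_div_sqrt2 (a : ℝ) : (a / √2) ^ 2 = a ^ 2 / 2 := by
  rw [div_pow, Real.sq_sqrt (by norm_num)]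

theorem single_le {c : κ0 → ℝ} (y : κ0) : c y ^ 2 ≤ ∑ y, c y ^ 2 :=
  Finset.single_le_sum (f := fun y => c y ^ 2) (fun _ _ => sq_nonneg _) (Finset.mem_univ y)

theorem zv_re_le (c : κ0 → ℝ) (y : κ0) : (zv S x c y).re ^ 2 ≤ (∑ y, c y ^ 2) / 2 := by
  rw [zv_re, sq_div_sqrt2]
  have := single_le (c := c) y
  linarith

theorem zv_im_le {c : κ0 → ℝ} (hJ : ∑ y, (Jm S x *ᵥ c) y ^ 2 = ∑ y, c y ^ 2) (y : κ0) :
    (zv S x c y).im ^ 2 ≤ (∑ y, c y ^ 2) / 2 := by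
  rw [zv_im, sq_div_sqrt2, neg_sq, ← hJ]
  have := single_le (c := Jm S x *ᵥ c) y
  linarith

theorem zv_norm {c : κ0 → ℝ} (hJ : ∑ y, (Jm S x *ᵥ c) y ^ 2 = ∑ y, c y ^ 2) :
    ∑ y, ‖zv S x c y‖ ^ 2 = ∑ y, c y ^ 2 := by
  have h1 : ∀ y, ‖zv S x c y‖ ^ 2 = c y ^ 2 / 2 + (Jm S x *ᵥ c) y ^ 2 / 2 := by
    intro y
    rw [← Complex.normSq_eq_norm_sq, Complex.normSq_apply, ← sq, ← sq, zv_re, zv_im, sq_div_sqrt2,
      sq_div_sqrt2, neg_sq]
  simp only [h1]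
  rw [Finset.sum_add_distrib, ← Finset.sum_div, ← Finset.sum_div, hJ]
  ring

end zv

section J

variable [IsFiniteMeasureOnCompacts (μHE[4] : Measure M)]
  {S : SWS M κ0 κ1 κT} {T : ToF 4 M}
    {cc : κ1 → κ0 → (z : M) → TangentSpace (𝓡 4) z}
    {W : κ0 → κ0 → (z : M) → TangentSpace (𝓡 4) z}
    {sT : κT → (z : M) → TangentSpace (𝓡 4) z} {w : Trip M} {e : Fin 3 → F2 E4 M}
    {σ ι : ℝ} {τ : TD M κT}

theorem JJ_of (hS : S.OK) (h : TG S T cc W sT w e σ ι) (nn : ∀ z, ∑ k, τ.n k z ^ 2 = 1) (z : M)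
    {c : κ0 → ℝ} (hc : Pm S z *ᵥ c = c) : Jm S z *ᵥ (Jm S z *ᵥ c) = -c :=
  (al_of hS h (n := nv τ z) z (nn z)).JJG hc

theorem Jnorm_of (hS : S.OK) (h : TG S T cc W sT w e σ ι) (nn : ∀ z, ∑ k, τ.n k z ^ 2 = 1) (z : M)
    {c : κ0 → ℝ} (hc : Pm S z *ᵥ c = c) : ∑ y, (Jm S z *ᵥ c) y ^ 2 = ∑ y, c y ^ 2 := by
  have hA := al_of hS h (n := nv τ z) z (nn z)
  have h1 := hA.J_dot c (Jm S z *ᵥ c)
  rw [hA.JJG hc] at h1
  have h2 : (Jm S z *ᵥ c) ⬝ᵥ (Jm S z *ᵥ c) = ∑ y, (Jm S z *ᵥ c) y ^ 2 :=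
    Finset.sum_congr rfl fun y _ => by ring
  have h3 : c ⬝ᵥ (-c) = - ∑ y, c y ^ 2 := by
    rw [← Finset.sum_neg_distrib]
    exact Finset.sum_congr rfl fun y _ => by simp only [Pi.neg_apply]; ring
  rw [h2, h3, neg_neg] at h1
  exact h1

end J

/-! ### the size of a complex covector -/

section nC

variable {w : Trip M} {e : Fin 3 → F2 E4 M} {t : Fin 3 → ℝ} {X : Fin 3 → M → ℝ}
  {D : Crest.Agent.R240.Dat M}

theorem nC_le (hP : PWD.{v}) (hD : LimD w e t X D) (x : M) (c : E4 →L[ℝ] ℂ) {m m0 : ℝ}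
    (hm0 : 0 < m0) (hm : m0 ≤ √(∑ k, X k x ^ 2)) (h1 : ∀ v, (c v).re ^ 2 ≤ m * at2 (gg e) x v v)
    (h2 : ∀ v, (c v).im ^ 2 ≤ m * at2 (gg e) x v v) : nC D x c ≤ 2 * m / m0 := by
  obtain ⟨_, _, h3, _⟩ := hP M w e t X D hD x
  have a1 := h3 (Complex.reCLM.comp c) m h1
  have a2 := h3 (Complex.imCLM.comp c) m h2
  have b1 := n1_nonneg D x (Complex.reCLM.comp c)
  have b2 := n1_nonneg D x (Complex.imCLM.comp c)
  have c1 := mul_le_mul_of_nonneg_left hm b1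
  have c2 := mul_le_mul_of_nonneg_left hm b2
  unfold nC
  rw [le_div_iff₀ hm0]
  linarith

theorem nC_nonneg (x : M) (c : E4 →L[ℝ] ℂ) : 0 ≤ nC D x c :=
  add_nonneg (n1_nonneg D x _) (n1_nonneg D x _)

end nC

end

end Crest.Agent.R235.SwcPRB_766
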