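import Crest.Agent.R235.SwcPRBb_766

/-!
Row 235 (S0364), PACKAGE SWC, NODE PROD (leader helper215), leaf PRB (helper766), part c: pointwise
estimates of `eta` and of its `(0,1)`-part.
-/

set_option autoImplicit false
set_option maxSynthPendingDepth 3
set_option linter.unusedSectionVars false

open scoped ContDiff ENNReal NNReal Topology Manifold Bundle RealInnerProductSpace Matrix
open MeasureTheory Set Filter Metric Bundle

universe v

namespace Crest.Agent.R235.SwcPRB_766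

open Crest.Agent.R240 Crest.Agent.R240.Ch Crest.Agent.R235 Crest.Agent.R235.SWDefs_53
open Crest.Agent.R235.IndTri_451 Crest.Agent.R235.Tau483 Crest.Agent.R235.SwcGlob_34
open Crest.Agent.R235.SwcProd_215
open Crest.Agent.R249.Tv57 (OpPair SmF SmV KerD)
open Crest.Agent.R249.Tz805 (ToF)
open Crest.Agent.R247.Ms322 (Gr)

noncomputable section

variable {M : Type v} [MetricSpace M] [CompactSpace M] [ConnectedSpace M]
  [ChartedSpace (EuclideanSpace ℝ (Fin 4)) M] [IsManifold (𝓡 4) ∞ M]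
  [RiemannianBundle (fun p : M => TangentSpace (𝓡 4) p)]
  [IsContMDiffRiemannianBundle (𝓡 4) ∞ (EuclideanSpace ℝ (Fin 4))
    (fun p : M => TangentSpace (𝓡 4) p)]
  [IsRiemannianManifold (𝓡 4) M] [MeasurableSpace M] [BorelSpace M]
  [SecondCountableTopology M] [Nonempty M] [IsFiniteMeasureOnCompacts (μHE[4] : Measure M)]
  {κ0 κ1 κT : Type} [Fintype κ0] [Fintype κ1] [Fintype κT]
  {S : SWS M κ0 κ1 κT} {T : ToF 4 M}
  {cc : κ1 → κ0 → (z : M) → TangentSpace (𝓡 4) z}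
  {W : κ0 → κ0 → (z : M) → TangentSpace (𝓡 4) z}
  {sT : κT → (z : M) → TangentSpace (𝓡 4) z} {w : Trip M} {e : Fin 3 → F2 E4 M}
  {ι : ℝ} {τ : TD M κT} {a0 : Z2 M} {β : F1 E4 M} {K : ℝ}

theorem eta_eq (lnk : Lnk S T cc sT w e τ a0 β K) {a : κT → M → ℝ} {s : κ0 → M → ℝ}
    (ha : SmV (n := 4) a) (hsa : S.DT.Sec a) (hs : SmV (n := 4) s) (hE : τ.SecE S s) {N : ℕ}
    (ν : Fin N ≃ κ0) (R : ℝ) (x : M) (i : Fin N) (v : E4) :
    cov (fun x => (PE τ S x).submatrix ν ν) (thE sT e β a)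
      (fun x i => zet S s x (ν i) / ((R : ℝ) : ℂ)) x i v =
      zv S x (gE τ S T a s x v) (ν i) / ((R : ℝ) : ℂ) := by
  have h1 := lnk.con a s ha hsa hs hE x v (ν i)
  have h2 : ∀ j, (dal (fun x i => zet S s x (ν i) / ((R : ℝ) : ℂ)) x j) v =
      fderiv ℝ (fun q : E4 => zet S s ((chartAt E4 x).symm q) (ν j)) (chartAt E4 x x) v /
        ((R : ℝ) : ℂ) := by
    intro j
    have h3 : (fun y : E4 => zet S s ((chartAt E4 x).symm y) (ν j) / ((R : ℝ) : ℂ)) =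
        (((R : ℝ) : ℂ)⁻¹) • (fun y : E4 => zet S s ((chartAt E4 x).symm y) (ν j)) := by
      funext y
      rw [Pi.smul_apply, smul_eq_mul, div_eq_inv_mul]
    unfold dal
    rw [h3, fderiv_const_smul_field, Pi.smul_apply, _root_.smul_apply, smul_eq_mul,
      div_eq_inv_mul]
  have h4 : (∑ j, (PE τ S x).submatrix ν ν i j •
      dal (fun x i => zet S s x (ν i) / ((R : ℝ) : ℂ)) x j) v =
      (∑ y', PE τ S x (ν i) y' * fderiv ℝ (fun q : E4 => zet S s ((chartAt E4 x).symm q) y')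
        (chartAt E4 x x) v) / ((R : ℝ) : ℂ) := by
    rw [_root_.sum_apply, Finset.sum_div, ← Equiv.sum_comp ν]
    refine Finset.sum_congr rfl fun j _ => ?_
    rw [_root_.smul_apply, h2 j, smul_eq_mul, Matrix.submatrix_apply, mul_div_assoc]
  unfold cov
  rw [_root_.sub_apply, h4, ContinuousLinearMap.smulRight_apply, Complex.real_smul]
  have h5 : zv S x (gE τ S T a s x v) (ν i) =
      zv S x (fun y => inner ℝ (τ.nE S a s y x) (T.toF x v)) (ν i) := rfl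
  rw [h5, ← h1]
  ring

theorem toF_sq (h : TG S T cc W sT w e (-1) ι) (x : M) (v : TangentSpace (𝓡 4) x) :
    ‖T.toF x v‖ ^ 2 = at2 (gg e) x v v := by
  rw [← real_inner_self_eq_norm_sq, T.inner_toF, h.met]

theorem gE_le (h : TG S T cc W sT w e (-1) ι) (a : κT → M → ℝ) (s : κ0 → M → ℝ) (x : M)
    (v : TangentSpace (𝓡 4) x) :
    ∑ y, gE τ S T a s x v y ^ 2 ≤ (∑ y, ‖τ.nE S a s y x‖ ^ 2) * at2 (gg e) x v v := by
  rw [Finset.sum_mul]
  refine Finset.sum_le_sum fun y _ => ?_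
  rw [← toF_sq h x v, ← mul_pow]
  exact sq_le_sq.2 ((abs_real_inner_le_norm _ _).trans (le_abs_self _))

theorem pt_bound (hS : S.OK) (h : TG S T cc W sT w e (-1) ι) (nn : ∀ z, ∑ k, τ.n k z ^ 2 = 1)
    {x : M} {c : κ0 → ℝ} (hc : Pm S x *ᵥ c = c) (R : ℝ) (y : κ0) {B : ℝ}
    (hB : ∑ y, c y ^ 2 ≤ B) :
    (zv S x c y / ((R : ℝ) : ℂ)).re ^ 2 ≤ B / (2 * R ^ 2) ∧
      (zv S x c y / ((R : ℝ) : ℂ)).im ^ 2 ≤ B / (2 * R ^ 2) := by
  have h0 : 0 ≤ R ^ 2 := sq_nonneg R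
  have e1 : B / (2 * R ^ 2) = B / 2 / R ^ 2 := by rw [div_div]
  rw [Complex.div_ofReal_re, Complex.div_ofReal_im, div_pow, div_pow, e1]
  have h1 := zv_re_le (S := S) (x := x) c y
  have h2 := zv_im_le (S := S) (x := x) (Jnorm_of hS h nn x hc) y
  exact ⟨div_le_div_of_nonneg_right (h1.trans (by linarith)) h0,
    div_le_div_of_nonneg_right (h2.trans (by linarith)) h0⟩

/-- the tangent vectors `η_y`. -/
def ηT (τ : TD M κT) (S : SWS M κ0 κ1 κT) (T : ToF 4 M) (e : Fin 3 → F2 E4 M) (a : κT → M → ℝ)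
    (s : κ0 → M → ℝ) (x : M) (y : κ0) : TangentSpace (𝓡 4) x :=
  ∑ i, gE τ S T a s x (vf e x i) y • vf e x i

theorem inner_ηT (h : TG S T cc W sT w e (-1) ι) (a : κT → M → ℝ) (s : κ0 → M → ℝ) (x : M)
    (y : κ0) (v : TangentSpace (𝓡 4) x) :
    inner ℝ (ηT τ S T e a s x y) v = gE τ S T a s x v y := by
  unfold ηT
  rw [sum_inner]
  have h1 : gE τ S T a s x v y = ∑ i, gE τ S T a s x (vf e x i) y * (inner ℝ v (vf e x i) : ℝ) :=
    inner_toF_sum h.tri h.met T x _ v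
  rw [h1]
  refine Finset.sum_congr rfl fun i _ => ?_
  rw [real_inner_smul_left, real_inner_comm]

theorem pi0_ηT (hS : S.OK) (h : TG S T cc W sT w e (-1) ι) (nn : ∀ z, ∑ k, τ.n k z ^ 2 = 1)
    (a : κT → M → ℝ) {s : κ0 → M → ℝ} (hE : τ.SecE S s) (x : M) (y : κ0) :
    ∑ y', pi0 τ S y y' x • ηT τ S T e a s x y' = ηT τ S T e a s x y := by
  have hA := al_of hS h (n := nv τ x) x (nn x)
  unfold ηT
  simp only [Finset.smul_sum, smul_smul]
  rw [Finset.sum_comm]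
  refine Finset.sum_congr rfl fun i _ => ?_
  rw [← Finset.sum_smul]
  congr 1
  have h1 := congrFun ((hA.inE_iff _).1 (inE_gE hS h nn a hE x (vf e x i))) y
  have h2 : (P0 (Pm S x) (Rm S x) (nv τ x) *ᵥ gE τ S T a s x (vf e x i)) y =
      ∑ y', P0f τ S x y y' * gE τ S T a s x (vf e x i) y' := rfl
  rw [h2] at h1
  rw [← h1]
  refine Finset.sum_congr rfl fun y' _ => ?_
  rw [P0f_apply]
  rfl

theorem gE_neg (a : κT → M → ℝ) (s : κ0 → M → ℝ) (x : M) (v : TangentSpace (𝓡 4) x) (y : κ0) :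
    gE τ S T a s x (-v) y = - gE τ S T a s x v y := by
  unfold gE
  rw [map_neg, inner_neg_right]

theorem gE_add (a : κT → M → ℝ) (s : κ0 → M → ℝ) (x : M) (v v' : TangentSpace (𝓡 4) x) (y : κ0) :
    gE τ S T a s x (v + v') y = gE τ S T a s x v y + gE τ S T a s x v' y := by
  unfold gE
  rw [map_add, inner_add_right]

theorem dbar_aux (hS : S.OK) (h : TG S T cc W sT w e (-1) ι) (nn : ∀ z, ∑ k, τ.n k z ^ 2 = 1)
    (lnk : Lnk S T cc sT w e τ a0 β K) (a : κT → M → ℝ) {s : κ0 → M → ℝ} (hE : τ.SecE S s)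
    (x : M) (v v' : TangentSpace (𝓡 4) x) (e1 : (Jn τ e x v' : TangentSpace (𝓡 4) x) = -v)
    (e2 : (inner ℝ v' v' : ℝ) = inner ℝ v v) :
    ∑ y, (gE τ S T a s x v' y - (Jm S x *ᵥ gE τ S T a s x v) y) ^ 2 ≤
      |K| * inner ℝ v v * ∑ x', clG T cc x (fun y => τ.nE S a s y x) x' ^ 2 := by
  have h1 := lnk.dbar x (ηT τ S T e a s x) (pi0_ηT hS h nn a hE x) v'
  have e3 : ∀ y, (inner ℝ (ηT τ S T e a s x y) v' +
      ∑ y', S.J y y' x * inner ℝ (ηT τ S T e a s x y')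
        (Jn τ e x v' : TangentSpace (𝓡 4) x) : ℝ) =
      gE τ S T a s x v' y - (Jm S x *ᵥ gE τ S T a s x v) y := by
    intro y
    rw [inner_ηT h, e1]
    simp only [inner_ηT h, gE_neg]
    have e5 : (Jm S x *ᵥ gE τ S T a s x v) y = ∑ y', S.J y y' x * gE τ S T a s x v y' := rfl
    rw [e5, sub_eq_add_neg, ← Finset.sum_neg_distrib]
    congr 1
    exact Finset.sum_congr rfl fun y' _ => by ring
  have e6 : ∀ x', (∑ y, (inner ℝ (ηT τ S T e a s x y) (cc x' y x) : ℝ)) =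
      clG T cc x (fun y => τ.nE S a s y x) x' := by
    intro x'
    unfold clG
    exact Finset.sum_congr rfl fun y _ => inner_ηT h a s x y _
  simp only [e3] at h1
  simp only [e6] at h1
  rw [e2] at h1
  refine h1.trans ?_
  exact mul_le_mul_of_nonneg_right (mul_le_mul_of_nonneg_right (le_abs_self K)
    real_inner_self_nonneg) (Finset.sum_nonneg fun _ _ => sq_nonneg _)

theorem JX_sq1 (h : IsTri (fun i => ((w i).1.1 : F2 E4 M)) e) {m : Fin 3 → ℝ}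
    (hm : m 0 ^ 2 + m 1 ^ 2 + m 2 ^ 2 = 1) (x : M) (v : E4) : JX e m x (JX e m x v) = -v := by
  rw [JX_sq h, hm, one_smul]

theorem g_JX1 (h : IsTri (fun i => ((w i).1.1 : F2 E4 M)) e) {m : Fin 3 → ℝ}
    (hm : m 0 ^ 2 + m 1 ^ 2 + m 2 ^ 2 = 1) (x : M) (v : E4) :
    at2 (gg e) x (JX e m x v) (JX e m x v) = at2 (gg e) x v v := by
  rw [g_JX h, hm, one_mul]

theorem dbar_pt (hS : S.OK) (h : TG S T cc W sT w e (-1) ι) (nn : ∀ z, ∑ k, τ.n k z ^ 2 = 1)
    (lnk : Lnk S T cc sT w e τ a0 β K) (a : κT → M → ℝ) {s : κ0 → M → ℝ} (hE : τ.SecE S s)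
    (x : M) (v : TangentSpace (𝓡 4) x) :
    ∑ y, (gE τ S T a s x (JX e (fun k => τ.n k x) x v : E4) y -
        (Jm S x *ᵥ gE τ S T a s x v) y) ^ 2 ≤
      |K| * inner ℝ v v * ∑ x', clG T cc x (fun y => τ.nE S a s y x) x' ^ 2 := by
  have hn : (τ.n 0 x) ^ 2 + (τ.n 1 x) ^ 2 + (τ.n 2 x) ^ 2 = 1 := by
    have := nn x
    rwa [Fin.sum_univ_three] at this
  refine dbar_aux hS h nn lnk a hE x v (JX e (fun k => τ.n k x) x v : E4) ?_ ?_
  · exact JX_sq1 h.tri (m := fun k => τ.n k x) hn x v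
  · exact (h.met x _ _).trans ((g_JX1 h.tri (m := fun k => τ.n k x) hn x v).trans
      (h.met x _ _).symm)

end

end Crest.Agent.R235.SwcPRB_766
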