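import Crest.Agent.R235.SwcPRBc_766

/-!
Row 235 (S0364), PACKAGE SWC, NODE PROD (leader helper215), leaf PRB (helper766), part d: pointwise
bounds of `neta` and `ndb`.
-/

set_option autoImplicit false
set_option maxSynthPendingDepth 3
set_option linter.unusedSectionVars false

open scoped ContDiff ENNReal NNReal Topology Manifold Bundle RealInnerProductSpace Matrix
open MeasureTheory Set Filter Metric Bundle

universe v

namespace Crest.Agent.R235.SwcPRB_766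

open Crest.Agent.R240 Crest.Agent.R240.Ch Crest.Agent.R235 Crest.Agent.R235.SWDefs_53
open Crest.Agent.R235.IndTri_451 Crest.Agent.R235.Tau483 Crest.Agent.R235.SwcGlob_34
open Crest.Agent.R235.SwcProd_215
open Crest.Agent.R249.Tv57 (OpPair SmF SmV KerD)
open Crest.Agent.R249.Tz805 (ToF)
open Crest.Agent.R247.Ms322 (Gr)

noncomputable section

variable {M : Type v} [MetricSpace M] [CompactSpace M] [ConnectedSpace M]
  [ChartedSpace (EuclideanSpace ℝ (Fin 4)) M] [IsManifold (𝓡 4) ∞ M]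
  [RiemannianBundle (fun p : M => TangentSpace (𝓡 4) p)]
  [IsContMDiffRiemannianBundle (𝓡 4) ∞ (EuclideanSpace ℝ (Fin 4))
    (fun p : M => TangentSpace (𝓡 4) p)]
  [IsRiemannianManifold (𝓡 4) M] [MeasurableSpace M] [BorelSpace M]
  [SecondCountableTopology M] [Nonempty M] [IsFiniteMeasureOnCompacts (μHE[4] : Measure M)]
  {κ0 κ1 κT : Type} [Fintype κ0] [Fintype κ1] [Fintype κT]
  {S : SWS M κ0 κ1 κT} {T : ToF 4 M}
  {cc : κ1 → κ0 → (z : M) → TangentSpace (𝓡 4) z}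
  {W : κ0 → κ0 → (z : M) → TangentSpace (𝓡 4) z}
  {sT : κT → (z : M) → TangentSpace (𝓡 4) z} {w : Trip M} {e : Fin 3 → F2 E4 M}
  {ι : ℝ} {τ : TD M κT} {a0 : Z2 M} {β : F1 E4 M} {K : ℝ}
  {t : Fin 3 → ℝ} {X : Fin 3 → M → ℝ} {D : Crest.Agent.R240.Dat M}

/-- the covariant derivative of the normalised complex section. -/
def ev (τ : TD M κT) (S : SWS M κ0 κ1 κT) (sT : κT → (z : M) → TangentSpace (𝓡 4) z)
    (e : Fin 3 → F2 E4 M) (β : F1 E4 M) (a : κT → M → ℝ) (s : κ0 → M → ℝ) {N : ℕ}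
    (ν : Fin N ≃ κ0) (R : ℝ) (x : M) (i : Fin N) : E4 →L[ℝ] ℂ :=
  cov (fun x => (PE τ S x).submatrix ν ν) (thE sT e β a)
      (fun x i => zet S s x (ν i) / ((R : ℝ) : ℂ)) x i

theorem neta_pt (hP : PWD.{v}) (hD : LimD w e t X D) (hS : S.OK)
    (h : TG S T cc W sT w e (-1) ι) (nn : ∀ z, ∑ k, τ.n k z ^ 2 = 1)
    (lnk : Lnk S T cc sT w e τ a0 β K) {a : κT → M → ℝ} {s : κ0 → M → ℝ}
    (ha : SmV (n := 4) a) (hsa : S.DT.Sec a) (hs : SmV (n := 4) s) (hE : τ.SecE S s) {N : ℕ}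
    (ν : Fin N ≃ κ0) (R : ℝ) (x : M) {m0 : ℝ} (hm0 : 0 < m0) (hm : m0 ≤ √(∑ k, X k x ^ 2)) :
    ∑ i, nC D x (ev τ S sT e β a s ν R x i) ≤
      N * (2 * ((∑ y, ‖τ.nE S a s y x‖ ^ 2) / (2 * R ^ 2)) / m0) := by
  have h1 : ∀ i ∈ (Finset.univ : Finset (Fin N)), nC D x (ev τ S sT e β a s ν R x i) ≤
      2 * ((∑ y, ‖τ.nE S a s y x‖ ^ 2) / (2 * R ^ 2)) / m0 := by
    intro i _
    have h2 : ∀ v : E4, (ev τ S sT e β a s ν R x i v).re ^ 2 ≤
        (∑ y, ‖τ.nE S a s y x‖ ^ 2) / (2 * R ^ 2) * at2 (gg e) x v v ∧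
        (ev τ S sT e β a s ν R x i v).im ^ 2 ≤
        (∑ y, ‖τ.nE S a s y x‖ ^ 2) / (2 * R ^ 2) * at2 (gg e) x v v := by
      intro v
      have h3 := pt_bound hS h nn (inE_gE hS h nn a hE x v).1 R (ν i) (gE_le h a s x v)
      have h4 := eta_eq lnk ha hsa hs hE ν R x i v
      unfold ev
      rw [h4, div_mul_eq_mul_div]
      exact h3
    exact nC_le hP hD x _ hm0 hm (fun v => (h2 v).1) (fun v => (h2 v).2)
  refine (Finset.sum_le_sum h1).trans ?_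
  rw [Finset.sum_const, Finset.card_univ, Fintype.card_fin, nsmul_eq_mul]

/-- the vector `(0,1)`-part of `gE`. -/
theorem d_le (hS : S.OK) (h : TG S T cc W sT w e (-1) ι) (nn : ∀ z, ∑ k, τ.n k z ^ 2 = 1)
    (lnk : Lnk S T cc sT w e τ a0 β K) (a : κT → M → ℝ) {s : κ0 → M → ℝ} (hE : τ.SecE S s)
    (x : M) (v v' : TangentSpace (𝓡 4) x) (m : Fin 3 → ℝ) {δ : ℝ}
    (hm : m 0 ^ 2 + m 1 ^ 2 + m 2 ^ 2 ≤ δ)
    (hv : v' = (JX e (fun k => τ.n k x) x v : E4) + (JX e m x v : E4)) :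
    ∑ y, (gE τ S T a s x v' y - (Jm S x *ᵥ gE τ S T a s x v) y) ^ 2 ≤
      (2 * |K| * (∑ x', clG T cc x (fun y => τ.nE S a s y x) x' ^ 2) +
        2 * δ * ∑ y, ‖τ.nE S a s y x‖ ^ 2) * at2 (gg e) x v v := by
  have h1 := dbar_pt hS h nn lnk a hE x v
  have h2 := gE_le (τ := τ) (S := S) h a s x (JX e m x v : E4)
  have h3 : at2 (gg e) x (JX e m x v : E4) (JX e m x v : E4) =
      (m 0 ^ 2 + m 1 ^ 2 + m 2 ^ 2) * at2 (gg e) x v v := g_JX h.tri m x v
  rw [h.met] at h1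
  have hg : 0 ≤ at2 (gg e) x v v := by
    rw [← toF_sq h x v]
    exact sq_nonneg _
  have hG : 0 ≤ ∑ y, ‖τ.nE S a s y x‖ ^ 2 := Finset.sum_nonneg fun _ _ => sq_nonneg _
  have h4 : ∀ y, gE τ S T a s x v' y = gE τ S T a s x (JX e (fun k => τ.n k x) x v : E4) y +
      gE τ S T a s x (JX e m x v : E4) y := by
    intro y
    rw [hv]
    exact gE_add a s x _ _ y
  have h5 : ∑ y, (gE τ S T a s x v' y - (Jm S x *ᵥ gE τ S T a s x v) y) ^ 2 ≤
      2 * ∑ y, (gE τ S T a s x (JX e (fun k => τ.n k x) x v : E4) y -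
        (Jm S x *ᵥ gE τ S T a s x v) y) ^ 2 + 2 * ∑ y, gE τ S T a s x (JX e m x v : E4) y ^ 2 := by
    rw [Finset.mul_sum, Finset.mul_sum, ← Finset.sum_add_distrib]
    refine Finset.sum_le_sum fun y _ => ?_
    rw [h4]
    nlinarith [sq_nonneg ((gE τ S T a s x (JX e (fun k => τ.n k x) x v : E4) y -
        (Jm S x *ᵥ gE τ S T a s x v) y) - gE τ S T a s x (JX e m x v : E4) y)]
  have h6 : ∑ y, gE τ S T a s x (JX e m x v : E4) y ^ 2 ≤
      (∑ y, ‖τ.nE S a s y x‖ ^ 2) * (δ * at2 (gg e) x v v) := by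
    refine h2.trans (mul_le_mul_of_nonneg_left ?_ hG)
    exact h3.le.trans (mul_le_mul_of_nonneg_right hm hg)
  calc _ ≤ _ := h5
    _ ≤ 2 * (|K| * at2 (gg e) x v v * ∑ x', clG T cc x (fun y => τ.nE S a s y x) x' ^ 2) +
        2 * ((∑ y, ‖τ.nE S a s y x‖ ^ 2) * (δ * at2 (gg e) x v v)) := by linarith
    _ = _ := by ring

theorem ndb_pt (hP : PWD.{v}) (hD : LimD w e t X D) (hS : S.OK)
    (h : TG S T cc W sT w e (-1) ι) (nn : ∀ z, ∑ k, τ.n k z ^ 2 = 1)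
    (lnk : Lnk S T cc sT w e τ a0 β K) {a : κT → M → ℝ} {s : κ0 → M → ℝ}
    (ha : SmV (n := 4) a) (hsa : S.DT.Sec a) (hs : SmV (n := 4) s) (hE : τ.SecE S s) {N : ℕ}
    (ν : Fin N ≃ κ0) (R : ℝ) (x : M) {m0 δ : ℝ} (hm0 : 0 < m0) (hm : m0 ≤ √(∑ k, X k x ^ 2))
    (hδ : ∑ k, (X k x / √(∑ k, X k x ^ 2) - τ.n k x) ^ 2 ≤ δ) :
    ∑ i, nC D x ((ev τ S sT e β a s ν R x i).comp (atJ D.J x) -
        Complex.I • ev τ S sT e β a s ν R x i) ≤
      N * (2 * ((2 * |K| * (∑ x', clG T cc x (fun y => τ.nE S a s y x) x' ^ 2) +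
        2 * δ * ∑ y, ‖τ.nE S a s y x‖ ^ 2) / (2 * R ^ 2)) / m0) := by
  set B := 2 * |K| * (∑ x', clG T cc x (fun y => τ.nE S a s y x) x' ^ 2) +
        2 * δ * ∑ y, ‖τ.nE S a s y x‖ ^ 2 with hB
  have hρ : 0 < √(∑ k, X k x ^ 2) := hm0.trans_le hm
  have hJ : ∀ v : E4, atJ D.J x v = JX e (fun k => τ.n k x) x v +
      JX e (fun k => X k x / √(∑ k, X k x ^ 2) - τ.n k x) x v := by
    intro v
    have h1 := (hP M w e t X D hD x).2.2.2 v
    have h2 : atJ D.J x v = (√(∑ k, X k x ^ 2))⁻¹ • ∑ k, X k x • atJ (II e k) x v := by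
      rw [← h1, smul_smul, inv_mul_cancel₀ hρ.ne', one_smul]
    rw [h2, JX_apply, JX_apply, Fin.sum_univ_three (fun k => X k x • atJ (II e k) x v)]
    simp only [div_eq_inv_mul]
    generalize (√(∑ k, X k x ^ 2))⁻¹ = ρ
    module
  have h1 : ∀ i ∈ (Finset.univ : Finset (Fin N)),
      nC D x ((ev τ S sT e β a s ν R x i).comp (atJ D.J x) -
        Complex.I • ev τ S sT e β a s ν R x i) ≤ 2 * (B / (2 * R ^ 2)) / m0 := by
    intro i _
    have h2 : ∀ v : E4, (((ev τ S sT e β a s ν R x i).comp (atJ D.J x) -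
        Complex.I • ev τ S sT e β a s ν R x i) v).re ^ 2 ≤
        B / (2 * R ^ 2) * at2 (gg e) x v v ∧
        (((ev τ S sT e β a s ν R x i).comp (atJ D.J x) -
        Complex.I • ev τ S sT e β a s ν R x i) v).im ^ 2 ≤
        B / (2 * R ^ 2) * at2 (gg e) x v v := by
      intro v
      have hE1 := inE_gE hS h nn a hE x v
      have hE2 := inE_gE hS h nn a hE x (atJ D.J x v : E4)
      have hA := al_of hS h (n := nv τ x) x (nn x)
      have hd : Pm S x *ᵥ (gE τ S T a s x (atJ D.J x v : E4) - Jm S x *ᵥ gE τ S T a s x v) =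
          gE τ S T a s x (atJ D.J x v : E4) - Jm S x *ᵥ gE τ S T a s x v := by
        rw [Matrix.mulVec_sub, hE2.1, (hA.inE_J hE1).1]
      have hδ' := hδ
      rw [Fin.sum_univ_three (fun k => (X k x / √(∑ k, X k x ^ 2) - τ.n k x) ^ 2)] at hδ'
      have hle := d_le (δ := δ) hS h nn lnk a hE x v (atJ D.J x v : E4)
        (fun k => X k x / √(∑ k, X k x ^ 2) - τ.n k x) hδ' (hJ v)
      have h3 := pt_bound hS h nn hd R (ν i) (B := B * at2 (gg e) x v v) hle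
      have h4 : ((ev τ S sT e β a s ν R x i).comp (atJ D.J x) -
          Complex.I • ev τ S sT e β a s ν R x i) v =
          zv S x (gE τ S T a s x (atJ D.J x v : E4) - Jm S x *ᵥ gE τ S T a s x v) (ν i) /
            ((R : ℝ) : ℂ) := by
        rw [_root_.sub_apply, _root_.smul_apply, ContinuousLinearMap.comp_apply, smul_eq_mul]
        unfold ev
        rw [eta_eq lnk ha hsa hs hE ν R x i v, eta_eq lnk ha hsa hs hE ν R x i (atJ D.J x v),
          ← zv_sub, sub_div, ← zv_I (hA.JJG hE1.1)]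
        ring
      rw [h4, div_mul_eq_mul_div]
      exact h3
    exact nC_le hP hD x _ hm0 hm (fun v => (h2 v).1) (fun v => (h2 v).2)
  refine (Finset.sum_le_sum h1).trans ?_
  rw [Finset.sum_const, Finset.card_univ, Fintype.card_fin, nsmul_eq_mul]

end

end Crest.Agent.R235.SwcPRB_766
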