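import Crest.Agent.R235.SwcPRCb_57
import Crest.Agent.R235.QSTri_451

/-!
Row 235 (S0364), PACKAGE SWC, node PROD, leaf PRC (helper57): `e3`, `o1`, `o2` of the Taubes
sequence, from PWD, VOLD, KATO4.
-/

set_option autoImplicit false
set_option maxSynthPendingDepth 3
set_option linter.unusedSectionVars false

open scoped ContDiff ENNReal NNReal Topology Manifold Bundle RealInnerProductSpace
open MeasureTheory Set Filter Metric Bundle Matrix

universe v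

namespace Crest.Agent.R235.SwcPRC_57

open Crest.Agent.R240 Crest.Agent.R240.Ch Crest.Agent.R240.Int Crest.Agent.R235
open Crest.Agent.R235.SWDefs_53
open Crest.Agent.R235.IndTri_451 Crest.Agent.R235.Tau483 Crest.Agent.R235.SwcGlob_34
open Crest.Agent.R235.SwcProd_215
open Crest.Agent.R249.Tv57 (OpPair SmF SmV KerD)
open Crest.Agent.R249.Tz805 (ToF)
open Crest.Agent.R249.Vf281 (VSm mCov)

noncomputable section

/-! ### limits -/

theorem lim_aux {U : Filter ℕ} (hU : U ≤ atTop) {r f : ℕ → ℝ} (hr : ∀ n : ℕ, (n : ℝ) + 1 ≤ r n)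
    (h0 : ∀ n, 0 ≤ f n) {A B : ℝ} (hA : 0 ≤ A)
    (h : ∀ ε : ℝ, 0 < ε → ∀ᶠ n in U, f n ≤ A * ε * r n + B) :
    Tendsto (fun n => (r n)⁻¹ * f n) U (𝓝 0) := by
  rw [Metric.tendsto_nhds]
  intro η hη
  have hε : 0 < η / (2 * (A + 1)) := by positivity
  obtain ⟨N, hN⟩ := exists_nat_gt (2 * (B + 1) / η)
  filter_upwards [h _ hε, hU (eventually_ge_atTop N)] with n h1 h2
  have hrn : 0 < r n := by
    have := hr n
    have h3 : (0 : ℝ) ≤ n := Nat.cast_nonneg n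
    linarith
  rw [Real.dist_eq, sub_zero, abs_of_nonneg (mul_nonneg (inv_nonneg.2 hrn.le) (h0 n)),
    inv_mul_lt_iff₀ hrn]
  have h4 : 2 * (B + 1) / η < r n := by
    have h5 : (N : ℝ) ≤ n := by exact_mod_cast h2
    have := hr n
    linarith
  have h6 : 2 * (B + 1) < r n * η := by rwa [div_lt_iff₀ hη] at h4
  have h7 : A * (η / (2 * (A + 1))) ≤ η / 2 := by
    have : A * (η / (2 * (A + 1))) = η / 2 * (A / (A + 1)) := by field_simp
    rw [this]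
    have h8 : A / (A + 1) ≤ 1 := by rw [div_le_one (by linarith)]; linarith
    calc η / 2 * (A / (A + 1)) ≤ η / 2 * 1 := mul_le_mul_of_nonneg_left h8 (by positivity)
      _ = η / 2 := mul_one _
  have h9 : A * (η / (2 * (A + 1))) * r n ≤ η / 2 * r n := mul_le_mul_of_nonneg_right h7 hrn.le
  linarith

variable {M : Type v} [MetricSpace M] [CompactSpace M] [ConnectedSpace M]
  [ChartedSpace (EuclideanSpace ℝ (Fin 4)) M] [IsManifold (𝓡 4) ∞ M]
  [RiemannianBundle (fun p : M => TangentSpace (𝓡 4) p)]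
  [IsContMDiffRiemannianBundle (𝓡 4) ∞ (EuclideanSpace ℝ (Fin 4))
    (fun p : M => TangentSpace (𝓡 4) p)]
  [IsRiemannianManifold (𝓡 4) M] [MeasurableSpace M] [BorelSpace M]
  [SecondCountableTopology M] [Nonempty M] [IsFiniteMeasureOnCompacts (μHE[4] : Measure M)]
  {κ0 κ1 κT : Type} [Fintype κ0] [Fintype κ1] [Fintype κT]
  {V : Vars M κ0 κ1 κT} {U : Filter ℕ}

/-! ### the closed form `Φ_n` -/

theorem smooth_th (h : Ctx V U) (n : ℕ) : Smooth1 (thE V.sT V.e (V.β n) (V.a n)) := by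
  have h1 : Smooth1 (RiemB_399.flG (gg V.e) (fld V.sT (V.a n))) :=
    RiemB_399.smooth1_flG (QSTri_451.met_gg h.data.tg.tri) (fun z =>
      RiemB_399.VSm_sum fun A => VSm.smul le_rfl ((h.seq.sma n A).contMDiffAt)
        (h.data.tg.smsT A z))
  have h2 : Smooth1 (V.β n) := (h.lnk n).smβ
  have e : thE V.sT V.e (V.β n) (V.a n) =
      (-1 : ℝ) • (RiemB_399.flG (gg V.e) (fld V.sT (V.a n))) + (-1 : ℝ) • V.β n := by
    funext x
    ext v
    show - at1 (RiemB_399.flG (gg V.e) (fld V.sT (V.a n))) x v - at1 (V.β n) x v =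
      (-1 : ℝ) * at1 (RiemB_399.flG (gg V.e) (fld V.sT (V.a n))) x v + (-1 : ℝ) * at1 (V.β n) x v
    ring
  rw [e]
  exact (h1.smul _).add (h2.smul _)

/-- `Φ_n` as a closed form. -/
def PhZ (h : Ctx V U) (n : ℕ) : Z2 M := (2 * Real.pi) • V.a0 n +
  ⟨⟨dG (thE V.sT V.e (V.β n) (V.a n)), Smooth2.dG (smooth_th h n)⟩, Closed2.dG (smooth_th h n)⟩

theorem PhZ_eq (h : Ctx V U) (n : ℕ) : ((PhZ h n).1.1 : F2 E4 M) = V.Q.Phi n := rfl

theorem cls_PhZ (h : Ctx V U) (n : ℕ) : cls (PhZ h n) = (2 * Real.pi) • V.c := by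
  unfold PhZ
  rw [map_add, map_smul, h.cls n]
  have e : cls (⟨⟨dG (thE V.sT V.e (V.β n) (V.a n)), Smooth2.dG (smooth_th h n)⟩,
      Closed2.dG (smooth_th h n)⟩ : Z2 M) = 0 := by
    rw [cls_eq_zero]
    exact isEx_dG (smooth_th h n)
  rw [e, add_zero]

theorem smooth_Phi (h : Ctx V U) (n : ℕ) : Smooth2 (V.Q.Phi n) := (PhZ h n).1.2

theorem vol0 (h : Ctx V U) : Vol ((V.w 0).1.1 : F2 E4 M) := by
  have hT := h.data.tg.tri
  have hs0 : Smooth2 ((V.w 0).1.1 : F2 E4 M) := by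
    have := hT.smooth 0
    rwa [hT.e_zero] at this
  exact ⟨hs0.1, fun p => (hs0.2 p).continuousOn, fun x => hT.W_ne x⟩

theorem cpt0 (h : Ctx V U) : IndVol_57.Cpt ((V.w 0).1.1 : F2 E4 M) (II V.e 0) := by
  have hT := h.data.tg.tri
  refine ⟨vol0 h, hT.I_sq 0, fun x u v => ?_⟩
  have h1 := hT.g_eq 0 x u v
  have h0 : V.e 0 = ((V.w 0).1.1 : F2 E4 M) := hT.e_zero
  rw [h0] at h1
  exact (h.data.tg.met x u v).trans h1

theorem int_PhPh (h : Ctx V U) (n : ℕ) :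
    ∫ x, 2 * qG ((V.w 0).1.1 : F2 E4 M) (V.Q.Phi n) (V.Q.Phi n) x ∂(μHE[4] : Measure M) =
      (2 * Real.pi) * ((2 * Real.pi) * ip (V.w 0) V.c V.c) := by
  rw [← IndVol_57.I_eq (cpt0 h)]
  have h1 := IndVol_57.pI_eq_I (V.w 0) (PhZ h n) (PhZ h n)
  rw [PhZ_eq] at h1
  rw [← h1, ← ip_cls (vol0 h), cls_PhZ, ip_smul_left (vol0 h), ip_smul_right (vol0 h)]

/-! ### bounds -/

theorem i_add {f g : M → ℝ} (hf : Continuous f) (hg : Continuous g) :
    ∫ z, (f z + g z) ∂(μHE[4] : Measure M) =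
      ∫ z, f z ∂(μHE[4] : Measure M) + ∫ z, g z ∂(μHE[4] : Measure M) :=
  integral_add (intg hf) (intg hg)

theorem i_sub {f g : M → ℝ} (hf : Continuous f) (hg : Continuous g) :
    ∫ z, (f z - g z) ∂(μHE[4] : Measure M) =
      ∫ z, f z ∂(μHE[4] : Measure M) - ∫ z, g z ∂(μHE[4] : Measure M) :=
  integral_sub (intg hf) (intg hg)

theorem i_lin (a b : ℝ) {f g : M → ℝ} (hf : Continuous f) (hg : Continuous g) :
    ∫ z, (a * f z + b * g z) ∂(μHE[4] : Measure M) =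
      a * ∫ z, f z ∂(μHE[4] : Measure M) + b * ∫ z, g z ∂(μHE[4] : Measure M) := by
  rw [integral_add ((intg hf).const_mul a) ((intg hg).const_mul b), integral_const_mul,
    integral_const_mul]

theorem i_lins (a b : ℝ) {f g : M → ℝ} (hf : Continuous f) (hg : Continuous g) :
    ∫ z, (a * f z - b * g z) ∂(μHE[4] : Measure M) =
      a * ∫ z, f z ∂(μHE[4] : Measure M) - b * ∫ z, g z ∂(μHE[4] : Measure M) := by
  rw [integral_sub ((intg hf).const_mul a) ((intg hg).const_mul b), integral_const_mul,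
    integral_const_mul]

theorem r_ge (h : Ctx V U) (n : ℕ) : 1 ≤ V.r n := by
  have := h.seq.rge n
  have h0 : (0 : ℝ) ≤ n := Nat.cast_nonneg n
  linarith

theorem N1_nonneg (τ : TD M κT) (S : SWS M κ0 κ1 κT) (u : κ0 → M → ℝ) (z : M) :
    0 ≤ N1 τ S u z := Finset.sum_nonneg fun _ _ => sq_nonneg _

theorem N0_nonneg (τ : TD M κT) (S : SWS M κ0 κ1 κT) (u : κ0 → M → ℝ) (z : M) :
    0 ≤ N0 τ S u z := Finset.sum_nonneg fun _ _ => sq_nonneg _

theorem int_N1 (hK : KATO4.{v}) (h : Ctx V U) : ∃ A : ℝ, 0 ≤ A ∧ ∀ n,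
    ∫ z, N1 (tn V n) V.S (V.u n) z ^ 2 ∂(μHE[4] : Measure M) ≤ A := by
  obtain ⟨Ck, hCk, hk⟩ := hK M κ0 κ1 κT V.S h.data.ok
  obtain ⟨m0, m1, hm0, hm⟩ := h.data.bounds
  have hm1 : 0 < m1 := by
    obtain ⟨z⟩ := (inferInstance : Nonempty M)
    have := hm (V.t 0) z (h.seq.nt 0)
    linarith [this.1, this.2]
  set c0 : ℝ := (m0 ^ (3 / 4 : ℝ)) ^ 2 with hc0
  set c1 : ℝ := (m1 ^ (3 / 4 : ℝ)) ^ 2 with hc1
  have hc0p : 0 < c0 := by positivity
  have hc1p : 0 < c1 := by positivity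
  refine ⟨(c0⁻¹) ^ 2 * (Ck * (V.K' + c1 * V.K') ^ 2), by positivity, fun n => ?_⟩
  set τ := tn V n with hτ
  have hok : τ.OK V.S V.C := ok h n
  set v : κ0 → M → ℝ := τ.sc (3 / 4) (cE' τ V.S (V.u n)) with hv
  have hvy : ∀ y z, v y z = τ.rr z ^ (3 / 4 : ℝ) * cE' τ V.S (V.u n) y z := fun y z => rfl
  have hvv : v = fun y z => (1 / 2) * (V.u n y z + τ.R V.S (V.u n) y z) := by
    funext y z
    have h1 : τ.rr z ^ (3 / 4 : ℝ) * τ.rr z ^ (-(3 / 4) : ℝ) = 1 := by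
      rw [← Real.rpow_add (hok.pos z)]; norm_num
    rw [hvy]
    show τ.rr z ^ (3 / 4 : ℝ) * (τ.rr z ^ (-(3 / 4) : ℝ) *
      ((1 / 2) * (V.u n y z + τ.R V.S (V.u n) y z))) = _
    rw [← mul_assoc, h1, one_mul]
  have hsm : SmV (n := 4) v := by
    intro y
    rw [hvv]
    refine sm_mul (sm_const _) (sm_add (h.seq.smu n y) ?_)
    show ContMDiff (𝓡 4) 𝓘(ℝ, ℝ) ∞ fun z => ∑ k, ∑ y', τ.n k z * V.S.rho k y y' z * V.u n y' z
    exact sm_sum fun k => sm_sum fun y' => sm_mul (sm_mul (hok.smn k) (h.data.ok.smrho k y y'))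
      (h.seq.smu n y')
  have hsec : V.S.D0.Sec v := by
    intro y z
    have h1 := (inE'_cE' (al h n z) (secu h n z)).1
    have h2 := congrFun h1 y
    have h3 : ∑ b, V.S.D0.p y b z * cE' τ V.S (V.u n) b z = cE' τ V.S (V.u n) y z := h2
    show ∑ b, V.S.D0.p y b z * (τ.rr z ^ (3 / 4 : ℝ) * cE' τ V.S (V.u n) b z) =
      τ.rr z ^ (3 / 4 : ℝ) * cE' τ V.S (V.u n) y z
    rw [← h3, Finset.mul_sum]
    exact Finset.sum_congr rfl fun b _ => by ring
  have key := hk (V.a n) v (h.seq.sma n) (h.seq.seca n) hsm hsec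
  have hsum : ∀ z, ∑ y, v y z ^ 2 = (τ.rr z ^ (3 / 4 : ℝ)) ^ 2 * N1 τ V.S (V.u n) z := by
    intro z
    unfold N1
    rw [Finset.mul_sum]
    exact Finset.sum_congr rfl fun y _ => by rw [hvy, mul_pow]
  have hlo : ∀ z, c0 ≤ (τ.rr z ^ (3 / 4 : ℝ)) ^ 2 := by
    intro z
    have h1 := (hm (V.t n) z (h.seq.nt n)).1
    exact pow_le_pow_left₀ (by positivity) (Real.rpow_le_rpow hm0.le h1 (by norm_num)) 2
  have hhi : ∀ z, (τ.rr z ^ (3 / 4 : ℝ)) ^ 2 ≤ c1 := by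
    intro z
    have h1 := (hm (V.t n) z (h.seq.nt n)).2
    have h0 := hok.pos z
    exact pow_le_pow_left₀ (by positivity) (Real.rpow_le_rpow h0.le h1 (by norm_num)) 2
  have cN1 : Continuous (N1 τ V.S (V.u n)) := cont_N1 h.data.ok hok (h.seq.smu n)
  have cv : Continuous fun z => ∑ y, v y z ^ 2 :=
    continuous_finsetSum _ fun y _ => (hsm y).continuous.pow 2
  -- `∫ N₁ ≤ K'`
  have hN1 : ∫ z, N1 τ V.S (V.u n) z ∂(μHE[4] : Measure M) ≤ V.K' := by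
    have h1 : V.r n * ∫ z, N1 τ V.S (V.u n) z ∂(μHE[4] : Measure M) ≤ V.K' := (h.seq.ene n).e3
    have h2 : 0 ≤ ∫ z, N1 τ V.S (V.u n) z ∂(μHE[4] : Measure M) :=
      integral_nonneg fun z => N1_nonneg _ _ _ _
    have h3 := r_ge h n
    nlinarith
  have hvi : ∫ z, ∑ y, v y z ^ 2 ∂(μHE[4] : Measure M) ≤ c1 * V.K' := by
    have h1 : ∫ z, ∑ y, v y z ^ 2 ∂(μHE[4] : Measure M) ≤
        ∫ z, c1 * N1 τ V.S (V.u n) z ∂(μHE[4] : Measure M) := by
      refine integral_mono (intg cv) (intg (continuous_const.mul cN1)) fun z => ?_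
      show ∑ y, v y z ^ 2 ≤ c1 * N1 τ V.S (V.u n) z
      rw [hsum]
      exact mul_le_mul_of_nonneg_right (hhi z) (N1_nonneg _ _ _ _)
    rw [integral_const_mul] at h1
    exact h1.trans (mul_le_mul_of_nonneg_left hN1 hc1p.le)
  have hv0 : 0 ≤ ∫ z, ∑ y, v y z ^ 2 ∂(μHE[4] : Measure M) :=
    integral_nonneg fun z => Finset.sum_nonneg fun y _ => sq_nonneg _
  have hn0 : 0 ≤ ∫ z, ∑ y, ‖V.S.nab (V.a n) v y z‖ ^ 2 ∂(μHE[4] : Measure M) :=
    integral_nonneg fun z => Finset.sum_nonneg fun y _ => sq_nonneg _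
  have hn1 : ∫ z, ∑ y, ‖V.S.nab (V.a n) v y z‖ ^ 2 ∂(μHE[4] : Measure M) ≤ V.K' :=
    (h.seq.ene n).e4
  have hfin : ∫ z, (∑ y, v y z ^ 2) ^ 2 ∂(μHE[4] : Measure M) ≤
      Ck * (V.K' + c1 * V.K') ^ 2 := by
    refine key.trans (mul_le_mul_of_nonneg_left ?_ hCk.le)
    exact pow_le_pow_left₀ (add_nonneg hn0 hv0) (add_le_add hn1 hvi) 2
  have hlast : ∫ z, N1 τ V.S (V.u n) z ^ 2 ∂(μHE[4] : Measure M) ≤
      ∫ z, (c0⁻¹) ^ 2 * (∑ y, v y z ^ 2) ^ 2 ∂(μHE[4] : Measure M) := by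
    refine integral_mono (intg (cN1.pow 2)) (intg (continuous_const.mul (cv.pow 2))) fun z => ?_
    show N1 τ V.S (V.u n) z ^ 2 ≤ (c0⁻¹) ^ 2 * (∑ y, v y z ^ 2) ^ 2
    rw [← mul_pow]
    refine pow_le_pow_left₀ (N1_nonneg _ _ _ _) ?_ 2
    rw [hsum, ← mul_assoc]
    have h1 : 1 ≤ c0⁻¹ * (τ.rr z ^ (3 / 4 : ℝ)) ^ 2 := by
      rw [inv_mul_eq_div, le_div_iff₀ hc0p, one_mul]
      exact hlo z
    calc N1 τ V.S (V.u n) z = 1 * N1 τ V.S (V.u n) z := (one_mul _).symm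
      _ ≤ _ := mul_le_mul_of_nonneg_right h1 (N1_nonneg _ _ _ _)
  rw [integral_const_mul] at hlast
  exact hlast.trans (mul_le_mul_of_nonneg_left hfin (by positivity))

theorem int_E (hK : KATO4.{v}) (h : Ctx V U) : ∃ CE : ℝ, 0 ≤ CE ∧ ∀ n,
    ∫ z, ∑ k, Ek V n k z ^ 2 ∂(μHE[4] : Measure M) ≤ CE := by
  obtain ⟨A, hA, hN⟩ := int_N1 hK h
  obtain ⟨m0, m1, hm0, hm⟩ := h.data.bounds
  have hKp := h.Kpos
  refine ⟨m1 ^ 2 * A + m1 ^ 2 * V.K' + 1, by positivity, fun n => ?_⟩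
  have hok : (tn V n).OK V.S V.C := ok h n
  have cN0 : Continuous (N0 (tn V n) V.S (V.u n)) := cont_N0 h.data.ok hok (h.seq.smu n)
  have cN1 : Continuous (N1 (tn V n) V.S (V.u n)) := cont_N1 h.data.ok hok (h.seq.smu n)
  have cB : Continuous (V.S.H.B (V.a n) 0) :=
    (V.S.H.smB (V.a n) (h.seq.sma n) (h.seq.seca n) 0).continuous
  have cg : Continuous fun z => ∑ k, gR V.S (tn V n) (V.r n) (V.a n) (V.u n) k z ^ 2 :=
    continuous_finsetSum _ fun k _ =>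
      (cont_gR h.data.ok hok (h.seq.smu n) (h.seq.sma n) (h.seq.seca n) (V.r n) k).pow 2
  have cE : Continuous fun z => ∑ k, Ek V n k z ^ 2 :=
    continuous_finsetSum _ fun k _ => (cont_Ek h n k).pow 2
  have hg : ∫ z, (V.S.H.B (V.a n) 0 z ^ 2 +
      ∑ k, gR V.S (tn V n) (V.r n) (V.a n) (V.u n) k z ^ 2) ∂(μHE[4] : Measure M) ≤ 1 := by
    refine (h.seq.g0 n).trans ?_
    rw [div_le_one (by positivity)]
    have h0 : (0 : ℝ) ≤ n := Nat.cast_nonneg n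
    linarith
  have he6 : ∫ z, N0 (tn V n) V.S (V.u n) z * N1 (tn V n) V.S (V.u n) z ∂(μHE[4] : Measure M) ≤
    V.K' := (h.seq.ene n).e6
  have hcm : Continuous fun z => m1 ^ 2 * N1 (tn V n) V.S (V.u n) z ^ 2 +
      m1 ^ 2 * (N0 (tn V n) V.S (V.u n) z * N1 (tn V n) V.S (V.u n) z) :=
    (continuous_const.mul (cN1.pow 2)).add (continuous_const.mul (cN0.mul cN1))
  have h1 : ∫ z, ∑ k, Ek V n k z ^ 2 ∂(μHE[4] : Measure M) ≤
      ∫ z, ((m1 ^ 2 * N1 (tn V n) V.S (V.u n) z ^ 2 +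
        m1 ^ 2 * (N0 (tn V n) V.S (V.u n) z * N1 (tn V n) V.S (V.u n) z)) +
        (V.S.H.B (V.a n) 0 z ^ 2 + ∑ k, gR V.S (tn V n) (V.r n) (V.a n) (V.u n) k z ^ 2))
        ∂(μHE[4] : Measure M) := by
    refine integral_mono (intg cE) (intg (hcm.add ((cB.pow 2).add cg))) fun z => ?_
    refine (sum_Ek h n z).trans ?_
    have hρ : (tn V n).rr z ^ 2 ≤ m1 ^ 2 := by
      have h2 := (hm (V.t n) z (h.seq.nt n)).2
      exact pow_le_pow_left₀ (hok.pos z).le h2 2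
    have p1 := mul_le_mul_of_nonneg_right hρ (sq_nonneg (N1 (tn V n) V.S (V.u n) z))
    have p2 := mul_le_mul_of_nonneg_right hρ (mul_nonneg (N0_nonneg (tn V n) V.S (V.u n) z)
      (N1_nonneg (tn V n) V.S (V.u n) z))
    have p3 := sq_nonneg (V.S.H.B (V.a n) 0 z)
    show _ ≤ (m1 ^ 2 * N1 (tn V n) V.S (V.u n) z ^ 2 +
        m1 ^ 2 * (N0 (tn V n) V.S (V.u n) z * N1 (tn V n) V.S (V.u n) z)) +
        (V.S.H.B (V.a n) 0 z ^ 2 + ∑ k, gR V.S (tn V n) (V.r n) (V.a n) (V.u n) k z ^ 2)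
    linarith
  refine h1.trans ?_
  have cBg : Continuous fun z => V.S.H.B (V.a n) 0 z ^ 2 +
      ∑ k, gR V.S (tn V n) (V.r n) (V.a n) (V.u n) k z ^ 2 := (cB.pow 2).add cg
  have cN1s : Continuous fun z => N1 (tn V n) V.S (V.u n) z ^ 2 := cN1.pow 2
  have cNN : Continuous fun z => N0 (tn V n) V.S (V.u n) z * N1 (tn V n) V.S (V.u n) z :=
    cN0.mul cN1
  rw [i_add hcm cBg, i_lin _ _ cN1s cNN]
  have q1 := mul_le_mul_of_nonneg_left (hN n) (sq_nonneg m1)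
  have q2 := mul_le_mul_of_nonneg_left he6 (sq_nonneg m1)
  linarith

theorem int_s (h : Ctx V U) (n : ℕ) : ∫ z, sn V n z ^ 2 ∂(μHE[4] : Measure M) ≤
    V.K' * V.r n / 16 := by
  have h1 : ∫ z, (2 * V.r n - N0 (tn V n) V.S (V.u n) z) ^ 2 ∂(μHE[4] : Measure M) ≤
    V.K' * V.r n := (h.seq.ene n).e2
  have h2 : ∀ z, sn V n z ^ 2 = (1 / 16) * (2 * V.r n - N0 (tn V n) V.S (V.u n) z) ^ 2 := by
    intro z; unfold sn; ring
  simp only [h2]
  rw [integral_const_mul]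
  linarith

/-- `G = |φ - s X|²`. -/
def Gn (V : Vars M κ0 κ1 κT) (n : ℕ) (x : M) : ℝ :=
  ∑ k, (ph V n k x - sn V n x * Xw V.ww V.t0 k x) ^ 2

theorem cont_Gn (h : Ctx V U) (n : ℕ) : Continuous (Gn V n) :=
  continuous_finsetSum _ fun k _ => ((cont_ph h n k).sub ((cont_sn h n).mul (cont_X h _ k))).pow 2

theorem int_Gn (h : Ctx V U) {CE : ℝ} (hE : ∀ n,
    ∫ z, ∑ k, Ek V n k z ^ 2 ∂(μHE[4] : Measure M) ≤ CE) (n : ℕ) {d : ℝ}
    (hd : ∀ x, ∑ k, (Xw V.ww (V.t n) k x - Xw V.ww V.t0 k x) ^ 2 ≤ d) :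
    ∫ z, Gn V n z ∂(μHE[4] : Measure M) ≤ 2 * d * (V.K' * V.r n / 16) + 2 * CE := by
  have hd0 : 0 ≤ d := by
    obtain ⟨z⟩ := (inferInstance : Nonempty M)
    exact (Finset.sum_nonneg fun k _ => sq_nonneg _).trans (hd z)
  have cE : Continuous fun z => ∑ k, Ek V n k z ^ 2 :=
    continuous_finsetSum _ fun k _ => (cont_Ek h n k).pow 2
  have c1 : Continuous fun z => 2 * d * sn V n z ^ 2 :=
    continuous_const.mul ((cont_sn h n).pow 2)
  have h1 : ∫ z, Gn V n z ∂(μHE[4] : Measure M) ≤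
      ∫ z, (2 * d * sn V n z ^ 2 + 2 * ∑ k, Ek V n k z ^ 2) ∂(μHE[4] : Measure M) := by
    refine integral_mono (intg (cont_Gn h n)) (intg (c1.add (continuous_const.mul cE)))
      fun z => ?_
    show ∑ k, (ph V n k z - sn V n z * Xw V.ww V.t0 k z) ^ 2 ≤
      2 * d * sn V n z ^ 2 + 2 * ∑ k, Ek V n k z ^ 2
    have h2 : ∑ k, (ph V n k z - sn V n z * Xw V.ww V.t0 k z) ^ 2 ≤
        ∑ k, (2 * sn V n z ^ 2 * (Xw V.ww (V.t n) k z - Xw V.ww V.t0 k z) ^ 2 +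
          2 * Ek V n k z ^ 2) := by
      refine Finset.sum_le_sum fun k _ => ?_
      rw [ph_eq h n k z]
      nlinarith [sq_nonneg (sn V n z * (Xw V.ww (V.t n) k z - Xw V.ww V.t0 k z) - Ek V n k z)]
    refine h2.trans ?_
    rw [Finset.sum_add_distrib, ← Finset.mul_sum, ← Finset.mul_sum]
    have h3 := mul_le_mul_of_nonneg_left (hd z) (by positivity : 0 ≤ 2 * sn V n z ^ 2)
    linarith
  refine h1.trans ?_
  have cs : Continuous fun z => sn V n z ^ 2 := (cont_sn h n).pow 2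
  rw [i_lin _ _ cs cE]
  have q1 := mul_le_mul_of_nonneg_left (int_s h n) (by positivity : 0 ≤ 2 * d)
  have q2 := mul_le_mul_of_nonneg_left (hE n) (by norm_num : (0 : ℝ) ≤ 2)
  linarith

/-- uniform convergence of the coefficients of `w_t`. -/
theorem unif_X (h : Ctx V U) {d : ℝ} (hd : 0 < d) : ∀ᶠ n in U, ∀ x,
    ∑ k, (Xw V.ww (V.t n) k x - Xw V.ww V.t0 k x) ^ 2 ≤ d := by
  have hs : 0 < √(d / 3) := Real.sqrt_pos.2 (by positivity)
  have h1 : ∀ k : Fin 3, ∀ᶠ n in U, ∀ x, dist (Xw V.ww (V.t n) k x) (Xw V.ww V.t0 k x) <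
      √(d / 3) := fun k =>
    unif_lim (f := fun q : E3 × M => Xw V.ww q.1 k q.2)
      (continuous_Xw h.data.smw k).continuousOn h.seq.nt h.nt0 h.lim _ hs
  filter_upwards [h1 0, h1 1, h1 2] with n a0 a1 a2 x
  have key : ∀ {y z : ℝ}, dist y z < √(d / 3) → (y - z) ^ 2 ≤ d / 3 := by
    intro y z hyz
    rw [Real.dist_eq] at hyz
    have h2 := pow_le_pow_left₀ (abs_nonneg _) hyz.le 2
    rwa [sq_abs, Real.sq_sqrt (by positivity)] at h2
  rw [Fin.sum_univ_three]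
  have := key (a0 x)
  have := key (a1 x)
  have := key (a2 x)
  linarith

/-! ### the theorem -/

theorem pt1 {A s : ℝ} (hA : 0 < A) (p X : Fin 3 → ℝ) (hX : ∑ k, X k ^ 2 = A) :
    A * ((∑ k, p k * X k) / A - s) ^ 2 ≤ ∑ k, (p k - s * X k) ^ 2 := by
  have h1 := Finset.sum_mul_sq_le_sq_mul_sq Finset.univ (fun k => p k - s * X k) X
  have h2 : ∑ k, (p k - s * X k) * X k = (∑ k, p k * X k) - s * A := by
    rw [← hX, Finset.mul_sum, ← Finset.sum_sub_distrib]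
    exact Finset.sum_congr rfl fun k _ => by ring
  rw [h2, hX] at h1
  have e : A * ((∑ k, p k * X k) / A - s) ^ 2 = ((∑ k, p k * X k) - s * A) ^ 2 / A := by
    field_simp
  rw [e, div_le_iff₀ hA]
  exact h1

theorem pt2 {A s : ℝ} (hA : 0 < A) (p X : Fin 3 → ℝ) (hX : ∑ k, X k ^ 2 = A) :
    A * ((∑ k, p k ^ 2 - (∑ k, p k * X k) ^ 2 / A) / A) ≤ ∑ k, (p k - s * X k) ^ 2 := by
  have h2 : ∑ k, (p k - s * X k) ^ 2 = ∑ k, p k ^ 2 - 2 * s * (∑ k, p k * X k) + s ^ 2 * A := by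
    rw [← hX, Finset.mul_sum, Finset.mul_sum, ← Finset.sum_sub_distrib, ← Finset.sum_add_distrib]
    exact Finset.sum_congr rfl fun k _ => by ring
  rw [mul_div_cancel₀ _ hA.ne', h2]
  have h3 : 0 ≤ (s * A - ∑ k, p k * X k) ^ 2 / A := by positivity
  have e : (s * A - ∑ k, p k * X k) ^ 2 / A = s ^ 2 * A - 2 * s * (∑ k, p k * X k) +
      (∑ k, p k * X k) ^ 2 / A := by
    field_simp
    ring
  rw [e] at h3
  linarith

theorem prc (hP : PWD.{v}) (hV : VOLD.{v}) (hK : KATO4.{v}) : PRC.{v} := by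
  intro M _ _ _ _ _ _ _ _ _ _ _ _ _ κ0 κ1 κT _ _ _ V U h
  set cc : ℝ := |(2 * Real.pi) * ((2 * Real.pi) * ip (V.w 0) V.c V.c)| with hcc
  have hcc0 : 0 ≤ cc := abs_nonneg _
  have hPx := hP M V.w V.e (fun i => V.t0 i) (Xw V.ww V.t0) V.D h.limD
  have hvol := hV M V.w V.e (fun i => V.t0 i) (Xw V.ww V.t0) V.D h.limD h.data.tg.met
  obtain ⟨CE, hCE, hE⟩ := int_E hK h
  obtain ⟨m0, m1, hm0, hm⟩ := h.data.bounds
  have hKp := h.Kpos
  -- pointwise
  set A : M → ℝ := fun x => ∑ k, Xw V.ww V.t0 k x ^ 2 with hA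
  have hApos : ∀ x, 0 < A x := fun x => (hPx x).1
  have hAc : Continuous A := continuous_finsetSum _ fun k _ => (cont_X h V.t0 k).pow 2
  have halt : ∀ n x, Alt (at2 (V.Q.Phi n) x) := fun n x => (smooth_Phi h n).1 x
  have p1 : ∀ n x, qG V.D.F (V.Q.Phi n) V.D.F x =
      (∑ k, ph V n k x * Xw V.ww V.t0 k x) / A x := fun n x =>
    ((hPx x).2.1 (V.Q.Phi n) (halt n x)).1
  have p2 : ∀ n x, nsqG V.D.J V.D.F (V.Q.Phi n) x + qG V.D.F (V.Q.Phi n) (V.Q.Phi n) x =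
      2 * (∑ k, ph V n k x ^ 2) / A x := fun n x =>
    ((hPx x).2.1 (V.Q.Phi n) (halt n x)).2.1
  have p3 : ∀ n x, nsqG V.D.J V.D.F (bpp V.D.J (V.Q.Phi n)) x =
      (∑ k, ph V n k x ^ 2 - (∑ k, ph V n k x * Xw V.ww V.t0 k x) ^ 2 / A x) / A x := fun n x =>
    ((hPx x).2.1 (V.Q.Phi n) (halt n x)).2.2.1
  have p4 : ∀ n x, A x * qG V.D.F (V.Q.Phi n) (V.Q.Phi n) x =
      qG (V.w 0).1.1 (V.Q.Phi n) (V.Q.Phi n) x := fun n x =>
    ((hPx x).2.1 (V.Q.Phi n) (halt n x)).2.2.2 (V.Q.Phi n) (halt n x)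
  have cph : ∀ n, Continuous fun x => ∑ k, ph V n k x ^ 2 := fun n =>
    continuous_finsetSum _ fun k _ => (cont_ph h n k).pow 2
  have cpX : ∀ n, Continuous fun x => ∑ k, ph V n k x * Xw V.ww V.t0 k x := fun n =>
    continuous_finsetSum _ fun k _ => (cont_ph h n k).mul (cont_X h V.t0 k)
  -- o1, o2 : general
  have gen : ∀ f : ℕ → M → ℝ, (∀ n, Continuous (f n)) → (∀ n x, 0 ≤ f n x) →
      (∀ n x, A x * f n x ≤ Gn V n x) →
      Tendsto (fun n => (V.Q.r n)⁻¹ * ∫ x, f n x ∂V.D.μ) U (𝓝 0) := by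
    intro f hf hf0 hfG
    have hle : ∀ n, ∫ x, f n x ∂V.D.μ ≤ 2 * ∫ x, Gn V n x ∂(μHE[4] : Measure M) := by
      intro n
      rw [hvol (f n) (hf n), ← integral_const_mul]
      refine integral_mono (intg ((continuous_const.mul hAc).mul (hf n)))
        (intg (continuous_const.mul (cont_Gn h n))) fun x => ?_
      show 2 * A x * f n x ≤ 2 * Gn V n x
      have := hfG n x
      nlinarith
    refine lim_aux (r := V.Q.r) (f := fun n => ∫ x, f n x ∂V.D.μ) h.le h.seq.rge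
      (fun n => integral_nonneg (hf0 n)) (A := V.K' / 4) (B := 4 * CE) (by positivity)
      fun ε hε => ?_
    filter_upwards [unif_X h hε] with n hn
    have h1 := int_Gn h hE n hn
    have h2 := hle n
    have e : V.Q.r n = V.r n := rfl
    rw [e]
    show ∫ x, f n x ∂V.D.μ ≤ V.K' / 4 * ε * V.r n + 4 * CE
    linarith
  -- e3
  have he3 : ∀ n, ∫ x, nsqG V.D.J V.D.F (V.Q.Phi n) x ∂V.D.μ ≤
      (m1 ^ 2 * V.K' / 2 + 8 * CE + 1 + cc) * V.Q.r n := by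
    intro n
    have cq : Continuous (qG ((V.w 0).1.1 : F2 E4 M) (V.Q.Phi n) (V.Q.Phi n)) :=
      continuous_qG (vol0 h) (Smooth2.cont2 (smooth_Phi h n)) (Smooth2.cont2 (smooth_Phi h n))
    have ef : nsqG V.D.J V.D.F (V.Q.Phi n) = fun x => (2 * (∑ k, ph V n k x ^ 2) -
        qG ((V.w 0).1.1 : F2 E4 M) (V.Q.Phi n) (V.Q.Phi n) x) / A x := by
      funext x
      have h1 := p2 n x
      have h2 := p4 n x
      have h3 := (hApos x).ne'
      rw [← h2]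
      field_simp
      have h4 : nsqG V.D.J V.D.F (V.Q.Phi n) x = 2 * (∑ k, ph V n k x ^ 2) / A x -
        qG V.D.F (V.Q.Phi n) (V.Q.Phi n) x := by linarith
      rw [h4]
      field_simp
    have cf : Continuous (nsqG V.D.J V.D.F (V.Q.Phi n)) := by
      rw [ef]
      exact ((continuous_const.mul (cph n)).sub cq).div hAc fun x => (hApos x).ne'
    have h1 := hvol _ cf
    have h2 : (fun x => 2 * (∑ k, Xw V.ww V.t0 k x ^ 2) * nsqG V.D.J V.D.F (V.Q.Phi n) x) =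
        fun x => 4 * (∑ k, ph V n k x ^ 2) -
          2 * qG ((V.w 0).1.1 : F2 E4 M) (V.Q.Phi n) (V.Q.Phi n) x := by
      funext x
      rw [ef]
      have h3 := (hApos x).ne'
      show 2 * A x * _ = _
      field_simp
      ring
    have h3 : ∫ x, nsqG V.D.J V.D.F (V.Q.Phi n) x ∂V.D.μ ≤
        4 * ∫ x, ∑ k, ph V n k x ^ 2 ∂(μHE[4] : Measure M) + cc := by
      have hz := int_PhPh h n
      rw [integral_const_mul] at hz
      rw [h1, h2, i_lins _ _ (cph n) cq, hz]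
      have := neg_abs_le ((2 * Real.pi) * ((2 * Real.pi) * ip (V.w 0) V.c V.c))
      linarith
    refine h3.trans ?_
    have cE : Continuous fun z => ∑ k, Ek V n k z ^ 2 :=
      continuous_finsetSum _ fun k _ => (cont_Ek h n k).pow 2
    have h4 : ∫ x, ∑ k, ph V n k x ^ 2 ∂(μHE[4] : Measure M) ≤
        ∫ x, (2 * m1 ^ 2 * sn V n x ^ 2 + 2 * ∑ k, Ek V n k x ^ 2) ∂(μHE[4] : Measure M) := by
      refine integral_mono (intg (cph n)) (intg ((continuous_const.mul ((cont_sn h n).pow 2)).add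
        (continuous_const.mul cE))) fun x => ?_
      show ∑ k, ph V n k x ^ 2 ≤ 2 * m1 ^ 2 * sn V n x ^ 2 + 2 * ∑ k, Ek V n k x ^ 2
      have h5 : ∑ k, ph V n k x ^ 2 ≤ ∑ k, (2 * sn V n x ^ 2 * Xw V.ww (V.t n) k x ^ 2 +
          2 * Ek V n k x ^ 2) := by
        refine Finset.sum_le_sum fun k _ => ?_
        rw [ph_eq h n k x]
        nlinarith [sq_nonneg (Xw V.ww (V.t n) k x * sn V n x - Ek V n k x)]
      refine h5.trans ?_
      rw [Finset.sum_add_distrib, ← Finset.mul_sum, ← Finset.mul_sum]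
      have h6 : ∑ k, Xw V.ww (V.t n) k x ^ 2 ≤ m1 ^ 2 := by
        have h7 : ∀ k, Xw V.ww (V.t n) k x = (tn V n).rr x * (tn V n).n k x := fun k =>
          (h.data.nn (V.t n) k x (h.seq.nt n)).symm
        simp only [h7, mul_pow]
        rw [← Finset.mul_sum, (ok h n).norm x, mul_one]
        exact pow_le_pow_left₀ ((ok h n).pos x).le (hm (V.t n) x (h.seq.nt n)).2 2
      have h8 := mul_le_mul_of_nonneg_left h6 (by positivity : 0 ≤ 2 * sn V n x ^ 2)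
      linarith
    have cs : Continuous fun z => sn V n z ^ 2 := (cont_sn h n).pow 2
    rw [i_lin _ _ cs cE] at h4
    have h5 := mul_le_mul_of_nonneg_left (int_s h n) (by positivity : 0 ≤ 2 * m1 ^ 2)
    have h6 := hE n
    have h7 := r_ge h n
    have e : V.Q.r n = V.r n := rfl
    rw [e]
    have h8 : 8 * CE ≤ 8 * CE * V.r n := by nlinarith
    have h9 : cc ≤ cc * V.r n := by nlinarith
    nlinarith
  refine ⟨m1 ^ 2 * V.K' / 2 + 8 * CE + 1 + cc, by positivity, he3, ?_, ?_⟩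
  · refine gen (fun n x => (qG V.D.F (V.Q.Phi n) V.D.F x -
      (1 / 2) * V.Q.r n * (1 - V.Q.nal n x)) ^ 2) (fun n => ?_) (fun n x => sq_nonneg _)
      fun n x => ?_
    · have e : (fun x => (qG V.D.F (V.Q.Phi n) V.D.F x -
          (1 / 2) * V.Q.r n * (1 - V.Q.nal n x)) ^ 2) =
          fun x => ((∑ k, ph V n k x * Xw V.ww V.t0 k x) / A x - sn V n x) ^ 2 := by
        funext x
        rw [p1, sn_eq h]
      rw [e]
      exact (((cpX n).div hAc fun x => (hApos x).ne').sub (cont_sn h n)).pow 2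
    · show A x * (qG V.D.F (V.Q.Phi n) V.D.F x -
          (1 / 2) * V.Q.r n * (1 - V.Q.nal n x)) ^ 2 ≤ _
      rw [p1, sn_eq h]
      exact pt1 (hApos x) (fun k => ph V n k x) (fun k => Xw V.ww V.t0 k x) rfl
  · refine gen (fun n x => nsqG V.D.J V.D.F (bpp V.D.J (V.Q.Phi n)) x) (fun n => ?_)
      (fun n x => ?_) fun n x => ?_
    · have e : (fun x => nsqG V.D.J V.D.F (bpp V.D.J (V.Q.Phi n)) x) =
          fun x => (∑ k, ph V n k x ^ 2 -
            (∑ k, ph V n k x * Xw V.ww V.t0 k x) ^ 2 / A x) / A x := funext fun x => p3 n x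
      rw [e]
      exact ((cph n).sub (((cpX n).pow 2).div hAc fun x => (hApos x).ne')).div hAc
        fun x => (hApos x).ne'
    · show 0 ≤ nsqG V.D.J V.D.F (bpp V.D.J (V.Q.Phi n)) x
      rw [p3]
      have h1 := Finset.sum_mul_sq_le_sq_mul_sq Finset.univ (fun k => ph V n k x)
        (fun k => Xw V.ww V.t0 k x)
      refine div_nonneg (sub_nonneg.2 ?_) (hApos x).le
      rw [div_le_iff₀ (hApos x)]
      exact h1
    · show A x * nsqG V.D.J V.D.F (bpp V.D.J (V.Q.Phi n)) x ≤ _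
      rw [p3]
      exact pt2 (hApos x) (fun k => ph V n k x) (fun k => Xw V.ww V.t0 k x) rfl

end

end Crest.Agent.R235.SwcPRC_57
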