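import Crest.Agent.R235.SwcProd3_215
import Crest.Agent.R235.TauE_483

/-!
Row 235 (S0364), PACKAGE SWC, node PROD, leaf PRC (helper57), part A: pointwise algebra of the
curvature equation for `u = ρ^{3/4}(c + c')`, `c ∈ E`, `c' ∈ E'`.
-/

set_option autoImplicit false
set_option maxSynthPendingDepth 3
set_option linter.unusedSectionVars false

open scoped ContDiff ENNReal NNReal Topology Manifold Bundle RealInnerProductSpace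
open MeasureTheory Set Filter Metric Bundle Matrix

universe v

namespace Crest.Agent.R235.SwcPRC_57

open Crest.Agent.R240 Crest.Agent.R240.Ch Crest.Agent.R235 Crest.Agent.R235.SWDefs_53
open Crest.Agent.R235.IndTri_451 Crest.Agent.R235.Tau483 Crest.Agent.R235.SwcGlob_34
open Crest.Agent.R235.SwcProd_215
open Crest.Agent.R249.Tv57 (OpPair SmF SmV KerD)
open Crest.Agent.R249.Tz805 (ToF)

noncomputable section

/-! ### matrices -/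

section alg

variable {κ : Type*} [Fintype κ] {P J : Matrix κ κ ℝ} {ρ : Fin 3 → Matrix κ κ ℝ} {n : Fin 3 → ℝ}
  {ι : ℝ}

theorem al_neg (h : Al P J ρ n ι) : Al P J ρ (fun k => - n k) ι :=
  { h with nn := by simpa using h.nn }

theorem RR_neg (ρ : Fin 3 → Matrix κ κ ℝ) (n : Fin 3 → ℝ) :
    RR ρ (fun k => - n k) = - RR ρ n := by
  unfold RR
  rw [← Finset.sum_neg_distrib]
  exact Finset.sum_congr rfl fun k _ => neg_smul _ _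

theorem inE_neg {G : κ → ℝ} (hG : InE' P ρ n G) : InE P ρ (fun k => - n k) G := by
  refine ⟨hG.1, ?_⟩
  rw [RR_neg, neg_mulVec, hG.2]

theorem dot_rk' (h : Al P J ρ n ι) {G H : κ → ℝ} (hG : InE' P ρ n G) (hH : InE' P ρ n H)
    (k : Fin 3) : G ⬝ᵥ (ρ k *ᵥ H) = n k * (G ⬝ᵥ H) := by
  have h1 := (al_neg h).dot_rk (inE_neg hG) (inE_neg hH) k
  simpa using h1

theorem r_dot (h : Al P J ρ n ι) (k : Fin 3) (G H : κ → ℝ) :
    (ρ k *ᵥ G) ⬝ᵥ H = G ⬝ᵥ (ρ k *ᵥ H) := by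
  rw [dotProduct_comm, dotProduct_mulVec, ← mulVec_transpose, h.rT, dotProduct_comm]

theorem bsum (h : Al P J ρ n ι) {G H : κ → ℝ} (hG : InE P ρ n G) (hH : InE' P ρ n H) :
    ∑ k, n k * (G ⬝ᵥ (ρ k *ᵥ H)) = 0 := by
  have h1 : G ⬝ᵥ (RR ρ n *ᵥ H) = ∑ k, n k * (G ⬝ᵥ (ρ k *ᵥ H)) := by
    unfold RR
    rw [sum_mulVec, dotProduct_sum]
    refine Finset.sum_congr rfl fun k _ => ?_
    rw [smul_mulVec, dotProduct_smul, smul_eq_mul]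
  rw [← h1, hH.2, h.dot_EE' hG hH]

theorem quad (h : Al P J ρ n ι) {G H : κ → ℝ} (hG : InE P ρ n G) (hH : InE' P ρ n H) (k : Fin 3) :
    (G + H) ⬝ᵥ (ρ k *ᵥ (G + H)) = n k * (H ⬝ᵥ H - G ⬝ᵥ G) + 2 * (G ⬝ᵥ (ρ k *ᵥ H)) := by
  rw [mulVec_add, dotProduct_add, add_dotProduct, add_dotProduct, h.dot_rk hG hG,
    dot_rk' h hH hH, ← r_dot h k H G, dotProduct_comm (ρ k *ᵥ H) G]
  ring

theorem fierz_b (h : Al P J ρ n ι)
    (hF : ∀ v : κ → ℝ, P *ᵥ v = v → ∑ k, (v ⬝ᵥ (ρ k *ᵥ v)) ^ 2 = (v ⬝ᵥ v) ^ 2)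
    {G H : κ → ℝ} (hG : InE P ρ n G) (hH : InE' P ρ n H) :
    ∑ k, (G ⬝ᵥ (ρ k *ᵥ H)) ^ 2 = (G ⬝ᵥ G) * (H ⬝ᵥ H) := by
  have h1 := hF (G + H) (by rw [mulVec_add, hG.1, hH.1])
  have h2 : (G + H) ⬝ᵥ (G + H) = G ⬝ᵥ G + H ⬝ᵥ H := by
    rw [dotProduct_add, add_dotProduct, add_dotProduct, h.dot_EE' hG hH, dotProduct_comm H G,
      h.dot_EE' hG hH]
    ring
  have h3 := bsum h hG hH
  have h4 := h.nn
  simp only [quad h hG hH, h2, Fin.sum_univ_three] at h1 h3 h4 ⊢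
  generalize G ⬝ᵥ (ρ 0 *ᵥ H) = b0 at *
  generalize G ⬝ᵥ (ρ 1 *ᵥ H) = b1 at *
  generalize G ⬝ᵥ (ρ 2 *ᵥ H) = b2 at *
  generalize G ⬝ᵥ G = A at *
  generalize H ⬝ᵥ H = B at *
  linear_combination (1 / 4) * h1 - (B - A) * h3 - (1 / 4) * (B - A) ^ 2 * h4

end alg

/-! ### at a point of the manifold -/

variable {M : Type v} [MetricSpace M] [CompactSpace M] [ConnectedSpace M]
  [ChartedSpace (EuclideanSpace ℝ (Fin 4)) M] [IsManifold (𝓡 4) ∞ M]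
  [RiemannianBundle (fun p : M => TangentSpace (𝓡 4) p)]
  [IsContMDiffRiemannianBundle (𝓡 4) ∞ (EuclideanSpace ℝ (Fin 4))
    (fun p : M => TangentSpace (𝓡 4) p)]
  [IsRiemannianManifold (𝓡 4) M] [MeasurableSpace M] [BorelSpace M]
  [SecondCountableTopology M] [Nonempty M]
  {κ0 κ1 κT : Type} [Fintype κ0] [Fintype κ1] [Fintype κT]

section pt

variable {S : SWS M κ0 κ1 κT} {τ : TD M κT} {u : κ0 → M → ℝ} {z : M} {ι : ℝ}

/-- `N₀ = |c|²`. -/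
def N0 (τ : TD M κT) (S : SWS M κ0 κ1 κT) (u : κ0 → M → ℝ) (z : M) : ℝ := ∑ y, cE τ S u y z ^ 2

/-- `N₁ = |c'|²`. -/
def N1 (τ : TD M κT) (S : SWS M κ0 κ1 κT) (u : κ0 → M → ℝ) (z : M) : ℝ := ∑ y, cE' τ S u y z ^ 2

/-- `b_k = ⟨ρ_k c, c'⟩`. -/
def bk (τ : TD M κT) (S : SWS M κ0 κ1 κT) (u : κ0 → M → ℝ) (k : Fin 3) (z : M) : ℝ :=
  ∑ y, ∑ y', S.rho k y y' z * cE τ S u y z * cE' τ S u y' z

theorem dot_self_sum {κ : Type*} [Fintype κ] (v : κ → ℝ) : v ⬝ᵥ v = ∑ y, v y ^ 2 := by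
  unfold dotProduct
  exact Finset.sum_congr rfl fun y _ => (sq (v y)).symm

theorem dot_rho (k : Fin 3) (v w : κ0 → ℝ) : v ⬝ᵥ (Rm S z k *ᵥ w) =
    ∑ y, ∑ y', S.rho k y y' z * v y * w y' := by
  unfold dotProduct mulVec dotProduct
  refine Finset.sum_congr rfl fun y _ => ?_
  rw [Finset.mul_sum]
  refine Finset.sum_congr rfl fun y' _ => ?_
  show v y * (S.rho k y y' z * w y') = S.rho k y y' z * v y * w y'
  ring

theorem rq_dot (k : Fin 3) (u : κ0 → M → ℝ) : S.rq k u z = sv u z ⬝ᵥ (Rm S z k *ᵥ sv u z) := by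
  rw [dot_rho]
  rfl

theorem sv_cE : sv (cE τ S u) z =
    (τ.rr z ^ (-(3 / 4) : ℝ) * (1 / 2)) • (sv u z - RR (Rm S z) (nv τ z) *ᵥ sv u z) := by
  funext y
  rw [Pi.smul_apply, Pi.sub_apply, RR_mulVec, smul_eq_mul, mul_assoc]
  rfl

theorem sv_cE' : sv (cE' τ S u) z =
    (τ.rr z ^ (-(3 / 4) : ℝ) * (1 / 2)) • (sv u z + RR (Rm S z) (nv τ z) *ᵥ sv u z) := by
  funext y
  rw [Pi.smul_apply, Pi.add_apply, RR_mulVec, smul_eq_mul, mul_assoc]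
  rfl

theorem inE_cE (h : Al (Pm S z) (Jm S z) (Rm S z) (nv τ z) ι) (hu : Pm S z *ᵥ sv u z = sv u z) :
    InE (Pm S z) (Rm S z) (nv τ z) (sv (cE τ S u) z) := by
  rw [sv_cE]
  constructor
  · rw [mulVec_smul, mulVec_sub, hu, mulVec_mulVec, h.PR]
  · rw [mulVec_smul, mulVec_sub, mulVec_mulVec, h.R_sq, hu, ← smul_neg, neg_sub]

theorem inE'_cE' (h : Al (Pm S z) (Jm S z) (Rm S z) (nv τ z) ι)
    (hu : Pm S z *ᵥ sv u z = sv u z) :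
    InE' (Pm S z) (Rm S z) (nv τ z) (sv (cE' τ S u) z) := by
  rw [sv_cE']
  constructor
  · rw [mulVec_smul, mulVec_add, hu, mulVec_mulVec, h.PR]
  · rw [mulVec_smul, mulVec_add, mulVec_mulVec, h.R_sq, hu, add_comm]

theorem sv_eq (hρ : 0 < τ.rr z) : sv u z =
    (τ.rr z ^ (3 / 4 : ℝ)) • (sv (cE τ S u) z + sv (cE' τ S u) z) := by
  have h1 : τ.rr z ^ (3 / 4 : ℝ) * τ.rr z ^ (-(3 / 4) : ℝ) = 1 := by
    rw [← Real.rpow_add hρ]; norm_num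
  rw [sv_cE, sv_cE', ← smul_add, smul_smul]
  have h2 : sv u z - RR (Rm S z) (nv τ z) *ᵥ sv u z + (sv u z + RR (Rm S z) (nv τ z) *ᵥ sv u z) =
      (2 : ℝ) • sv u z := by
    rw [two_smul]; abel
  rw [h2, smul_smul]
  have h3 : τ.rr z ^ (3 / 4 : ℝ) * (τ.rr z ^ (-(3 / 4) : ℝ) * (1 / 2)) * 2 = 1 := by
    rw [← mul_assoc, h1]; norm_num
  rw [h3, one_smul]

/-- `⟨ρ_k u, u⟩ = ρ^{3/2} ((N₁ - N₀) n_k + 2 b_k)`. -/
theorem rq_eq (h : Al (Pm S z) (Jm S z) (Rm S z) (nv τ z) ι) (hu : Pm S z *ᵥ sv u z = sv u z)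
    (hρ : 0 < τ.rr z) (k : Fin 3) : S.rq k u z =
    τ.rr z ^ (3 / 2 : ℝ) * (τ.n k z * (N1 τ S u z - N0 τ S u z) + 2 * bk τ S u k z) := by
  have e : τ.rr z ^ (3 / 4 : ℝ) * τ.rr z ^ (3 / 4 : ℝ) = τ.rr z ^ (3 / 2 : ℝ) := by
    rw [← Real.rpow_add hρ]; norm_num
  rw [rq_dot, sv_eq (S := S) (τ := τ) hρ, mulVec_smul, dotProduct_smul, smul_dotProduct,
    smul_eq_mul, smul_eq_mul, ← mul_assoc, e, quad h (inE_cE h hu) (inE'_cE' h hu) k,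
    dot_self_sum, dot_self_sum, dot_rho]
  rfl

/-- `∑ b_k² = N₀ N₁`. -/
theorem sum_bk [IsFiniteMeasureOnCompacts (μHE[4] : Measure M)] (hS : S.OK)
    (h : Al (Pm S z) (Jm S z) (Rm S z) (nv τ z) ι) (hu : Pm S z *ᵥ sv u z = sv u z) :
    ∑ k, bk τ S u k z ^ 2 = N0 τ S u z * N1 τ S u z := by
  have hF : ∀ v : κ0 → ℝ, Pm S z *ᵥ v = v →
      ∑ k, (v ⬝ᵥ (Rm S z k *ᵥ v)) ^ 2 = (v ⬝ᵥ v) ^ 2 := by
    intro v hv
    have h1 := hS.fierz z v (fun y => congrFun hv y)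
    rw [dot_self_sum]
    simp only [dot_rho]
    exact h1
  have h1 := fierz_b h hF (inE_cE h hu) (inE'_cE' h hu)
  rw [dot_self_sum, dot_self_sum] at h1
  simp only [dot_rho] at h1
  exact h1

/-- `|zet c|² = |c|²`. -/
theorem sum_zet (h : Al (Pm S z) (Jm S z) (Rm S z) (nv τ z) ι) {s : κ0 → M → ℝ}
    (hs : Pm S z *ᵥ sv s z = sv s z) : ∑ y, ‖zet S s z y‖ ^ 2 = ∑ y, s y z ^ 2 := by
  have h1 : ∀ y, ‖zet S s z y‖ ^ 2 = (1 / 2) * (s y z ^ 2 + (Jm S z *ᵥ sv s z) y ^ 2) := by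
    intro y
    have e : zet S s z y = ((s y z : ℂ) - Complex.I * (((Jm S z *ᵥ sv s z) y : ℝ) : ℂ)) /
      ((√2 : ℝ) : ℂ) := rfl
    rw [e, norm_div, div_pow]
    have h2 : ‖((√2 : ℝ) : ℂ)‖ ^ 2 = 2 := by
      rw [Complex.norm_real, Real.norm_eq_abs, sq_abs, Real.sq_sqrt (by norm_num)]
    have h3 : ‖(s y z : ℂ) - Complex.I * (((Jm S z *ᵥ sv s z) y : ℝ) : ℂ)‖ ^ 2 =
        s y z ^ 2 + (Jm S z *ᵥ sv s z) y ^ 2 := by
      rw [← Complex.normSq_eq_norm_sq, Complex.normSq_apply]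
      simp
      ring
    rw [h2, h3]; ring
  simp only [h1]
  rw [← Finset.mul_sum, Finset.sum_add_distrib]
  have h4 : ∑ y, (Jm S z *ᵥ sv s z) y ^ 2 = ∑ y, s y z ^ 2 := by
    rw [← dot_self_sum, h.J_dot, h.JJG hs, dotProduct_neg, neg_neg, dot_self_sum]
    rfl
  rw [h4]; ring

end pt

end

end Crest.Agent.R235.SwcPRC_57
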