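import Crest.Agent.R235.SwcProd2_215
import Crest.Agent.R235.IndVol_57

/-!
Row 235 (S0364), PACKAGE SWC, node PROD, leaf VOLD (helper57, statement helper215):
the volume measure of the limit structure is `2 ρ² μHE[4]`, `ρ² = ∑ X_k²`.
-/

set_option autoImplicit false
set_option maxSynthPendingDepth 3
set_option linter.unusedSectionVars false

open scoped ContDiff ENNReal NNReal Topology Manifold Bundle RealInnerProductSpace
open MeasureTheory Set Filter Metric Bundle

universe v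

namespace Crest.Agent.R235.SwcVOLD_57

open Crest.Agent.R240 Crest.Agent.R240.Ch Crest.Agent.R240.Int Crest.Agent.R235
open Crest.Agent.R235.IndTri_451 Crest.Agent.R235.SwcProd_215

noncomputable section

section top

variable {M : Type v} [MetricSpace M] [ChartedSpace E4 M] [IsManifold 𝓘(ℝ, E4) ∞ M]

/-- scaling of the volume form: `IsVol F (q_{F0}(F,F) mu)` for `IsVol F0 mu`, `q_{F0}(F,F) ≥ 0`. -/
theorem isVol_scale [MeasurableSpace M] [BorelSpace M] {F0 F : F2 E4 M} (h0 : Vol F0)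
    (hF : Vol F) (hc : Continuous (qG F0 F F)) (hp : ∀ x, 0 ≤ qG F0 F F x) {μ : Measure M}
    (hμ : IsVol F0 μ) :
    IsVol F (μ.withDensity fun x => ENNReal.ofReal (qG F0 F F x)) := by
  intro p f hf hf0
  have hm : Measurable fun x => ENNReal.ofReal (qG F0 F F x) := hc.measurable.ennreal_ofReal
  rw [lintegral_withDensity_eq_lintegral_mul _ hm hf,
    hμ p _ (hm.mul hf) (fun x hx => by rw [Pi.mul_apply, hf0 x hx, mul_zero])]
  refine setLIntegral_congr_fun (chartAt E4 p).open_target.measurableSet (fun y hy => ?_)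
  have h1 : qG F0 F F ((chartAt E4 p).symm y) * |W (rep p F0 y) (rep p F0 y)| =
      |W (rep p F y) (rep p F y)| := by
    have hpos := hp ((chartAt E4 p).symm y)
    rw [qG_chart h0 hF.alt hF.alt hy] at hpos ⊢
    have hne : W (rep p F0 y) (rep p F0 y) ≠ 0 := h0.rep_ne hy
    rw [← abs_of_nonneg hpos, ← abs_mul]
    unfold q
    rw [div_mul_cancel₀ _ hne]
  show ENNReal.ofReal (qG F0 F F ((chartAt E4 p).symm y)) * f ((chartAt E4 p).symm y) *
    ENNReal.ofReal |W (rep p F0 y) (rep p F0 y)| = f ((chartAt E4 p).symm y) *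
    ENNReal.ofReal |W (rep p F y) (rep p F y)|
  rw [← h1, ENNReal.ofReal_mul (hp _)]
  ring

end top

theorem vold : VOLD.{v} := by
  intro M _ _ _ _ _ _ _ _ _ _ _ _ _ w e t X D hL hin f hf
  have hT := hL.tri
  have hne : ∀ x, W (at2 ((w 0).1.1 : F2 E4 M) x) (at2 ((w 0).1.1 : F2 E4 M) x) ≠ 0 :=
    fun x => hT.W_ne x
  have hs0 : Smooth2 ((w 0).1.1 : F2 E4 M) := by
    have := hT.smooth 0
    rwa [hT.e_zero] at this
  have hVol0 : Vol ((w 0).1.1 : F2 E4 M) :=
    ⟨hs0.1, fun p => (hs0.2 p).continuousOn, hne⟩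
  have hC : IndVol_57.Cpt ((w 0).1.1 : F2 E4 M) (II e 0) := by
    refine ⟨hVol0, hT.I_sq 0, fun x u v => ?_⟩
    have h1 := hT.g_eq 0 x u v
    have h0 : e 0 = ((w 0).1.1 : F2 E4 M) := hT.e_zero
    rw [h0] at h1
    exact (hin x u v).trans h1
  have hVolD : Vol D.F := dat_volF D
  have hρ : ∀ x, qG ((w 0).1.1 : F2 E4 M) D.F D.F x = ∑ k, X k x ^ 2 := by
    intro x
    have h1 : at2 D.F x = ∑ k, X k x • at2 (e k) x := by
      rw [← hL.X x, hL.F]
      rfl
    have hW : W (∑ k, X k x • at2 (e k) x) (∑ k, X k x • at2 (e k) x) =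
        (∑ k, X k x ^ 2) * W (at2 ((w 0).1.1 : F2 E4 M) x) (at2 ((w 0).1.1 : F2 E4 M) x) := by
      simp only [Fin.sum_univ_three, W_add_left, W_add_right, W_smul_left, W_smul_right]
      have hWe : ∀ i j : Fin 3, W (at2 (e i) x) (at2 (e j) x) =
        if i = j then W (at2 ((w 0).1.1 : F2 E4 M) x) (at2 ((w 0).1.1 : F2 E4 M) x) else 0 :=
        fun i j => hT.W_e i j x
      simp only [hWe]
      simp
      ring
    unfold qG q
    rw [h1, hW, mul_div_assoc, div_self (hne x), mul_one]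
  have hcont : Continuous (qG ((w 0).1.1 : F2 E4 M) D.F D.F) :=
    continuous_qG hVol0 hVolD.cont2 hVolD.cont2
  have hpos : ∀ x, 0 ≤ qG ((w 0).1.1 : F2 E4 M) D.F D.F x := fun x => by
    rw [hρ]; positivity
  have hν : IsVol D.F ((mu ((w 0).1.1 : F2 E4 M)).withDensity
      fun x => ENNReal.ofReal (qG ((w 0).1.1 : F2 E4 M) D.F D.F x)) :=
    isVol_scale hVol0 hVolD hcont hpos (Int.isVol_mu hVol0)
  have hμ : D.μ = (mu ((w 0).1.1 : F2 E4 M)).withDensity
      fun x => ENNReal.ofReal (qG ((w 0).1.1 : F2 E4 M) D.F D.F x) :=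
    (isVol_eq_mu hVolD (dat_isVol D)).trans (isVol_eq_mu hVolD hν).symm
  rw [hμ, integral_withDensity_eq_integral_toReal_smul hcont.measurable.ennreal_ofReal
    (Eventually.of_forall fun x => ENNReal.ofReal_lt_top), IndVol_57.integral_mu_eq hC,
    ← integral_smul]
  congr 1
  funext x
  rw [ENNReal.toReal_ofReal (hpos x), hρ]
  simp only [smul_eq_mul]
  ring

end

end Crest.Agent.R235.SwcVOLD_57
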