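import Crest.Agent.R235.SwcPRCa_57
import Crest.Agent.R235.IndVol_57
import Crest.Agent.R235.SwcVOLD_57
import Crest.Agent.R235.Ip_288

/-!
Row 235 (S0364), PACKAGE SWC, node PROD, leaf PRC (helper57), part B: the functions
`φ_k = q(w_0; e_k, Φ_n)`, `s_n`, `E_k`; continuity; the closed form `Φ_n`; integral bounds.
-/

set_option autoImplicit false
set_option maxSynthPendingDepth 3
set_option linter.unusedSectionVars false

open scoped ContDiff ENNReal NNReal Topology Manifold Bundle RealInnerProductSpace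
open MeasureTheory Set Filter Metric Bundle Matrix

universe v

namespace Crest.Agent.R235.SwcPRC_57

open Crest.Agent.R240 Crest.Agent.R240.Ch Crest.Agent.R235 Crest.Agent.R235.SWDefs_53
open Crest.Agent.R235.IndTri_451 Crest.Agent.R235.Tau483 Crest.Agent.R235.SwcGlob_34
open Crest.Agent.R235.SwcProd_215
open Crest.Agent.R249.Tv57 (OpPair SmF SmV KerD)
open Crest.Agent.R249.Tz805 (ToF)
open Crest.Agent.R249.Vf281 (VSm mCov)

noncomputable section

variable {M : Type v} [MetricSpace M] [CompactSpace M] [ConnectedSpace M]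
  [ChartedSpace (EuclideanSpace ℝ (Fin 4)) M] [IsManifold (𝓡 4) ∞ M]
  [RiemannianBundle (fun p : M => TangentSpace (𝓡 4) p)]
  [IsContMDiffRiemannianBundle (𝓡 4) ∞ (EuclideanSpace ℝ (Fin 4))
    (fun p : M => TangentSpace (𝓡 4) p)]
  [IsRiemannianManifold (𝓡 4) M] [MeasurableSpace M] [BorelSpace M]
  [SecondCountableTopology M] [Nonempty M] [IsFiniteMeasureOnCompacts (μHE[4] : Measure M)]
  {κ0 κ1 κT : Type} [Fintype κ0] [Fintype κ1] [Fintype κT]

/-- continuous functions are integrable. -/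
theorem intg {f : M → ℝ} (hf : Continuous f) : Integrable f (μHE[4] : Measure M) :=
  hf.integrable_of_hasCompactSupport (HasCompactSupport.of_compactSpace _)

/-! ### continuity -/

section cont

variable {S : SWS M κ0 κ1 κT} {τ : TD M κT} {u : κ0 → M → ℝ} {C : ℝ}

theorem cont_R (hS : S.OK) (hτ : τ.OK S C) (hu : SmV (n := 4) u) (y : κ0) :
    Continuous (τ.R S u y) := by
  unfold TD.R
  refine continuous_finsetSum _ fun k _ => continuous_finsetSum _ fun y' _ => ?_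
  exact ((hτ.smn k).continuous.mul (hS.smrho k y y').continuous).mul (hu y').continuous

theorem cont_rr (hτ : τ.OK S C) (p : ℝ) : Continuous fun z => τ.rr z ^ p :=
  hτ.smrr.continuous.rpow_const fun z => Or.inl (hτ.pos z).ne'

theorem cont_cE (hS : S.OK) (hτ : τ.OK S C) (hu : SmV (n := 4) u) (y : κ0) :
    Continuous (cE τ S u y) := by
  unfold cE
  exact (cont_rr hτ _).mul (continuous_const.mul ((hu y).continuous.sub (cont_R hS hτ hu y)))

theorem cont_cE' (hS : S.OK) (hτ : τ.OK S C) (hu : SmV (n := 4) u) (y : κ0) :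
    Continuous (cE' τ S u y) := by
  unfold cE'
  exact (cont_rr hτ _).mul (continuous_const.mul ((hu y).continuous.add (cont_R hS hτ hu y)))

theorem cont_N0 (hS : S.OK) (hτ : τ.OK S C) (hu : SmV (n := 4) u) : Continuous (N0 τ S u) := by
  unfold N0
  exact continuous_finsetSum _ fun y _ => (cont_cE hS hτ hu y).pow 2

theorem cont_N1 (hS : S.OK) (hτ : τ.OK S C) (hu : SmV (n := 4) u) : Continuous (N1 τ S u) := by
  unfold N1
  exact continuous_finsetSum _ fun y _ => (cont_cE' hS hτ hu y).pow 2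

theorem cont_bk (hS : S.OK) (hτ : τ.OK S C) (hu : SmV (n := 4) u) (k : Fin 3) :
    Continuous (bk τ S u k) := by
  unfold bk
  refine continuous_finsetSum _ fun y _ => continuous_finsetSum _ fun y' _ => ?_
  exact ((hS.smrho k y y').continuous.mul (cont_cE hS hτ hu y)).mul (cont_cE' hS hτ hu y')

theorem cont_rq (hS : S.OK) (hu : SmV (n := 4) u) (k : Fin 3) : Continuous (S.rq k u) := by
  unfold SWS.rq
  refine continuous_finsetSum _ fun y _ => continuous_finsetSum _ fun y' _ => ?_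
  exact ((hS.smrho k y y').continuous.mul (hu y).continuous).mul (hu y').continuous

theorem cont_gR (hS : S.OK) (hτ : τ.OK S C) (hu : SmV (n := 4) u) {a : κT → M → ℝ}
    (ha : SmV (n := 4) a) (hsa : S.DT.Sec a) (r : ℝ) (k : Fin 3) :
    Continuous (gR S τ r a u k) := by
  unfold gR
  refine (S.H.smB a ha hsa k.succ).continuous.sub ?_
  refine Continuous.sub (Continuous.add ?_ ?_) (hτ.smfE k).continuous
  · exact (cont_rr hτ _).mul (continuous_const.mul (cont_rq hS hu k))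
  · exact continuous_const.mul (hτ.smrr.continuous.mul (hτ.smn k).continuous)

end cont

/-! ### the functions -/

section fns

variable {V : Vars M κ0 κ1 κT} {U : Filter ℕ}

/-- the Taubes data of index `n`. -/
abbrev tn (V : Vars M κ0 κ1 κT) (n : ℕ) : TD M κT := V.τ (V.t n)

/-- `φ_k`. -/
def ph (V : Vars M κ0 κ1 κT) (n : ℕ) (k : Fin 3) (x : M) : ℝ :=
  qG (V.w 0).1.1 (V.e k) (V.Q.Phi n) x

/-- `s = (2r - N₀)/4`. -/
def sn (V : Vars M κ0 κ1 κT) (n : ℕ) (x : M) : ℝ :=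
  (2 * V.r n - N0 (tn V n) V.S (V.u n) x) / 4

/-- the rest. -/
def Ek (V : Vars M κ0 κ1 κT) (n : ℕ) (k : Fin 3) (x : M) : ℝ :=
  (tn V n).rr x * (tn V n).n k x * N1 (tn V n) V.S (V.u n) x / 4 +
    (tn V n).rr x * bk (tn V n) V.S (V.u n) k x / 2 +
    gR V.S (tn V n) (V.r n) (V.a n) (V.u n) k x / 2

theorem ok (h : Ctx V U) (n : ℕ) : (tn V n).OK V.S V.C := h.data.tau _ (h.seq.nt n)

theorem al (h : Ctx V U) (n : ℕ) (z : M) :
    Al (Pm V.S z) (Jm V.S z) (Rm V.S z) (nv (tn V n) z) V.ι :=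
  al_of h.data.ok h.data.tg z ((ok h n).norm z)

theorem secu (h : Ctx V U) (n : ℕ) (z : M) : Pm V.S z *ᵥ sv (V.u n) z = sv (V.u n) z :=
  funext fun y => h.seq.secu n y z

theorem qG_Phi (n : ℕ) (b : F2 E4 M) (F : F2 E4 M) (x : M) : qG F b (V.Q.Phi n) x =
    2 * Real.pi * qG F b ((V.a0 n).1.1 : F2 E4 M) x +
      qG F b (dG (thE V.sT V.e (V.β n) (V.a n))) x := by
  have h1 : at2 (V.Q.Phi n) x = (2 * Real.pi) • at2 ((V.a0 n).1.1 : F2 E4 M) x +
      at2 (dG (thE V.sT V.e (V.β n) (V.a n))) x := rfl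
  unfold qG q
  rw [h1, W_add_right, W_smul_right]
  ring

theorem two_ph (h : Ctx V U) (n : ℕ) (k : Fin 3) (x : M) :
    2 * ph V n k x = V.S.H.B (V.a n) k.succ x + (tn V n).fE k x := by
  unfold ph
  rw [qG_Phi]
  exact (h.lnk n).cur (V.a n) (h.seq.sma n) (h.seq.seca n) k x

/-- `φ_k = Y_k s + E_k`. -/
theorem ph_eq (h : Ctx V U) (n : ℕ) (k : Fin 3) (x : M) :
    ph V n k x = Xw V.ww (V.t n) k x * sn V n x + Ek V n k x := by
  have hρ := (ok h n).pos x
  have h1 := two_ph h n k x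
  have h2 : Xw V.ww (V.t n) k x = (tn V n).rr x * (tn V n).n k x :=
    (h.data.nn (V.t n) k x (h.seq.nt n)).symm
  have h3 := rq_eq (al h n x) (secu h n x) hρ k
  have e : (tn V n).rr x ^ (-(1 / 2) : ℝ) * (tn V n).rr x ^ (3 / 2 : ℝ) = (tn V n).rr x := by
    rw [← Real.rpow_add hρ]; norm_num
  have h4 : gR V.S (tn V n) (V.r n) (V.a n) (V.u n) k x = V.S.H.B (V.a n) k.succ x -
      ((tn V n).rr x ^ (-(1 / 2) : ℝ) * ((1 / 2) * V.S.rq k (V.u n) x) +
        V.r n * ((tn V n).rr x * (tn V n).n k x) - (tn V n).fE k x) := rfl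
  have h5 : (tn V n).rr x ^ (-(1 / 2) : ℝ) * ((1 / 2) * V.S.rq k (V.u n) x) =
      (tn V n).rr x * ((1 / 2) * ((tn V n).n k x * (N1 (tn V n) V.S (V.u n) x -
        N0 (tn V n) V.S (V.u n) x) + 2 * bk (tn V n) V.S (V.u n) k x)) := by
    rw [h3]
    calc _ = ((tn V n).rr x ^ (-(1 / 2) : ℝ) * (tn V n).rr x ^ (3 / 2 : ℝ)) *
          ((1 / 2) * ((tn V n).n k x * (N1 (tn V n) V.S (V.u n) x -
          N0 (tn V n) V.S (V.u n) x) + 2 * bk (tn V n) V.S (V.u n) k x)) := by ring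
      _ = _ := by rw [e]
  rw [h5] at h4
  unfold sn Ek
  rw [h2]
  linarith

theorem nal_eq (h : Ctx V U) (n : ℕ) (x : M) :
    V.Q.nal n x = N0 (tn V n) V.S (V.u n) x / (2 * V.r n) := by
  have hr : 0 < 2 * V.r n := by
    have := h.seq.rge n
    have h0 : (0 : ℝ) ≤ n := Nat.cast_nonneg n
    linarith
  have h1 : V.Q.nal n x = ∑ i, ‖zet V.S (cE (tn V n) V.S (V.u n)) x (V.ν i) /
      ((√(2 * V.r n) : ℝ) : ℂ)‖ ^ 2 := rfl
  rw [h1]
  have h2 : ∀ i, ‖zet V.S (cE (tn V n) V.S (V.u n)) x (V.ν i) /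
      ((√(2 * V.r n) : ℝ) : ℂ)‖ ^ 2 =
      ‖zet V.S (cE (tn V n) V.S (V.u n)) x (V.ν i)‖ ^ 2 / (2 * V.r n) := by
    intro i
    rw [norm_div, div_pow, Complex.norm_real, Real.norm_eq_abs, sq_abs, Real.sq_sqrt hr.le]
  simp only [h2]
  rw [← Finset.sum_div, Equiv.sum_comp V.ν
    (fun y => ‖zet V.S (cE (tn V n) V.S (V.u n)) x y‖ ^ 2)]
  have h3 : Pm V.S x *ᵥ sv (cE (tn V n) V.S (V.u n)) x = sv (cE (tn V n) V.S (V.u n)) x :=
    (inE_cE (al h n x) (secu h n x)).1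
  rw [sum_zet (al h n x) h3]
  rfl

theorem sn_eq (h : Ctx V U) (n : ℕ) (x : M) :
    (1 / 2) * V.Q.r n * (1 - V.Q.nal n x) = sn V n x := by
  have hr : 0 < V.r n := by
    have := h.seq.rge n
    have h0 : (0 : ℝ) ≤ n := Nat.cast_nonneg n
    linarith
  rw [nal_eq h]
  have e : V.Q.r n = V.r n := rfl
  rw [e]
  unfold sn
  field_simp
  ring

/-- `∑ E_k² ≤ ρ² N₁² + ρ² N₀ N₁ + |g|²`. -/
theorem sum_Ek (h : Ctx V U) (n : ℕ) (x : M) : ∑ k, Ek V n k x ^ 2 ≤
    (tn V n).rr x ^ 2 * N1 (tn V n) V.S (V.u n) x ^ 2 +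
      (tn V n).rr x ^ 2 * (N0 (tn V n) V.S (V.u n) x * N1 (tn V n) V.S (V.u n) x) +
      ∑ k, gR V.S (tn V n) (V.r n) (V.a n) (V.u n) k x ^ 2 := by
  have h1 := sum_bk h.data.ok (al h n x) (secu h n x)
  have h2 := (ok h n).norm x
  rw [← h1]
  simp only [Fin.sum_univ_three] at h2 ⊢
  unfold Ek
  generalize (tn V n).rr x = ρ at *
  generalize N1 (tn V n) V.S (V.u n) x = N at *
  generalize gR V.S (tn V n) (V.r n) (V.a n) (V.u n) 0 x = g0 at *
  generalize gR V.S (tn V n) (V.r n) (V.a n) (V.u n) 1 x = g1 at *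
  generalize gR V.S (tn V n) (V.r n) (V.a n) (V.u n) 2 x = g2 at *
  generalize bk (tn V n) V.S (V.u n) 0 x = b0 at *
  generalize bk (tn V n) V.S (V.u n) 1 x = b1 at *
  generalize bk (tn V n) V.S (V.u n) 2 x = b2 at *
  generalize (tn V n).n 0 x = n0 at *
  generalize (tn V n).n 1 x = n1 at *
  generalize (tn V n).n 2 x = n2 at *
  have key : ∀ m b g : ℝ, (ρ * m * N / 4 + ρ * b / 2 + g / 2) ^ 2 ≤
      3 * (ρ ^ 2 * N ^ 2 * m ^ 2 / 16 + ρ ^ 2 * b ^ 2 / 4 + g ^ 2 / 4) := by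
    intro m b g
    nlinarith [sq_nonneg (ρ * m * N / 4 - ρ * b / 2), sq_nonneg (ρ * m * N / 4 - g / 2),
      sq_nonneg (ρ * b / 2 - g / 2)]
  have k0 := key n0 b0 g0
  have k1 := key n1 b1 g1
  have k2 := key n2 b2 g2
  have e : ρ ^ 2 * N ^ 2 * n0 ^ 2 + ρ ^ 2 * N ^ 2 * n1 ^ 2 + ρ ^ 2 * N ^ 2 * n2 ^ 2 =
      ρ ^ 2 * N ^ 2 := by
    linear_combination (ρ ^ 2 * N ^ 2) * h2
  have p1 : 0 ≤ ρ ^ 2 * N ^ 2 := by positivity
  have p2 : 0 ≤ ρ ^ 2 * (b0 ^ 2 + b1 ^ 2 + b2 ^ 2) := by positivity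
  have p3 : 0 ≤ g0 ^ 2 + g1 ^ 2 + g2 ^ 2 := by positivity
  nlinarith

end fns

/-! ### continuity of the functions -/

section cont2

variable {V : Vars M κ0 κ1 κT} {U : Filter ℕ}

theorem cont_ph (h : Ctx V U) (n : ℕ) (k : Fin 3) : Continuous (ph V n k) := by
  have e : ph V n k = fun x => (V.S.H.B (V.a n) k.succ x + (tn V n).fE k x) / 2 := by
    funext x
    rw [← two_ph h n k x]; ring
  rw [e]
  exact ((V.S.H.smB (V.a n) (h.seq.sma n) (h.seq.seca n) k.succ).continuous.add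
    ((ok h n).smfE k).continuous).div_const 2

theorem cont_sn (h : Ctx V U) (n : ℕ) : Continuous (sn V n) := by
  unfold sn
  exact (continuous_const.sub (cont_N0 h.data.ok (ok h n) (h.seq.smu n))).div_const 4

theorem cont_X (h : Ctx V U) (t : E3) (k : Fin 3) : Continuous (Xw V.ww t k) := by
  unfold Xw
  exact continuous_finsetSum _ fun i _ => continuous_const.mul (h.data.smw i k).continuous

theorem cont_Ek (h : Ctx V U) (n : ℕ) (k : Fin 3) : Continuous (Ek V n k) := by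
  have e : Ek V n k = fun x => ph V n k x - Xw V.ww (V.t n) k x * sn V n x := by
    funext x
    rw [ph_eq h n k x]; ring
  rw [e]
  exact (cont_ph h n k).sub ((cont_X h _ k).mul (cont_sn h n))

end cont2

end

end Crest.Agent.R235.SwcPRC_57
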