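import Crest.Agent.R235.SwcProd3_215
import Crest.Agent.R235.SwcPtw_766
import Crest.Agent.R235.SwcAlg_34
import Crest.Agent.R240.NrmM
import Crest.Agent.R240.En4F

/-!
Row 235 (S0364), PACKAGE SWC, assembly of PROD (helper215): the field `o4` (`PRD`).
-/

set_option autoImplicit false
set_option maxSynthPendingDepth 3
set_option linter.unusedSectionVars false

open scoped ContDiff ENNReal NNReal Topology Manifold Bundle RealInnerProductSpace
open MeasureTheory Set Filter Metric Bundle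

universe v

namespace Crest.Agent.R235.SwcProd_215

open Crest.Agent.R240 Crest.Agent.R240.Ch Crest.Agent.R235 Crest.Agent.R235.SWDefs_53
open Crest.Agent.R235.IndTri_451 Crest.Agent.R235.Tau483 Crest.Agent.R235.SwcGlob_34
open Crest.Agent.R249.Tv57 (OpPair SmF SmV KerD)
open Crest.Agent.R249.Tz805 (ToF)

noncomputable section

/-- **NETC** (984): continuity and pointwise bounds for one step of a Taubes sequence. -/
def NETC : Prop :=
  ∀ (M : Type v) [MetricSpace M] [CompactSpace M] [ChartedSpace E4 M]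
    [IsManifold 𝓘(ℝ, E4) ∞ M] [MeasurableSpace M] [BorelSpace M]
    (D : Crest.Agent.R240.Dat M) (N : ℕ) (Q : TSeq M N) (n : ℕ), IsLine (Q.p n) →
    IsChern (Q.p n) (Q.a0 n) → (∀ i, ContMDiff 𝓘(ℝ, E4) 𝓘(ℝ, ℂ) ∞ (fun x => Q.α n x i)) →
    (∀ x, (Q.p n x).mulVec (Q.α n x) = Q.α n x) → Smooth1 (Q.θ n) →
    Continuous (Q.nal n) ∧ Continuous (Q.neta D n) ∧ (∀ x, 0 ≤ Q.neta D n x) ∧
    Continuous (Q.ndb D n) ∧
    (∀ x, n1 D x (at1 (Q.jj n) x) ≤ Q.nal n x * Q.neta D n x) ∧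
    ∀ x, D.nr (Q.Psi n) x ≤ |1 - Q.nal n x| * D.nr (Q.Phi n) x + Q.neta D n x

section gen

variable {M : Type v} [MetricSpace M] [CompactSpace M] [ChartedSpace E4 M]
  [IsManifold 𝓘(ℝ, E4) ∞ M] [MeasurableSpace M] [BorelSpace M]

theorem n1_nonneg (D : Crest.Agent.R240.Dat M) (x : M) (c : E4 →L[ℝ] ℝ) : 0 ≤ n1 D x c :=
  SwcAlg_34.m1_nonneg (NM.dJ D x) (NM.dF D x) c

theorem contI (D : Crest.Agent.R240.Dat M) {f : M → ℝ} (hf : Continuous f) : Integrable f D.μ := by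
  have := D.fin
  exact hf.integrable_of_hasCompactSupport (HasCompactSupport.of_compactSpace f)

theorem abs_qG_self_le (D : Crest.Agent.R240.Dat M) {b : F2 E4 M} (hb : Smooth2 b) (x : M) :
    |qG D.F b b x| ≤ nsqG D.J D.F b x := by
  have h := NM.abs_qG_le D hb hb x
  rw [← sq, NM.nr_sq D hb] at h
  exact h

/-- a bound of the norm of a smooth form. -/
theorem exists_nr_le (D : Crest.Agent.R240.Dat M) {b : F2 E4 M} (hb : Smooth2 b) :
    ∃ B : ℝ, 0 ≤ B ∧ ∀ x, D.nr b x ≤ B := by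
  obtain ⟨B, hB⟩ := isCompact_univ.exists_bound_of_continuousOn
    (NM.continuous_nr D hb).continuousOn
  refine ⟨|B|, abs_nonneg _, fun x => ?_⟩
  exact ((le_abs_self _).trans (hB x (mem_univ x))).trans (le_abs_self _)

/-- `|∫ q(Psi, b)| ≤ B ∫ |Psi|`. -/
theorem abs_I_le (D : Crest.Agent.R240.Dat M) {a b : F2 E4 M} (ha : Smooth2 a) (hb : Smooth2 b)
    {B : ℝ} (hB : ∀ x, D.nr b x ≤ B) : |D.I a b| ≤ B * ∫ x, D.nr a x ∂D.μ := by
  have h1 : |D.I a b| ≤ ∫ x, |qG D.F a b x| ∂D.μ := by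
    unfold Crest.Agent.R240.Dat.I IG
    exact abs_integral_le_integral_abs
  refine h1.trans ?_
  rw [← integral_const_mul]
  refine integral_mono_of_nonneg (Eventually.of_forall fun x => abs_nonneg _)
    ((contI D (NM.continuous_nr D ha)).const_mul B) (Eventually.of_forall fun x => ?_)
  refine (NM.abs_qG_le D ha hb x).trans ?_
  show D.nr a x * D.nr b x ≤ B * D.nr a x
  rw [mul_comm]
  exact mul_le_mul_of_nonneg_right (hB x) (NM.nr_nonneg D a x)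

/-- additivity of `D.I`. -/
theorem I_add (D : Crest.Agent.R240.Dat M) {a a' b : F2 E4 M} (ha : Smooth2 a) (ha' : Smooth2 a')
    (hb : Smooth2 b) : D.I (a + a') b = D.I a b + D.I a' b := by
  unfold Crest.Agent.R240.Dat.I IG
  rw [← integral_add (contI D (NM.continuous_qG D ha hb)) (contI D (NM.continuous_qG D ha' hb))]
  congr 1
  funext x
  exact Int.qG_add_left D.F a a' b x

/-- the first bound: `∫ |Psi|`. -/
theorem int_nr_psi (D : Crest.Agent.R240.Dat M) {N : ℕ} (Q : TSeq M N) (n : ℕ) {C1 C2 : ℝ}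
    (hr : 0 < Q.r n) (hPhi : Smooth2 (Q.Phi n))
    (c1 : Continuous (Q.nal n)) (c2 : Continuous (Q.neta D n))
    (hps : ∀ x, D.nr (Q.Psi n) x ≤ |1 - Q.nal n x| * D.nr (Q.Phi n) x + Q.neta D n x)
    (h1 : ∫ x, Q.neta D n x ∂D.μ ≤ C1) (h2 : Q.r n * ∫ x, (1 - Q.nal n x) ^ 2 ∂D.μ ≤ C1)
    (h3 : ∫ x, nsqG D.J D.F (Q.Phi n) x ∂D.μ ≤ C2 * Q.r n) :
    ∫ x, D.nr (Q.Psi n) x ∂D.μ ≤ 2 * C1 + C2 := by
  have i1 : Integrable (fun x => (1 - Q.nal n x) ^ 2) D.μ := contI D ((continuous_const.sub c1).pow 2)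
  have i2 : Integrable (fun x => nsqG D.J D.F (Q.Phi n) x) D.μ := contI D (NM.continuous_nsq D hPhi)
  have i3 : Integrable (fun x => Q.neta D n x) D.μ := contI D c2
  have e1 := integral_add ((i1.const_mul (1 / 2 * Q.r n)).add (i2.const_mul (1 / 2 * (Q.r n)⁻¹))) i3
  have e2 := integral_add (i1.const_mul (1 / 2 * Q.r n)) (i2.const_mul (1 / 2 * (Q.r n)⁻¹))
  simp only [Pi.add_apply] at e1 e2
  have hle : ∫ x, D.nr (Q.Psi n) x ∂D.μ ≤
      ∫ x, (1 / 2 * Q.r n * (1 - Q.nal n x) ^ 2 + 1 / 2 * (Q.r n)⁻¹ * nsqG D.J D.F (Q.Phi n) x +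
        Q.neta D n x) ∂D.μ := by
    refine integral_mono_of_nonneg (Eventually.of_forall fun x => NM.nr_nonneg D _ x)
      (((i1.const_mul _).add (i2.const_mul _)).add i3) (Eventually.of_forall fun x => ?_)
    refine (hps x).trans ?_
    have h4 : |1 - Q.nal n x| * D.nr (Q.Phi n) x ≤
        1 / 2 * Q.r n * (1 - Q.nal n x) ^ 2 + 1 / 2 * (Q.r n)⁻¹ * nsqG D.J D.F (Q.Phi n) x := by
      rw [← NM.nr_sq D hPhi, ← sq_abs (1 - Q.nal n x)]
      have h5 : 0 ≤ (Q.r n)⁻¹ * (Q.r n * |1 - Q.nal n x| - D.nr (Q.Phi n) x) ^ 2 := by positivity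
      have h6 : (Q.r n)⁻¹ * (Q.r n * |1 - Q.nal n x| - D.nr (Q.Phi n) x) ^ 2 =
          Q.r n * |1 - Q.nal n x| ^ 2 - 2 * (|1 - Q.nal n x| * D.nr (Q.Phi n) x) +
            (Q.r n)⁻¹ * D.nr (Q.Phi n) x ^ 2 := by
        field_simp
        ring
      rw [h6] at h5
      linarith
    exact add_le_add_left h4 _
  refine hle.trans ?_
  rw [e1, e2, integral_const_mul, integral_const_mul]
  have h7 : 1 / 2 * (Q.r n)⁻¹ * ∫ x, nsqG D.J D.F (Q.Phi n) x ∂D.μ ≤ 1 / 2 * C2 := by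
    have h8 : (Q.r n)⁻¹ * ∫ x, nsqG D.J D.F (Q.Phi n) x ∂D.μ ≤ (Q.r n)⁻¹ * (C2 * Q.r n) :=
      mul_le_mul_of_nonneg_left h3 (by positivity)
    have h9 : (Q.r n)⁻¹ * (C2 * Q.r n) = C2 := by field_simp
    rw [h9] at h8
    linarith
  have hC2 : 0 ≤ C2 := by
    have h10 : 0 ≤ ∫ x, nsqG D.J D.F (Q.Phi n) x ∂D.μ :=
      integral_nonneg fun x => NM.nsq_nonneg D hPhi x
    have h11 : 0 ≤ C2 * Q.r n := h10.trans h3
    exact nonneg_of_mul_nonneg_left h11 hr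
  have hC1 : 0 ≤ C1 := by
    have h10 : 0 ≤ ∫ x, (1 - Q.nal n x) ^ 2 ∂D.μ := integral_nonneg fun x => sq_nonneg _
    exact (mul_nonneg hr.le h10).trans h2
  linarith

/-- the second bound: `∫ |j|`. -/
theorem int_j (D : Crest.Agent.R240.Dat M) {N : ℕ} (Q : TSeq M N) (n : ℕ) {C1 : ℝ}
    (hr : 1 ≤ Q.r n) (c1 : Continuous (Q.nal n)) (c2 : Continuous (Q.neta D n))
    (n2 : ∀ x, 0 ≤ Q.neta D n x)
    (hj : ∀ x, n1 D x (at1 (Q.jj n) x) ≤ Q.nal n x * Q.neta D n x)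
    (h1 : ∫ x, Q.neta D n x ∂D.μ ≤ C1) (h2 : Q.r n * ∫ x, (1 - Q.nal n x) ^ 2 ∂D.μ ≤ C1) :
    ∫ x, √(n1 D x (at1 (Q.jj n) x)) ∂D.μ ≤ 2 * C1 + 2 * D.μ.real univ := by
  have := D.fin
  have n0 : ∀ x, 0 ≤ Q.nal n x := fun x => Finset.sum_nonneg fun i _ => sq_nonneg _
  have i1 : Integrable (fun x => (1 - Q.nal n x) ^ 2) D.μ := contI D ((continuous_const.sub c1).pow 2)
  have i3 : Integrable (fun x => Q.neta D n x) D.μ := contI D c2
  have i4 : Integrable (fun _ : M => (2 : ℝ)) D.μ := integrable_const _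
  have e1 := integral_add (i4.add i1) i3
  have e2 := integral_add i4 i1
  simp only [Pi.add_apply] at e1 e2
  have hle : ∫ x, √(n1 D x (at1 (Q.jj n) x)) ∂D.μ ≤
      ∫ x, (2 + (1 - Q.nal n x) ^ 2 + Q.neta D n x) ∂D.μ := by
    refine integral_mono_of_nonneg (Eventually.of_forall fun x => Real.sqrt_nonneg _)
      ((i4.add i1).add i3) (Eventually.of_forall fun x => ?_)
    show √(n1 D x (at1 (Q.jj n) x)) ≤ 2 + (1 - Q.nal n x) ^ 2 + Q.neta D n x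
    rw [Real.sqrt_le_left (by have := n2 x; positivity)]
    refine (hj x).trans ?_
    have h5 : Q.nal n x ≤ 2 + (1 - Q.nal n x) ^ 2 := by nlinarith [sq_nonneg (Q.nal n x - 3 / 2)]
    have h6 := n2 x
    have h7 := n0 x
    nlinarith [mul_nonneg h6 (sub_nonneg.2 h5), sq_nonneg (2 + (1 - Q.nal n x) ^ 2),
      sq_nonneg (Q.neta D n x), mul_nonneg h6 (h7.trans h5)]
  refine hle.trans ?_
  rw [e1, e2, integral_const, smul_eq_mul]
  have h8 : ∫ x, (1 - Q.nal n x) ^ 2 ∂D.μ ≤ C1 := by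
    have h10 : 0 ≤ ∫ x, (1 - Q.nal n x) ^ 2 ∂D.μ := integral_nonneg fun x => sq_nonneg _
    nlinarith
  linarith

end gen

section blk

variable {M : Type v} [MetricSpace M] [CompactSpace M] [ConnectedSpace M]
  [ChartedSpace (EuclideanSpace ℝ (Fin 4)) M] [IsManifold (𝓡 4) ∞ M]
  [RiemannianBundle (fun p : M => TangentSpace (𝓡 4) p)]
  [IsContMDiffRiemannianBundle (𝓡 4) ∞ (EuclideanSpace ℝ (Fin 4))
    (fun p : M => TangentSpace (𝓡 4) p)]
  [IsRiemannianManifold (𝓡 4) M] [MeasurableSpace M] [BorelSpace M]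
  [SecondCountableTopology M] [Nonempty M] [IsFiniteMeasureOnCompacts (μHE[4] : Measure M)]
  {κ0 κ1 κT : Type} [Fintype κ0] [Fintype κ1] [Fintype κT]

theorem contH {f : M → ℝ} (hf : Continuous f) : Integrable f (μHE[4] : Measure M) :=
  hf.integrable_of_hasCompactSupport (HasCompactSupport.of_compactSpace f)

/-- the form `∑ w_{k+1} e_k`. -/
def omf (e : Fin 3 → F2 E4 M) (w' : Fin 4 → M → ℝ) : F2 E4 M :=
  ∑ k : Fin 3, fmul (w' k.succ) (e k)

theorem omf_smooth {e : Fin 3 → F2 E4 M} (he : ∀ k, Smooth2 (e k)) {w' : Fin 4 → M → ℝ}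
    (hw : SmV (n := 4) w') : Smooth2 (omf e w') := by
  unfold omf
  rw [Fin.sum_univ_three]
  have h : ∀ k : Fin 3, Smooth2 (fmul (w' k.succ) (e k)) := fun k =>
    En4.smooth2_fmul (En4.smoothF_of_contMDiff (hw k.succ)) (he k)
  exact ((h 0).add (h 1)).add (h 2)

theorem qG_omf (F b : F2 E4 M) (e : Fin 3 → F2 E4 M) (w' : Fin 4 → M → ℝ) (x : M) :
    qG F b (omf e w') x = ∑ k : Fin 3, w' k.succ x * qG F (e k) b x := by
  unfold omf
  rw [Fin.sum_univ_three, Fin.sum_univ_three, Int.qG_add_right, Int.qG_add_right]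
  have h : ∀ k : Fin 3, qG F b (fmul (w' k.succ) (e k)) x = w' k.succ x * qG F (e k) b x := by
    intro k
    rw [Int.qG_comm, Int.qG_fmul_left]
  rw [h, h, h]

/-- `φ_k = (1/2) ((B a)_{k+1} + fE_k)`. -/
theorem phi_eq {V : Vars M κ0 κ1 κT} {U : Filter ℕ} (cx : Ctx V U) (n : ℕ) (k : Fin 3) (x : M) :
    qG (V.w 0).1.1 (V.e k) (V.Q.Phi n) x =
      (1 / 2) * (V.S.H.B (V.a n) k.succ x + (V.τ (V.t n)).fE k x) := by
  have h := (cx.lnk n).cur (V.a n) (cx.seq.sma n) (cx.seq.seca n) k x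
  have h1 : qG (V.w 0).1.1 (V.e k) (V.Q.Phi n) x =
      2 * Real.pi * qG (V.w 0).1.1 (V.e k) ((V.a0 n).1.1 : F2 E4 M) x +
        qG (V.w 0).1.1 (V.e k) (dG (thE V.sT V.e (V.β n) (V.a n))) x := by
    have h2 : V.Q.Phi n = (2 * Real.pi) • ((V.a0 n).1.1 : F2 E4 M) +
      dG (thE V.sT V.e (V.β n) (V.a n)) := rfl
    rw [h2, Int.qG_add_right, Int.qG_smul_right]
  rw [h1, ← h]
  ring

theorem continuous_gR {V : Vars M κ0 κ1 κT} {U : Filter ℕ} (cx : Ctx V U) (n : ℕ) (k : Fin 3) :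
    Continuous (gR V.S (V.τ (V.t n)) (V.r n) (V.a n) (V.u n) k) := by
  have hτ := cx.data.tau (V.t n) (cx.seq.nt n)
  have h1 : Continuous (V.S.H.B (V.a n) k.succ) :=
    (V.S.H.smB _ (cx.seq.sma n) (cx.seq.seca n) k.succ).continuous
  have h2 : Continuous fun z => (V.τ (V.t n)).rr z ^ (-(1 / 2) : ℝ) :=
    hτ.smrr.continuous.rpow_const fun z => Or.inl (hτ.pos z).ne'
  have h3 : Continuous (V.S.rq k (V.u n)) := by
    unfold SWS.rq
    refine continuous_finsetSum _ fun y _ => continuous_finsetSum _ fun y' _ => ?_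
    exact ((cx.data.ok.smrho k y y').continuous.mul (cx.seq.smu n y).continuous).mul
      (cx.seq.smu n y').continuous
  unfold gR
  exact h1.sub (((h2.mul (continuous_const.mul h3)).add
    (continuous_const.mul (hτ.smrr.continuous.mul (hτ.smn k).continuous))).sub
      (hτ.smfE k).continuous)

/-- `∫ (B a)_0² ≤ 1`. -/
theorem int_B0 {V : Vars M κ0 κ1 κT} {U : Filter ℕ} (cx : Ctx V U) (n : ℕ) :
    ∫ z, V.S.H.B (V.a n) 0 z ^ 2 ∂(μHE[4] : Measure M) ≤ 1 := by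
  have h0 : Continuous (V.S.H.B (V.a n) 0) :=
    (V.S.H.smB _ (cx.seq.sma n) (cx.seq.seca n) 0).continuous
  have h1 : ∫ z, V.S.H.B (V.a n) 0 z ^ 2 ∂(μHE[4] : Measure M) ≤
      ∫ z, (V.S.H.B (V.a n) 0 z ^ 2 + ∑ k, gR V.S (V.τ (V.t n)) (V.r n) (V.a n) (V.u n) k z ^ 2)
        ∂(μHE[4] : Measure M) := by
    refine integral_mono (contH (h0.pow 2)) (contH ((h0.pow 2).add
      (continuous_finsetSum _ fun k _ => (continuous_gR cx n k).pow 2))) fun z => ?_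
    show _ ≤ V.S.H.B (V.a n) 0 z ^ 2 + _
    have h2 : 0 ≤ ∑ k, gR V.S (V.τ (V.t n)) (V.r n) (V.a n) (V.u n) k z ^ 2 :=
      Finset.sum_nonneg fun k _ => sq_nonneg _
    linarith
  refine (h1.trans (cx.seq.g0 n)).trans ?_
  rw [div_le_one (by positivity)]
  have : (0 : ℝ) ≤ (n : ℝ) := Nat.cast_nonneg n
  linarith

theorem phi_sq_le (hP : PWD.{v}) {V : Vars M κ0 κ1 κT} {U : Filter ℕ} (cx : Ctx V U) (n : ℕ)
    (hPhi : Smooth2 (V.Q.Phi n)) (x : M) :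
    ∑ k, qG (V.w 0).1.1 (V.e k) (V.Q.Phi n) x ^ 2 ≤
      (∑ k, Xw V.ww V.t0 k x ^ 2) * nsqG V.D.J V.D.F (V.Q.Phi n) x := by
  obtain ⟨h0, h1, -, -⟩ := hP M V.w V.e _ _ V.D cx.limD x
  have h2 := (h1 (V.Q.Phi n) (NM.alt_at hPhi x)).2.1
  have h3 := (le_abs_self _).trans (abs_qG_self_le V.D hPhi x)
  have h4 : 2 * ∑ k, qG (V.w 0).1.1 (V.e k) (V.Q.Phi n) x ^ 2 =
      (nsqG V.D.J V.D.F (V.Q.Phi n) x + qG V.D.F (V.Q.Phi n) (V.Q.Phi n) x) *
        ∑ k, Xw V.ww V.t0 k x ^ 2 := by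
    rw [h2, div_mul_cancel₀ _ h0.ne']
  nlinarith [mul_le_mul_of_nonneg_right h3 h0.le]

/-- `∫ |φ|² ≤ C r`. -/
theorem int_phi (hP : PWD.{v}) (hV : VOLD.{v}) {V : Vars M κ0 κ1 κT} {U : Filter ℕ}
    (cx : Ctx V U) (n : ℕ) (hPhi : Smooth2 (V.Q.Phi n)) {C2 : ℝ}
    (h3 : ∫ x, nsqG V.D.J V.D.F (V.Q.Phi n) x ∂V.D.μ ≤ C2 * V.Q.r n) :
    ∫ x, ∑ k, qG (V.w 0).1.1 (V.e k) (V.Q.Phi n) x ^ 2 ∂(μHE[4] : Measure M) ≤
      1 / 2 * (C2 * V.Q.r n) := by
  have hX : Continuous fun x => ∑ k, Xw V.ww V.t0 k x ^ 2 := by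
    refine continuous_finsetSum _ fun k _ => ?_
    exact ((continuous_Xw cx.data.smw k).comp (Continuous.prodMk_right V.t0)).pow 2
  have hc := NM.continuous_nsq V.D hPhi
  have h4 := hV M V.w V.e _ _ V.D cx.limD cx.data.tg.met _ hc
  have h5 : ∫ x, ∑ k, qG (V.w 0).1.1 (V.e k) (V.Q.Phi n) x ^ 2 ∂(μHE[4] : Measure M) ≤
      ∫ x, 1 / 2 * (2 * (∑ k, Xw V.ww V.t0 k x ^ 2) * nsqG V.D.J V.D.F (V.Q.Phi n) x)
        ∂(μHE[4] : Measure M) := by
    refine integral_mono_of_nonneg (Eventually.of_forall fun x => ?_)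
      (contH (continuous_const.mul ((continuous_const.mul hX).mul hc)))
      (Eventually.of_forall fun x => ?_)
    · exact Finset.sum_nonneg fun k _ => sq_nonneg _
    · refine (phi_sq_le hP cx n hPhi x).trans (le_of_eq ?_)
      ring
  rw [integral_const_mul, ← h4] at h5
  linarith

/-- `∫ |B a|² ≤ C r`. -/
theorem int_B (hP : PWD.{v}) (hV : VOLD.{v}) {V : Vars M κ0 κ1 κT} {U : Filter ℕ}
    (cx : Ctx V U) (n : ℕ) (hPhi : Smooth2 (V.Q.Phi n)) {C2 : ℝ}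
    (h3 : ∫ x, nsqG V.D.J V.D.F (V.Q.Phi n) x ∂V.D.μ ≤ C2 * V.Q.r n) :
    ∫ z, ∑ k, V.S.H.B (V.a n) k z ^ 2 ∂(μHE[4] : Measure M) ≤
      (4 * C2 + (6 * V.K ^ 2 * (μHE[4] : Measure M).real univ + 1)) * V.Q.r n := by
  have hr : 1 ≤ V.Q.r n := by
    have := cx.seq.rge n
    have h0 : (0 : ℝ) ≤ (n : ℝ) := Nat.cast_nonneg n
    show 1 ≤ V.r n
    linarith
  have hB : ∀ k, Continuous (V.S.H.B (V.a n) k) := fun k =>
    (V.S.H.smB _ (cx.seq.sma n) (cx.seq.seca n) k).continuous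
  have hfin : IsFiniteMeasure (μHE[4] : Measure M) := ⟨isCompact_univ.measure_lt_top⟩
  have hphc : ∀ k : Fin 3, Continuous fun x => qG (V.w 0).1.1 (V.e k) (V.Q.Phi n) x := by
    intro k
    have h1 : (fun x => qG (V.w 0).1.1 (V.e k) (V.Q.Phi n) x) = fun x =>
        (1 / 2) * (V.S.H.B (V.a n) k.succ x + (V.τ (V.t n)).fE k x) := by
      funext x
      exact phi_eq cx n k x
    rw [h1]
    exact continuous_const.mul ((hB k.succ).add
      ((cx.data.tau (V.t n) (cx.seq.nt n)).smfE k).continuous)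
  have h1 : ∫ z, ∑ k, V.S.H.B (V.a n) k z ^ 2 ∂(μHE[4] : Measure M) ≤
      ∫ z, (V.S.H.B (V.a n) 0 z ^ 2 +
        (8 * (∑ k, qG (V.w 0).1.1 (V.e k) (V.Q.Phi n) z ^ 2) + 6 * V.K ^ 2))
        ∂(μHE[4] : Measure M) := by
    refine integral_mono (contH (continuous_finsetSum _ fun k _ => (hB k).pow 2))
      (contH (((hB 0).pow 2).add ((continuous_const.mul (continuous_finsetSum _ fun k _ =>
        (hphc k).pow 2)).add continuous_const))) fun z => ?_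
    show ∑ k, V.S.H.B (V.a n) k z ^ 2 ≤ V.S.H.B (V.a n) 0 z ^ 2 + _
    rw [Fin.sum_univ_succ]
    have h2 : ∀ k : Fin 3, V.S.H.B (V.a n) k.succ z ^ 2 ≤
        8 * qG (V.w 0).1.1 (V.e k) (V.Q.Phi n) z ^ 2 + 2 * V.K ^ 2 := by
      intro k
      have h4 := phi_eq cx n k z
      have h5 := cx.data.bdE (V.t n) k z (cx.seq.nt n)
      have h6 : (V.τ (V.t n)).fE k z ^ 2 ≤ V.K ^ 2 := by
        rw [← sq_abs]
        exact pow_le_pow_left₀ (abs_nonneg _) h5 2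
      rw [h4]
      nlinarith [sq_nonneg (V.S.H.B (V.a n) k.succ z + 2 * (V.τ (V.t n)).fE k z)]
    have h7 := Finset.sum_le_sum fun k (_ : k ∈ (Finset.univ : Finset (Fin 3))) => h2 k
    rw [Finset.sum_add_distrib, ← Finset.mul_sum] at h7
    simp only [Finset.sum_const, Finset.card_univ, Fintype.card_fin, nsmul_eq_mul] at h7
    push_cast at h7
    linarith
  have i0 : Integrable (fun z => V.S.H.B (V.a n) 0 z ^ 2) (μHE[4] : Measure M) :=
    contH ((hB 0).pow 2)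
  have i1 : Integrable (fun z => ∑ k, qG (V.w 0).1.1 (V.e k) (V.Q.Phi n) z ^ 2)
      (μHE[4] : Measure M) := contH (continuous_finsetSum _ fun k _ => (hphc k).pow 2)
  have i2 : Integrable (fun _ : M => 6 * V.K ^ 2) (μHE[4] : Measure M) := integrable_const _
  have e1 := integral_add i0 ((i1.const_mul 8).add i2)
  have e2 := integral_add (i1.const_mul 8) i2
  simp only [Pi.add_apply] at e1 e2
  rw [e1, e2, integral_const_mul, integral_const, smul_eq_mul] at h1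
  have h8 := int_phi hP hV cx n hPhi h3
  have h9 := int_B0 cx n
  have h10 : 0 ≤ 6 * V.K ^ 2 * (μHE[4] : Measure M).real univ := by positivity
  nlinarith [mul_nonneg h10 (sub_nonneg.2 hr)]

/-- `D.I Phi (∑ w e) = 2 ∫ ∑ w φ`. -/
theorem I_omf (hP : PWD.{v}) (hV : VOLD.{v}) {V : Vars M κ0 κ1 κT} {U : Filter ℕ}
    (cx : Ctx V U) (n : ℕ) (hPhi : Smooth2 (V.Q.Phi n)) {w' : Fin 4 → M → ℝ}
    (hw : SmV (n := 4) w') :
    V.D.I (V.Q.Phi n) (omf V.e w') =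
      ∫ x, 2 * ∑ k : Fin 3, w' k.succ x * qG (V.w 0).1.1 (V.e k) (V.Q.Phi n) x
        ∂(μHE[4] : Measure M) := by
  have hom := omf_smooth (e := V.e) cx.limD.tri.smooth hw
  unfold Crest.Agent.R240.Dat.I IG
  rw [hV M V.w V.e _ _ V.D cx.limD cx.data.tg.met _ (NM.continuous_qG V.D hPhi hom)]
  congr 1
  funext x
  obtain ⟨-, h1, -, -⟩ := hP M V.w V.e _ _ V.D cx.limD x
  have h2 := (h1 (V.Q.Phi n) (NM.alt_at hPhi x)).2.2.2 (omf V.e w') (NM.alt_at hom x)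
  rw [← qG_omf, mul_assoc, h2]

/-- `B a` tested on a smooth function is bounded. -/
theorem ip_B_bd (hP : PWD.{v}) (hV : VOLD.{v}) (hS : STB.{v}) {V : Vars M κ0 κ1 κT}
    {U : Filter ℕ} (cx : Ctx V U) {C1 C2 : ℝ}
    (hsj : ∀ n, Smooth1 (V.Q.jj n)) (hPhi : ∀ n, Smooth2 (V.Q.Phi n))
    (hPsi : ∀ n, Smooth2 (V.Q.Psi n))
    (c1 : ∀ n, Continuous (V.Q.nal n)) (c2 : ∀ n, Continuous (V.Q.neta V.D n))
    (n2 : ∀ n x, 0 ≤ V.Q.neta V.D n x)
    (hj : ∀ n x, n1 V.D x (at1 (V.Q.jj n) x) ≤ V.Q.nal n x * V.Q.neta V.D n x)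
    (hps : ∀ n x, V.D.nr (V.Q.Psi n) x ≤
      |1 - V.Q.nal n x| * V.D.nr (V.Q.Phi n) x + V.Q.neta V.D n x)
    (h1 : ∀ n, ∫ x, V.Q.neta V.D n x ∂V.D.μ ≤ C1)
    (h2 : ∀ n, V.Q.r n * ∫ x, (1 - V.Q.nal n x) ^ 2 ∂V.D.μ ≤ C1)
    (h3 : ∀ n, ∫ x, nsqG V.D.J V.D.F (V.Q.Phi n) x ∂V.D.μ ≤ C2 * V.Q.r n)
    {w' : Fin 4 → M → ℝ} (hw : SmV (n := 4) w') :
    ∃ B : ℝ, ∀ n, |Crest.Agent.R249.Tv57.ip 4 (V.S.H.B (V.a n)) w'| ≤ B := by
  have hom := omf_smooth (e := V.e) cx.limD.tri.smooth hw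
  obtain ⟨Bo, hBo0, hBo⟩ := exists_nr_le V.D hom
  obtain ⟨Cs, hCs0, hCs⟩ := hS M V.D (omf V.e w') hom
  have hfin : IsFiniteMeasure (μHE[4] : Measure M) := ⟨isCompact_univ.measure_lt_top⟩
  refine ⟨(1 / 2 + 1 / 2 * ∫ z, w' 0 z ^ 2 ∂(μHE[4] : Measure M)) +
    (Bo * (2 * C1 + C2) + Cs * (2 * C1 + 2 * V.D.μ.real univ)) +
    |V.K| * ∫ z, ∑ k : Fin 3, |w' k.succ z| ∂(μHE[4] : Measure M), fun n => ?_⟩
  have hr : 1 ≤ V.Q.r n := by
    have := cx.seq.rge n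
    have h0 : (0 : ℝ) ≤ (n : ℝ) := Nat.cast_nonneg n
    show 1 ≤ V.r n
    linarith
  have hB : ∀ k, Continuous (V.S.H.B (V.a n) k) := fun k =>
    (V.S.H.smB _ (cx.seq.sma n) (cx.seq.seca n) k).continuous
  have hfE : ∀ k, Continuous ((V.τ (V.t n)).fE k) := fun k =>
    ((cx.data.tau (V.t n) (cx.seq.nt n)).smfE k).continuous
  have hwc : ∀ k, Continuous (w' k) := fun k => (hw k).continuous
  have hphc : ∀ k : Fin 3, Continuous fun x => qG (V.w 0).1.1 (V.e k) (V.Q.Phi n) x := by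
    intro k
    have h1 : (fun x => qG (V.w 0).1.1 (V.e k) (V.Q.Phi n) x) = fun x =>
        (1 / 2) * (V.S.H.B (V.a n) k.succ x + (V.τ (V.t n)).fE k x) := by
      funext x
      exact phi_eq cx n k x
    rw [h1]
    exact continuous_const.mul ((hB k.succ).add (hfE k))
  have i0 : Integrable (fun z => V.S.H.B (V.a n) 0 z * w' 0 z) (μHE[4] : Measure M) :=
    contH ((hB 0).mul (hwc 0))
  have i1 : Integrable (fun x => 2 * ∑ k : Fin 3, w' k.succ x *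
      qG (V.w 0).1.1 (V.e k) (V.Q.Phi n) x) (μHE[4] : Measure M) :=
    contH (continuous_const.mul (continuous_finsetSum _ fun k _ => (hwc k.succ).mul (hphc k)))
  have i2 : Integrable (fun x => ∑ k : Fin 3, (V.τ (V.t n)).fE k x * w' k.succ x)
      (μHE[4] : Measure M) :=
    contH (continuous_finsetSum _ fun k _ => (hfE k).mul (hwc k.succ))
  have hsplit : Crest.Agent.R249.Tv57.ip 4 (V.S.H.B (V.a n)) w' =
      (∫ z, V.S.H.B (V.a n) 0 z * w' 0 z ∂(μHE[4] : Measure M)) +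
      V.D.I (V.Q.Phi n) (omf V.e w') -
      ∫ x, ∑ k : Fin 3, (V.τ (V.t n)).fE k x * w' k.succ x ∂(μHE[4] : Measure M) := by
    have e1 := integral_sub (i0.add i1) i2
    have e2 := integral_add i0 i1
    simp only [Pi.add_apply] at e1
    rw [I_omf hP hV cx n (hPhi n) hw, ← e2, ← e1]
    unfold Crest.Agent.R249.Tv57.ip
    congr 1
    funext x
    rw [Fin.sum_univ_succ]
    have h4 : ∀ k : Fin 3, V.S.H.B (V.a n) k.succ x * w' k.succ x =
        2 * (w' k.succ x * qG (V.w 0).1.1 (V.e k) (V.Q.Phi n) x) -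
          (V.τ (V.t n)).fE k x * w' k.succ x := by
      intro k
      rw [phi_eq cx n k x]
      ring
    rw [Finset.sum_congr rfl fun k _ => h4 k, Finset.sum_sub_distrib, ← Finset.mul_sum]
    ring
  have hA : |∫ z, V.S.H.B (V.a n) 0 z * w' 0 z ∂(μHE[4] : Measure M)| ≤
      1 / 2 + 1 / 2 * ∫ z, w' 0 z ^ 2 ∂(μHE[4] : Measure M) := by
    have j1 : Integrable (fun z => V.S.H.B (V.a n) 0 z ^ 2) (μHE[4] : Measure M) :=
      contH ((hB 0).pow 2)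
    have j2 : Integrable (fun z => w' 0 z ^ 2) (μHE[4] : Measure M) := contH ((hwc 0).pow 2)
    have e1 := integral_add (j1.const_mul (1 / 2)) (j2.const_mul (1 / 2))
    have h5 : ∫ z, |V.S.H.B (V.a n) 0 z * w' 0 z| ∂(μHE[4] : Measure M) ≤
        ∫ z, (1 / 2 * V.S.H.B (V.a n) 0 z ^ 2 + 1 / 2 * w' 0 z ^ 2) ∂(μHE[4] : Measure M) := by
      refine integral_mono i0.abs ((j1.const_mul _).add (j2.const_mul _)) fun z => ?_
      show |V.S.H.B (V.a n) 0 z * w' 0 z| ≤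
        1 / 2 * V.S.H.B (V.a n) 0 z ^ 2 + 1 / 2 * w' 0 z ^ 2
      rw [abs_le]
      constructor <;> nlinarith [sq_nonneg (V.S.H.B (V.a n) 0 z + w' 0 z),
        sq_nonneg (V.S.H.B (V.a n) 0 z - w' 0 z)]
    rw [e1, integral_const_mul, integral_const_mul] at h5
    have h6 := int_B0 cx n
    have h7 : |∫ z, V.S.H.B (V.a n) 0 z * w' 0 z ∂(μHE[4] : Measure M)| ≤
      ∫ z, |V.S.H.B (V.a n) 0 z * w' 0 z| ∂(μHE[4] : Measure M) := abs_integral_le_integral_abs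
    linarith
  have hC : |∫ x, ∑ k : Fin 3, (V.τ (V.t n)).fE k x * w' k.succ x ∂(μHE[4] : Measure M)| ≤
      |V.K| * ∫ z, ∑ k : Fin 3, |w' k.succ z| ∂(μHE[4] : Measure M) := by
    rw [← integral_const_mul]
    refine abs_integral_le_integral_abs.trans ?_
    refine integral_mono i2.abs (contH (continuous_const.mul
      (continuous_finsetSum _ fun k _ => (hwc k.succ).abs))) fun z => ?_
    show |∑ k : Fin 3, (V.τ (V.t n)).fE k z * w' k.succ z| ≤ |V.K| * ∑ k : Fin 3, |w' k.succ z|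
    rw [Finset.mul_sum]
    refine (Finset.abs_sum_le_sum_abs _ _).trans (Finset.sum_le_sum fun k _ => ?_)
    rw [abs_mul]
    exact mul_le_mul_of_nonneg_right ((cx.data.bdE (V.t n) k z (cx.seq.nt n)).trans
      (le_abs_self _)) (abs_nonneg _)
  have hI : |V.D.I (V.Q.Phi n) (omf V.e w')| ≤
      Bo * (2 * C1 + C2) + Cs * (2 * C1 + 2 * V.D.μ.real univ) := by
    have hdj : Smooth2 (dG (V.Q.jj n)) := by
      have h8 : dG (V.Q.jj n) = V.Q.Psi n - V.Q.Phi n := by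
        have h9 : V.Q.Psi n = V.Q.Phi n + dG (V.Q.jj n) := rfl
        rw [h9]
        funext x
        ext u v
        show _ = (at2 (V.Q.Phi n) x u v + at2 (dG (V.Q.jj n)) x u v) - at2 (V.Q.Phi n) x u v
        rw [add_sub_cancel_left]
        rfl
      rw [h8]
      exact (hPsi n).sub' (hPhi n)
    have h10 : V.D.I (V.Q.Psi n) (omf V.e w') = V.D.I (V.Q.Phi n) (omf V.e w') +
        V.D.I (dG (V.Q.jj n)) (omf V.e w') := I_add V.D (hPhi n) hdj hom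
    have h11 : V.D.I (V.Q.Phi n) (omf V.e w') = V.D.I (V.Q.Psi n) (omf V.e w') -
        V.D.I (dG (V.Q.jj n)) (omf V.e w') := by
      rw [h10]
      ring
    have h12 := abs_I_le V.D (hPsi n) hom hBo
    have h13 := int_nr_psi V.D V.Q n (zero_lt_one.trans_le hr) (hPhi n) (c1 n) (c2 n) (hps n)
      (h1 n) (h2 n) (h3 n)
    have h14 := hCs (V.Q.jj n) (hsj n)
    have h15 := int_j V.D V.Q n hr (c1 n) (c2 n) (n2 n) (hj n) (h1 n) (h2 n)
    have h16 := mul_le_mul_of_nonneg_left h13 hBo0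
    have h17 := mul_le_mul_of_nonneg_left h15 hCs0.le
    rw [h11]
    have h18 := abs_sub (V.D.I (V.Q.Psi n) (omf V.e w')) (V.D.I (dG (V.Q.jj n)) (omf V.e w'))
    linarith
  rw [hsplit]
  have t1 := abs_sub ((∫ z, V.S.H.B (V.a n) 0 z * w' 0 z ∂(μHE[4] : Measure M)) +
      V.D.I (V.Q.Phi n) (omf V.e w'))
      (∫ x, ∑ k : Fin 3, (V.τ (V.t n)).fE k x * w' k.succ x ∂(μHE[4] : Measure M))
  have t2 := abs_add_le (∫ z, V.S.H.B (V.a n) 0 z * w' 0 z ∂(μHE[4] : Measure M))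
      (V.D.I (V.Q.Phi n) (omf V.e w'))
  linarith

/-- bound of the frame. -/
theorem exists_sT_le {V : Vars M κ0 κ1 κT} {U : Filter ℕ} (cx : Ctx V U) :
    ∃ Ms : ℝ, 0 ≤ Ms ∧ ∀ x, ∑ A, ‖V.sT A x‖ ^ 2 ≤ Ms := by
  have hc : Continuous fun x => ∑ A, inner ℝ (V.S.s A x) (V.S.s A x) :=
    continuous_finsetSum _ fun A _ =>
      (Crest.Agent.R249.Tv57.SmF.inner (cx.data.ok.sms A) (cx.data.ok.sms A)).continuous
  obtain ⟨B, hB⟩ := isCompact_univ.exists_bound_of_continuousOn hc.continuousOn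
  refine ⟨|B|, abs_nonneg _, fun x => ?_⟩
  have h1 : ∑ A, ‖V.sT A x‖ ^ 2 = ∑ A, inner ℝ (V.S.s A x) (V.S.s A x) := by
    refine Finset.sum_congr rfl fun A _ => ?_
    rw [cx.data.tg.s_eq A x, V.T.inner_toF, real_inner_self_eq_norm_sq]
  rw [h1]
  exact ((le_abs_self _).trans (hB x (mem_univ x))).trans (le_abs_self _)

/-- pointwise bound of `θ`. -/
theorem n1_th_le (hP : PWD.{v}) {V : Vars M κ0 κ1 κT} {U : Filter ℕ} (cx : Ctx V U) {Ms m0 : ℝ}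
    (hMs : ∀ x, ∑ A, ‖V.sT A x‖ ^ 2 ≤ Ms) (hm0 : 0 < m0)
    (hm : ∀ x, m0 ≤ √(∑ k, Xw V.ww V.t0 k x ^ 2)) (n : ℕ) (x : M) :
    n1 V.D x (at1 (V.Q.θ n) x) ≤ (2 * (Ms * ∑ A, V.a n A x ^ 2) + 2 * |V.K|) / m0 := by
  obtain ⟨-, -, h1, -⟩ := hP M V.w V.e _ _ V.D cx.limD x
  have hkey : ∀ v : TangentSpace (𝓡 4) x, (at1 (V.Q.θ n) x v) ^ 2 ≤
      (2 * (Ms * ∑ A, V.a n A x ^ 2) + 2 * |V.K|) * at2 (gg V.e) x v v := by
    intro v
    have e0 : at1 (V.Q.θ n) x v = - at2 (gg V.e) x (fld V.sT (V.a n) x) v - at1 (V.β n) x v := rfl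
    have hmet := cx.data.tg.met x
    have hvv : at2 (gg V.e) x v v = ‖v‖ ^ 2 := by
      rw [← hmet v v, real_inner_self_eq_norm_sq]
    have hg0 : 0 ≤ at2 (gg V.e) x v v := by rw [hvv]; positivity
    have e1 : (at2 (gg V.e) x (fld V.sT (V.a n) x) v) ^ 2 ≤
        (Ms * ∑ A, V.a n A x ^ 2) * at2 (gg V.e) x v v := by
      rw [hvv, ← hmet (fld V.sT (V.a n) x) v]
      have h2 : ‖fld V.sT (V.a n) x‖ ^ 2 ≤ Ms * ∑ A, V.a n A x ^ 2 := by
        have h3 : ‖fld V.sT (V.a n) x‖ ≤ ∑ A, |V.a n A x| * ‖V.sT A x‖ := by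
          unfold fld
          refine (norm_sum_le _ _).trans (le_of_eq ?_)
          refine Finset.sum_congr rfl fun A _ => ?_
          rw [norm_smul, Real.norm_eq_abs]
        have h4 : (∑ A, |V.a n A x| * ‖V.sT A x‖) ^ 2 ≤
            (∑ A, |V.a n A x| ^ 2) * ∑ A, ‖V.sT A x‖ ^ 2 := Finset.sum_mul_sq_le_sq_mul_sq _ _ _
        simp only [sq_abs] at h4
        have h5 : 0 ≤ ∑ A, V.a n A x ^ 2 := Finset.sum_nonneg fun A _ => sq_nonneg _
        calc ‖fld V.sT (V.a n) x‖ ^ 2 ≤ (∑ A, |V.a n A x| * ‖V.sT A x‖) ^ 2 :=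
              pow_le_pow_left₀ (norm_nonneg _) h3 2
          _ ≤ (∑ A, V.a n A x ^ 2) * ∑ A, ‖V.sT A x‖ ^ 2 := h4
          _ ≤ (∑ A, V.a n A x ^ 2) * Ms := mul_le_mul_of_nonneg_left (hMs x) h5
          _ = Ms * ∑ A, V.a n A x ^ 2 := mul_comm _ _
      have h6 := abs_real_inner_le_norm (fld V.sT (V.a n) x) v
      calc (inner ℝ (fld V.sT (V.a n) x) v) ^ 2
          = |inner ℝ (fld V.sT (V.a n) x) v| ^ 2 := (sq_abs _).symm
        _ ≤ (‖fld V.sT (V.a n) x‖ * ‖v‖) ^ 2 :=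
            pow_le_pow_left₀ (abs_nonneg _) h6 2
        _ = ‖fld V.sT (V.a n) x‖ ^ 2 * ‖v‖ ^ 2 := mul_pow _ _ _
        _ ≤ (Ms * ∑ A, V.a n A x ^ 2) * ‖v‖ ^ 2 :=
            mul_le_mul_of_nonneg_right h2 (by positivity)
    have e2 : (at1 (V.β n) x v) ^ 2 ≤ |V.K| * at2 (gg V.e) x v v :=
      ((cx.lnk n).bdβ x v).trans (mul_le_mul_of_nonneg_right (le_abs_self _) hg0)
    rw [e0]
    nlinarith [sq_nonneg (at2 (gg V.e) x (fld V.sT (V.a n) x) v - at1 (V.β n) x v)]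
  have h2 := h1 (at1 (V.Q.θ n) x) _ hkey
  rw [le_div_iff₀ hm0]
  exact (mul_le_mul_of_nonneg_left (hm x) (n1_nonneg V.D x _)).trans h2

end blk

set_option maxHeartbeats 1000000 in
theorem prd (hP : PWD.{v}) (hV : VOLD.{v}) (hB : PRB.{v}) (hC : PRC.{v}) (hE : PRE.{v})
    (hS : STB.{v}) (hG : GZ.{v}) (hN : NETC.{v}) : PRD.{v} := by
  intro M _ _ _ _ _ _ _ _ _ _ _ _ _ κ0 κ1 κT _ _ _ V U cx
  obtain ⟨C1, -, b1, b2, -⟩ := hB M κ0 κ1 κT V U cx
  obtain ⟨C2, -, b3, -, -⟩ := hC M κ0 κ1 κT V U cx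
  obtain ⟨-, -, -, smα, secα, smθ⟩ := hE M κ0 κ1 κT V U cx
  have line : ∀ n, IsLine (V.Q.p n) := fun n => (cx.lnk n).line V.N V.ν
  have chern : ∀ n, IsChern (V.Q.p n) (V.Q.a0 n) := fun n => (cx.lnk n).chern V.N V.ν
  have ptw := fun n => SwcPtw_766.ptw_weak V.Q n (line n) (chern n) (smα n) (secα n) (smθ n)
  have netc := fun n => hN M V.D V.N V.Q n (line n) (chern n) (smα n) (secα n) (smθ n)
  have hr : Tendsto V.r U atTop := by
    have h1 : Tendsto V.r atTop atTop := by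
      refine tendsto_atTop_mono (fun n => ?_) tendsto_natCast_atTop_atTop
      have := cx.seq.rge n
      linarith
    exact h1.mono_left cx.le
  have hgz := hG M κ0 κ1 κT V.S U V.r V.a V.K'
    (4 * C2 + (6 * V.K ^ 2 * (μHE[4] : Measure M).real univ + 1)) hr cx.seq.sma cx.seq.seca
    cx.seq.har (Eventually.of_forall fun n => int_B hP hV cx n (ptw n).2.1 (b3 n)) (by
      intro w' hw'
      obtain ⟨B, hB⟩ := ip_B_bd hP hV hS cx (fun n => (ptw n).1) (fun n => (ptw n).2.1)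
        (fun n => (ptw n).2.2.2.1) (fun n => (netc n).1) (fun n => (netc n).2.1)
        (fun n => (netc n).2.2.1) (fun n => (netc n).2.2.2.2.1) (fun n => (netc n).2.2.2.2.2)
        b1 b2 b3 hw'
      have h2 : Tendsto (fun n => (√(V.r n))⁻¹) U (𝓝 0) :=
        tendsto_inv_atTop_zero.comp (Real.tendsto_sqrt_atTop.comp hr)
      have h3 : Tendsto (fun n => (√(V.r n))⁻¹ * B) U (𝓝 0) := by
        have := h2.mul_const B
        rwa [zero_mul] at this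
      refine squeeze_zero_norm (fun n => ?_) h3
      rw [norm_mul, Real.norm_eq_abs, Real.norm_eq_abs, abs_of_nonneg (inv_nonneg.2 (Real.sqrt_nonneg _))]
      exact mul_le_mul_of_nonneg_left (hB n) (inv_nonneg.2 (Real.sqrt_nonneg _)))
  obtain ⟨Ms, hMs0, hMs⟩ := exists_sT_le cx
  obtain ⟨m0, m1, hm0, hmm⟩ := cx.data.bounds
  have hN0 : ∀ x, √(∑ k, Xw V.ww V.t0 k x ^ 2) = (V.τ V.t0).rr x := fun x =>
    (cx.data.rr_eq cx.nt0 x).symm
  have hpt := n1_th_le hP cx hMs hm0 (fun x => by rw [hN0]; exact (hmm V.t0 x cx.nt0).1)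
  have hX0 : ∀ x, ∑ k, Xw V.ww V.t0 k x ^ 2 ≤ m1 ^ 2 := by
    intro x
    have h1 : ∑ k, Xw V.ww V.t0 k x ^ 2 = (V.τ V.t0).rr x ^ 2 := by
      rw [← hN0, Real.sq_sqrt (Finset.sum_nonneg fun k _ => sq_nonneg _)]
    rw [h1]
    exact pow_le_pow_left₀ (hm0.le.trans (hmm V.t0 x cx.nt0).1) (hmm V.t0 x cx.nt0).2 2
  have hX0' : ∀ x, 0 ≤ ∑ k, Xw V.ww V.t0 k x ^ 2 := fun x => Finset.sum_nonneg fun k _ => sq_nonneg _
  have hXc : Continuous fun x => ∑ k, Xw V.ww V.t0 k x ^ 2 := by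
    refine continuous_finsetSum _ fun k _ => ?_
    exact ((continuous_Xw cx.data.smw k).comp (Continuous.prodMk_right V.t0)).pow 2
  have hac : ∀ n, Continuous fun x => ∑ A, V.a n A x ^ 2 := fun n =>
    continuous_finsetSum _ fun A _ => (cx.seq.sma n A).continuous.pow 2
  have hfin : IsFiniteMeasure (μHE[4] : Measure M) := ⟨isCompact_univ.measure_lt_top⟩
  have hbound : ∀ n, ∫ x, n1 V.D x (at1 (V.Q.θ n) x) ∂V.D.μ ≤
      (4 * m1 ^ 2 / m0 * Ms) * (∫ x, ∑ A, V.a n A x ^ 2 ∂(μHE[4] : Measure M)) +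
        4 * m1 ^ 2 / m0 * |V.K| * (μHE[4] : Measure M).real univ := by
    intro n
    have hfc : Continuous fun x => (2 * (Ms * ∑ A, V.a n A x ^ 2) + 2 * |V.K|) / m0 :=
      ((continuous_const.mul (continuous_const.mul (hac n))).add continuous_const).div_const _
    have h1 : ∫ x, n1 V.D x (at1 (V.Q.θ n) x) ∂V.D.μ ≤
        ∫ x, (2 * (Ms * ∑ A, V.a n A x ^ 2) + 2 * |V.K|) / m0 ∂V.D.μ :=
      integral_mono_of_nonneg (Eventually.of_forall fun x => n1_nonneg V.D x _) (contI V.D hfc)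
        (Eventually.of_forall fun x => hpt n x)
    rw [hV M V.w V.e _ _ V.D cx.limD cx.data.tg.met _ hfc] at h1
    refine h1.trans ?_
    have i1 : Integrable (fun x => ∑ A, V.a n A x ^ 2) (μHE[4] : Measure M) := contH (hac n)
    have i2 : Integrable (fun _ : M => 4 * m1 ^ 2 / m0 * |V.K|) (μHE[4] : Measure M) :=
      integrable_const _
    have e1 := integral_add (i1.const_mul (4 * m1 ^ 2 / m0 * Ms)) i2
    rw [integral_const_mul, integral_const, smul_eq_mul] at e1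
    have e2 : 4 * m1 ^ 2 / m0 * |V.K| * (μHE[4] : Measure M).real univ =
      (μHE[4] : Measure M).real univ * (4 * m1 ^ 2 / m0 * |V.K|) := mul_comm _ _
    rw [e2, ← e1]
    refine integral_mono (contH ((continuous_const.mul hXc).mul hfc))
      ((i1.const_mul _).add i2) fun x => ?_
    show 2 * (∑ k, Xw V.ww V.t0 k x ^ 2) *
        ((2 * (Ms * ∑ A, V.a n A x ^ 2) + 2 * |V.K|) / m0) ≤
      4 * m1 ^ 2 / m0 * Ms * (∑ A, V.a n A x ^ 2) + 4 * m1 ^ 2 / m0 * |V.K|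
    have hs : 0 ≤ ∑ A, V.a n A x ^ 2 := Finset.sum_nonneg fun A _ => sq_nonneg _
    have h2 : 0 ≤ (2 * (Ms * ∑ A, V.a n A x ^ 2) + 2 * |V.K|) / m0 := by positivity
    calc 2 * (∑ k, Xw V.ww V.t0 k x ^ 2) *
          ((2 * (Ms * ∑ A, V.a n A x ^ 2) + 2 * |V.K|) / m0)
        ≤ 2 * m1 ^ 2 * ((2 * (Ms * ∑ A, V.a n A x ^ 2) + 2 * |V.K|) / m0) :=
          mul_le_mul_of_nonneg_right (mul_le_mul_of_nonneg_left (hX0 x) two_pos.le) h2
      _ = _ := by field_simp; ring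
  have hr' : Tendsto (fun n => (V.r n)⁻¹) U (𝓝 0) := tendsto_inv_atTop_zero.comp hr
  have hlim : Tendsto (fun n => (4 * m1 ^ 2 / m0 * Ms) *
      ((V.r n)⁻¹ * ∫ x, ∑ A, V.a n A x ^ 2 ∂(μHE[4] : Measure M)) +
      (V.r n)⁻¹ * (4 * m1 ^ 2 / m0 * |V.K| * (μHE[4] : Measure M).real univ)) U (𝓝 0) := by
    have h1 := (hgz.const_mul (4 * m1 ^ 2 / m0 * Ms)).add
      (hr'.mul_const (4 * m1 ^ 2 / m0 * |V.K| * (μHE[4] : Measure M).real univ))
    rwa [mul_zero, zero_mul, add_zero] at h1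
  refine squeeze_zero (fun n => ?_) (fun n => ?_) hlim
  · have h0 : 0 < V.Q.r n := by
      have := cx.seq.rge n
      have h0 : (0 : ℝ) ≤ (n : ℝ) := Nat.cast_nonneg n
      show 0 < V.r n
      linarith
    exact mul_nonneg (inv_nonneg.2 h0.le) (integral_nonneg fun x => n1_nonneg V.D x _)
  · have h0 : 0 < V.r n := by
      have := cx.seq.rge n
      have h0 : (0 : ℝ) ≤ (n : ℝ) := Nat.cast_nonneg n
      linarith
    have h1 := mul_le_mul_of_nonneg_left (hbound n) (inv_nonneg.2 h0.le)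
    refine h1.trans (le_of_eq ?_)
    ring

end

end Crest.Agent.R235.SwcProd_215
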