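import Crest.Agent.R235.SwcPrH_215
import Crest.Agent.R235.SwcPRB_766

/-!
Row 235 (S0364), PACKAGE SWC (leader helper215): **PROD is a theorem.**
-/

universe v

namespace Crest.Agent.R235.SwcProd_215

theorem prod_thm : PROD.{v} := prod3 (SwcPRB_766.prb SwcPWN_215.pwd SwcVOLD_57.vold)

end Crest.Agent.R235.SwcProd_215
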