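import Crest.Agent.R235.SwcProd2_215
import Crest.Agent.R235.SwcAlg_34

/-!
Row 235 (S0364), PACKAGE SWC, NODE PROD, PWD (helper215): `0 < ∑ X_k²`, the almost complex
structure `√(∑ X²) J = ∑ X_k I_k`, the metric `F(u, J v) = √(∑ X²) g(u, v)` and the norm of
covectors.
-/

set_option autoImplicit false
set_option maxSynthPendingDepth 3
set_option linter.unusedSectionVars false

open scoped ContDiff ENNReal NNReal Topology Manifold Bundle RealInnerProductSpace
open MeasureTheory Set Filter Metric Bundle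

universe v

namespace Crest.Agent.R235.SwcPWJ_215

open Crest.Agent.R240 Crest.Agent.R240.Ch Crest.Agent.R235 Crest.Agent.R235.SWDefs_53
open Crest.Agent.R235.IndTri_451 Crest.Agent.R235.Tau483 Crest.Agent.R235.SwcGlob_34
open Crest.Agent.R235.SwcProd_215

noncomputable section

variable {M : Type v} [MetricSpace M] [CompactSpace M] [ChartedSpace E4 M]
  [IsManifold 𝓘(ℝ, E4) ∞ M] [MeasurableSpace M] [BorelSpace M] {w : Trip M}
  {e : Fin 3 → F2 E4 M} {t : Fin 3 → ℝ} {X : Fin 3 → M → ℝ} {D : Crest.Agent.R240.Dat M}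

/-- `Λ(c) (u, v) = ∑ c_k e_k (u, v)`. -/
def eb (e : Fin 3 → F2 E4 M) (x : M) (c : Fin 3 → ℝ) (u v : E4) : ℝ :=
  ∑ k, c k * at2 (e k) x u v

/-- `∑ X_k I_k`. -/
def Js (e : Fin 3 → F2 E4 M) (X : Fin 3 → M → ℝ) (x : M) (u : E4) : E4 :=
  ∑ k, X k x • atJ (II e k) x u

/-- the cross product. -/
def cr (b c : Fin 3 → ℝ) : Fin 3 → ℝ := fun m => b (m + 1) * c (m + 2) - b (m + 2) * c (m + 1)

theorem val_eq (h : LimD w e t X D) (x : M) (u v : E4) :
    val (Uu_291.wt w t) x u v = eb e x (fun k => X k x) u v := by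
  rw [h.X x]
  unfold eb
  simp only [Fin.sum_univ_three, ContinuousLinearMap.add_apply, ContinuousLinearMap.smul_apply,
    smul_eq_mul]

theorem F_eq (h : LimD w e t X D) (x : M) (u v : E4) :
    at2 D.F x u v = eb e x (fun k => X k x) u v := by
  rw [← val_eq h x u v, h.F]
  rfl

theorem exists_ne : ∃ v : E4, v ≠ 0 := ⟨ee 0, fun h => by
  have := congrArg (fun z : E4 => z 0) h
  simp [ee] at this⟩

theorem pos (h : LimD w e t X D) (x : M) : 0 < ∑ k, X k x ^ 2 := by
  refine lt_of_le_of_ne (Finset.sum_nonneg fun k _ => sq_nonneg _) fun h0 => ?_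
  have h1 : ∀ k, X k x = 0 := by
    intro k
    have := (Finset.sum_eq_zero_iff_of_nonneg fun k _ => sq_nonneg (X k x)).1 h0.symm k
      (Finset.mem_univ k)
    exact pow_eq_zero_iff two_ne_zero |>.1 this
  obtain ⟨v, hv⟩ := exists_ne
  have h2 := h.jt.tame x v hv
  rw [val_eq h] at h2
  unfold eb at h2
  simp only [h1, zero_mul, Finset.sum_const_zero, lt_self_iff_false] at h2

theorem self (h : IsTri (fun i => (w i).1.1) e) (x : M) (k : Fin 3) (u : E4) :
    at2 (e k) x u u = 0 := (h.smooth k).1 x u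

theorem tab0 (h : IsTri (fun i => (w i).1.1) e) (x : M) (k : Fin 3) (u v : E4) :
    at2 (e k) x (atJ (II e k) x u) v = - at2 (gg e) x u v := by
  rw [h.e_eq, h.I_sq, map_neg, ContinuousLinearMap.neg_apply]

/-- the table. -/
theorem eb_Js (h : IsTri (fun i => (w i).1.1) e) (x : M) (b : Fin 3 → ℝ) (u v : E4) :
    eb e x b (Js e X x u) v = - (∑ k, b k * X k x) * at2 (gg e) x u v +
      eb e x (cr b fun k => X k x) u v := by
  have t0 := tab0 h x 0 u v
  have t1 := tab0 h x 1 u v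
  have t2 := tab0 h x 2 u v
  have n0 := h.e_next 0 x u v
  have n1 := h.e_next 1 x u v
  have n2 := h.e_next 2 x u v
  have p0 := h.e_next' 0 x u v
  have p1 := h.e_next' 1 x u v
  have p2 := h.e_next' 2 x u v
  have a1 : (0 : Fin 3) + 1 = 1 := rfl
  have a2 : (0 : Fin 3) + 2 = 2 := rfl
  have a3 : (1 : Fin 3) + 1 = 2 := rfl
  have a4 : (1 : Fin 3) + 2 = 0 := rfl
  have a5 : (2 : Fin 3) + 1 = 0 := rfl
  have a6 : (2 : Fin 3) + 2 = 1 := rfl
  rw [a1, a2] at n0 p0
  rw [a3, a4] at n1 p1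
  rw [a5, a6] at n2 p2
  unfold eb Js cr
  simp only [Fin.sum_univ_three, map_add, map_smul, ContinuousLinearMap.add_apply,
    ContinuousLinearMap.smul_apply, smul_eq_mul, t0, t1, t2, n0, n1, n2, p0, p1, p2, a1, a2, a3,
    a4, a5, a6]
  ring

theorem Js_sq (h : IsTri (fun i => (w i).1.1) e) (x : M) (u : E4) :
    Js e X x (Js e X x u) = - (∑ k, X k x ^ 2) • u := by
  have s0 := h.I_sq 0 x u
  have s1 := h.I_sq 1 x u
  have s2 := h.I_sq 2 x u
  have m0 := h.I_mul 0 x u
  have m1 := h.I_mul 1 x u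
  have m2 := h.I_mul 2 x u
  have k0 := h.I_mul' 0 x u
  have k1 := h.I_mul' 1 x u
  have k2 := h.I_mul' 2 x u
  have a1 : (0 : Fin 3) + 1 = 1 := rfl
  have a2 : (0 : Fin 3) + 2 = 2 := rfl
  have a3 : (1 : Fin 3) + 1 = 2 := rfl
  have a4 : (1 : Fin 3) + 2 = 0 := rfl
  have a5 : (2 : Fin 3) + 1 = 0 := rfl
  have a6 : (2 : Fin 3) + 2 = 1 := rfl
  rw [a1, a2] at m0 k0
  rw [a3, a4] at m1 k1
  rw [a5, a6] at m2 k2
  unfold Js
  simp only [Fin.sum_univ_three, map_add, map_smul, s0, s1, s2, m0, m1, m2, k0, k1, k2]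
  module

theorem eb_alt (h : IsTri (fun i => (w i).1.1) e) (x : M) (b : Fin 3 → ℝ) (u : E4) :
    eb e x b u u = 0 := by
  unfold eb
  exact Finset.sum_eq_zero fun k _ => by rw [self h, mul_zero]

theorem eb_swap (h : IsTri (fun i => (w i).1.1) e) (x : M) (b : Fin 3 → ℝ) (u v : E4) :
    eb e x b u v = - eb e x b v u := by
  unfold eb
  rw [← Finset.sum_neg_distrib]
  refine Finset.sum_congr rfl fun k _ => ?_
  rw [Alt.swap ((h.smooth k).1 x) u v]
  ring

/-- forms orthogonal to `F` are `J`-symmetric. -/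
theorem eb_J (h : LimD w e t X D) (x : M) {b : Fin 3 → ℝ} (hb : ∑ k, b k * X k x = 0) (u v : E4) :
    eb e x b (atJ D.J x u) v = eb e x b u (atJ D.J x v) := by
  obtain ⟨A, B, -, -, hA, -, -, -⟩ := h.tri.coef
  have e1 : ∀ u v, eb e x b u v = (∑ i, (∑ j, b j * A j i x) • val (w i) x) u v := by
    intro u v
    unfold eb
    have h2 : ∀ k, at2 (e k) x u v = ∑ i, A k i x * val (w i) x u v := by
      intro k
      rw [hA k x]
      simp only [Fin.sum_univ_three, ContinuousLinearMap.add_apply,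
        ContinuousLinearMap.smul_apply, smul_eq_mul]
      rfl
    simp only [h2, Fin.sum_univ_three, ContinuousLinearMap.add_apply,
      ContinuousLinearMap.smul_apply, smul_eq_mul]
    ring
  have hW : W (∑ i, (∑ j, b j * A j i x) • val (w i) x) (val (Uu_291.wt w t) x) = 0 := by
    have e2 : (∑ i, (∑ j, b j * A j i x) • val (w i) x : Bil) = ∑ k, b k • at2 (e k) x := by
      ext u v
      rw [← e1 u v]
      unfold eb
      simp only [Fin.sum_univ_three, ContinuousLinearMap.add_apply,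
        ContinuousLinearMap.smul_apply, smul_eq_mul]
    rw [e2, h.X x]
    have hWe := h.tri.W_e
    simp only [Fin.sum_univ_three, W_add_left, W_add_right, W_smul_left, W_smul_right]
    simp only [Fin.sum_univ_three] at hb
    rw [hWe 0 0, hWe 0 1, hWe 0 2, hWe 1 0, hWe 1 1, hWe 1 2, hWe 2 0, hWe 2 1, hWe 2 2]
    simp only [if_true, Fin.isValue, zero_ne_one, one_ne_zero, if_false, mul_zero, add_zero,
      zero_add, show (0 : Fin 3) ≠ 2 by decide, show (2 : Fin 3) ≠ 0 by decide,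
      show (1 : Fin 3) ≠ 2 by decide, show (2 : Fin 3) ≠ 1 by decide]
    linear_combination (W (at2 ((w 0).1.1 : F2 E4 M) x) (at2 ((w 0).1.1 : F2 E4 M) x)) * hb
  have h3 := h.jt.anti x _ hW u (atJ D.J x v)
  rw [h.jt.sq, ← e1, ← e1] at h3
  have h4 : eb e x b (atJ D.J x u) (-v) = - eb e x b (atJ D.J x u) v := by
    unfold eb
    simp only [map_neg, mul_neg, Finset.sum_neg_distrib]
  rw [h4] at h3
  linarith

theorem eb_nondeg (h : IsTri (fun i => (w i).1.1) e) (x : M) {b : Fin 3 → ℝ} (hb : b ≠ 0)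
    {u u' : E4} (hu : ∀ v, eb e x b u v = eb e x b u' v) : u = u' := by
  have e1 : ∀ u v, eb e x b u v = (∑ k, b k • at2 (e k) x : Bil) u v := by
    intro u v
    unfold eb
    simp only [Fin.sum_univ_three, ContinuousLinearMap.add_apply,
      ContinuousLinearMap.smul_apply, smul_eq_mul]
  have ha : Alt (∑ k, b k • at2 (e k) x : Bil) := by
    intro v
    rw [← e1]
    exact eb_alt h x b v
  have hW : W (∑ k, b k • at2 (e k) x : Bil) (∑ k, b k • at2 (e k) x : Bil) ≠ 0 := by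
    have hWe := h.W_e
    have e2 : W (∑ k, b k • at2 (e k) x : Bil) (∑ k, b k • at2 (e k) x : Bil) =
        (∑ k, b k ^ 2) * W (at2 ((w 0).1.1 : F2 E4 M) x) (at2 ((w 0).1.1 : F2 E4 M) x) := by
      simp only [Fin.sum_univ_three, W_add_left, W_add_right, W_smul_left, W_smul_right]
      rw [hWe 0 0, hWe 0 1, hWe 0 2, hWe 1 0, hWe 1 1, hWe 1 2, hWe 2 0, hWe 2 1, hWe 2 2]
      simp only [if_true, Fin.isValue, zero_ne_one, one_ne_zero, if_false, mul_zero, add_zero,
        zero_add, show (0 : Fin 3) ≠ 2 by decide, show (2 : Fin 3) ≠ 0 by decide,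
        show (1 : Fin 3) ≠ 2 by decide, show (2 : Fin 3) ≠ 1 by decide]
      ring
    rw [e2]
    refine mul_ne_zero (fun h0 => hb ?_) (h.W_ne x)
    funext k
    have := (Finset.sum_eq_zero_iff_of_nonneg fun k _ => sq_nonneg (b k)).1 h0 k
      (Finset.mem_univ k)
    exact pow_eq_zero_iff two_ne_zero |>.1 this
  refine IndTri_451.nondeg ha hW fun v => ?_
  rw [← e1, ← e1]
  exact hu v

/-- a nonzero vector orthogonal to `X`. -/
theorem exists_orth (X : Fin 3 → ℝ) : ∃ b : Fin 3 → ℝ, b ≠ 0 ∧ ∑ k, b k * X k = 0 := by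
  by_cases h : X 0 = 0 ∧ X 1 = 0
  · refine ⟨![1, 0, 0], fun h0 => ?_, ?_⟩
    · have := congrFun h0 0
      simp at this
    · simp [Fin.sum_univ_three, h.1]
  · refine ⟨![X 1, - X 0, 0], fun h0 => h ⟨?_, ?_⟩, ?_⟩
    · have := congrFun h0 1
      simpa using this
    · have := congrFun h0 0
      simpa using this
    · simp [Fin.sum_univ_three]
      ring

theorem comm (h : LimD w e t X D) (x : M) (u : E4) :
    Js e X x (atJ D.J x u) = atJ D.J x (Js e X x u) := by
  obtain ⟨b, hb0, hb⟩ := exists_orth fun k => X k x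
  refine eb_nondeg h.tri x hb0 fun v => ?_
  have hc : ∑ k, cr b (fun k => X k x) k * X k x = 0 := by
    unfold cr
    have a1 : (0 : Fin 3) + 1 = 1 := rfl
    have a2 : (0 : Fin 3) + 2 = 2 := rfl
    have a3 : (1 : Fin 3) + 1 = 2 := rfl
    have a4 : (1 : Fin 3) + 2 = 0 := rfl
    have a5 : (2 : Fin 3) + 1 = 0 := rfl
    have a6 : (2 : Fin 3) + 2 = 1 := rfl
    simp only [Fin.sum_univ_three, a1, a2, a3, a4, a5, a6]
    ring
  rw [eb_Js h.tri, eb_J h x hb, eb_Js h.tri, hb, eb_J h x hc]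
  ring

/-- `F (u, ∑ X_k I_k v) = (∑ X²) g (u, v)`. -/
theorem F_Js (h : LimD w e t X D) (x : M) (u v : E4) :
    at2 D.F x u (Js e X x v) = (∑ k, X k x ^ 2) * at2 (gg e) x u v := by
  rw [F_eq h, eb_swap h.tri, eb_Js h.tri]
  have hc : eb e x (cr (fun k => X k x) fun k => X k x) v u = 0 := by
    unfold eb cr
    have a1 : (0 : Fin 3) + 1 = 1 := rfl
    have a2 : (0 : Fin 3) + 2 = 2 := rfl
    have a3 : (1 : Fin 3) + 1 = 2 := rfl
    have a4 : (1 : Fin 3) + 2 = 0 := rfl
    have a5 : (2 : Fin 3) + 1 = 0 := rfl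
    have a6 : (2 : Fin 3) + 2 = 1 := rfl
    simp only [Fin.sum_univ_three, a1, a2, a3, a4, a5, a6]
    ring
  rw [hc, h.tri.g_symm x u v]
  have : ∑ k, X k x * X k x = ∑ k, X k x ^ 2 := Finset.sum_congr rfl fun k _ => by ring
  rw [this]
  ring

theorem Js_add (x : M) (u v : E4) : Js e X x (u + v) = Js e X x u + Js e X x v := by
  unfold Js
  simp only [Fin.sum_univ_three, map_add]
  module

theorem Js_smul (x : M) (c : ℝ) (u : E4) : Js e X x (c • u) = c • Js e X x u := by
  unfold Js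
  simp only [Fin.sum_univ_three, map_smul]
  module

/-- **the almost complex structure.** -/
theorem J_eq (h : LimD w e t X D) (x : M) (v : E4) :
    √(∑ k, X k x ^ 2) • atJ D.J x v = ∑ k, X k x • atJ (II e k) x v := by
  show √(∑ k, X k x ^ 2) • atJ D.J x v = Js e X x v
  have hp := pos h x
  set s := √(∑ k, X k x ^ 2) with hs
  have hs0 : 0 < s := Real.sqrt_pos.2 hp
  have hss : s * s = ∑ k, X k x ^ 2 := Real.mul_self_sqrt hp.le
  have hsq : ∀ v, atJ D.J x (atJ D.J x v) = -v := h.jt.sq x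
  set A : E4 → E4 := fun v => - Js e X x (atJ D.J x v) with hA
  have hu : ∀ v, A v - s • v = 0 := by
    intro v
    by_contra hne
    set u := A v - s • v with hu
    -- `J u = - s⁻¹ Js u`
    have h1 : s • atJ D.J x u = - Js e X x u := by
      have e1 : atJ D.J x u = Js e X x v - s • atJ D.J x v := by
        rw [hu, map_sub, map_smul]
        show atJ D.J x (- Js e X x (atJ D.J x v)) - _ = _
        rw [map_neg, ← comm h x (atJ D.J x v), hsq]
        have : Js e X x (-v) = - Js e X x v := by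
          have := Js_smul (e := e) (X := X) x (-1) v
          simpa using this
        rw [this, neg_neg]
      have e2 : Js e X x u = (s * s) • atJ D.J x v - s • Js e X x v := by
        rw [hu]
        show Js e X x (- Js e X x (atJ D.J x v) - s • v) = _
        have e3 : (- Js e X x (atJ D.J x v) - s • v) =
          (-1 : ℝ) • Js e X x (atJ D.J x v) + (-s) • v := by module
        rw [e3, Js_add, Js_smul, Js_smul, Js_sq h.tri, ← hss]
        module
      rw [e1, e2]
      module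
    have h2 := h.jt.tame x u hne
    rw [val_eq h, ← F_eq h] at h2
    have h3 : s * at2 D.F x u (atJ D.J x u) = - ((s * s) * at2 (gg e) x u u) := by
      have := congrArg (fun z => at2 D.F x u z) h1
      simp only [map_smul, map_neg, smul_eq_mul] at this
      rw [this, F_Js h, hss]
    have h4 := h.tri.pos x u hne
    nlinarith [mul_pos hs0 h2, mul_pos (mul_pos hs0 hs0) h4]
  have h5 := sub_eq_zero.1 (hu (atJ D.J x v))
  have h6 : A (atJ D.J x v) = Js e X x v := by
    show - Js e X x (atJ D.J x (atJ D.J x v)) = _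
    rw [hsq]
    have := Js_smul (e := e) (X := X) x (-1) v
    simp only [neg_smul, one_smul] at this
    rw [this, neg_neg]
  rw [← h5, h6]

/-- **the metric of `D`** is `√(∑ X²) g`. -/
theorem F_J (h : LimD w e t X D) (x : M) (u v : E4) :
    at2 D.F x u (atJ D.J x v) = √(∑ k, X k x ^ 2) * at2 (gg e) x u v := by
  have hp := pos h x
  have hs0 : 0 < √(∑ k, X k x ^ 2) := Real.sqrt_pos.2 hp
  have h1 : at2 D.F x u (√(∑ k, X k x ^ 2) • atJ D.J x v) =
      (∑ k, X k x ^ 2) * at2 (gg e) x u v := by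
    rw [J_eq h x v]
    exact F_Js h x u v
  rw [map_smul, smul_eq_mul] at h1
  have h2 : √(∑ k, X k x ^ 2) * √(∑ k, X k x ^ 2) = ∑ k, X k x ^ 2 := Real.mul_self_sqrt hp.le
  refine mul_left_cancel₀ hs0.ne' ?_
  rw [h1, ← mul_assoc, h2]

/-- **covectors.** -/
theorem n1_le (h : LimD w e t X D) (x : M) (c : E4 →L[ℝ] ℝ) (m : ℝ)
    (hc : ∀ v, c v ^ 2 ≤ m * at2 (gg e) x v v) : n1 D x c * √(∑ k, X k x ^ 2) ≤ m := by
  have hJ : ∀ v, atJ D.J x (atJ D.J x v) = -v := D.sq x
  have hF := En4.spos D x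
  obtain ⟨A, hA⟩ := exists_frame hJ hF
  have hn : n1 D x c = SwcAlg_34.S4 (c.comp (A : E4 →L[ℝ] E4)) :=
    SwcAlg_34.m1_frame hF hA c
  set c' := c.comp (A : E4 →L[ℝ] E4) with hc'
  set v0 : E4 := ∑ k, c' (ee k) • ee k with hv0
  have h1 : c (A v0) = n1 D x c := by
    have : c (A v0) = c' v0 := rfl
    rw [this, hv0, map_sum, hn]
    unfold SwcAlg_34.S4
    simp only [Fin.sum_univ_four, map_smul, smul_eq_mul]
    ring
  have h2 : ‖v0‖ ^ 2 = n1 D x c := by
    rw [norm_sq_E4, hn, hv0]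
    unfold SwcAlg_34.S4
    simp only [Fin.sum_univ_four, PiLp.add_apply, PiLp.smul_apply, smul_eq_mul, ee_apply]
    simp
  have h3 : at2 D.F x (A v0) (atJ D.J x (A v0)) = n1 D x c := by rw [hA.normsq, h2]
  rw [F_J h] at h3
  have h4 := hc (A v0)
  rw [h1] at h4
  have hp := pos h x
  have hs0 : 0 < √(∑ k, X k x ^ 2) := Real.sqrt_pos.2 hp
  have hn0 : 0 ≤ n1 D x c := by rw [hn]; exact SwcAlg_34.S4_nonneg _
  rcases hn0.eq_or_lt with h0 | h0
  · rw [← h0, zero_mul]
    obtain ⟨v, hv⟩ := exists_ne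
    have h5 := hc v
    have h6 := h.tri.pos x v hv
    by_contra hm
    have : m * at2 (gg e) x v v < 0 := mul_neg_of_neg_of_pos (not_le.1 hm) h6
    linarith [sq_nonneg (c v)]
  · refine le_of_mul_le_mul_left ?_ h0
    calc n1 D x c * (n1 D x c * √(∑ k, X k x ^ 2)) = n1 D x c ^ 2 * √(∑ k, X k x ^ 2) := by ring
      _ ≤ (m * at2 (gg e) x (A v0) (A v0)) * √(∑ k, X k x ^ 2) :=
        mul_le_mul_of_nonneg_right h4 hs0.le
      _ = n1 D x c * m := by
        rw [← h3]
        ring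

end

end Crest.Agent.R235.SwcPWJ_215
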