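import Crest.Agent.R235.SwcPWDa_277
import Crest.Agent.R235.SwcPWJ_215

/-!
Row 235 (S0364), PACKAGE SWC, NODE PROD, PWD (helper277), part 2: the dictionary for two-forms, and
`pwd : PWD`.
-/

set_option autoImplicit false
set_option maxSynthPendingDepth 3
set_option linter.unusedSectionVars false

open scoped ContDiff ENNReal NNReal Topology Manifold Bundle RealInnerProductSpace
open MeasureTheory Set Filter Metric Bundle

universe v

namespace Crest.Agent.R235.SwcPWD_277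

open Crest.Agent.R240 Crest.Agent.R240.Ch Crest.Agent.R235 Crest.Agent.R235.SWDefs_53
open Crest.Agent.R235.IndTri_451 Crest.Agent.R235.Tau483 Crest.Agent.R235.SwcGlob_34
open Crest.Agent.R235.SwcProd_215

noncomputable section

variable {M : Type v} [MetricSpace M] [CompactSpace M] [ChartedSpace E4 M]
  [IsManifold 𝓘(ℝ, E4) ∞ M] [MeasurableSpace M] [BorelSpace M] {w : Trip M}
  {e : Fin 3 → F2 E4 M} {t : Fin 3 → ℝ} {X : Fin 3 → M → ℝ} {D : Crest.Agent.R240.Dat M}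

/-- a unit vector of `g`. -/
theorem exists_unit (h : IsTri (fun i => (w i).1.1) e) (x : M) :
    ∃ u : E4, at2 (gg e) x u u = 1 := by
  obtain ⟨v, hv⟩ := SwcPWJ_215.exists_ne
  have hp : 0 < at2 (gg e) x v v := h.pos x v hv
  refine ⟨(√(at2 (gg e) x v v))⁻¹ • v, ?_⟩
  have hs : √(at2 (gg e) x v v) ≠ 0 := (Real.sqrt_pos.2 hp).ne'
  have hss : √(at2 (gg e) x v v) * √(at2 (gg e) x v v) = at2 (gg e) x v v :=
    Real.mul_self_sqrt hp.le
  set s := √(at2 (gg e) x v v) with hsdef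
  have h1 : at2 (gg e) x (s⁻¹ • v) (s⁻¹ • v) = s⁻¹ * (s⁻¹ * at2 (gg e) x v v) := by
    rw [map_smul, map_smul, ContinuousLinearMap.smul_apply, smul_eq_mul, smul_eq_mul]
  rw [h1, ← hss]
  field_simp

/-- **the data at a point** (`PW`). -/
theorem pw (h : LimD w e t X D) (x : M) : ∃ T : E4 →L[ℝ] E4,
    PW (at2 (gg e) x) (fun i => at2 (e i) x) (fun i => atJ (II e i) x) T (at2 D.F x)
      (atJ D.J x) (fun k => X k x) := by
  obtain ⟨u, hu⟩ := exists_unit h.tri x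
  have hsq : ∀ v, atJ D.J x (atJ D.J x v) = -v := h.jt.sq x
  have heb : ∀ (c : Fin 3 → ℝ) (u v : E4),
      (∑ k, c k • at2 (e k) x : Bil) u v = SwcPWJ_215.eb e x c u v := by
    intro c u v
    unfold SwcPWJ_215.eb
    simp only [Fin.sum_univ_three, ContinuousLinearMap.add_apply,
      ContinuousLinearMap.smul_apply, smul_eq_mul]
  refine ⟨_, h.tri.fr x hu, fun i => (h.tri.smooth i).1 x, ?_, ?_, SwcPWJ_215.pos h x, hsq, ?_, ?_,
    SwcPWJ_215.J_eq h x⟩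
  · intro i j
    show W (at2 (e i) x) (at2 (e j) x) = if i = j then W (at2 (e 0) x) (at2 (e 0) x) else 0
    rw [h.tri.W_e i j x, h.tri.W_e 0 0 x, if_pos rfl]
  · ext u v
    show at2 D.F x u v = (∑ k, X k x • at2 (e k) x : Bil) u v
    rw [heb, SwcPWJ_215.F_eq h]
  · intro u v
    have h1 := h.jt.inv x u v
    rw [SwcPWJ_215.val_eq h, SwcPWJ_215.val_eq h, ← SwcPWJ_215.F_eq h,
      ← SwcPWJ_215.F_eq h] at h1
    exact h1
  · intro c hc u v
    show (∑ k, c k • at2 (e k) x : Bil) (atJ D.J x u) (atJ D.J x v) =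
      - (∑ k, c k • at2 (e k) x : Bil) u v
    rw [heb, heb, SwcPWJ_215.eb_J h x hc, hsq]
    unfold SwcPWJ_215.eb
    simp only [map_neg, mul_neg, Finset.sum_neg_distrib]

/-- **the dictionary for two-forms.** -/
theorem cl_b (h : LimD w e t X D) (x : M) (b : F2 E4 M) (hb : Alt (at2 b x)) :
    qG D.F b D.F x = (∑ k, qG (w 0).1.1 (e k) b x * X k x) / ∑ k, X k x ^ 2 ∧
    nsqG D.J D.F b x + qG D.F b b x =
      2 * (∑ k, qG (w 0).1.1 (e k) b x ^ 2) / ∑ k, X k x ^ 2 ∧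
    nsqG D.J D.F (bpp D.J b) x = (∑ k, qG (w 0).1.1 (e k) b x ^ 2 -
      (∑ k, qG (w 0).1.1 (e k) b x * X k x) ^ 2 / ∑ k, X k x ^ 2) / ∑ k, X k x ^ 2 ∧
    ∀ c : F2 E4 M, Alt (at2 c x) →
      (∑ k, X k x ^ 2) * qG D.F b c x = qG (w 0).1.1 b c x := by
  obtain ⟨T, hT⟩ := pw h x
  have hW : W (at2 (e 0) x) (at2 (e 0) x) =
      W (at2 ((w 0).1.1 : F2 E4 M) x) (at2 ((w 0).1.1 : F2 E4 M) x) := by
    rw [h.tri.W_e 0 0 x, if_pos rfl]
  have hq : ∀ b c : F2 E4 M, qG (w 0).1.1 b c x = q (at2 (e 0) x) (at2 b x) (at2 c x) := by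
    intro b c
    unfold qG q
    rw [hW]
  have hph : ∀ k, qG (w 0).1.1 (e k) b x = ph (fun i => at2 (e i) x) (at2 b x) k :=
    fun k => hq (e k) b
  simp only [hph]
  refine ⟨hT.c1 (at2 b x), hT.c2 hb, hT.c3 hb, fun c _ => ?_⟩
  rw [hq]
  exact hT.c4 (at2 b x) (at2 c x)

/-- **PWD.** -/
theorem pwd : PWD.{v} := by
  intro M _ _ _ _ _ _ w e t X D h x
  exact ⟨SwcPWJ_215.pos h x, fun b hb => cl_b h x b hb, fun c m hc => SwcPWJ_215.n1_le h x c m hc,
    fun v => SwcPWJ_215.J_eq h x v⟩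

end

end Crest.Agent.R235.SwcPWD_277
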