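import Crest.Agent.R235.SwcPWDa_305
import Crest.Agent.R235.SwcProd2_215
import Crest.Agent.R240.En4L

/-!
Row 235 (S0364), PACKAGE SWC, helper305: leaf PWD.
-/

set_option autoImplicit false
set_option maxSynthPendingDepth 3

open scoped ContDiff ENNReal NNReal Topology Manifold Bundle RealInnerProductSpace
open MeasureTheory Set Filter Metric Bundle

universe v

namespace Crest.Agent.R235.SwcPWD_305

open Crest.Agent.R240 Crest.Agent.R240.Ch Crest.Agent.R235 Crest.Agent.R235.SWDefs_53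
open Crest.Agent.R235.IndTri_451 Crest.Agent.R235.SwcProd_215
open Crest.Agent.R235.SwcGlob_34 (n1)

noncomputable section

theorem pwd : SwcProd_215.PWD.{v} := by
  intro M _ _ _ _ _ _ w e t X D hD x
  set E : Fin 3 → Bil := fun i => at2 (e i) x with hEd
  set Y : Fin 3 → ℝ := fun i => X i x with hYd
  set kk : ℝ := W (at2 (w 0).1.1 x) (at2 (w 0).1.1 x) with hkk
  have ON : ON3 kk (E 0) (E 1) (E 2) := hD.tri.on3 x
  have hV : (at2 D.F x : Bil) = val (Uu_291.wt w t) x := by rw [hD.F]; rfl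
  have hF : (at2 D.F x : Bil) = ∑ i, Y i • E i := by rw [hV]; exact hD.X x
  have hJ : ∀ v, atJ D.J x (atJ D.J x v) = -v := hD.jt.sq x
  have halt : Alt (at2 D.F x : Bil) := by
    intro v
    rw [hF, sum_apply3, ON.alt_a v, ON.alt_b v, ON.alt_c v]
    ring
  have hSP : SPos (atJ D.J x) (at2 D.F x : Bil) :=
    ⟨halt, fun u v => by rw [hV]; exact hD.jt.inv x u v,
      fun v hv => by rw [hV]; exact hD.jt.tame x v hv⟩
  have hanti : ∀ c : Fin 3 → ℝ, c 0 * Y 0 + c 1 * Y 1 + c 2 * Y 2 = 0 →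
      ∀ u v, (∑ i, c i • E i) (atJ D.J x u) (atJ D.J x v) = - (∑ i, c i • E i) u v := by
    intro c hc u v
    obtain ⟨A, B, -, -, hA, -, -, -⟩ := hD.tri.coef
    have h1 : ∑ i, c i • E i = ∑ j, (∑ i, c i * A i j x) • val (w j) x := by
      have h2 : ∀ i, c i • E i = ∑ j, (c i * A i j x) • val (w j) x := by
        intro i
        have h3 : E i = ∑ j, A i j x • val (w j) x := hA i x
        rw [h3, Finset.smul_sum]
        exact Finset.sum_congr rfl fun j _ => smul_smul _ _ _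
      rw [Finset.sum_congr rfl fun i _ => h2 i, Finset.sum_comm]
      exact Finset.sum_congr rfl fun j _ => (Finset.sum_smul).symm
    have h4 : W (∑ j, (∑ i, c i * A i j x) • val (w j) x) (val (Uu_291.wt w t) x) = 0 := by
      rw [← h1, ← hV, hF, W_sum3, W_comm (E 0), W_comm (E 1), W_comm (E 2), W_sum3, W_sum3, W_sum3,
        ON.aa, ON.bb, ON.cc, ON.ab, ON.bc, ON.ca, W_comm (E 1) (E 0), W_comm (E 2) (E 1),
        W_comm (E 0) (E 2), ON.ab, ON.bc, ON.ca]
      linear_combination kk * hc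
    have h5 := hD.jt.anti x (fun j => ∑ i, c i * A i j x) h4 u v
    rw [h1]
    exact h5
  have hg : ∀ v, v ≠ 0 → 0 < gf (E 0) (E 1) (E 2) v v := fun v hv => hD.tri.pos x v hv
  obtain ⟨hR, hJK⟩ := J_eq ON hF hJ hSP.inv hSP.pos hanti hg
  -- the frame
  obtain ⟨u, hu⟩ : ∃ u, at2 (gg e) x u u = 1 := by
    have he : (ee 0 : E4) ≠ 0 := by
      intro h0
      have := congrArg (fun z : E4 => z 0) h0
      simp at this
    have h1 := hD.tri.pos x _ he
    refine ⟨(√(at2 (gg e) x (ee 0) (ee 0)))⁻¹ • ee 0, ?_⟩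
    rw [map_smul, map_smul, smul_apply, smul_eq_mul, smul_eq_mul, ← mul_assoc, ← mul_inv,
      Real.mul_self_sqrt h1.le]
    exact inv_mul_cancel₀ h1.ne'
  have hT := hD.tri.fr x hu
  set T := frm (at2 (e 1) x) (at2 (e 2) x) (at2 (e 0) x) u with hTd
  set I : Fin 3 → E4 →L[ℝ] E4 := fun i => atJ (II e i) x with hId
  have hJI : ∀ v, √(Y 0 ^ 2 + Y 1 ^ 2 + Y 2 ^ 2) • atJ D.J x v =
      Y 0 • I 0 v + Y 1 • I 1 v + Y 2 • I 2 v := hJK
  have hsum : ∑ k, X k x ^ 2 = Y 0 ^ 2 + Y 1 ^ 2 + Y 2 ^ 2 := Fin.sum_univ_three _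
  rw [hsum]
  refine ⟨hR, ?_, ?_, ?_⟩
  · intro b hb
    have hs1 : ∑ k, qG (w 0).1.1 (e k) b x * X k x = W (E 0) (at2 b x) / kk * Y 0 +
        W (E 1) (at2 b x) / kk * Y 1 + W (E 2) (at2 b x) / kk * Y 2 := Fin.sum_univ_three _
    have hs2 : ∑ k, qG (w 0).1.1 (e k) b x ^ 2 = (W (E 0) (at2 b x) / kk) ^ 2 +
        (W (E 1) (at2 b x) / kk) ^ 2 + (W (E 2) (at2 b x) / kk) ^ 2 := Fin.sum_univ_three _
    rw [hs1, hs2]
    have hq1 := q_bF ON hF hR (at2 b x)
    have hq2 := q_antip ON hT hF hR hJI hb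
    have hsp := En4.q_split hJ hSP hb hb
    have hna := En4.nsq_anti hJ hSP (hb.antip (atJ D.J x)) (antip_anti hJ (at2 b x))
    have hn : nsq (atJ D.J x) (at2 D.F x) (at2 b x) =
        2 * q (at2 D.F x) (at2 b x) (at2 D.F x) * q (at2 D.F x) (at2 b x) (at2 D.F x) -
        q (at2 D.F x) (invp (atJ D.J x) (at2 b x)) (invp (atJ D.J x) (at2 b x)) +
        q (at2 D.F x) (antip (atJ D.J x) (at2 b x)) (antip (atJ D.J x) (at2 b x)) := rfl
    refine ⟨hq1, ?_, ?_, ?_⟩
    · show nsq (atJ D.J x) (at2 D.F x) (at2 b x) + q (at2 D.F x) (at2 b x) (at2 b x) = _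
      rw [hn, hsp, hq1, hq2]
      have hR' := hR.ne'
      field_simp
      ring
    · show nsq (atJ D.J x) (at2 D.F x) (antip (atJ D.J x) (at2 b x)) = _
      rw [hna, hq2]
    · intro c hc
      show _ * (W (at2 b x) (at2 c x) / W (at2 D.F x) (at2 D.F x)) = W (at2 b x) (at2 c x) / kk
      rw [W_FF ON hF]
      have hk := ON.k_ne
      have hR' := hR.ne'
      field_simp
  · intro c m hc
    have h1 := n1_eq ON hT hF hR hJI c
    have h2 := norm_le hT c rfl hc
    show 2 * q (at2 D.F x) (at2 D.F x) (wed c (Jc (atJ D.J x) c)) * _ ≤ m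
    rw [h1]
    exact h2
  · intro v
    rw [Fin.sum_univ_three]
    exact hJI v

end

end Crest.Agent.R235.SwcPWD_305
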