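import Crest.Agent.R235.IndTriB_451

/-!
Row 235 (S0364), PACKAGE SWC, PROD, leaf PWD (helper277), part 1: linear algebra at a point, in an
adapted frame `Fr g e I T` (451).
-/

set_option autoImplicit false
set_option maxSynthPendingDepth 3
set_option linter.unusedSectionVars false

open Set Function
open scoped ContDiff

namespace Crest.Agent.R235.SwcPWD_277

open Crest.Agent.R240 Crest.Agent.R235.IndTri_451

noncomputable section

variable {g : Bil} {e : Fin 3 → Bil} {I : Fin 3 → E4 →L[ℝ] E4} {T : E4 →L[ℝ] E4}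

/-- `W (e i) b` in the frame. -/
theorem W_e0 (h : Fr g e I T) (he : ∀ i, Alt (e i)) {b : Bil} (hb : Alt b) :
    2 * W (e 0) b = W (e 0) (e 0) * (b (T (ee 0)) (T (ee 1)) + b (T (ee 2)) (T (ee 3))) := by
  have h1 := W_pull (he 0) hb T
  have h2 : W (pull T (e 0)) (pull T b) = b (T (ee 0)) (T (ee 1)) + b (T (ee 2)) (T (ee 3)) := by
    unfold W ent
    simp only [pull_apply, h.e0, ee_apply, Fin.reduceEq, if_true, if_false]
    ring
  rw [h2] at h1
  rw [h1, ← mul_assoc, h.det]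

theorem W_e1 (h : Fr g e I T) (he : ∀ i, Alt (e i)) {b : Bil} (hb : Alt b) :
    2 * W (e 1) b = W (e 0) (e 0) * (b (T (ee 0)) (T (ee 2)) - b (T (ee 1)) (T (ee 3))) := by
  have h1 := W_pull (he 1) hb T
  have h2 : W (pull T (e 1)) (pull T b) = b (T (ee 0)) (T (ee 2)) - b (T (ee 1)) (T (ee 3)) := by
    unfold W ent
    simp only [pull_apply, h.e1, ee_apply, Fin.reduceEq, if_true, if_false]
    ring
  rw [h2] at h1
  rw [h1, ← mul_assoc, h.det]

theorem W_e2 (h : Fr g e I T) (he : ∀ i, Alt (e i)) {b : Bil} (hb : Alt b) :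
    2 * W (e 2) b = W (e 0) (e 0) * (b (T (ee 0)) (T (ee 3)) + b (T (ee 1)) (T (ee 2))) := by
  have h1 := W_pull (he 2) hb T
  have h2 : W (pull T (e 2)) (pull T b) = b (T (ee 0)) (T (ee 3)) + b (T (ee 1)) (T (ee 2)) := by
    unfold W ent
    simp only [pull_apply, h.e2, ee_apply, Fin.reduceEq, if_true, if_false]
    ring
  rw [h2] at h1
  rw [h1, ← mul_assoc, h.det]

theorem W0_ne (h : Fr g e I T) : W (e 0) (e 0) ≠ 0 := by
  intro h0
  have := h.det
  rw [h0, zero_mul] at this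
  exact two_ne_zero this.symm

/-- anti-self-dual forms: `b (I_k u, v) = - b (u, I_k v)`. -/
theorem asd_skew (h : Fr g e I T) (he : ∀ i, Alt (e i)) {b : Bil} (hb : Alt b)
    (h0 : ∀ k, W (e k) b = 0) (k : Fin 3) (u v : E4) : b (I k u) v = - b u (I k v) := by
  obtain ⟨r, rfl⟩ := h.surj u
  obtain ⟨s, rfl⟩ := h.surj v
  have hne := W0_ne h
  have a0 : b (T (ee 0)) (T (ee 1)) + b (T (ee 2)) (T (ee 3)) = 0 := by
    have := W_e0 h he hb
    rw [h0, mul_zero] at this
    exact (mul_eq_zero.1 this.symm).resolve_left hne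
  have a1 : b (T (ee 0)) (T (ee 2)) - b (T (ee 1)) (T (ee 3)) = 0 := by
    have := W_e1 h he hb
    rw [h0, mul_zero] at this
    exact (mul_eq_zero.1 this.symm).resolve_left hne
  have a2 : b (T (ee 0)) (T (ee 3)) + b (T (ee 1)) (T (ee 2)) = 0 := by
    have := W_e2 h he hb
    rw [h0, mul_zero] at this
    exact (mul_eq_zero.1 this.symm).resolve_left hne
  have hp : ∀ r s : E4, b (T r) (T s) = (r 0 * s 1 - r 1 * s 0) * b (T (ee 0)) (T (ee 1)) +
      (r 0 * s 2 - r 2 * s 0) * b (T (ee 0)) (T (ee 2)) +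
      (r 0 * s 3 - r 3 * s 0) * b (T (ee 0)) (T (ee 3)) +
      (r 1 * s 2 - r 2 * s 1) * b (T (ee 1)) (T (ee 2)) +
      (r 1 * s 3 - r 3 * s 1) * b (T (ee 1)) (T (ee 3)) +
      (r 2 * s 3 - r 3 * s 2) * b (T (ee 2)) (T (ee 3)) := by
    intro r s
    have h1 := alt_expand (hb.pull T) r s
    simp only [ent, pull_apply] at h1
    exact h1
  have b0 : b (T (ee 2)) (T (ee 3)) = - b (T (ee 0)) (T (ee 1)) := by linarith
  have b1 : b (T (ee 1)) (T (ee 3)) = b (T (ee 0)) (T (ee 2)) := by linarith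
  have b2 : b (T (ee 1)) (T (ee 2)) = - b (T (ee 0)) (T (ee 3)) := by linarith
  fin_cases k
  · show b (I 0 (T r)) (T s) = - b (T r) (I 0 (T s))
    rw [h.I0, h.I0, hp (WithLp.toLp 2 ![- r 1, r 0, - r 3, r 2]) s,
      hp r (WithLp.toLp 2 ![- s 1, s 0, - s 3, s 2]), b0, b1, b2]
    simp
    ring
  · show b (I 1 (T r)) (T s) = - b (T r) (I 1 (T s))
    rw [h.I1, h.I1, hp (WithLp.toLp 2 ![- r 2, r 3, r 0, - r 1]) s,
      hp r (WithLp.toLp 2 ![- s 2, s 3, s 0, - s 1]), b0, b1, b2]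
    simp
    ring
  · show b (I 2 (T r)) (T s) = - b (T r) (I 2 (T s))
    rw [h.I2, h.I2, hp (WithLp.toLp 2 ![- r 3, - r 2, r 1, r 0]) s,
      hp r (WithLp.toLp 2 ![- s 3, - s 2, s 1, s 0]), b0, b1, b2]
    simp
    ring

/-! ### the form clause -/

variable {F : Bil} {J : E4 →L[ℝ] E4} {X : Fin 3 → ℝ}

/-- `φ_k = q(e_0; e_k, b)`. -/
def ph (e : Fin 3 → Bil) (b : Bil) (k : Fin 3) : ℝ := q (e 0) (e k) b

/-- the coefficients of `b''`. -/
def ps (e : Fin 3 → Bil) (X : Fin 3 → ℝ) (b : Bil) (k : Fin 3) : ℝ :=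
  ph e b k - (∑ j, ph e b j * X j) / (∑ j, X j ^ 2) * X k

/-- `b''`. -/
def bq (e : Fin 3 → Bil) (X : Fin 3 → ℝ) (b : Bil) : Bil := ∑ k, ps e X b k • e k

theorem ps_X (hX : 0 < ∑ k, X k ^ 2) (b : Bil) : ∑ k, ps e X b k * X k = 0 := by
  unfold ps
  set c := (∑ j, ph e b j * X j) / (∑ j, X j ^ 2) with hc
  have h1 : c * ∑ j, X j ^ 2 = ∑ j, ph e b j * X j := div_mul_cancel₀ _ hX.ne'
  have h2 : ∑ k, (ph e b k - c * X k) * X k = ∑ k, ph e b k * X k - c * ∑ j, X j ^ 2 := by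
    rw [Finset.mul_sum, ← Finset.sum_sub_distrib]
    exact Finset.sum_congr rfl fun k _ => by ring
  rw [h2, h1, sub_self]

theorem ps_sq (hX : 0 < ∑ k, X k ^ 2) (b : Bil) : ∑ k, ps e X b k ^ 2 =
    ∑ k, ph e b k ^ 2 - (∑ k, ph e b k * X k) ^ 2 / ∑ k, X k ^ 2 := by
  unfold ps
  set c := (∑ j, ph e b j * X j) / (∑ j, X j ^ 2) with hc
  have h1 : c * ∑ j, X j ^ 2 = ∑ j, ph e b j * X j := div_mul_cancel₀ _ hX.ne'
  have h2 : ∑ k, (ph e b k - c * X k) ^ 2 =
      ∑ k, ph e b k ^ 2 - 2 * c * ∑ k, ph e b k * X k + c ^ 2 * ∑ j, X j ^ 2 := by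
    rw [Finset.mul_sum, Finset.mul_sum, ← Finset.sum_sub_distrib, ← Finset.sum_add_distrib]
    exact Finset.sum_congr rfl fun k _ => by ring
  have h3 : (∑ k, ph e b k * X k) ^ 2 / ∑ k, X k ^ 2 = c * ∑ k, ph e b k * X k := by
    rw [hc]; ring
  rw [h2, h3]
  linear_combination c * h1

theorem ps_ph (b : Bil) : ∑ k, ps e X b k * ph e b k =
    ∑ k, ph e b k ^ 2 - (∑ k, ph e b k * X k) ^ 2 / ∑ k, X k ^ 2 := by
  unfold ps
  set c := (∑ j, ph e b j * X j) / (∑ j, X j ^ 2) with hc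
  have h2 : ∑ k, (ph e b k - c * X k) * ph e b k =
      ∑ k, ph e b k ^ 2 - c * ∑ k, ph e b k * X k := by
    rw [Finset.mul_sum, ← Finset.sum_sub_distrib]
    exact Finset.sum_congr rfl fun k _ => by ring
  have h3 : (∑ k, ph e b k * X k) ^ 2 / ∑ k, X k ^ 2 = c * ∑ k, ph e b k * X k := by
    rw [hc]; ring
  rw [h2, h3]

theorem W_sum_left {ι : Type*} (s : Finset ι) (c : ι → ℝ) (b : ι → Bil) (d : Bil) :
    W (∑ k ∈ s, c k • b k) d = ∑ k ∈ s, c k * W (b k) d := by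
  classical
  induction s using Finset.induction_on with
  | empty => simp [W, ent_zero]
  | insert a s ha ih => rw [Finset.sum_insert ha, Finset.sum_insert ha, W_add_left, W_smul_left, ih]

theorem W_sum_right {ι : Type*} (s : Finset ι) (c : ι → ℝ) (b : ι → Bil) (d : Bil) :
    W d (∑ k ∈ s, c k • b k) = ∑ k ∈ s, c k * W d (b k) := by
  rw [W_comm, W_sum_left]
  exact Finset.sum_congr rfl fun k _ => by rw [W_comm]

/-- the data at a point. -/
structure PW (g : Bil) (e : Fin 3 → Bil) (I : Fin 3 → E4 →L[ℝ] E4) (T : E4 →L[ℝ] E4) (F : Bil)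
    (J : E4 →L[ℝ] E4) (X : Fin 3 → ℝ) : Prop where
  fr : Fr g e I T
  alt : ∀ i, Alt (e i)
  ww : ∀ i j, W (e i) (e j) = if i = j then W (e 0) (e 0) else 0
  ff : F = ∑ k, X k • e k
  xx : 0 < ∑ k, X k ^ 2
  sq : ∀ v, J (J v) = -v
  inv : ∀ u v, F (J u) (J v) = F u v
  anti : ∀ c : Fin 3 → ℝ, ∑ k, c k * X k = 0 →
    ∀ u v, (∑ k, c k • e k) (J u) (J v) = - (∑ k, c k • e k) u v
  jj : ∀ v, √(∑ k, X k ^ 2) • J v = ∑ k, X k • I k v

namespace PW

variable (h : PW g e I T F J X)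
include h

theorem WF (b : Bil) : W F b = ∑ k, X k * W (e k) b := by
  rw [h.ff, W_sum_left]

theorem We (b : Bil) (k : Fin 3) : W (e k) b =
    W (e 0) (e 0) * ph e b k := by
  unfold ph q
  field_simp [W0_ne h.fr]

theorem WFb (b : Bil) : W F b =
    W (e 0) (e 0) * ∑ k, ph e b k * X k := by
  rw [h.WF, Finset.mul_sum]
  exact Finset.sum_congr rfl fun k _ => by rw [h.We]; ring

theorem ph_e (k j : Fin 3) : ph e (e j) k = if k = j then 1 else 0 := by
  unfold ph q
  rw [h.ww]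
  split_ifs
  · exact div_self (W0_ne h.fr)
  · exact zero_div _

theorem sumW (c : Fin 3 → ℝ) (k : Fin 3) :
    ∑ j, c j * W (e k) (e j) = W (e 0) (e 0) * c k := by
  have hk : ∀ j, c j * W (e k) (e j) = if k = j then W (e 0) (e 0) * c j else 0 := by
    intro j
    rw [h.ww k j]
    split_ifs
    · ring
    · ring
  rw [Finset.sum_congr rfl fun j _ => hk j, Finset.sum_ite_eq]
  simp

theorem WFF : W F F = W (e 0) (e 0) * ∑ k, X k ^ 2 := by
  rw [h.WF, Finset.mul_sum]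
  refine Finset.sum_congr rfl fun k _ => ?_
  rw [W_comm, h.WFb]
  simp only [h.ph_e, ite_mul, one_mul, zero_mul]
  simp
  ring

theorem WFF_ne : W F F ≠ 0 := by
  rw [h.WFF]
  exact mul_ne_zero (W0_ne h.fr) h.xx.ne'

/-- (1) -/
theorem c1 (b : Bil) : q F b F = (∑ k, ph e b k * X k) / ∑ k, X k ^ 2 := by
  unfold q
  rw [W_comm, h.WFb, h.WFF, mul_div_mul_left _ _ (W0_ne h.fr)]

/-- (4) -/
theorem c4 (b c : Bil) : (∑ k, X k ^ 2) * q F b c = q (e 0) b c := by
  unfold q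
  rw [h.WFF]
  field_simp [W0_ne h.fr, h.xx.ne']

theorem asd_inv {b : Bil} (hb : Alt b) (h0 : ∀ k, W (e k) b = 0) (u v : E4) :
    b (J u) (J v) = b u v := by
  have hr : 0 < √(∑ k, X k ^ 2) := Real.sqrt_pos.2 h.xx
  have h1 : ∀ u v, b (J u) v = - b u (J v) := by
    intro u v
    have e1 : √(∑ k, X k ^ 2) * b (J u) v = ∑ k, X k * b (I k u) v := by
      have h2 := congrArg (fun z => b z v) (h.jj u)
      simpa [map_sum, sum_apply] using h2
    have e2 : √(∑ k, X k ^ 2) * b u (J v) = ∑ k, X k * b u (I k v) := by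
      have h2 := congrArg (fun z => b u z) (h.jj v)
      simpa [map_sum] using h2
    have e3 : √(∑ k, X k ^ 2) * b (J u) v = - (√(∑ k, X k ^ 2) * b u (J v)) := by
      rw [e1, e2, ← Finset.sum_neg_distrib]
      exact Finset.sum_congr rfl fun k _ => by rw [asd_skew h.fr h.alt hb h0]; ring
    have e4 : √(∑ k, X k ^ 2) * (b (J u) v + b u (J v)) = 0 := by linarith
    have e5 := (mul_eq_zero.1 e4).resolve_left hr.ne'
    linarith
  rw [h1, h.sq, map_neg, neg_neg]

theorem antip_eq {b : Bil} (hb : Alt b) : antip J b = bq e X b := by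
  set bm : Bil := b - ∑ k, ph e b k • e k with hbm
  have hA : ∀ c : Fin 3 → ℝ, Alt (∑ k, c k • e k) := by
    intro c v
    rw [sum_apply, sum_apply]
    exact Finset.sum_eq_zero fun k _ => by
      rw [smul_apply, smul_apply, h.alt k v, smul_zero]
  have hbma : Alt bm := by
    intro v
    have h1 := hb v
    have h2 := hA (ph e b) v
    rw [hbm, sub_apply, sub_apply, h1, h2, sub_zero]
  have hbm0 : ∀ k, W (e k) bm = 0 := by
    intro k
    rw [hbm, W_sub_right, W_sum_right, h.We b k, h.sumW, sub_self]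
  have hb1 : ∀ u v, b u v = bm u v + (∑ k, ph e b k • e k) u v := by
    intro u v
    rw [hbm, sub_apply, sub_apply]
    ring
  have hb2 : ∀ u v, (∑ k, ph e b k • e k) u v =
      (∑ j, ph e b j * X j) / (∑ j, X j ^ 2) * F u v + bq e X b u v := by
    intro u v
    have h3 : ∑ k, ph e b k • e k =
        ((∑ j, ph e b j * X j) / (∑ j, X j ^ 2)) • F + bq e X b := by
      rw [bq, h.ff, Finset.smul_sum, ← Finset.sum_add_distrib]
      refine Finset.sum_congr rfl fun k _ => ?_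
      rw [ps, smul_smul, ← add_smul]
      congr 1
      ring
    rw [h3]
    rfl
  have hb3 : ∀ u v, bq e X b (J u) (J v) = - bq e X b u v := h.anti _ (ps_X h.xx b)
  ext u v
  rw [antip_apply, hb1 u v, hb1 (J u) (J v), hb2 u v, hb2 (J u) (J v), hb3, h.inv,
    h.asd_inv hbma hbm0]
  ring

theorem W_bq (b c : Bil) : W (bq e X b) c =
    W (e 0) (e 0) * ∑ k, ps e X b k * ph e c k := by
  rw [bq, W_sum_left, Finset.mul_sum]
  exact Finset.sum_congr rfl fun k _ => by rw [h.We]; ring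

theorem W_bq_bq (b : Bil) : W (bq e X b) (bq e X b) =
    W (e 0) (e 0) * ∑ k, ps e X b k ^ 2 := by
  rw [h.W_bq]
  congr 1
  refine Finset.sum_congr rfl fun k _ => ?_
  have h1 : ph e (bq e X b) k = ps e X b k := by
    have h2 : W (e k) (bq e X b) =
        W (e 0) (e 0) * ps e X b k := by
      rw [bq, W_sum_right, h.sumW]
    rw [h.We] at h2
    exact mul_left_cancel₀ (W0_ne h.fr) h2
  rw [h1, pow_two]

/-- (3) -/
theorem c3 {b : Bil} (hb : Alt b) : nsq J F (antip J b) = (∑ k, ph e b k ^ 2 -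
    (∑ k, ph e b k * X k) ^ 2 / ∑ k, X k ^ 2) / ∑ k, X k ^ 2 := by
  have ha : ∀ u v, antip J b (J u) (J v) = - antip J b u v := by
    intro u v
    rw [antip_apply, antip_apply, h.sq, h.sq]
    simp only [map_neg, neg_apply, neg_neg]
    ring
  have h1 : invp J (antip J b) = 0 := by
    ext u v
    rw [invp_apply, ha]
    simp
  have h2 : antip J (antip J b) = antip J b := by
    ext u v
    rw [antip_apply, ha]
    ring
  unfold nsq Crest.Agent.R240.ip
  rw [h1, h2, h.antip_eq hb]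
  unfold q
  rw [W_bq_bq h, W_comm (bq e X b) F, h.WFb, h.WFF, ps_sq h.xx]
  have h3 : ∑ k, ph e (bq e X b) k * X k = 0 := by
    have h4 := h.WFb (bq e X b)
    rw [W_comm, h.W_bq] at h4
    have h5 : ∑ k, ps e X b k * ph e F k = 0 := by
      have h6 : ∀ k, ph e F k = X k := by
        intro k
        have h7 : W (e k) F = W (e 0) (e 0) * X k := by
          rw [h.ff, W_sum_right, h.sumW]
        rw [h.We] at h7
        exact mul_left_cancel₀ (W0_ne h.fr) h7
      simp only [h6]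
      exact ps_X h.xx b
    rw [h5, mul_zero] at h4
    exact (mul_eq_zero.1 h4.symm).resolve_left (W0_ne h.fr)
  rw [h3]
  have hz : W (0 : Bil) (0 : Bil) = 0 := by simp [Crest.Agent.R240.W, ent_zero]
  rw [hz]
  have hX := h.xx.ne'
  have hW := W0_ne h.fr
  field_simp
  ring

/-- (2) -/
theorem c2 {b : Bil} (hb : Alt b) : nsq J F b + q F b b =
    2 * (∑ k, ph e b k ^ 2) / ∑ k, X k ^ 2 := by
  have h1 : invp J b = b - bq e X b := by
    rw [← h.antip_eq hb, eq_sub_iff_add_eq]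
    exact invp_add_antip J b
  unfold nsq Crest.Agent.R240.ip
  rw [h.c1, h1, h.antip_eq hb]
  unfold q
  rw [W_sub_left, W_sub_right, W_sub_right, W_comm b (bq e X b), h.W_bq_bq, h.W_bq b b, h.WFF,
    ps_sq h.xx, ps_ph]
  have hX := h.xx.ne'
  have hW := W0_ne h.fr
  field_simp
  ring

end PW

end

end Crest.Agent.R235.SwcPWD_277
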