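import Mathlib
import Crest.Agent.R240.Lin3
import Crest.Agent.R235.IndTriB_451

/-!
Row 235 (S0364), PACKAGE SWC, helper305: leaf PWD, part a (pointwise algebra: the complex
structure of `F = ∑ X_k E_k` is `∑ X_k I_k / |X|`; computations in an adapted frame).
-/

set_option autoImplicit false
set_option maxSynthPendingDepth 3

open Set Function

namespace Crest.Agent.R235.SwcPWD_305

open Crest.Agent.R240 Crest.Agent.R235.IndTri_451

noncomputable section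

/-! ### the complex structure -/

/-- `∑ c_k I_k`. -/
def BB (E : Fin 3 → Bil) (c : Fin 3 → ℝ) (v : E4) : E4 :=
  c 0 • jj (E 1) (E 2) v + c 1 • jj (E 2) (E 0) v + c 2 • jj (E 0) (E 1) v

/-- cross product. -/
def cr (a b : Fin 3 → ℝ) : Fin 3 → ℝ :=
  ![a 1 * b 2 - a 2 * b 1, a 2 * b 0 - a 0 * b 2, a 0 * b 1 - a 1 * b 0]

section
variable {k : ℝ} {E : Fin 3 → Bil}

theorem BB_mul (h : ON3 k (E 0) (E 1) (E 2)) (a b : Fin 3 → ℝ) (v : E4) :
    BB E a (BB E b v) = - (a 0 * b 0 + a 1 * b 1 + a 2 * b 2) • v + BB E (cr a b) v := by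
  unfold BB cr
  simp only [map_add, map_smul, h.sq, h.rot.sq, h.rot.rot.sq, h.mul, h.rot.mul, h.rot.rot.mul,
    h.mul', h.rot.mul', h.rot.rot.mul', Matrix.cons_val_zero, Matrix.cons_val_one, Matrix.cons_val]
  module

theorem BB_neg (E : Fin 3 → Bil) (c : Fin 3 → ℝ) (v : E4) : BB E c (-v) = - BB E c v := by
  unfold BB
  simp only [map_neg]
  module

theorem BB_add (E : Fin 3 → Bil) (c : Fin 3 → ℝ) (u v : E4) :
    BB E c (u + v) = BB E c u + BB E c v := by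
  unfold BB
  simp only [map_add]
  module

theorem BB_smul (E : Fin 3 → Bil) (c : Fin 3 → ℝ) (r : ℝ) (v : E4) :
    BB E c (r • v) = r • BB E c v := by
  unfold BB
  simp only [map_smul]
  module

theorem BB_sub (E : Fin 3 → Bil) (c : Fin 3 → ℝ) (u v : E4) :
    BB E c (u - v) = BB E c u - BB E c v := by
  unfold BB
  simp only [map_sub]
  module

theorem sum_apply3 (c : Fin 3 → ℝ) (E : Fin 3 → Bil) (u v : E4) :
    (∑ i, c i • E i) u v = c 0 * E 0 u v + c 1 * E 1 u v + c 2 * E 2 u v := by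
  rw [Fin.sum_univ_three]
  rfl

/-- `E_c (u, v) = g (B_c u, v)`. -/
theorem sum_eq_g (h : ON3 k (E 0) (E 1) (E 2)) (c : Fin 3 → ℝ) (u v : E4) :
    (∑ i, c i • E i) u v = gf (E 0) (E 1) (E 2) (BB E c u) v := by
  rw [sum_apply3]
  unfold BB
  simp only [map_add, map_smul, add_apply, smul_apply, smul_eq_mul]
  rw [← h.a_eq, ← h.gf_rot, ← h.rot.a_eq, ← h.gf_rot2, ← h.rot.rot.a_eq]

theorem J_eq (h : ON3 k (E 0) (E 1) (E 2)) {X : Fin 3 → ℝ} {F : Bil} (hF : F = ∑ i, X i • E i)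
    {J : E4 →L[ℝ] E4} (hJ : ∀ v, J (J v) = -v) (hinv : ∀ u v, F (J u) (J v) = F u v)
    (hpos : ∀ v, v ≠ 0 → 0 < F v (J v))
    (hanti : ∀ c : Fin 3 → ℝ, c 0 * X 0 + c 1 * X 1 + c 2 * X 2 = 0 →
      ∀ u v, (∑ i, c i • E i) (J u) (J v) = - (∑ i, c i • E i) u v)
    (hg : ∀ v, v ≠ 0 → 0 < gf (E 0) (E 1) (E 2) v v) :
    0 < X 0 ^ 2 + X 1 ^ 2 + X 2 ^ 2 ∧
      ∀ v, √(X 0 ^ 2 + X 1 ^ 2 + X 2 ^ 2) • J v = BB E X v := by
  set R := X 0 ^ 2 + X 1 ^ 2 + X 2 ^ 2 with hR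
  -- the anticommutation
  have hac : ∀ c : Fin 3 → ℝ, c 0 * X 0 + c 1 * X 1 + c 2 * X 2 = 0 →
      ∀ u, J (BB E c u) = - BB E c (J u) := by
    intro c hc u
    have hF1 : ∀ u v, F (BB E c u) v = (∑ i, cr X c i • E i) u v := by
      intro u v
      rw [hF, sum_eq_g h, sum_eq_g h, BB_mul h]
      have : X 0 * c 0 + X 1 * c 1 + X 2 * c 2 = 0 := by linarith
      rw [this, neg_zero, zero_smul, zero_add]
    have hcr : cr X c 0 * X 0 + cr X c 1 * X 1 + cr X c 2 * X 2 = 0 := by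
      unfold cr
      simp only [Matrix.cons_val_zero, Matrix.cons_val_one, Matrix.cons_val]
      ring
    have hx : ∀ v, F (BB E c (J u) + J (BB E c u)) (J v) = 0 := by
      intro v
      rw [map_add, add_apply, hinv, hF1, hF1, hanti _ hcr]
      ring
    by_contra hne
    have h0 : BB E c (J u) + J (BB E c u) ≠ 0 := by
      intro h0
      apply hne
      rw [eq_neg_iff_add_eq_zero, add_comm]
      exact h0
    have := hpos _ h0
    rw [hx] at this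
    exact lt_irrefl _ this
  -- positivity of R
  have hR0 : 0 < R := by
    have h0 : 0 ≤ R := by rw [hR]; positivity
    rcases h0.eq_or_lt with h1 | h1
    · exfalso
      have hX0 : X 0 = 0 := by nlinarith [sq_nonneg (X 0), sq_nonneg (X 1), sq_nonneg (X 2)]
      have hX1 : X 1 = 0 := by nlinarith [sq_nonneg (X 0), sq_nonneg (X 1), sq_nonneg (X 2)]
      have hX2 : X 2 = 0 := by nlinarith [sq_nonneg (X 0), sq_nonneg (X 1), sq_nonneg (X 2)]
      have he : (ee 0 : E4) ≠ 0 := by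
        intro h0
        have := congrArg (fun z : E4 => z 0) h0
        simp at this
      have h2 := hpos _ he
      rw [hF, sum_apply3, hX0, hX1, hX2] at h2
      simp at h2
    · exact h1
  -- J commutes with S
  have hcomm : ∀ u, J (BB E X u) = BB E X (J u) := by
    intro u
    have hc2 : ∀ c d : Fin 3 → ℝ, c 0 * X 0 + c 1 * X 1 + c 2 * X 2 = 0 →
        d 0 * X 0 + d 1 * X 1 + d 2 * X 2 = 0 →
        J (BB E c (BB E d u)) = BB E c (BB E d (J u)) := by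
      intro c d hc hd
      rw [hac c hc, hac d hd, BB_neg, neg_neg]
    have hS : ∀ v, BB E ![0, X 2, - X 1] (BB E (cr X ![0, X 2, - X 1]) v) +
        BB E ![- X 2, 0, X 0] (BB E (cr X ![- X 2, 0, X 0]) v) +
        BB E ![X 1, - X 0, 0] (BB E (cr X ![X 1, - X 0, 0]) v) = (2 * R) • BB E X v := by
      intro v
      rw [BB_mul h, BB_mul h, BB_mul h]
      unfold BB cr
      simp only [Matrix.cons_val_zero, Matrix.cons_val_one, Matrix.cons_val]
      rw [hR]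
      module
    have h1 := hc2 ![0, X 2, - X 1] (cr X ![0, X 2, - X 1])
      (by simp only [Matrix.cons_val_zero, Matrix.cons_val_one, Matrix.cons_val]; ring)
      (by unfold cr; simp only [Matrix.cons_val_zero, Matrix.cons_val_one, Matrix.cons_val]; ring)
    have h2 := hc2 ![- X 2, 0, X 0] (cr X ![- X 2, 0, X 0])
      (by simp only [Matrix.cons_val_zero, Matrix.cons_val_one, Matrix.cons_val]; ring)
      (by unfold cr; simp only [Matrix.cons_val_zero, Matrix.cons_val_one, Matrix.cons_val]; ring)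
    have h3 := hc2 ![X 1, - X 0, 0] (cr X ![X 1, - X 0, 0])
      (by simp only [Matrix.cons_val_zero, Matrix.cons_val_one, Matrix.cons_val]; ring)
      (by unfold cr; simp only [Matrix.cons_val_zero, Matrix.cons_val_one, Matrix.cons_val]; ring)
    have h4 : J ((2 * R) • BB E X u) = (2 * R) • BB E X (J u) := by
      rw [← hS, ← hS, map_add, map_add, h1, h2, h3]
    rw [map_smul] at h4
    exact smul_right_injective E4 (by positivity : (2 * R) ≠ 0) h4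
  refine ⟨hR0, fun v => ?_⟩
  have hρ : 0 < √R := Real.sqrt_pos.2 hR0
  have hρ2 : √R * √R = R := Real.mul_self_sqrt hR0.le
  have hKK : ∀ v, BB E X (BB E X v) = - R • v := by
    intro v
    rw [BB_mul h]
    have h1 : BB E (cr X X) v = 0 := by
      unfold BB cr
      simp only [Matrix.cons_val_zero, Matrix.cons_val_one, Matrix.cons_val]
      module
    rw [h1, add_zero, hR]
    congr 1
    ring
  by_contra hne
  set y := √R • J v - BB E X v with hy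
  have hy0 : y ≠ 0 := sub_ne_zero.2 hne
  have hKy : BB E X y = - √R • J y := by
    have h9 : R • v = (√R * √R) • v := by rw [hρ2]
    rw [hy, BB_sub, BB_smul, hKK, map_sub, map_smul, hJ, hcomm, neg_smul, h9]
    module
  have h1 : F y (BB E X y) = gf (E 0) (E 1) (E 2) (BB E X y) (BB E X y) := by
    conv_lhs => rw [hF]
    rw [sum_eq_g h]
  have h2 : BB E X y ≠ 0 := by
    intro h0
    have h3 := hKK y
    rw [h0] at h3
    have h4 : BB E X (0 : E4) = 0 := by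
      unfold BB; simp only [map_zero, smul_zero, add_zero]
    rw [h4] at h3
    have h5 := smul_eq_zero.1 h3.symm
    rcases h5 with h5 | h5
    · linarith
    · exact hy0 h5
  have h3 := hg _ h2
  rw [← h1, hKy, map_smul, smul_eq_mul] at h3
  have h4 := hpos _ hy0
  nlinarith [mul_pos hρ h4]

end

/-! ### computations in an adapted frame -/

/-- the matrix of `∑ n_k I_k` in an adapted frame. -/
def jn (n : Fin 3 → ℝ) (r : E4) : E4 := WithLp.toLp 2 ![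
  - n 0 * r 1 - n 1 * r 2 - n 2 * r 3, n 0 * r 0 + n 1 * r 3 - n 2 * r 2,
  - n 0 * r 3 + n 1 * r 0 + n 2 * r 1, n 0 * r 2 - n 1 * r 1 + n 2 * r 0]

theorem jn_0 (n : Fin 3 → ℝ) (r : E4) : (jn n r) 0 = - n 0 * r 1 - n 1 * r 2 - n 2 * r 3 := rfl
theorem jn_1 (n : Fin 3 → ℝ) (r : E4) : (jn n r) 1 = n 0 * r 0 + n 1 * r 3 - n 2 * r 2 := rfl
theorem jn_2 (n : Fin 3 → ℝ) (r : E4) : (jn n r) 2 = - n 0 * r 3 + n 1 * r 0 + n 2 * r 1 := rfl
theorem jn_3 (n : Fin 3 → ℝ) (r : E4) : (jn n r) 3 = n 0 * r 2 - n 1 * r 1 + n 2 * r 0 := rfl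

section frame
variable {g : Bil} {E : Fin 3 → Bil} {I : Fin 3 → E4 →L[ℝ] E4} {T : E4 →L[ℝ] E4}

theorem J_T (hT : Fr g E I T) {n : Fin 3 → ℝ} {J : E4 →L[ℝ] E4}
    (hJ : ∀ v, J v = n 0 • I 0 v + n 1 • I 1 v + n 2 • I 2 v) (r : E4) :
    J (T r) = T (jn n r) := by
  rw [hJ, hT.I0, hT.I1, hT.I2, ← map_smul, ← map_smul, ← map_smul, ← map_add, ← map_add]
  congr 1
  ext i
  fin_cases i
  · show n 0 * (- r 1) + n 1 * (- r 2) + n 2 * (- r 3) = - n 0 * r 1 - n 1 * r 2 - n 2 * r 3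
    ring
  · show n 0 * (r 0) + n 1 * (r 3) + n 2 * (- r 2) = n 0 * r 0 + n 1 * r 3 - n 2 * r 2
    ring
  · show n 0 * (- r 3) + n 1 * (r 0) + n 2 * (r 1) = - n 0 * r 3 + n 1 * r 0 + n 2 * r 1
    ring
  · show n 0 * (r 2) + n 1 * (- r 1) + n 2 * (r 0) = n 0 * r 2 - n 1 * r 1 + n 2 * r 0
    ring

theorem ent_T0 (hT : Fr g E I T) (i j : Fin 4) : ent (pull T (E 0)) i j =
    ((ee i : E4) 0 * (ee j : E4) 1 - (ee i : E4) 1 * (ee j : E4) 0) +
      ((ee i : E4) 2 * (ee j : E4) 3 - (ee i : E4) 3 * (ee j : E4) 2) := by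
  unfold ent
  rw [pull_apply, hT.e0]

theorem ent_T1 (hT : Fr g E I T) (i j : Fin 4) : ent (pull T (E 1)) i j =
    ((ee i : E4) 0 * (ee j : E4) 2 - (ee i : E4) 2 * (ee j : E4) 0) -
      ((ee i : E4) 1 * (ee j : E4) 3 - (ee i : E4) 3 * (ee j : E4) 1) := by
  unfold ent
  rw [pull_apply, hT.e1]

theorem ent_T2 (hT : Fr g E I T) (i j : Fin 4) : ent (pull T (E 2)) i j =
    ((ee i : E4) 0 * (ee j : E4) 3 - (ee i : E4) 3 * (ee j : E4) 0) +
      ((ee i : E4) 1 * (ee j : E4) 2 - (ee i : E4) 2 * (ee j : E4) 1) := by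
  unfold ent
  rw [pull_apply, hT.e2]

theorem W_T0 (hT : Fr g E I T) (b : Bil) : W (pull T (E 0)) b = ent b 0 1 + ent b 2 3 := by
  unfold W
  simp only [ent_T0 hT, ee_apply]
  simp
  ring

theorem W_T1 (hT : Fr g E I T) (b : Bil) : W (pull T (E 1)) b = ent b 0 2 - ent b 1 3 := by
  unfold W
  simp only [ent_T1 hT, ee_apply]
  simp
  ring

theorem W_T2 (hT : Fr g E I T) (b : Bil) : W (pull T (E 2)) b = ent b 0 3 + ent b 1 2 := by
  unfold W
  simp only [ent_T2 hT, ee_apply]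
  simp
  ring

/-- entries of the anti-invariant part in an adapted frame. -/
theorem ent_antip (hT : Fr g E I T) {n : Fin 3 → ℝ} (hn : n 0 ^ 2 + n 1 ^ 2 + n 2 ^ 2 = 1)
    {J : E4 →L[ℝ] E4} (hJ : ∀ v, J v = n 0 • I 0 v + n 1 • I 1 v + n 2 • I 2 v)
    {b : Bil} (hb : Alt b) {w : Fin 3 → ℝ}
    (hw0 : ent (pull T b) 0 1 + ent (pull T b) 2 3 = w 0)
    (hw1 : ent (pull T b) 0 2 - ent (pull T b) 1 3 = w 1)
    (hw2 : ent (pull T b) 0 3 + ent (pull T b) 1 2 = w 2) :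
    ent (pull T (antip J b)) 0 1 = (w 0 - (n 0 * w 0 + n 1 * w 1 + n 2 * w 2) * n 0) / 2 ∧
    ent (pull T (antip J b)) 2 3 = (w 0 - (n 0 * w 0 + n 1 * w 1 + n 2 * w 2) * n 0) / 2 ∧
    ent (pull T (antip J b)) 0 2 = (w 1 - (n 0 * w 0 + n 1 * w 1 + n 2 * w 2) * n 1) / 2 ∧
    ent (pull T (antip J b)) 1 3 = - (w 1 - (n 0 * w 0 + n 1 * w 1 + n 2 * w 2) * n 1) / 2 ∧
    ent (pull T (antip J b)) 0 3 = (w 2 - (n 0 * w 0 + n 1 * w 1 + n 2 * w 2) * n 2) / 2 ∧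
    ent (pull T (antip J b)) 1 2 = (w 2 - (n 0 * w 0 + n 1 * w 1 + n 2 * w 2) * n 2) / 2 := by
  have key : ∀ i j, ent (pull T (antip J b)) i j =
      (ent (pull T b) i j - pull T b (jn n (ee i)) (jn n (ee j))) / 2 := by
    intro i j
    unfold ent
    rw [pull_apply, antip_apply, J_T hT hJ, J_T hT hJ, pull_apply, pull_apply]
  have hbT : Alt (pull T b) := hb.pull T
  rw [← hw0, ← hw1, ← hw2]
  refine ⟨?_, ?_, ?_, ?_, ?_, ?_⟩
  · rw [key, alt_expand hbT]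
    simp only [jn_0, jn_1, jn_2, jn_3, ee_apply]
    simp
    first
    | linear_combination (ent (pull T b) 2 3 / 2) * hn
    | linear_combination (ent (pull T b) 2 3) * hn
  · rw [key, alt_expand hbT]
    simp only [jn_0, jn_1, jn_2, jn_3, ee_apply]
    simp
    first
    | linear_combination (ent (pull T b) 0 1 / 2) * hn
    | linear_combination (ent (pull T b) 0 1) * hn
  · rw [key, alt_expand hbT]
    simp only [jn_0, jn_1, jn_2, jn_3, ee_apply]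
    simp
    first
    | linear_combination (- ent (pull T b) 1 3 / 2) * hn
    | linear_combination (- ent (pull T b) 1 3) * hn
  · rw [key, alt_expand hbT]
    simp only [jn_0, jn_1, jn_2, jn_3, ee_apply]
    simp
    first
    | linear_combination (- ent (pull T b) 0 2 / 2) * hn
    | linear_combination (- ent (pull T b) 0 2) * hn
  · rw [key, alt_expand hbT]
    simp only [jn_0, jn_1, jn_2, jn_3, ee_apply]
    simp
    first
    | linear_combination (ent (pull T b) 1 2 / 2) * hn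
    | linear_combination (ent (pull T b) 1 2) * hn
  · rw [key, alt_expand hbT]
    simp only [jn_0, jn_1, jn_2, jn_3, ee_apply]
    simp
    first
    | linear_combination (ent (pull T b) 0 3 / 2) * hn
    | linear_combination (ent (pull T b) 0 3) * hn

/-- `k W(b'', b'') = |w|² - (n · w)²`, `w_k = W(E_k, b)`. -/
theorem W_antip (hT : Fr g E I T) (hE : ∀ i, Alt (E i)) {n : Fin 3 → ℝ}
    (hn : n 0 ^ 2 + n 1 ^ 2 + n 2 ^ 2 = 1)
    {J : E4 →L[ℝ] E4} (hJ : ∀ v, J v = n 0 • I 0 v + n 1 • I 1 v + n 2 • I 2 v)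
    {b : Bil} (hb : Alt b) :
    W (E 0) (E 0) * W (antip J b) (antip J b) =
      W (E 0) b ^ 2 + W (E 1) b ^ 2 + W (E 2) b ^ 2 -
        (n 0 * W (E 0) b + n 1 * W (E 1) b + n 2 * W (E 2) b) ^ 2 := by
  set δ := LinearMap.det (T : E4 →ₗ[ℝ] E4) with hδ
  have hd : W (E 0) (E 0) * δ = 2 := hT.det
  have hδ0 : δ ≠ 0 := hT.det_ne
  have hA : Alt (antip J b) := by
    intro v
    rw [antip_apply, hb, hb]
    ring
  have h0 : ent (pull T b) 0 1 + ent (pull T b) 2 3 = ![δ * W (E 0) b, δ * W (E 1) b, δ * W (E 2) b] 0 := by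
    rw [← W_T0 hT, W_pull (hE 0) hb]
    rfl
  have h1 : ent (pull T b) 0 2 - ent (pull T b) 1 3 = ![δ * W (E 0) b, δ * W (E 1) b, δ * W (E 2) b] 1 := by
    rw [← W_T1 hT, W_pull (hE 1) hb]
    rfl
  have h2 : ent (pull T b) 0 3 + ent (pull T b) 1 2 = ![δ * W (E 0) b, δ * W (E 1) b, δ * W (E 2) b] 2 := by
    rw [← W_T2 hT, W_pull (hE 2) hb]
    rfl
  obtain ⟨a1, a2, a3, a4, a5, a6⟩ := ent_antip hT hn hJ hb h0 h1 h2
  have hW : δ * W (antip J b) (antip J b) = W (pull T (antip J b)) (pull T (antip J b)) :=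
    (W_pull hA hA T).symm
  have hW1 : W (pull T (antip J b)) (pull T (antip J b)) =
      2 * (ent (pull T (antip J b)) 0 1 * ent (pull T (antip J b)) 2 3 -
        ent (pull T (antip J b)) 0 2 * ent (pull T (antip J b)) 1 3 +
        ent (pull T (antip J b)) 0 3 * ent (pull T (antip J b)) 1 2) := W_self _
  have hW2 : δ * W (antip J b) (antip J b) = δ ^ 2 / 2 * (W (E 0) b ^ 2 + W (E 1) b ^ 2 + W (E 2) b ^ 2 -
        (n 0 * W (E 0) b + n 1 * W (E 1) b + n 2 * W (E 2) b) ^ 2) := by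
    rw [hW, hW1, a1, a2, a3, a4, a5, a6]
    simp only [Matrix.cons_val_zero, Matrix.cons_val_one, Matrix.cons_val]
    generalize W (E 0) b = p0
    generalize W (E 1) b = p1
    generalize W (E 2) b = p2
    linear_combination (δ ^ 2 / 2 * (n 0 * p0 + n 1 * p1 + n 2 * p2) ^ 2) * hn
  have h3 : δ * (δ * (W (E 0) (E 0) * W (antip J b) (antip J b))) = δ * (δ * (W (E 0) b ^ 2 + W (E 1) b ^ 2 + W (E 2) b ^ 2 -
        (n 0 * W (E 0) b + n 1 * W (E 1) b + n 2 * W (E 2) b) ^ 2)) := by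
    have : δ * (δ * (W (E 0) (E 0) * W (antip J b) (antip J b))) =
      (W (E 0) (E 0) * δ) * (δ * W (antip J b) (antip J b)) := by ring
    rw [this, hd, hW2]
    ring
  exact mul_left_cancel₀ hδ0 (mul_left_cancel₀ hδ0 h3)

/-- `W(E_k, c ∧ Jc) = n_k |c|²` in an adapted frame. -/
theorem W_wed (hT : Fr g E I T) (hE : ∀ i, Alt (E i)) {n : Fin 3 → ℝ}
    {J : E4 →L[ℝ] E4} (hJ : ∀ v, J v = n 0 • I 0 v + n 1 • I 1 v + n 2 • I 2 v)
    (c : E4 →L[ℝ] ℝ) {N : ℝ}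
    (hN : N = c (T (ee 0)) ^ 2 + c (T (ee 1)) ^ 2 + c (T (ee 2)) ^ 2 + c (T (ee 3)) ^ 2) :
    LinearMap.det (T : E4 →ₗ[ℝ] E4) * W (E 0) (wed c (Jc J c)) = n 0 * N ∧
    LinearMap.det (T : E4 →ₗ[ℝ] E4) * W (E 1) (wed c (Jc J c)) = n 1 * N ∧
    LinearMap.det (T : E4 →ₗ[ℝ] E4) * W (E 2) (wed c (Jc J c)) = n 2 * N := by
  have hl : ∀ r : E4, c (T r) = r 0 * c (T (ee 0)) + r 1 * c (T (ee 1)) + r 2 * c (T (ee 2)) +
      r 3 * c (T (ee 3)) := fun r => lin_expand (c.comp T) r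
  have key : ∀ i j, ent (pull T (wed c (Jc J c))) i j =
      - (c (T (ee i)) * c (T (jn n (ee j)))) + c (T (jn n (ee i))) * c (T (ee j)) := by
    intro i j
    unfold ent
    rw [pull_apply, wed_apply, Jc_apply, Jc_apply, J_T hT hJ, J_T hT hJ]
    ring
  have hj : ∀ i, c (T (jn n (ee i))) = (jn n (ee i)) 0 * c (T (ee 0)) +
      (jn n (ee i)) 1 * c (T (ee 1)) + (jn n (ee i)) 2 * c (T (ee 2)) +
      (jn n (ee i)) 3 * c (T (ee 3)) := fun i => hl _
  rw [hN]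
  refine ⟨?_, ?_, ?_⟩
  · rw [← W_pull (hE 0) (wed_alt _ _), W_T0 hT, key, key, hj, hj, hj, hj]
    simp only [jn_0, jn_1, jn_2, jn_3, ee_apply]
    simp
    ring
  · rw [← W_pull (hE 1) (wed_alt _ _), W_T1 hT, key, key, hj, hj, hj, hj]
    simp only [jn_0, jn_1, jn_2, jn_3, ee_apply]
    simp
    ring
  · rw [← W_pull (hE 2) (wed_alt _ _), W_T2 hT, key, key, hj, hj, hj, hj]
    simp only [jn_0, jn_1, jn_2, jn_3, ee_apply]
    simp
    ring

/-- the test vector. -/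
theorem norm_le (hT : Fr g E I T) (c : E4 →L[ℝ] ℝ) {N m : ℝ}
    (hN : N = c (T (ee 0)) ^ 2 + c (T (ee 1)) ^ 2 + c (T (ee 2)) ^ 2 + c (T (ee 3)) ^ 2)
    (h : ∀ v, c v ^ 2 ≤ m * g v v) : N ≤ m := by
  have hl : ∀ r : E4, c (T r) = r 0 * c (T (ee 0)) + r 1 * c (T (ee 1)) + r 2 * c (T (ee 2)) +
      r 3 * c (T (ee 3)) := fun r => lin_expand (c.comp T) r
  have hN0 : 0 ≤ N := by rw [hN]; positivity
  rcases hN0.eq_or_lt with h0 | h0
  · have h1 := h (T (ee 0))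
    rw [hT.g] at h1
    simp only [ee_apply] at h1
    simp at h1
    rw [← h0]
    nlinarith [sq_nonneg (c (T (ee 0)))]
  · set r : E4 := WithLp.toLp 2 ![c (T (ee 0)), c (T (ee 1)), c (T (ee 2)), c (T (ee 3))] with hr
    have r0 : r 0 = c (T (ee 0)) := rfl
    have r1 : r 1 = c (T (ee 1)) := rfl
    have r2 : r 2 = c (T (ee 2)) := rfl
    have r3 : r 3 = c (T (ee 3)) := rfl
    have h1 := h (T r)
    rw [hT.g, hl r, r0, r1, r2, r3] at h1
    have h2 : c (T (ee 0)) * c (T (ee 0)) + c (T (ee 1)) * c (T (ee 1)) +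
        c (T (ee 2)) * c (T (ee 2)) + c (T (ee 3)) * c (T (ee 3)) = N := by rw [hN]; ring
    rw [h2] at h1
    nlinarith

end frame

/-! ### the dictionary at a point -/

section dict
variable {k : ℝ} {g : Bil} {E : Fin 3 → Bil} {I : Fin 3 → E4 →L[ℝ] E4} {T : E4 →L[ℝ] E4}
  {X : Fin 3 → ℝ} {J : E4 →L[ℝ] E4} {F : Bil} {b : Bil}

theorem W_sum3 (X : Fin 3 → ℝ) (E : Fin 3 → Bil) (b : Bil) :
    W (∑ i, X i • E i) b = X 0 * W (E 0) b + X 1 * W (E 1) b + X 2 * W (E 2) b := by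
  rw [Fin.sum_univ_three, W_add_left, W_add_left, W_smul_left, W_smul_left, W_smul_left]

theorem W_FF (h : ON3 k (E 0) (E 1) (E 2)) (hF : F = ∑ i, X i • E i) :
    W F F = (X 0 ^ 2 + X 1 ^ 2 + X 2 ^ 2) * k := by
  rw [hF, W_sum3, W_comm (E 0), W_comm (E 1), W_comm (E 2), W_sum3, W_sum3, W_sum3, h.aa, h.bb,
    h.cc, h.ab, h.bc, h.ca, W_comm (E 1) (E 0), W_comm (E 2) (E 1), W_comm (E 0) (E 2), h.ab, h.bc,
    h.ca]
  ring

theorem q_bF (h : ON3 k (E 0) (E 1) (E 2)) (hF : F = ∑ i, X i • E i)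
    (hR : 0 < X 0 ^ 2 + X 1 ^ 2 + X 2 ^ 2) (b : Bil) :
    q F b F = (W (E 0) b / k * X 0 + W (E 1) b / k * X 1 + W (E 2) b / k * X 2) /
      (X 0 ^ 2 + X 1 ^ 2 + X 2 ^ 2) := by
  unfold q
  have h1 : W b F = X 0 * W (E 0) b + X 1 * W (E 1) b + X 2 * W (E 2) b := by
    rw [hF, W_comm, W_sum3]
  rw [W_FF h hF, h1]
  have hk := h.k_ne
  have hR' := hR.ne'
  field_simp

theorem q_antip (h : ON3 k (E 0) (E 1) (E 2)) (hT : Fr g E I T) (hF : F = ∑ i, X i • E i)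
    (hR : 0 < X 0 ^ 2 + X 1 ^ 2 + X 2 ^ 2)
    (hJ : ∀ v, √(X 0 ^ 2 + X 1 ^ 2 + X 2 ^ 2) • J v = X 0 • I 0 v + X 1 • I 1 v + X 2 • I 2 v)
    (hb : Alt b) :
    q F (antip J b) (antip J b) = ((W (E 0) b / k) ^ 2 + (W (E 1) b / k) ^ 2 +
      (W (E 2) b / k) ^ 2 - (W (E 0) b / k * X 0 + W (E 1) b / k * X 1 +
        W (E 2) b / k * X 2) ^ 2 / (X 0 ^ 2 + X 1 ^ 2 + X 2 ^ 2)) /
      (X 0 ^ 2 + X 1 ^ 2 + X 2 ^ 2) := by
  have hk := h.k_ne
  have hR' := hR.ne'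
  set R := X 0 ^ 2 + X 1 ^ 2 + X 2 ^ 2 with hRd
  have hρ : 0 < √R := Real.sqrt_pos.2 hR
  have hρ2 : √R ^ 2 = R := Real.sq_sqrt hR.le
  have hE : ∀ i, Alt (E i) := by
    intro i
    fin_cases i
    · exact h.alt_a
    · exact h.alt_b
    · exact h.alt_c
  have hJ' : ∀ v, J v = (X 0 / √R) • I 0 v + (X 1 / √R) • I 1 v + (X 2 / √R) • I 2 v := by
    intro v
    have h1 : J v = (√R)⁻¹ • (√R • J v) := by rw [smul_smul, inv_mul_cancel₀ hρ.ne', one_smul]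
    rw [h1, hJ]
    simp only [smul_add, smul_smul, div_eq_inv_mul]
  have hn : (X 0 / √R) ^ 2 + (X 1 / √R) ^ 2 + (X 2 / √R) ^ 2 = 1 := by
    rw [div_pow, div_pow, div_pow, hρ2, ← add_div, ← add_div, ← hRd, div_self hR']
  have h2 := W_antip (n := fun i => X i / √R) hT hE hn hJ' hb
  rw [h.aa] at h2
  unfold q
  rw [W_FF h hF, ← hRd]
  have h3 : W (antip J b) (antip J b) = (W (E 0) b ^ 2 + W (E 1) b ^ 2 + W (E 2) b ^ 2 -
      (X 0 / √R * W (E 0) b + X 1 / √R * W (E 1) b + X 2 / √R * W (E 2) b) ^ 2) / k := by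
    rw [eq_div_iff hk, mul_comm]
    exact h2
  have h4 : (X 0 / √R * W (E 0) b + X 1 / √R * W (E 1) b + X 2 / √R * W (E 2) b) ^ 2 =
      (W (E 0) b * X 0 + W (E 1) b * X 1 + W (E 2) b * X 2) ^ 2 / R := by
    have : X 0 / √R * W (E 0) b + X 1 / √R * W (E 1) b + X 2 / √R * W (E 2) b =
      (W (E 0) b * X 0 + W (E 1) b * X 1 + W (E 2) b * X 2) / √R := by ring
    rw [this, div_pow, hρ2]
  rw [h3, h4]
  clear_value R
  field_simp

theorem n1_eq (h : ON3 k (E 0) (E 1) (E 2)) (hT : Fr g E I T) (hF : F = ∑ i, X i • E i)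
    (hR : 0 < X 0 ^ 2 + X 1 ^ 2 + X 2 ^ 2)
    (hJ : ∀ v, √(X 0 ^ 2 + X 1 ^ 2 + X 2 ^ 2) • J v = X 0 • I 0 v + X 1 • I 1 v + X 2 • I 2 v)
    (c : E4 →L[ℝ] ℝ) :
    2 * q F F (wed c (Jc J c)) * √(X 0 ^ 2 + X 1 ^ 2 + X 2 ^ 2) =
      c (T (ee 0)) ^ 2 + c (T (ee 1)) ^ 2 + c (T (ee 2)) ^ 2 + c (T (ee 3)) ^ 2 := by
  have hk := h.k_ne
  have hR' := hR.ne'
  set R := X 0 ^ 2 + X 1 ^ 2 + X 2 ^ 2 with hRd
  have hρ : 0 < √R := Real.sqrt_pos.2 hR
  have hρ2 : √R ^ 2 = R := Real.sq_sqrt hR.le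
  have hE : ∀ i, Alt (E i) := by
    intro i
    fin_cases i
    · exact h.alt_a
    · exact h.alt_b
    · exact h.alt_c
  have hJ' : ∀ v, J v = (X 0 / √R) • I 0 v + (X 1 / √R) • I 1 v + (X 2 / √R) • I 2 v := by
    intro v
    have h1 : J v = (√R)⁻¹ • (√R • J v) := by rw [smul_smul, inv_mul_cancel₀ hρ.ne', one_smul]
    rw [h1, hJ]
    simp only [smul_add, smul_smul, div_eq_inv_mul]
  set N := c (T (ee 0)) ^ 2 + c (T (ee 1)) ^ 2 + c (T (ee 2)) ^ 2 + c (T (ee 3)) ^ 2 with hN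
  obtain ⟨h0, h1, h2⟩ := W_wed (n := fun i => X i / √R) hT hE hJ' c hN
  set δ := LinearMap.det (T : E4 →ₗ[ℝ] E4) with hδ
  have hd : k * δ = 2 := by rw [← h.aa]; exact hT.det
  have hδ0 : δ ≠ 0 := hT.det_ne
  have h3 : δ * W F (wed c (Jc J c)) = √R * N := by
    have : δ * W F (wed c (Jc J c)) = X 0 * (δ * W (E 0) (wed c (Jc J c))) +
      X 1 * (δ * W (E 1) (wed c (Jc J c))) + X 2 * (δ * W (E 2) (wed c (Jc J c))) := by
      rw [hF, W_sum3]; ring
    rw [this, h0, h1, h2]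
    have h5 : X 0 * (X 0 / √R * N) + X 1 * (X 1 / √R * N) + X 2 * (X 2 / √R * N) =
      (X 0 ^ 2 + X 1 ^ 2 + X 2 ^ 2) / √R * N := by ring
    show X 0 * (X 0 / √R * N) + X 1 * (X 1 / √R * N) + X 2 * (X 2 / √R * N) = _
    rw [h5, ← hRd]
    congr 1
    rw [div_eq_iff hρ.ne', ← sq, hρ2]
  unfold q
  rw [W_FF h hF, ← hRd]
  have h6 : W F (wed c (Jc J c)) = √R * N / δ := by rw [eq_div_iff hδ0, mul_comm]; exact h3
  have h7 : k = 2 / δ := by rw [eq_div_iff hδ0]; exact hd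
  rw [h6, h7]
  have h8 : 2 * (√R * N / δ / (R * (2 / δ))) * √R = √R ^ 2 * N / R := by
    field_simp
  rw [h8, hρ2, mul_div_assoc, mul_comm, div_mul_cancel₀ _ hR']

end dict

end

end Crest.Agent.R235.SwcPWD_305
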