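import Crest.Agent.R235.SwcVs2_34
import Crest.Agent.R235.DCMan_358
import Crest.Agent.R240.En4G

/-!
Row 235 (S0364), SWC-AN (helper34): positivity, anti-invariance and domination for vorticity
sequences (`VS`), from the div-curl theorem of helper358 (`DIVCURL`).  Only `L¹` bounds of `j`.
-/

set_option autoImplicit false
set_option maxSynthPendingDepth 3
set_option linter.unusedSectionVars false

open Set Function Filter MeasureTheory Metric
open scoped Manifold ContDiff Topology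

universe u

namespace Crest.Agent.R235.SwcPos_34

open Crest.Agent.R240 Crest.Agent.R240.Ch Crest.Agent.R235
open Crest.Agent.R240.En4 Crest.Agent.R235.SwcAlg_34

noncomputable section

section pt

variable {J : E4 →L[ℝ] E4} {F : Bil} (hJ : ∀ v, J (J v) = -v) (hF : SPos J F)
include hJ hF

theorem invp_eq_prim {b : Bil} : invp J b = (q F b F) • F + prim J F b := by
  unfold prim
  ext u v
  simp only [add_apply, sub_apply, smul_apply, smul_eq_mul]
  ring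

theorem nsq_prim_eq {b : Bil} (hb : Alt b) :
    nsq J F (prim J F b) = q F b F ^ 2 - q F b b + nsq J F (antip J b) := by
  have h1 := q_tF_prim hJ hF hb (q F b F)
  rw [← invp_eq_prim hJ hF] at h1
  have h2 := q_split hJ hF hb hb
  have h3 := nsq_anti hJ hF (hb.antip J) (antip_anti hJ b)
  linarith

theorem nsq_ident {b : Bil} (hb : Alt b) :
    nsq J F b = 2 * q F b F ^ 2 - q F b b + 2 * nsq J F (antip J b) := by
  have h1 := nsq_split hJ hF hb
  have h2 := nsq_inv hJ hF (invp_inv hJ b)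
  have h3 := q_split hJ hF hb hb
  have h4 := nsq_anti hJ hF (hb.antip J) (antip_anti hJ b)
  rw [q_F_invp hJ hF hb] at h2
  linarith

theorem q_pos_pos {P R : Bil} (hP : Pos J P) (hR : Pos J R) : 0 ≤ q F P R := by
  obtain ⟨p1, p2⟩ := (pos_iff hJ hF hP.alt hP.inv).1 hP.nonneg
  obtain ⟨r1, r2⟩ := (pos_iff hJ hF hR.alt hR.inv).1 hR.nonneg
  have hp := nsq_prim_eq hJ hF hP.alt
  have hr := nsq_prim_eq hJ hF hR.alt
  have a1 : antip J P = 0 := antip_of_inv hP.inv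
  have a2 : antip J R = 0 := antip_of_inv hR.inv
  have n0 : nsq J F 0 = 0 := by
    have := nsq_anti hJ hF (b := 0) (fun v => rfl) (fun u v => by simp)
    rw [this, q_zero_left]
  rw [a1, n0, add_zero] at hp
  rw [a2, n0, add_zero] at hr
  have e1 : P = (q F P F) • F + prim J F P := by
    rw [← invp_eq_prim hJ hF, invp_of_inv hP.inv]
  have e2 : R = (q F R F) • F + prim J F R := by
    rw [← invp_eq_prim hJ hF, invp_of_inv hR.inv]
  have e3 : q F P R = q F P F * q F R F + q F (prim J F P) (prim J F R) := by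
    conv_lhs => rw [e1, e2]
    rw [q_add_left, q_add_right, q_add_right, q_smul_left, q_smul_left, q_smul_right, q_smul_right,
      q_F_F hJ hF, q_comm F F (prim J F R), q_prim_F hJ hF hP.alt, q_prim_F hJ hF hR.alt]
    ring
  have e4 := q_cs hJ hF (prim_alt hJ hF hP.alt) (prim_alt hJ hF hR.alt)
  have e5 : q F (prim J F P) (prim J F R) ^ 2 ≤ (q F P F * q F R F) ^ 2 := by
    refine e4.trans ?_
    rw [mul_pow]
    have h1 : nsq J F (prim J F P) ≤ q F P F ^ 2 := by linarith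
    have h2 : nsq J F (prim J F R) ≤ q F R F ^ 2 := by linarith
    exact mul_le_mul h1 h2 (nsq_nonneg hJ hF (prim_alt hJ hF hR.alt)) (sq_nonneg _)
  have e6 := abs_le_of_sq_le_sq e5 (mul_nonneg p1 r1)
  rw [e3]
  linarith [(abs_le.1 e6).1]

/-- lower bound of `q(b, c)` for `c ≥ 0`. -/
theorem q_lower {b c : Bil} (hb : Alt b) (hc : Pos J c) {s : ℝ} (hs : 0 ≤ s)
    (h : nsq J F (prim J F b) ≤ s ^ 2) : q F c F * (q F b F) - q F c F * s ≤ q F b c := by
  have h1 : Pos J (s • F + prim J F b) :=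
    ⟨(hF.alt.smul s).add (prim_alt hJ hF hb), fun u v => tF_prim_inv hJ hF b s u v,
      tF_prim_pos hJ hF hb hs h⟩
  have h2 := q_pos_pos hJ hF h1 hc
  rw [q_add_left, q_smul_left] at h2
  have h3 : q F b c = q F (invp J b) c := by
    rw [q_split hJ hF hb hc.alt, antip_of_inv hc.inv, invp_of_inv hc.inv, q_zero_right, add_zero]
  rw [h3, invp_eq_prim hJ hF, q_add_left, q_smul_left]
  rw [q_comm F F c] at *
  linarith

theorem q_near {b c : Bil} (hb : Alt b) (hc : Pos J c) {s : ℝ} (hs : 0 ≤ s)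
    (h : nsq J F (prim J F b) ≤ s ^ 2) : |q F b c - q F c F * q F b F| ≤ q F c F * s := by
  have h1 := q_lower hJ hF hb hc hs h
  have hb' : Alt (-b) := hb.neg
  have hn : nsq J F (prim J F (-b)) ≤ s ^ 2 := by
    rw [nsq_prim_eq hJ hF hb']
    rw [nsq_prim_eq hJ hF hb] at h
    have e1 : -b = (-1 : ℝ) • b := (neg_one_smul ℝ b).symm
    have e2 : antip J (-b) = (-1 : ℝ) • antip J b := by rw [e1, En4.antip_smul]
    have e3 : nsq J F (antip J (-b)) = nsq J F (antip J b) := by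
      rw [nsq_anti hJ hF (hb'.antip J) (antip_anti hJ _),
        nsq_anti hJ hF (hb.antip J) (antip_anti hJ _), e2, q_smul_left, q_smul_right]
      ring
    rw [e3, e1, q_smul_left, q_smul_left, q_smul_right]
    linarith
  have h2 := q_lower hJ hF hb' hc hs hn
  have e1 : -b = (-1 : ℝ) • b := (neg_one_smul ℝ b).symm
  rw [e1, q_smul_left, q_smul_left] at h2
  rw [abs_le]
  constructor <;> linarith

theorem nr_pos {P : Bil} (hP : Pos J P) : nr J F P ≤ 2 * q F P F := by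
  obtain ⟨p1, p2⟩ := (pos_iff hJ hF hP.alt hP.inv).1 hP.nonneg
  have h3 := nsq_inv hJ hF hP.inv
  refine Real.sqrt_le_iff.2 ⟨by linarith, ?_⟩
  rw [h3]
  nlinarith

theorem nr_F : nr J F F = 1 := by
  unfold nr
  rw [nsq_F hJ hF, Real.sqrt_one]

theorem nr_le_of_pos {P : Bil} (hP : Alt P) {e : ℝ} (h : Pos J (invp J P + e • F))
    (h2 : nr J F (antip J P) ≤ e) : nr J F P ≤ 2 * q F P F + 4 * e := by
  have he : 0 ≤ e := (Real.sqrt_nonneg _).trans h2
  have e1 : P = (invp J P + e • F) + ((-e) • F + antip J P) := by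
    have h0 : invp J P + antip J P = P := invp_add_antip J P
    conv_lhs => rw [← h0]
    ext u v
    simp only [add_apply, smul_apply, smul_eq_mul]
    ring
  have a1 : Alt ((-e) • F + antip J P) := (hF.alt.smul _).add (hP.antip J)
  have h3 := nr_add_le hJ hF h.alt a1
  rw [← e1] at h3
  have h4 := nr_add_le hJ hF (hF.alt.smul (-e)) (hP.antip J)
  rw [nr_smul, nr_F hJ hF, abs_neg, abs_of_nonneg he] at h4
  have h5 := nr_pos hJ hF h
  rw [q_add_left, q_smul_left, q_F_F hJ hF, q_F_invp hJ hF hP] at h5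
  linarith

end pt

section mfd

variable {M : Type u} [MetricSpace M] [CompactSpace M] [ChartedSpace E4 M]
  [IsManifold 𝓘(ℝ, E4) ∞ M] [MeasurableSpace M] [BorelSpace M]

/-- a vorticity sequence with Taubes' energy bounds. -/
structure VS (D : Dat M) (lam : ℝ) (r : ℕ → ℝ) (Φ : ℕ → X2 M) (a : ℕ → M → ℝ)
    (j : ℕ → F1 E4 M) (P T : ℕ → X2 M) : Prop where
  lam_pos : 0 < lam
  r_pos : ∀ n, 0 < r n
  r_lim : Tendsto r atTop atTop
  clΦ : ∀ n, Closed2 (Φ n : F2 E4 M)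
  sma : ∀ n, SmoothF E4 (a n)
  smj : ∀ n, Smooth1 (j n)
  /-- `T = Φ + dj` -/
  Tdj : ∀ n, (T n : F2 E4 M) = (Φ n : F2 E4 M) + dG (j n)
  /-- `T = aΦ + P` -/
  Tap : ∀ n x, at2 (T n : F2 E4 M) x =
    (a n x • at2 (Φ n : F2 E4 M) x + at2 (P n : F2 E4 M) x : Bil)
  l2 : ∃ C, ∀ n, ∫ x, nsqG D.J D.F (Φ n : F2 E4 M) x ∂D.μ ≤ C * r n
  e1 : Tendsto (fun n => (r n)⁻¹ *
    ∫ x, (qG D.F (Φ n : F2 E4 M) D.F x - lam * r n * a n x) ^ 2 ∂D.μ) atTop (𝓝 0)
  e2 : Tendsto (fun n => (r n)⁻¹ * ∫ x, nsqG D.J D.F (bpp D.J (Φ n : F2 E4 M)) x ∂D.μ)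
    atTop (𝓝 0)
  e3 : ∃ C, ∀ n, r n * ∫ x, (a n x) ^ 2 ∂D.μ ≤ C
  e4 : ∃ C, ∀ n, ∃ m : M → ℝ, (∀ x, 0 ≤ m x) ∧ Integrable m D.μ ∧ ∫ x, m x ∂D.μ ≤ C ∧
    ∀ x, √(m1 (atJ D.J x) (at2 D.F x) (at1 (j n) x)) ≤ m x
  e5 : ∃ C, ∀ n, ∫ x, D.nr (P n : F2 E4 M) x ∂D.μ ≤ C
  e6 : ∃ e : ℕ → M → ℝ, (∀ n, Continuous (e n)) ∧
    Tendsto (fun n => ∫ x, e n x ∂D.μ) atTop (𝓝 0) ∧
    (∀ n x, Pos (atJ D.J x) (invp (atJ D.J x) (at2 (P n : F2 E4 M) x) + e n x • at2 D.F x)) ∧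
    (∀ n x, D.nr (bpp D.J (P n : F2 E4 M)) x ≤ e n x)

namespace VS

variable {D : Dat M} {lam : ℝ} {r : ℕ → ℝ} {Φ : ℕ → X2 M} {a : ℕ → M → ℝ} {j : ℕ → F1 E4 M}
  {P T : ℕ → X2 M}

theorem mu_eq (D : Dat M) : Int.mu D.F = D.μ := (Int.isVol_eq_mu (Int.dat_volF D) (Int.dat_isVol D)).symm

theorem pair (D : Dat M) : PosDefs_358.Pair D.J D.F :=
  ⟨D.smJ, D.sq, En4.smF D, Int.dat_sposF D⟩

theorem exists_bd {f : M → ℝ} (hf : Continuous f) : ∃ B : ℝ, 0 ≤ B ∧ ∀ x, |f x| ≤ B := by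
  obtain ⟨B, hB⟩ := (isCompact_univ (X := M)).exists_bound_of_continuousOn hf.continuousOn
  exact ⟨|B|, abs_nonneg B, fun x => (hB x (mem_univ x)).trans (le_abs_self B)⟩

variable (h : VS D lam r Φ a j P T)
include h

theorem cont_a (n : ℕ) : Continuous (a n) := En4.sF_continuous (h.sma n)

theorem cont_nsqΦ (n : ℕ) : Continuous (nsqG D.J D.F (Φ n : F2 E4 M)) :=
  En4.sF_continuous (En4.sF_nsqG D (Φ n).2)

theorem mass : ∃ C, ∀ n, ∫ x, D.nr (T n : F2 E4 M) x ∂D.μ ≤ C := by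
  obtain ⟨C2, h2⟩ := h.l2
  obtain ⟨C3, h3⟩ := h.e3
  obtain ⟨C5, h5⟩ := h.e5
  refine ⟨(C3 + C2) / 2 + C5, fun n => ?_⟩
  have hr := h.r_pos n
  have key : ∀ x, D.nr (T n : F2 E4 M) x ≤
      ((r n * (a n x) ^ 2 + (r n)⁻¹ * nsqG D.J D.F (Φ n : F2 E4 M) x) / 2 +
        D.nr (P n : F2 E4 M) x) := by
    intro x
    have h1 : D.nr (T n : F2 E4 M) x ≤ |a n x| * D.nr (Φ n : F2 E4 M) x +
        D.nr (P n : F2 E4 M) x := by
      have h0 := nr_add_le (D.sq x) (En4.spos D x) (Alt.smul ((Φ n).2.1 x) (a n x))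
        ((P n).2.1 x)
      rw [nr_smul] at h0
      show nr (atJ D.J x) (at2 D.F x) (at2 (T n : F2 E4 M) x) ≤ _
      rw [h.Tap n x]
      exact h0
    have h2 := En4.nr_sq D (Φ n).2.1 x
    rw [← h2]
    have h3 := sq_abs (a n x)
    rw [← h3]
    generalize D.nr (Φ n : F2 E4 M) x = s at *
    generalize |a n x| = t at *
    have h4 : 0 ≤ (r n)⁻¹ * (r n * t - s) ^ 2 := by positivity
    have h5 : (r n)⁻¹ * (r n * t - s) ^ 2 = r n * t ^ 2 - 2 * (t * s) + (r n)⁻¹ * s ^ 2 := by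
      field_simp
      ring
    linarith
  have hc1 := h.cont_a n
  have hc2 := h.cont_nsqΦ n
  have hc3 := En4.cont_nr D (P n).2
  have i1 : Integrable (fun x => (r n * (a n x) ^ 2 + (r n)⁻¹ * nsqG D.J D.F (Φ n : F2 E4 M) x) / 2)
      D.μ := En4.integrable_cont D (by fun_prop)
  have h6 := integral_mono (En4.integrable_cont D (En4.cont_nr D (T n).2))
    (i1.add (En4.integrable_cont D hc3)) key
  simp only [Pi.add_apply] at h6
  rw [integral_add i1 (En4.integrable_cont D hc3), integral_div,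
    integral_add (En4.integrable_cont D (by fun_prop)) (En4.integrable_cont D (by fun_prop)),
    integral_const_mul, integral_const_mul] at h6
  have h7 := h2 n
  have h8 : (r n)⁻¹ * ∫ x, nsqG D.J D.F (Φ n : F2 E4 M) x ∂D.μ ≤ C2 := by
    calc (r n)⁻¹ * ∫ x, nsqG D.J D.F (Φ n : F2 E4 M) x ∂D.μ ≤ (r n)⁻¹ * (C2 * r n) := by gcongr
      _ = C2 := by field_simp
  have h9 := h3 n
  have h10 := h5 n
  linarith

/-- weak bounds of `Φ` on the forms `g du ∧ dv`. -/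
theorem weak {g u v : M → ℝ} (hg : SmoothF E4 g) (hu : SmoothF E4 u) (hv : SmoothF E4 v) :
    ∃ C, ∀ n, |D.I (Φ n : F2 E4 M) (fmul g (wedG (Ch.dF u) (Ch.dF v)))| ≤ C := by
  obtain ⟨C1, h1⟩ := h.mass
  obtain ⟨C4, h4⟩ := h.e4
  have hW : Smooth2 (wedG (Ch.dF (E := E4) u) (Ch.dF v)) := Smooth2.wed (Smooth1.dF hu) (Smooth1.dF hv)
  set W : X2 M := ⟨wedG (Ch.dF u) (Ch.dF v), hW⟩ with hWd
  have hWcl : Closed2 (wedG (Ch.dF (E := E4) u) (Ch.dF v)) := by
    have e1 := dG_fmul1 hu (Smooth1.dF hv)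
    rw [dG_dF hv] at e1
    have e2 : fmul u (0 : F2 E4 M) = 0 := by
      funext x
      show u x • (0 : Bil) = 0
      exact smul_zero _
    rw [e2, add_zero] at e1
    rw [← e1]
    exact Closed2.dG (Smooth1.fmul hu (Smooth1.dF hv))
  obtain ⟨B1, hB1, hb1⟩ := exists_bd (En4.cont_nr D (En4.fX g hg W).2)
  obtain ⟨B2, hB2, hb2⟩ := exists_bd (En4.cont_nr D W.2)
  have hcg : Continuous fun x => √(m1 (atJ D.J x) (at2 D.F x) (at1 (Ch.dF (E := E4) g) x)) :=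
    (SwcVs_34.cont_n1 D (Smooth1.dF hg)).sqrt
  obtain ⟨B3, hB3, hb3⟩ := exists_bd hcg
  refine ⟨B1 * C1 + B2 * B3 * C4, fun n => ?_⟩
  obtain ⟨m, hm0, hmi, hmC, hm⟩ := h4 n
  have hsj := h.smj n
  set dj : X2 M := ⟨dG (j n), Smooth2.dG hsj⟩ with hdj
  have e1 : (Φ n : X2 M) = T n - dj := by
    apply Subtype.ext
    show (Φ n : F2 E4 M) = (T n : F2 E4 M) - dG (j n)
    rw [h.Tdj n, add_sub_cancel_right]
  have e2 : D.I (Φ n : F2 E4 M) (En4.fX g hg W : F2 E4 M) =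
      D.I (T n : F2 E4 M) (En4.fX g hg W : F2 E4 M) - D.I (dj : F2 E4 M) (En4.fX g hg W : F2 E4 M) := by
    conv_lhs => rw [e1]
    exact En4.I_sub_left D _ _ _
  -- the first term
  have t1 : |D.I (T n : F2 E4 M) (En4.fX g hg W : F2 E4 M)| ≤ B1 * C1 := by
    calc |D.I (T n : F2 E4 M) (En4.fX g hg W : F2 E4 M)|
        ≤ ∫ x, |qG D.F (T n : F2 E4 M) (En4.fX g hg W : F2 E4 M) x| ∂D.μ :=
          abs_integral_le_integral_abs
      _ ≤ ∫ x, B1 * D.nr (T n : F2 E4 M) x ∂D.μ := by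
          refine integral_mono (En4.integrable_qG D (T n).2 (En4.fX g hg W).2).abs
            ((En4.integrable_cont D (En4.cont_nr D (T n).2)).const_mul _) fun x => ?_
          refine (En4.abs_qG_le D _ _ x).trans ?_
          rw [mul_comm]
          refine mul_le_mul_of_nonneg_right ?_ (En4.nr_nonneg D _ _)
          exact (le_abs_self _).trans (hb1 x)
      _ ≤ B1 * C1 := by
          rw [integral_const_mul]
          exact mul_le_mul_of_nonneg_left (h1 n) hB1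
  -- the second term
  set gj : X2 M := ⟨wedG (Ch.dF g) (j n), Smooth2.wed (Smooth1.dF hg) hsj⟩ with hgj
  set dgj : X2 M := ⟨dG (fmul1 g (j n)), Smooth2.dG (Smooth1.fmul hg hsj)⟩ with hdgj
  have e3 : dgj = gj + En4.fX g hg dj := by
    apply Subtype.ext
    exact dG_fmul1 hg hsj
  have e4 : D.I (dgj : F2 E4 M) (W : F2 E4 M) = 0 :=
    Int.dat_stokes D (isEx_dG (Smooth1.fmul hg hsj)) W.2 hWcl
  have e5 : D.I (En4.fX g hg dj : F2 E4 M) (W : F2 E4 M) = D.I (dj : F2 E4 M) (En4.fX g hg W : F2 E4 M) := by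
    rw [En4.I_comm, En4.I_fX, En4.I_fX]
    congr 1
    funext x
    congr 1
    exact q_comm _ _ _
  rw [e3, En4.I_add_left, e5] at e4
  have t2 : |D.I (gj : F2 E4 M) (W : F2 E4 M)| ≤ B2 * B3 * C4 := by
    calc |D.I (gj : F2 E4 M) (W : F2 E4 M)|
        ≤ ∫ x, |qG D.F (gj : F2 E4 M) (W : F2 E4 M) x| ∂D.μ := abs_integral_le_integral_abs
      _ ≤ ∫ x, B2 * B3 * m x ∂D.μ := by
          refine integral_mono (En4.integrable_qG D gj.2 W.2).abs (hmi.const_mul _) fun x => ?_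
          refine (En4.abs_qG_le D _ _ x).trans ?_
          have k1 : D.nr (gj : F2 E4 M) x ≤ B3 * m x := by
            refine (nr_wed (D.sq x) (En4.spos D x) _ _).trans ?_
            exact mul_le_mul ((le_abs_self _).trans (hb3 x)) (hm x) (Real.sqrt_nonneg _) hB3
          have k2 : D.nr (W : F2 E4 M) x ≤ B2 := (le_abs_self _).trans (hb2 x)
          calc D.nr (gj : F2 E4 M) x * D.nr (W : F2 E4 M) x ≤ (B3 * m x) * B2 :=
                mul_le_mul k1 k2 (En4.nr_nonneg D _ _) (mul_nonneg hB3 (hm0 x))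
            _ = B2 * B3 * m x := by ring
      _ ≤ B2 * B3 * C4 := by
          rw [integral_const_mul]
          exact mul_le_mul_of_nonneg_left hmC (mul_nonneg hB2 hB3)
  have e6 : D.I (Φ n : F2 E4 M) (fmul g (wedG (Ch.dF u) (Ch.dF v))) =
      D.I (T n : F2 E4 M) (En4.fX g hg W : F2 E4 M) + D.I (gj : F2 E4 M) (W : F2 E4 M) := by
    have : D.I (Φ n : F2 E4 M) (fmul g (wedG (Ch.dF u) (Ch.dF v))) =
      D.I (Φ n : F2 E4 M) (En4.fX g hg W : F2 E4 M) := rfl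
    rw [this, e2]
    linarith
  rw [e6]
  exact (abs_add_le _ _).trans (by linarith)

/-- **div-curl** for `Φ / √r`. -/
theorem dcr {τ : M → ℝ} (hτ : SmoothF E4 τ) :
    Tendsto (fun n => (r n)⁻¹ * ∫ x, τ x * qG D.F (Φ n : F2 E4 M) (Φ n : F2 E4 M) x ∂D.μ)
      atTop (𝓝 0) := by
  obtain ⟨C2, h2⟩ := h.l2
  have hs : ∀ n, 0 < √(r n) := fun n => Real.sqrt_pos.2 (h.r_pos n)
  have hsq : ∀ n, (√(r n))⁻¹ * (√(r n))⁻¹ = (r n)⁻¹ := fun n => by
    rw [← mul_inv, Real.mul_self_sqrt (h.r_pos n).le]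
  have key := DCMan_358.divcurl (pair D) (fun n => (√(r n))⁻¹ • (Φ n : F2 E4 M))
    (fun n => Smooth2.smul _ (Φ n).2) (fun n => Closed2.smul _ (Φ n).2 (h.clΦ n)) ⟨C2, fun n => ?_⟩
    (fun g u v hg hu hv => ?_) τ hτ
  · refine key.congr fun n => ?_
    have e1 : Int.I D.F ((√(r n))⁻¹ • (Φ n : F2 E4 M)) (fmul τ ((√(r n))⁻¹ • (Φ n : F2 E4 M))) =
        ∫ x, (r n)⁻¹ * (τ x * qG D.F (Φ n : F2 E4 M) (Φ n : F2 E4 M) x) ∂D.μ := by
      unfold Int.I
      rw [mu_eq D]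
      congr 1
      funext x
      have : qG D.F ((√(r n))⁻¹ • (Φ n : F2 E4 M)) (fmul τ ((√(r n))⁻¹ • (Φ n : F2 E4 M))) x =
          q (at2 D.F x) ((√(r n))⁻¹ • at2 (Φ n : F2 E4 M) x)
            (τ x • ((√(r n))⁻¹ • at2 (Φ n : F2 E4 M) x)) := rfl
      rw [this, q_smul_left, q_smul_right, q_smul_right, ← hsq n]
      show _ = _ * (τ x * q (at2 D.F x) (at2 (Φ n : F2 E4 M) x) (at2 (Φ n : F2 E4 M) x))
      ring
    rw [e1, integral_const_mul]
  · rw [mu_eq D]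
    have e1 : ∀ x, nsqG D.J D.F ((√(r n))⁻¹ • (Φ n : F2 E4 M)) x =
        (r n)⁻¹ * nsqG D.J D.F (Φ n : F2 E4 M) x := by
      intro x
      have := nr_smul (atJ D.J x) (at2 D.F x) (√(r n))⁻¹ (at2 (Φ n : F2 E4 M) x)
      have h1 : nsqG D.J D.F ((√(r n))⁻¹ • (Φ n : F2 E4 M)) x =
          (nr (atJ D.J x) (at2 D.F x) ((√(r n))⁻¹ • at2 (Φ n : F2 E4 M) x)) ^ 2 :=
        (En4.nr_sq D (Smooth2.smul _ (Φ n).2).1 x).symm
      have h3 : nsqG D.J D.F (Φ n : F2 E4 M) x = (D.nr (Φ n : F2 E4 M) x) ^ 2 :=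
        (En4.nr_sq D (Φ n).2.1 x).symm
      rw [h1, this, h3, mul_pow, sq_abs, sq, hsq n]
      rfl
    simp only [e1]
    rw [integral_const_mul]
    calc (r n)⁻¹ * ∫ x, nsqG D.J D.F (Φ n : F2 E4 M) x ∂D.μ ≤ (r n)⁻¹ * (C2 * r n) :=
          mul_le_mul_of_nonneg_left (h2 n) (inv_pos.2 (h.r_pos n)).le
      _ = C2 := by
          have := (h.r_pos n).ne'
          field_simp
  · obtain ⟨C, hC⟩ := h.weak hg hu hv
    have e1 : ∀ n, Int.I D.F ((√(r n))⁻¹ • (Φ n : F2 E4 M)) (fmul g (wedG (Ch.dF u) (Ch.dF v))) =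
        (√(r n))⁻¹ * D.I (Φ n : F2 E4 M) (fmul g (wedG (Ch.dF u) (Ch.dF v))) := by
      intro n
      rw [Int.I_smul_left, ← Int.IG_eq_I (Int.dat_volF D) (Int.dat_isVol D)]
      rfl
    simp only [e1]
    have h3 : Tendsto (fun n => (√(r n))⁻¹) atTop (𝓝 0) :=
      tendsto_inv_atTop_zero.comp (Real.tendsto_sqrt_atTop.comp h.r_lim)
    refine squeeze_zero_norm (a := fun n => (√(r n))⁻¹ * C) (fun n => ?_) (by
      simpa using h3.mul_const C)
    rw [Real.norm_eq_abs, abs_mul, abs_of_pos (inv_pos.2 (hs n))]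
    exact mul_le_mul_of_nonneg_left (hC n) (inv_pos.2 (hs n)).le

end VS

end mfd

end

end Crest.Agent.R235.SwcPos_34
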