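import Crest.Agent.R235.SwcPosA_34

/-!
Row 235 (S0364), SWC-AN (helper34): domination, positivity and anti-invariance of the limits of
vorticity sequences.
-/

set_option autoImplicit false
set_option maxSynthPendingDepth 3
set_option linter.unusedSectionVars false

open Set Function Filter MeasureTheory Metric
open scoped Manifold ContDiff Topology

universe u

namespace Crest.Agent.R235.SwcPos_34

open Crest.Agent.R240 Crest.Agent.R240.Ch Crest.Agent.R235
open Crest.Agent.R240.En4 Crest.Agent.R235.SwcAlg_34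

noncomputable section

variable {M : Type u} [MetricSpace M] [CompactSpace M] [ChartedSpace E4 M]
  [IsManifold 𝓘(ℝ, E4) ∞ M] [MeasurableSpace M] [BorelSpace M]

namespace VS

variable {D : Dat M} {lam : ℝ} {r : ℕ → ℝ} {Φ : ℕ → X2 M} {a : ℕ → M → ℝ} {j : ℕ → F1 E4 M}
  {P T : ℕ → X2 M}

theorem int5 (D : Dat M) {g f1 f2 f3 f4 f5 : M → ℝ} (hg : Continuous g) (h1 : Continuous f1)
    (h2 : Continuous f2) (h3 : Continuous f3) (h4 : Continuous f4) (h5 : Continuous f5)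
    (h : ∀ x, g x ≤ f1 x + f2 x + f3 x + f4 x + f5 x) :
    ∫ x, g x ∂D.μ ≤ ∫ x, f1 x ∂D.μ + ∫ x, f2 x ∂D.μ + ∫ x, f3 x ∂D.μ + ∫ x, f4 x ∂D.μ +
      ∫ x, f5 x ∂D.μ := by
  have i1 := En4.integrable_cont D h1
  have i2 := En4.integrable_cont D h2
  have i3 := En4.integrable_cont D h3
  have i4 := En4.integrable_cont D h4
  have i5 := En4.integrable_cont D h5
  have i12 : Integrable (fun x => f1 x + f2 x) D.μ := i1.add i2
  have i123 : Integrable (fun x => f1 x + f2 x + f3 x) D.μ := i12.add i3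
  have i1234 : Integrable (fun x => f1 x + f2 x + f3 x + f4 x) D.μ := i123.add i4
  rw [← integral_add i1 i2, ← integral_add i12 i3, ← integral_add i123 i4,
    ← integral_add i1234 i5]
  exact integral_mono (En4.integrable_cont D hg) (i1234.add i5) h

/-- the error `f - lam r a`. -/
def dl (D : Dat M) (lam : ℝ) (r : ℕ → ℝ) (Φ : ℕ → X2 M) (a : ℕ → M → ℝ) (n : ℕ) (x : M) : ℝ :=
  qG D.F (Φ n : F2 E4 M) D.F x - lam * r n * a n x

variable (h : VS D lam r Φ a j P T)
include h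

theorem cont_dl (n : ℕ) : Continuous (dl D lam r Φ a n) := by
  have h1 := En4.sF_continuous (En4.sF_qG D (Φ n).2 (En4.smF D))
  have h2 := h.cont_a n
  unfold dl
  fun_prop

theorem cont_qq (n : ℕ) : Continuous (qG D.F (Φ n : F2 E4 M) (Φ n : F2 E4 M)) :=
  En4.sF_continuous (En4.sF_qG D (Φ n).2 (Φ n).2)

theorem cont_an (n : ℕ) : Continuous (nsqG D.J D.F (bpp D.J (Φ n : F2 E4 M))) :=
  En4.sF_continuous (En4.sF_nsqG D (Smooth2.bpp D.smJ (Φ n).2))

theorem an_nonneg (n : ℕ) (x : M) : 0 ≤ nsqG D.J D.F (bpp D.J (Φ n : F2 E4 M)) x :=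
  En4.nsqG_nonneg D (Smooth2.bpp D.smJ (Φ n).2).1 x

/-- the error terms tend to `0` (with a continuous weight). -/
theorem err_dl {v : M → ℝ} (hv : Continuous v) :
    Tendsto (fun n => ∫ x, v x * ((r n)⁻¹ * dl D lam r Φ a n x ^ 2) ∂D.μ) atTop (𝓝 0) := by
  obtain ⟨B, hB, hb⟩ := exists_bd hv
  have h1 := h.e1
  refine squeeze_zero_norm (a := fun n => B * ((r n)⁻¹ *
    ∫ x, (qG D.F (Φ n : F2 E4 M) D.F x - lam * r n * a n x) ^ 2 ∂D.μ)) (fun n => ?_)
    (by simpa using h1.const_mul B)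
  have hr := h.r_pos n
  have hd := h.cont_dl n
  rw [Real.norm_eq_abs, ← integral_const_mul, ← integral_const_mul]
  refine (abs_integral_le_integral_abs).trans ?_
  refine integral_mono (En4.integrable_cont D (by fun_prop)).abs
    (En4.integrable_cont D (by unfold dl at hd; fun_prop)) fun x => ?_
  show |v x * ((r n)⁻¹ * dl D lam r Φ a n x ^ 2)| ≤ B * ((r n)⁻¹ * dl D lam r Φ a n x ^ 2)
  rw [abs_mul, abs_of_nonneg (by positivity : 0 ≤ (r n)⁻¹ * dl D lam r Φ a n x ^ 2)]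
  exact mul_le_mul_of_nonneg_right (hb x) (by positivity)

theorem err_an {v : M → ℝ} (hv : Continuous v) :
    Tendsto (fun n => ∫ x, v x * ((r n)⁻¹ * nsqG D.J D.F (bpp D.J (Φ n : F2 E4 M)) x) ∂D.μ)
      atTop (𝓝 0) := by
  obtain ⟨B, hB, hb⟩ := exists_bd hv
  have h1 := h.e2
  refine squeeze_zero_norm (a := fun n => B * ((r n)⁻¹ *
    ∫ x, nsqG D.J D.F (bpp D.J (Φ n : F2 E4 M)) x ∂D.μ)) (fun n => ?_)
    (by simpa using h1.const_mul B)
  have hr := h.r_pos n
  have hd := h.cont_an n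
  rw [Real.norm_eq_abs, ← integral_const_mul, ← integral_const_mul]
  refine (abs_integral_le_integral_abs).trans ?_
  refine integral_mono (En4.integrable_cont D (by fun_prop)).abs
    (En4.integrable_cont D (by fun_prop)) fun x => ?_
  have h0 := h.an_nonneg n x
  show |v x * ((r n)⁻¹ * nsqG D.J D.F (bpp D.J (Φ n : F2 E4 M)) x)| ≤ _
  rw [abs_mul, abs_of_nonneg (by positivity :
    0 ≤ (r n)⁻¹ * nsqG D.J D.F (bpp D.J (Φ n : F2 E4 M)) x)]
  exact mul_le_mul_of_nonneg_right (hb x) (by positivity)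

theorem err_qq {v : M → ℝ} (hv : SmoothF E4 v) :
    Tendsto (fun n => ∫ x, v x * ((r n)⁻¹ * qG D.F (Φ n : F2 E4 M) (Φ n : F2 E4 M) x) ∂D.μ)
      atTop (𝓝 0) := by
  refine (h.dcr hv).congr fun n => ?_
  rw [← integral_const_mul]
  congr 1
  funext x
  ring

theorem err_e {e : ℕ → M → ℝ} (he : ∀ n, Continuous (e n)) (he0 : ∀ n x, 0 ≤ e n x)
    (hl : Tendsto (fun n => ∫ x, e n x ∂D.μ) atTop (𝓝 0)) {v : M → ℝ} (hv : Continuous v) :
    Tendsto (fun n => ∫ x, v x * e n x ∂D.μ) atTop (𝓝 0) := by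
  obtain ⟨B, hB, hb⟩ := exists_bd hv
  refine squeeze_zero_norm (a := fun n => B * ∫ x, e n x ∂D.μ) (fun n => ?_)
    (by simpa using hl.const_mul B)
  have hd := he n
  rw [Real.norm_eq_abs, ← integral_const_mul]
  refine (abs_integral_le_integral_abs).trans ?_
  refine integral_mono (En4.integrable_cont D (by fun_prop)).abs
    (En4.integrable_cont D (by fun_prop)) fun x => ?_
  show |v x * e n x| ≤ _
  rw [abs_mul, abs_of_nonneg (he0 n x)]
  exact mul_le_mul_of_nonneg_right (hb x) (he0 n x)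

theorem q_T (n : ℕ) (b : F2 E4 M) (x : M) : qG D.F (T n : F2 E4 M) b x =
    a n x * qG D.F (Φ n : F2 E4 M) b x + qG D.F (P n : F2 E4 M) b x := by
  show q (at2 D.F x) (at2 (T n : F2 E4 M) x) (at2 b x) = _
  rw [h.Tap n x, q_add_left, q_smul_left]
  rfl

/-- **domination.** -/
theorem domi : ∀ v : M → ℝ, SmoothF E4 v → (∀ x, 0 ≤ v x) → ∀ ε : ℝ, 0 < ε →
    ∀ᶠ n in atTop, ∫ x, v x * D.nr (T n : F2 E4 M) x ∂D.μ ≤
      5 * ∫ x, v x * qG D.F (T n : F2 E4 M) D.F x ∂D.μ + ε := by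
  intro v hv hv0 ε hε
  obtain ⟨e, hec, hel, hep, hea⟩ := h.e6
  have he0 : ∀ n x, 0 ≤ e n x := fun n x => (En4.nr_nonneg D _ x).trans (hea n x)
  have hvc := En4.sF_continuous hv
  have hlam := h.lam_pos
  have k1 := (h.err_dl hvc).const_mul (5 / lam)
  have k2 := (h.err_qq hv).const_mul (-(1 / (2 * lam)))
  have k3 := (h.err_an hvc).const_mul (1 / lam)
  have k4 := (h.err_e hec he0 hel hvc).const_mul 7
  have k := ((k1.add k2).add k3).add k4
  simp only [mul_zero, add_zero] at k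
  filter_upwards [k.eventually_lt_const hε] with n hn
  have hr := h.r_pos n
  have hTc := En4.cont_nr D (T n).2
  have hac := h.cont_a n
  have hqc := En4.sF_continuous (En4.sF_qG D (T n).2 (En4.smF D))
  have hdc := h.cont_dl n
  have hqqc := h.cont_qq n
  have hanc := h.cont_an n
  have hecn := hec n
  -- pointwise
  have key : ∀ x, D.nr (T n : F2 E4 M) x ≤ 5 * qG D.F (T n : F2 E4 M) D.F x +
      (5 / lam * ((r n)⁻¹ * dl D lam r Φ a n x ^ 2) +
      -(1 / (2 * lam)) * ((r n)⁻¹ * qG D.F (Φ n : F2 E4 M) (Φ n : F2 E4 M) x) +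
      1 / lam * ((r n)⁻¹ * nsqG D.J D.F (bpp D.J (Φ n : F2 E4 M)) x) + 7 * e n x) := by
    intro x
    have hJ := D.sq x
    have hF := En4.spos D x
    have h1 : D.nr (T n : F2 E4 M) x ≤ |a n x| * D.nr (Φ n : F2 E4 M) x +
        D.nr (P n : F2 E4 M) x := by
      have h0 := nr_add_le hJ hF (Alt.smul ((Φ n).2.1 x) (a n x)) ((P n).2.1 x)
      rw [nr_smul] at h0
      show nr (atJ D.J x) (at2 D.F x) (at2 (T n : F2 E4 M) x) ≤ _
      rw [h.Tap n x]
      exact h0
    have h2 : D.nr (P n : F2 E4 M) x ≤ 2 * qG D.F (P n : F2 E4 M) D.F x + 4 * e n x :=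
      nr_le_of_pos hJ hF ((P n).2.1 x) (hep n x) (hea n x)
    have h3 : 0 ≤ qG D.F (P n : F2 E4 M) D.F x + e n x := by
      have h0 := q_pos_pos hJ hF (hep n x) (Ns.spos_pos hF)
      rw [q_add_left, q_smul_left, q_F_F hJ hF, q_F_invp hJ hF ((P n).2.1 x)] at h0
      have : qG D.F (P n : F2 E4 M) D.F x = q (at2 D.F x) (at2 (P n : F2 E4 M) x) (at2 D.F x) := rfl
      rw [this]
      linarith
    have h4 : nsqG D.J D.F (Φ n : F2 E4 M) x = 2 * qG D.F (Φ n : F2 E4 M) D.F x ^ 2 -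
        qG D.F (Φ n : F2 E4 M) (Φ n : F2 E4 M) x +
        2 * nsqG D.J D.F (bpp D.J (Φ n : F2 E4 M)) x := nsq_ident hJ hF ((Φ n).2.1 x)
    have h5 := En4.nr_sq D (Φ n).2.1 x
    have h6 := h.q_T n D.F x
    have h7 : qG D.F (Φ n : F2 E4 M) D.F x = lam * r n * a n x + dl D lam r Φ a n x := by
      unfold dl; ring
    rw [h6]
    rw [h4] at h5
    rw [h7] at h5 ⊢
    have h8 := sq_abs (a n x)
    have h9 : |a n x| * D.nr (Φ n : F2 E4 M) x ≤
        lam * r n * (a n x) ^ 2 / 2 + (2 * lam)⁻¹ * ((r n)⁻¹ * D.nr (Φ n : F2 E4 M) x ^ 2) := by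
      rw [← h8]
      generalize D.nr (Φ n : F2 E4 M) x = s
      generalize |a n x| = t
      have k1 : 0 ≤ (2 * lam)⁻¹ * ((r n)⁻¹ * (lam * r n * t - s) ^ 2) := by positivity
      have k2 : (2 * lam)⁻¹ * ((r n)⁻¹ * (lam * r n * t - s) ^ 2) =
          lam * r n * t ^ 2 / 2 - t * s + (2 * lam)⁻¹ * ((r n)⁻¹ * s ^ 2) := by
        field_simp
        ring
      linarith
    rw [h5] at h9
    generalize D.nr (T n : F2 E4 M) x = nT at *
    generalize D.nr (P n : F2 E4 M) x = nP at *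
    generalize |a n x| * D.nr (Φ n : F2 E4 M) x = aP at *
    generalize qG D.F (P n : F2 E4 M) D.F x = qP at *
    generalize qG D.F (Φ n : F2 E4 M) (Φ n : F2 E4 M) x = qq at *
    generalize nsqG D.J D.F (bpp D.J (Φ n : F2 E4 M)) x = an at *
    generalize dl D lam r Φ a n x = δ at *
    generalize a n x = t at *
    generalize e n x = ee at *
    have k3 : (2 * lam)⁻¹ * ((r n)⁻¹ * (2 * (lam * r n * t + δ) ^ 2 - qq + 2 * an)) =
        lam * r n * t ^ 2 + 2 * t * δ + 1 / lam * ((r n)⁻¹ * δ ^ 2) +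
        -(1 / (2 * lam)) * ((r n)⁻¹ * qq) + 1 / lam * ((r n)⁻¹ * an) := by
      field_simp
      ring
    have k4 : 0 ≤ 1 / lam * ((r n)⁻¹ * (lam * r n * t + 3 / 2 * δ) ^ 2) := by positivity
    have k5 : 1 / lam * ((r n)⁻¹ * (lam * r n * t + 3 / 2 * δ) ^ 2) =
        lam * r n * t ^ 2 + 3 * t * δ + 9 / 4 * (1 / lam * ((r n)⁻¹ * δ ^ 2)) := by
      field_simp
      ring
    have k6 : 5 * (t * (lam * r n * t + δ) + qP) = 5 * (lam * r n * t ^ 2) + 5 * (t * δ) + 5 * qP := by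
      ring
    have k7 : 5 / lam * ((r n)⁻¹ * δ ^ 2) = 5 * (1 / lam * ((r n)⁻¹ * δ ^ 2)) := by ring
    have k8 : 0 ≤ 1 / lam * ((r n)⁻¹ * δ ^ 2) := by positivity
    have k9 : 0 ≤ lam * r n * t ^ 2 := by positivity
    rw [k3] at h9
    rw [k6, k7]
    nlinarith
  have h1 := int5 D (g := fun x => v x * D.nr (T n : F2 E4 M) x)
    (f1 := fun x => 5 * (v x * qG D.F (T n : F2 E4 M) D.F x))
    (f2 := fun x => 5 / lam * (v x * ((r n)⁻¹ * dl D lam r Φ a n x ^ 2)))
    (f3 := fun x => -(1 / (2 * lam)) *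
      (v x * ((r n)⁻¹ * qG D.F (Φ n : F2 E4 M) (Φ n : F2 E4 M) x)))
    (f4 := fun x => 1 / lam * (v x * ((r n)⁻¹ * nsqG D.J D.F (bpp D.J (Φ n : F2 E4 M)) x)))
    (f5 := fun x => 7 * (v x * e n x))
    (hvc.mul hTc) (by fun_prop) (by fun_prop) (by fun_prop) (by fun_prop) (by fun_prop)
    (fun x => by
      have := mul_le_mul_of_nonneg_left (key x) (hv0 x)
      calc v x * D.nr (T n : F2 E4 M) x ≤ _ := this
        _ = _ := by ring)
  simp only [integral_const_mul] at h1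
  linarith

/-- **positivity.** -/
theorem posl (b : X2 M) (hb : b ∈ D.Pp) : ∀ ε : ℝ, 0 < ε →
    ∀ᶠ n in atTop, - ε ≤ D.I (T n : F2 E4 M) (b : F2 E4 M) := by
  intro ε hε
  obtain ⟨e, hec, hel, hep, hea⟩ := h.e6
  have he0 : ∀ n x, 0 ≤ e n x := fun n x => (En4.nr_nonneg D _ x).trans (hea n x)
  set τ : M → ℝ := qG D.F (b : F2 E4 M) D.F with hτ
  have hτs : SmoothF E4 τ := En4.sF_qG D b.2 (En4.smF D)
  have hτc := En4.sF_continuous hτs
  have hτ0 : ∀ x, 0 ≤ τ x := fun x =>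
    q_pos_pos (D.sq x) (En4.spos D x) (hb x) (Ns.spos_pos (En4.spos D x))
  have hlam := h.lam_pos
  have k1 := (h.err_dl hτc).const_mul (1 / (2 * lam))
  have k2 := (h.err_qq hτs).const_mul (-(1 / (2 * lam)))
  have k3 := (h.err_an hτc).const_mul (1 / (2 * lam))
  have k4 := h.err_e hec he0 hel hτc
  have k := ((k1.add k2).add k3).add k4
  simp only [mul_zero, add_zero] at k
  filter_upwards [k.eventually_lt_const hε] with n hn
  have hr := h.r_pos n
  have hqc := En4.sF_continuous (En4.sF_qG D (T n).2 b.2)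
  have hdc := h.cont_dl n
  have hqqc := h.cont_qq n
  have hanc := h.cont_an n
  have hecn := hec n
  have key : ∀ x, -1 * qG D.F (T n : F2 E4 M) (b : F2 E4 M) x ≤
      1 / (2 * lam) * (τ x * ((r n)⁻¹ * dl D lam r Φ a n x ^ 2)) +
      -(1 / (2 * lam)) * (τ x * ((r n)⁻¹ * qG D.F (Φ n : F2 E4 M) (Φ n : F2 E4 M) x)) +
      1 / (2 * lam) * (τ x * ((r n)⁻¹ * nsqG D.J D.F (bpp D.J (Φ n : F2 E4 M)) x)) +
      τ x * e n x + 0 := by
    intro x
    have hJ := D.sq x
    have hF := En4.spos D x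
    have h3 : - (e n x * τ x) ≤ qG D.F (P n : F2 E4 M) (b : F2 E4 M) x := by
      have h0 := q_pos_pos hJ hF (hep n x) (hb x)
      rw [q_add_left, q_smul_left] at h0
      have h1 : q (at2 D.F x) (invp (atJ D.J x) (at2 (P n : F2 E4 M) x)) (at2 (b : F2 E4 M) x) =
          qG D.F (P n : F2 E4 M) (b : F2 E4 M) x := by
        have := q_split hJ hF ((P n).2.1 x : Alt _) (b.2.1 x : Alt _)
        rw [antip_of_inv (hb x).inv, invp_of_inv (hb x).inv, q_zero_right, add_zero] at this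
        exact this.symm
      have h2 : q (at2 D.F x) (at2 D.F x) (at2 (b : F2 E4 M) x) = τ x := q_comm _ _ _
      rw [h1, h2] at h0
      linarith
    have h4 := nsq_prim_eq hJ hF (b := at2 (Φ n : F2 E4 M) x) ((Φ n).2.1 x)
    have h40 : 0 ≤ nsq (atJ D.J x) (at2 D.F x) (prim (atJ D.J x) (at2 D.F x)
      (at2 (Φ n : F2 E4 M) x)) := nsq_nonneg hJ hF (prim_alt hJ hF ((Φ n).2.1 x))
    obtain ⟨s, hs0, h5'⟩ : ∃ s : ℝ, 0 ≤ s ∧ s ^ 2 = nsq (atJ D.J x) (at2 D.F x)
        (prim (atJ D.J x) (at2 D.F x) (at2 (Φ n : F2 E4 M) x)) :=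
      ⟨_, Real.sqrt_nonneg _, Real.sq_sqrt h40⟩
    have h5 := q_near hJ hF (b := at2 (Φ n : F2 E4 M) x) ((Φ n).2.1 x) (hb x) hs0 h5'.ge
    have h6 := h.q_T n (b : F2 E4 M) x
    have h7 : qG D.F (Φ n : F2 E4 M) D.F x = lam * r n * a n x + dl D lam r Φ a n x := by
      unfold dl; ring
    have h8 : q (at2 D.F x) (at2 (Φ n : F2 E4 M) x) (at2 D.F x) =
      qG D.F (Φ n : F2 E4 M) D.F x := rfl
    have h9 : q (at2 D.F x) (at2 (b : F2 E4 M) x) (at2 D.F x) = τ x := rfl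
    have h10 : nsq (atJ D.J x) (at2 D.F x) (antip (atJ D.J x) (at2 (Φ n : F2 E4 M) x)) =
      nsqG D.J D.F (bpp D.J (Φ n : F2 E4 M)) x := rfl
    have h11 : q (at2 D.F x) (at2 (Φ n : F2 E4 M) x) (at2 (Φ n : F2 E4 M) x) =
      qG D.F (Φ n : F2 E4 M) (Φ n : F2 E4 M) x := rfl
    have h12 : q (at2 D.F x) (at2 (Φ n : F2 E4 M) x) (at2 (b : F2 E4 M) x) =
      qG D.F (Φ n : F2 E4 M) (b : F2 E4 M) x := rfl
    have hτx := hτ0 x
    rw [h6]
    rw [h4, h8, h10, h11, h7] at h5'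
    rw [h8, h9, h7, h12] at h5
    generalize qG D.F (Φ n : F2 E4 M) (b : F2 E4 M) x = pb at *
    generalize qG D.F (P n : F2 E4 M) (b : F2 E4 M) x = Pb at *
    generalize qG D.F (Φ n : F2 E4 M) (Φ n : F2 E4 M) x = qq at *
    generalize nsqG D.J D.F (bpp D.J (Φ n : F2 E4 M)) x = an at *
    generalize dl D lam r Φ a n x = δ at *
    generalize a n x = t at *
    generalize e n x = ee at *
    generalize τ x = w at *
    -- a q(Φ,b) ≥ a f τ - |a| τ s
    have m1 : t * (w * (lam * r n * t + δ)) - |t| * (w * s) ≤ t * pb := by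
      have h0 : |t * (pb - w * (lam * r n * t + δ))| ≤ |t| * (w * s) := by
        rw [abs_mul]
        exact mul_le_mul_of_nonneg_left h5 (abs_nonneg t)
      have h1 := (abs_le.1 h0).1
      linarith
    have m2 : |t| * s ≤ lam * r n * t ^ 2 / 2 + 1 / (2 * lam) * ((r n)⁻¹ * s ^ 2) := by
      rw [← sq_abs t]
      generalize |t| = t'
      have k1 : 0 ≤ 1 / (2 * lam) * ((r n)⁻¹ * (lam * r n * t' - s) ^ 2) := by positivity
      have k2 : 1 / (2 * lam) * ((r n)⁻¹ * (lam * r n * t' - s) ^ 2) =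
          lam * r n * t' ^ 2 / 2 - t' * s + 1 / (2 * lam) * ((r n)⁻¹ * s ^ 2) := by
        field_simp
        ring
      linarith
    rw [h5'] at m2
    have m3 : 1 / (2 * lam) * ((r n)⁻¹ * ((lam * r n * t + δ) ^ 2 - qq + an)) =
        lam * r n * t ^ 2 / 2 + t * δ + 1 / (2 * lam) * ((r n)⁻¹ * δ ^ 2) -
          1 / (2 * lam) * ((r n)⁻¹ * qq) + 1 / (2 * lam) * ((r n)⁻¹ * an) := by
      field_simp
      ring
    rw [m3] at m2
    have m4 := mul_le_mul_of_nonneg_left m2 hτx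
    nlinarith
  have h1 := int5 D (g := fun x => -1 * qG D.F (T n : F2 E4 M) (b : F2 E4 M) x)
    (by fun_prop) (by fun_prop) (by fun_prop) (by fun_prop) (by fun_prop) continuous_const key
  simp only [integral_const_mul, integral_zero] at h1
  have h2 : D.I (T n : F2 E4 M) (b : F2 E4 M) =
    ∫ x, qG D.F (T n : F2 E4 M) (b : F2 E4 M) x ∂D.μ := rfl
  rw [h2]
  linarith

/-- **anti-invariance.** -/
theorem antil (b : X2 M) (hb : ∀ x, invp (atJ D.J x) (at2 (b : F2 E4 M) x) = 0) :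
    Tendsto (fun n => D.I (T n : F2 E4 M) (b : F2 E4 M)) atTop (𝓝 0) := by
  obtain ⟨e, hec, hel, hep, hea⟩ := h.e6
  obtain ⟨C3, h3⟩ := h.e3
  have he0 : ∀ n x, 0 ≤ e n x := fun n x => (En4.nr_nonneg D _ x).trans (hea n x)
  have hC3 : 0 ≤ C3 := by
    refine le_trans ?_ (h3 0)
    exact mul_nonneg (h.r_pos 0).le (integral_nonneg fun x => sq_nonneg _)
  obtain ⟨B, hB, hbB⟩ := exists_bd (En4.cont_nr D b.2)
  rw [Metric.tendsto_atTop']
  intro ε hε
  set η : ℝ := ε / (2 * (B + 1) * (C3 + 1)) with hη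
  have hη0 : 0 < η := by positivity
  have k3 := (h.err_an (v := fun _ => 1) continuous_const).const_mul (B * (1 / (4 * η)))
  have k4 := (h.err_e hec he0 hel (v := fun _ => 1) continuous_const).const_mul B
  have k := k3.add k4
  simp only [mul_zero, add_zero, one_mul] at k
  have hev := k.eventually_lt_const (half_pos hε)
  rw [eventually_atTop] at hev
  obtain ⟨n0, hn0⟩ := hev
  refine ⟨n0, fun n hn => ?_⟩
  have hn := hn0 n hn.le
  have hr := h.r_pos n
  have hac := h.cont_a n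
  have hqc := En4.sF_continuous (En4.sF_qG D (T n).2 b.2)
  have hanc := h.cont_an n
  have hecn := hec n
  have key : ∀ x, |qG D.F (T n : F2 E4 M) (b : F2 E4 M) x| ≤
      B * η * (r n * a n x ^ 2) +
      B * (1 / (4 * η)) * ((r n)⁻¹ * nsqG D.J D.F (bpp D.J (Φ n : F2 E4 M)) x) +
      B * e n x + 0 + 0 := by
    intro x
    have hJ := D.sq x
    have hF := En4.spos D x
    have hab : antip (atJ D.J x) (at2 (b : F2 E4 M) x) = at2 (b : F2 E4 M) x := by
      have := invp_add_antip (atJ D.J x) (at2 (b : F2 E4 M) x)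
      rw [hb x] at this
      rw [← this]
      conv_lhs => rw [this]
      exact (zero_add _).symm
    have hX : ∀ X : X2 M, |qG D.F (X : F2 E4 M) (b : F2 E4 M) x| ≤
        D.nr (bpp D.J (X : F2 E4 M)) x * B := by
      intro X
      have h1 : qG D.F (X : F2 E4 M) (b : F2 E4 M) x =
          qG D.F (D.pi'' X : F2 E4 M) (b : F2 E4 M) x := by
        have := q_split hJ hF (X.2.1 x : Alt _) (b.2.1 x : Alt _)
        rw [hb x, q_zero_right, zero_add, hab] at this
        exact this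
      rw [h1]
      refine (En4.abs_qG_le D _ _ x).trans ?_
      exact mul_le_mul_of_nonneg_left ((le_abs_self _).trans (hbB x)) (En4.nr_nonneg D _ x)
    rw [h.q_T n (b : F2 E4 M) x]
    have h1 := hX (Φ n)
    have h2 := hX (P n)
    have h4 := hea n x
    have h5 : D.nr (bpp D.J (Φ n : F2 E4 M)) x ^ 2 = nsqG D.J D.F (bpp D.J (Φ n : F2 E4 M)) x :=
      En4.nr_sq D (Smooth2.bpp D.smJ (Φ n).2).1 x
    rw [← h5]
    have h6 := En4.nr_nonneg D (bpp D.J (Φ n : F2 E4 M)) x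
    generalize D.nr (bpp D.J (Φ n : F2 E4 M)) x = s at *
    generalize D.nr (bpp D.J (P n : F2 E4 M)) x = s' at *
    generalize qG D.F (Φ n : F2 E4 M) (b : F2 E4 M) x = pb at *
    generalize qG D.F (P n : F2 E4 M) (b : F2 E4 M) x = Pb at *
    have h7 : |a n x * pb| ≤ B * η * (r n * a n x ^ 2) + B * (1 / (4 * η)) * ((r n)⁻¹ * s ^ 2) := by
      rw [abs_mul]
      have h8 : |a n x| * |pb| ≤ B * (|a n x| * s) := by
        calc |a n x| * |pb| ≤ |a n x| * (s * B) := mul_le_mul_of_nonneg_left h1 (abs_nonneg _)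
          _ = _ := by ring
      refine h8.trans ?_
      rw [← sq_abs (a n x)]
      generalize |a n x| = t
      have k1 : 0 ≤ B * (1 / (4 * η) * ((r n)⁻¹ * (2 * η * (r n * t) - s) ^ 2)) := by positivity
      have k2 : B * (1 / (4 * η) * ((r n)⁻¹ * (2 * η * (r n * t) - s) ^ 2)) =
          B * η * (r n * t ^ 2) - B * (t * s) + B * (1 / (4 * η)) * ((r n)⁻¹ * s ^ 2) := by
        field_simp
        ring
      linarith
    have h9 : |Pb| ≤ B * e n x := h2.trans (by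
      rw [mul_comm]; exact mul_le_mul_of_nonneg_left h4 hB)
    have h10 := abs_add_le (a n x * pb) Pb
    linarith
  have h1 := int5 D (g := fun x => |qG D.F (T n : F2 E4 M) (b : F2 E4 M) x|)
    (by fun_prop) (by fun_prop) (by fun_prop) (by fun_prop) continuous_const continuous_const key
  simp only [integral_const_mul, integral_zero] at h1
  simp only [integral_const_mul] at hn
  have h2 : |D.I (T n : F2 E4 M) (b : F2 E4 M)| ≤
    ∫ x, |qG D.F (T n : F2 E4 M) (b : F2 E4 M) x| ∂D.μ := abs_integral_le_integral_abs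
  have h4 : B * η * (r n * ∫ x, a n x ^ 2 ∂D.μ) ≤ ε / 2 := by
    calc B * η * (r n * ∫ x, a n x ^ 2 ∂D.μ) ≤ B * η * C3 := by
          exact mul_le_mul_of_nonneg_left (h3 n) (by positivity)
      _ ≤ (B + 1) * η * (C3 + 1) := by gcongr <;> linarith
      _ = ε / 2 := by
          rw [hη]
          field_simp
  rw [Real.dist_eq, sub_zero]
  linarith

end VS

end

end Crest.Agent.R235.SwcPos_34
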