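import Crest.Agent.R235.SwcPosB_34

/-!
Row 235 (S0364), SWC-AN (helper34): the limit current of a vorticity sequence.
-/

set_option autoImplicit false
set_option maxSynthPendingDepth 3
set_option linter.unusedSectionVars false

open Set Function Filter MeasureTheory Metric
open scoped Manifold ContDiff Topology

universe u

namespace Crest.Agent.R235.SwcPos_34

open Crest.Agent.R240 Crest.Agent.R240.Ch Crest.Agent.R235
open Crest.Agent.R240.En4 Crest.Agent.R235.SwcAlg_34 Crest.Agent.R235.SwcGlob_34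

noncomputable section

variable {M : Type u} [MetricSpace M] [CompactSpace M] [ChartedSpace E4 M]
  [IsManifold 𝓘(ℝ, E4) ∞ M]

/-- smooth approximation from above. -/
theorem exists_above {v : M → ℝ} (hv : Continuous v) {δ : ℝ} (hδ : 0 < δ) :
    ∃ w : M → ℝ, SmoothF E4 w ∧ ∀ x, v x ≤ w x ∧ w x ≤ v x + δ := by
  obtain ⟨g, hg⟩ := exists_contMDiffMap_forall_mem_convex_of_local_const (n := ⊤) 𝓘(ℝ, E4)
    (t := fun x => Icc (v x) (v x + δ)) (fun x => convex_Icc _ _) (fun x => ⟨v x + δ / 2, by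
      have h1 := hv.tendsto x
      have h2 := h1.eventually (Metric.ball_mem_nhds (v x) (half_pos hδ))
      filter_upwards [h2] with y hy
      rw [Real.dist_eq, abs_lt] at hy
      constructor <;> linarith [hy.1, hy.2]⟩)
  exact ⟨g, En4.smoothF_of_contMDiff g.contMDiff, fun x => hg x⟩

variable [MeasurableSpace M] [BorelSpace M]

/-- a bounded family of real linear functionals has a limit along an ultrafilter. -/
theorem exists_ulim {V : Type*} [AddCommGroup V] [Module ℝ V] (L : ℕ → V →ₗ[ℝ] ℝ)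
    (U : Ultrafilter ℕ) (hb : ∀ v, ∃ C, ∀ n, |L n v| ≤ C) :
    ∃ S : V →ₗ[ℝ] ℝ, ∀ v, Tendsto (fun n => L n v) U (𝓝 (S v)) := by
  have h1 : ∀ v, ∃ l : ℝ, Tendsto (fun n => L n v) U (𝓝 l) := by
    intro v
    obtain ⟨C, hC⟩ := hb v
    have h2 : (Icc (-C) C : Set ℝ) ∈ U.map fun n => L n v := by
      rw [Ultrafilter.mem_map]
      exact Filter.mem_of_superset Filter.univ_mem fun n _ => abs_le.1 (hC n)
    obtain ⟨l, -, hl⟩ := isCompact_Icc.ultrafilter_le_nhds' _ h2
    exact ⟨l, hl⟩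
  choose l hl using h1
  refine ⟨{ toFun := l, map_add' := fun v w => ?_, map_smul' := fun c v => ?_ }, hl⟩
  · refine tendsto_nhds_unique (hl (v + w)) ?_
    simp only [map_add]
    exact (hl v).add (hl w)
  · refine tendsto_nhds_unique (hl (c • v)) ?_
    simp only [map_smul, smul_eq_mul, RingHom.id_apply]
    exact (hl v).const_mul c

/-- the functional of a form. -/
def fun1 (D : Dat M) (T : X2 M) : X2 M →ₗ[ℝ] ℝ where
  toFun b := D.I (T : F2 E4 M) (b : F2 E4 M)
  map_add' b c := En4.I_add_right D T b c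
  map_smul' c b := by
    rw [RingHom.id_apply, smul_eq_mul]
    exact En4.I_smul_right D c T b

namespace VS

variable {D : Dat M} {lam : ℝ} {r : ℕ → ℝ} {Φ : ℕ → X2 M} {a : ℕ → M → ℝ} {j : ℕ → F1 E4 M}
  {P T : ℕ → X2 M}

theorem abs_I_le (D : Dat M) (T b : X2 M) {B : ℝ} (hB : ∀ x, D.nr (b : F2 E4 M) x ≤ B) :
    |D.I (T : F2 E4 M) (b : F2 E4 M)| ≤ B * ∫ x, D.nr (T : F2 E4 M) x ∂D.μ := by
  calc |D.I (T : F2 E4 M) (b : F2 E4 M)|
      ≤ ∫ x, |qG D.F (T : F2 E4 M) (b : F2 E4 M) x| ∂D.μ := abs_integral_le_integral_abs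
    _ ≤ ∫ x, B * D.nr (T : F2 E4 M) x ∂D.μ := by
        refine integral_mono (En4.integrable_qG D T.2 b.2).abs
          ((En4.integrable_cont D (En4.cont_nr D T.2)).const_mul _) fun x => ?_
        refine (En4.abs_qG_le D _ _ x).trans ?_
        rw [mul_comm]
        exact mul_le_mul_of_nonneg_right (hB x) (En4.nr_nonneg D _ _)
    _ = _ := integral_const_mul _ _

theorem closed_T (h : VS D lam r Φ a j P T) (n : ℕ) : Closed2 (T n : F2 E4 M) := by
  rw [h.Tdj n]
  exact Closed2.add (Φ n).2 (Smooth2.dG (h.smj n)) (h.clΦ n) (Closed2.dG (h.smj n))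

theorem I_T (h : VS D lam r Φ a j P T) (n : ℕ) (b : Z2 M) :
    D.I (T n : F2 E4 M) (b.1 : F2 E4 M) = D.I (Φ n : F2 E4 M) (b.1 : F2 E4 M) := by
  have e1 : (T n : X2 M) = Φ n + ⟨dG (j n), Smooth2.dG (h.smj n)⟩ := Subtype.ext (h.Tdj n)
  have e2 := En4.I_add_left D (Φ n) ⟨dG (j n), Smooth2.dG (h.smj n)⟩ b.1
  rw [← e1] at e2
  have e3 : D.I (dG (j n)) (b.1 : F2 E4 M) = 0 :=
    Int.dat_stokes D (isEx_dG (h.smj n)) b.1.2 b.2
  rw [e2]
  have e4 : D.I ((⟨dG (j n), Smooth2.dG (h.smj n)⟩ : X2 M) : F2 E4 M) (b.1 : F2 E4 M) = 0 := e3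
  rw [e4, add_zero]

/-- **the limit current.** -/
theorem exists_lim (h : VS D lam r Φ a j P T) {E : X2 M → ℝ}
    (hE : ∀ n, ∀ b : Z2 M, D.I (Φ n : F2 E4 M) (b.1 : F2 E4 M) = 2 * Real.pi * E b.1) :
    ∃ U : Filter ℕ, U ≤ atTop ∧ U.NeBot ∧ ∃ (S : X2 M →ₗ[ℝ] ℝ) (s : Measure M),
      Lim D U T S s ∧ ∀ b : Z2 M, S b.1 = E b.1 := by
  have hpi := Real.pi_pos
  set U : Ultrafilter ℕ := Ultrafilter.of atTop with hU
  have hUle : (U : Filter ℕ) ≤ atTop := Ultrafilter.of_le atTop
  obtain ⟨C, hC⟩ := h.mass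
  obtain ⟨S0, hS0⟩ := exists_ulim (fun n => fun1 D (T n)) U (fun b => by
    obtain ⟨B, hB, hb⟩ := exists_bd (En4.cont_nr D b.2)
    refine ⟨B * C, fun n => ?_⟩
    exact (abs_I_le D (T n) b fun x => (le_abs_self _).trans (hb x)).trans
      (mul_le_mul_of_nonneg_left (hC n) hB))
  have hS0' : ∀ b : X2 M, Tendsto (fun n => D.I (T n : F2 E4 M) (b : F2 E4 M)) U (𝓝 (S0 b)) := hS0
  set S : X2 M →ₗ[ℝ] ℝ := (2 * Real.pi)⁻¹ • S0 with hS
  have hSS : ∀ b, 2 * Real.pi * S b = S0 b := by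
    intro b
    rw [hS, LinearMap.smul_apply, smul_eq_mul]
    field_simp
  have hlim : ∀ b : X2 M, Tendsto (fun n => D.I (T n : F2 E4 M) (b : F2 E4 M)) U
      (𝓝 (2 * Real.pi * S b)) := fun b => by rw [hSS]; exact hS0' b
  -- positivity
  have hnn : D.IsNonneg S := by
    intro b hb
    have h1 : 0 ≤ S0 b := by
      refine le_of_forall_pos_lt_add fun ε hε => ?_
      have h2 := (h.posl b hb (ε / 2) (half_pos hε)).filter_mono hUle
      have h3 : -(ε / 2) ≤ S0 b := ge_of_tendsto (hS0' b) h2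
      linarith
    rw [hS, LinearMap.smul_apply, smul_eq_mul]
    positivity
  -- invariance
  have hinv : D.IsInv S := by
    intro b
    have h1 : S0 (D.pi'' b) = 0 := by
      refine tendsto_nhds_unique (hS0' _) ((h.antil (D.pi'' b) fun x => ?_).mono_left hUle)
      have := En4.at2_pi'' D b x
      rw [this]
      exact Ns.invp_antip (D.sq x) _
    have h2 : b = D.pi' b + D.pi'' b := (En4.pi_add D b).symm
    have h3 : S0 b = S0 (D.pi' b) := by
      conv_lhs => rw [h2, map_add, h1, add_zero]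
    rw [hS, LinearMap.smul_apply, LinearMap.smul_apply, h3]
  -- closedness
  have hex : Dat.KillsExact S := by
    intro b hb
    have h1 : S0 b = 0 := by
      refine tendsto_nhds_unique (hS0' b) ?_
      have h2 : ∀ n, D.I (T n : F2 E4 M) (b : F2 E4 M) = 0 := fun n => by
        rw [En4.I_comm]
        exact Int.dat_stokes D hb (T n).2 (h.closed_T n)
      simp only [h2]
      exact tendsto_const_nhds
    rw [hS, LinearMap.smul_apply, h1, smul_zero]
  obtain ⟨s, hs⟩ := T1_195.exists_cur D hinv hnn hex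
  have := hs.fin
  refine ⟨U, hUle, inferInstance, S, s, ⟨hs, hlim, 10 * Real.pi, fun v hv hv0 ε hε => ?_⟩,
    fun b => ?_⟩
  · -- domination
    set K : ℝ := s.real univ with hK
    have hK0 : 0 ≤ K := measureReal_nonneg
    set δ : ℝ := ε / (40 * Real.pi * (K + 1)) with hδ
    have hδ0 : 0 < δ := by positivity
    obtain ⟨w, hw, hvw⟩ := exists_above hv hδ0
    have hwc := En4.sF_continuous hw
    have hw0 : ∀ x, 0 ≤ w x := fun x => (hv0 x).trans (hvw x).1
    have h1 := (h.domi w hw hw0 (ε / 4) (by positivity)).filter_mono hUle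
    -- the trace
    have h2 : Tendsto (fun n => ∫ x, w x * qG D.F (T n : F2 E4 M) D.F x ∂D.μ) U
        (𝓝 (2 * Real.pi * ∫ x, w x ∂s)) := by
      have h3 := hlim (En4.fX w hw D.FX)
      have h4 : S (En4.fX w hw D.FX) = ∫ x, w x ∂s :=
        hs.rm.trace w hw (En4.fX w hw D.FX) rfl
      rw [h4] at h3
      refine h3.congr fun n => ?_
      rw [En4.I_fX]
      rfl
    have h5 : ∀ᶠ n in (U : Filter ℕ), ∫ x, w x * qG D.F (T n : F2 E4 M) D.F x ∂D.μ <
        2 * Real.pi * ∫ x, w x ∂s + ε / 20 :=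
      h2.eventually_lt_const (by linarith)
    filter_upwards [h1, h5] with n h1 h5
    have h6 : ∫ x, v x * D.nr (T n : F2 E4 M) x ∂D.μ ≤ ∫ x, w x * D.nr (T n : F2 E4 M) x ∂D.μ := by
      refine integral_mono (En4.integrable_cont D (hv.mul (En4.cont_nr D (T n).2)))
        (En4.integrable_cont D (hwc.mul (En4.cont_nr D (T n).2))) fun x => ?_
      exact mul_le_mul_of_nonneg_right (hvw x).1 (En4.nr_nonneg D _ _)
    have h7 : ∫ x, w x ∂s ≤ ∫ x, v x ∂s + δ * K := by
      have iv : Integrable v s := En4.integrable_s inferInstance hv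
      have h8 : ∫ x, w x ∂s ≤ ∫ x, (v x + δ) ∂s :=
        integral_mono (En4.integrable_s inferInstance hwc)
          (iv.add (integrable_const _)) fun x => (hvw x).2
      rw [integral_add iv (integrable_const _), integral_const, smul_eq_mul] at h8
      rw [hK]
      linarith
    have h9 : 10 * Real.pi * (δ * K) ≤ ε / 4 := by
      have : 10 * Real.pi * (δ * (K + 1)) = ε / 4 := by
        rw [hδ]
        field_simp
        ring
      have h10 : δ * K ≤ δ * (K + 1) := by nlinarith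
      rw [← this]
      gcongr
    have h11 : 10 * Real.pi * ∫ x, w x ∂s ≤ 10 * Real.pi * ∫ x, v x ∂s + 10 * Real.pi * (δ * K) := by
      rw [← mul_add]
      gcongr
    linarith
  · -- the class
    have h1 := hlim b.1
    have h2 : ∀ n, D.I (T n : F2 E4 M) (b.1 : F2 E4 M) = 2 * Real.pi * E b.1 := fun n => by
      rw [h.I_T n b, hE n b]
    simp only [h2] at h1
    have h3 := tendsto_nhds_unique h1 tendsto_const_nhds
    have h4 : (2 * Real.pi) ≠ 0 := by positivity
    exact mul_left_cancel₀ h4 h3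

end VS

end

end Crest.Agent.R235.SwcPos_34
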