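import Crest.Agent.R235.SwcPosC_34

/-!
Row 235 (S0364), SWC-AN (helper34): a Taubes sequence is a vorticity sequence; `POSDOM2`.
-/

set_option autoImplicit false
set_option maxSynthPendingDepth 3
set_option linter.unusedSectionVars false

open Set Function Filter MeasureTheory Metric
open scoped Manifold ContDiff Topology

universe u

namespace Crest.Agent.R235.SwcPos_34

open Crest.Agent.R240 Crest.Agent.R240.Ch Crest.Agent.R235
open Crest.Agent.R235.SwcAlg_34 Crest.Agent.R235.SwcGlob_34 Crest.Agent.R235.SwcVs_34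

noncomputable section

section pt

variable {J : E4 →L[ℝ] E4} {F : Bil}

theorem sum_cs {N : ℕ} (x y s t : Fin N → ℝ) :
    (∑ i, (x i * s i + y i * t i)) ^ 2 ≤
      (∑ i, (x i ^ 2 + y i ^ 2)) * ∑ i, (s i ^ 2 + t i ^ 2) := by
  have h := Finset.sum_mul_sq_le_sq_mul_sq (Finset.univ : Finset (Fin N ⊕ Fin N))
    (Sum.elim x y) (Sum.elim s t)
  simp only [Fintype.sum_sum_type, Sum.elim_inl, Sum.elim_inr] at h
  rw [Finset.sum_add_distrib, Finset.sum_add_distrib, Finset.sum_add_distrib]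
  exact h

/-- Cauchy-Schwarz for `∑ x_i c_i + y_i d_i`. -/
theorem m1_sum_le (hJ : ∀ v, J (J v) = -v) (hF : SPos J F) {N : ℕ} (x y : Fin N → ℝ)
    (c d : Fin N → E4 →L[ℝ] ℝ) :
    m1 J F (∑ i, (x i • c i + y i • d i)) ≤
      (∑ i, (x i ^ 2 + y i ^ 2)) * ∑ i, (m1 J F (c i) + m1 J F (d i)) := by
  obtain ⟨A, hA⟩ := exists_frame hJ hF
  simp only [m1_frame hF hA]
  have e1 : ∀ k : Fin 4, ((∑ i, (x i • c i + y i • d i)).comp (A : E4 →L[ℝ] E4)) (ee k) =
      ∑ i, (x i * (c i).comp (A : E4 →L[ℝ] E4) (ee k) +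
        y i * (d i).comp (A : E4 →L[ℝ] E4) (ee k)) := by
    intro k
    simp only [ContinuousLinearMap.comp_apply, ContinuousLinearMap.sum_apply, add_apply,
      smul_apply, smul_eq_mul]
  have e2 : ∀ k : Fin 4, (((∑ i, (x i • c i + y i • d i)).comp (A : E4 →L[ℝ] E4)) (ee k)) ^ 2 ≤
      (∑ i, (x i ^ 2 + y i ^ 2)) * ∑ i, (((c i).comp (A : E4 →L[ℝ] E4) (ee k)) ^ 2 +
        ((d i).comp (A : E4 →L[ℝ] E4) (ee k)) ^ 2) := by
    intro k
    rw [e1 k]
    exact sum_cs _ _ _ _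
  have e3 : ∑ i, (S4 ((c i).comp (A : E4 →L[ℝ] E4)) + S4 ((d i).comp (A : E4 →L[ℝ] E4))) =
      (∑ i, (((c i).comp (A : E4 →L[ℝ] E4) (ee 0)) ^ 2 + ((d i).comp (A : E4 →L[ℝ] E4) (ee 0)) ^ 2)) +
      (∑ i, (((c i).comp (A : E4 →L[ℝ] E4) (ee 1)) ^ 2 + ((d i).comp (A : E4 →L[ℝ] E4) (ee 1)) ^ 2)) +
      (∑ i, (((c i).comp (A : E4 →L[ℝ] E4) (ee 2)) ^ 2 + ((d i).comp (A : E4 →L[ℝ] E4) (ee 2)) ^ 2)) +
      (∑ i, (((c i).comp (A : E4 →L[ℝ] E4) (ee 3)) ^ 2 + ((d i).comp (A : E4 →L[ℝ] E4) (ee 3)) ^ 2)) := by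
    rw [← Finset.sum_add_distrib, ← Finset.sum_add_distrib, ← Finset.sum_add_distrib]
    refine Finset.sum_congr rfl fun i _ => ?_
    unfold S4
    ring
  rw [e3]
  have h0 := e2 0
  have h1 := e2 1
  have h2 := e2 2
  have h3 := e2 3
  unfold S4
  rw [mul_add, mul_add, mul_add]
  linarith

end pt

variable {M : Type u} [MetricSpace M] [CompactSpace M] [ChartedSpace E4 M]
  [IsManifold 𝓘(ℝ, E4) ∞ M] [MeasurableSpace M] [BorelSpace M] {D : Dat M} {N : ℕ} {Q : TSeq M N}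

/-- `|j|² ≤ |α|² |eta|²`. -/
theorem m1_jj (n : ℕ) (x : M) : m1 (atJ D.J x) (at2 D.F x) (at1 (Q.jj n) x) ≤
    Q.nal n x * Q.neta D n x := by
  have e1 : at1 (Q.jj n) x = ∑ i, ((Q.α n x i).re • (Complex.imCLM.comp (Q.eta n x i)) +
      (-(Q.α n x i).im) • (Complex.reCLM.comp (Q.eta n x i))) := by
    have : at1 (Q.jj n) x = ∑ i, ((Q.α n x i).re • (Complex.imCLM.comp (Q.eta n x i)) -
      (Q.α n x i).im • (Complex.reCLM.comp (Q.eta n x i))) := rfl
    rw [this]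
    refine Finset.sum_congr rfl fun i _ => ?_
    rw [neg_smul, sub_eq_add_neg]
  rw [e1]
  refine (m1_sum_le (D.sq x) (En4.spos D x) _ _ _ _).trans_eq ?_
  congr 1
  · unfold TSeq.nal
    refine Finset.sum_congr rfl fun i _ => ?_
    rw [← Complex.normSq_eq_norm_sq, Complex.normSq_apply]
    ring
  · unfold TSeq.neta nC
    refine Finset.sum_congr rfl fun i _ => ?_
    rw [add_comm]
    rfl

theorem nal_nonneg (n : ℕ) (x : M) : 0 ≤ Q.nal n x := Finset.sum_nonneg fun i _ => by positivity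

theorem sqrt_m1_jj (n : ℕ) (x : M) : √(m1 (atJ D.J x) (at2 D.F x) (at1 (Q.jj n) x)) ≤
    (Q.nal n x + Q.neta D n x) / 2 := by
  have h1 := nal_nonneg (Q := Q) n x
  have h2 : 0 ≤ Q.neta D n x := Finset.sum_nonneg fun i _ => mC_nonneg (D.sq x) (En4.spos D x) _
  refine Real.sqrt_le_iff.2 ⟨by linarith, (m1_jj n x).trans ?_⟩
  nlinarith [sq_nonneg (Q.nal n x - Q.neta D n x)]

/-- **a Taubes sequence is a vorticity sequence.** -/
theorem vs_of {lam C : ℝ} (h : Q.OK D atTop lam C) (hr : ∀ n, 0 < Q.r n)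
    (hw : ∀ n : ℕ, Smooth1 (Q.jj n) ∧ Smooth2 (Q.Phi n) ∧ Closed2 (Q.Phi n) ∧ Smooth2 (Q.Psi n) ∧
      Closed2 (Q.Psi n) ∧ ∀ x : M, at2 (Q.Psi n) x =
        (1 - Q.nal n x) • at2 (Q.Phi n) x + (2 : ℝ) • ∑ i,
          wed (Complex.reCLM.comp (Q.eta n x i)) (Complex.imCLM.comp (Q.eta n x i)))
    {T : ℕ → X2 M} (hT : ∀ n, (T n : F2 E4 M) = Q.Psi n) :
    ∃ P : ℕ → X2 M, VS D lam Q.r (fun n => ⟨Q.Phi n, (hw n).2.1⟩) (fun n x => 1 - Q.nal n x)
      Q.jj P T := by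
  have hsa : ∀ n, SmoothF E4 (fun x => 1 - Q.nal n x) := fun n =>
    En4.sF_sub (En4.sF_const 1) (smooth_nal h n)
  have hca : ∀ n, Continuous fun x => Q.nal n x := fun n => En4.sF_continuous (smooth_nal h n)
  have hce := fun n => cont_neta h n
  set P : ℕ → X2 M := fun n => T n - En4.fX (fun x => 1 - Q.nal n x) (hsa n) ⟨Q.Phi n, (hw n).2.1⟩
    with hP
  have hP1 : ∀ n x, at2 (P n : F2 E4 M) x =
      (at2 (T n : F2 E4 M) x - (1 - Q.nal n x) • at2 (Q.Phi n) x : Bil) := fun n x => rfl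
  have hP2 : ∀ n, (P n : F2 E4 M) = PP Q n := by
    intro n
    funext x
    show at2 (P n : F2 E4 M) x = at2 (PP Q n) x
    rw [hP1, at2_PP, hT n, (hw n).2.2.2.2.2 x, add_sub_cancel_left, Finset.smul_sum]
    rfl
  have hJ := D.sq
  refine ⟨P, ?_⟩
  exact {
    lam_pos := h.lam_pos
    r_pos := hr
    r_lim := h.rinf
    clΦ := fun n => (hw n).2.2.1
    sma := hsa
    smj := fun n => (hw n).1
    Tdj := fun n => (hT n).trans rfl
    Tap := fun n x => by
      rw [hP1]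
      show _ = (1 - Q.nal n x) • at2 (Q.Phi n) x +
        (at2 (T n : F2 E4 M) x - (1 - Q.nal n x) • at2 (Q.Phi n) x)
      rw [add_sub_cancel]
    l2 := by
      have h1 : ∀ᶠ n in atTop, (Q.r n)⁻¹ * ∫ x, nsqG D.J D.F (Q.Phi n) x ∂D.μ ≤ C := by
        filter_upwards [h.e3] with n hn
        have := hr n
        calc (Q.r n)⁻¹ * ∫ x, nsqG D.J D.F (Q.Phi n) x ∂D.μ ≤ (Q.r n)⁻¹ * (C * Q.r n) := by gcongr
          _ = C := by field_simp
      obtain ⟨C', hC'⟩ := all_of_ev h1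
      refine ⟨C', fun n => ?_⟩
      have h2 := hC' n
      have h3 := hr n
      rw [inv_mul_le_iff₀ h3] at h2
      show ∫ x, nsqG D.J D.F (Q.Phi n) x ∂D.μ ≤ _
      linarith
    e1 := h.o1
    e2 := h.o2
    e3 := all_of_ev h.e2
    e4 := by
      have h1 : ∀ᶠ n in atTop, ∫ x, (Q.nal n x + Q.neta D n x) / 2 ∂D.μ ≤
          (2 * D.μ.real univ + C + C) / 2 := by
        filter_upwards [h.e1, h.e2, h.rinf.eventually_ge_atTop 1] with n k1 k2 k3
        have c1 := hca n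
        have c2 := hce n
        have c3 : 0 ≤ ∫ x, (1 - Q.nal n x) ^ 2 ∂D.μ := integral_nonneg fun x => sq_nonneg _
        have k4 : ∫ x, (1 - Q.nal n x) ^ 2 ∂D.μ ≤ C := by nlinarith
        have := D.fin
        have k5 : ∫ x, Q.nal n x ∂D.μ ≤ ∫ x, (2 + (1 - Q.nal n x) ^ 2) ∂D.μ := by
          refine integral_mono (En4.integrable_cont D c1) (En4.integrable_cont D (by fun_prop))
            fun x => ?_
          show Q.nal n x ≤ 2 + (1 - Q.nal n x) ^ 2
          nlinarith [sq_nonneg (Q.nal n x - 3 / 2)]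
        rw [integral_add (integrable_const _) (En4.integrable_cont D (by fun_prop)),
          integral_const, smul_eq_mul] at k5
        rw [integral_div, integral_add (En4.integrable_cont D c1) (En4.integrable_cont D c2)]
        linarith
      obtain ⟨C', hC'⟩ := all_of_ev h1
      refine ⟨C', fun n => ⟨fun x => (Q.nal n x + Q.neta D n x) / 2, fun x => ?_, ?_, hC' n,
        fun x => sqrt_m1_jj n x⟩⟩
      · have h1 := nal_nonneg (Q := Q) n x
        have h2 := neta_nonneg h n x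
        positivity
      · have c1 := hca n
        have c2 := hce n
        exact En4.integrable_cont D (by fun_prop)
    e5 := by
      have h1 : ∀ᶠ n in atTop, ∫ x, D.nr (P n : F2 E4 M) x ∂D.μ ≤ C := by
        filter_upwards [h.e1] with n k1
        refine (integral_mono (En4.integrable_cont D (En4.cont_nr D (P n).2))
          (En4.integrable_cont D (hce n)) fun x => ?_).trans k1
        rw [hP2 n]
        exact nr_PP n x
      exact all_of_ev h1
    e6 := ⟨er D Q, fun n => cont_er h n, er_tendsto h, fun n x => by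
      rw [hP2 n]; exact pos_PP h n x, fun n x => by rw [hP2 n]; exact nr_bpp_PP n x⟩ }

/-- **POSDOM2** from `PTW`. -/
theorem posdom2 (hw : PTW.{u}) : SwcAn_34.POSDOM2.{u} := by
  intro M _ _ _ _ _ _ D N Q lam C hQ hr T hT
  have hw' := hw M D N Q atTop lam C hQ
  obtain ⟨P, hP⟩ := vs_of hQ hr hw' hT
  refine hP.exists_lim (E := fun b => D.I ((Q.a0 0).1.1 : F2 E4 M) (b : F2 E4 M)) fun n b => ?_
  set th : X2 M := ⟨dG (Q.θ n), Smooth2.dG (hQ.smθ n)⟩ with hth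
  have e1 : (⟨Q.Phi n, (hw' n).2.1⟩ : X2 M) = (2 * Real.pi) • (Q.a0 n).1 + th := Subtype.ext rfl
  have e2 : D.I (th : F2 E4 M) (b.1 : F2 E4 M) = 0 :=
    Int.dat_stokes D (isEx_dG (hQ.smθ n)) b.1.2 b.2
  have e3 := En4.I_add_left D ((2 * Real.pi) • (Q.a0 n).1) th b.1
  rw [← e1, e2, add_zero, En4.I_smul_left] at e3
  rw [e3, SwcAn_34.I_eq_of_cls D (Q.a0 n) (Q.a0 0) b (hQ.cls0 n)]

end

end Crest.Agent.R235.SwcPos_34
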