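import Crest.Agent.R235.TauC_483
import Crest.Agent.R235.SwcAlg_34
import Crest.Agent.R235.DCMan_358
import Crest.Agent.R240.NrmM
import Crest.Agent.R240.Sm2
import Crest.Agent.R240.IntTop

/-!
Row 235 (S0364), PACKAGE SWC (helper370, deputy for STB), part A:
* `exists_dec` : every smooth two-form is a finite sum of `G du ∧ dv`
* `stb_core`   : `|∫ q(ds, b)| ≤ C ∫ |s|`
-/

set_option autoImplicit false
set_option maxSynthPendingDepth 3
set_option linter.unusedSectionVars false

open Set Function Filter MeasureTheory Metric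
open scoped Manifold ContDiff Topology

namespace Crest.Agent.R235.SwcStb_370

open Crest.Agent.R240 Crest.Agent.R240.Ch Crest.Agent.R235
open Crest.Agent.R235.SwcAlg_34 Crest.Agent.R235.DCMan_358

noncomputable section

/-- first index -/
def a6 : Fin 6 → Fin 4 := ![0, 0, 0, 1, 1, 2]
/-- second index -/
def b6 : Fin 6 → Fin 4 := ![1, 2, 3, 2, 3, 3]

theorem bil_expand {B : Bil} (hB : Alt B) :
    B = ∑ m : Fin 6, ent B (a6 m) (b6 m) • wed (DCMan_358.pr (a6 m)) (DCMan_358.pr (b6 m)) := by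
  have hs : Alt (∑ m : Fin 6, ent B (a6 m) (b6 m) • wed (DCMan_358.pr (a6 m)) (DCMan_358.pr (b6 m))) := by
    intro v
    rw [sum_apply, sum_apply]
    refine Finset.sum_eq_zero fun m _ => ?_
    rw [smul_apply, smul_apply, wed_alt, smul_zero]
  have he : ∀ i j, ent (∑ m : Fin 6, ent B (a6 m) (b6 m) • wed (DCMan_358.pr (a6 m)) (DCMan_358.pr (b6 m))) i j =
      ∑ m : Fin 6, ent B (a6 m) (b6 m) * ((if a6 m = i then 1 else 0) * (if b6 m = j then 1 else 0)
        - (if b6 m = i then 1 else 0) * (if a6 m = j then 1 else 0)) := by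
    intro i j
    unfold ent
    rw [sum_apply, sum_apply]
    refine Finset.sum_congr rfl fun m _ => ?_
    rw [smul_apply, smul_apply, smul_eq_mul]
    have h := ent_wed_pr (a6 m) (b6 m) i j
    unfold ent at h
    rw [h]
  refine alt_ext hB hs ?_ ?_ ?_ ?_ ?_ ?_ <;>
  · rw [he, Fin.sum_univ_six]
    simp [a6, b6]

section Man

variable {M : Type*} [TopologicalSpace M] [T2Space M] [CompactSpace M] [ChartedSpace E4 M]
  [IsManifold 𝓘(ℝ, E4) ∞ M] [MeasurableSpace M] [BorelSpace M]

/-- global functions with prescribed differentials on a compact part of the chart. -/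
theorem exists_coord {p : M} {K : Set E4} (hK : IsCompact K) (hKt : K ⊆ (chartAt E4 p).target) :
    ∃ U : Fin 4 → M → ℝ, (∀ k, SmoothF E4 (U k)) ∧
      ∀ k, ∀ y ∈ K, rep1 p (dF (U k)) y = DCMan_358.pr k := by
  obtain ⟨K1, hK1, hKK1, hK1t⟩ := exists_compact_between hK (chartAt E4 p).open_target hKt
  obtain ⟨K2, hK2, hK12, hK2t⟩ := exists_compact_between hK1 (chartAt E4 p).open_target hK1t
  obtain ⟨f, hf1, hf0, -⟩ := exists_contMDiffMap_one_nhds_of_subset_interior (n := ⊤)
    𝓘(ℝ, E4) hK1.isClosed hK12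
  have hθ : ContDiff ℝ ∞ (f : E4 → ℝ) := f.contMDiff.contDiff
  have hθ1 : ∀ y ∈ K1, f y = 1 := fun y hy => (Filter.Eventually.self_of_nhdsSet hf1) y hy
  have hcoord : ∀ k : Fin 4, ContDiff ℝ ∞ (fun y : E4 => f y * y k) := fun k =>
    hθ.mul (DCMan_358.pr k).contDiff
  have hcoord0 : ∀ k : Fin 4, ∀ y, y ∉ K2 → f y * y k = 0 := fun k y hy => by
    rw [hf0 y hy, zero_mul]
  have hUs : ∀ k : Fin 4, SmoothF E4 (extF p (fun y : E4 => f y * y k)) := fun k =>
    smoothF_extF hK2 hK2t (hcoord k) (hcoord0 k)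
  refine ⟨fun k => extF p (fun y => f y * y k), hUs, ?_⟩
  intro k y hy
  have hyt := hKt hy
  rw [rep1_dF (hUs k) hyt]
  have hev : repF p (extF p (fun y : E4 => f y * y k)) =ᶠ[𝓝 y] fun z => DCMan_358.pr k z := by
    filter_upwards [(chartAt E4 p).open_target.mem_nhds hyt,
      mem_interior_iff_mem_nhds.1 (hKK1 hy)] with z hz hz1
    rw [repF_extF_self hz, hθ1 z hz1, one_mul]
    rfl
  rw [hev.fderiv_eq]
  exact (DCMan_358.pr k).fderiv

/-- every smooth two-form is a finite sum of forms `G du ∧ dv`. -/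
theorem exists_dec {b : F2 E4 M} (hb : Smooth2 b) :
    ∃ (n : ℕ) (G u v : Fin n → M → ℝ), (∀ i, SmoothF E4 (G i)) ∧ (∀ i, SmoothF E4 (u i)) ∧
      (∀ i, SmoothF E4 (v i)) ∧
      ∀ x, at2 b x = ∑ i, G i x • at2 (wedG (dF (u i)) (dF (v i))) x := by
  obtain ⟨A⟩ := exists_FA (E := E4) (M := M)
  choose U hUs hUd using fun i => exists_coord (A.isCompact_K i) (A.K_sub i)
  -- the coefficients
  have hsup : ∀ i m, Sup (A.c i) (A.K i)
      (fun y => repF (A.c i) (A.χ i) y * ent (rep (A.c i) b y) (a6 m) (b6 m)) := by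
    intro i m
    refine ⟨A.isCompact_K i, A.K_sub i, ?_, ?_⟩
    · refine ((smoothF_iff (A.χ i)).1 (A.χ_smooth i) (A.c i)).mul ?_
      exact ((hb.2 (A.c i)).clm_apply contDiffOn_const).clm_apply contDiffOn_const
    · intro y hy hyK
      have h1 : A.χ i ((chartAt E4 (A.c i)).symm y) = 0 := by
        by_contra hne
        have h2 := A.χ_supp i (subset_tsupport _ hne)
        rw [(chartAt E4 (A.c i)).right_inv hy] at h2
        exact hyK (interior_subset h2.2)
      simp only [repF, h1, zero_mul]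
  set G : Fin A.n → Fin 6 → M → ℝ := fun i m => extF (A.c i) (ez (A.c i)
    (fun y => repF (A.c i) (A.χ i) y * ent (rep (A.c i) b y) (a6 m) (b6 m))) with hG
  have hGs : ∀ i m, SmoothF E4 (G i m) := fun i m =>
    smoothF_extF (A.isCompact_K i) (A.K_sub i) (ez_smooth (hsup i m))
      (fun y hy => ez_zero (hsup i m) hy)
  -- the pointwise identity
  have key : ∀ i x, A.χ i x • at2 b x =
      ∑ m, G i m x • at2 (wedG (dF (U i (a6 m))) (dF (U i (b6 m)))) x := by
    intro i x
    by_cases hx : x ∈ (chartAt E4 (A.c i)).source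
    · have hy := (chartAt E4 (A.c i)).map_source hx
      have hGx : ∀ m, G i m x = A.χ i x * ent (rep (A.c i) b (chartAt E4 (A.c i) x))
          (a6 m) (b6 m) := by
        intro m
        rw [hG]
        simp only
        rw [extF, if_pos hx, ez, if_pos hy, repF_chart hx]
      by_cases h0 : A.χ i x = 0
      · rw [h0, zero_smul]
        symm
        refine Finset.sum_eq_zero fun m _ => ?_
        rw [hGx, h0, zero_mul, zero_smul]
      · have hyK : chartAt E4 (A.c i) x ∈ A.K i :=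
          interior_subset (A.χ_supp i (subset_tsupport _ h0)).2
        have h1 : at2 b x = at2 (∑ m : Fin 6, ent (rep (A.c i) b (chartAt E4 (A.c i) x))
            (a6 m) (b6 m) • wedG (dF (U i (a6 m))) (dF (U i (b6 m))) : F2 E4 M) x := by
          refine Sm.at2_eq_of_rep hx ?_
          have h2 : rep (A.c i) (∑ m : Fin 6, ent (rep (A.c i) b (chartAt E4 (A.c i) x))
              (a6 m) (b6 m) • wedG (dF (U i (a6 m))) (dF (U i (b6 m))) : F2 E4 M)
              (chartAt E4 (A.c i) x) = ∑ m : Fin 6, ent (rep (A.c i) b (chartAt E4 (A.c i) x))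
              (a6 m) (b6 m) • rep (A.c i) (wedG (dF (U i (a6 m))) (dF (U i (b6 m))))
              (chartAt E4 (A.c i) x) := by
            ext u v
            rw [rep_apply]
            simp only [sum_apply, smul_apply, rep_apply]
            rw [at2, Finset.sum_apply]
            simp only [sum_apply]
            rfl
          rw [h2]
          refine (bil_expand (PosDefs_358.alt_rep hb (A.c i) (chartAt E4 (A.c i) x))).trans
            (Finset.sum_congr rfl fun m _ => ?_)
          rw [Int.rep_wedG_eq, hUd i _ _ hyK, hUd i _ _ hyK]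
        rw [h1]
        rw [at2, Finset.sum_apply, Finset.smul_sum]
        refine Finset.sum_congr rfl fun m _ => ?_
        rw [hGx, mul_smul]
        rfl
    · have h0 : A.χ i x = 0 := by
        by_contra hne
        exact hx (A.χ_supp i (subset_tsupport _ hne)).1
      rw [h0, zero_smul]
      symm
      refine Finset.sum_eq_zero fun m _ => ?_
      have : G i m x = 0 := extF_of_notMem hx _
      rw [this, zero_smul]
  -- reindexing
  let e : Fin (Fintype.card (Fin A.n × Fin 6)) ≃ Fin A.n × Fin 6 := (Fintype.equivFin _).symm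
  refine ⟨Fintype.card (Fin A.n × Fin 6), fun j => G (e j).1 (e j).2,
    fun j => U (e j).1 (a6 (e j).2), fun j => U (e j).1 (b6 (e j).2), fun j => hGs _ _,
    fun j => hUs _ _, fun j => hUs _ _, fun x => ?_⟩
  have h1 : at2 b x = ∑ i, A.χ i x • at2 b x := by
    rw [← Finset.sum_smul, A.χ_sum, one_smul]
  rw [h1, Finset.sum_congr rfl fun i _ => key i x, ← Fintype.sum_prod_type']
  exact (e.sum_comp (fun q : Fin A.n × Fin 6 =>
    G q.1 q.2 x • at2 (wedG (dF (U q.1 (a6 q.2))) (dF (U q.1 (b6 q.2)))) x)).symm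

end Man

section jc

variable {M : Type*} [TopologicalSpace M] [ChartedSpace E4 M] [IsManifold 𝓘(ℝ, E4) ∞ M]

/-- `s ↦ Jc s` on one-forms. -/
def jcG (J : EndF E4 M) (s : F1 E4 M) : F1 E4 M := fun x => (Jc (atJ J x) (at1 s x) : E4 →L[ℝ] ℝ)

theorem rep1_jcG (J : EndF E4 M) (s : F1 E4 M) {p : M} {y : E4} (hy : y ∈ (chartAt E4 p).target) :
    rep1 p (jcG J s) y = - (rep1 p s y).comp (repJ p J y) := by
  ext v
  rw [rep1_apply]
  show Jc (atJ J _) (at1 s _) _ = _
  rw [Jc_apply]
  simp only [neg_apply, ContinuousLinearMap.comp_apply]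
  rw [rep1_apply, repJ_apply, tcc_cancel' (symm_mem hy)]

theorem smooth_jcG {J : EndF E4 M} (hJ : SmoothJ J) {s : F1 E4 M} (hs : Smooth1 s) :
    Smooth1 (jcG J s) := by
  intro p
  have h1 : ContDiffOn ℝ ∞ (fun y => -((rep1 p s y).comp (repJ p J y))) (chartAt E4 p).target :=
    ((hs p).clm_comp (hJ p)).neg
  exact h1.congr fun y hy => rep1_jcG J s hy

end jc

section Bound

variable {M : Type*} [MetricSpace M] [CompactSpace M] [ChartedSpace E4 M]
  [IsManifold 𝓘(ℝ, E4) ∞ M] [MeasurableSpace M] [BorelSpace M] (D : Dat M)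

/-- the norm of a one-form. -/
def ns (s : F1 E4 M) (x : M) : ℝ := √(m1 (atJ D.J x) (at2 D.F x) (at1 s x))

theorem ns_nonneg (s : F1 E4 M) (x : M) : 0 ≤ ns D s x := Real.sqrt_nonneg _

theorem cont_ns {s : F1 E4 M} (hs : Smooth1 s) : Continuous (ns D s) := by
  have h1 : Continuous (qG D.F D.F (wedG s (jcG D.J s))) :=
    NM.continuous_qG D (NM.smF D) (Smooth2.wed hs (smooth_jcG D.smJ hs))
  exact Real.continuous_sqrt.comp (continuous_const.mul h1)

theorem nr_wedG (s t : F1 E4 M) (x : M) : D.nr (wedG s t) x ≤ ns D s x * ns D t x :=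
  nr_wed (NM.dJ D x) (NM.dF D x) (at1 s x) (at1 t x)

/-- one piece. -/
theorem piece {G u v : M → ℝ} (hG : SmoothF E4 G) (hu : SmoothF E4 u) (hv : SmoothF E4 v) :
    ∃ C : ℝ, 0 ≤ C ∧ ∀ s : F1 E4 M, Smooth1 s →
      |∫ x, G x * qG D.F (dG s) (wedG (dF u) (dF v)) x ∂D.μ| ≤ C * ∫ x, ns D s x ∂D.μ := by
  have hw : Smooth2 (wedG (dF (E := E4) u) (dF v)) := Smooth2.wed (Smooth1.dF hu) (Smooth1.dF hv)
  have hcl : Closed2 (wedG (dF (E := E4) u) (dF v)) := by
    rw [← Tau483.dG_fd hu hv]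
    exact Closed2.dG (Smooth1.fmul hu (Smooth1.dF hv))
  have hc : Continuous fun x => ns D (dF G) x * D.nr (wedG (dF u) (dF v)) x :=
    (cont_ns D (Smooth1.dF hG)).mul (NM.continuous_nr D hw)
  obtain ⟨C, hC⟩ := (isCompact_univ (X := M)).exists_bound_of_continuousOn hc.continuousOn
  refine ⟨|C|, abs_nonneg _, fun s hs => ?_⟩
  have hμ : D.μ = Int.mu D.F := Int.isVol_eq_mu (Int.dat_volF D) (Int.dat_isVol D)
  have h1 := Tau483.stokes_fun (Int.dat_volF D) hG hs hw hcl
  rw [hμ, h1, abs_neg, ← hμ]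
  have h2 : Continuous (qG D.F (wedG (dF G) s) (wedG (dF u) (dF v))) :=
    NM.continuous_qG D (Smooth2.wed (Smooth1.dF hG) hs) hw
  refine (abs_integral_le_integral_abs).trans ?_
  rw [← integral_const_mul]
  refine integral_mono (NM.integrable_cont D h2.abs)
    (NM.integrable_cont D (continuous_const.mul (cont_ns D hs))) fun x => ?_
  have h3 := NM.abs_qG_le D (Smooth2.wed (Smooth1.dF hG) hs) hw x
  have h4 := nr_wedG D (dF G) s x
  have h5 := NM.nr_nonneg D (wedG (dF (E := E4) u) (dF v)) x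
  have h6 := hC x (mem_univ x)
  rw [Real.norm_eq_abs, abs_of_nonneg (mul_nonneg (ns_nonneg D _ x) h5)] at h6
  have h7 := ns_nonneg D s x
  calc |qG D.F (wedG (dF G) s) (wedG (dF u) (dF v)) x|
      ≤ D.nr (wedG (dF G) s) x * D.nr (wedG (dF u) (dF v)) x := h3
    _ ≤ (ns D (dF G) x * ns D s x) * D.nr (wedG (dF u) (dF v)) x := by gcongr
    _ = (ns D (dF G) x * D.nr (wedG (dF u) (dF v)) x) * ns D s x := by ring
    _ ≤ |C| * ns D s x := by
        have := h6.trans (le_abs_self C)
        gcongr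

/-- **`|∫ q(ds, b)| ≤ C ∫ |s|`.** -/
theorem stb_core {b : F2 E4 M} (hb : Smooth2 b) :
    ∃ C : ℝ, 0 < C ∧ ∀ s : F1 E4 M, Smooth1 s →
      |D.I (dG s) b| ≤ C * ∫ x, √(m1 (atJ D.J x) (at2 D.F x) (at1 s x)) ∂D.μ := by
  obtain ⟨n, G, u, v, hG, hu, hv, hdec⟩ := exists_dec hb
  choose C hC0 hC using fun i => piece D (hG i) (hu i) (hv i)
  refine ⟨∑ i, C i + 1, by
    have := Finset.sum_nonneg fun i (_ : i ∈ Finset.univ) => hC0 i
    linarith, fun s hs => ?_⟩
  have hw : ∀ i, Smooth2 (wedG (dF (E := E4) (u i)) (dF (v i))) := fun i =>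
    Smooth2.wed (Smooth1.dF (hu i)) (Smooth1.dF (hv i))
  have hq : ∀ x, qG D.F (dG s) b x =
      ∑ i, G i x * qG D.F (dG s) (wedG (dF (u i)) (dF (v i))) x := by
    intro x
    show q (at2 D.F x) (at2 (dG s) x) (at2 b x) = _
    rw [hdec x]
    have : ∀ (S : Finset (Fin n)), q (at2 D.F x) (at2 (dG s) x)
        (∑ i ∈ S, G i x • at2 (wedG (dF (u i)) (dF (v i))) x) =
        ∑ i ∈ S, G i x * q (at2 D.F x) (at2 (dG s) x) (at2 (wedG (dF (u i)) (dF (v i))) x) := by
      intro S
      classical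
      induction S using Finset.induction_on with
      | empty =>
        rw [Finset.sum_empty, Finset.sum_empty]
        have := q_smul_right (at2 D.F x) 0 (at2 (dG s) x) (0 : Bil)
        rw [zero_smul, zero_mul] at this
        exact this
      | insert a S ha ih =>
        rw [Finset.sum_insert ha, Finset.sum_insert ha, q_add_right, ih, q_smul_right]
    exact this Finset.univ
  have hI : D.I (dG s) b =
      ∑ i, ∫ x, G i x * qG D.F (dG s) (wedG (dF (u i)) (dF (v i))) x ∂D.μ := by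
    show ∫ x, qG D.F (dG s) b x ∂D.μ = _
    rw [← integral_finsetSum]
    · exact integral_congr_ae (Eventually.of_forall hq)
    · intro i _
      exact NM.integrable_cont D ((Int.SmoothF.cont (hG i)).mul
        (NM.continuous_qG D (Smooth2.dG hs) (hw i)))
  rw [hI]
  have hI0 : 0 ≤ ∫ x, ns D s x ∂D.μ := integral_nonneg fun x => ns_nonneg D s x
  calc |∑ i, ∫ x, G i x * qG D.F (dG s) (wedG (dF (u i)) (dF (v i))) x ∂D.μ|
      ≤ ∑ i, |∫ x, G i x * qG D.F (dG s) (wedG (dF (u i)) (dF (v i))) x ∂D.μ| :=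
        Finset.abs_sum_le_sum_abs _ _
    _ ≤ ∑ i, C i * ∫ x, ns D s x ∂D.μ := Finset.sum_le_sum fun i _ => hC i s hs
    _ = (∑ i, C i) * ∫ x, ns D s x ∂D.μ := by rw [Finset.sum_mul]
    _ ≤ (∑ i, C i + 1) * ∫ x, ns D s x ∂D.μ := by
        have : (∑ i, C i : ℝ) ≤ ∑ i, C i + 1 := by linarith
        gcongr

end Bound

end

end Crest.Agent.R235.SwcStb_370
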