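import Crest.Agent.R235.SwcProd2_215
import Crest.Agent.R235.SwcStbA_370

/-!
Row 235 (S0364), PACKAGE SWC, leaf `STB` (helper370).
-/

set_option autoImplicit false
set_option maxSynthPendingDepth 3

open Set Function Filter MeasureTheory Metric
open scoped Manifold ContDiff Topology

universe v

namespace Crest.Agent.R235.SwcStb_370

open Crest.Agent.R240 Crest.Agent.R240.Ch Crest.Agent.R235

/-- **STB**. -/
theorem stb : SwcProd_215.STB.{v} := by
  intro M _ _ _ _ _ _ D b hb
  exact stb_core D hb

end Crest.Agent.R235.SwcStb_370
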