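import Crest.Agent.R235.SwcPRD_215
import Crest.Agent.R235.JT_291
import Crest.Agent.R235.SwcRBil_291
import Crest.Agent.R235.Apx2_649
import Crest.Agent.R235.Gz_649
import Crest.Agent.R235.SwcVOLD_57
import Crest.Agent.R235.SwcSTB_370
import Crest.Agent.R235.SwcNETC_984
import Crest.Agent.R235.SwcKATO4_984

/-!
Row 235 (S0364), PACKAGE SWC, assembly of PROD (helper215), final part:
`prod_of : APX, TAUS, PRB, PRC, PRD, PRE ⇒ PROD`.
-/

set_option autoImplicit false
set_option maxSynthPendingDepth 3
set_option linter.unusedSectionVars false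

open scoped ContDiff ENNReal NNReal Topology Manifold Bundle RealInnerProductSpace
open MeasureTheory Set Filter Metric Bundle

universe v

namespace Crest.Agent.R235.SwcProd_215

open Crest.Agent.R240 Crest.Agent.R240.Ch Crest.Agent.R235 Crest.Agent.R235.SWDefs_53
open Crest.Agent.R235.IndTri_451 Crest.Agent.R235.Tau483 Crest.Agent.R235.SwcGlob_34
open Crest.Agent.R249.Tv57 (OpPair SmF SmV KerD)
open Crest.Agent.R249.Tz805 (ToF)

noncomputable section

set_option maxHeartbeats 1000000 in
theorem prod_of (hA : APX.{v}) (hT : TAUS.{v}) (hB : PRB.{v}) (hC : PRC.{v}) (hD : PRD.{v})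
    (hE : PRE.{v}) : PROD.{v} := by
  intro M _ _ _ _ _ _ _ _ _ _ _ _ _ κ0 κ1 κT _ _ _ S T cc W sT w e ι ww τ C K c hw hd hs
  obtain ⟨K', r, t, a, u, hK', hseq⟩ := exists_seqS hA hT hd hs
  have hl : ∀ n, ∃ (a0 : Z2 M) (β : F1 E4 M), Lnk S T cc sT w e (τ (t n)) a0 β K ∧ cls a0 = c :=
    fun n => hd.lnk (t n) (hseq.nt n)
  choose a0 β hlnk hcls using hl
  -- the ultrafilter and the limit parameter
  let U : Ultrafilter ℕ := Filter.hyperfilter ℕ
  have hU : ((U.map t : Ultrafilter E3) : Filter E3) ≤ 𝓟 (Metric.sphere (0 : E3) 1) := by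
    rw [le_principal_iff]
    refine mem_map.2 (Eventually.of_forall fun n => ?_)
    rw [mem_sphere_zero_iff_norm]
    exact hseq.nt n
  obtain ⟨t0, ht0, hlim⟩ := (isCompact_sphere (0 : E3) 1).ultrafilter_le_nhds (U.map t) hU
  rw [mem_sphere_zero_iff_norm] at ht0
  have hlim' : Tendsto t (U : Filter ℕ) (𝓝 t0) := hlim
  have ht0ne : (fun i => t0 i : Fin 3 → ℝ) ≠ 0 := by
    intro h1
    have h2 : t0 = 0 := by
      ext i
      exact congrFun h1 i
    rw [h2, norm_zero] at ht0
    exact zero_ne_one ht0
  obtain ⟨J', hJT⟩ := JT_291.exists_jt hw ht0ne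
  obtain ⟨D, hDJ, hDal, hDF⟩ := JT_291.exists_dat SwcRBil_291.bilip hJT
  let V : Vars M κ0 κ1 κT :=
    { S := S, T := T, cc := cc, W := W, sT := sT, w := w, e := e, ι := ι, ww := ww, τ := τ
      C := C, K := K, c := c, K' := K', r := r, t := t, a := a, u := u, a0 := a0, β := β
      t0 := t0, D := D, N := Fintype.card κ0, ν := (Fintype.equivFin κ0).symm }
  have hle : (U : Filter ℕ) ≤ atTop := by
    rw [← Nat.cofinite_eq_atTop]
    exact Filter.hyperfilter_le_cofinite
  have cx : Ctx V U :=
    { data := hd
      seq := hseq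
      lnk := hlnk
      cls := hcls
      Kpos := hK'
      nt0 := ht0
      lim := hlim'
      limD :=
        { tri := hd.tg.tri
          jt := by
            show Uu_291.JT w _ D.J
            rw [hDJ]
            exact hJT
          al := hDal
          F := hDF
          X := by
            intro x
            show val (Uu_291.wt w fun i => t0 i) x = ∑ k, Xw ww t0 k x • at2 (e k) x
            have h1 : val (Uu_291.wt w fun i => t0 i) x = ∑ i, t0 i • val (w i) x := by
              unfold Uu_291.wt
              rw [Fin.sum_univ_three, Fin.sum_univ_three]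
              rfl
            rw [h1]
            simp only [hd.ww_eq]
            unfold Xw
            simp only [Finset.sum_smul, Finset.smul_sum, smul_smul]
            exact Finset.sum_comm }
      le := hle }
  obtain ⟨C1, hC1, b1, b2, b3⟩ := hB M κ0 κ1 κT V U cx
  obtain ⟨C2, hC2, b4, b5, b6⟩ := hC M κ0 κ1 κT V U cx
  have b7 := hD M κ0 κ1 κT V U cx
  obtain ⟨b8, b9, ⟨C3, b10⟩, smα, secα, smθ⟩ := hE M κ0 κ1 κT V U cx
  have hr : Tendsto r (U : Filter ℕ) atTop := by
    have h1 : Tendsto r atTop atTop := by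
      refine tendsto_atTop_mono (fun n => ?_) tendsto_natCast_atTop_atTop
      have := hseq.rge n
      linarith
    exact h1.mono_left hle
  have hrpos : ∀ n, 0 ≤ V.Q.r n := by
    intro n
    have := hseq.rge n
    have h0 : (0 : ℝ) ≤ (n : ℝ) := Nat.cast_nonneg n
    show 0 ≤ r n
    linarith
  refine ⟨t0, D, Fintype.card κ0, V.Q, U, 1 / 2, max (max C1 C2) C3, ht0, ?_, hDal, hDF,
    inferInstance, ?_, hcls 0⟩
  · rw [hDJ]
    exact hJT
  · exact
      { clF := b8
        line := fun n => (cx.lnk n).line V.N V.ν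
        chern := fun n => (cx.lnk n).chern V.N V.ν
        cls0 := fun n => (hcls n).trans (hcls 0).symm
        plim := b9
        a0bd := Eventually.of_forall fun n => (b10 n).trans (le_max_right _ _)
        smα := smα
        secα := secα
        smθ := smθ
        rinf := hr
        lam_pos := by norm_num
        e1 := Eventually.of_forall fun n =>
          (b1 n).trans ((le_max_left _ _).trans (le_max_left _ _))
        e2 := Eventually.of_forall fun n =>
          (b2 n).trans ((le_max_left _ _).trans (le_max_left _ _))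
        e3 := Eventually.of_forall fun n => (b4 n).trans (mul_le_mul_of_nonneg_right
          ((le_max_right _ _).trans (le_max_left _ _)) (hrpos n))
        o1 := b5
        o2 := b6
        o3 := b3
        o4 := b7 }

/-- PROD from the remaining open leaves. -/
theorem prod_of' (hT : TAUS.{v}) (hP : PWD.{v}) (hB : PRB.{v}) (hC : PRC.{v}) (hE : PRE.{v}) :
    PROD.{v} :=
  prod_of Apx2_649.apx hT hB hC
    (prd hP SwcVOLD_57.vold hB hC hE SwcStb_370.stb Gz_649.gz SwcNETC_984.netc) hE

end

end Crest.Agent.R235.SwcProd_215
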