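import Crest.Agent.R235.SwcProd_215
import Crest.Agent.R235.SWUni_312

/-!
Row 235 (S0364), PACKAGE SWC, NODE PROD, **TAUS** (helper215 #2370), part C (helper312):
the algebra of the two components `s = cE`, `s' = cE'`.
-/

set_option autoImplicit false
set_option maxSynthPendingDepth 3
set_option linter.unusedSectionVars false

open scoped ContDiff ENNReal NNReal Topology Manifold Bundle RealInnerProductSpace
open MeasureTheory Set Filter Metric Bundle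

universe v

namespace Crest.Agent.R235.SwcTaus_312

open Crest.Agent.R249.Tv57 Crest.Agent.R247.Ms322 Crest.Agent.R247.Dir593
open Crest.Agent.R235.SWDefs_53 Crest.Agent.R235.Fs4_546 Crest.Agent.R235.SwcProd_215
open Crest.Agent.R235.SWUni_312

noncomputable section

local notation "ipp" => Crest.Agent.R249.Tv57.ip 4

variable {M : Type v} [MetricSpace M] [CompactSpace M] [ConnectedSpace M]
  [ChartedSpace (EuclideanSpace ℝ (Fin 4)) M] [IsManifold (𝓡 4) ∞ M]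
  [RiemannianBundle (fun p : M => TangentSpace (𝓡 4) p)]
  [IsContMDiffRiemannianBundle (𝓡 4) ∞ (EuclideanSpace ℝ (Fin 4))
    (fun p : M => TangentSpace (𝓡 4) p)]
  [IsRiemannianManifold (𝓡 4) M] [MeasurableSpace M] [BorelSpace M]
  [SecondCountableTopology M] [Nonempty M]
  {κ0 κ1 κT : Type} [Fintype κ0] [Fintype κ1] [Fintype κT]
  {S : SWS M κ0 κ1 κT} {τ : TD M κT} {C : ℝ}

/-! ### at a point -/

/-- the quadratic form of `ρ_k`. -/
def rb (S : SWS M κ0 κ1 κT) (k : Fin 3) (z : M) (x y : κ0 → ℝ) : ℝ :=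
  ∑ a, ∑ b, S.rho k a b z * x a * y b

theorem rb_comm (hS : S.OK) (k : Fin 3) (z : M) (x y : κ0 → ℝ) :
    rb S k z x y = rb S k z y x := by
  unfold rb
  rw [Finset.sum_comm]
  refine Finset.sum_congr rfl fun b _ => Finset.sum_congr rfl fun a _ => ?_
  rw [hS.symrho k a b z]
  ring

theorem rb_add (hS : S.OK) (k : Fin 3) (z : M) (x y : κ0 → ℝ) :
    rb S k z (fun a => x a + y a) (fun a => x a + y a) =
      rb S k z x x + 2 * rb S k z x y + rb S k z y y := by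
  have h := rb_comm hS k z x y
  have e : rb S k z (fun a => x a + y a) (fun a => x a + y a) =
      rb S k z x x + rb S k z x y + rb S k z y x + rb S k z y y := by
    unfold rb
    simp only [← Finset.sum_add_distrib]
    refine Finset.sum_congr rfl fun a _ => Finset.sum_congr rfl fun b _ => ?_
    ring
  rw [e, ← h]
  ring

theorem rb_smul (k : Fin 3) (z : M) (c : ℝ) (x : κ0 → ℝ) :
    rb S k z (fun a => c * x a) (fun a => c * x a) = c * c * rb S k z x x := by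
  unfold rb
  rw [Finset.mul_sum]
  refine Finset.sum_congr rfl fun a _ => ?_
  rw [Finset.mul_sum]
  exact Finset.sum_congr rfl fun b _ => by ring

theorem sum_n_rb (z : M) (x y : κ0 → ℝ) : ∑ k, τ.n k z * rb S k z x y =
    ∑ a, x a * ∑ k, ∑ b, τ.n k z * S.rho k a b z * y b := by
  unfold rb
  have e : ∀ a, x a * ∑ k, ∑ b, τ.n k z * S.rho k a b z * y b =
      ∑ k, τ.n k z * ∑ b, S.rho k a b z * x a * y b := by
    intro a
    rw [Finset.mul_sum]
    refine Finset.sum_congr rfl fun k _ => ?_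
    rw [Finset.mul_sum, Finset.mul_sum]
    exact Finset.sum_congr rfl fun b _ => by ring
  simp only [e]
  rw [Finset.sum_comm]
  refine Finset.sum_congr rfl fun k _ => ?_
  rw [Finset.mul_sum]

/-- the data of the two components at a point. -/
structure Pt (S : SWS M κ0 κ1 κT) (τ : TD M κT) (z : M) (s s' : κ0 → ℝ) : Prop where
  p0 : ∀ y, ∑ y', S.D0.p y y' z * s y' = s y
  p1 : ∀ y, ∑ y', S.D0.p y y' z * s' y' = s' y
  R0 : ∀ y, ∑ k, ∑ y', τ.n k z * S.rho k y y' z * s y' = - s y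
  R1 : ∀ y, ∑ k, ∑ y', τ.n k z * S.rho k y y' z * s' y' = s' y

namespace Pt

variable {z : M} {s s' : κ0 → ℝ}

theorem orth (h : Pt S τ z s s') (hS : S.OK) : ∑ a, s a * s' a = 0 := by
  have h1 := sum_n_rb (S := S) (τ := τ) z s s'
  have h2 := sum_n_rb (S := S) (τ := τ) z s' s
  simp only [h.R1] at h1
  simp only [h.R0] at h2
  simp only [rb_comm hS _ z s' s] at h2
  rw [h1] at h2
  have e : ∑ a, s' a * - s a = - ∑ a, s a * s' a := by
    rw [← Finset.sum_neg_distrib]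
    exact Finset.sum_congr rfl fun a _ => by ring
  rw [e] at h2
  linarith

theorem nc (h : Pt S τ z s s') (hS : S.OK) : ∑ k, τ.n k z * rb S k z s s' = 0 := by
  rw [sum_n_rb (S := S) (τ := τ) z s s']
  simp only [h.R1]
  exact h.orth hS

theorem rb0 (h : Pt S τ z s s') (hS : S.OK) (hτ : τ.OK S C) (k : Fin 3) :
    rb S k z s s = - ((∑ a, s a ^ 2) * τ.n k z) := by
  refine eq_neg_of_sums (q := fun k => rb S k z s s) (n := fun k => τ.n k z)
    (c := ∑ a, s a ^ 2) ?_ ?_ (hτ.norm z) k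
  · rw [sum_n_rb (S := S) (τ := τ) z s s]
    simp only [h.R0]
    rw [← Finset.sum_neg_distrib]
    exact Finset.sum_congr rfl fun a _ => by ring
  · exact hS.fierz z s h.p0

theorem rb1 (h : Pt S τ z s s') (hS : S.OK) (hτ : τ.OK S C) (k : Fin 3) :
    rb S k z s' s' = (∑ a, s' a ^ 2) * τ.n k z := by
  have := eq_neg_of_sums (q := fun k => rb S k z s' s') (n := fun k => τ.n k z)
    (c := - ∑ a, s' a ^ 2) ?_ ?_ (hτ.norm z) k
  · rw [this]; ring
  · rw [sum_n_rb (S := S) (τ := τ) z s' s']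
    simp only [h.R1]
    rw [neg_neg]
    exact Finset.sum_congr rfl fun a _ => by ring
  · rw [neg_sq]
    exact hS.fierz z s' h.p1

theorem nsq (h : Pt S τ z s s') (hS : S.OK) :
    ∑ a, (s a + s' a) ^ 2 = ∑ a, s a ^ 2 + ∑ a, s' a ^ 2 := by
  have e : ∀ a, (s a + s' a) ^ 2 = s a ^ 2 + 2 * (s a * s' a) + s' a ^ 2 := fun a => by ring
  simp only [e, Finset.sum_add_distrib, ← Finset.mul_sum, h.orth hS]
  ring

theorem csq (h : Pt S τ z s s') (hS : S.OK) (hτ : τ.OK S C) :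
    ∑ k, rb S k z s s' ^ 2 = (∑ a, s a ^ 2) * ∑ a, s' a ^ 2 := by
  have h1 := hS.fierz z (fun a => s a + s' a) (fun y => by
    simp only [mul_add, Finset.sum_add_distrib, h.p0, h.p1])
  have h2 : ∀ k, ∑ y, ∑ y', S.rho k y y' z * (s y + s' y) * (s y' + s' y') =
      ((∑ a, s' a ^ 2) - ∑ a, s a ^ 2) * τ.n k z + 2 * rb S k z s s' := by
    intro k
    have e := rb_add hS k z s s'
    rw [h.rb0 hS hτ k, h.rb1 hS hτ k] at e
    have e' : ∑ y, ∑ y', S.rho k y y' z * (s y + s' y) * (s y' + s' y') =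
      rb S k z (fun a => s a + s' a) (fun a => s a + s' a) := rfl
    rw [e', e]
    ring
  simp only [h2] at h1
  rw [h.nsq hS] at h1
  have h3 : ∀ k, (((∑ a, s' a ^ 2) - ∑ a, s a ^ 2) * τ.n k z + 2 * rb S k z s s') ^ 2 =
      ((∑ a, s' a ^ 2) - ∑ a, s a ^ 2) ^ 2 * τ.n k z ^ 2 +
        (4 * ((∑ a, s' a ^ 2) - ∑ a, s a ^ 2) * (τ.n k z * rb S k z s s') +
          4 * rb S k z s s' ^ 2) := fun k => by ring
  simp only [h3] at h1
  rw [Finset.sum_add_distrib, Finset.sum_add_distrib, ← Finset.mul_sum, ← Finset.mul_sum,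
    ← Finset.mul_sum, hτ.norm z, h.nc hS] at h1
  linarith

end Pt

/-! ### sections -/

theorem R_eq (u : κ0 → M → ℝ) (y : κ0) (z : M) :
    τ.R S u y z = ∑ y', (∑ k, τ.n k z * S.rho k y y' z) * u y' z := by
  unfold TD.R
  rw [Finset.sum_comm]
  exact Finset.sum_congr rfl fun y' _ => by rw [Finset.sum_mul]

theorem p_R (hτ : τ.OK S C) (u : κ0 → M → ℝ) (y : κ0) (z : M) :
    ∑ y', S.D0.p y y' z * τ.R S u y' z = τ.R S u y z := by
  have e1 : ∀ y'', ∑ y', S.D0.p y y' z * (∑ k, τ.n k z * S.rho k y' y'' z) =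
      ∑ k, τ.n k z * S.rho k y y'' z := by
    intro y''
    simp only [Finset.mul_sum]
    rw [Finset.sum_comm]
    refine Finset.sum_congr rfl fun k _ => ?_
    rw [← hτ.rsec k y y'' z, Finset.mul_sum]
    exact Finset.sum_congr rfl fun y' _ => by ring
  simp only [R_eq (S := S) (τ := τ) u]
  have e2 : ∀ y', S.D0.p y y' z * ∑ y'', (∑ k, τ.n k z * S.rho k y' y'' z) * u y'' z =
      ∑ y'', (S.D0.p y y' z * (∑ k, τ.n k z * S.rho k y' y'' z)) * u y'' z := by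
    intro y'
    rw [Finset.mul_sum]
    exact Finset.sum_congr rfl fun y'' _ => by ring
  simp only [e2]
  rw [Finset.sum_comm]
  refine Finset.sum_congr rfl fun y'' _ => ?_
  rw [← Finset.sum_mul, e1]

theorem R_R (hτ : τ.OK S C) {u : κ0 → M → ℝ} (hu : S.D0.Sec u) (y : κ0) (z : M) :
    τ.R S (τ.R S u) y z = u y z := by
  rw [R_eq]
  simp only [R_eq (S := S) (τ := τ) u]
  have e2 : ∀ y', (∑ k, τ.n k z * S.rho k y y' z) *
      ∑ y'', (∑ k, τ.n k z * S.rho k y' y'' z) * u y'' z =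
      ∑ y'', ((∑ k, τ.n k z * S.rho k y y' z) * (∑ k, τ.n k z * S.rho k y' y'' z)) * u y'' z := by
    intro y'
    rw [Finset.mul_sum]
    exact Finset.sum_congr rfl fun y'' _ => by ring
  simp only [e2]
  rw [Finset.sum_comm, ← hu y z]
  refine Finset.sum_congr rfl fun y'' _ => ?_
  rw [← Finset.sum_mul, hτ.invol]

theorem R_smul (c : M → ℝ) (u w : κ0 → M → ℝ) (e : ℝ) (y : κ0) (z : M) :
    τ.R S (fun y z => c z * ((1 / 2) * (u y z + e * w y z))) y z =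
      c z * ((1 / 2) * (τ.R S u y z + e * τ.R S w y z)) := by
  simp only [R_eq]
  have : ∀ y', (∑ k, τ.n k z * S.rho k y y' z) * (c z * ((1 / 2) * (u y' z + e * w y' z))) =
      c z * ((1 / 2) * ((∑ k, τ.n k z * S.rho k y y' z) * u y' z +
        e * ((∑ k, τ.n k z * S.rho k y y' z) * w y' z))) := fun y' => by ring
  simp only [this]
  rw [← Finset.mul_sum, ← Finset.mul_sum, Finset.sum_add_distrib, ← Finset.mul_sum]

theorem cE_eq (u : κ0 → M → ℝ) : cE τ S u = fun y z => τ.rr z ^ (-(3 / 4) : ℝ) *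
    ((1 / 2) * (u y z + (-1) * τ.R S u y z)) := by
  funext y z
  unfold cE
  ring

theorem cE'_eq (u : κ0 → M → ℝ) : cE' τ S u = fun y z => τ.rr z ^ (-(3 / 4) : ℝ) *
    ((1 / 2) * (u y z + 1 * τ.R S u y z)) := by
  funext y z
  unfold cE'
  ring

theorem sec_comb (hτ : τ.OK S C) (c : M → ℝ) {u : κ0 → M → ℝ} (hu : S.D0.Sec u) (e : ℝ) :
    S.D0.Sec (fun y z => c z * ((1 / 2) * (u y z + e * τ.R S u y z))) := by
  intro y z
  have : ∀ y', S.D0.p y y' z * (c z * ((1 / 2) * (u y' z + e * τ.R S u y' z))) =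
      c z * ((1 / 2) * (S.D0.p y y' z * u y' z + e * (S.D0.p y y' z * τ.R S u y' z))) :=
    fun y' => by ring
  simp only [this]
  rw [← Finset.mul_sum, ← Finset.mul_sum, Finset.sum_add_distrib, ← Finset.mul_sum, hu y z,
    p_R hτ]

theorem secE_cE (hτ : τ.OK S C) {u : κ0 → M → ℝ} (hu : S.D0.Sec u) : τ.SecE S (cE τ S u) := by
  rw [cE_eq]
  refine ⟨sec_comb hτ _ hu _, fun y z => ?_⟩
  rw [R_smul, R_R hτ hu]
  ring

theorem secE'_cE' (hτ : τ.OK S C) {u : κ0 → M → ℝ} (hu : S.D0.Sec u) :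
    τ.SecE' S (cE' τ S u) := by
  rw [cE'_eq]
  refine ⟨sec_comb hτ _ hu _, fun y z => ?_⟩
  rw [R_smul, R_R hτ hu]
  ring

theorem sm_R (hS : S.OK) (hτ : τ.OK S C) {u : κ0 → M → ℝ} (hu : SmV (n := 4) u) :
    SmV (n := 4) (τ.R S u) := fun y =>
  contMDiff_finsetSum fun k _ => contMDiff_finsetSum fun y' _ =>
    ((hτ.smn k).mul (hS.smrho k y y')).mul (hu y')

theorem sm_cE (hS : S.OK) (hτ : τ.OK S C) {u : κ0 → M → ℝ} (hu : SmV (n := 4) u) :
    SmV (n := 4) (cE τ S u) := fun y =>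
  (smooth_rpow hτ.smrr hτ.pos _).mul (contMDiff_const.mul ((hu y).sub (sm_R hS hτ hu y)))

theorem sm_cE' (hS : S.OK) (hτ : τ.OK S C) {u : κ0 → M → ℝ} (hu : SmV (n := 4) u) :
    SmV (n := 4) (cE' τ S u) := fun y =>
  (smooth_rpow hτ.smrr hτ.pos _).mul (contMDiff_const.mul ((hu y).add (sm_R hS hτ hu y)))

theorem pt_cE (hτ : τ.OK S C) {u : κ0 → M → ℝ} (hu : S.D0.Sec u) (z : M) :
    Pt S τ z (fun y => cE τ S u y z) (fun y => cE' τ S u y z) where
  p0 := fun y => (secE_cE hτ hu).1 y z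
  p1 := fun y => (secE'_cE' hτ hu).1 y z
  R0 := fun y => (secE_cE hτ hu).2 y z
  R1 := fun y => (secE'_cE' hτ hu).2 y z

theorem u_eq (hτ : τ.OK S C) (u : κ0 → M → ℝ) (y : κ0) (z : M) :
    u y z = τ.rr z ^ (3 / 4 : ℝ) * (cE τ S u y z + cE' τ S u y z) := by
  unfold cE cE'
  have h := rpow_inv (hτ.pos z) (3 / 4 : ℝ)
  have e : τ.rr z ^ (3 / 4 : ℝ) * (τ.rr z ^ (-(3 / 4) : ℝ) * ((1 / 2) * (u y z - τ.R S u y z)) +
      τ.rr z ^ (-(3 / 4) : ℝ) * ((1 / 2) * (u y z + τ.R S u y z))) =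
      (τ.rr z ^ (3 / 4 : ℝ) * τ.rr z ^ (-(3 / 4) : ℝ)) * u y z := by ring
  rw [e, h, one_mul]

theorem sc_add (hτ : τ.OK S C) (u : κ0 → M → ℝ) :
    τ.sc (3 / 4) (cE τ S u) + τ.sc (3 / 4) (cE' τ S u) = u := by
  funext y z
  rw [u_eq hτ u y z]
  simp only [Pi.add_apply, TD.sc]
  ring

theorem sm_sc (hτ : τ.OK S C) {s : κ0 → M → ℝ} (hs : SmV (n := 4) s) :
    SmV (n := 4) (τ.sc (3 / 4) s) := fun y => (smooth_rpow hτ.smrr hτ.pos _).mul (hs y)

theorem sec_sc {s : κ0 → M → ℝ} (hs : S.D0.Sec s) : S.D0.Sec (τ.sc (3 / 4) s) := by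
  intro y z
  unfold TD.sc
  rw [← hs y z, Finset.mul_sum]
  exact Finset.sum_congr rfl fun y' _ => by ring

/-- `√ρ` -/
def qq (τ : TD M κT) (z : M) : ℝ := √(τ.rr z)

theorem qq_pos (hτ : τ.OK S C) (z : M) : 0 < qq τ z := Real.sqrt_pos.2 (hτ.pos z)

theorem qq_sq (hτ : τ.OK S C) (z : M) : qq τ z ^ 2 = τ.rr z := Real.sq_sqrt (hτ.pos z).le

theorem rpow_mhalf (hτ : τ.OK S C) (z : M) : τ.rr z ^ (-(1 / 2) : ℝ) = (qq τ z)⁻¹ := by
  rw [Real.rpow_neg (hτ.pos z).le, ← Real.sqrt_eq_rpow]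
  rfl

theorem rpow_34 (hτ : τ.OK S C) (z : M) :
    τ.rr z ^ (3 / 4 : ℝ) * τ.rr z ^ (3 / 4 : ℝ) = qq τ z ^ 3 := by
  have h := hτ.pos z
  rw [← Real.rpow_add h]
  have e : τ.rr z ^ (3 / 4 + 3 / 4 : ℝ) = (τ.rr z ^ (1 / 2 : ℝ)) ^ 3 := by
    rw [← Real.rpow_natCast, ← Real.rpow_mul h.le]
    norm_num
  rw [e, ← Real.sqrt_eq_rpow]
  rfl

/-- `|u|² = ρ^{3/2} (|s|² + |s'|²)` -/
theorem norm_u (hS : S.OK) (hτ : τ.OK S C) {u : κ0 → M → ℝ} (hu : S.D0.Sec u) (z : M) :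
    ∑ y, u y z ^ 2 = qq τ z ^ 3 * (∑ y, cE τ S u y z ^ 2 + ∑ y, cE' τ S u y z ^ 2) := by
  rw [← (pt_cE hτ hu z).nsq hS, Finset.mul_sum]
  refine Finset.sum_congr rfl fun y _ => ?_
  rw [u_eq hτ u y z, ← rpow_34 hτ z]
  ring

/-- `⟨ρ_k u, u⟩` -/
theorem rq_u (hS : S.OK) (hτ : τ.OK S C) {u : κ0 → M → ℝ} (hu : S.D0.Sec u) (k : Fin 3) (z : M) :
    S.rq k u z = qq τ z ^ 3 * ((∑ y, cE' τ S u y z ^ 2 - ∑ y, cE τ S u y z ^ 2) * τ.n k z +
      2 * rb S k z (fun y => cE τ S u y z) (fun y => cE' τ S u y z)) := by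
  have hP := pt_cE hτ hu z
  have e1 : S.rq k u z = rb S k z (fun y => u y z) (fun y => u y z) := rfl
  have e2 : (fun y => u y z) = fun y => τ.rr z ^ (3 / 4 : ℝ) * (cE τ S u y z + cE' τ S u y z) := by
    funext y
    exact u_eq hτ u y z
  rw [e1, e2, rb_smul, rpow_34 hτ z, rb_add hS, hP.rb0 hS hτ k, hP.rb1 hS hτ k]
  ring

end

end Crest.Agent.R235.SwcTaus_312
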