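import Crest.Agent.R235.SwcTausB_312
import Crest.Agent.R235.SwcTausC_312

/-!
Row 235 (S0364), PACKAGE SWC, NODE PROD, **TAUS** (helper215 #2370), part D (helper312):
the energy estimates of smooth approximate solutions.  `taus : TAUS`.
-/

set_option autoImplicit false
set_option maxSynthPendingDepth 3
set_option linter.unusedSectionVars false

open scoped ContDiff ENNReal NNReal Topology Manifold Bundle RealInnerProductSpace
open MeasureTheory Set Filter Metric Bundle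

universe v

namespace Crest.Agent.R235.SwcTaus_312

open Crest.Agent.R249.Tv57 Crest.Agent.R247.Ms322 Crest.Agent.R247.Dir593
open Crest.Agent.R235.SWDefs_53 Crest.Agent.R235.Fs4_546 Crest.Agent.R235.SwcProd_215
open Crest.Agent.R235.SWUni_312

noncomputable section

local notation "ipp" => Crest.Agent.R249.Tv57.ip 4

section defs

variable {M : Type v} [MetricSpace M] [CompactSpace M] [ConnectedSpace M]
  [ChartedSpace (EuclideanSpace ℝ (Fin 4)) M] [IsManifold (𝓡 4) ∞ M]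
  [RiemannianBundle (fun p : M => TangentSpace (𝓡 4) p)]
  [IsContMDiffRiemannianBundle (𝓡 4) ∞ (EuclideanSpace ℝ (Fin 4))
    (fun p : M => TangentSpace (𝓡 4) p)]
  [IsRiemannianManifold (𝓡 4) M] [MeasurableSpace M] [BorelSpace M]
  [SecondCountableTopology M] [Nonempty M]
  {κ0 κ1 κT : Type} [Fintype κ0] [Fintype κ1] [Fintype κT]

/-- `A` is additive on smooth sections. -/
theorem A_add [IsFiniteMeasureOnCompacts (μHE[4] : Measure M)] {κ κ' : Type} [Fintype κ]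
    [Fintype κ'] {D0 : Dat 4 M κ} {D1 : Dat 4 M κ'} (P : OpPair D0 D1) {u v : κ → M → ℝ}
    (hu : SmV (n := 4) u) (hus : D0.Sec u) (hv : SmV (n := 4) v) (hvs : D0.Sec v) :
    P.A (u + v) = P.A u + P.A v := by
  have h := congrArg Subtype.val (map_add (lA P) (⟨u, hu, hus⟩ : SmS D0) (⟨v, hv, hvs⟩ : SmS D0))
  exact h

theorem sec_add {κ : Type} [Fintype κ] {D : Dat 4 M κ} {u v : κ → M → ℝ} (hu : D.Sec u)
    (hv : D.Sec v) : D.Sec (u + v) := by
  intro y z
  simp only [Pi.add_apply, mul_add, Finset.sum_add_distrib]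
  rw [hu y z, hv y z]

theorem sm_add {κ : Type} {u v : κ → M → ℝ} (hu : SmV (n := 4) u) (hv : SmV (n := 4) v) :
    SmV (n := 4) (u + v) := fun y => (hu y).add (hv y)

theorem cm_add (S : SWS M κ0 κ1 κT) (b : κT → M → ℝ) (u v : κ0 → M → ℝ) :
    S.cm b (u + v) = S.cm b u + S.cm b v := by
  funext x z
  simp only [SWS.cm, Pi.add_apply, ← Finset.sum_add_distrib]
  exact Finset.sum_congr rfl fun A _ => Finset.sum_congr rfl fun y _ => by ring

theorem sm_cm {S : SWS M κ0 κ1 κT} (hS : S.OK) {b : κT → M → ℝ} (hb : SmV (n := 4) b)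
    {u : κ0 → M → ℝ} (hu : SmV (n := 4) u) : SmV (n := 4) (S.cm b u) := fun x =>
  contMDiff_finsetSum fun A _ => contMDiff_finsetSum fun y _ =>
    ((hb A).mul (hu y)).mul (hS.smcl A x y)

/-- `(A + c(b) i) u` -/
def dD (S : SWS M κ0 κ1 κT) (b : κT → M → ℝ) (u : κ0 → M → ℝ) : κ1 → M → ℝ :=
  fun x z => S.P.A u x z + S.cm b u x z

theorem sm_dD {S : SWS M κ0 κ1 κT} (hS : S.OK) {b : κT → M → ℝ} (hb : SmV (n := 4) b)
    {u : κ0 → M → ℝ} (hu : SmV (n := 4) u) (hus : S.D0.Sec u) : SmV (n := 4) (dD S b u) :=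
  fun x => (S.P.smA u hu hus x).add (sm_cm hS hb hu x)

theorem smF_nab {S : SWS M κ0 κ1 κT} (hS : S.OK) {b : κT → M → ℝ} (hb : SmV (n := 4) b)
    {s : κ0 → M → ℝ} (hs : SmV (n := 4) s) (y : κ0) : SmF (fun z => S.nab b s y z) :=
  (smF_cv S.D0 hs y).add (SmF.smul (contMDiff_finsetSum fun y' _ => (hS.smJ y y').mul (hs y'))
    (SmF.sum _ fun A _ => SmF.smul (hb A) (hS.sms A)))

theorem cont_nsq {X : M → EuclideanSpace ℝ (Fin 4)} (hX : SmF X) :
    Continuous fun z => ‖X z‖ ^ 2 := by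
  have h := (hX.inner hX).continuous
  simp only [real_inner_self_eq_norm_sq] at h
  exact h

/-- a bound of the potential. -/
theorem exists_KQ (D : Dat 4 M κ0) : ∃ K : ℝ, 0 ≤ K ∧ ∀ z (v : κ0 → ℝ),
    |∑ y, ∑ y', D.Q y y' z * v y' * v y| ≤ K * ∑ y, v y ^ 2 := by
  have h1 : ∀ y y', ∃ c : ℝ, ∀ z, |D.Q y y' z| ≤ c := by
    intro y y'
    obtain ⟨c, hc⟩ := isCompact_univ.exists_bound_of_continuousOn
      (D.smQ y y').continuous.continuousOn
    exact ⟨c, fun z => hc z (mem_univ z)⟩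
  choose c hc using h1
  obtain ⟨z0⟩ := ‹Nonempty M›
  have hc0 : ∀ y y', 0 ≤ c y y' := fun y y' => (abs_nonneg _).trans (hc y y' z0)
  set K0 : ℝ := ∑ y, ∑ y', c y y' with hK0
  have hle : ∀ y y', c y y' ≤ K0 := by
    intro y y'
    have e1 : c y y' ≤ ∑ y', c y y' :=
      Finset.single_le_sum (f := fun y' => c y y') (fun y' _ => hc0 y y') (Finset.mem_univ y')
    have e2 : ∑ y', c y y' ≤ K0 :=
      Finset.single_le_sum (f := fun y => ∑ y', c y y')
        (fun y _ => Finset.sum_nonneg fun y' _ => hc0 y y') (Finset.mem_univ y)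
    exact e1.trans e2
  have hK00 : 0 ≤ K0 := Finset.sum_nonneg fun y _ => Finset.sum_nonneg fun y' _ => hc0 y y'
  refine ⟨K0 * Fintype.card κ0, by positivity, fun z v => ?_⟩
  have h2 : ∀ y y', |D.Q y y' z * v y' * v y| ≤ K0 * ((v y ^ 2 + v y' ^ 2) / 2) := by
    intro y y'
    rw [mul_assoc, abs_mul]
    refine mul_le_mul ((hc y y' z).trans (hle y y')) ?_ (abs_nonneg _) hK00
    rw [abs_le]
    constructor <;> nlinarith [sq_nonneg (v y' - v y), sq_nonneg (v y' + v y)]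
  calc |∑ y, ∑ y', D.Q y y' z * v y' * v y| ≤ ∑ y, ∑ y', |D.Q y y' z * v y' * v y| :=
        (Finset.abs_sum_le_sum_abs _ _).trans
          (Finset.sum_le_sum fun y _ => Finset.abs_sum_le_sum_abs _ _)
    _ ≤ ∑ y : κ0, ∑ y' : κ0, K0 * ((v y ^ 2 + v y' ^ 2) / 2) :=
        Finset.sum_le_sum fun y _ => Finset.sum_le_sum fun y' _ => h2 y y'
    _ = K0 * Fintype.card κ0 * ∑ y, v y ^ 2 := by
        simp only [← Finset.mul_sum, ← Finset.sum_div, Finset.sum_add_distrib, Finset.sum_const,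
          Finset.card_univ, nsmul_eq_mul]
        ring

end defs

section main

variable {M : Type v} [MetricSpace M] [CompactSpace M] [ConnectedSpace M]
  [ChartedSpace (EuclideanSpace ℝ (Fin 4)) M] [IsManifold (𝓡 4) ∞ M]
  [RiemannianBundle (fun p : M => TangentSpace (𝓡 4) p)]
  [IsContMDiffRiemannianBundle (𝓡 4) ∞ (EuclideanSpace ℝ (Fin 4))
    (fun p : M => TangentSpace (𝓡 4) p)]
  [IsRiemannianManifold (𝓡 4) M] [MeasurableSpace M] [BorelSpace M]
  [SecondCountableTopology M] [Nonempty M] [IsFiniteMeasureOnCompacts (μHE[4] : Measure M)]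
  {κ0 κ1 κT : Type} [Fintype κ0] [Fintype κ1] [Fintype κT]
  {S : SWS M κ0 κ1 κT} {d : SWD M κT} {τ : TD M κT} {C : ℝ} {t : E3} {a : κT → M → ℝ}
  {u : κ0 → M → ℝ}

/-- `|∇^E s|²` -/
def fG (S : SWS M κ0 κ1 κT) (τ : TD M κT) (b : κT → M → ℝ) (u : κ0 → M → ℝ) (z : M) : ℝ :=
  ∑ y, ‖τ.nE S b (cE τ S u) y z‖ ^ 2

/-- `|s|²` -/
def fN0 (S : SWS M κ0 κ1 κT) (τ : TD M κT) (u : κ0 → M → ℝ) (z : M) : ℝ := ∑ y, cE τ S u y z ^ 2

/-- `|s'|²` -/
def fN1 (S : SWS M κ0 κ1 κT) (τ : TD M κT) (u : κ0 → M → ℝ) (z : M) : ℝ := ∑ y, cE' τ S u y z ^ 2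

/-- `c_k = ⟨ρ_k s, s'⟩` -/
def fc (S : SWS M κ0 κ1 κT) (τ : TD M κT) (u : κ0 → M → ℝ) (k : Fin 3) (z : M) : ℝ :=
  rb S k z (fun y => cE τ S u y z) (fun y => cE' τ S u y z)

/-- `g · n` -/
def fgn (S : SWS M κ0 κ1 κT) (τ : TD M κT) (d : SWD M κT) (t : E3) (a : κT → M → ℝ)
    (u : κ0 → M → ℝ) (z : M) : ℝ := ∑ k : Fin 3, gC S d t a u k.succ z * τ.n k z

/-- `g · c` -/
def fgc (S : SWS M κ0 κ1 κT) (τ : TD M κT) (d : SWD M κT) (t : E3) (a : κT → M → ℝ)
    (u : κ0 → M → ℝ) (z : M) : ℝ := ∑ k : Fin 3, gC S d t a u k.succ z * fc S τ u k z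

/-- `f_E · n` -/
def ffn (τ : TD M κT) (z : M) : ℝ := ∑ k : Fin 3, τ.fE k z * τ.n k z

/-- `⟨Q v, v⟩`, `v = ρ^{3/4} s'` -/
def fQ (S : SWS M κ0 κ1 κT) (τ : TD M κT) (u : κ0 → M → ℝ) (z : M) : ℝ :=
  ∑ y, ∑ y', S.D0.Q y y' z * τ.sc (3 / 4) (cE' τ S u) y' z * τ.sc (3 / 4) (cE' τ S u) y z

/-- **(1)** the curvature equation, with the components. -/
theorem curv (hS : S.OK) (hτ : τ.OK S C) (hF : τ.Fit S d t) (ha : SmV (n := 4) a)
    (hsa : S.DT.Sec a) (hsu : S.D0.Sec u) (k : Fin 3) (z : M) :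
    S.H.B (a + d.th t) k.succ z + τ.fE k z =
      qq τ z ^ 2 * ((d.r + (fN1 S τ u z - fN0 S τ u z) / 2) * τ.n k z + fc S τ u k z) +
        gC S d t a u k.succ z := by
  have h1 : S.H.B (a + d.th t) = S.H.B a + S.H.B (d.th t) :=
    A_add S.H.swap ha hsa hF.smth hF.secth
  have h2 : rhs S d t u k.succ z =
      d.mu t z * ((1 / 2) * S.rq k u z) + d.r * d.wt t k z + d.et t k z := rfl
  have h3 : gC S d t a u k.succ z = S.H.B a k.succ z - rhs S d t u k.succ z := rfl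
  have h4 : (S.H.B a + S.H.B (d.th t)) k.succ z = S.H.B a k.succ z + S.H.B (d.th t) k.succ z := rfl
  have hq := qq_pos hτ z
  rw [h1, h4, h3, h2, hF.mu z, hF.wt k z, hF.et k z, rq_u hS hτ hsu k z, rpow_mhalf hτ z,
    ← qq_sq hτ z]
  have e : (qq τ z)⁻¹ * (1 / 2 * (qq τ z ^ 3 *
      ((∑ y, cE' τ S u y z ^ 2 - ∑ y, cE τ S u y z ^ 2) * τ.n k z +
      2 * rb S k z (fun y => cE τ S u y z) (fun y => cE' τ S u y z)))) =
      qq τ z ^ 2 * (((fN1 S τ u z - fN0 S τ u z) / 2) * τ.n k z + fc S τ u k z) := by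
    unfold fN1 fN0 fc
    field_simp
  rw [e]
  ring

theorem curv_n (hS : S.OK) (hτ : τ.OK S C) (hF : τ.Fit S d t) (ha : SmV (n := 4) a)
    (hsa : S.DT.Sec a) (hsu : S.D0.Sec u) (z : M) :
    ∑ k : Fin 3, (S.H.B (a + d.th t) k.succ z + τ.fE k z) * τ.n k z =
      qq τ z ^ 2 * (d.r + (fN1 S τ u z - fN0 S τ u z) / 2) + fgn S τ d t a u z := by
  have hP := pt_cE (S := S) hτ hsu z
  have e : ∀ k : Fin 3, (S.H.B (a + d.th t) k.succ z + τ.fE k z) * τ.n k z =
      qq τ z ^ 2 * (d.r + (fN1 S τ u z - fN0 S τ u z) / 2) * τ.n k z ^ 2 +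
        (qq τ z ^ 2 * (τ.n k z * fc S τ u k z) + gC S d t a u k.succ z * τ.n k z) := by
    intro k
    rw [curv hS hτ hF ha hsa hsu k z]
    ring
  simp only [e]
  rw [Finset.sum_add_distrib, Finset.sum_add_distrib, ← Finset.mul_sum, ← Finset.mul_sum,
    hτ.norm z]
  have h0 : ∑ k, τ.n k z * fc S τ u k z = 0 := hP.nc hS
  rw [h0]
  unfold fgn
  ring

theorem curv_c (hS : S.OK) (hτ : τ.OK S C) (hF : τ.Fit S d t) (ha : SmV (n := 4) a)
    (hsa : S.DT.Sec a) (hsu : S.D0.Sec u) (z : M) :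
    ∑ k : Fin 3, (S.H.B (a + d.th t) k.succ z + τ.fE k z) * fc S τ u k z =
      qq τ z ^ 2 * (fN0 S τ u z * fN1 S τ u z) + fgc S τ d t a u z := by
  have hP := pt_cE (S := S) hτ hsu z
  have e : ∀ k : Fin 3, (S.H.B (a + d.th t) k.succ z + τ.fE k z) * fc S τ u k z =
      qq τ z ^ 2 * (d.r + (fN1 S τ u z - fN0 S τ u z) / 2) * (τ.n k z * fc S τ u k z) +
        (qq τ z ^ 2 * fc S τ u k z ^ 2 + gC S d t a u k.succ z * fc S τ u k z) := by
    intro k
    rw [curv hS hτ hF ha hsa hsu k z]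
    ring
  simp only [e]
  rw [Finset.sum_add_distrib, Finset.sum_add_distrib, ← Finset.mul_sum, ← Finset.mul_sum]
  have h0 : ∑ k, τ.n k z * fc S τ u k z = 0 := hP.nc hS
  have h1 : ∑ k, fc S τ u k z ^ 2 = fN0 S τ u z * fN1 S τ u z := hP.csq hS hτ
  rw [h0, h1]
  unfold fgc
  ring

/-- **(4)** Stokes. -/
theorem top_int (hS : S.OK) (hτ : τ.OK S C) {b : κT → M → ℝ} (hb : SmV (n := 4) b)
    (hsb : S.DT.Sec b) :
    ∫ z, ∑ k : Fin 3, τ.rr z * τ.n k z * S.H.B b k.succ z ∂(μHE[4] : Measure M) = 0 := by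
  set w : Fin 4 → M → ℝ := Fin.cons (fun _ => 0) fun k z => τ.rr z * τ.n k z with hw
  have hsm : SmV (n := 4) w := by
    intro a
    refine Fin.cases ?_ (fun k => ?_) a
    · exact contMDiff_const
    · exact hτ.smrr.mul (hτ.smn k)
  have hsec : S.DL.Sec w := by
    intro a z
    simp only [hS.fullL, ite_mul, one_mul, zero_mul, Finset.sum_ite_eq, Finset.mem_univ, if_true]
  have h := S.H.adj w b hsm hsec hb hsb
  have e1 : Crest.Agent.R249.Tv57.ip 4 (S.H.A w) b = 0 := by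
    unfold Crest.Agent.R249.Tv57.ip
    simp only [hw, hτ.harm, zero_mul, Finset.sum_const_zero, integral_zero]
  have e2 : Crest.Agent.R249.Tv57.ip 4 w (S.H.B b) =
      ∫ z, ∑ k : Fin 3, τ.rr z * τ.n k z * S.H.B b k.succ z ∂(μHE[4] : Measure M) := by
    unfold Crest.Agent.R249.Tv57.ip
    refine integral_congr_ae (Eventually.of_forall fun z => ?_)
    simp only []
    rw [Fin.sum_univ_succ]
    have e3 : w 0 z = 0 := rfl
    rw [e3, zero_mul, zero_add]
    rfl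
  rw [e1, e2] at h
  exact h.symm

theorem cont_fc (hS : S.OK) (hτ : τ.OK S C) (hu : SmV (n := 4) u) (k : Fin 3) :
    Continuous fun z => fc S τ u k z := by
  unfold fc rb
  exact continuous_finsetSum _ fun y _ => continuous_finsetSum _ fun y' _ =>
    ((hS.smrho k y y').continuous.mul (sm_cE hS hτ hu y).continuous).mul
      (sm_cE' hS hτ hu y').continuous

theorem cont_fN0 (hS : S.OK) (hτ : τ.OK S C) (hu : SmV (n := 4) u) : Continuous (fN0 S τ u) :=
  continuous_finsetSum _ fun y _ => (sm_cE hS hτ hu y).continuous.pow 2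

theorem cont_fN1 (hS : S.OK) (hτ : τ.OK S C) (hu : SmV (n := 4) u) : Continuous (fN1 S τ u) :=
  continuous_finsetSum _ fun y _ => (sm_cE' hS hτ hu y).continuous.pow 2

theorem cont_qq (hτ : τ.OK S C) : Continuous (qq τ) := hτ.smrr.continuous.sqrt

theorem cont_g (hS : S.OK) (hτ : τ.OK S C) (hF : τ.Fit S d t) (ha : SmV (n := 4) a)
    (hsa : S.DT.Sec a) (hu : SmV (n := 4) u) (hsu : S.D0.Sec u) (k : Fin 4) :
    Continuous fun z => gC S d t a u k z := by
  have hb : SmV (n := 4) (a + d.th t) := sm_add ha hF.smth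
  have hsb : S.DT.Sec (a + d.th t) := sec_add hsa hF.secth
  have h0 := cont_fN0 hS hτ hu
  have h1 := cont_fN1 hS hτ hu
  have hq := cont_qq hτ
  refine Fin.cases ?_ (fun k => ?_) k
  · have e : (fun z => gC S d t a u 0 z) = fun z => S.H.B a 0 z := by
      funext z
      show S.H.B a 0 z - 0 = _
      rw [sub_zero]
    rw [e]
    exact (S.H.smB a ha hsa 0).continuous
  · have e : (fun z => gC S d t a u k.succ z) = fun z =>
        S.H.B (a + d.th t) k.succ z + τ.fE k z -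
        qq τ z ^ 2 * ((d.r + (fN1 S τ u z - fN0 S τ u z) / 2) * τ.n k z + fc S τ u k z) := by
      funext z
      rw [curv hS hτ hF ha hsa hsu k z]
      ring
    rw [e]
    have h2 := cont_fc hS hτ hu k
    have h3 := (S.H.smB _ hb hsb k.succ).continuous
    have h4 := (hτ.smfE k).continuous
    have h5 := (hτ.smn k).continuous
    have h6 : Continuous fun z => S.H.B (a + d.th t) k.succ z := h3
    have h7 : Continuous fun z => τ.fE k z := h4
    have h8 : Continuous fun z => τ.n k z := h5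
    exact (h6.add h7).sub ((hq.pow 2).mul (((continuous_const.add
      ((h1.sub h0).div_const 2)).mul h8).add h2))

theorem abs_n_le (hτ : τ.OK S C) (k : Fin 3) (z : M) : |τ.n k z| ≤ 1 := by
  rw [← sq_le_one_iff_abs_le_one, ← hτ.norm z]
  exact Finset.single_le_sum (f := fun k => τ.n k z ^ 2) (fun k _ => sq_nonneg _)
    (Finset.mem_univ k)

/-- **the estimates hold for the components** -/
theorem est (hS : S.OK) (hτ : τ.OK S C) (hF : τ.Fit S d t) (ha : SmV (n := 4) a)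
    (hsa : S.DT.Sec a) (hu : SmV (n := 4) u) (hsu : S.D0.Sec u) {m0 m1 B0 KQ : ℝ} (hm0 : 0 < m0)
    (hm : ∀ z, m0 ≤ τ.rr z ∧ τ.rr z ≤ m1) (hB : ∀ k z, |τ.fE k z| ≤ B0) (hr : 0 < d.r)
    (hKQ : ∀ z (v : κ0 → ℝ), |∑ y, ∑ y', S.D0.Q y y' z * v y' * v y| ≤ KQ * ∑ y, v y ^ 2) :
    Est (μHE[4] : Measure M) (qq τ) (fG S τ (a + d.th t) u) (fN0 S τ u) (fN1 S τ u)
      (fgn S τ d t a u) (fgc S τ d t a u) (ffn τ) (fun z => ∑ x, fD S d t a u x z ^ 2)
      (fun z => ∑ x, dD S (a + d.th t) (τ.sc (3 / 4) (cE τ S u)) x z ^ 2)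
      (fun z => ∑ x, dD S (a + d.th t) (τ.sc (3 / 4) (cE' τ S u)) x z ^ 2)
      (fun z => ∑ x, dD S (a + d.th t) (τ.sc (3 / 4) (cE τ S u)) x z *
        dD S (a + d.th t) (τ.sc (3 / 4) (cE' τ S u)) x z)
      (fun z => ∑ y, ‖S.nab (a + d.th t) (τ.sc (3 / 4) (cE' τ S u)) y z‖ ^ 2) (fQ S τ u)
      (√m0) (√m1) (3 * B0) KQ d.r C := by
  have hb : SmV (n := 4) (a + d.th t) := sm_add ha hF.smth
  have hsb : S.DT.Sec (a + d.th t) := sec_add hsa hF.secth
  have hE := secE_cE hτ hsu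
  have hE' := secE'_cE' hτ hsu
  have hs := sm_cE hS hτ hu
  have hs' := sm_cE' hS hτ hu
  have hv := sm_sc hτ hs
  have hvs : S.D0.Sec (τ.sc (3 / 4) (cE τ S u)) := sec_sc hE.1
  have hv' := sm_sc hτ hs'
  have hvs' : S.D0.Sec (τ.sc (3 / 4) (cE' τ S u)) := sec_sc hE'.1
  have sA := sm_dD hS hb hv hvs
  have sB := sm_dD hS hb hv' hvs'
  have hfD : ∀ x z, fD S d t a u x z = dD S (a + d.th t) (τ.sc (3 / 4) (cE τ S u)) x z +
      dD S (a + d.th t) (τ.sc (3 / 4) (cE' τ S u)) x z := by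
    intro x z
    have e0 : fD S d t a u x z = S.P.A u x z + S.cm (a + d.th t) u x z := rfl
    have e1 : S.P.A u = S.P.A (τ.sc (3 / 4) (cE τ S u)) + S.P.A (τ.sc (3 / 4) (cE' τ S u)) := by
      rw [← A_add S.P hv hvs hv' hvs', sc_add hτ u]
    have e2 : S.cm (a + d.th t) u = S.cm (a + d.th t) (τ.sc (3 / 4) (cE τ S u)) +
        S.cm (a + d.th t) (τ.sc (3 / 4) (cE' τ S u)) := by
      rw [← cm_add, sc_add hτ u]
    rw [e0, e1, e2]
    simp only [Pi.add_apply, dD]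
    ring
  have hcn : ∀ k, Continuous fun z => τ.n k z := fun k => (hτ.smn k).continuous
  refine
    { cq := cont_qq hτ
      cG := continuous_finsetSum _ fun y _ => cont_nsq (smF_nE hS hτ hb hs y)
      cN0 := cont_fN0 hS hτ hu
      cN1 := cont_fN1 hS hτ hu
      cgn := continuous_finsetSum _ fun k _ =>
        (cont_g hS hτ hF ha hsa hu hsu k.succ).mul (hcn k)
      cgc := continuous_finsetSum _ fun k _ =>
        (cont_g hS hτ hF ha hsa hu hsu k.succ).mul (cont_fc hS hτ hu k)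
      cfn := continuous_finsetSum _ fun k _ => (hτ.smfE k).continuous.mul (hcn k)
      cF2 := ?_
      cA2 := continuous_finsetSum _ fun x _ => (sA x).continuous.pow 2
      cB2 := continuous_finsetSum _ fun x _ => (sB x).continuous.pow 2
      cAB := continuous_finsetSum _ fun x _ => (sA x).continuous.mul (sB x).continuous
      cW := continuous_finsetSum _ fun y _ => cont_nsq (smF_nab hS hb hv' y)
      cQv := continuous_finsetSum _ fun y _ => continuous_finsetSum _ fun y' _ =>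
        ((S.D0.smQ y y').continuous.mul (hv' y').continuous).mul (hv' y).continuous
      G0 := fun z => Finset.sum_nonneg fun y _ => sq_nonneg _
      N00 := fun z => Finset.sum_nonneg fun y _ => sq_nonneg _
      N10 := fun z => Finset.sum_nonneg fun y _ => sq_nonneg _
      A20 := fun z => Finset.sum_nonneg fun y _ => sq_nonneg _
      F20 := fun z => Finset.sum_nonneg fun y _ => sq_nonneg _
      W0 := fun z => Finset.sum_nonneg fun y _ => sq_nonneg _
      q0p := Real.sqrt_pos.2 hm0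
      rp := hr
      hq := fun z => ⟨Real.sqrt_le_sqrt (hm z).1, Real.sqrt_le_sqrt (hm z).2⟩
      hfn := ?_
      hQ := ?_
      hAB := ?_
      hB2 := ?_
      i2 := ?_
      i3 := ?_
      i4 := ?_
      i6 := ?_ }
  · -- cF2
    have : (fun z => ∑ x, fD S d t a u x z ^ 2) = fun z => ∑ x,
        (dD S (a + d.th t) (τ.sc (3 / 4) (cE τ S u)) x z +
      dD S (a + d.th t) (τ.sc (3 / 4) (cE' τ S u)) x z) ^ 2 := by
      funext z
      exact Finset.sum_congr rfl fun x _ => by rw [hfD x z]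
    rw [this]
    exact continuous_finsetSum _ fun x _ => ((sA x).continuous.add (sB x).continuous).pow 2
  · -- hfn
    intro z
    have h1 : ∀ k, |τ.fE k z * τ.n k z| ≤ B0 := by
      intro k
      rw [abs_mul]
      calc |τ.fE k z| * |τ.n k z| ≤ B0 * 1 :=
            mul_le_mul (hB k z) (abs_n_le hτ k z) (abs_nonneg _) ((abs_nonneg _).trans (hB k z))
        _ = B0 := mul_one _
    calc |ffn τ z| ≤ ∑ k, |τ.fE k z * τ.n k z| := Finset.abs_sum_le_sum_abs _ _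
      _ ≤ ∑ _k : Fin 3, B0 := Finset.sum_le_sum fun k _ => h1 k
      _ = 3 * B0 := by simp
  · -- hQ
    intro z
    have h1 := hKQ z (fun y => τ.sc (3 / 4) (cE' τ S u) y z)
    have h2 : ∑ y, τ.sc (3 / 4) (cE' τ S u) y z ^ 2 = qq τ z ^ 3 * fN1 S τ u z := by
      unfold fN1 TD.sc
      rw [← rpow_34 hτ z, Finset.mul_sum]
      exact Finset.sum_congr rfl fun y _ => by ring
    rw [← h2]
    exact h1
  · -- hAB
    intro z
    have : ∀ x, dD S (a + d.th t) (τ.sc (3 / 4) (cE τ S u)) x z *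
        dD S (a + d.th t) (τ.sc (3 / 4) (cE' τ S u)) x z ≤
        (fD S d t a u x z ^ 2 - dD S (a + d.th t) (τ.sc (3 / 4) (cE τ S u)) x z ^ 2) / 2 := by
      intro x
      rw [hfD x z]
      nlinarith [sq_nonneg (dD S (a + d.th t) (τ.sc (3 / 4) (cE' τ S u)) x z)]
    refine (Finset.sum_le_sum fun x _ => this x).trans (le_of_eq ?_)
    rw [← Finset.sum_div, Finset.sum_sub_distrib]
  · -- hB2
    intro z
    rw [Finset.mul_sum, Finset.mul_sum, ← Finset.sum_add_distrib]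
    refine Finset.sum_le_sum fun x _ => ?_
    rw [hfD x z]
    nlinarith [sq_nonneg (2 * dD S (a + d.th t) (τ.sc (3 / 4) (cE τ S u)) x z +
      dD S (a + d.th t) (τ.sc (3 / 4) (cE' τ S u)) x z)]
  · -- i2
    have h := hτ.T1 (a + d.th t) (cE τ S u) hb hsb hs hE
    have e1 : ∀ z, (qq τ z)⁻¹ * ∑ x, dD S (a + d.th t) (τ.sc (3 / 4) (cE τ S u)) x z ^ 2 =
        τ.rr z ^ (-(1 / 2) : ℝ) * ∑ x, ((S.P.A (τ.sc (3 / 4) (cE τ S u)) +
          S.cm (a + d.th t) (τ.sc (3 / 4) (cE τ S u))) x z) ^ 2 := by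
      intro z
      rw [rpow_mhalf hτ z]
      rfl
    simp only [e1]
    rw [h]
    refine integral_congr_ae (Eventually.of_forall fun z => ?_)
    have e2 := curv_n hS hτ hF ha hsa hsu z
    simp only []
    rw [e2, ← qq_sq hτ z]
    rfl
  · -- i3
    have h := hτ.T2 (a + d.th t) (cE τ S u) (cE' τ S u) hb hsb hs hs' hE hE'
    have e1 : ∀ z, (qq τ z)⁻¹ * (∑ x, dD S (a + d.th t) (τ.sc (3 / 4) (cE τ S u)) x z *
        dD S (a + d.th t) (τ.sc (3 / 4) (cE' τ S u)) x z) -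
        qq τ z ^ 2 * (qq τ z ^ 2 * (fN0 S τ u z * fN1 S τ u z) + fgc S τ d t a u z) =
        τ.rr z ^ (-(1 / 2) : ℝ) *
        (∑ x, (S.P.A (τ.sc (3 / 4) (cE τ S u)) +
            S.cm (a + d.th t) (τ.sc (3 / 4) (cE τ S u))) x z *
          (S.P.A (τ.sc (3 / 4) (cE' τ S u)) +
            S.cm (a + d.th t) (τ.sc (3 / 4) (cE' τ S u))) x z) -
        τ.rr z * ∑ k : Fin 3, (S.H.B (a + d.th t) k.succ z + τ.fE k z) *
          ∑ y, ∑ y', S.rho k y y' z * cE τ S u y z * cE' τ S u y' z := by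
      intro z
      have e2 := curv_c hS hτ hF ha hsa hsu z
      have e3 : ∀ k : Fin 3, ∑ y, ∑ y', S.rho k y y' z * cE τ S u y z * cE' τ S u y' z =
        fc S τ u k z := fun k => rfl
      simp only [e3]
      rw [e2, rpow_mhalf hτ z, qq_sq hτ z]
      rfl
    simp only [e1]
    exact h
  · -- i4
    have h := top_int hS hτ hb hsb
    have hcB : ∀ k : Fin 3, Continuous fun z => S.H.B (a + d.th t) k.succ z := fun k =>
      (S.H.smB _ hb hsb k.succ).continuous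
    have e1 : ∀ z, qq τ z ^ 2 * (qq τ z ^ 2 * (d.r + (fN1 S τ u z - fN0 S τ u z) / 2) +
        fgn S τ d t a u z) =
        (∑ k : Fin 3, τ.rr z * τ.n k z * S.H.B (a + d.th t) k.succ z) +
          qq τ z ^ 2 * ffn τ z := by
      intro z
      rw [← curv_n hS hτ hF ha hsa hsu z, ← qq_sq hτ z]
      unfold ffn
      rw [Finset.mul_sum, Finset.mul_sum, ← Finset.sum_add_distrib]
      exact Finset.sum_congr rfl fun k _ => by ring
    simp only [e1]
    rw [iadd, h, zero_add]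
    · exact continuous_finsetSum _ fun k _ => (hτ.smrr.continuous.mul (hcn k)).mul (hcB k)
    · exact ((cont_qq hτ).pow 2).mul
        (continuous_finsetSum _ fun k _ => (hτ.smfE k).continuous.mul (hcn k))
  · -- i6
    have h := hS.weitz (a + d.th t) (τ.sc (3 / 4) (cE' τ S u)) (τ.sc (3 / 4) (cE' τ S u)) hb hsb
      hv' hvs' hv' hvs'
    have e0 : ∫ z, ∑ x, dD S (a + d.th t) (τ.sc (3 / 4) (cE' τ S u)) x z ^ 2
        ∂(μHE[4] : Measure M) =
        Crest.Agent.R249.Tv57.ip 4 (S.P.A (τ.sc (3 / 4) (cE' τ S u)) +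
          S.cm (a + d.th t) (τ.sc (3 / 4) (cE' τ S u)))
          (S.P.A (τ.sc (3 / 4) (cE' τ S u)) +
          S.cm (a + d.th t) (τ.sc (3 / 4) (cE' τ S u))) := by
      unfold Crest.Agent.R249.Tv57.ip
      refine integral_congr_ae (Eventually.of_forall fun z => ?_)
      exact Finset.sum_congr rfl fun x _ => sq _
    rw [e0, h]
    refine integral_congr_ae (Eventually.of_forall fun z => ?_)
    simp only [real_inner_self_eq_norm_sq]
    have hP := pt_cE (S := S) hτ hsu z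
    have e1 : ∀ k : Fin 3, ∑ y, ∑ y', S.rho k y y' z * τ.sc (3 / 4) (cE' τ S u) y z *
        τ.sc (3 / 4) (cE' τ S u) y' z = qq τ z ^ 3 * (fN1 S τ u z * τ.n k z) := by
      intro k
      have e2 : ∑ y, ∑ y', S.rho k y y' z * τ.sc (3 / 4) (cE' τ S u) y z *
        τ.sc (3 / 4) (cE' τ S u) y' z = rb S k z
          (fun y => τ.rr z ^ (3 / 4 : ℝ) * cE' τ S u y z)
          (fun y => τ.rr z ^ (3 / 4 : ℝ) * cE' τ S u y z) := rfl
      rw [e2, rb_smul, hP.rb1 hS hτ k, rpow_34 hτ z]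
      rfl
    simp only [e1]
    have e3 : ∑ k : Fin 3, S.H.B (a + d.th t) k.succ z *
        (qq τ z ^ 3 * (fN1 S τ u z * τ.n k z)) = qq τ z ^ 3 * fN1 S τ u z *
        (qq τ z ^ 2 * (d.r + (fN1 S τ u z - fN0 S τ u z) / 2) + fgn S τ d t a u z - ffn τ z) := by
      rw [← curv_n hS hτ hF ha hsa hsu z]
      unfold ffn
      rw [← Finset.sum_sub_distrib, Finset.mul_sum]
      exact Finset.sum_congr rfl fun k _ => by ring
    rw [e3]
    rfl

/-- Cauchy-Schwarz for the curvature error. -/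
theorem gn_le (hτ : τ.OK S C) (z : M) :
    |fgn S τ d t a u z| ≤ √(∑ k, gC S d t a u k z ^ 2) := by
  refine Real.abs_le_sqrt ?_
  have h1 := Finset.sum_mul_sq_le_sq_mul_sq Finset.univ
    (fun k : Fin 3 => gC S d t a u k.succ z) (fun k => τ.n k z)
  rw [hτ.norm z, mul_one] at h1
  refine h1.trans ?_
  rw [Fin.sum_univ_succ (n := 3)]
  have : 0 ≤ gC S d t a u 0 z ^ 2 := sq_nonneg _
  linarith

theorem gc_le (hS : S.OK) (hτ : τ.OK S C) (hsu : S.D0.Sec u) (z : M) :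
    |fgc S τ d t a u z| ≤ √(∑ k, gC S d t a u k z ^ 2) * (fN0 S τ u z + fN1 S τ u z) := by
  have hP := pt_cE (S := S) hτ hsu z
  have n0 : 0 ≤ fN0 S τ u z := Finset.sum_nonneg fun y _ => sq_nonneg _
  have n1 : 0 ≤ fN1 S τ u z := Finset.sum_nonneg fun y _ => sq_nonneg _
  have hg : 0 ≤ ∑ k, gC S d t a u k z ^ 2 := Finset.sum_nonneg fun y _ => sq_nonneg _
  have h1 := Finset.sum_mul_sq_le_sq_mul_sq Finset.univ
    (fun k : Fin 3 => gC S d t a u k.succ z) (fun k => fc S τ u k z)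
  have h2 : ∑ k, fc S τ u k z ^ 2 = fN0 S τ u z * fN1 S τ u z := hP.csq hS hτ
  rw [h2] at h1
  have h3 : ∑ k : Fin 3, gC S d t a u k.succ z ^ 2 ≤ ∑ k, gC S d t a u k z ^ 2 := by
    rw [Fin.sum_univ_succ (n := 3)]
    have : 0 ≤ gC S d t a u 0 z ^ 2 := sq_nonneg _
    linarith
  have h4 : fgc S τ d t a u z ^ 2 ≤
      (√(∑ k, gC S d t a u k z ^ 2) * (fN0 S τ u z + fN1 S τ u z)) ^ 2 := by
    rw [mul_pow, Real.sq_sqrt hg]
    refine h1.trans (mul_le_mul h3 ?_ (mul_nonneg n0 n1) hg)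
    nlinarith
  exact abs_le_of_sq_le_sq h4 (by positivity)

end main

/-- **TAUS** -/
theorem taus : TAUS.{v} := by
  intro M _ _ _ _ _ _ _ _ _ _ _ _ _ κ0 κ1 κT _ _ _ S hS m0 m1 B0 C hm0
  obtain ⟨KQ, hKQ0, hKQ⟩ := exists_KQ S.D0
  have hq0 : 0 < √m0 := Real.sqrt_pos.2 hm0
  have hq1 : 0 ≤ √m1 := Real.sqrt_nonneg _
  set V : ℝ := (μHE[4] : Measure M).real univ with hV
  have hV0 : 0 ≤ V := measureReal_nonneg
  set B : ℝ := 3 * |B0| with hB
  have hBB : 0 ≤ B := by positivity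
  refine ⟨Kc (√m0) (√m1) B V C, 1 + 4 * C ^ 2 / √m0 ^ 6 + 2 * ((KQ + B) * √m1 ^ 3) / √m0 ^ 5,
    Kc_pos hq0 hq1 hBB hV0, by positivity, ?_⟩
  intro d τ t hτ hF hm hfE hr L
  have g1 : 0 ≤ 4 * C ^ 2 / √m0 ^ 6 := by positivity
  have g2 : 0 ≤ 2 * ((KQ + B) * √m1 ^ 3) / √m0 ^ 5 := by positivity
  have h1r : 1 ≤ d.r := by linarith
  have hr0 : 0 < d.r := by linarith
  have hr6 : 4 * C ^ 2 ≤ d.r * √m0 ^ 6 := by
    have : 4 * C ^ 2 / √m0 ^ 6 ≤ d.r := by linarith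
    rwa [div_le_iff₀ (by positivity)] at this
  have hr5 : 2 * ((KQ + B) * √m1 ^ 3) ≤ d.r * √m0 ^ 5 := by
    have : 2 * ((KQ + B) * √m1 ^ 3) / √m0 ^ 5 ≤ d.r := by linarith
    rwa [div_le_iff₀ (by positivity)] at this
  obtain ⟨ε, hε, hsmall⟩ := err_small (X := M) (μ := (μHE[4] : Measure M)) (L := L) hq0 hq1 hr0 hV0
  refine ⟨ε, hε, ?_⟩
  intro a u ha hsa hu hsu hf hg hL
  have hfE' : ∀ k z, |τ.fE k z| ≤ |B0| := fun k z => (hfE k z).trans (le_abs_self _)
  have E := est hS hτ hF ha hsa hu hsu hm0 hm hfE' hr0 hKQ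
  have hs := hsmall (qq τ) (fN0 S τ u) (fN1 S τ u) (fgn S τ d t a u) (fgc S τ d t a u)
    (fun z => ∑ x, fD S d t a u x z ^ 2) (fun z => ∑ k, gC S d t a u k z ^ 2)
    (fun z => ∑ y, u y z ^ 2) E.cq E.cN0 E.cN1 E.cgn E.cgc E.cF2
    (continuous_finsetSum _ fun k _ => (cont_g hS hτ hF ha hsa hu hsu k).pow 2)
    (continuous_finsetSum _ fun y _ => (hu y).continuous.pow 2) E.hq E.N00 E.N10 E.F20
    (fun z => Finset.sum_nonneg fun y _ => sq_nonneg _)
    (fun z => Finset.sum_nonneg fun y _ => sq_nonneg _)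
    (fun z => (norm_u hS hτ hsu z).ge) (fun z => gn_le hτ z) (fun z => gc_le hS hτ hsu z) le_rfl
    hf hg hL
  obtain ⟨b1, b2, b3, b4, b5, b6⟩ := E.bounds hKQ0 hBB hq1 h1r hr6 hr5 hs.1 hs.2
  exact ⟨b1, b2, b3, b4, b5, b6⟩

end

end Crest.Agent.R235.SwcTaus_312
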