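import Crest.Agent.R235.SwcPrF_215
import Crest.Agent.R235.SwcTaus_312
import Crest.Agent.R235.SwcPRC_57
import Crest.Agent.R235.SwcPRE_129

/-!
Row 235 (S0364), PACKAGE SWC, PROD (helper215): `prod2 : PWD → PRB → PROD` (APX 649, TAUS 312,
PRC 57, PRE 129, GZ 649, VOLD 57, STB 370, NETC / KATO4 984 plugged in).
-/

universe v

namespace Crest.Agent.R235.SwcProd_215

theorem prod2 (hP : PWD.{v}) (hB : PRB.{v}) : PROD.{v} :=
  prod_of' SwcTaus_312.taus hP hB (SwcPRC_57.prc hP SwcVOLD_57.vold SwcKATO4_984.kato4)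
    (SwcPRE_129.pre hP)

end Crest.Agent.R235.SwcProd_215
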