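import Crest.Agent.R235.SwcPrG_215
import Crest.Agent.R235.SwcPWN_215

/-!
Row 235 (S0364), PACKAGE SWC, PROD (helper215): `prod3 : PRB → PROD` (PWD plugged in).
-/

universe v

namespace Crest.Agent.R235.SwcProd_215

theorem prod3 (hB : PRB.{v}) : PROD.{v} := prod2 SwcPWN_215.pwd hB

end Crest.Agent.R235.SwcProd_215
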