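import Crest.Agent.R235.SwcPrA_215

/-!
Row 235 (S0364), PACKAGE SWC, NODE PROD (leader helper215), part 3: the context `Ctx` of the
assembly, the Taubes sequence `Qs`, and the exact leaves PRB, PRC, PRD, PRE (fields of `TSeq.OK`).
-/

set_option autoImplicit false
set_option maxSynthPendingDepth 3
set_option linter.unusedSectionVars false

open scoped ContDiff ENNReal NNReal Topology Manifold Bundle RealInnerProductSpace
open MeasureTheory Set Filter Metric Bundle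

universe v

namespace Crest.Agent.R235.SwcProd_215

open Crest.Agent.R240 Crest.Agent.R240.Ch Crest.Agent.R235 Crest.Agent.R235.SWDefs_53
open Crest.Agent.R235.IndTri_451 Crest.Agent.R235.Tau483 Crest.Agent.R235.SwcGlob_34
open Crest.Agent.R249.Tv57 (OpPair SmF SmV KerD)
open Crest.Agent.R249.Tz805 (ToF)

noncomputable section

variable {M : Type v} [MetricSpace M] [CompactSpace M] [ConnectedSpace M]
  [ChartedSpace (EuclideanSpace ℝ (Fin 4)) M] [IsManifold (𝓡 4) ∞ M]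
  [RiemannianBundle (fun p : M => TangentSpace (𝓡 4) p)]
  [IsContMDiffRiemannianBundle (𝓡 4) ∞ (EuclideanSpace ℝ (Fin 4))
    (fun p : M => TangentSpace (𝓡 4) p)]
  [IsRiemannianManifold (𝓡 4) M] [MeasurableSpace M] [BorelSpace M]
  [SecondCountableTopology M] [Nonempty M]
  {κ0 κ1 κT : Type} [Fintype κ0] [Fintype κ1] [Fintype κT]

/-- all variables of the assembly. -/
structure Vars (M : Type v) [MetricSpace M] [CompactSpace M] [ConnectedSpace M]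
    [ChartedSpace (EuclideanSpace ℝ (Fin 4)) M] [IsManifold (𝓡 4) ∞ M]
    [RiemannianBundle (fun p : M => TangentSpace (𝓡 4) p)]
    [IsContMDiffRiemannianBundle (𝓡 4) ∞ (EuclideanSpace ℝ (Fin 4))
      (fun p : M => TangentSpace (𝓡 4) p)]
    [IsRiemannianManifold (𝓡 4) M] [MeasurableSpace M] [BorelSpace M]
    [SecondCountableTopology M] [Nonempty M] (κ0 κ1 κT : Type)
    [Fintype κ0] [Fintype κ1] [Fintype κT] where
  S : SWS M κ0 κ1 κT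
  T : ToF 4 M
  cc : κ1 → κ0 → (z : M) → TangentSpace (𝓡 4) z
  W : κ0 → κ0 → (z : M) → TangentSpace (𝓡 4) z
  sT : κT → (z : M) → TangentSpace (𝓡 4) z
  w : Trip M
  e : Fin 3 → F2 E4 M
  ι : ℝ
  ww : Fin 3 → Fin 3 → M → ℝ
  τ : E3 → TD M κT
  C : ℝ
  K : ℝ
  c : H2 M
  /-- bound of the energies -/
  K' : ℝ
  r : ℕ → ℝ
  t : ℕ → E3
  a : ℕ → κT → M → ℝ
  u : ℕ → κ0 → M → ℝ
  a0 : ℕ → Z2 M
  β : ℕ → F1 E4 M
  /-- the limit parameter -/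
  t0 : E3
  D : Crest.Agent.R240.Dat M
  N : ℕ
  ν : Fin N ≃ κ0

/-- the hypotheses of the assembly, along a filter `U`. -/
structure Ctx [IsFiniteMeasureOnCompacts (μHE[4] : Measure M)] (V : Vars M κ0 κ1 κT)
    (U : Filter ℕ) : Prop where
  data : SwcData V.S V.T V.cc V.W V.sT V.w V.e V.ι V.ww V.τ V.C V.K V.c
  seq : SeqS V.S V.τ V.K' V.r V.t V.a V.u
  lnk : ∀ n, Lnk V.S V.T V.cc V.sT V.w V.e (V.τ (V.t n)) (V.a0 n) (V.β n) V.K
  cls : ∀ n, cls (V.a0 n) = V.c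
  Kpos : 0 < V.K'
  nt0 : ‖V.t0‖ = 1
  lim : Tendsto V.t U (𝓝 V.t0)
  limD : LimD V.w V.e (fun i => V.t0 i) (Xw V.ww V.t0) V.D
  le : U ≤ atTop

/-- the Taubes sequence. -/
def Vars.Q (V : Vars M κ0 κ1 κT) : TSeq M V.N where
  p := fun n x => (PE (V.τ (V.t n)) V.S x).submatrix V.ν V.ν
  a0 := V.a0
  r := V.r
  α := fun n x i => zet V.S (cE (V.τ (V.t n)) V.S (V.u n)) x (V.ν i) / ((√(2 * V.r n) : ℝ) : ℂ)
  θ := fun n => thE V.sT V.e (V.β n) (V.a n)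

/-- **PRB**: `e1`, `e2`, `o3`. -/
def PRB : Prop :=
  ∀ (M : Type v) [MetricSpace M] [CompactSpace M] [ConnectedSpace M]
    [ChartedSpace (EuclideanSpace ℝ (Fin 4)) M] [IsManifold (𝓡 4) ∞ M]
    [RiemannianBundle (fun p : M => TangentSpace (𝓡 4) p)]
    [IsContMDiffRiemannianBundle (𝓡 4) ∞ (EuclideanSpace ℝ (Fin 4))
      (fun p : M => TangentSpace (𝓡 4) p)]
    [IsRiemannianManifold (𝓡 4) M] [MeasurableSpace M] [BorelSpace M]
    [SecondCountableTopology M] [Nonempty M] [IsFiniteMeasureOnCompacts (μHE[4] : Measure M)]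
    (κ0 κ1 κT : Type) [Fintype κ0] [Fintype κ1] [Fintype κT] (V : Vars M κ0 κ1 κT)
    (U : Filter ℕ), Ctx V U → ∃ C' : ℝ, 0 < C' ∧
      (∀ n, ∫ x, V.Q.neta V.D n x ∂V.D.μ ≤ C') ∧
      (∀ n, V.Q.r n * ∫ x, (1 - V.Q.nal n x) ^ 2 ∂V.D.μ ≤ C') ∧
      Tendsto (fun n => ∫ x, V.Q.ndb V.D n x ∂V.D.μ) U (𝓝 0)

/-- **PRC**: `e3`, `o1`, `o2` (`lam = 1/2`). -/
def PRC : Prop :=
  ∀ (M : Type v) [MetricSpace M] [CompactSpace M] [ConnectedSpace M]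
    [ChartedSpace (EuclideanSpace ℝ (Fin 4)) M] [IsManifold (𝓡 4) ∞ M]
    [RiemannianBundle (fun p : M => TangentSpace (𝓡 4) p)]
    [IsContMDiffRiemannianBundle (𝓡 4) ∞ (EuclideanSpace ℝ (Fin 4))
      (fun p : M => TangentSpace (𝓡 4) p)]
    [IsRiemannianManifold (𝓡 4) M] [MeasurableSpace M] [BorelSpace M]
    [SecondCountableTopology M] [Nonempty M] [IsFiniteMeasureOnCompacts (μHE[4] : Measure M)]
    (κ0 κ1 κT : Type) [Fintype κ0] [Fintype κ1] [Fintype κT] (V : Vars M κ0 κ1 κT)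
    (U : Filter ℕ), Ctx V U → ∃ C' : ℝ, 0 < C' ∧
      (∀ n, ∫ x, nsqG V.D.J V.D.F (V.Q.Phi n) x ∂V.D.μ ≤ C' * V.Q.r n) ∧
      Tendsto (fun n => (V.Q.r n)⁻¹ * ∫ x, (qG V.D.F (V.Q.Phi n) V.D.F x -
        (1 / 2) * V.Q.r n * (1 - V.Q.nal n x)) ^ 2 ∂V.D.μ) U (𝓝 0) ∧
      Tendsto (fun n => (V.Q.r n)⁻¹ * ∫ x, nsqG V.D.J V.D.F (bpp V.D.J (V.Q.Phi n)) x ∂V.D.μ) U
        (𝓝 0)

/-- **PRD**: `o4`. -/
def PRD : Prop :=
  ∀ (M : Type v) [MetricSpace M] [CompactSpace M] [ConnectedSpace M]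
    [ChartedSpace (EuclideanSpace ℝ (Fin 4)) M] [IsManifold (𝓡 4) ∞ M]
    [RiemannianBundle (fun p : M => TangentSpace (𝓡 4) p)]
    [IsContMDiffRiemannianBundle (𝓡 4) ∞ (EuclideanSpace ℝ (Fin 4))
      (fun p : M => TangentSpace (𝓡 4) p)]
    [IsRiemannianManifold (𝓡 4) M] [MeasurableSpace M] [BorelSpace M]
    [SecondCountableTopology M] [Nonempty M] [IsFiniteMeasureOnCompacts (μHE[4] : Measure M)]
    (κ0 κ1 κT : Type) [Fintype κ0] [Fintype κ1] [Fintype κT] (V : Vars M κ0 κ1 κT)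
    (U : Filter ℕ), Ctx V U →
      Tendsto (fun n => (V.Q.r n)⁻¹ * ∫ x, n1 V.D x (at1 (V.Q.θ n) x) ∂V.D.μ) U (𝓝 0)

/-- **PRE**: the soft fields. -/
def PRE : Prop :=
  ∀ (M : Type v) [MetricSpace M] [CompactSpace M] [ConnectedSpace M]
    [ChartedSpace (EuclideanSpace ℝ (Fin 4)) M] [IsManifold (𝓡 4) ∞ M]
    [RiemannianBundle (fun p : M => TangentSpace (𝓡 4) p)]
    [IsContMDiffRiemannianBundle (𝓡 4) ∞ (EuclideanSpace ℝ (Fin 4))
      (fun p : M => TangentSpace (𝓡 4) p)]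
    [IsRiemannianManifold (𝓡 4) M] [MeasurableSpace M] [BorelSpace M]
    [SecondCountableTopology M] [Nonempty M] [IsFiniteMeasureOnCompacts (μHE[4] : Measure M)]
    (κ0 κ1 κT : Type) [Fintype κ0] [Fintype κ1] [Fintype κT] (V : Vars M κ0 κ1 κT)
    (U : Filter ℕ), Ctx V U →
      Closed2 V.D.F ∧
      (∃ p' : M → Matrix (Fin V.N) (Fin V.N) ℂ, (∀ i j, Continuous fun x => p' x i j) ∧
        ∀ ε : ℝ, 0 < ε → ∀ᶠ n in U, ∀ x i j, ‖V.Q.p n x i j - p' x i j‖ < ε) ∧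
      (∃ C' : ℝ, ∀ n, ∫ x, nsqG V.D.J V.D.F ((V.Q.a0 n).1.1 : F2 E4 M) x ∂V.D.μ ≤ C') ∧
      (∀ n i, ContMDiff 𝓘(ℝ, E4) 𝓘(ℝ, ℂ) ∞ (fun x => V.Q.α n x i)) ∧
      (∀ n x, (V.Q.p n x).mulVec (V.Q.α n x) = V.Q.α n x) ∧
      (∀ n, Smooth1 (V.Q.θ n))

end

end Crest.Agent.R235.SwcProd_215
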