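import Crest.Agent.R235.SWTau_53

/-!
Row 235 (S0364), PACKAGE SWC-AN (helper34), part 3: PROD, analytic half in the format of
`SWDefs_53`, `SWTau_53`.

* `TAUE` : the energy estimates for the solutions at `|t| = 1` (no sign of the topological term),
  with explicit rates.  PROOF: `s, s' = (2r)^{-1/2} ρ^{-3/4} Π_{0,1} u`, `φ = B(a + ϑ) + fE`
  (`φ_n = ρ r (1 - |s|² + |s'|²)`, `φ_k` orthogonal part `= 2 r ρ ⟨ρ_k s, s'⟩`), `X = ∫ ρ^{-1/2} |D (ρ^{3/4} s)|²`.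
  T1: `X = ∫ ρ|∇^E s|² - r ∫ ρ²(1-|s|²+|s'|²)|s|²`;
  T2 and `D(ρ^{3/4}s) = - D(ρ^{3/4}s')`: `X + 2r ∫ ρ²|s|²|s'|² ≤ C ∫ |∇^E s||s'|`;
  `|s|²(1-|s|²+|s'|²) = (1-|s|²+|s'|²) - (1-|s|²)² - |s'|² + |s|²|s'|²` and
  `r ∫ ρ²(1-|s|²+|s'|²) = ∫ ρ φ_n = ∫ ρ n·fE ≤ C`  ⟹  E1, E2, E3; then `X, r∫|s|²|s'|² ≤ C r^{-1/2}`;
  Weitzenboeck (`S.OK.weitz`) for `u1 = ρ^{3/4} s'` (`R u1 = u1`, `⟨ρ_k u1, u1⟩ = n_k |u1|²`):
  `∫|∇u1|² + r ∫ ρ(1-|s|²+|s'|²)|u1|² ≤ C X + C ∫|u1|²`, and `r∫|s|²|u1|²` small  ⟹  E6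
  (no bound of `dρ` is needed: only `|u1|⁴ = ρ³|s'|⁴` is used).
* `GAUGE` : `‖a‖_{W^{1,2}} ≤ C ‖B a‖_{L²}` for `a` orthogonal to the harmonic forms.
-/

set_option autoImplicit false
set_option maxSynthPendingDepth 3
set_option linter.unusedSectionVars false

open scoped ContDiff ENNReal NNReal Topology Manifold Bundle RealInnerProductSpace
open MeasureTheory Set Filter Metric Bundle

universe v

namespace Crest.Agent.R235.SwcProd_34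

open Crest.Agent.R249.Tv57 Crest.Agent.R247.Ms322 Crest.Agent.R247.Dir593
open Crest.Agent.R235.SWDefs_53

noncomputable section

section defs

variable {M : Type v} [MetricSpace M] [CompactSpace M] [ConnectedSpace M]
  [ChartedSpace (EuclideanSpace ℝ (Fin 4)) M] [IsManifold (𝓡 4) ∞ M]
  [RiemannianBundle (fun p : M => TangentSpace (𝓡 4) p)]
  [IsContMDiffRiemannianBundle (𝓡 4) ∞ (EuclideanSpace ℝ (Fin 4))
    (fun p : M => TangentSpace (𝓡 4) p)]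
  [IsRiemannianManifold (𝓡 4) M] [MeasurableSpace M] [BorelSpace M]
  [SecondCountableTopology M] [Nonempty M] [IsFiniteMeasureOnCompacts (μHE[4] : Measure M)]
  {κ0 κ1 κT : Type} [Fintype κ0] [Fintype κ1] [Fintype κT]

/-- the values of a `W^{1,2}` section. -/
def va {κ : Type} [Fintype κ] {D : Dat 4 M κ} (w : D.toAD.WE) (y : κ) (z : M) : ℝ :=
  (D.toAD.i1 w y : M → ℝ) z

/-- `|w|²`. -/
def sq {κ : Type} [Fintype κ] {D : Dat 4 M κ} (w : D.toAD.WE) (z : M) : ℝ := ∑ y, va w y z ^ 2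

/-- `w = (2r)^{-1/2} ρ^{-3/4} (u + σ R u)/2`, `σ = ± 1`. -/
def Comp (S : SWS M κ0 κ1 κT) (τ : TD M κT) (r σ : ℝ) (u : κ0 → M → ℝ) (w : S.D0.toAD.WE) :
    Prop :=
  ∀ᵐ z ∂(μHE[4] : Measure M), ∀ y, va w y z =
    (√(2 * r))⁻¹ * (τ.rr z ^ (-(3 / 4) : ℝ) *
      ((1 / 2) * (u y z + σ * ∑ k, ∑ y', τ.n k z * S.rho k y y' z * u y' z)))

/-- the covariant derivative `∇ w + i a w`. -/
def NW (S : SWS M κ0 κ1 κT) (a : κT → M → ℝ) (w : S.D0.toAD.WE) (y : κ0) (z : M) :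
    EuclideanSpace ℝ (Fin 4) :=
  (S.D0.toAD.c1 w y : M → EuclideanSpace ℝ (Fin 4)) z +
    (∑ y', S.J y y' z * va w y' z) • ∑ A, a A z • S.s A z

/-- `∇^E w`. -/
def NEW (S : SWS M κ0 κ1 κT) (τ : TD M κT) (a : κT → M → ℝ) (w : S.D0.toAD.WE) (y : κ0)
    (z : M) : EuclideanSpace ℝ (Fin 4) :=
  τ.prE S (NW S a w) (va w) y z

/-- the energy estimates, with constant `C`, for the components `w, w1` of a solution;
`f = D_a (ρ^{3/4} w)`. -/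
structure Ener (S : SWS M κ0 κ1 κT) (τ : TD M κT) (r C : ℝ) (a : κT → M → ℝ)
    (w w1 : S.D0.toAD.WE) (f : κ1 → M → ℝ) : Prop where
  dir : WkA S.P (τ.sc (3 / 4) (va w)) (fun x z => f x z - S.cm a (τ.sc (3 / 4) (va w)) x z)
  e1 : ∫ z, ∑ y, ‖NEW S τ a w y z‖ ^ 2 ∂(μHE[4] : Measure M) ≤ C
  e2 : r * ∫ z, (1 - sq w z) ^ 2 ∂(μHE[4] : Measure M) ≤ C
  e3 : r * ∫ z, sq w1 z ∂(μHE[4] : Measure M) ≤ C
  e4 : ∫ z, ∑ x, f x z ^ 2 ∂(μHE[4] : Measure M) ≤ C / √r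
  e5 : r * ∫ z, sq w z * sq w1 z ∂(μHE[4] : Measure M) ≤ C / √r
  e6 : r * ∫ z, sq w1 z ^ 2 ∂(μHE[4] : Measure M) ≤ C / √r

end defs

/-- **TAUE**: the energy estimates. -/
def TAUE : Prop :=
  ∀ (M : Type v) [MetricSpace M] [CompactSpace M] [ConnectedSpace M]
    [ChartedSpace (EuclideanSpace ℝ (Fin 4)) M] [IsManifold (𝓡 4) ∞ M]
    [RiemannianBundle (fun p : M => TangentSpace (𝓡 4) p)]
    [IsContMDiffRiemannianBundle (𝓡 4) ∞ (EuclideanSpace ℝ (Fin 4))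
      (fun p : M => TangentSpace (𝓡 4) p)]
    [IsRiemannianManifold (𝓡 4) M] [MeasurableSpace M] [BorelSpace M]
    [SecondCountableTopology M] [Nonempty M] [IsFiniteMeasureOnCompacts (μHE[4] : Measure M)]
    (κ0 κ1 κT : Type) [Fintype κ0] [Fintype κ1] [Fintype κT]
    (S : SWS M κ0 κ1 κT) (c C : ℝ), S.OK → 0 < c →
    ∃ C' r0 : ℝ, 0 < r0 ∧ ∀ (d : SWD M κT) (τ : TD M κT) (t : E3), τ.OK S C → τ.Fit S d t →
      (∀ z, c ≤ τ.rr z ∧ τ.rr z ≤ C) → (∀ k z, |τ.fE k z| ≤ C) → r0 ≤ d.r →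
      ∀ (a : κT → M → ℝ) (u : κ0 → M → ℝ), Sol S d t a u →
      ∃ (w w1 : S.D0.toAD.WE) (f : κ1 → M → ℝ), Comp S τ d.r (-1) u w ∧ Comp S τ d.r 1 u w1 ∧
        Ener S τ d.r C' (fun A z => a A z + d.th t A z) w w1 f

/-- **GAUGE**: the a priori estimate for `a` orthogonal to the harmonic one-forms. -/
def GAUGE : Prop :=
  ∀ (M : Type v) [MetricSpace M] [CompactSpace M] [ConnectedSpace M]
    [ChartedSpace (EuclideanSpace ℝ (Fin 4)) M] [IsManifold (𝓡 4) ∞ M]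
    [RiemannianBundle (fun p : M => TangentSpace (𝓡 4) p)]
    [IsContMDiffRiemannianBundle (𝓡 4) ∞ (EuclideanSpace ℝ (Fin 4))
      (fun p : M => TangentSpace (𝓡 4) p)]
    [IsRiemannianManifold (𝓡 4) M] [MeasurableSpace M] [BorelSpace M]
    [SecondCountableTopology M] [Nonempty M] [IsFiniteMeasureOnCompacts (μHE[4] : Measure M)]
    (κ0 κ1 κT : Type) [Fintype κ0] [Fintype κ1] [Fintype κT]
    (S : SWS M κ0 κ1 κT), S.OK → ∃ C : ℝ, ∀ (a : S.DT.toAD.WE) (g : Fin 4 → M → ℝ),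
      NoHarm S (va a) → WkA S.H.swap (va a) g →
      (∫ z, sq a z ∂(μHE[4] : Measure M)) + ∫ z, ∑ A,
          ‖(S.DT.toAD.c1 a A : M → EuclideanSpace ℝ (Fin 4)) z‖ ^ 2 ∂(μHE[4] : Measure M) ≤
        C * ∫ z, ∑ k, g k z ^ 2 ∂(μHE[4] : Measure M)

/-- **GZERO** (Rellich): if `a n ∈ W^{1,2}` are orthogonal to the harmonic forms and bounded, and
`B (a n) → 0` weakly (on smooth forms), then `a n → 0` in `L²`. -/
def GZERO : Prop :=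
  ∀ (M : Type v) [MetricSpace M] [CompactSpace M] [ConnectedSpace M]
    [ChartedSpace (EuclideanSpace ℝ (Fin 4)) M] [IsManifold (𝓡 4) ∞ M]
    [RiemannianBundle (fun p : M => TangentSpace (𝓡 4) p)]
    [IsContMDiffRiemannianBundle (𝓡 4) ∞ (EuclideanSpace ℝ (Fin 4))
      (fun p : M => TangentSpace (𝓡 4) p)]
    [IsRiemannianManifold (𝓡 4) M] [MeasurableSpace M] [BorelSpace M]
    [SecondCountableTopology M] [Nonempty M] [IsFiniteMeasureOnCompacts (μHE[4] : Measure M)]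
    (κ0 κ1 κT : Type) [Fintype κ0] [Fintype κ1] [Fintype κT]
    (S : SWS M κ0 κ1 κT), S.OK → ∀ (U : Filter ℕ) (C : ℝ) (a : ℕ → S.DT.toAD.WE)
      (g : ℕ → Fin 4 → M → ℝ), (∀ n, NoHarm S (va (a n))) → (∀ n, WkA S.H.swap (va (a n)) (g n)) →
      (∀ᶠ n in U, ∫ z, ∑ k, g n k z ^ 2 ∂(μHE[4] : Measure M) ≤ C) →
      (∀ φ : Fin 4 → M → ℝ, (∀ k, ContMDiff (𝓡 4) 𝓘(ℝ, ℝ) ∞ (φ k)) →
        Tendsto (fun n => ∫ z, ∑ k, g n k z * φ k z ∂(μHE[4] : Measure M)) U (𝓝 0)) →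
      Tendsto (fun n => ∫ z, sq (a n) z ∂(μHE[4] : Measure M)) U (𝓝 0)

end

end Crest.Agent.R235.SwcProd_34
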