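import Mathlib

/-!
Row 235 (S0364), PACKAGE SWC, NODE PROD, **TAUS** (helper215 #2370), part A (helper312):
the abstract real analysis.  `q = √ρ`.
-/

set_option autoImplicit false
set_option linter.unusedSectionVars false

open MeasureTheory Set Filter Topology

namespace Crest.Agent.R235.SwcTaus_312

noncomputable section

variable {X : Type*} [TopologicalSpace X] [CompactSpace X] [MeasurableSpace X] [BorelSpace X]
  {μ : Measure X} [IsFiniteMeasureOnCompacts μ]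

theorem icont {f : X → ℝ} (hf : Continuous f) : Integrable f μ :=
  hf.integrable_of_hasCompactSupport (HasCompactSupport.of_compactSpace f)

theorem iadd {f g : X → ℝ} (hf : Continuous f) (hg : Continuous g) :
    ∫ x, (f x + g x) ∂μ = ∫ x, f x ∂μ + ∫ x, g x ∂μ := integral_add (icont hf) (icont hg)

/-- the functions which occur in the energy estimates. -/
structure Est (μ : Measure X) (q G N0 N1 gn gc fn F2 A2 B2 AB W Qv : X → ℝ)
    (q0 q1 B KQ r C : ℝ) : Prop where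
  cq : Continuous q
  cG : Continuous G
  cN0 : Continuous N0
  cN1 : Continuous N1
  cgn : Continuous gn
  cgc : Continuous gc
  cfn : Continuous fn
  cF2 : Continuous F2
  cA2 : Continuous A2
  cB2 : Continuous B2
  cAB : Continuous AB
  cW : Continuous W
  cQv : Continuous Qv
  G0 : ∀ x, 0 ≤ G x
  N00 : ∀ x, 0 ≤ N0 x
  N10 : ∀ x, 0 ≤ N1 x
  A20 : ∀ x, 0 ≤ A2 x
  F20 : ∀ x, 0 ≤ F2 x
  W0 : ∀ x, 0 ≤ W x
  q0p : 0 < q0
  rp : 0 < r
  hq : ∀ x, q0 ≤ q x ∧ q x ≤ q1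
  hfn : ∀ x, |fn x| ≤ B
  hQ : ∀ x, |Qv x| ≤ KQ * (q x ^ 3 * N1 x)
  hAB : ∀ x, AB x ≤ (F2 x - A2 x) / 2
  hB2 : ∀ x, B2 x ≤ 2 * F2 x + 2 * A2 x
  i2 : ∫ x, (q x)⁻¹ * A2 x ∂μ =
    ∫ x, (q x ^ 2 * G x - q x ^ 2 * (q x ^ 2 * (r + (N1 x - N0 x) / 2) + gn x) * N0 x) ∂μ
  i3 : |∫ x, ((q x)⁻¹ * AB x - q x ^ 2 * (q x ^ 2 * (N0 x * N1 x) + gc x)) ∂μ| ≤
    C * ∫ x, √(G x) * √(N1 x) ∂μ
  i4 : ∫ x, q x ^ 2 * (q x ^ 2 * (r + (N1 x - N0 x) / 2) + gn x) ∂μ = ∫ x, q x ^ 2 * fn x ∂μ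
  i6 : ∫ x, B2 x ∂μ = ∫ x, (W x + Qv x +
    q x ^ 3 * N1 x * (q x ^ 2 * (r + (N1 x - N0 x) / 2) + gn x - fn x)) ∂μ

namespace Est

variable {q G N0 N1 gn gc fn F2 A2 B2 AB W Qv : X → ℝ} {q0 q1 B KQ r C : ℝ}

theorem qpos (E : Est μ q G N0 N1 gn gc fn F2 A2 B2 AB W Qv q0 q1 B KQ r C) (x : X) : 0 < q x :=
  E.q0p.trans_le (E.hq x).1

theorem cqi (E : Est μ q G N0 N1 gn gc fn F2 A2 B2 AB W Qv q0 q1 B KQ r C) :
    Continuous fun x => (q x)⁻¹ := E.cq.inv₀ fun x => (E.qpos x).ne'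

theorem csq (E : Est μ q G N0 N1 gn gc fn F2 A2 B2 AB W Qv q0 q1 B KQ r C) :
    Continuous fun x => √(G x) * √(N1 x) := E.cG.sqrt.mul E.cN1.sqrt

/-- the first error term. -/
def err1 (q N0 gn gc F2 : X → ℝ) (r : ℝ) (x : X) : ℝ :=
  q x ^ 2 * |gn x| * N0 x + 2 * r * (q x ^ 2 * |gn x|) + (q x)⁻¹ * F2 x + 2 * (q x ^ 2 * |gc x|)

/-- the second error term. -/
def err2 (q N1 gn gc F2 : X → ℝ) (k : ℝ) (x : X) : ℝ :=
  2 * F2 x + q x ^ 3 * N1 x * |gn x| + k * ((q x)⁻¹ * F2 x + 2 * (q x ^ 2 * |gc x|))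

theorem cerr1 (E : Est μ q G N0 N1 gn gc fn F2 A2 B2 AB W Qv q0 q1 B KQ r C) :
    Continuous (err1 q N0 gn gc F2 r) := by
  have h1 := E.cq
  have h2 := E.cqi
  have h3 := E.cN0
  have h4 := E.cgn
  have h5 := E.cgc
  have h6 := E.cF2
  unfold err1
  fun_prop

theorem cerr2 (E : Est μ q G N0 N1 gn gc fn F2 A2 B2 AB W Qv q0 q1 B KQ r C) (k : ℝ) :
    Continuous (err2 q N1 gn gc F2 k) := by
  have h1 := E.cq
  have h2 := E.cqi
  have h3 := E.cN1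
  have h4 := E.cgn
  have h5 := E.cgc
  have h6 := E.cF2
  unfold err2
  fun_prop

/-- the good density of step 5. -/
def Phi (q G N0 N1 : X → ℝ) (r : ℝ) (x : X) : ℝ :=
  q x ^ 2 / 2 * G x + q x ^ 4 / 2 * ((2 * r - N0 x) ^ 2 + N1 x * (r + 3 * N0 x))

theorem cPhi (E : Est μ q G N0 N1 gn gc fn F2 A2 B2 AB W Qv q0 q1 B KQ r C) :
    Continuous (Phi q G N0 N1 r) := by
  have h1 := E.cq
  have h2 := E.cG
  have h3 := E.cN1
  have h4 := E.cN0
  unfold Phi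
  fun_prop

/-- **step 5** -/
theorem step5 (E : Est μ q G N0 N1 gn gc fn F2 A2 B2 AB W Qv q0 q1 B KQ r C)
    (hr : 4 * C ^ 2 ≤ r * q0 ^ 6) : ∫ x, Phi q G N0 N1 r x ∂μ ≤
      2 * r * ∫ x, q x ^ 2 * fn x ∂μ + ∫ x, err1 q N0 gn gc F2 r x ∂μ := by
  have h1 := E.cq
  have h2 := E.cqi
  have h3 := E.cN0
  have h4 := E.cN1
  have h5 := E.cgn
  have h6 := E.cgc
  have h7 := E.cF2
  have h8 := E.cG
  have h9 := E.cA2
  have h10 := E.cAB
  have h11 := E.cfn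
  set P1 : X → ℝ := fun x => (q x)⁻¹ * A2 x -
    (q x ^ 2 * G x - q x ^ 2 * (q x ^ 2 * (r + (N1 x - N0 x) / 2) + gn x) * N0 x) with hP1
  set P2 : X → ℝ := fun x => -((q x)⁻¹ * AB x - q x ^ 2 * (q x ^ 2 * (N0 x * N1 x) + gc x)) with hP2
  set P3 : X → ℝ := fun x => q x ^ 2 * (q x ^ 2 * (r + (N1 x - N0 x) / 2) + gn x) -
    q x ^ 2 * fn x with hP3
  have c1 : Continuous P1 := by fun_prop
  have c2 : Continuous P2 := by fun_prop
  have c3 : Continuous P3 := by fun_prop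
  have c4 : Continuous fun x => q x ^ 2 * fn x := by fun_prop
  have j1 : ∫ x, P1 x ∂μ = 0 := by
    rw [hP1, integral_sub (icont (by fun_prop)) (icont (by fun_prop)), E.i2, sub_self]
  have j2 : ∫ x, P2 x ∂μ ≤ C * ∫ x, √(G x) * √(N1 x) ∂μ := by
    rw [hP2, integral_neg]
    exact (neg_le_abs _).trans E.i3
  have j3 : ∫ x, P3 x ∂μ = 0 := by
    rw [hP3, integral_sub (icont (by fun_prop)) (icont (by fun_prop)), E.i4, sub_self]
  have pw : ∀ x, Phi q G N0 N1 r x + 2 * C * (√(G x) * √(N1 x)) ≤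
      (-1) * P1 x + (2 * P2 x + (2 * r * P3 x + (2 * r * (q x ^ 2 * fn x) +
        err1 q N0 gn gc F2 r x))) := by
    intro x
    have hq := E.qpos x
    have hr0 := E.rp
    have ex : √(G x) ^ 2 = G x := Real.sq_sqrt (E.G0 x)
    have ey : √(N1 x) ^ 2 = N1 x := Real.sq_sqrt (E.N10 x)
    have a1 : 2 * C * (√(G x) * √(N1 x)) ≤ q x ^ 2 / 2 * G x + q x ^ 4 / 2 * (r * N1 x) := by
      have b1 : 0 ≤ (q x * √(G x) - 2 * C / q x * √(N1 x)) ^ 2 := sq_nonneg _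
      have b2 : (q x * √(G x) - 2 * C / q x * √(N1 x)) ^ 2 =
          q x ^ 2 * √(G x) ^ 2 - 4 * C * (√(G x) * √(N1 x)) +
            4 * C ^ 2 / q x ^ 2 * √(N1 x) ^ 2 := by
        field_simp
        ring
      rw [ex, ey] at b2
      have b3 : 4 * C ^ 2 / q x ^ 2 ≤ q x ^ 4 * r := by
        rw [div_le_iff₀ (by positivity)]
        have : q0 ^ 6 ≤ q x ^ 6 := pow_le_pow_left₀ E.q0p.le (E.hq x).1 6
        calc 4 * C ^ 2 ≤ r * q0 ^ 6 := hr
          _ ≤ r * q x ^ 6 := mul_le_mul_of_nonneg_left this hr0.le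
          _ = _ := by ring
      have b4 := mul_le_mul_of_nonneg_right b3 (E.N10 x)
      nlinarith
    have a2 := E.hAB x
    have a3 : (q x)⁻¹ * AB x ≤ (q x)⁻¹ * ((F2 x - A2 x) / 2) :=
      mul_le_mul_of_nonneg_left a2 (inv_pos.2 hq).le
    have a4 : - (q x ^ 2 * |gc x|) ≤ q x ^ 2 * gc x := by
      rw [← mul_neg]
      exact mul_le_mul_of_nonneg_left (neg_abs_le _) (by positivity)
    have a5 : q x ^ 2 * gn x * N0 x ≤ q x ^ 2 * |gn x| * N0 x :=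
      mul_le_mul_of_nonneg_right (mul_le_mul_of_nonneg_left (le_abs_self _) (by positivity))
        (E.N00 x)
    have a6 : - (2 * r * (q x ^ 2 * |gn x|)) ≤ 2 * r * (q x ^ 2 * gn x) := by
      rw [← mul_neg, ← mul_neg]
      exact mul_le_mul_of_nonneg_left (mul_le_mul_of_nonneg_left (neg_abs_le _) (by positivity))
        (by positivity)
    simp only [hP1, hP2, hP3, Phi, err1]
    nlinarith
  have key := integral_mono (μ := μ)
    (f := fun x => Phi q G N0 N1 r x + 2 * C * (√(G x) * √(N1 x)))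
    (g := fun x => (-1) * P1 x + (2 * P2 x + (2 * r * P3 x + (2 * r * (q x ^ 2 * fn x) +
        err1 q N0 gn gc F2 r x))))
    ((icont E.cPhi).add ((icont E.csq).const_mul _))
    (((icont c1).const_mul _).add (((icont c2).const_mul _).add (((icont c3).const_mul _).add
      (((icont c4).const_mul _).add (icont E.cerr1))))) pw
  have k1 := E.cPhi
  have k2 := E.csq
  have k3 := E.cerr1
  have eL : ∫ x, (Phi q G N0 N1 r x + 2 * C * (√(G x) * √(N1 x))) ∂μ =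
      ∫ x, Phi q G N0 N1 r x ∂μ + 2 * C * ∫ x, √(G x) * √(N1 x) ∂μ := by
    rw [iadd k1 (by fun_prop), integral_const_mul]
  have eR : ∫ x, ((-1) * P1 x + (2 * P2 x + (2 * r * P3 x + (2 * r * (q x ^ 2 * fn x) +
        err1 q N0 gn gc F2 r x)))) ∂μ = (-1) * ∫ x, P1 x ∂μ + (2 * ∫ x, P2 x ∂μ +
        (2 * r * ∫ x, P3 x ∂μ + (2 * r * ∫ x, q x ^ 2 * fn x ∂μ +
          ∫ x, err1 q N0 gn gc F2 r x ∂μ))) := by
    rw [iadd (by fun_prop) (by fun_prop), iadd (by fun_prop) (by fun_prop),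
      iadd (by fun_prop) (by fun_prop), iadd (by fun_prop) (by fun_prop)]
    simp only [integral_const_mul]
  rw [eL, eR, j1, j3] at key
  linarith

/-- the good density of step 7. -/
def Psi (q N0 N1 A2 W : X → ℝ) (q0 r : ℝ) (x : X) : ℝ :=
  W x + (q x)⁻¹ * A2 x + r * q0 ^ 5 / 4 * N1 x + q0 ^ 4 * (N0 x * N1 x)

theorem cPsi (E : Est μ q G N0 N1 gn gc fn F2 A2 B2 AB W Qv q0 q1 B KQ r C) :
    Continuous (Psi q N0 N1 A2 W q0 r) := by
  have h2 := E.cqi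
  have h3 := E.cN1
  have h4 := E.cN0
  have h5 := E.cA2
  have h6 := E.cW
  unfold Psi
  fun_prop

/-- **step 7** -/
theorem step7 (E : Est μ q G N0 N1 gn gc fn F2 A2 B2 AB W Qv q0 q1 B KQ r C) (hKQ : 0 ≤ KQ)
    (hB : 0 ≤ B) (hr : 2 * ((KQ + B) * q1 ^ 3) ≤ r * q0 ^ 5) {k : ℝ} (hk : k = 2 * q1 + 1) :
    ∫ x, Psi q N0 N1 A2 W q0 r x ∂μ ≤
      ∫ x, err2 q N1 gn gc F2 k x ∂μ + 4 * k ^ 2 * C ^ 2 / (r * q0 ^ 5) * ∫ x, G x ∂μ := by
  have h1 := E.cq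
  have h2 := E.cqi
  have h3 := E.cN0
  have h4 := E.cN1
  have h5 := E.cgn
  have h6 := E.cgc
  have h7 := E.cF2
  have h8 := E.cG
  have h9 := E.cA2
  have h10 := E.cAB
  have h11 := E.cfn
  have h12 := E.cW
  have h13 := E.cQv
  have h14 := E.cB2
  set P2 : X → ℝ := fun x => -((q x)⁻¹ * AB x - q x ^ 2 * (q x ^ 2 * (N0 x * N1 x) + gc x)) with hP2
  set P6 : X → ℝ := fun x => (W x + Qv x +
    q x ^ 3 * N1 x * (q x ^ 2 * (r + (N1 x - N0 x) / 2) + gn x - fn x)) - B2 x with hP6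
  have c2 : Continuous P2 := by fun_prop
  have c6 : Continuous P6 := by fun_prop
  have j2 : ∫ x, P2 x ∂μ ≤ C * ∫ x, √(G x) * √(N1 x) ∂μ := by
    rw [hP2, integral_neg]
    exact (neg_le_abs _).trans E.i3
  have j6 : ∫ x, P6 x ∂μ = 0 := by
    rw [hP6, integral_sub (icont (by fun_prop)) (icont (by fun_prop)), E.i6, sub_self]
  by_cases hX : Nonempty X
  swap
  · have : IsEmpty X := not_nonempty_iff.1 hX
    have hμ : μ = 0 := Measure.eq_zero_of_isEmpty μ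
    simp [hμ]
  obtain ⟨x0⟩ := hX
  have hq1 : q0 ≤ q1 := (E.hq x0).1.trans (E.hq x0).2
  have hq1p : 0 < q1 := E.q0p.trans_le hq1
  have hk1 : 1 ≤ k := by rw [hk]; linarith
  have hrq : 0 < r * q0 ^ 5 := mul_pos E.rp (pow_pos E.q0p 5)
  have pw : ∀ x, Psi q N0 N1 A2 W q0 r x + 2 * k * C * (√(G x) * √(N1 x)) ≤
      P6 x + (2 * k * P2 x + (4 * k ^ 2 * C ^ 2 / (r * q0 ^ 5) * G x +
        err2 q N1 gn gc F2 k x)) := by
    intro x
    have hq := E.qpos x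
    have hr0 := E.rp
    have hqq1 := (E.hq x).2
    have hqq0 := (E.hq x).1
    have n0 := E.N00 x
    have n1 := E.N10 x
    have n01 : 0 ≤ N0 x * N1 x := mul_nonneg n0 n1
    have ex : √(G x) ^ 2 = G x := Real.sq_sqrt (E.G0 x)
    have ey : √(N1 x) ^ 2 = N1 x := Real.sq_sqrt n1
    -- Young
    have a1 : 2 * k * C * (√(G x) * √(N1 x)) ≤
        4 * k ^ 2 * C ^ 2 / (r * q0 ^ 5) * G x + r * q0 ^ 5 / 4 * N1 x := by
      set R := r * q0 ^ 5 with hR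
      have b1 : 0 ≤ (4 * k * C * √(G x) - R * √(N1 x)) ^ 2 := sq_nonneg _
      have b2 : (4 * k * C * √(G x) - R * √(N1 x)) ^ 2 =
          16 * k ^ 2 * C ^ 2 * √(G x) ^ 2 - 8 * k * C * R * (√(G x) * √(N1 x)) +
            R ^ 2 * √(N1 x) ^ 2 := by
        ring
      rw [ex, ey] at b2
      rw [b2] at b1
      have b3 : 4 * k ^ 2 * C ^ 2 / R * G x + R / 4 * N1 x - 2 * k * C * (√(G x) * √(N1 x)) =
          (16 * k ^ 2 * C ^ 2 * G x - 8 * k * C * R * (√(G x) * √(N1 x)) + R ^ 2 * N1 x) /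
            (4 * R) := by
        field_simp
        ring
      have b4 : 0 ≤ 4 * k ^ 2 * C ^ 2 / R * G x + R / 4 * N1 x -
          2 * k * C * (√(G x) * √(N1 x)) := by
        rw [b3]
        positivity
      linarith
    -- the Dirac terms
    have a3 : (q x)⁻¹ * AB x ≤ (q x)⁻¹ * ((F2 x - A2 x) / 2) :=
      mul_le_mul_of_nonneg_left (E.hAB x) (inv_pos.2 hq).le
    have a4 : - (q x ^ 2 * |gc x|) ≤ q x ^ 2 * gc x := by
      rw [← mul_neg]
      exact mul_le_mul_of_nonneg_left (neg_abs_le _) (by positivity)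
    have a34 : k * ((q x)⁻¹ * A2 x) + 2 * k * (q x ^ 4 * (N0 x * N1 x)) ≤
        2 * k * P2 x + k * ((q x)⁻¹ * F2 x + 2 * (q x ^ 2 * |gc x|)) := by
      have e : (q x)⁻¹ * A2 x + 2 * (q x ^ 4 * (N0 x * N1 x)) ≤
          2 * P2 x + ((q x)⁻¹ * F2 x + 2 * (q x ^ 2 * |gc x|)) := by
        simp only [hP2]
        nlinarith
      nlinarith
    -- `B2`
    have a5 : B2 x ≤ 2 * F2 x + 2 * q1 * ((q x)⁻¹ * A2 x) := by
      have e1 : A2 x ≤ q1 * ((q x)⁻¹ * A2 x) := by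
        have e2 : A2 x = q x * ((q x)⁻¹ * A2 x) := by
          rw [← mul_assoc, mul_inv_cancel₀ hq.ne', one_mul]
        calc A2 x = q x * ((q x)⁻¹ * A2 x) := e2
          _ ≤ _ := mul_le_mul_of_nonneg_right hqq1
            (mul_nonneg (inv_pos.2 hq).le (E.A20 x))
      have := E.hB2 x
      linarith
    have hq3 : q x ^ 3 ≤ q1 ^ 3 := pow_le_pow_left₀ hq.le hqq1 3
    have hq5 : q0 ^ 5 ≤ q x ^ 5 := pow_le_pow_left₀ E.q0p.le hqq0 5
    have hq4 : q0 ^ 4 ≤ q x ^ 4 := pow_le_pow_left₀ E.q0p.le hqq0 4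
    have hN3 : 0 ≤ q x ^ 3 * N1 x := by positivity
    have a6 : - (KQ * (q x ^ 3 * N1 x)) ≤ Qv x := (abs_le.1 (E.hQ x)).1
    have a7 : - (q x ^ 3 * N1 x * |gn x|) ≤ q x ^ 3 * N1 x * gn x := by
      rw [← mul_neg]
      exact mul_le_mul_of_nonneg_left (neg_abs_le _) hN3
    have a8 : q x ^ 3 * N1 x * fn x ≤ B * (q x ^ 3 * N1 x) := by
      rw [mul_comm B]
      exact mul_le_mul_of_nonneg_left ((le_abs_self _).trans (E.hfn x)) hN3
    have a9 : (KQ + B) * (q x ^ 3 * N1 x) ≤ r * q0 ^ 5 / 2 * N1 x := by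
      have e1 : (KQ + B) * q x ^ 3 ≤ r * q0 ^ 5 / 2 := by
        have : (KQ + B) * q x ^ 3 ≤ (KQ + B) * q1 ^ 3 :=
          mul_le_mul_of_nonneg_left hq3 (by positivity)
        linarith
      calc (KQ + B) * (q x ^ 3 * N1 x) = (KQ + B) * q x ^ 3 * N1 x := by ring
        _ ≤ _ := mul_le_mul_of_nonneg_right e1 n1
    have a10 : r * q0 ^ 5 * N1 x ≤ r * q x ^ 5 * N1 x :=
      mul_le_mul_of_nonneg_right (mul_le_mul_of_nonneg_left hq5 hr0.le) n1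
    have a11 : q x ^ 5 * (N0 x * N1 x) / 2 + q0 ^ 4 * (N0 x * N1 x) ≤
        2 * k * (q x ^ 4 * (N0 x * N1 x)) := by
      have e1 : q x ^ 5 / 2 + q0 ^ 4 ≤ 2 * k * q x ^ 4 := by
        have e2 : q x ^ 5 ≤ q1 * q x ^ 4 := by
          calc q x ^ 5 = q x * q x ^ 4 := by ring
            _ ≤ _ := mul_le_mul_of_nonneg_right hqq1 (by positivity)
        have e3 : 0 < q x ^ 4 := by positivity
        rw [hk]
        nlinarith
      calc _ = (q x ^ 5 / 2 + q0 ^ 4) * (N0 x * N1 x) := by ring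
        _ ≤ (2 * k * q x ^ 4) * (N0 x * N1 x) := mul_le_mul_of_nonneg_right e1 n01
        _ = _ := by ring
    have a12 : 0 ≤ q x ^ 5 * (N1 x * N1 x) := by positivity
    have eP6 : P6 x = W x + Qv x + (r * q x ^ 5 * N1 x + q x ^ 5 * (N1 x * N1 x) / 2 -
        q x ^ 5 * (N0 x * N1 x) / 2 + q x ^ 3 * N1 x * gn x - q x ^ 3 * N1 x * fn x) - B2 x := by
      simp only [hP6]
      ring
    rw [eP6]
    simp only [Psi, err2]
    have hkA : k * ((q x)⁻¹ * A2 x) = 2 * q1 * ((q x)⁻¹ * A2 x) + (q x)⁻¹ * A2 x := by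
      rw [hk]; ring
    linarith
  have key := integral_mono (μ := μ)
    (f := fun x => Psi q N0 N1 A2 W q0 r x + 2 * k * C * (√(G x) * √(N1 x)))
    (g := fun x => P6 x + (2 * k * P2 x + (4 * k ^ 2 * C ^ 2 / (r * q0 ^ 5) * G x +
        err2 q N1 gn gc F2 k x)))
    ((icont E.cPsi).add ((icont E.csq).const_mul _))
    ((icont c6).add (((icont c2).const_mul _).add (((icont h8).const_mul _).add
      (icont (E.cerr2 k))))) pw
  have k1 := E.cPsi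
  have k2 := E.csq
  have k3 := E.cerr2 k
  have eL : ∫ x, (Psi q N0 N1 A2 W q0 r x + 2 * k * C * (√(G x) * √(N1 x))) ∂μ =
      ∫ x, Psi q N0 N1 A2 W q0 r x ∂μ + 2 * k * C * ∫ x, √(G x) * √(N1 x) ∂μ := by
    rw [iadd k1 (by fun_prop), integral_const_mul]
  have eR : ∫ x, (P6 x + (2 * k * P2 x + (4 * k ^ 2 * C ^ 2 / (r * q0 ^ 5) * G x +
        err2 q N1 gn gc F2 k x))) ∂μ = ∫ x, P6 x ∂μ + (2 * k * ∫ x, P2 x ∂μ +
        (4 * k ^ 2 * C ^ 2 / (r * q0 ^ 5) * ∫ x, G x ∂μ +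
          ∫ x, err2 q N1 gn gc F2 k x ∂μ)) := by
    rw [iadd (by fun_prop) (by fun_prop), iadd (by fun_prop) (by fun_prop),
      iadd (by fun_prop) (by fun_prop)]
    simp only [integral_const_mul]
  rw [eL, eR, j6] at key
  have hk2 : 2 * k * ∫ x, P2 x ∂μ ≤ 2 * k * (C * ∫ x, √(G x) * √(N1 x) ∂μ) :=
    mul_le_mul_of_nonneg_left j2 (by linarith)
  linarith

end Est

end

end Crest.Agent.R235.SwcTaus_312
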