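import Crest.Agent.R235.SwcTausA_312

/-!
Row 235 (S0364), PACKAGE SWC, NODE PROD, **TAUS** (helper215 #2370), part B (helper312):
the bounds with their constants, and the error terms.
-/

set_option autoImplicit false
set_option linter.unusedSectionVars false

open MeasureTheory Set Filter Topology

namespace Crest.Agent.R235.SwcTaus_312

noncomputable section

variable {X : Type*} [TopologicalSpace X] [CompactSpace X] [MeasurableSpace X] [BorelSpace X]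
  {μ : Measure X} [IsFiniteMeasureOnCompacts μ]

/-- the constant of the estimate of `∫ Phi`. -/
def Ka (q1 B V : ℝ) : ℝ := 2 * (q1 ^ 2 * B * V) + 1

/-- the constant of the estimate of `∫ Psi`. -/
def Kb (q0 q1 B V C : ℝ) : ℝ :=
  1 + 4 * (2 * q1 + 1) ^ 2 * C ^ 2 / q0 ^ 5 * (2 / q0 ^ 2 * Ka q1 B V)

/-- the constant of `TAUS`. -/
def Kc (q0 q1 B V C : ℝ) : ℝ :=
  2 / q0 ^ 2 * Ka q1 B V + 2 / q0 ^ 4 * Ka q1 B V + 4 / q0 ^ 5 * Kb q0 q1 B V C +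
    Kb q0 q1 B V C + q1 * Kb q0 q1 B V C + (q0 ^ 4)⁻¹ * Kb q0 q1 B V C

theorem Ka_pos {q1 B V : ℝ} (hB : 0 ≤ B) (hV : 0 ≤ V) : 0 < Ka q1 B V := by
  unfold Ka
  positivity

theorem Kb_pos {q0 q1 B V C : ℝ} (h0 : 0 < q0) (hB : 0 ≤ B) (hV : 0 ≤ V) :
    0 < Kb q0 q1 B V C := by
  have := Ka_pos (q1 := q1) hB hV
  unfold Kb
  positivity

theorem Kc_pos {q0 q1 B V C : ℝ} (h0 : 0 < q0) (h1 : 0 ≤ q1) (hB : 0 ≤ B) (hV : 0 ≤ V) :
    0 < Kc q0 q1 B V C := by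
  have := Ka_pos (q1 := q1) hB hV
  have := Kb_pos (q1 := q1) (C := C) h0 hB hV
  unfold Kc
  positivity

namespace Est

variable {q G N0 N1 gn gc fn F2 A2 B2 AB W Qv : X → ℝ} {q0 q1 B KQ r C : ℝ}

theorem intPhi (E : Est μ q G N0 N1 gn gc fn F2 A2 B2 AB W Qv q0 q1 B KQ r C)
    (hB : 0 ≤ B) (h1r : 1 ≤ r) (hr : 4 * C ^ 2 ≤ r * q0 ^ 6)
    (he : ∫ x, err1 q N0 gn gc F2 r x ∂μ ≤ 1) :
    ∫ x, Phi q G N0 N1 r x ∂μ ≤ Ka q1 B (μ.real univ) * r := by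
  have h1 := E.step5 hr
  have hcq := E.cq
  have hcf := E.cfn
  have h2 : ∫ x, q x ^ 2 * fn x ∂μ ≤ ∫ _, q1 ^ 2 * B ∂μ := by
    refine integral_mono (icont (by fun_prop)) (icont continuous_const) fun x => ?_
    have a1 : q x ^ 2 ≤ q1 ^ 2 := pow_le_pow_left₀ (E.qpos x).le (E.hq x).2 2
    have a2 : fn x ≤ B := (le_abs_self _).trans (E.hfn x)
    calc q x ^ 2 * fn x ≤ q x ^ 2 * B := mul_le_mul_of_nonneg_left a2 (by positivity)
      _ ≤ q1 ^ 2 * B := mul_le_mul_of_nonneg_right a1 hB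
  rw [integral_const, smul_eq_mul] at h2
  have h3 : 2 * r * ∫ x, q x ^ 2 * fn x ∂μ ≤ 2 * r * (μ.real univ * (q1 ^ 2 * B)) :=
    mul_le_mul_of_nonneg_left h2 (by linarith)
  unfold Ka
  nlinarith

theorem intG (E : Est μ q G N0 N1 gn gc fn F2 A2 B2 AB W Qv q0 q1 B KQ r C)
    (hB : 0 ≤ B) (h1r : 1 ≤ r) (hr : 4 * C ^ 2 ≤ r * q0 ^ 6)
    (he : ∫ x, err1 q N0 gn gc F2 r x ∂μ ≤ 1) :
    ∫ x, G x ∂μ ≤ 2 / q0 ^ 2 * Ka q1 B (μ.real univ) * r := by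
  have h1 := E.intPhi hB h1r hr he
  have h0 := E.q0p
  have h2 : ∫ x, q0 ^ 2 / 2 * G x ∂μ ≤ ∫ x, Phi q G N0 N1 r x ∂μ := by
    refine integral_mono ((icont E.cG).const_mul _) (icont E.cPhi) fun x => ?_
    have a1 : q0 ^ 2 ≤ q x ^ 2 := pow_le_pow_left₀ h0.le (E.hq x).1 2
    have a2 := E.qpos x
    have a3 := E.N00 x
    have a4 := E.N10 x
    have a5 : 0 ≤ q x ^ 4 / 2 * ((2 * r - N0 x) ^ 2 + N1 x * (r + 3 * N0 x)) := by
      have := E.rp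
      positivity
    have a6 : q0 ^ 2 / 2 * G x ≤ q x ^ 2 / 2 * G x :=
      mul_le_mul_of_nonneg_right (by linarith) (E.G0 x)
    unfold Phi
    linarith
  rw [integral_const_mul] at h2
  have h3 : q0 ^ 2 / 2 * ∫ x, G x ∂μ ≤ Ka q1 B (μ.real univ) * r := h2.trans h1
  have h4 : ∫ x, G x ∂μ = 2 / q0 ^ 2 * (q0 ^ 2 / 2 * ∫ x, G x ∂μ) := by field_simp
  rw [h4, mul_assoc]
  exact mul_le_mul_of_nonneg_left h3 (by positivity)

theorem intD (E : Est μ q G N0 N1 gn gc fn F2 A2 B2 AB W Qv q0 q1 B KQ r C)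
    (hB : 0 ≤ B) (h1r : 1 ≤ r) (hr : 4 * C ^ 2 ≤ r * q0 ^ 6)
    (he : ∫ x, err1 q N0 gn gc F2 r x ∂μ ≤ 1) :
    ∫ x, (2 * r - N0 x) ^ 2 ∂μ ≤ 2 / q0 ^ 4 * Ka q1 B (μ.real univ) * r := by
  have h1 := E.intPhi hB h1r hr he
  have h0 := E.q0p
  have hN := E.cN0
  have h2 : ∫ x, q0 ^ 4 / 2 * (2 * r - N0 x) ^ 2 ∂μ ≤ ∫ x, Phi q G N0 N1 r x ∂μ := by
    refine integral_mono (icont (by fun_prop)) (icont E.cPhi) fun x => ?_
    have a1 : q0 ^ 4 ≤ q x ^ 4 := pow_le_pow_left₀ h0.le (E.hq x).1 4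
    have a2 := E.qpos x
    have a3 := E.N00 x
    have a4 := E.N10 x
    have a7 := E.G0 x
    have a5 : 0 ≤ q x ^ 4 / 2 * (N1 x * (r + 3 * N0 x)) := by
      have := E.rp
      positivity
    have a8 : 0 ≤ q x ^ 2 / 2 * G x := by positivity
    have a6 : q0 ^ 4 / 2 * (2 * r - N0 x) ^ 2 ≤ q x ^ 4 / 2 * (2 * r - N0 x) ^ 2 :=
      mul_le_mul_of_nonneg_right (by linarith) (sq_nonneg _)
    unfold Phi
    linarith
  rw [integral_const_mul] at h2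
  have h3 := h2.trans h1
  have h4 : ∫ x, (2 * r - N0 x) ^ 2 ∂μ =
      2 / q0 ^ 4 * (q0 ^ 4 / 2 * ∫ x, (2 * r - N0 x) ^ 2 ∂μ) := by field_simp
  rw [h4, mul_assoc]
  exact mul_le_mul_of_nonneg_left h3 (by positivity)

theorem intPsi (E : Est μ q G N0 N1 gn gc fn F2 A2 B2 AB W Qv q0 q1 B KQ r C) (hKQ : 0 ≤ KQ)
    (hB : 0 ≤ B) (h1r : 1 ≤ r) (hr : 4 * C ^ 2 ≤ r * q0 ^ 6)
    (hr5 : 2 * ((KQ + B) * q1 ^ 3) ≤ r * q0 ^ 5)
    (he : ∫ x, err1 q N0 gn gc F2 r x ∂μ ≤ 1)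
    (he2 : ∫ x, err2 q N1 gn gc F2 (2 * q1 + 1) x ∂μ ≤ 1) :
    ∫ x, Psi q N0 N1 A2 W q0 r x ∂μ ≤ Kb q0 q1 B (μ.real univ) C := by
  have h1 := E.step7 hKQ hB hr5 rfl
  have h2 := E.intG hB h1r hr he
  have h0 := E.q0p
  have hr0 := E.rp
  have h3 : 4 * (2 * q1 + 1) ^ 2 * C ^ 2 / (r * q0 ^ 5) * ∫ x, G x ∂μ ≤
      4 * (2 * q1 + 1) ^ 2 * C ^ 2 / (r * q0 ^ 5) *
        (2 / q0 ^ 2 * Ka q1 B (μ.real univ) * r) :=
    mul_le_mul_of_nonneg_left h2 (by positivity)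
  have h4 : 4 * (2 * q1 + 1) ^ 2 * C ^ 2 / (r * q0 ^ 5) *
        (2 / q0 ^ 2 * Ka q1 B (μ.real univ) * r) =
      4 * (2 * q1 + 1) ^ 2 * C ^ 2 / q0 ^ 5 * (2 / q0 ^ 2 * Ka q1 B (μ.real univ)) := by
    field_simp
  unfold Kb
  linarith

/-- **the bounds** -/
theorem bounds (E : Est μ q G N0 N1 gn gc fn F2 A2 B2 AB W Qv q0 q1 B KQ r C) (hKQ : 0 ≤ KQ)
    (hB : 0 ≤ B) (hq1 : 0 ≤ q1) (h1r : 1 ≤ r) (hr : 4 * C ^ 2 ≤ r * q0 ^ 6)
    (hr5 : 2 * ((KQ + B) * q1 ^ 3) ≤ r * q0 ^ 5)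
    (he : ∫ x, err1 q N0 gn gc F2 r x ∂μ ≤ 1)
    (he2 : ∫ x, err2 q N1 gn gc F2 (2 * q1 + 1) x ∂μ ≤ 1) :
    ∫ x, G x ∂μ ≤ Kc q0 q1 B (μ.real univ) C * r ∧
    ∫ x, (2 * r - N0 x) ^ 2 ∂μ ≤ Kc q0 q1 B (μ.real univ) C * r ∧
    r * ∫ x, N1 x ∂μ ≤ Kc q0 q1 B (μ.real univ) C ∧
    ∫ x, W x ∂μ ≤ Kc q0 q1 B (μ.real univ) C ∧
    ∫ x, A2 x ∂μ ≤ Kc q0 q1 B (μ.real univ) C ∧
    ∫ x, N0 x * N1 x ∂μ ≤ Kc q0 q1 B (μ.real univ) C := by
  have h0 := E.q0p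
  have hr0 := E.rp
  have hV : 0 ≤ μ.real univ := measureReal_nonneg
  have pa := Ka_pos (q1 := q1) hB hV
  have pb := Kb_pos (q1 := q1) (C := C) h0 hB hV
  have h1 := E.intG hB h1r hr he
  have h2 := E.intD hB h1r hr he
  have h3 := E.intPsi hKQ hB h1r hr hr5 he he2
  set A := Ka q1 B (μ.real univ) with hA
  set D := Kb q0 q1 B (μ.real univ) C with hD
  have t1 : 0 ≤ 2 / q0 ^ 2 * A := by positivity
  have t2 : 0 ≤ 2 / q0 ^ 4 * A := by positivity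
  have t3 : 0 ≤ 4 / q0 ^ 5 * D := by positivity
  have t4 : 0 ≤ D := pb.le
  have t5 : 0 ≤ q1 * D := by positivity
  have t6 : 0 ≤ (q0 ^ 4)⁻¹ * D := by positivity
  have eK : Kc q0 q1 B (μ.real univ) C = 2 / q0 ^ 2 * A + 2 / q0 ^ 4 * A + 4 / q0 ^ 5 * D +
    D + q1 * D + (q0 ^ 4)⁻¹ * D := rfl
  rw [eK]
  have hW := E.cW
  have hA2 := E.cA2
  have hN1 := E.cN1
  have hN0 := E.cN0
  have hqi := E.cqi
  have mono : ∀ {f : X → ℝ}, Continuous f → (∀ x, f x ≤ Psi q N0 N1 A2 W q0 r x) →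
      ∫ x, f x ∂μ ≤ D := fun hf h => (integral_mono (icont hf) (icont E.cPsi) h).trans h3
  have p1 : ∀ x, 0 ≤ (q x)⁻¹ * A2 x := fun x => mul_nonneg (inv_pos.2 (E.qpos x)).le (E.A20 x)
  have p2 : ∀ x, 0 ≤ r * q0 ^ 5 / 4 * N1 x := fun x =>
    mul_nonneg (by positivity) (E.N10 x)
  have p3 : ∀ x, 0 ≤ q0 ^ 4 * (N0 x * N1 x) := fun x =>
    mul_nonneg (by positivity) (mul_nonneg (E.N00 x) (E.N10 x))
  refine ⟨?_, ?_, ?_, ?_, ?_, ?_⟩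
  · refine h1.trans (mul_le_mul_of_nonneg_right ?_ hr0.le)
    linarith
  · refine h2.trans (mul_le_mul_of_nonneg_right ?_ hr0.le)
    linarith
  · have b1 : ∫ x, r * q0 ^ 5 / 4 * N1 x ∂μ ≤ D := mono (by fun_prop) fun x => by
      have := E.W0 x
      have := p1 x
      have := p3 x
      unfold Psi
      linarith
    rw [integral_const_mul] at b1
    have b2 : r * ∫ x, N1 x ∂μ = 4 / q0 ^ 5 * (r * q0 ^ 5 / 4 * ∫ x, N1 x ∂μ) := by field_simp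
    have b3 : r * ∫ x, N1 x ∂μ ≤ 4 / q0 ^ 5 * D := by
      rw [b2]
      exact mul_le_mul_of_nonneg_left b1 (by positivity)
    linarith
  · have b1 : ∫ x, W x ∂μ ≤ D := mono hW fun x => by
      have := p1 x
      have := p2 x
      have := p3 x
      unfold Psi
      linarith
    linarith
  · have b1 : ∫ x, (q x)⁻¹ * A2 x ∂μ ≤ D := mono (by fun_prop) fun x => by
      have := E.W0 x
      have := p2 x
      have := p3 x
      unfold Psi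
      linarith
    have b2 : ∫ x, A2 x ∂μ ≤ ∫ x, q1 * ((q x)⁻¹ * A2 x) ∂μ := by
      refine integral_mono (icont hA2) (icont (by fun_prop)) fun x => ?_
      have hq := E.qpos x
      have e2 : A2 x = q x * ((q x)⁻¹ * A2 x) := by
        rw [← mul_assoc, mul_inv_cancel₀ hq.ne', one_mul]
      calc A2 x = q x * ((q x)⁻¹ * A2 x) := e2
        _ ≤ _ := mul_le_mul_of_nonneg_right (E.hq x).2 (p1 x)
    rw [integral_const_mul] at b2
    have b3 := mul_le_mul_of_nonneg_left b1 hq1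
    linarith
  · have b1 : ∫ x, q0 ^ 4 * (N0 x * N1 x) ∂μ ≤ D := mono (by fun_prop) fun x => by
      have := E.W0 x
      have := p1 x
      have := p2 x
      unfold Psi
      linarith
    rw [integral_const_mul] at b1
    have b2 : ∫ x, N0 x * N1 x ∂μ = (q0 ^ 4)⁻¹ * (q0 ^ 4 * ∫ x, N0 x * N1 x ∂μ) := by field_simp
    have b3 : ∫ x, N0 x * N1 x ∂μ ≤ (q0 ^ 4)⁻¹ * D := by
      rw [b2]
      exact mul_le_mul_of_nonneg_left b1 (by positivity)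
    linarith

end Est

/-- **the error terms are small** -/
theorem err_small {q0 q1 r V L : ℝ} (h0 : 0 < q0) (h1 : 0 ≤ q1) (hr : 0 < r) (hV : 0 ≤ V) :
    ∃ ε : ℝ, 0 < ε ∧ ∀ q N0 N1 gn gc F2 g2 u2 : X → ℝ, Continuous q → Continuous N0 →
      Continuous N1 → Continuous gn → Continuous gc → Continuous F2 → Continuous g2 →
      Continuous u2 → (∀ x, q0 ≤ q x ∧ q x ≤ q1) → (∀ x, 0 ≤ N0 x) → (∀ x, 0 ≤ N1 x) →
      (∀ x, 0 ≤ F2 x) → (∀ x, 0 ≤ g2 x) → (∀ x, 0 ≤ u2 x) →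
      (∀ x, q x ^ 3 * (N0 x + N1 x) ≤ u2 x) → (∀ x, |gn x| ≤ √(g2 x)) →
      (∀ x, |gc x| ≤ √(g2 x) * (N0 x + N1 x)) → μ.real univ ≤ V →
      ∫ x, F2 x ∂μ ≤ ε → ∫ x, g2 x ∂μ ≤ ε → ∫ x, u2 x ^ 2 ∂μ ≤ L →
      ∫ x, Est.err1 q N0 gn gc F2 r x ∂μ ≤ 1 ∧
        ∫ x, Est.err2 q N1 gn gc F2 (2 * q1 + 1) x ∂μ ≤ 1 := by
  set k := 2 * q1 + 1 with hk
  have hk0 : 0 < k := by linarith
  set c : ℝ := 3 + k * q0⁻¹ + q0⁻¹ + 3 * q1 ^ 2 * (q0 ^ 3)⁻¹ + 2 * r * q1 ^ 2 +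
    2 * k * q1 ^ 2 * (q0 ^ 3)⁻¹ with hc
  have hc0 : 0 < c := by positivity
  set δ : ℝ := 1 / (4 * c * (V + |L| + 1)) with hδ
  have hVL : 0 < V + |L| + 1 := by positivity
  have hδ0 : 0 < δ := by positivity
  refine ⟨1 / (2 * c * (1 + 1 / (4 * δ))), by positivity, ?_⟩
  intro q N0 N1 gn gc F2 g2 u2 cq cN0 cN1 cgn cgc cF2 cg2 cu2 hq hN0 hN1 hF2 hg2 hu2 hqu hgn hgc hVV
    iF ig iu
  set ε := 1 / (2 * c * (1 + 1 / (4 * δ))) with hε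
  have hqp : ∀ x, 0 < q x := fun x => h0.trans_le (hq x).1
  have cqi : Continuous fun x => (q x)⁻¹ := cq.inv₀ fun x => (hqp x).ne'
  -- the integral of the dominating density
  have key : ∀ e : X → ℝ, Continuous e → (∀ x, e x ≤ c * (F2 x + √(g2 x) * (1 + u2 x))) →
      ∫ x, e x ∂μ ≤ 1 := by
    intro e ce he
    have a1 : ∀ x, e x ≤ c * (F2 x + (1 / (4 * δ) * g2 x + 2 * δ * (1 + u2 x ^ 2))) := by
      intro x
      refine (he x).trans (mul_le_mul_of_nonneg_left ?_ hc0.le)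
      have b1 : √(g2 x) ^ 2 = g2 x := Real.sq_sqrt (hg2 x)
      have b2 : √(g2 x) * (1 + u2 x) ≤ 1 / (4 * δ) * g2 x + δ * (1 + u2 x) ^ 2 := by
        have b3 : 0 ≤ (√(g2 x) - 2 * δ * (1 + u2 x)) ^ 2 := sq_nonneg _
        have b4 : 1 / (4 * δ) * g2 x + δ * (1 + u2 x) ^ 2 - √(g2 x) * (1 + u2 x) =
            1 / (4 * δ) * (√(g2 x) - 2 * δ * (1 + u2 x)) ^ 2 := by
          rw [← b1]
          rw [Real.sqrt_sq (Real.sqrt_nonneg _)]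
          field_simp
          ring
        have b5 : 0 ≤ 1 / (4 * δ) * (√(g2 x) - 2 * δ * (1 + u2 x)) ^ 2 := by positivity
        linarith
      have b6 : (1 + u2 x) ^ 2 ≤ 2 * (1 + u2 x ^ 2) := by nlinarith [sq_nonneg (1 - u2 x)]
      have b7 := mul_le_mul_of_nonneg_left b6 hδ0.le
      linarith
    have a2 : ∫ x, e x ∂μ ≤
        ∫ x, c * (F2 x + (1 / (4 * δ) * g2 x + 2 * δ * (1 + u2 x ^ 2))) ∂μ :=
      integral_mono (icont ce) (icont (by fun_prop)) a1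
    have a3 : ∫ x, c * (F2 x + (1 / (4 * δ) * g2 x + 2 * δ * (1 + u2 x ^ 2))) ∂μ =
        c * (∫ x, F2 x ∂μ + (1 / (4 * δ) * ∫ x, g2 x ∂μ +
          2 * δ * (μ.real univ + ∫ x, u2 x ^ 2 ∂μ))) := by
      rw [integral_const_mul, iadd (by fun_prop) (by fun_prop), iadd (by fun_prop) (by fun_prop),
        integral_const_mul, integral_const_mul, iadd (by fun_prop) (by fun_prop), integral_const,
        smul_eq_mul, mul_one]
    rw [a3] at a2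
    have a4 : 1 / (4 * δ) * ∫ x, g2 x ∂μ ≤ 1 / (4 * δ) * ε :=
      mul_le_mul_of_nonneg_left ig (by positivity)
    have a5 : 2 * δ * (μ.real univ + ∫ x, u2 x ^ 2 ∂μ) ≤ 2 * δ * (V + |L| + 1) := by
      refine mul_le_mul_of_nonneg_left ?_ (by positivity)
      have := le_abs_self L
      linarith
    have a6 : c * (∫ x, F2 x ∂μ + (1 / (4 * δ) * ∫ x, g2 x ∂μ +
          2 * δ * (μ.real univ + ∫ x, u2 x ^ 2 ∂μ))) ≤
        c * (ε + (1 / (4 * δ) * ε + 2 * δ * (V + |L| + 1))) :=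
      mul_le_mul_of_nonneg_left (by linarith) hc0.le
    have a7 : c * (ε + (1 / (4 * δ) * ε + 2 * δ * (V + |L| + 1))) = 1 := by
      have e1 : c * (ε + 1 / (4 * δ) * ε) = 1 / 2 := by
        have : c * (ε + 1 / (4 * δ) * ε) = c * (1 + 1 / (4 * δ)) * ε := by ring
        rw [this, hε]
        have h5 : 0 < 1 + 1 / (4 * δ) := by positivity
        field_simp
      have e2 : c * (2 * δ * (V + |L| + 1)) = 1 / 2 := by
        rw [hδ]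
        field_simp
        norm_num
      calc _ = c * (ε + 1 / (4 * δ) * ε) + c * (2 * δ * (V + |L| + 1)) := by ring
        _ = 1 := by rw [e1, e2]; norm_num
    linarith
  -- pointwise
  have hq1 : ∀ x, q x ^ 2 ≤ q1 ^ 2 := fun x => pow_le_pow_left₀ (hqp x).le (hq x).2 2
  have hqi : ∀ x, (q x)⁻¹ ≤ q0⁻¹ := fun x => inv_anti₀ h0 (hq x).1
  have hN : ∀ x, N0 x + N1 x ≤ (q0 ^ 3)⁻¹ * u2 x := by
    intro x
    have b1 : q0 ^ 3 * (N0 x + N1 x) ≤ u2 x :=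
      (mul_le_mul_of_nonneg_right (pow_le_pow_left₀ h0.le (hq x).1 3)
        (add_nonneg (hN0 x) (hN1 x))).trans (hqu x)
    have b2 : N0 x + N1 x = (q0 ^ 3)⁻¹ * (q0 ^ 3 * (N0 x + N1 x)) := by field_simp
    rw [b2]
    exact mul_le_mul_of_nonneg_left b1 (by positivity)
  have common : ∀ x, 0 ≤ √(g2 x) ∧ q x ^ 2 * |gc x| ≤ q1 ^ 2 * (q0 ^ 3)⁻¹ * (√(g2 x) * u2 x) ∧
      q x ^ 2 * |gn x| ≤ q1 ^ 2 * √(g2 x) ∧ (q x)⁻¹ * F2 x ≤ q0⁻¹ * F2 x ∧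
      q x ^ 2 * |gn x| * N0 x ≤ q1 ^ 2 * (q0 ^ 3)⁻¹ * (√(g2 x) * u2 x) ∧
      q x ^ 3 * N1 x * |gn x| ≤ √(g2 x) * u2 x := by
    intro x
    have s0 := Real.sqrt_nonneg (g2 x)
    have n0 := hN0 x
    have n1 := hN1 x
    have hqx := hqp x
    refine ⟨s0, ?_, ?_, ?_, ?_, ?_⟩
    · calc q x ^ 2 * |gc x| ≤ q1 ^ 2 * (√(g2 x) * (N0 x + N1 x)) :=
            mul_le_mul (hq1 x) (hgc x) (abs_nonneg _) (by positivity)
        _ ≤ q1 ^ 2 * (√(g2 x) * ((q0 ^ 3)⁻¹ * u2 x)) := by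
            gcongr
            exact hN x
        _ = _ := by ring
    · exact mul_le_mul (hq1 x) (hgn x) (abs_nonneg _) (by positivity)
    · exact mul_le_mul_of_nonneg_right (hqi x) (hF2 x)
    · calc q x ^ 2 * |gn x| * N0 x ≤ q1 ^ 2 * √(g2 x) * (N0 x + N1 x) := by
            refine mul_le_mul (mul_le_mul (hq1 x) (hgn x) (abs_nonneg _) (by positivity))
              (by linarith) n0 (by positivity)
        _ ≤ q1 ^ 2 * √(g2 x) * ((q0 ^ 3)⁻¹ * u2 x) := by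
            gcongr
            exact hN x
        _ = _ := by ring
    · calc q x ^ 3 * N1 x * |gn x| ≤ u2 x * √(g2 x) := by
            refine mul_le_mul ?_ (hgn x) (abs_nonneg _) (hu2 x)
            have : q x ^ 3 * N1 x ≤ q x ^ 3 * (N0 x + N1 x) :=
              mul_le_mul_of_nonneg_left (by linarith) (by positivity)
            exact this.trans (hqu x)
        _ = _ := mul_comm _ _
  have hq03 : 0 ≤ q1 ^ 2 * (q0 ^ 3)⁻¹ := by positivity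
  constructor
  · refine key _ ?_ fun x => ?_
    · unfold Est.err1
      fun_prop
    · obtain ⟨b0, b1, b2, b3, b4, b5⟩ := common x
      have u0 := hu2 x
      have f0 := hF2 x
      have su : 0 ≤ √(g2 x) * u2 x := mul_nonneg b0 u0
      have b6 : 2 * r * (q x ^ 2 * |gn x|) ≤ 2 * r * (q1 ^ 2 * √(g2 x)) :=
        mul_le_mul_of_nonneg_left b2 (by positivity)
      have d1 : q0⁻¹ * F2 x ≤ c * F2 x := by
        refine mul_le_mul_of_nonneg_right ?_ f0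
        have : 0 ≤ 3 + k * q0⁻¹ + 3 * q1 ^ 2 * (q0 ^ 3)⁻¹ + 2 * r * q1 ^ 2 +
          2 * k * q1 ^ 2 * (q0 ^ 3)⁻¹ := by positivity
        linarith
      have d2 : 2 * r * q1 ^ 2 * √(g2 x) ≤ c * √(g2 x) := by
        refine mul_le_mul_of_nonneg_right ?_ b0
        have : 0 ≤ 3 + k * q0⁻¹ + q0⁻¹ + 3 * q1 ^ 2 * (q0 ^ 3)⁻¹ +
          2 * k * q1 ^ 2 * (q0 ^ 3)⁻¹ := by positivity
        linarith
      have d3 : 3 * q1 ^ 2 * (q0 ^ 3)⁻¹ * (√(g2 x) * u2 x) ≤ c * (√(g2 x) * u2 x) := by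
        refine mul_le_mul_of_nonneg_right ?_ su
        have : 0 ≤ 3 + k * q0⁻¹ + q0⁻¹ + 2 * r * q1 ^ 2 +
          2 * k * q1 ^ 2 * (q0 ^ 3)⁻¹ := by positivity
        linarith
      unfold Est.err1
      linarith
  · refine key _ ?_ fun x => ?_
    · unfold Est.err2
      fun_prop
    · obtain ⟨b0, b1, b2, b3, b4, b5⟩ := common x
      have u0 := hu2 x
      have f0 := hF2 x
      have su : 0 ≤ √(g2 x) * u2 x := mul_nonneg b0 u0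
      have b6 : k * ((q x)⁻¹ * F2 x + 2 * (q x ^ 2 * |gc x|)) ≤
          k * (q0⁻¹ * F2 x + 2 * (q1 ^ 2 * (q0 ^ 3)⁻¹ * (√(g2 x) * u2 x))) :=
        mul_le_mul_of_nonneg_left (by linarith) hk0.le
      have d1 : (2 + k * q0⁻¹) * F2 x ≤ c * F2 x := by
        refine mul_le_mul_of_nonneg_right ?_ f0
        have : 0 ≤ q0⁻¹ + 3 * q1 ^ 2 * (q0 ^ 3)⁻¹ + 2 * r * q1 ^ 2 +
          2 * k * q1 ^ 2 * (q0 ^ 3)⁻¹ := by positivity
        linarith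
      have d2 : 0 ≤ c * √(g2 x) := by positivity
      have d3 : (1 + 2 * k * q1 ^ 2 * (q0 ^ 3)⁻¹) * (√(g2 x) * u2 x) ≤
          c * (√(g2 x) * u2 x) := by
        refine mul_le_mul_of_nonneg_right ?_ su
        have : 0 ≤ k * q0⁻¹ + q0⁻¹ + 3 * q1 ^ 2 * (q0 ^ 3)⁻¹ + 2 * r * q1 ^ 2 := by positivity
        linarith
      unfold Est.err2
      linarith

end

end Crest.Agent.R235.SwcTaus_312
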