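import Crest.Agent.R235.SwcVs_34

/-!
Row 235 (S0364), SWC-AN (helper34): from `TSeq.OK` (along `atTop`) and `PTW` to the vorticity
sequences of helper358 (`VSeq`).
-/

set_option autoImplicit false
set_option maxSynthPendingDepth 3
set_option linter.unusedSectionVars false

open Set Function Filter MeasureTheory Metric
open scoped Manifold ContDiff Topology

universe u

namespace Crest.Agent.R235.SwcVs_34

open Crest.Agent.R240 Crest.Agent.R240.Ch Crest.Agent.R235
open Crest.Agent.R235.SwcGlob_34 Crest.Agent.R235.SwcAlg_34 Crest.Agent.R235.Tau483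

noncomputable section

/-- an eventual bound gives a bound. -/
theorem all_of_ev {x : ℕ → ℝ} {C : ℝ} (h : ∀ᶠ n in atTop, x n ≤ C) : ∃ C' : ℝ, ∀ n, x n ≤ C' := by
  have h1 : IsBoundedUnder (· ≤ ·) atTop x := ⟨C, by simpa using h⟩
  obtain ⟨B, hB⟩ := h1.bddAbove_range
  exact ⟨B, fun n => hB ⟨n, rfl⟩⟩

variable {M : Type u} [MetricSpace M] [CompactSpace M] [ChartedSpace E4 M]
  [IsManifold 𝓘(ℝ, E4) ∞ M] [MeasurableSpace M] [BorelSpace M] {D : Dat M} {N : ℕ} {Q : TSeq M N}

/-- the form `P = Psi - a Phi`. -/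
def PP (Q : TSeq M N) (n : ℕ) : F2 E4 M := fun x => (∑ i, pf (Q.eta n x i) : Bil)

theorem at2_PP (n : ℕ) (x : M) : at2 (PP Q n) x = ∑ i, pf (Q.eta n x i) := rfl

theorem nr_sum_le {ι : Type*} (s : Finset ι) {J : E4 →L[ℝ] E4} {F : Bil}
    (hJ : ∀ v, J (J v) = -v) (hF : SPos J F) {b : ι → Bil} (hb : ∀ i, Alt (b i)) :
    Alt (∑ i ∈ s, b i) ∧ nr J F (∑ i ∈ s, b i) ≤ ∑ i ∈ s, nr J F (b i) := by
  classical
  induction s using Finset.induction_on with
  | empty =>
    simp only [Finset.sum_empty]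
    exact ⟨fun v => rfl, (nr_zero J F).le⟩
  | insert i s hi ih =>
    rw [Finset.sum_insert hi, Finset.sum_insert hi]
    refine ⟨fun v => ?_, (nr_add_le hJ hF (hb i) ih.1).trans (by linarith [ih.2])⟩
    rw [add_apply, add_apply, hb i v, ih.1 v, add_zero]

theorem nr_PP (n : ℕ) (x : M) : nrG D.J D.F (PP Q n) x ≤ Q.neta D n x := by
  have h1 := (nr_sum_le Finset.univ (D.sq x) (En4.spos D x)
    (fun i : Fin N => pf_alt (Q.eta n x i))).2
  refine h1.trans (Finset.sum_le_sum fun i _ => ?_)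
  exact nr_pf (D.sq x) (En4.spos D x) _

theorem alt_PP (n : ℕ) (x : M) : Alt (at2 (PP Q n) x) := by
  intro v
  rw [at2_PP]
  simp only [sum_apply]
  exact Finset.sum_eq_zero fun i _ => pf_alt (Q.eta n x i) v

/-- the error density. -/
def er (D : Dat M) (Q : TSeq M N) (n : ℕ) (x : M) : ℝ :=
  Q.ndb D n x + 2 * (√(Q.ndb D n x) * √(Q.neta D n x))

theorem antip_sum {ι : Type*} (s : Finset ι) (J : E4 →L[ℝ] E4) (b : ι → Bil) :
    antip J (∑ i ∈ s, b i) = ∑ i ∈ s, antip J (b i) := by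
  ext u v
  rw [antip_apply]
  simp only [sum_apply, antip_apply]
  rw [← Finset.sum_sub_distrib, Finset.sum_div]

theorem invp_sum {ι : Type*} (s : Finset ι) (J : E4 →L[ℝ] E4) (b : ι → Bil) (u v : E4) :
    invp J (∑ i ∈ s, b i) u v = ∑ i ∈ s, invp J (b i) u v := by
  rw [invp_apply]
  simp only [sum_apply, invp_apply]
  rw [← Finset.sum_add_distrib, Finset.sum_div]

theorem nr_bpp_PP (n : ℕ) (x : M) : nrG D.J D.F (bpp D.J (PP Q n)) x ≤ er D Q n x := by
  have hJ := D.sq x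
  have hF := En4.spos D x
  have h1 : at2 (bpp D.J (PP Q n)) x = ∑ i, antip (atJ D.J x) (pf (Q.eta n x i)) :=
    antip_sum _ _ _
  show nr (atJ D.J x) (at2 D.F x) (at2 (bpp D.J (PP Q n)) x) ≤ _
  rw [h1]
  refine ((nr_sum_le Finset.univ hJ hF
    (fun i : Fin N => (pf_alt (Q.eta n x i)).antip (atJ D.J x))).2).trans ?_
  have h2 : ∀ i, nr (atJ D.J x) (at2 D.F x) (antip (atJ D.J x) (pf (Q.eta n x i))) ≤
      nC D x ((Q.eta n x i).comp (atJ D.J x) - Complex.I • Q.eta n x i) +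
      2 * (√(nC D x ((Q.eta n x i).comp (atJ D.J x) - Complex.I • Q.eta n x i)) *
        √(nC D x (Q.eta n x i))) := fun i => nr_antip_pf hJ hF _
  refine (Finset.sum_le_sum fun i _ => h2 i).trans ?_
  rw [Finset.sum_add_distrib, ← Finset.mul_sum]
  unfold er
  have h3 := Real.sum_sqrt_mul_sqrt_le (Finset.univ : Finset (Fin N))
    (f := fun i => nC D x ((Q.eta n x i).comp (atJ D.J x) - Complex.I • Q.eta n x i))
    (g := fun i => nC D x (Q.eta n x i)) (fun i => mC_nonneg hJ hF _) (fun i => mC_nonneg hJ hF _)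
  have h4 : Q.ndb D n x =
    ∑ i, nC D x ((Q.eta n x i).comp (atJ D.J x) - Complex.I • Q.eta n x i) := rfl
  have h5 : Q.neta D n x = ∑ i, nC D x (Q.eta n x i) := rfl
  rw [h4, h5]
  linarith

theorem er_ge (n : ℕ) (x : M) :
    Q.ndb D n x ≤ er D Q n x := by
  unfold er
  have := Real.sqrt_nonneg (Q.ndb D n x)
  have := Real.sqrt_nonneg (Q.neta D n x)
  have : 0 ≤ √(Q.ndb D n x) * √(Q.neta D n x) := by positivity
  linarith

theorem pos_PP {U : Filter ℕ} {lam C : ℝ} (h : Q.OK D U lam C) (n : ℕ) (x : M) :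
    Pos (atJ D.J x) (invp (atJ D.J x) (at2 (PP Q n) x) + er D Q n x • at2 D.F x) := by
  have hJ := D.sq x
  have hF := En4.spos D x
  have ha : Alt (at2 (PP Q n) x) := alt_PP n x
  refine ⟨fun v => ?_, fun u v => ?_, fun v => ?_⟩
  · rw [add_apply, add_apply, smul_apply, smul_apply, hF.alt v, ha.invp _ v, smul_zero, add_zero]
  · rw [add_apply, add_apply, add_apply, add_apply, smul_apply, smul_apply, smul_apply,
      smul_apply, hF.inv, invp_inv hJ]
  · rw [add_apply, add_apply, smul_apply, smul_apply, smul_eq_mul]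
    have h1 : invp (atJ D.J x) (at2 (PP Q n) x) v (atJ D.J x v) =
        ∑ i, invp (atJ D.J x) (pf (Q.eta n x i)) v (atJ D.J x v) := invp_sum _ _ _ _ _
    rw [h1]
    have h2 : ∀ i : Fin N, -(nC D x ((Q.eta n x i).comp (atJ D.J x) - Complex.I • Q.eta n x i)
        / 2) * at2 D.F x v (atJ D.J x v) ≤
        invp (atJ D.J x) (pf (Q.eta n x i)) v (atJ D.J x v) := fun i => pf_pos hJ hF _ v
    have h3 := Finset.sum_le_sum fun i (_ : i ∈ (Finset.univ : Finset (Fin N))) => h2 i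
    rw [← Finset.sum_mul, Finset.sum_neg_distrib, ← Finset.sum_div] at h3
    have h4 : Q.ndb D n x =
      ∑ i, nC D x ((Q.eta n x i).comp (atJ D.J x) - Complex.I • Q.eta n x i) := rfl
    rw [← h4] at h3
    have h5 := er_ge (D := D) (Q := Q) n x
    have h6 := ndb_nonneg h n x
    have h7 : 0 ≤ at2 D.F x v (atJ D.J x v) := by
      by_cases hv : v = 0
      · rw [hv, map_zero, zero_apply]
      · exact (hF.pos v hv).le
    nlinarith [mul_nonneg (show (0:ℝ) ≤ er D Q n x - Q.ndb D n x / 2 by linarith) h7]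

theorem cont_er {U : Filter ℕ} {lam C : ℝ} (h : Q.OK D U lam C) (n : ℕ) :
    Continuous fun x => er D Q n x :=
  (cont_ndb h n).add (continuous_const.mul ((cont_ndb h n).sqrt.mul (cont_neta h n).sqrt))

theorem integ {f : M → ℝ} (hf : Continuous f) : Integrable f D.μ := En4.integrable_s D.fin hf

theorem er_tendsto {lam C : ℝ} (h : Q.OK D atTop lam C) :
    Tendsto (fun n => ∫ x, er D Q n x ∂D.μ) atTop (𝓝 0) := by
  have hC : 0 ≤ C := by
    obtain ⟨n, hn⟩ := h.e1.exists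
    exact (integral_nonneg fun x => neta_nonneg h n x).trans hn
  rw [tendsto_order]
  refine ⟨fun a ha => Eventually.of_forall fun n => lt_of_lt_of_le ha
    (integral_nonneg fun x => (ndb_nonneg h n x).trans (er_ge (D := D) (Q := Q) n x)), fun a ha => ?_⟩
  set δ : ℝ := a / (2 * (C + 1)) with hδ
  have hδ0 : 0 < δ := by positivity
  have key : ∀ n x, er D Q n x ≤ (1 + δ⁻¹) * Q.ndb D n x + δ * Q.neta D n x := by
    intro n x
    unfold er
    have h1 := Real.sq_sqrt (ndb_nonneg h n x)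
    have h2 := Real.sq_sqrt (neta_nonneg h n x)
    set p := √(Q.ndb D n x)
    set q := √(Q.neta D n x)
    have h3 : 0 ≤ δ⁻¹ * (p - δ * q) ^ 2 := by positivity
    have h4 : δ⁻¹ * (p - δ * q) ^ 2 = δ⁻¹ * p ^ 2 - 2 * (p * q) + δ * q ^ 2 := by
      field_simp
      ring
    rw [h1, h2] at h4
    linarith
  have e3 := h.o3.eventually_lt_const (show (0:ℝ) < a / (2 * (1 + δ⁻¹)) by positivity)
  filter_upwards [h.e1, e3] with n h1 h2
  have h3 : ∫ x, er D Q n x ∂D.μ ≤
      ∫ x, ((1 + δ⁻¹) * Q.ndb D n x + δ * Q.neta D n x) ∂D.μ :=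
    integral_mono (integ (cont_er h n)) (integ ((continuous_const.mul (cont_ndb h n)).add
      (continuous_const.mul (cont_neta h n)))) fun x => key n x
  rw [integral_add ((integ (cont_ndb h n)).const_mul _) ((integ (cont_neta h n)).const_mul _),
    integral_const_mul, integral_const_mul] at h3
  have h4 : (1 + δ⁻¹) * ∫ x, Q.ndb D n x ∂D.μ < a / 2 := by
    have : (1 + δ⁻¹) * (a / (2 * (1 + δ⁻¹))) = a / 2 := by
      field_simp
    rw [← this]
    exact mul_lt_mul_of_pos_left h2 (by positivity)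
  have h5 : δ * ∫ x, Q.neta D n x ∂D.μ ≤ a / 2 := by
    calc δ * ∫ x, Q.neta D n x ∂D.μ ≤ δ * C := mul_le_mul_of_nonneg_left h1 hδ0.le
      _ ≤ δ * (C + 1) := by nlinarith
      _ = a / 2 := by rw [hδ]; field_simp
  linarith

end

end Crest.Agent.R235.SwcVs_34
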