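import Crest.Agent.R235.SwcAn_34
import Crest.Agent.R235.SwcAlg_34
import Crest.Agent.R235.TauB_483
import Crest.Agent.R240.En4E

/-!
Row 235 (S0364), SWC-AN (helper34): smoothness and integrability of the densities of a Taubes
sequence (`neta`, `ndb`, `nal`, `n1 θ`), and the forms `P = Psi - a Phi`.
-/

set_option autoImplicit false
set_option maxSynthPendingDepth 3
set_option linter.unusedSectionVars false

open Set Function Filter MeasureTheory Metric
open scoped Manifold ContDiff Topology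

universe u

namespace Crest.Agent.R235.SwcVs_34

open Crest.Agent.R240 Crest.Agent.R240.Ch Crest.Agent.R235
open Crest.Agent.R235.SwcGlob_34 Crest.Agent.R235.SwcAlg_34 Crest.Agent.R235.Tau483

noncomputable section

section jc

variable {M : Type u} [TopologicalSpace M] [ChartedSpace E4 M] [IsManifold 𝓘(ℝ, E4) ∞ M]

/-- `s ↦ Jc s` on one-forms. -/
def jcG (J : EndF E4 M) (s : F1 E4 M) : F1 E4 M := fun x => (Jc (atJ J x) (at1 s x) : E4 →L[ℝ] ℝ)

theorem at1_jcG (J : EndF E4 M) (s : F1 E4 M) (x : M) : at1 (jcG J s) x = Jc (atJ J x) (at1 s x) :=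
  rfl

theorem rep1_jcG (J : EndF E4 M) (s : F1 E4 M) {p : M} {y : E4} (hy : y ∈ (chartAt E4 p).target) :
    rep1 p (jcG J s) y = - (rep1 p s y).comp (repJ p J y) := by
  ext v
  rw [rep1_apply, at1_jcG, Jc_apply]
  simp only [neg_apply, ContinuousLinearMap.comp_apply]
  rw [rep1_apply, repJ_apply, tcc_cancel' (symm_mem hy)]

theorem smooth_jcG {J : EndF E4 M} (hJ : SmoothJ J) {s : F1 E4 M} (hs : Smooth1 s) :
    Smooth1 (jcG J s) := by
  intro p
  have h1 : ContDiffOn ℝ ∞ (fun y => -((rep1 p s y).comp (repJ p J y))) (chartAt E4 p).target :=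
    ((hs p).clm_comp (hJ p)).neg
  exact h1.congr fun y hy => rep1_jcG J s hy

end jc

variable {M : Type u} [MetricSpace M] [CompactSpace M] [ChartedSpace E4 M]
  [IsManifold 𝓘(ℝ, E4) ∞ M] [MeasurableSpace M] [BorelSpace M] (D : Dat M)

theorem n1_eq (s : F1 E4 M) (x : M) :
    n1 D x (at1 s x) = 2 * qG D.F D.F (wedG s (jcG D.J s)) x := rfl

theorem n1_m1 (x : M) (c : E4 →L[ℝ] ℝ) : n1 D x c = m1 (atJ D.J x) (at2 D.F x) c := rfl

theorem nC_mC (x : M) (c : E4 →L[ℝ] ℂ) : nC D x c = mC (atJ D.J x) (at2 D.F x) c := rfl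

theorem smooth_n1 {s : F1 E4 M} (hs : Smooth1 s) : SmoothF E4 fun x => n1 D x (at1 s x) := by
  have h := En4.sF_qG D (En4.smF D) (Smooth2.wed hs (smooth_jcG D.smJ hs))
  exact En4.sF_const_mul 2 h

theorem cont_n1 {s : F1 E4 M} (hs : Smooth1 s) : Continuous fun x => n1 D x (at1 s x) :=
  En4.sF_continuous (smooth_n1 D hs)

/-! ### real and imaginary parts of `eta` as smooth one-forms -/

variable {N : ℕ} (Q : TSeq M N)

/-- the real part of the component `i` of `eta`. -/
def reF (n : ℕ) (i : Fin N) : F1 E4 M :=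
  (∑ j, (fmul1 (fun x => (Q.p n x i j).re) (dF fun x => (Q.α n x j).re) +
    fmul1 (fun x => -(Q.p n x i j).im) (dF fun x => (Q.α n x j).im))) +
    fmul1 (fun x => (Q.α n x i).im) (Q.θ n)

/-- the imaginary part of the component `i` of `eta`. -/
def imF (n : ℕ) (i : Fin N) : F1 E4 M :=
  (∑ j, (fmul1 (fun x => (Q.p n x i j).re) (dF fun x => (Q.α n x j).im) +
    fmul1 (fun x => (Q.p n x i j).im) (dF fun x => (Q.α n x j).re))) +
    fmul1 (fun x => -(Q.α n x i).re) (Q.θ n)

variable {D} {Q} {U : Filter ℕ} {lam C : ℝ} (h : Q.OK D U lam C)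

theorem eta_apply (n : ℕ) (x : M) (i : Fin N) (v : E4) : Q.eta n x i v =
    ∑ j, Q.p n x i j * dC (fun y => Q.α n y j) x v -
      (at1 (Q.θ n) x v : ℂ) * (Complex.I * Q.α n x i) := by
  unfold TSeq.eta cov
  rw [sub_apply, ContinuousLinearMap.sum_apply, ContinuousLinearMap.smulRight_apply]
  simp only [smul_apply, smul_eq_mul, Complex.real_smul]
  rfl

include h

theorem re_eta (n : ℕ) (x : M) (i : Fin N) :
    Complex.reCLM.comp (Q.eta n x i) = at1 (reF Q n i) x := by
  ext v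
  rw [ContinuousLinearMap.comp_apply, Complex.reCLM_apply, eta_apply, Complex.sub_re,
    Complex.re_sum]
  unfold reF
  rw [at1_add, at1_fmul1, Tau_692.at1_sum]
  have e1 : ((at1 (Q.θ n) x v : ℂ) * (Complex.I * Q.α n x i)).re =
      - ((Q.α n x i).im * at1 (Q.θ n) x v) := by
    simp
    ring
  rw [e1, sub_neg_eq_add]
  congr 1
  refine Finset.sum_congr rfl fun j _ => ?_
  rw [at1_add, at1_fmul1, at1_fmul1, Complex.mul_re, dC_re (h.smα n j), dC_im (h.smα n j)]
  ring

theorem im_eta (n : ℕ) (x : M) (i : Fin N) :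
    Complex.imCLM.comp (Q.eta n x i) = at1 (imF Q n i) x := by
  ext v
  rw [ContinuousLinearMap.comp_apply, Complex.imCLM_apply, eta_apply, Complex.sub_im,
    Complex.im_sum]
  unfold imF
  rw [at1_add, at1_fmul1, Tau_692.at1_sum]
  have e1 : ((at1 (Q.θ n) x v : ℂ) * (Complex.I * Q.α n x i)).im =
      ((Q.α n x i).re * at1 (Q.θ n) x v) := by
    simp
    ring
  rw [e1, sub_eq_add_neg, ← neg_mul]
  congr 1
  refine Finset.sum_congr rfl fun j _ => ?_
  rw [at1_add, at1_fmul1, at1_fmul1, Complex.mul_im, dC_re (h.smα n j), dC_im (h.smα n j)]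

theorem smooth_reF (n : ℕ) (i : Fin N) : Smooth1 (reF Q n i) := by
  refine Smooth1.add (Tau_692.smooth1_sum _ fun j _ => ?_) ?_
  · exact (Smooth1.fmul (SmC.re ((h.line n).smooth i j)) (Smooth1.dF (SmC.re (h.smα n j)))).add
      (Smooth1.fmul (SmC.im ((h.line n).smooth i j)).neg (Smooth1.dF (SmC.im (h.smα n j))))
  · exact Smooth1.fmul (SmC.im (h.smα n i)) (h.smθ n)

theorem smooth_imF (n : ℕ) (i : Fin N) : Smooth1 (imF Q n i) := by
  refine Smooth1.add (Tau_692.smooth1_sum _ fun j _ => ?_) ?_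
  · exact (Smooth1.fmul (SmC.re ((h.line n).smooth i j)) (Smooth1.dF (SmC.im (h.smα n j)))).add
      (Smooth1.fmul (SmC.im ((h.line n).smooth i j)) (Smooth1.dF (SmC.re (h.smα n j))))
  · exact Smooth1.fmul (SmC.re (h.smα n i)).neg (h.smθ n)

theorem nC_eta (n : ℕ) (x : M) (i : Fin N) :
    nC D x (Q.eta n x i) = n1 D x (at1 (reF Q n i) x) + n1 D x (at1 (imF Q n i) x) := by
  unfold nC
  rw [re_eta h, im_eta h]

theorem cont_neta (n : ℕ) : Continuous fun x => Q.neta D n x := by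
  unfold TSeq.neta
  refine continuous_finsetSum _ fun i _ => ?_
  have h1 : (fun x => nC D x (Q.eta n x i)) =
      fun x => n1 D x (at1 (reF Q n i) x) + n1 D x (at1 (imF Q n i) x) :=
    funext fun x => nC_eta h n x i
  rw [h1]
  exact (cont_n1 D (smooth_reF h n i)).add (cont_n1 D (smooth_imF h n i))

theorem nC_zt (n : ℕ) (x : M) (i : Fin N) :
    nC D x ((Q.eta n x i).comp (atJ D.J x) - Complex.I • Q.eta n x i) =
      n1 D x (at1 ((-1 : ℝ) • jcG D.J (reF Q n i) + imF Q n i) x) +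
      n1 D x (at1 ((-1 : ℝ) • jcG D.J (imF Q n i) + (-1 : ℝ) • reF Q n i) x) := by
  unfold nC
  congr 2
  · ext v
    have e1 : at1 (reF Q n i) x (atJ D.J x v) = (Q.eta n x i (atJ D.J x v)).re := by
      rw [← re_eta h]; rfl
    have e2 : at1 (imF Q n i) x v = (Q.eta n x i v).im := by rw [← im_eta h]; rfl
    have e3 : at1 ((-1 : ℝ) • jcG D.J (reF Q n i) + imF Q n i) x v =
        -1 * (- at1 (reF Q n i) x (atJ D.J x v)) + at1 (imF Q n i) x v := rfl
    rw [e3, e1, e2]
    simp [Complex.reCLM_apply]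
  · ext v
    have e1 : at1 (imF Q n i) x (atJ D.J x v) = (Q.eta n x i (atJ D.J x v)).im := by
      rw [← im_eta h]; rfl
    have e2 : at1 (reF Q n i) x v = (Q.eta n x i v).re := by rw [← re_eta h]; rfl
    have e3 : at1 ((-1 : ℝ) • jcG D.J (imF Q n i) + (-1 : ℝ) • reF Q n i) x v =
        -1 * (- at1 (imF Q n i) x (atJ D.J x v)) + -1 * at1 (reF Q n i) x v := rfl
    rw [e3, e1, e2]
    simp [Complex.imCLM_apply]
    ring

theorem cont_ndb (n : ℕ) : Continuous fun x => Q.ndb D n x := by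
  unfold TSeq.ndb
  refine continuous_finsetSum _ fun i _ => ?_
  have h1 : (fun x => nC D x ((Q.eta n x i).comp (atJ D.J x) - Complex.I • Q.eta n x i)) =
      fun x => n1 D x (at1 ((-1 : ℝ) • jcG D.J (reF Q n i) + imF Q n i) x) +
      n1 D x (at1 ((-1 : ℝ) • jcG D.J (imF Q n i) + (-1 : ℝ) • reF Q n i) x) :=
    funext fun x => nC_zt h n x i
  rw [h1]
  exact (cont_n1 D (((smooth_jcG D.smJ (smooth_reF h n i)).smul (-1)).add
    (smooth_imF h n i))).add (cont_n1 D (((smooth_jcG D.smJ (smooth_imF h n i)).smul (-1)).add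
    ((smooth_reF h n i).smul (-1))))

theorem neta_nonneg (n : ℕ) (x : M) : 0 ≤ Q.neta D n x :=
  Finset.sum_nonneg fun i _ => mC_nonneg (D.sq x) (En4.spos D x) _

theorem ndb_nonneg (n : ℕ) (x : M) : 0 ≤ Q.ndb D n x :=
  Finset.sum_nonneg fun i _ => mC_nonneg (D.sq x) (En4.spos D x) _

theorem smooth_nal (n : ℕ) : SmoothF E4 fun x => Q.nal n x := by
  have h1 : (fun x => Q.nal n x) =
      fun x => ∑ i, ((Q.α n x i).re * (Q.α n x i).re + (Q.α n x i).im * (Q.α n x i).im) := by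
    funext x
    unfold TSeq.nal
    refine Finset.sum_congr rfl fun i _ => ?_
    rw [← Complex.normSq_eq_norm_sq, Complex.normSq_apply]
  rw [h1, ← smoothF_iff]
  refine ContMDiff.sum fun i _ => ?_
  exact ((smoothF_iff _).2 (En4.sF_add (En4.sF_mul (SmC.re (h.smα n i)) (SmC.re (h.smα n i)))
    (En4.sF_mul (SmC.im (h.smα n i)) (SmC.im (h.smα n i)))))

end

end Crest.Agent.R235.SwcVs_34
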