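import Crest.Agent.R235.SwjHopf_844

/-!
Row 235 (S0364), helper844: the evaluation functional and the frozen parameter.
-/

set_option autoImplicit false

open Set Function Topology Filter
open scoped ComplexConjugate

namespace Crest.Agent.R235.SwjAbs_844

open Crest.Agent.R235

noncomputable section

variable {b bp : ℕ} {P Y : Type} [NormedAddCommGroup P] [NormedSpace ℝ P]
  [CompleteSpace P] [NormedAddCommGroup Y] [InnerProductSpace ℝ Y] [CompleteSpace Y]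
  (D : JData b bp P Y)

/-- the complex `L²` product. -/
def cz (φ x : P) : ℂ := (D.B φ x : ℂ) + (D.B (D.I φ) x : ℂ) * Complex.I

theorem cz_re (φ x : P) : (cz D φ x).re = D.B φ x := by simp [cz]
theorem cz_im (φ x : P) : (cz D φ x).im = D.B (D.I φ) x := by simp [cz]

theorem cz_smul (φ x : P) (z : ℂ) :
    cz D (z.re • φ + z.im • D.I φ) x = conj z * cz D φ x := by
  have h1 : D.I (z.re • φ + z.im • D.I φ) = z.re • D.I φ - z.im • φ := by
    rw [map_add, map_smul, map_smul, D.I_I, smul_neg, sub_eq_add_neg]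
  refine Complex.ext ?_ ?_
  · rw [cz_re]
    simp only [map_add, map_smul, _root_.add_apply, _root_.smul_apply,
      smul_eq_mul, Complex.mul_re, Complex.conj_re, Complex.conj_im, cz_re, cz_im]
    ring
  · rw [cz_im, h1]
    simp only [map_sub, map_smul, _root_.sub_apply, _root_.smul_apply,
      smul_eq_mul, Complex.mul_im, Complex.conj_re, Complex.conj_im, cz_re, cz_im]
    ring

/-- the weight. -/
def mw (s : C2) : ℝ := max ‖s 0‖ (1 / 2)

theorem mw_pos (s : C2) : 0 < mw s := lt_max_of_lt_right (by norm_num)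

theorem continuous_mw : Continuous mw := by
  have h1 : Continuous fun s : C2 => s 0 := by fun_prop
  exact h1.norm.max continuous_const

/-- the solution over `Kn s`. -/
def qk (s : C2) : P := D.Q (Kn s)

/-- basis vectors. -/
def bv (i : Fin 3) : E3 := EuclideanSpace.single i 1

/-- the evaluation functional. -/
def Gf (s : C2) : P →L[ℝ] E3 :=
  mw s • ((((s 0).im • D.B (qk D s) + (s 0).re • D.B (D.I (qk D s))).smulRight (bv 0) +
    ((s 1).re • D.B (qk D s) - (s 1).im • D.B (D.I (qk D s))).smulRight (bv 1)) +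
    ((s 1).im • D.B (qk D s) + (s 1).re • D.B (D.I (qk D s))).smulRight (bv 2))

theorem Gf_0 (s : C2) (x : P) : Gf D s x 0 = mw s * (cz D (qk D s) x * s 0).im := by
  simp [Gf, bv, Complex.mul_im, cz_re, cz_im]
  left; ring

theorem Gf_1 (s : C2) (x : P) : Gf D s x 1 = mw s * (cz D (qk D s) x * s 1).re := by
  simp [Gf, bv, Complex.mul_re, cz_re, cz_im]
  left; ring

theorem Gf_2 (s : C2) (x : P) : Gf D s x 2 = mw s * (cz D (qk D s) x * s 1).im := by
  simp [Gf, bv, Complex.mul_im, cz_re, cz_im]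
  left; ring

theorem continuousOn_qk : ContinuousOn (qk D) {s | ‖s‖ = 1} :=
  D.cQ.comp continuousOn_Kn fun _ hs => norm_Kn hs

theorem continuousOn_Gf : ContinuousOn (Gf D) {s | ‖s‖ = 1} := by
  have h0 : Continuous fun s : C2 => s 0 := by fun_prop
  have h1 : Continuous fun s : C2 => s 1 := by fun_prop
  have hB : ContinuousOn (fun s => D.B (qk D s)) {s | ‖s‖ = 1} :=
    D.B.continuous.comp_continuousOn (continuousOn_qk D)
  have hBI : ContinuousOn (fun s => D.B (D.I (qk D s))) {s | ‖s‖ = 1} :=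
    (D.B.continuous.comp D.I.continuous).comp_continuousOn (continuousOn_qk D)
  have hsr : ∀ (v : E3) (f : C2 → (P →L[ℝ] ℝ)), ContinuousOn f {s | ‖s‖ = 1} →
      ContinuousOn (fun s => (f s).smulRight v) {s | ‖s‖ = 1} := by
    intro v f hf
    exact (((ContinuousLinearMap.smulRightL ℝ P E3).flip v).continuous).comp_continuousOn hf
  have r0 := (Complex.continuous_re.comp h0).continuousOn (s := {s : C2 | ‖s‖ = 1})
  have i0 := (Complex.continuous_im.comp h0).continuousOn (s := {s : C2 | ‖s‖ = 1})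
  have r1 := (Complex.continuous_re.comp h1).continuousOn (s := {s : C2 | ‖s‖ = 1})
  have i1 := (Complex.continuous_im.comp h1).continuousOn (s := {s : C2 | ‖s‖ = 1})
  refine (continuous_mw.continuousOn).smul ?_
  exact ((hsr _ _ ((i0.smul hB).add (r0.smul hBI))).add
    (hsr _ _ ((r1.smul hB).sub (i1.smul hBI)))).add (hsr _ _ ((i1.smul hB).add (r1.smul hBI)))

theorem mw_smul (s : C2) {z : ℂ} (hz : ‖z‖ = 1) : mw (z • s) = mw s := by
  rw [mw, mw, smul_C2, norm_mul, hz, one_mul]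

theorem Gf_smul (s : C2) (z : ℂ) (hs : ‖s‖ = 1) (hz : ‖z‖ = 1) : Gf D (z • s) = Gf D s := by
  have hq : ∀ x, cz D (qk D (z • s)) x = conj z * cz D (qk D s) x := by
    intro x
    rw [qk, Kn_smul s hz, D.eqQ _ z (norm_Kn hs) hz, cz_smul]
    rfl
  have hc : ∀ x i, cz D (qk D (z • s)) x * (z • s) i = cz D (qk D s) x * s i := by
    intro x i
    rw [hq, smul_C2]
    calc conj z * cz D (qk D s) x * (z * s i) = (z * conj z) * (cz D (qk D s) x * s i) := by ring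
      _ = _ := by rw [conj_mul_norm hz, one_mul]
  ext1 x
  refine ext_E3 ?_ ?_ ?_
  · rw [Gf_0, Gf_0, hc, mw_smul s hz]
  · rw [Gf_1, Gf_1, hc, mw_smul s hz]
  · rw [Gf_2, Gf_2, hc, mw_smul s hz]

theorem exists_G : ∃ G : E3 → (P →L[ℝ] E3), Continuous G ∧
    ∀ t s, ‖s‖ = 1 → t = ‖t‖ • hopf s → G t = ‖t‖ • Gf D s :=
  desc (ζ := fun r => r) continuous_id rfl (continuousOn_Gf D) (Gf_smul D)

theorem exists_Psi : ∃ Ψ : E3 → E3, Continuous Ψ ∧
    ∀ t s, ‖s‖ = 1 → t = ‖t‖ • hopf s → Ψ t = (min 1 (2 * ‖t‖)) • D.pi (Kn s) := by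
  refine desc (ζ := fun r => min 1 (2 * r)) (by fun_prop) (by norm_num)
    (F := fun s => D.pi (Kn s)) (D.cpi.comp_continuousOn continuousOn_Kn) ?_
  intro s z hs hz
  show D.pi (Kn (z • s)) = D.pi (Kn s)
  rw [Kn_smul s hz]
  exact ((D.fpi (Kn s) (z • Kn s) (norm_Kn hs) (by rw [norm_smul, hz, norm_Kn hs, one_mul])).2
    ⟨z, hz, rfl⟩).symm

/-- the evaluation operator of the parameter. -/
def GG (D : JData b bp P Y) : E3 → (P →L[ℝ] E3) := (exists_G D).choose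

theorem continuous_GG : Continuous (GG D) := (exists_G D).choose_spec.1

theorem GG_eq {t : E3} {s : C2} (hs : ‖s‖ = 1) (h : t = ‖t‖ • hopf s) :
    GG D t = ‖t‖ • Gf D s := (exists_G D).choose_spec.2 t s hs h

/-- the frozen parameter. -/
def Psi (D : JData b bp P Y) : E3 → E3 := (exists_Psi D).choose

theorem continuous_Psi : Continuous (Psi D) := (exists_Psi D).choose_spec.1

theorem Psi_eq {t : E3} {s : C2} (hs : ‖s‖ = 1) (h : t = ‖t‖ • hopf s) :
    Psi D t = (min 1 (2 * ‖t‖)) • D.pi (Kn s) := (exists_Psi D).choose_spec.2 t s hs h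

theorem norm_Psi_le (t : E3) : ‖Psi D t‖ ≤ 1 := by
  obtain ⟨s, hs, h⟩ := exists_lift' t
  rw [Psi_eq D hs h, norm_smul, D.npi _ (norm_Kn hs), mul_one, Real.norm_eq_abs, abs_of_nonneg
    (le_min zero_le_one (by positivity))]
  exact min_le_left _ _

/-- the region near `(1, 0, 0)`. -/
def W0 : Set E3 := {t | 7 / 8 * ‖t‖ < t 0 ∧ 1 / 2 < ‖t‖}

theorem isOpen_W0 : IsOpen W0 := by
  have h0 : Continuous fun t : E3 => t 0 := by fun_prop
  exact (isOpen_lt (continuous_const.mul continuous_norm) h0).inter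
    (isOpen_lt continuous_const continuous_norm)

/-- the centre. -/
def t0 : E3 := hopf e0

theorem norm_t0 : ‖t0‖ = 1 := by rw [t0, norm_hopf, norm_e0]; norm_num
theorem t0_0 : t0 0 = 1 := by rw [t0, hopf_0, e0_0, e0_1]; norm_num
theorem t0_1 : t0 1 = 0 := by rw [t0, hopf_1, e0_0, e0_1]; norm_num
theorem t0_2 : t0 2 = 0 := by rw [t0, hopf_2, e0_0, e0_1]; norm_num

theorem t0_mem : t0 ∈ W0 := ⟨by rw [norm_t0, t0_0]; norm_num, by rw [norm_t0]; norm_num⟩

theorem W0_mem : W0 ∈ 𝓝 t0 := isOpen_W0.mem_nhds t0_mem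

/-- the lift over `W0`. -/
theorem lift_W0 {t : E3} (ht : t ∈ W0) : ∃ (s : C2) (r : ℝ), ‖s‖ = 1 ∧ t = ‖t‖ • hopf s ∧
    s 0 = (r : ℂ) ∧ 1 / 2 < r ∧ ‖s 1‖ ≤ 1 / 4 ∧ ‖t‖ * r ^ 2 = (‖t‖ + t 0) / 2 ∧
    (‖t‖ : ℂ) * (r : ℂ) * s 1 = ((t 1 : ℂ) - (t 2 : ℂ) * Complex.I) / 2 := by
  obtain ⟨h1, h2⟩ := ht
  have hp : 0 < ‖t‖ := by linarith
  set n : E3 := ‖t‖⁻¹ • t with hn
  have hn1 : ‖n‖ = 1 := by rw [hn, norm_smul, norm_inv, norm_norm, inv_mul_cancel₀ hp.ne']
  have ni : ∀ i, n i = ‖t‖⁻¹ * t i := fun i => rfl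
  have ti : ∀ i, t i = ‖t‖ * n i := fun i => by rw [ni]; field_simp
  have hn0 : 7 / 8 < n 0 := by
    have : 7 / 8 * ‖t‖ < ‖t‖ * n 0 := by rw [← ti]; exact h1
    nlinarith
  have hne : n 0 ≠ -1 := by linarith
  obtain ⟨hs1, hs2⟩ := hopf_sec hn1 hne
  set r := √((1 + n 0) / 2) with hr
  have hpp : 0 < (1 + n 0) / 2 := by linarith
  have hrp : 0 < r := Real.sqrt_pos.2 hpp
  have hr2 : r ^ 2 = (1 + n 0) / 2 := Real.sq_sqrt hpp.le
  have e0' : sec n 0 = (r : ℂ) := rfl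
  have e1' : sec n 1 = ((n 1 : ℂ) - (n 2 : ℂ) * Complex.I) / (2 * (r : ℂ)) := rfl
  refine ⟨sec n, r, hs1, ?_, e0', ?_, ?_, ?_, ?_⟩
  · rw [hs2, hn, smul_smul, mul_inv_cancel₀ hp.ne', one_smul]
  · nlinarith
  · have h3 := norm_sq_C2 (sec n)
    rw [hs1, e0', Complex.norm_real, Real.norm_eq_abs, abs_of_pos hrp, hr2] at h3
    have h4 : ‖sec n 1‖ ^ 2 ≤ (1 / 4) ^ 2 := by linarith
    exact (sq_le_sq₀ (norm_nonneg _) (by norm_num)).1 h4
  · rw [hr2, ti 0]; ring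
  · rw [e1', ti 1, ti 2]
    have : (r : ℂ) ≠ 0 := by exact_mod_cast hrp.ne'
    push_cast
    field_simp

theorem Kn_W0 {s : C2} {r : ℝ} (h0 : s 0 = (r : ℂ)) (hr : 1 / 2 < r) (h1 : ‖s 1‖ ≤ 1 / 4) :
    Kn s = e0 := by
  have hrp : 0 < r := by linarith
  rw [Kn_of_small h1, h0, Complex.norm_real, Real.norm_eq_abs, abs_of_pos hrp]
  have : (((r⁻¹ : ℝ) : ℂ) * (r : ℂ)) = 1 := by
    rw [← Complex.ofReal_mul, inv_mul_cancel₀ hrp.ne', Complex.ofReal_one]
  rw [this, one_smul]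

theorem Psi_W0 {t : E3} (ht : t ∈ W0) : Psi D t = D.pi e0 := by
  obtain ⟨s, r, hs, h, h0, hr, h1, -, -⟩ := lift_W0 ht
  rw [Psi_eq D hs h, Kn_W0 h0 hr h1, min_eq_left (by have := ht.2; linarith), one_smul]

/-- explicit form of the evaluation. -/
theorem GG_W0 {t : E3} (ht : t ∈ W0) (x : P) : GG D t x = WithLp.toLp 2
    ![(‖t‖ + t 0) / 2 * D.B (D.I (D.Q e0)) x,
      (D.B (D.Q e0) x * t 1 + D.B (D.I (D.Q e0)) x * t 2) / 2,
      (D.B (D.I (D.Q e0)) x * t 1 - D.B (D.Q e0) x * t 2) / 2] := by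
  obtain ⟨s, r, hs, h, h0, hr, h1, h2, h3⟩ := lift_W0 ht
  have hrp : 0 < r := by linarith
  have hm : mw s = r := by
    rw [mw, h0, Complex.norm_real, Real.norm_eq_abs, abs_of_pos hrp, max_eq_left hr.le]
  have hq : qk D s = D.Q e0 := by rw [qk, Kn_W0 h0 hr h1]
  rw [GG_eq D hs h, _root_.smul_apply]
  have key : ∀ c : ℂ, (‖t‖ : ℂ) * ((r : ℂ) * (c * s 1)) =
      c * (((t 1 : ℂ) - (t 2 : ℂ) * Complex.I) / 2) := by
    intro c
    rw [← h3]; ring
  refine ext_E3 ?_ ?_ ?_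
  · show ‖t‖ * (Gf D s x 0) = (‖t‖ + t 0) / 2 * D.B (D.I (D.Q e0)) x
    rw [Gf_0, hm, hq, h0, Complex.mul_im, cz_re, cz_im, Complex.ofReal_re, Complex.ofReal_im,
      ← h2]
    ring
  · show ‖t‖ * (Gf D s x 1) = (D.B (D.Q e0) x * t 1 + D.B (D.I (D.Q e0)) x * t 2) / 2
    rw [Gf_1, hm, hq]
    have h4 := congrArg Complex.re (key (cz D (D.Q e0) x))
    rw [Complex.re_ofReal_mul, Complex.re_ofReal_mul] at h4
    rw [h4]
    simp [Complex.mul_re, cz_re, cz_im]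
    ring
  · show ‖t‖ * (Gf D s x 2) = (D.B (D.I (D.Q e0)) x * t 1 - D.B (D.Q e0) x * t 2) / 2
    rw [Gf_2, hm, hq]
    have h4 := congrArg Complex.im (key (cz D (D.Q e0) x))
    rw [Complex.im_ofReal_mul, Complex.im_ofReal_mul] at h4
    rw [h4]
    simp [Complex.mul_im, cz_re, cz_im]
    ring

end

end Crest.Agent.R235.SwjAbs_844
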