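import Crest.Agent.R235.SwjDef_844

/-!
Row 235 (S0364), helper844: the standard Hopf map `hopf : ℂ² → ℝ³`, descent of `U(1)`-invariant
functions, and the collapsing map `Kn` of the three-sphere.
-/

set_option autoImplicit false

open Set Function Topology Filter
open scoped ComplexConjugate

namespace Crest.Agent.R235.SwjAbs_844

open Crest.Agent.R235

noncomputable section

/-- the Hopf map. -/
def hopf (s : C2) : E3 :=
  WithLp.toLp 2 ![‖s 0‖ ^ 2 - ‖s 1‖ ^ 2, 2 * (s 0 * conj (s 1)).re, 2 * (s 0 * conj (s 1)).im]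

@[simp] theorem hopf_0 (s : C2) : hopf s 0 = ‖s 0‖ ^ 2 - ‖s 1‖ ^ 2 := rfl
@[simp] theorem hopf_1 (s : C2) : hopf s 1 = 2 * (s 0 * conj (s 1)).re := rfl
@[simp] theorem hopf_2 (s : C2) : hopf s 2 = 2 * (s 0 * conj (s 1)).im := rfl

theorem norm_sq_C2 (s : C2) : ‖s‖ ^ 2 = ‖s 0‖ ^ 2 + ‖s 1‖ ^ 2 := by
  rw [EuclideanSpace.norm_sq_eq, Fin.sum_univ_two]

theorem norm_sq_E3 (t : E3) : ‖t‖ ^ 2 = t 0 ^ 2 + t 1 ^ 2 + t 2 ^ 2 := by
  rw [EuclideanSpace.norm_sq_eq, Fin.sum_univ_three]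
  simp only [Real.norm_eq_abs, sq_abs]

theorem re_im_sq (z : ℂ) : z.re ^ 2 + z.im ^ 2 = ‖z‖ ^ 2 := by
  rw [← Complex.normSq_eq_norm_sq, Complex.normSq_apply]; ring

theorem norm_hopf (s : C2) : ‖hopf s‖ = ‖s‖ ^ 2 := by
  have h1 : ‖hopf s‖ ^ 2 = (‖s‖ ^ 2) ^ 2 := by
    rw [norm_sq_E3, norm_sq_C2, hopf_0, hopf_1, hopf_2]
    have h2 := re_im_sq (s 0 * conj (s 1))
    rw [norm_mul, RCLike.norm_conj] at h2
    nlinarith [h2]
  exact (sq_eq_sq₀ (norm_nonneg _) (sq_nonneg _)).1 h1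

theorem continuous_hopf : Continuous hopf := by
  refine (PiLp.continuous_toLp 2 _).comp ?_
  refine continuous_pi fun i => ?_
  fin_cases i
  · show Continuous fun s : C2 => ‖s 0‖ ^ 2 - ‖s 1‖ ^ 2
    fun_prop
  · show Continuous fun s : C2 => 2 * (s 0 * conj (s 1)).re
    exact continuous_const.mul (Complex.continuous_re.comp (by fun_prop))
  · show Continuous fun s : C2 => 2 * (s 0 * conj (s 1)).im
    exact continuous_const.mul (Complex.continuous_im.comp (by fun_prop))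

theorem ext_E3 {t t' : E3} (h0 : t 0 = t' 0) (h1 : t 1 = t' 1) (h2 : t 2 = t' 2) : t = t' := by
  ext i
  fin_cases i
  · exact h0
  · exact h1
  · exact h2

theorem ext_C2 {t t' : C2} (h0 : t 0 = t' 0) (h1 : t 1 = t' 1) : t = t' := by
  ext i
  fin_cases i
  · exact h0
  · exact h1

@[simp] theorem smul_C2 (z : ℂ) (s : C2) (i : Fin 2) : (z • s) i = z * s i := rfl

theorem conj_mul_norm {z : ℂ} (hz : ‖z‖ = 1) : z * conj z = 1 := by
  rw [Complex.mul_conj, Complex.normSq_eq_norm_sq, hz]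
  simp

theorem hopf_smul (s : C2) {z : ℂ} (hz : ‖z‖ = 1) : hopf (z • s) = hopf s := by
  have h1 : (z • s) 0 * conj ((z • s) 1) = s 0 * conj (s 1) := by
    rw [smul_C2, smul_C2, map_mul]
    calc z * s 0 * (conj z * conj (s 1)) = (z * conj z) * (s 0 * conj (s 1)) := by ring
      _ = _ := by rw [conj_mul_norm hz, one_mul]
  refine ext_E3 ?_ ?_ ?_
  · simp only [hopf_0, smul_C2, norm_mul, hz, one_mul]
  · rw [hopf_1, hopf_1, h1]
  · rw [hopf_2, hopf_2, h1]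

theorem hopf_eq {s s' : C2} (hs : ‖s‖ = 1) (hs' : ‖s'‖ = 1) (h : hopf s = hopf s') :
    ∃ z : ℂ, ‖z‖ = 1 ∧ s' = z • s := by
  have e0 : ‖s 0‖ ^ 2 - ‖s 1‖ ^ 2 = ‖s' 0‖ ^ 2 - ‖s' 1‖ ^ 2 := congrArg (fun t : E3 => t 0) h
  have e1 : 2 * (s 0 * conj (s 1)).re = 2 * (s' 0 * conj (s' 1)).re :=
    congrArg (fun t : E3 => t 1) h
  have e2 : 2 * (s 0 * conj (s 1)).im = 2 * (s' 0 * conj (s' 1)).im :=
    congrArg (fun t : E3 => t 2) h
  have e3 : s 0 * conj (s 1) = s' 0 * conj (s' 1) := by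
    refine Complex.ext ?_ ?_ <;> linarith
  have n1 := norm_sq_C2 s
  have n2 := norm_sq_C2 s'
  rw [hs] at n1
  rw [hs'] at n2
  have a0 : ‖s 0‖ = ‖s' 0‖ := by
    refine (sq_eq_sq₀ (norm_nonneg _) (norm_nonneg _)).1 ?_
    linarith
  have a1 : ‖s 1‖ = ‖s' 1‖ := by
    refine (sq_eq_sq₀ (norm_nonneg _) (norm_nonneg _)).1 ?_
    linarith
  by_cases h0 : s 0 = 0
  · have h0' : s' 0 = 0 := by rw [← norm_eq_zero, ← a0, h0, norm_zero]
    have h1 : ‖s 1‖ ≠ 0 := by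
      intro hc
      rw [h0, hc, norm_zero] at n1
      norm_num at n1
    have h1' : s 1 ≠ 0 := norm_ne_zero_iff.1 h1
    refine ⟨s' 1 / s 1, by rw [norm_div, ← a1, div_self h1], ext_C2 ?_ ?_⟩
    · rw [smul_C2, h0, h0', mul_zero]
    · rw [smul_C2, div_mul_cancel₀ _ h1']
  · have hn : ‖s 0‖ ≠ 0 := norm_ne_zero_iff.2 h0
    have h0' : s' 0 ≠ 0 := norm_ne_zero_iff.1 (a0 ▸ hn)
    refine ⟨s' 0 / s 0, by rw [norm_div, ← a0, div_self hn], ext_C2 ?_ ?_⟩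
    · rw [smul_C2, div_mul_cancel₀ _ h0]
    · rw [smul_C2]
      have hz : ‖s' 0 / s 0‖ = 1 := by rw [norm_div, ← a0, div_self hn]
      -- conj (s' 1) = s 0 conj (s 1) / s' 0
      have h4 : conj (s' 1) = conj (s' 0 / s 0 * s 1) := by
        have h5 : s' 0 * conj (s' 1) = s' 0 * conj (s' 0 / s 0 * s 1) := by
          rw [← e3, map_mul]
          have h6 : s' 0 * conj (s' 0 / s 0) = s 0 := by
            have h7 := conj_mul_norm hz
            calc s' 0 * conj (s' 0 / s 0) = s 0 * (s' 0 / s 0 * conj (s' 0 / s 0)) := by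
                  field_simp
              _ = s 0 := by rw [h7, mul_one]
          rw [← mul_assoc, h6]
        exact mul_left_cancel₀ h0' h5
      have := congrArg conj h4
      simpa using this

theorem e0_0 : e0 0 = 1 := by simp [e0]
theorem e0_1 : e0 1 = 0 := by simp [e0]
theorem norm_e0 : ‖e0‖ = 1 := by simp [e0]

/-- the section of the Hopf map near `(1, 0, 0)`. -/
def sec (n : E3) : C2 :=
  WithLp.toLp 2 ![((√((1 + n 0) / 2) : ℝ) : ℂ),
    ((n 1 : ℂ) - (n 2 : ℂ) * Complex.I) / (2 * ((√((1 + n 0) / 2) : ℝ) : ℂ))]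

theorem sec_0 (n : E3) : sec n 0 = ((√((1 + n 0) / 2) : ℝ) : ℂ) := rfl
theorem sec_1 (n : E3) : sec n 1 =
    ((n 1 : ℂ) - (n 2 : ℂ) * Complex.I) / (2 * ((√((1 + n 0) / 2) : ℝ) : ℂ)) := rfl

theorem abs_comp_le (n : E3) (hn : ‖n‖ = 1) : |n 0| ≤ 1 := by
  have := norm_sq_E3 n
  rw [hn] at this
  have h1 : n 0 ^ 2 ≤ 1 := by nlinarith [sq_nonneg (n 1), sq_nonneg (n 2)]
  exact (sq_le_one_iff_abs_le_one _).1 h1

theorem hopf_sec {n : E3} (hn : ‖n‖ = 1) (h0 : n 0 ≠ -1) : ‖sec n‖ = 1 ∧ hopf (sec n) = n := by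
  have hle := abs_le.1 (abs_comp_le n hn)
  have hp : 0 < (1 + n 0) / 2 := by
    have : -1 < n 0 := lt_of_le_of_ne hle.1 (Ne.symm h0)
    linarith
  set r := √((1 + n 0) / 2) with hr
  have hrp : 0 < r := Real.sqrt_pos.2 hp
  have hr2 : r ^ 2 = (1 + n 0) / 2 := Real.sq_sqrt hp.le
  have hn2 := norm_sq_E3 n
  rw [hn] at hn2
  have s0 : sec n 0 = (r : ℂ) := rfl
  have s1 : sec n 1 = ((n 1 : ℂ) - (n 2 : ℂ) * Complex.I) / (2 * (r : ℂ)) := rfl
  have m0 : ‖sec n 0‖ = r := by rw [s0, Complex.norm_real, Real.norm_eq_abs, abs_of_pos hrp]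
  have m1 : ‖sec n 1‖ ^ 2 = (1 - n 0) / 2 := by
    rw [s1, norm_div, norm_mul, Complex.norm_real, Real.norm_eq_abs, abs_of_pos hrp, div_pow,
      mul_pow, hr2]
    have : ‖(n 1 : ℂ) - (n 2 : ℂ) * Complex.I‖ ^ 2 = n 1 ^ 2 + n 2 ^ 2 := by
      rw [← re_im_sq]
      simp
    rw [this]
    have h2 : ‖(2 : ℂ)‖ = 2 := by simp
    rw [h2]
    have h3 : n 1 ^ 2 + n 2 ^ 2 = (1 - n 0) * (1 + n 0) := by nlinarith
    rw [h3]
    have : (1 + n 0) ≠ 0 := by linarith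
    field_simp
  constructor
  · have : ‖sec n‖ ^ 2 = 1 := by
      rw [norm_sq_C2, m0, m1, hr2]; ring
    nlinarith [norm_nonneg (sec n)]
  · have hc : sec n 0 * conj (sec n 1) = ((n 1 : ℂ) + (n 2 : ℂ) * Complex.I) / 2 := by
      rw [s0, s1, map_div₀, map_sub, map_mul, map_mul, Complex.conj_ofReal, Complex.conj_ofReal,
        Complex.conj_ofReal, Complex.conj_I]
      have h2 : (starRingEnd ℂ) (2 : ℂ) = 2 := Complex.conj_ofNat 2
      rw [h2]
      have : (r : ℂ) ≠ 0 := by exact_mod_cast hrp.ne'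
      field_simp
      ring
    refine ext_E3 ?_ ?_ ?_
    · rw [hopf_0, m0, m1, hr2]; ring
    · rw [hopf_1, hc]; simp; ring
    · rw [hopf_2, hc]; simp; ring

theorem exists_lift {n : E3} (hn : ‖n‖ = 1) : ∃ s : C2, ‖s‖ = 1 ∧ hopf s = n := by
  by_cases h0 : n 0 = -1
  · refine ⟨EuclideanSpace.single 1 1, by simp, ?_⟩
    have hn2 := norm_sq_E3 n
    rw [hn, h0] at hn2
    have h1 : n 1 = 0 := by nlinarith [sq_nonneg (n 1), sq_nonneg (n 2)]
    have h2 : n 2 = 0 := by nlinarith [sq_nonneg (n 1), sq_nonneg (n 2)]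
    refine ext_E3 ?_ ?_ ?_
    · rw [hopf_0, h0]; simp
    · rw [hopf_1, h1]; simp
    · rw [hopf_2, h2]; simp
  · exact ⟨sec n, hopf_sec hn h0⟩

theorem exists_lift' (t : E3) : ∃ s : C2, ‖s‖ = 1 ∧ t = ‖t‖ • hopf s := by
  by_cases ht : t = 0
  · exact ⟨e0, norm_e0, by rw [ht, norm_zero, zero_smul]⟩
  · have hn : ‖t‖ ≠ 0 := norm_ne_zero_iff.2 ht
    obtain ⟨s, h1, h2⟩ := exists_lift (n := ‖t‖⁻¹ • t) (by
      rw [norm_smul, norm_inv, norm_norm, inv_mul_cancel₀ hn])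
    exact ⟨s, h1, by rw [h2, smul_smul, mul_inv_cancel₀ hn, one_smul]⟩

/-- **descent** of invariant functions. -/
theorem desc {Z : Type*} [NormedAddCommGroup Z] [NormedSpace ℝ Z] {ζ : ℝ → ℝ} (hζ : Continuous ζ)
    (hζ0 : ζ 0 = 0) {F : C2 → Z} (hF : ContinuousOn F {s | ‖s‖ = 1})
    (hinv : ∀ s (z : ℂ), ‖s‖ = 1 → ‖z‖ = 1 → F (z • s) = F s) :
    ∃ G : E3 → Z, Continuous G ∧
      ∀ t s, ‖s‖ = 1 → t = ‖t‖ • hopf s → G t = ζ ‖t‖ • F s := by
  choose lf hl1 hl2 using exists_lift'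
  have key : ∀ t s, ‖s‖ = 1 → t = ‖t‖ • hopf s → ζ ‖t‖ • F (lf t) = ζ ‖t‖ • F s := by
    intro t s hs ht
    by_cases h0 : t = 0
    · rw [h0, norm_zero, hζ0, zero_smul, zero_smul]
    · have hn : ‖t‖ ≠ 0 := norm_ne_zero_iff.2 h0
      have h1 : hopf s = hopf (lf t) := by
        have h2 : ‖t‖ • hopf s = ‖t‖ • hopf (lf t) := by rw [← ht, ← hl2 t]
        exact smul_right_injective E3 hn h2
      obtain ⟨z, hz, h3⟩ := hopf_eq hs (hl1 t) h1
      rw [h3, hinv s z hs hz]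
  refine ⟨fun t => ζ ‖t‖ • F (lf t), ?_, key⟩
  rw [continuous_iff_continuousAt]
  intro t
  refine tendsto_of_subseq_tendsto fun ns hns => ?_
  have hc : IsCompact (Metric.sphere (0 : C2) 1) := isCompact_sphere _ _
  obtain ⟨s, hs, φ, hφ, hlim⟩ := hc.tendsto_subseq (x := fun n => lf (ns n))
    (fun n => by rw [mem_sphere_zero_iff_norm]; exact hl1 _)
  rw [mem_sphere_zero_iff_norm] at hs
  refine ⟨φ, ?_⟩
  have h1 : Tendsto (fun n => ns (φ n)) atTop (𝓝 t) := hns.comp hφ.tendsto_atTop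
  have h2 : Tendsto (fun n => ‖ns (φ n)‖ • hopf (lf (ns (φ n)))) atTop (𝓝 (‖t‖ • hopf s)) :=
    h1.norm.smul ((continuous_hopf.tendsto s).comp hlim)
  have h3 : t = ‖t‖ • hopf s := by
    refine tendsto_nhds_unique ?_ h2
    refine h1.congr fun n => hl2 _
  have h4 : Tendsto (fun n => F (lf (ns (φ n)))) atTop (𝓝 (F s)) := by
    refine (hF s hs).tendsto.comp ?_
    exact tendsto_nhdsWithin_iff.2 ⟨hlim, Eventually.of_forall fun n => hl1 _⟩
  show Tendsto (fun n => ζ ‖ns (φ n)‖ • F (lf (ns (φ n)))) atTop (𝓝 (ζ ‖t‖ • F (lf t)))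
  rw [key t s hs h3]
  exact ((hζ.tendsto _).comp h1.norm).smul h4

/-! ### the collapsing map -/

/-- cut-off. -/
def lam (r : ℝ) : ℝ := max 0 (min 1 (4 * r - 1))

theorem continuous_lam : Continuous lam := by unfold lam; fun_prop

theorem lam_of_le {r : ℝ} (h : r ≤ 1 / 4) : lam r = 0 := by
  unfold lam
  rw [max_eq_left]
  exact (min_le_right _ _).trans (by linarith)

theorem lam_pos {r : ℝ} (h : 1 / 4 < r) : 0 < lam r := by
  unfold lam
  exact lt_max_of_lt_right (lt_min one_pos (by linarith))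

/-- the collapsing map, not normalised. -/
def K0 (s : C2) : C2 := WithLp.toLp 2 ![s 0, (lam ‖s 1‖ : ℂ) * s 1]

theorem K0_0 (s : C2) : K0 s 0 = s 0 := rfl
theorem K0_1 (s : C2) : K0 s 1 = (lam ‖s 1‖ : ℂ) * s 1 := rfl

theorem continuous_K0 : Continuous K0 := by
  refine (PiLp.continuous_toLp 2 _).comp ?_
  refine continuous_pi fun i => ?_
  fin_cases i
  · show Continuous fun s : C2 => s 0
    fun_prop
  · show Continuous fun s : C2 => (lam ‖s 1‖ : ℂ) * s 1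
    have h1 : Continuous fun s : C2 => s 1 := by fun_prop
    exact (Complex.continuous_ofReal.comp (continuous_lam.comp h1.norm)).mul h1

theorem K0_ne {s : C2} (hs : ‖s‖ = 1) : K0 s ≠ 0 := by
  intro h
  have h0 : s 0 = 0 := by rw [← K0_0 s, h]; rfl
  have h1 : (lam ‖s 1‖ : ℂ) * s 1 = 0 := by rw [← K0_1 s, h]; rfl
  have n1 := norm_sq_C2 s
  rw [hs, h0, norm_zero] at n1
  have h2 : ‖s 1‖ = 1 := by nlinarith [norm_nonneg (s 1)]
  rcases mul_eq_zero.1 h1 with h3 | h3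
  · have : lam ‖s 1‖ = 0 := by exact_mod_cast h3
    have h4 := lam_pos (r := ‖s 1‖) (by rw [h2]; norm_num)
    linarith
  · rw [h3, norm_zero] at h2
    norm_num at h2

/-- the collapsing map of the three-sphere. -/
def Kn (s : C2) : C2 := ((‖K0 s‖⁻¹ : ℝ) : ℂ) • K0 s

theorem norm_Kn {s : C2} (hs : ‖s‖ = 1) : ‖Kn s‖ = 1 := by
  have h := norm_ne_zero_iff.2 (K0_ne hs)
  rw [Kn, norm_smul, Complex.norm_real, norm_inv, norm_norm, inv_mul_cancel₀ h]

theorem continuousOn_Kn : ContinuousOn Kn {s | ‖s‖ = 1} := by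
  have h1 : ContinuousOn (fun s : C2 => ((‖K0 s‖⁻¹ : ℝ) : ℂ)) {s | ‖s‖ = 1} :=
    Complex.continuous_ofReal.comp_continuousOn
      ((continuous_K0.norm.continuousOn).inv₀ fun s hs => norm_ne_zero_iff.2 (K0_ne hs))
  exact h1.smul continuous_K0.continuousOn

theorem K0_smul (s : C2) {z : ℂ} (hz : ‖z‖ = 1) : K0 (z • s) = z • K0 s := by
  refine ext_C2 ?_ ?_
  · rw [K0_0, smul_C2, smul_C2, K0_0]
  · rw [K0_1, smul_C2, smul_C2, K0_1, norm_mul, hz, one_mul]; ring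

theorem Kn_smul (s : C2) {z : ℂ} (hz : ‖z‖ = 1) : Kn (z • s) = z • Kn s := by
  rw [Kn, Kn, K0_smul s hz, norm_smul, hz, one_mul, smul_smul, smul_smul, mul_comm]

/-- the collapsed region. -/
theorem Kn_of_small {s : C2} (h : ‖s 1‖ ≤ 1 / 4) :
    Kn s = ((‖s 0‖⁻¹ : ℝ) * s 0) • e0 := by
  have h1 : K0 s = s 0 • e0 := by
    refine ext_C2 ?_ ?_
    · rw [K0_0, smul_C2, e0_0, mul_one]
    · rw [K0_1, lam_of_le h, smul_C2, e0_1]; simp
  rw [Kn, h1, norm_smul, norm_e0, mul_one, smul_smul]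

end

end Crest.Agent.R235.SwjAbs_844
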