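import Crest.Agent.R235.SWDefs_53
import Crest.Agent.R235.Cpt_755

/-!
Row 235 (S0364), PACKAGE SW, leaf SWX (helper333), part 1: the superposition operator of the
truncated curvature equation and the shift of the connection.

* `tv R v` : truncation of a vector, `trc R u y z = tv R (u · z) y`;
* `Qf S d R` : `rhs S d t (trc R u) l z = Qf S d R t z (u · z) l`;
* `nemOK` : `NemOK` for `Qf`;
* `mth S d t` : the matrix of `u ↦ c(ϑ_t) i u`, `BM` and uniformly continuous in `t`.
-/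

set_option autoImplicit false
set_option maxSynthPendingDepth 3
set_option linter.unusedSectionVars false

open scoped ContDiff ENNReal NNReal Topology Manifold Bundle RealInnerProductSpace
open MeasureTheory Set Filter Metric Bundle

universe v

noncomputable section

namespace Crest.Agent.R235.Swx_333

open Crest.Agent.R249.Tv57 Crest.Agent.R247.Ms322 Crest.Agent.R247.Dir593
open Crest.Agent.R235.SWDefs_53 Crest.Agent.R235.CptB_755

/-! ### truncation of vectors -/

section trunc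

theorem rad_aux {a b R : ℝ} (ha : 0 < a) (hb : 0 < b) (hR : 0 < R) :
    |min 1 (R / a) - min 1 (R / b)| * b ≤ |a - b| := by
  rcases le_total a R with h1 | h1 <;> rcases le_total b R with h2 | h2
  · rw [min_eq_left ((one_le_div ha).2 h1), min_eq_left ((one_le_div hb).2 h2), sub_self, abs_zero,
      zero_mul]
    exact abs_nonneg _
  · rw [min_eq_left ((one_le_div ha).2 h1), min_eq_right ((div_le_one hb).2 h2),
      abs_of_nonneg (by rw [sub_nonneg]; exact (div_le_one hb).2 h2), sub_mul, one_mul,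
      div_mul_cancel₀ _ hb.ne', abs_sub_comm]
    exact le_trans (by linarith) (le_abs_self _)
  · rw [min_eq_right ((div_le_one ha).2 h1), min_eq_left ((one_le_div hb).2 h2), abs_sub_comm,
      abs_of_nonneg (by rw [sub_nonneg]; exact (div_le_one ha).2 h1)]
    refine le_trans ?_ (le_abs_self _)
    have e : (1 - R / a) * b = (a - R) * (b / a) := by field_simp
    rw [e]
    have hba : b / a ≤ 1 := (div_le_one ha).2 (h2.trans h1)
    have : (a - R) * (b / a) ≤ (a - R) * 1 := mul_le_mul_of_nonneg_left hba (by linarith)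
    linarith
  · rw [min_eq_right ((div_le_one ha).2 h1), min_eq_right ((div_le_one hb).2 h2)]
    have e : (R / a - R / b) = (R / (a * b)) * (b - a) := by field_simp
    rw [e, abs_mul, abs_of_nonneg (by positivity), abs_sub_comm b a]
    have e2 : R / (a * b) * |a - b| * b = (R / a) * |a - b| := by field_simp
    rw [e2]
    have : R / a ≤ 1 := (div_le_one ha).2 h1
    nlinarith [abs_nonneg (a - b)]

theorem rad_lip {E : Type*} [NormedAddCommGroup E] [NormedSpace ℝ E] {R : ℝ} (hR : 0 < R)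
    (v w : E) : ‖(min 1 (R / ‖v‖)) • v - (min 1 (R / ‖w‖)) • w‖ ≤ 2 * ‖v - w‖ := by
  have hm : ∀ x : E, 0 ≤ min 1 (R / ‖x‖) ∧ min 1 (R / ‖x‖) ≤ 1 := fun x =>
    ⟨le_min zero_le_one (by positivity), min_le_left _ _⟩
  by_cases hv : v = 0
  · rw [hv, smul_zero, zero_sub, zero_sub, norm_neg, norm_neg, norm_smul, Real.norm_eq_abs,
      abs_of_nonneg (hm w).1]
    nlinarith [norm_nonneg w, (hm w).2]
  by_cases hw : w = 0
  · rw [hw, smul_zero, sub_zero, sub_zero, norm_smul, Real.norm_eq_abs, abs_of_nonneg (hm v).1]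
    nlinarith [norm_nonneg v, (hm v).2]
  have e : (min 1 (R / ‖v‖)) • v - (min 1 (R / ‖w‖)) • w =
      (min 1 (R / ‖v‖)) • (v - w) + (min 1 (R / ‖v‖) - min 1 (R / ‖w‖)) • w := by
    rw [smul_sub, sub_smul]; abel
  rw [e]
  refine (norm_add_le _ _).trans ?_
  rw [norm_smul, norm_smul, Real.norm_eq_abs, Real.norm_eq_abs, abs_of_nonneg (hm v).1]
  have h1 := rad_aux (norm_pos_iff.2 hv) (norm_pos_iff.2 hw) hR
  have h2 := abs_norm_sub_norm_le v w
  have h3 : min 1 (R / ‖v‖) * ‖v - w‖ ≤ 1 * ‖v - w‖ :=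
    mul_le_mul_of_nonneg_right (hm v).2 (norm_nonneg _)
  linarith

theorem rad_norm {E : Type*} [NormedAddCommGroup E] [NormedSpace ℝ E] {R : ℝ} (hR : 0 < R)
    (v : E) : ‖(min 1 (R / ‖v‖)) • v‖ ≤ R := by
  rw [norm_smul, Real.norm_eq_abs, abs_of_nonneg (le_min zero_le_one (by positivity))]
  by_cases hv : ‖v‖ = 0
  · rw [hv, mul_zero]; exact hR.le
  · calc min 1 (R / ‖v‖) * ‖v‖ ≤ (R / ‖v‖) * ‖v‖ :=
        mul_le_mul_of_nonneg_right (min_le_right _ _) (norm_nonneg _)
      _ = R := div_mul_cancel₀ _ hv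

variable {κ : Type} [Fintype κ]

/-- truncation of a vector. -/
def tv (R : ℝ) (v : κ → ℝ) : κ → ℝ := fun y => min 1 (R / √(∑ y', v y' ^ 2)) * v y

theorem norm_toLp (v : κ → ℝ) : ‖(WithLp.toLp 2 v : EuclideanSpace ℝ κ)‖ = √(∑ y', v y' ^ 2) := by
  rw [EuclideanSpace.norm_eq]
  simp only [Real.norm_eq_abs, sq_abs]

theorem toLp_tv (R : ℝ) (v : κ → ℝ) : (WithLp.toLp 2 (tv R v) : EuclideanSpace ℝ κ) =
    (min 1 (R / ‖(WithLp.toLp 2 v : EuclideanSpace ℝ κ)‖)) • (WithLp.toLp 2 v) := by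
  rw [norm_toLp]
  ext y
  rfl

theorem abs_le_toLp (v : κ → ℝ) (y : κ) : |v y| ≤ ‖(WithLp.toLp 2 v : EuclideanSpace ℝ κ)‖ := by
  rw [norm_toLp]
  refine Real.abs_le_sqrt ?_
  exact Finset.single_le_sum (f := fun y => v y ^ 2) (fun i _ => sq_nonneg _) (Finset.mem_univ y)

theorem toLp_le_sum (v : κ → ℝ) : ‖(WithLp.toLp 2 v : EuclideanSpace ℝ κ)‖ ≤ ∑ y, |v y| := by
  rw [norm_toLp]
  refine Real.sqrt_le_iff.2 ⟨Finset.sum_nonneg fun i _ => abs_nonneg _, ?_⟩
  rw [sq (∑ y, |v y|), Finset.sum_mul]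
  refine Finset.sum_le_sum fun y _ => ?_
  rw [← sq_abs, sq]
  exact mul_le_mul_of_nonneg_left (Finset.single_le_sum (f := fun y => |v y|)
    (fun i _ => abs_nonneg _) (Finset.mem_univ y)) (abs_nonneg _)

theorem tv_le {R : ℝ} (hR : 0 < R) (v : κ → ℝ) (y : κ) : |tv R v y| ≤ R := by
  refine (abs_le_toLp (tv R v) y).trans ?_
  rw [toLp_tv]
  exact rad_norm hR _

theorem tv_lip {R : ℝ} (hR : 0 < R) (v w : κ → ℝ) (y : κ) :
    |tv R v y - tv R w y| ≤ 2 * ∑ a, |v a - w a| := by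
  have h1 := abs_le_toLp (tv R v - tv R w) y
  have h2 : (WithLp.toLp 2 (tv R v - tv R w) : EuclideanSpace ℝ κ) =
      WithLp.toLp 2 (tv R v) - WithLp.toLp 2 (tv R w) := rfl
  rw [h2, toLp_tv, toLp_tv] at h1
  refine (h1.trans (rad_lip hR _ _)).trans ?_
  have h3 := toLp_le_sum (v - w)
  have h4 : (WithLp.toLp 2 (v - w) : EuclideanSpace ℝ κ) = WithLp.toLp 2 v - WithLp.toLp 2 w := rfl
  rw [h4] at h3
  exact mul_le_mul_of_nonneg_left h3 (by norm_num)

theorem tv_neg (R : ℝ) (v : κ → ℝ) : tv R (-v) = -tv R v := by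
  funext y
  simp only [tv, Pi.neg_apply, neg_sq, mul_neg]

theorem tv_eq {R : ℝ} (hR : 0 < R) (v : κ → ℝ) (h : ∑ y, v y ^ 2 ≤ R ^ 2) : tv R v = v := by
  funext y
  unfold tv
  by_cases h0 : ∑ y', v y' ^ 2 = 0
  · have : v y = 0 := by
      have := (Finset.sum_eq_zero_iff_of_nonneg fun i _ => sq_nonneg (v i)).1 h0 y
        (Finset.mem_univ y)
      exact pow_eq_zero_iff two_ne_zero |>.1 this
    rw [this, mul_zero]
  · have hp : 0 < ∑ y', v y' ^ 2 :=
      lt_of_le_of_ne (Finset.sum_nonneg fun i _ => sq_nonneg _) (Ne.symm h0)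
    have hs : √(∑ y', v y' ^ 2) ≤ R := Real.sqrt_le_iff.2 ⟨hR.le, h⟩
    rw [min_eq_left ((one_le_div (Real.sqrt_pos.2 hp)).2 hs), one_mul]

theorem tv_zero (R : ℝ) : tv R (0 : κ → ℝ) = 0 := by
  funext y
  simp [tv]

end trunc

/-! ### uniformity over the closed unit ball -/

/-- the parameter ball. -/
def BB : Set E3 := {t | ‖t‖ ≤ 1}

theorem isCompact_BB : IsCompact BB := by
  have : BB = closedBall (0 : E3) 1 := by
    ext t; simp [BB]
  rw [this]
  exact isCompact_closedBall _ _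

section unif

variable {M : Type*} [PseudoMetricSpace M] [CompactSpace M]

theorem unif_cont {F : E3 × M → ℝ} (hF : ContinuousOn F {q | ‖q.1‖ ≤ 1}) {t0 : E3}
    (ht0 : t0 ∈ BB) {ε : ℝ} (hε : 0 < ε) :
    ∀ᶠ t in 𝓝[BB] t0, ∀ x, |F (t, x) - F (t0, x)| ≤ ε := by
  have hc : IsCompact {q : E3 × M | ‖q.1‖ ≤ 1} := by
    have : {q : E3 × M | ‖q.1‖ ≤ 1} = BB ×ˢ univ := by ext q; simp [BB]
    rw [this]
    exact isCompact_BB.prod isCompact_univ
  have hu := hc.uniformContinuousOn_of_continuous hF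
  rw [Metric.uniformContinuousOn_iff] at hu
  obtain ⟨δ, hδ, h⟩ := hu ε hε
  filter_upwards [inter_mem_nhdsWithin BB (ball_mem_nhds t0 hδ)] with t ht x
  have := h (t, x) ht.1 (t0, x) ht0 (by
    rw [Prod.dist_eq, dist_self, max_eq_left dist_nonneg]
    exact ht.2)
  rw [Real.dist_eq] at this
  exact this.le

theorem unif_bdd {F : E3 × M → ℝ} (hF : ContinuousOn F {q | ‖q.1‖ ≤ 1}) :
    ∃ C : ℝ, 0 ≤ C ∧ ∀ t ∈ BB, ∀ x, |F (t, x)| ≤ C := by
  have hc : IsCompact {q : E3 × M | ‖q.1‖ ≤ 1} := by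
    have : {q : E3 × M | ‖q.1‖ ≤ 1} = BB ×ˢ univ := by ext q; simp [BB]
    rw [this]
    exact isCompact_BB.prod isCompact_univ
  obtain ⟨C, hC⟩ := hc.exists_bound_of_continuousOn hF
  exact ⟨max C 0, le_max_right _ _, fun t ht x => (hC (t, x) ht).trans (le_max_left _ _)⟩

theorem slice_cont {F : E3 × M → ℝ} (hF : ContinuousOn F {q | ‖q.1‖ ≤ 1}) {t : E3}
    (ht : t ∈ BB) : Continuous fun x => F (t, x) := by
  rw [← continuousOn_univ]
  exact hF.comp (f := fun x : M => ((t, x) : E3 × M)) (by fun_prop) (fun x _ => ht)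

end unif

/-! ### the superposition operator -/

section main

variable {M : Type v} [MetricSpace M] [CompactSpace M] [ConnectedSpace M]
  [ChartedSpace (EuclideanSpace ℝ (Fin 4)) M] [IsManifold (𝓡 4) ∞ M]
  [RiemannianBundle (fun p : M => TangentSpace (𝓡 4) p)]
  [IsContMDiffRiemannianBundle (𝓡 4) ∞ (EuclideanSpace ℝ (Fin 4))
    (fun p : M => TangentSpace (𝓡 4) p)]
  [IsRiemannianManifold (𝓡 4) M] [MeasurableSpace M] [BorelSpace M]
  [SecondCountableTopology M] [Nonempty M]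
  {κ0 κ1 κT : Type} [Fintype κ0] [Fintype κ1] [Fintype κT]

/-- the right hand side of the truncated curvature equation, as a superposition. -/
def Qf (S : SWS M κ0 κ1 κT) (d : SWD M κT) (R : ℝ) (t : E3) (x : M) (v : κ0 → ℝ) : Fin 4 → ℝ :=
  Fin.cons 0 fun k => d.mu t x * ((1 / 2) * ∑ y, ∑ y', S.rho k y y' x * tv R v y * tv R v y') +
    d.r * d.wt t k x + d.et t k x

theorem rhs_eq (S : SWS M κ0 κ1 κT) (d : SWD M κT) (R : ℝ) (t : E3) (u : κ0 → M → ℝ)
    (l : Fin 4) (x : M) : rhs S d t (trc R u) l x = Qf S d R t x (fun a => u a x) l := by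
  refine Fin.cases ?_ (fun k => ?_) l
  · rfl
  · rfl

theorem Qf_zero (S : SWS M κ0 κ1 κT) (d : SWD M κT) (R : ℝ) (t : E3) (x : M) (v : κ0 → ℝ) :
    Qf S d R t x v 0 = 0 := rfl

theorem Qf_succ (S : SWS M κ0 κ1 κT) (d : SWD M κT) (R : ℝ) (t : E3) (x : M) (v : κ0 → ℝ)
    (k : Fin 3) : Qf S d R t x v k.succ =
      d.mu t x * ((1 / 2) * ∑ y, ∑ y', S.rho k y y' x * tv R v y * tv R v y') +
        d.r * d.wt t k x + d.et t k x := rfl

theorem Qf_even (S : SWS M κ0 κ1 κT) (d : SWD M κT) (R : ℝ) (t : E3) (x : M) (v : κ0 → ℝ) :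
    Qf S d R t x (-v) = Qf S d R t x v := by
  funext l
  refine Fin.cases ?_ (fun k => ?_) l
  · rw [Qf_zero, Qf_zero]
  · rw [Qf_succ, Qf_succ, tv_neg]
    simp only [Pi.neg_apply, mul_neg, neg_mul, neg_neg]

theorem Qf_at_zero (S : SWS M κ0 κ1 κT) (d : SWD M κT) (R : ℝ) (t : E3) (x : M) (k : Fin 3) :
    Qf S d R t x 0 k.succ = d.r * d.wt t k x + d.et t k x := by
  rw [Qf_succ, tv_zero]
  simp

theorem smooth_bdd {f : M → ℝ} (hf : ContMDiff (𝓡 4) 𝓘(ℝ, ℝ) ∞ f) :
    ∃ C : ℝ, 0 ≤ C ∧ ∀ x, |f x| ≤ C := by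
  obtain ⟨C, hC⟩ := isCompact_univ.exists_bound_of_continuousOn hf.continuous.continuousOn
  exact ⟨max C 0, le_max_right _ _, fun x => (hC x (mem_univ x)).trans (le_max_left _ _)⟩

theorem wt_cont {S : SWS M κ0 κ1 κT} {d : SWD M κT} (hd : d.Adm S) (k : Fin 3) :
    ContinuousOn (fun q : E3 × M => d.wt q.1 k q.2) {q | ‖q.1‖ ≤ 1} := by
  refine Continuous.continuousOn ?_
  unfold SWD.wt
  refine continuous_finsetSum _ fun i _ => ?_
  have h1 : Continuous fun q : E3 × M => q.1 i := by fun_prop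
  exact h1.mul ((hd.smw i k).continuous.comp continuous_snd)

theorem rho_bdd {S : SWS M κ0 κ1 κT} (hS : S.OK) :
    ∃ C : ℝ, 0 ≤ C ∧ ∀ k y y' x, |S.rho k y y' x| ≤ C := by
  choose C hC0 hC using fun k y y' => smooth_bdd (hS.smrho k y y')
  refine ⟨∑ k, ∑ y, ∑ y', C k y y', Finset.sum_nonneg fun k _ => Finset.sum_nonneg fun y _ =>
    Finset.sum_nonneg fun y' _ => hC0 k y y', fun k y y' x => (hC k y y' x).trans ?_⟩
  calc C k y y' ≤ ∑ y', C k y y' :=
        Finset.single_le_sum (f := fun y' => C k y y') (fun i _ => hC0 k y i) (Finset.mem_univ y')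
    _ ≤ ∑ y, ∑ y', C k y y' := Finset.single_le_sum (f := fun y => ∑ y', C k y y')
        (fun i _ => Finset.sum_nonneg fun y' _ => hC0 k i y') (Finset.mem_univ y)
    _ ≤ _ := Finset.single_le_sum (f := fun k => ∑ y, ∑ y', C k y y')
        (fun i _ => Finset.sum_nonneg fun y _ => Finset.sum_nonneg fun y' _ => hC0 i y y')
        (Finset.mem_univ k)

theorem quad_bdd {R C : ℝ} (hR : 0 < R) (hC0 : 0 ≤ C) (c : κ0 → κ0 → ℝ)
    (hC : ∀ y y', |c y y'| ≤ C) (v : κ0 → ℝ) :
    |∑ y, ∑ y', c y y' * tv R v y * tv R v y'| ≤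
      Fintype.card κ0 * (Fintype.card κ0 * (C * R * R)) := by
  refine (Finset.abs_sum_le_sum_abs _ _).trans ?_
  refine (Finset.sum_le_card_nsmul _ _ (Fintype.card κ0 * (C * R * R)) fun y _ => ?_).trans
    (by rw [Finset.card_univ, nsmul_eq_mul])
  refine (Finset.abs_sum_le_sum_abs _ _).trans ?_
  refine (Finset.sum_le_card_nsmul _ _ (C * R * R) fun y' _ => ?_).trans
    (by rw [Finset.card_univ, nsmul_eq_mul])
  rw [abs_mul, abs_mul]
  have h1 := tv_le hR v y
  have h2 := tv_le hR v y'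
  have h3 := hC y y'
  gcongr

theorem quad_lip {R C : ℝ} (hR : 0 < R) (hC0 : 0 ≤ C) (c : κ0 → κ0 → ℝ)
    (hC : ∀ y y', |c y y'| ≤ C) (v w : κ0 → ℝ) :
    |∑ y, ∑ y', c y y' * tv R v y * tv R v y' - ∑ y, ∑ y', c y y' * tv R w y * tv R w y'| ≤
      Fintype.card κ0 * (Fintype.card κ0 * (C * (4 * R) * ∑ a, |v a - w a|)) := by
  rw [← Finset.sum_sub_distrib]
  refine (Finset.abs_sum_le_sum_abs _ _).trans ?_
  refine (Finset.sum_le_card_nsmul _ _
    (Fintype.card κ0 * (C * (4 * R) * ∑ a, |v a - w a|)) fun y _ => ?_).trans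
    (by rw [Finset.card_univ, nsmul_eq_mul])
  rw [← Finset.sum_sub_distrib]
  refine (Finset.abs_sum_le_sum_abs _ _).trans ?_
  refine (Finset.sum_le_card_nsmul _ _ (C * (4 * R) * ∑ a, |v a - w a|) fun y' _ => ?_).trans
    (by rw [Finset.card_univ, nsmul_eq_mul])
  have e : c y y' * tv R v y * tv R v y' - c y y' * tv R w y * tv R w y' =
      c y y' * (tv R v y * (tv R v y' - tv R w y') + (tv R v y - tv R w y) * tv R w y') := by ring
  rw [e, abs_mul]
  have h1 := tv_le hR v y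
  have h2 := tv_le hR w y'
  have h3 := hC y y'
  have h4 := tv_lip hR v w y
  have h5 := tv_lip hR v w y'
  set s := ∑ a, |v a - w a| with hs
  have hs0 : 0 ≤ s := Finset.sum_nonneg fun a _ => abs_nonneg _
  have h6 : |tv R v y * (tv R v y' - tv R w y') + (tv R v y - tv R w y) * tv R w y'| ≤
      R * (2 * s) + (2 * s) * R := by
    refine (abs_add_le _ _).trans ?_
    rw [abs_mul, abs_mul]
    gcongr
  calc |c y y'| * |tv R v y * (tv R v y' - tv R w y') + (tv R v y - tv R w y) * tv R w y'| ≤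
        C * (R * (2 * s) + (2 * s) * R) := by gcongr
    _ = C * (4 * R) * s := by ring

theorem nemOK {S : SWS M κ0 κ1 κT} {d : SWD M κT} (hS : S.OK) (hd : d.Adm S) {R : ℝ}
    (hR : 0 < R) (μ : Measure M) : NemOK μ BB (Qf S d R) := by
  obtain ⟨Cm, hCm0, hCm⟩ := unif_bdd hd.cmu
  obtain ⟨Cr, hCr0, hCr⟩ := rho_bdd hS
  choose Cw hCw0 hCw using fun k => unif_bdd (wt_cont hd k)
  choose Ce hCe0 hCe using fun k => unif_bdd (hd.cet k)
  obtain ⟨N, hN⟩ : ∃ N : ℝ, N = (Fintype.card κ0 : ℝ) := ⟨_, rfl⟩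
  have hN0 : 0 ≤ N := by rw [hN]; positivity
  refine ⟨?_, ?_, ?_, ?_⟩
  · -- measurability
    intro t ht u hu l
    refine Fin.cases ?_ (fun k => ?_) l
    · simp only [Qf_zero]
      exact aestronglyMeasurable_const
    · simp only [Qf_succ]
      have hu' : ∀ a, AEMeasurable (u a) μ := fun a => (hu a).aemeasurable
      have h1 : Measurable fun x => d.mu t x := (slice_cont hd.cmu ht).measurable
      have h2 : Measurable fun x => d.wt t k x := (slice_cont (wt_cont hd k) ht).measurable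
      have h3 : Measurable fun x => d.et t k x := (slice_cont (hd.cet k) ht).measurable
      have h4 : ∀ y y', Measurable fun x => S.rho k y y' x :=
        fun y y' => (hS.smrho k y y').continuous.measurable
      have h5 : ∀ y, AEMeasurable (fun x => tv R (fun a => u a x) y) μ := by
        intro y
        unfold tv
        have hsq : AEMeasurable (fun x => √(∑ y', u y' x ^ 2)) μ := by
          refine AEMeasurable.sqrt ?_
          exact Finset.aemeasurable_fun_sum _ fun a _ => (hu' a).pow_const 2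
        exact (aemeasurable_const.min (hsq.const_div R)).mul (hu' y)
      refine AEMeasurable.aestronglyMeasurable ?_
      refine AEMeasurable.add (AEMeasurable.add ?_ ?_) h3.aemeasurable
      · refine h1.aemeasurable.mul (AEMeasurable.const_mul ?_ _)
        refine Finset.aemeasurable_fun_sum _ fun y _ => Finset.aemeasurable_fun_sum _ fun y' _ => ?_
        exact ((h4 y y').aemeasurable.mul (h5 y)).mul (h5 y')
      · exact h2.aemeasurable.const_mul _
  · -- Lipschitz
    refine ⟨Cm * ((1 / 2) * (N * (N * (Cr * (4 * R))))), by positivity, ?_⟩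
    intro t ht x v v' l
    refine Fin.cases ?_ (fun k => ?_) l
    · rw [Qf_zero, Qf_zero, sub_self, abs_zero]
      exact mul_nonneg (by positivity) (Finset.sum_nonneg fun a _ => abs_nonneg _)
    · rw [Qf_succ, Qf_succ]
      have h1 := quad_lip hR hCr0 (fun y y' => S.rho k y y' x) (fun y y' => hCr k y y' x) v v'
      rw [← hN] at h1
      have h2 := hCm t ht x
      set q1 := ∑ y, ∑ y', S.rho k y y' x * tv R v y * tv R v y' with hq1
      set q2 := ∑ y, ∑ y', S.rho k y y' x * tv R v' y * tv R v' y' with hq2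
      have e : d.mu t x * (1 / 2 * q1) + d.r * d.wt t k x + d.et t k x -
          (d.mu t x * (1 / 2 * q2) + d.r * d.wt t k x + d.et t k x) =
          d.mu t x * ((1 / 2) * (q1 - q2)) := by ring
      rw [e, abs_mul, abs_mul, abs_of_nonneg (by norm_num : (0:ℝ) ≤ 1 / 2)]
      calc |d.mu t x| * (1 / 2 * |q1 - q2|) ≤
          Cm * (1 / 2 * (N * (N * (Cr * (4 * R) * ∑ a, |v a - v' a|)))) := by gcongr
        _ = _ := by ring
  · -- bound
    refine ⟨Cm * ((1 / 2) * (N * (N * (Cr * R * R)))) + |d.r| * (∑ k, Cw k) + ∑ k, Ce k, ?_, ?_⟩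
    · have h1 : 0 ≤ ∑ k, Cw k := Finset.sum_nonneg fun k _ => hCw0 k
      have h2 : 0 ≤ ∑ k, Ce k := Finset.sum_nonneg fun k _ => hCe0 k
      positivity
    · intro t ht x v l
      have h1 : 0 ≤ ∑ k, Cw k := Finset.sum_nonneg fun k _ => hCw0 k
      have h2 : 0 ≤ ∑ k, Ce k := Finset.sum_nonneg fun k _ => hCe0 k
      refine Fin.cases ?_ (fun k => ?_) l
      · rw [Qf_zero, abs_zero]
        positivity
      · rw [Qf_succ]
        have h3 := quad_bdd hR hCr0 (fun y y' => S.rho k y y' x) (fun y y' => hCr k y y' x) v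
        rw [← hN] at h3
        have h4 := hCm t ht x
        have h5 : |d.wt t k x| ≤ ∑ k, Cw k := (hCw k t ht x).trans
          (Finset.single_le_sum (f := Cw) (fun i _ => hCw0 i) (Finset.mem_univ k))
        have h6 : |d.et t k x| ≤ ∑ k, Ce k := (hCe k t ht x).trans
          (Finset.single_le_sum (f := Ce) (fun i _ => hCe0 i) (Finset.mem_univ k))
        refine (abs_add_le _ _).trans (add_le_add ((abs_add_le _ _).trans (add_le_add ?_ ?_)) h6)
        · rw [abs_mul, abs_mul, abs_of_nonneg (by norm_num : (0:ℝ) ≤ 1 / 2)]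
          gcongr
        · rw [abs_mul]
          gcongr
  · -- continuity in `t`
    intro t0 ht0 ε hε
    set A : ℝ := (1 / 2) * (N * (N * (Cr * R * R))) with hA
    have hA0 : 0 ≤ A := by positivity
    have hδ : 0 < ε / (3 * (A + |d.r| + 1)) := by positivity
    have e1 := unif_cont hd.cmu ht0 hδ
    have e2 : ∀ᶠ t in 𝓝[BB] t0, ∀ k x, |d.wt t k x - d.wt t0 k x| ≤
        ε / (3 * (A + |d.r| + 1)) := by
      rw [Filter.eventually_all]
      exact fun k => unif_cont (wt_cont hd k) ht0 hδ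
    have e3 : ∀ᶠ t in 𝓝[BB] t0, ∀ k x, |d.et t k x - d.et t0 k x| ≤
        ε / (3 * (A + |d.r| + 1)) := by
      rw [Filter.eventually_all]
      exact fun k => unif_cont (hd.cet k) ht0 hδ
    filter_upwards [e1, e2, e3] with t f1 f2 f3 x v l
    refine Fin.cases ?_ (fun k => ?_) l
    · rw [Qf_zero, Qf_zero, sub_self, abs_zero]
      exact hε.le
    · rw [Qf_succ, Qf_succ]
      have h3 := quad_bdd hR hCr0 (fun y y' => S.rho k y y' x) (fun y y' => hCr k y y' x) v
      rw [← hN] at h3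
      set q := ∑ y, ∑ y', S.rho k y y' x * tv R v y * tv R v y' with hq
      have e : d.mu t x * (1 / 2 * q) + d.r * d.wt t k x + d.et t k x -
          (d.mu t0 x * (1 / 2 * q) + d.r * d.wt t0 k x + d.et t0 k x) =
          (d.mu t x - d.mu t0 x) * (1 / 2 * q) + d.r * (d.wt t k x - d.wt t0 k x) +
            (d.et t k x - d.et t0 k x) := by ring
      rw [e]
      set δ := ε / (3 * (A + |d.r| + 1)) with hδd
      have hq2 : |1 / 2 * q| ≤ A := by
        rw [abs_mul, abs_of_nonneg (by norm_num : (0:ℝ) ≤ 1 / 2), hA]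
        exact mul_le_mul_of_nonneg_left h3 (by norm_num)
      have g1 := f1 x
      have g2 := f2 k x
      have g3 := f3 k x
      calc |(d.mu t x - d.mu t0 x) * (1 / 2 * q) + d.r * (d.wt t k x - d.wt t0 k x) +
            (d.et t k x - d.et t0 k x)| ≤ δ * A + |d.r| * δ + δ := by
            refine (abs_add_le _ _).trans (add_le_add ((abs_add_le _ _).trans
              (add_le_add ?_ ?_)) g3)
            · rw [abs_mul]; gcongr
            · rw [abs_mul]; gcongr
        _ = (A + |d.r| + 1) * δ := by ring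
        _ = ε / 3 := by rw [hδd]; field_simp
        _ ≤ ε := by linarith

/-! ### the shift of the connection -/

/-- the matrix of `u ↦ c(ϑ_t) i u`. -/
def mth (S : SWS M κ0 κ1 κT) (d : SWD M κT) (t : E3) (x : κ1) (y : κ0) (z : M) : ℝ :=
  ∑ A, d.th t A z * S.cl A x y z

theorem mth_cont {S : SWS M κ0 κ1 κT} {d : SWD M κT} (hS : S.OK) (hd : d.Adm S) (x : κ1)
    (y : κ0) : ContinuousOn (fun q : E3 × M => mth S d q.1 x y q.2) {q | ‖q.1‖ ≤ 1} := by
  unfold mth
  refine continuousOn_finsetSum _ fun A _ => (hd.cth A).mul ?_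
  exact ((hS.smcl A x y).continuous.comp continuous_snd).continuousOn

theorem mth_unif {S : SWS M κ0 κ1 κT} {d : SWD M κT} (hS : S.OK) (hd : d.Adm S) {t0 : E3}
    (ht0 : t0 ∈ BB) {ε : ℝ} (hε : 0 < ε) :
    ∀ᶠ t in 𝓝[BB] t0, ∀ x y z, |mth S d t x y z - mth S d t0 x y z| ≤ ε := by
  rw [Filter.eventually_all]
  intro x
  rw [Filter.eventually_all]
  intro y
  exact unif_cont (mth_cont hS hd x y) ht0 hε

end main

end Crest.Agent.R235.Swx_333

end
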