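import Crest.Agent.R235.Swx1_333
import Crest.Agent.R235.Fs4_546

/-!
Row 235 (S0364), PACKAGE SW, leaf SWX (helper333), part 2: the harmonic part.

* `wi d i` : the section `(0, w_i)` of `ℝ ⊕ Λ⁺`; `cst` : the section `(1, 0)`;
* `hpr` : `f ↦ (⟪f, (0,w_i)⟫)_i`, `gA` : `t ↦ hpr (r w_t)`;
* `gA_inj`, `hred` : the reducible part has no zero on `|t| = 1`;
* `ker_perp` : a function orthogonal to `(1,0)` and to the `(0,w_i)` is orthogonal to `ker H.A`.
-/

set_option autoImplicit false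
set_option maxSynthPendingDepth 3
set_option linter.unusedSectionVars false

open scoped ContDiff ENNReal NNReal Topology Manifold Bundle RealInnerProductSpace
open MeasureTheory Set Filter Metric Bundle

universe v

noncomputable section

namespace Crest.Agent.R235.Swx_333

open Crest.Agent.R249.Tv57 Crest.Agent.R247.Ms322 Crest.Agent.R247.Dir593
open Crest.Agent.R235.SWDefs_53 Crest.Agent.R235.CptB_755 Crest.Agent.R235.Fs4_546

local notation "ipp" => Crest.Agent.R249.Tv57.ip 4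

section main

variable {M : Type v} [MetricSpace M] [CompactSpace M] [ConnectedSpace M]
  [ChartedSpace (EuclideanSpace ℝ (Fin 4)) M] [IsManifold (𝓡 4) ∞ M]
  [RiemannianBundle (fun p : M => TangentSpace (𝓡 4) p)]
  [IsContMDiffRiemannianBundle (𝓡 4) ∞ (EuclideanSpace ℝ (Fin 4))
    (fun p : M => TangentSpace (𝓡 4) p)]
  [IsRiemannianManifold (𝓡 4) M] [MeasurableSpace M] [BorelSpace M]
  [SecondCountableTopology M] [Nonempty M] [IsFiniteMeasureOnCompacts (μHE[4] : Measure M)]
  {κ0 κ1 κT : Type} [Fintype κ0] [Fintype κ1] [Fintype κT]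

/-- the section `(0, w_i)`. -/
def wi (d : SWD M κT) (i : Fin 3) : Fin 4 → M → ℝ := Fin.cons (fun _ => 0) (d.ww i)

/-- the section `(1, 0)`. -/
def cst (M : Type v) : Fin 4 → M → ℝ := Fin.cons (fun _ => 1) fun _ _ => 0

theorem sm_wi {S : SWS M κ0 κ1 κT} {d : SWD M κT} (hd : d.Adm S) (i : Fin 3) :
    SmV (n := 4) (wi d i) := by
  intro a
  refine Fin.cases ?_ (fun k => ?_) a
  · exact contMDiff_const
  · exact hd.smw i k

theorem sm_cst : SmV (n := 4) (cst M) := by
  intro a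
  refine Fin.cases ?_ (fun k => ?_) a
  · exact contMDiff_const
  · exact contMDiff_const

theorem sec_full {S : SWS M κ0 κ1 κT} (hS : S.OK) (f : Fin 4 → M → ℝ) : S.DL.Sec f := by
  intro a z
  simp only [hS.fullL, ite_mul, one_mul, zero_mul, Finset.sum_ite_eq, Finset.mem_univ, if_true]

/-- the classes in `L²`. -/
def Wi {S : SWS M κ0 κ1 κT} {d : SWD M κT} (hd : d.Adm S) (i : Fin 3) :
    HH (μHE[4] : Measure M) (Fin 4) := clH (wi d i) (sm_wi hd i)

theorem inner_clH {κ : Type} [Fintype κ] {u v : κ → M → ℝ} (hu : SmV (n := 4) u)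
    (hv : SmV (n := 4) v) : ⟪clH u hu, clH v hv⟫ = ipp u v :=
  inner_HH (clH u hu) (clH v hv) (coe_clH u hu) (coe_clH v hv)

/-- the harmonic projection. -/
def hpr {S : SWS M κ0 κ1 κT} {d : SWD M κT} (hd : d.Adm S) :
    HH (μHE[4] : Measure M) (Fin 4) →L[ℝ] E3 :=
  ((PiLp.continuousLinearEquiv 2 ℝ (fun _ : Fin 3 => ℝ)).symm :
      (∀ _ : Fin 3, ℝ) →L[ℝ] EuclideanSpace ℝ (Fin 3)).comp
    (ContinuousLinearMap.pi fun i => innerSL ℝ (Wi hd i))

theorem hpr_apply {S : SWS M κ0 κ1 κT} {d : SWD M κT} (hd : d.Adm S)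
    (f : HH (μHE[4] : Measure M) (Fin 4)) (i : Fin 3) : hpr hd f i = ⟪Wi hd i, f⟫ := by
  simp [hpr]

/-- the energy of `w_t`. -/
def wen (d : SWD M κT) (t : E3) : ℝ := ∫ z, ∑ k, d.wt t k z ^ 2 ∂(μHE[4] : Measure M)

theorem ip_cons {f g : Fin 3 → M → ℝ} : ipp (Fin.cons (fun _ => 0) f) (Fin.cons (fun _ => 0) g) =
    ∫ z, ∑ k, f k z * g k z ∂(μHE[4] : Measure M) := by
  unfold Crest.Agent.R249.Tv57.ip
  refine integral_congr_ae (Eventually.of_forall fun z => ?_)
  simp only [Fin.sum_univ_succ (n := 3), Fin.cons_zero, Fin.cons_succ, mul_zero, zero_add]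

/-- the linear part. -/
def gA (d : SWD M κT) : E3 →ₗ[ℝ] E3 where
  toFun t := WithLp.toLp 2 fun i => d.r * ∑ j, t j * ipp (wi d j) (wi d i)
  map_add' s t := by
    ext i
    simp only [PiLp.add_apply, add_mul, Finset.sum_add_distrib, mul_add]
  map_smul' c t := by
    ext i
    simp only [PiLp.smul_apply, smul_eq_mul, RingHom.id_apply, mul_assoc, ← Finset.mul_sum]
    ring

theorem gA_apply (d : SWD M κT) (t : E3) (i : Fin 3) :
    gA d t i = d.r * ∑ j, t j * ipp (wi d j) (wi d i) := rfl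

theorem int_ww {S : SWS M κ0 κ1 κT} {d : SWD M κT} (hd : d.Adm S) (i j : Fin 3) (k : Fin 3) :
    Integrable (fun z => d.ww i k z * d.ww j k z) (μHE[4] : Measure M) :=
  (memLp_smooth (hd.smw i k)).integrable_mul (memLp_smooth (hd.smw j k))

theorem wt_smooth {S : SWS M κ0 κ1 κT} {d : SWD M κT} (hd : d.Adm S) (t : E3) (k : Fin 3) :
    ContMDiff (𝓡 4) 𝓘(ℝ, ℝ) ∞ (d.wt t k) := by
  unfold SWD.wt
  exact contMDiff_finsetSum fun i _ => contMDiff_const.mul (hd.smw i k)

/-- pairing with `w_t`. -/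
theorem sum_ip {S : SWS M κ0 κ1 κT} {d : SWD M κT} (hd : d.Adm S) (t : E3)
    (f : Fin 4 → M → ℝ) (hf : ∀ a, MemLp (f a) 2 (μHE[4] : Measure M)) :
    ∑ i, t i * ipp (wi d i) f = ∫ z, ∑ k : Fin 3, d.wt t k z * f k.succ z ∂(μHE[4] : Measure M) := by
  have h1 : ∀ i, ipp (wi d i) f =
      ∫ z, ∑ k : Fin 3, d.ww i k z * f k.succ z ∂(μHE[4] : Measure M) := by
    intro i
    unfold Crest.Agent.R249.Tv57.ip
    refine integral_congr_ae (Eventually.of_forall fun z => ?_)
    simp only [wi, Fin.sum_univ_succ (n := 3), Fin.cons_zero, Fin.cons_succ, zero_mul, zero_add]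
  simp only [h1, ← integral_const_mul]
  rw [← integral_finsetSum]
  · refine integral_congr_ae (Eventually.of_forall fun z => ?_)
    simp only [SWD.wt, Finset.mul_sum, Finset.sum_mul]
    rw [Finset.sum_comm]
    exact Finset.sum_congr rfl fun k _ => Finset.sum_congr rfl fun i _ => by ring
  · intro i _
    refine Integrable.const_mul (integrable_finsetSum _ fun k _ => ?_) _
    exact (memLp_smooth (hd.smw i k)).integrable_mul (hf k.succ)

theorem gA_pair {S : SWS M κ0 κ1 κT} {d : SWD M κT} (hd : d.Adm S) (t : E3) :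
    ∑ i, t i * gA d t i = d.r * wen d t := by
  have h1 : ∀ i, gA d t i = d.r * ipp (wi d i) (Fin.cons (fun _ => 0) (d.wt t)) := by
    intro i
    rw [gA_apply, sum_ip hd t (wi d i) (fun a => memLp_smooth (sm_wi hd i a))]
    congr 1
    rw [wi, ip_cons]
    refine integral_congr_ae (Eventually.of_forall fun z => ?_)
    simp only [Fin.cons_succ]
    exact Finset.sum_congr rfl fun k _ => mul_comm _ _
  have h2 := sum_ip hd t (Fin.cons (fun _ => 0) (d.wt t)) (fun a => by
    refine Fin.cases ?_ (fun k => ?_) a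
    · exact memLp_smooth contMDiff_const
    · exact memLp_smooth (wt_smooth hd t k))
  simp only [h1]
  have h3 : ∀ i, t i * (d.r * ipp (wi d i) (Fin.cons (fun _ => 0) (d.wt t))) =
      d.r * (t i * ipp (wi d i) (Fin.cons (fun _ => 0) (d.wt t))) := fun i => by ring
  simp only [h3]
  rw [← Finset.mul_sum, h2, wen]
  congr 1
  refine integral_congr_ae (Eventually.of_forall fun z => ?_)
  simp only [Fin.cons_succ]
  exact Finset.sum_congr rfl fun k _ => (sq _).symm

theorem wt_smul (d : SWD M κT) (c : ℝ) (t : E3) (k : Fin 3) (z : M) :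
    d.wt (c • t) k z = c * d.wt t k z := by
  simp only [SWD.wt, PiLp.smul_apply, smul_eq_mul, mul_assoc, ← Finset.mul_sum]

theorem wen_smul (d : SWD M κT) (c : ℝ) (t : E3) : wen d (c • t) = c ^ 2 * wen d t := by
  unfold wen
  rw [← integral_const_mul]
  refine integral_congr_ae (Eventually.of_forall fun z => ?_)
  simp only [wt_smul, Finset.mul_sum]
  exact Finset.sum_congr rfl fun k _ => by ring

theorem rwen_pos {S : SWS M κ0 κ1 κT} {d : SWD M κT} (hd : d.Adm S) {t : E3} (ht : ‖t‖ = 1) :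
    0 < |d.r| * wen d t := (abs_nonneg _).trans_lt (hd.big t ht)

theorem r_ne {S : SWS M κ0 κ1 κT} {d : SWD M κT} (hd : d.Adm S) : d.r ≠ 0 := by
  intro h
  have h1 := rwen_pos hd (t := EuclideanSpace.single 0 1) (by simp)
  rw [h, abs_zero, zero_mul] at h1
  exact lt_irrefl _ h1

theorem wen_pos {S : SWS M κ0 κ1 κT} {d : SWD M κT} (hd : d.Adm S) {t : E3} (ht : t ≠ 0) :
    0 < wen d t := by
  have hn : 0 < ‖t‖ := norm_pos_iff.2 ht
  have h1 := rwen_pos hd (t := ‖t‖⁻¹ • t) (by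
    rw [norm_smul, norm_inv, norm_norm, inv_mul_cancel₀ hn.ne'])
  rw [wen_smul] at h1
  by_contra hcon
  have h2 : |d.r| * (‖t‖⁻¹ ^ 2 * wen d t) ≤ 0 :=
    mul_nonpos_of_nonneg_of_nonpos (abs_nonneg _)
      (mul_nonpos_of_nonneg_of_nonpos (by positivity) (not_lt.1 hcon))
  linarith

theorem gA_inj {S : SWS M κ0 κ1 κT} {d : SWD M κT} (hd : d.Adm S) : Function.Injective (gA d) := by
  rw [injective_iff_map_eq_zero]
  intro t ht
  by_contra hne
  have h1 := gA_pair hd t
  rw [ht] at h1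
  simp only [PiLp.zero_apply, mul_zero, Finset.sum_const_zero] at h1
  rcases mul_eq_zero.1 h1.symm with h | h
  · exact r_ne hd h
  · exact (wen_pos hd hne).ne' h

theorem gA_bij {S : SWS M κ0 κ1 κT} {d : SWD M κT} (hd : d.Adm S) : Function.Bijective (gA d) :=
  ⟨gA_inj hd, LinearMap.surjective_of_injective (gA_inj hd)⟩

/-- the reducible part `r w_t + η_t` in `L²`. -/
def red (d : SWD M κT) (t : E3) : Fin 4 → M → ℝ :=
  Fin.cons (fun _ => 0) fun k z => d.r * d.wt t k z + d.et t k z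

/-- **no zero of the reducible part on `|t| = 1`**. -/
theorem hred {S : SWS M κ0 κ1 κT} {d : SWD M κT} (hd : d.Adm S) {s : ℝ} (hs0 : 0 ≤ s)
    (hs1 : s ≤ 1) {t : E3} (ht : ‖t‖ = 1) {V : E3}
    (hV : ∀ i, V i = ipp (wi d i) (red d t)) : (1 - s) • V + s • gA d t ≠ 0 := by
  intro h0
  have htB : t ∈ BB := by show ‖t‖ ≤ 1; rw [ht]
  have hetc : ∀ k, Continuous (d.et t k) := fun k => slice_cont (hd.cet k) htB
  have hetL : ∀ k, MemLp (d.et t k) 2 (μHE[4] : Measure M) := fun k => by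
    obtain ⟨C, hC0, hC⟩ := unif_bdd (hd.cet k)
    have : IsFiniteMeasure (μHE[4] : Measure M) := ⟨isCompact_univ.measure_lt_top⟩
    exact MemLp.of_bound (hetc k).aestronglyMeasurable C
      (Eventually.of_forall fun x => by rw [Real.norm_eq_abs]; exact hC t htB x)
  have hwL : ∀ k, MemLp (d.wt t k) 2 (μHE[4] : Measure M) := fun k => memLp_smooth (wt_smooth hd t k)
  have h1 : ∑ i, t i * V i = d.r * wen d t +
      ∫ z, ∑ k, d.et t k z * d.wt t k z ∂(μHE[4] : Measure M) := by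
    simp only [hV]
    rw [sum_ip hd t (red d t) (fun a => by
      refine Fin.cases ?_ (fun k => ?_) a
      · exact memLp_smooth contMDiff_const
      · exact ((hwL k).const_mul d.r).add (hetL k))]
    rw [wen, ← integral_const_mul, ← integral_add]
    · refine integral_congr_ae (Eventually.of_forall fun z => ?_)
      simp only [red, Fin.cons_succ]
      rw [Finset.mul_sum, ← Finset.sum_add_distrib]
      exact Finset.sum_congr rfl fun k _ => by ring
    · refine Integrable.const_mul (integrable_finsetSum _ fun k _ => ?_) _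
      have := (hwL k).integrable_mul (hwL k)
      simp only [sq]
      exact this
    · exact integrable_finsetSum _ fun k _ => (hetL k).integrable_mul (hwL k)
  have h2 := gA_pair hd t
  have h3 : ∑ i, t i * ((1 - s) • V + s • gA d t) i = 0 := by
    rw [h0]; simp
  have h4 : ∑ i, t i * ((1 - s) • V + s • gA d t) i =
      (1 - s) * ∑ i, t i * V i + s * ∑ i, t i * gA d t i := by
    rw [Finset.mul_sum, Finset.mul_sum, ← Finset.sum_add_distrib]
    refine Finset.sum_congr rfl fun i _ => ?_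
    simp only [PiLp.add_apply, PiLp.smul_apply, smul_eq_mul]
    ring
  rw [h4, h1, h2] at h3
  have hb := hd.big t ht
  have hw : ∫ z, ∑ k, d.wt t k z ^ 2 ∂(μHE[4] : Measure M) = wen d t := rfl
  rw [hw] at hb
  set E := ∫ z, ∑ k, d.et t k z * d.wt t k z ∂(μHE[4] : Measure M) with hE
  have h5 : d.r * wen d t = -((1 - s) * E) := by linarith
  have hwp := wen_pos hd (t := t) (by intro h; rw [h, norm_zero] at ht; norm_num at ht)
  have h6 : |d.r| * wen d t = |(1 - s) * E| := by
    rw [← abs_neg ((1 - s) * E), ← h5, abs_mul, abs_of_pos hwp]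
  rw [h6, abs_mul, abs_of_nonneg (by linarith : 0 ≤ 1 - s)] at hb
  have : (1 - s) * |E| ≤ 1 * |E| := mul_le_mul_of_nonneg_right (by linarith) (abs_nonneg _)
  linarith

/-! ### the kernel of `H.A` -/

/-- the submodule of smooth harmonic sections. -/
def KrS (S : SWS M κ0 κ1 κT) : Submodule ℝ (SmS S.DL) := LinearMap.ker (lA S.H)

theorem mem_KrS (S : SWS M κ0 κ1 κT) (v : SmS S.DL) :
    v ∈ KrS S ↔ ∀ b z, S.H.A v.1 b z = 0 := by
  constructor
  · intro h b z
    have h1 : lA S.H v = 0 := h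
    have h2 : ((lA S.H v : SmS S.DT) : κT → M → ℝ) = 0 := by rw [h1]; rfl
    rw [lA_coe] at h2
    rw [h2]; rfl
  · intro h
    refine Subtype.ext ?_
    funext b z
    exact h b z

/-- the four harmonic elements. -/
def el {S : SWS M κ0 κ1 κT} (hS : S.OK) {d : SWD M κT} (hd : d.Adm S) (a : Fin 4) : KrS S :=
  Fin.cases ⟨⟨cst M, sm_cst, sec_full hS _⟩, (mem_KrS S _).2 hS.one⟩
    (fun i => ⟨⟨wi d i, sm_wi hd i, sec_full hS _⟩, (mem_KrS S _).2 (hd.harm i)⟩) a

theorem finrank_KrS {S : SWS M κ0 κ1 κT} {N : ℕ} (K : KerD S.DL S.H.A N) :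
    Module.Finite ℝ (KrS S) ∧ Module.finrank ℝ (KrS S) = N := by
  let b : Fin N → KrS S := fun i => ⟨⟨K.u i, K.smooth i, K.sec i⟩, (mem_KrS S _).2 (K.ker i)⟩
  have hli : LinearIndependent ℝ b := by
    have h1 : LinearIndependent ℝ (fun i => (((b i : KrS S) : SmS S.DL) : Fin 4 → M → ℝ)) := K.li
    exact LinearIndependent.of_comp ((SmS S.DL).subtype ∘ₗ (KrS S).subtype) h1
  have hsp : ⊤ ≤ Submodule.span ℝ (Set.range b) := by
    intro v _
    have h1 := K.span v.1.1 v.1.2.1 v.1.2.2 ((mem_KrS S v.1).1 v.2)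
    have h2 : v = ∑ i, ipp v.1.1 (K.u i) • b i := by
      apply Subtype.ext
      apply Subtype.ext
      funext a z
      rw [h1 a z]
      simp only [Submodule.coe_sum, Submodule.coe_smul, Finset.sum_apply, Pi.smul_apply,
        smul_eq_mul]
      rfl
    rw [h2]
    exact Submodule.sum_mem _ fun i _ => Submodule.smul_mem _ _ (Submodule.subset_span ⟨i, rfl⟩)
  let B := Module.Basis.mk hli hsp
  exact ⟨Module.Finite.of_basis B, by rw [Module.finrank_eq_card_basis B, Fintype.card_fin]⟩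

theorem el_zero {S : SWS M κ0 κ1 κT} (hS : S.OK) {d : SWD M κT} (hd : d.Adm S) :
    ((el hS hd 0 : SmS S.DL) : Fin 4 → M → ℝ) = cst M := rfl

theorem el_succ {S : SWS M κ0 κ1 κT} (hS : S.OK) {d : SWD M κT} (hd : d.Adm S) (i : Fin 3) :
    ((el hS hd i.succ : SmS S.DL) : Fin 4 → M → ℝ) = wi d i := rfl

theorem el_li {S : SWS M κ0 κ1 κT} (hS : S.OK) {d : SWD M κT} (hd : d.Adm S) :
    LinearIndependent ℝ (el hS hd) := by
  rw [Fintype.linearIndependent_iff]
  intro g hg
  have h1 : (∑ a, g a • ((el hS hd a : SmS S.DL) : Fin 4 → M → ℝ)) = 0 := by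
    have h2 : (((∑ a, g a • el hS hd a : KrS S) : SmS S.DL) : Fin 4 → M → ℝ) = 0 := by
      rw [hg]; rfl
    rw [← h2]
    simp only [Submodule.coe_sum, Submodule.coe_smul]
  have h3 : ∀ l z, ∑ a, g a * ((el hS hd a : SmS S.DL) : Fin 4 → M → ℝ) l z = 0 := by
    intro l z
    have := congrFun (congrFun h1 l) z
    simpa only [Finset.sum_apply, Pi.smul_apply, smul_eq_mul, Pi.zero_apply] using this
  obtain ⟨z0⟩ := ‹Nonempty M›
  have h0 : g 0 = 0 := by
    have h4 := h3 0 z0
    rw [Fin.sum_univ_succ] at h4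
    simp only [el_zero, el_succ, cst, wi, Fin.cons_zero, mul_one, mul_zero,
      Finset.sum_const_zero, add_zero] at h4
    exact h4
  set t : E3 := WithLp.toLp 2 fun i => g i.succ with ht
  have h5 : ∀ k z, d.wt t k z = 0 := by
    intro k z
    have h4 := h3 k.succ z
    rw [Fin.sum_univ_succ] at h4
    simp only [el_zero, el_succ, cst, wi, Fin.cons_succ, mul_zero, zero_add] at h4
    exact h4
  have h6 : t = 0 := by
    by_contra hne
    have h7 := wen_pos hd hne
    unfold wen at h7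
    simp only [h5] at h7
    simp at h7
  intro a
  refine Fin.cases h0 (fun i => ?_) a
  have : t i = 0 := by rw [h6]; rfl
  exact this

/-- **orthogonality to the kernel**. -/
theorem ker_perp {S : SWS M κ0 κ1 κT} (hS : S.OK) {d : SWD M κT} (hd : d.Adm S)
    (K : KerD S.DL S.H.A 4) (f : HH (μHE[4] : Measure M) (Fin 4))
    (h0 : ⟪f, clH (cst M) sm_cst⟫ = (0 : ℝ)) (h1 : ∀ i, ⟪f, Wi hd i⟫ = (0 : ℝ))
    (v : Fin 4 → M → ℝ) (hv : SmV (n := 4) v) (hvs : S.DL.Sec v)
    (hker : ∀ b z, S.H.A v b z = 0) : ⟪f, clH v hv⟫ = (0 : ℝ) := by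
  obtain ⟨hfin, hrank⟩ := finrank_KrS K
  have hspan : Submodule.span ℝ (Set.range (el hS hd)) = ⊤ :=
    (el_li hS hd).span_eq_top_of_card_eq_finrank' (by rw [hrank, Fintype.card_fin])
  let L : KrS S →ₗ[ℝ] ℝ :=
    { toFun := fun v => ⟪f, clH v.1.1 v.1.2.1⟫
      map_add' := fun v w => by
        have : clH (v + w).1.1 (v + w).1.2.1 = clH v.1.1 v.1.2.1 + clH w.1.1 w.1.2.1 :=
          clH_add _ _ _ _ _
        rw [this, inner_add_right]
      map_smul' := fun c v => by
        have : clH (c • v).1.1 (c • v).1.2.1 = c • clH v.1.1 v.1.2.1 := clH_smul _ _ _ _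
        rw [this, inner_smul_right]
        rfl }
  have hL : L = 0 := by
    refine LinearMap.ext_on hspan ?_
    rintro _ ⟨a, rfl⟩
    refine Fin.cases ?_ (fun i => ?_) a
    · exact h0
    · exact h1 i
  have := LinearMap.congr_fun hL (⟨⟨v, hv, hvs⟩, (mem_KrS S _).2 hker⟩ : KrS S)
  exact this

end main

end Crest.Agent.R235.Swx_333

end
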