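import Crest.Agent.R235.Swx2_333
import Crest.Agent.R235.Fred_649

/-!
Row 235 (S0364), PACKAGE SW, leaf SWX (helper333), part 3: the map, its zeros are solutions of the
truncated system.

* `PL D` : projection onto `L²(D)`;
* `KKt` : the compact part `c(ϑ_t + G q_t(ψ)) i ψ` (`Cpt_755.KK`), `coe_KKt`, `P_KKt`;
* `tsol_of_zero` : a zero gives a `TSol`;
* `sol_of_tsol` : a bounded `TSol` with `C0 ≤ R²` is a `Sol`.
-/

set_option autoImplicit false
set_option maxSynthPendingDepth 3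
set_option linter.unusedSectionVars false

open scoped ContDiff ENNReal NNReal Topology Manifold Bundle RealInnerProductSpace
open MeasureTheory Set Filter Metric Bundle

universe v

noncomputable section

namespace Crest.Agent.R235.Swx_333

open Crest.Agent.R249.Tv57 Crest.Agent.R247.Ms322 Crest.Agent.R247.Dir593
open Crest.Agent.R235.SWDefs_53 Crest.Agent.R235.CptB_755 Crest.Agent.R235.Fs4_546
open Crest.Agent.R235.CptC_755 Crest.Agent.R235.Cpt_755 Crest.Agent.R235.Fred_649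

local notation "ipp" => Crest.Agent.R249.Tv57.ip 4

section main

variable {M : Type v} [MetricSpace M] [CompactSpace M] [ConnectedSpace M]
  [ChartedSpace (EuclideanSpace ℝ (Fin 4)) M] [IsManifold (𝓡 4) ∞ M]
  [RiemannianBundle (fun p : M => TangentSpace (𝓡 4) p)]
  [IsContMDiffRiemannianBundle (𝓡 4) ∞ (EuclideanSpace ℝ (Fin 4))
    (fun p : M => TangentSpace (𝓡 4) p)]
  [IsRiemannianManifold (𝓡 4) M] [MeasurableSpace M] [BorelSpace M]
  [SecondCountableTopology M] [Nonempty M] [IsFiniteMeasureOnCompacts (μHE[4] : Measure M)]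
  {κ0 κ1 κT : Type} [Fintype κ0] [Fintype κ1] [Fintype κT]

omit [ConnectedSpace M] in
theorem finM : IsFiniteMeasure (μHE[4] : Measure M) := ⟨isCompact_univ.measure_lt_top⟩

theorem bm_smooth {f : M → ℝ} (hf : ContMDiff (𝓡 4) 𝓘(ℝ, ℝ) ∞ f) :
    BM (μHE[4] : Measure M) f := by
  obtain ⟨C, hC0, hC⟩ := smooth_bdd hf
  exact ⟨hf.continuous.aestronglyMeasurable, C, hC0,
    Eventually.of_forall fun x => by rw [Real.norm_eq_abs]; exact hC x⟩

/-- the coefficients of the product term. -/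
def cc (S : SWS M κ0 κ1 κT) : κ1 → κT → κ0 → M → ℝ := fun x A y z => S.cl A x y z

theorem bm_cc {S : SWS M κ0 κ1 κT} (hS : S.OK) (x : κ1) (A : κT) (y : κ0) :
    BM (μHE[4] : Measure M) (cc S x A y) := bm_smooth (hS.smcl A x y)

theorem bm_mth {S : SWS M κ0 κ1 κT} {d : SWD M κT} (hS : S.OK) (hd : d.Adm S) (t : E3) (x : κ1)
    (y : κ0) : BM (μHE[4] : Measure M) (mth S d t x y) := by
  refine bm_smooth ?_
  unfold mth
  exact contMDiff_finsetSum fun A _ => (hd.smth t A).mul (hS.smcl A x y)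

/-- the projection onto the sections. -/
def PL {κ : Type} [Fintype κ] (D : Dat 4 M κ) : HH (μHE[4] : Measure M) κ →L[ℝ] D.toAD.HE :=
  D.toAD.P.codRestrict D.toAD.HE fun u => D.toAD.P_P u

theorem coe_PL {κ : Type} [Fintype κ] (D : Dat 4 M κ) (u : HH (μHE[4] : Measure M) κ) :
    ((PL D u : D.toAD.HE) : HH (μHE[4] : Measure M) κ) = D.toAD.P u := rfl

/-- the one-form `G f`. -/
def GG1 (S : SWS M κ0 κ1 κT) (s0 : Spec S.DL) :
    HH (μHE[4] : Measure M) (Fin 4) →L[ℝ] S.DT.toAD.WE := Green_649.grn S.H s0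

/-- the compact part of the Dirac equation. -/
def KKt {S : SWS M κ0 κ1 κT} {d : SWD M κT} (hS : S.OK) (hd : d.Adm S) (s0 : Spec S.DL) (R : ℝ)
    (t : E3) (p : S.D0.toAD.WE) : HH (μHE[4] : Measure M) κ1 :=
  KK S.D0.toAD.i1 S.DT.toAD.i1 (Qf S d R) (GG1 S s0) (cc S) (bm_cc hS)
    (fun t => matR (bm_mth hS hd t)) t p

/-- the curvature term. -/
def Fq {S : SWS M κ0 κ1 κT} (d : SWD M κT) (R : ℝ) (t : E3) (p : S.D0.toAD.WE) :
    HH (μHE[4] : Measure M) (Fin 4) := nem (Qf S d R) t (S.D0.toAD.i1 p)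

/-- the coordinates of a product term. -/
theorem coe_prT {κ κ' α : Type} [Fintype κ] [Fintype κ'] [Fintype α]
    (c : κ' → α → κ → M → ℝ) (hc : ∀ l b y, BM (μHE[4] : Measure M) (c l b y))
    (a : HH (μHE[4] : Measure M) α) (u : HH (μHE[4] : Measure M) κ)
    (ha : ∀ b, MemLp (a b : M → ℝ) 4 (μHE[4] : Measure M))
    (hu : ∀ y, MemLp (u y : M → ℝ) 4 (μHE[4] : Measure M)) :
    ∀ᵐ z ∂(μHE[4] : Measure M), ∀ l, (prT c hc a u l : M → ℝ) z =
      ∑ b, ∑ y, (a b : M → ℝ) z * (u y : M → ℝ) z * c l b y z := by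
  rw [ae_all_iff]
  intro l
  have e0 : prT c hc a u l = ∑ b, ∑ y, mulF (hc l b y) (pr (a b) (u y)) := rfl
  have e1 : ∀ᵐ z ∂(μHE[4] : Measure M), ∀ b y, (pr (a b) (u y) : M → ℝ) z =
      (a b : M → ℝ) z * (u y : M → ℝ) z := by
    rw [ae_all_iff]
    intro b
    rw [ae_all_iff]
    intro y
    exact coe_pr (ha b) (hu y)
  have e2 : ∀ᵐ z ∂(μHE[4] : Measure M), ∀ b y, (mulF (hc l b y) (pr (a b) (u y)) : M → ℝ) z =
      (pr (a b) (u y) : M → ℝ) z • c l b y z := by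
    rw [ae_all_iff]
    intro b
    rw [ae_all_iff]
    intro y
    exact coe_mulF (hc l b y) _
  have e3 : ∀ᵐ z ∂(μHE[4] : Measure M), ∀ b,
      ((∑ y, mulF (hc l b y) (pr (a b) (u y)) : Lp ℝ 2 (μHE[4] : Measure M)) : M → ℝ) z =
      ∑ y, (mulF (hc l b y) (pr (a b) (u y)) : M → ℝ) z := by
    rw [ae_all_iff]
    intro b
    exact Lp.coeFn_fun_finsetSum Finset.univ (fun y => mulF (hc l b y) (pr (a b) (u y)))
  filter_upwards [e1, e2, e3, Lp.coeFn_fun_finsetSum Finset.univ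
    (fun b => ∑ y, mulF (hc l b y) (pr (a b) (u y)))] with z f1 f2 f3 f4
  rw [e0, f4]
  refine Finset.sum_congr rfl fun b _ => ?_
  rw [f3 b]
  refine Finset.sum_congr rfl fun y _ => ?_
  rw [f2 b y, f1 b y, smul_eq_mul]

/-- **the coordinates of the compact part**. -/
theorem coe_KKt {S : SWS M κ0 κ1 κT} {d : SWD M κT} (hS : S.OK) (hd : d.Adm S) (s0 : Spec S.DL)
    (h4 : Emb4 S.D0.toAD.i1) (hT4 : Emb4 S.DT.toAD.i1) (R : ℝ) (t : E3) (p : S.D0.toAD.WE) :
    ∀ᵐ z ∂(μHE[4] : Measure M), ∀ x, (KKt hS hd s0 R t p x : M → ℝ) z =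
      S.cm (rp (GG1 S s0 (Fq d R t p)) + d.th t) (rp p) x z := by
  obtain ⟨C, -, hC⟩ := h4
  obtain ⟨CT, -, hCT⟩ := hT4
  have e1 := coe_prT (cc S) (bm_cc hS) (S.DT.toAD.i1 (GG1 S s0 (Fq d R t p))) (S.D0.toAD.i1 p)
    (fun b => (hCT _ b).1) (fun y => (hC _ y).1)
  have e2 := coe_matR (bm_mth hS hd t) (S.D0.toAD.i1 p)
  have e3 : ∀ᵐ z ∂(μHE[4] : Measure M), ∀ x, (KKt hS hd s0 R t p x : M → ℝ) z =
      (matR (bm_mth hS hd t) (S.D0.toAD.i1 p) x : M → ℝ) z +
      (prT (cc S) (bm_cc hS) (S.DT.toAD.i1 (GG1 S s0 (Fq d R t p))) (S.D0.toAD.i1 p) x : M → ℝ) z := by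
    rw [ae_all_iff]
    intro x
    exact Lp.coeFn_add (matR (bm_mth hS hd t) (S.D0.toAD.i1 p) x)
      (prT (cc S) (bm_cc hS) (S.DT.toAD.i1 (GG1 S s0 (Fq d R t p))) (S.D0.toAD.i1 p) x)
  filter_upwards [e1, e2, e3] with z f1 f2 f3 x
  rw [f3 x, f1 x, f2 x]
  unfold SWS.cm mth cc rp
  simp only [Pi.add_apply, add_mul, Finset.sum_add_distrib]
  rw [add_comm]
  congr 1
  simp only [Finset.mul_sum]
  rw [Finset.sum_comm]
  exact Finset.sum_congr rfl fun A _ => Finset.sum_congr rfl fun y _ => by ring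

/-- `cm` is a section of `D1`. -/
theorem cm_sec {S : SWS M κ0 κ1 κT} (hS : S.OK) (a : κT → M → ℝ) (u : κ0 → M → ℝ) (x : κ1)
    (z : M) : ∑ x', S.D1.p x x' z * S.cm a u x' z = S.cm a u x z := by
  unfold SWS.cm
  simp only [Finset.mul_sum]
  rw [Finset.sum_comm]
  refine Finset.sum_congr rfl fun A _ => ?_
  rw [Finset.sum_comm]
  refine Finset.sum_congr rfl fun y _ => ?_
  rw [← hS.clsec A x y z, Finset.mul_sum]
  exact Finset.sum_congr rfl fun x' _ => by ring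

theorem P_KKt {S : SWS M κ0 κ1 κT} {d : SWD M κT} (hS : S.OK) (hd : d.Adm S) (s0 : Spec S.DL)
    (h4 : Emb4 S.D0.toAD.i1) (hT4 : Emb4 S.DT.toAD.i1) (R : ℝ) (t : E3) (p : S.D0.toAD.WE) :
    S.D1.toAD.P (KKt hS hd s0 R t p) = KKt hS hd s0 R t p := by
  ext x
  filter_upwards [S.D1.toAD.coe_P (KKt hS hd s0 R t p), coe_KKt hS hd s0 h4 hT4 R t p] with z e1 e2
  rw [e1 x, e2 x, ← cm_sec hS]
  exact Finset.sum_congr rfl fun x' _ => by rw [e2 x']; rfl

/-! ### zeros are solutions -/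

theorem dl_P {S : SWS M κ0 κ1 κT} (hS : S.OK) (f : HH (μHE[4] : Measure M) (Fin 4)) :
    S.DL.toAD.P f = f := by
  ext a
  filter_upwards [S.DL.toAD.coe_P f] with z e1
  rw [e1 a]
  have h : ∀ b, S.DL.toAD.p a b z = if a = b then 1 else 0 := fun b => hS.fullL a b z
  simp only [h, ite_mul, one_mul, zero_mul, Finset.sum_ite_eq, Finset.mem_univ, if_true]

theorem coe_Fq {S : SWS M κ0 κ1 κT} {d : SWD M κT} (hS : S.OK) (hd : d.Adm S) {R : ℝ}
    (hR : 0 < R) {t : E3} (ht : t ∈ BB) (p : S.D0.toAD.WE) :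
    ∀ᵐ z ∂(μHE[4] : Measure M), ∀ l, (Fq d R t p l : M → ℝ) z = rhs S d t (trc R (rp p)) l z := by
  have := finM (M := M)
  filter_upwards [coe_nem (nemOK hS hd hR (μHE[4] : Measure M)) ht (S.D0.toAD.i1 p)] with z e1 l
  rw [rhs_eq]
  exact e1 l

/-- **the zeros of the map are solutions of the truncated system**. -/
theorem tsol_of_zero {S : SWS M κ0 κ1 κT} {d : SWD M κT} (hS : S.OK) (hd : d.Adm S)
    (s0 : Spec S.DL) (sT : Spec S.DT)
    (h4 : Emb4 S.D0.toAD.i1) (hT4 : Emb4 S.DT.toAD.i1) (K : KerD S.DL S.H.A 4) {R : ℝ}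
    (hR : 0 < R) {t : E3} (ht : t ∈ BB) (p : S.D0.toAD.WE) (h1 : hpr hd (Fq d R t p) = 0)
    (h2 : Ah S.P p + PL S.D1 (KKt hS hd s0 R t p) = 0) :
    TSol S d R t (rp (GG1 S s0 (Fq d R t p))) (rp p) := by
  have hF := coe_Fq hS hd hR ht p
  -- the curvature equation
  have hcur := (cur_iff S s0 sT (a := rp (GG1 S s0 (Fq d R t p))) (A := GG1 S s0 (Fq d R t p))
    (fun _ => EventuallyEq.rfl) (f := rhs S d t (trc R (rp p)))
    (F := (⟨Fq d R t p, dl_P hS _⟩ : S.DL.toAD.HE)) (fun b => by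
      filter_upwards [hF] with z e
      exact e b)).2 ⟨rfl, fun l hl => by
        have h0 : ⟪Fq d R t p, clH (cst M) sm_cst⟫ = (0 : ℝ) := by
          rw [inner_HH (Fq d R t p) (clH (cst M) sm_cst) hF (coe_clH (cst M) sm_cst)]
          rw [← integral_zero M ℝ (μ := (μHE[4] : Measure M))]
          refine integral_congr_ae (Eventually.of_forall fun z => ?_)
          simp only [Fin.sum_univ_succ (n := 3)]
          have r0 : rhs S d t (trc R (rp p)) 0 z = 0 := rfl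
          have r1 : ∀ k : Fin 3, (cst M) k.succ z = 0 := fun k => rfl
          simp only [r0, r1, zero_mul, mul_zero, Finset.sum_const_zero, add_zero]
        have h3 : ∀ i, ⟪Fq d R t p, Wi hd i⟫ = (0 : ℝ) := by
          intro i
          rw [real_inner_comm, ← hpr_apply, h1]
          rfl
        have h5 := ker_perp hS hd K (Fq d R t p) h0 h3 (s0.φ l) (s0.smooth l) (s0.sec l) (by
          intro b z
          have h6 := congrArg (fun v : SmS S.DT => v.1 b z) (lA_ker S.H s0 (s0.mem_ker.1 hl))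
          exact h6)
        exact h5⟩
  refine ⟨inW_rp _, inW_rp _, ?_, hcur.1, hcur.2⟩
  -- the Dirac equation
  refine (wkA_iff (P := S.P) (u := rp p) (U := p) (fun _ => EventuallyEq.rfl)).2 fun b => ?_
  have h7 : Ah S.P p = -PL S.D1 (KKt hS hd s0 R t p) := eq_neg_of_add_eq_zero_left h2
  have h8 : ((Ah S.P p : S.D1.toAD.HE) : HH (μHE[4] : Measure M) κ1) = -KKt hS hd s0 R t p := by
    rw [h7]
    have : ((-PL S.D1 (KKt hS hd s0 R t p) : S.D1.toAD.HE) : HH (μHE[4] : Measure M) κ1) =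
        -S.D1.toAD.P (KKt hS hd s0 R t p) := rfl
    rw [this, P_KKt hS hd s0 h4 hT4]
  rw [h8]
  have h9 : ((-KKt hS hd s0 R t p) b : Lp ℝ 2 (μHE[4] : Measure M)) = -(KKt hS hd s0 R t p b) := rfl
  rw [h9]
  filter_upwards [Lp.coeFn_neg (KKt hS hd s0 R t p b), coe_KKt hS hd s0 h4 hT4 R t p] with z e1 e2
  rw [e1, Pi.neg_apply, e2 b]

/-! ### the truncation is inactive -/

theorem sol_of_tsol {S : SWS M κ0 κ1 κT} {d : SWD M κT} {R C0 : ℝ} (hR : 0 < R)
    (hC : C0 < R ^ 2) {t : E3} {a : κT → M → ℝ} {u : κ0 → M → ℝ} (h : TSol S d R t a u)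
    (hb : ∀ᵐ z ∂(μHE[4] : Measure M), ∑ y, u y z ^ 2 ≤ C0) : Sol S d t a u := by
  have h1 : ∀ᵐ z ∂(μHE[4] : Measure M), ∀ l, rhs S d t (trc R u) l z = rhs S d t u l z := by
    filter_upwards [hb] with z hz l
    have h2 : ∀ y, trc R u y z = u y z := fun y =>
      congrFun (tv_eq hR (fun y => u y z) (hz.trans hC.le)) y
    refine Fin.cases ?_ (fun k => ?_) l
    · rfl
    · show d.mu t z * ((1 / 2) * S.rq k (trc R u) z) + d.r * d.wt t k z + d.et t k z =
        d.mu t z * ((1 / 2) * S.rq k u z) + d.r * d.wt t k z + d.et t k z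
      have h3 : S.rq k (trc R u) z = S.rq k u z := by
        unfold SWS.rq
        simp only [h2]
      rw [h3]
  obtain ⟨A, hA⟩ := h.wa
  refine ⟨h.wa, h.wu, ⟨C0, hb⟩, h.dir, ?_, h.har⟩
  have h4 := (wkA_iff (P := S.H.swap) (u := a) (U := A) hA).1 h.cur
  refine (wkA_iff (P := S.H.swap) (u := a) (U := A) hA).2 fun b => (h4 b).trans ?_
  filter_upwards [h1] with z hz
  exact hz b

end main

end Crest.Agent.R235.Swx_333

end
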