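import Crest.Agent.R235.Swx4_333
import Crest.Agent.R235.Gal_755

/-!
Row 235 (S0364), PACKAGE SW, leaf SWX (helper333): **the abstract existence theorem**.

* `EMB4` : Sobolev embedding `W^{1,2} → L⁴` for every `Dat 4` (R235 Sob4);
* `core` : the assembly from `Gal_755.no_map`;
* `swx_of_emb (hE : EMB4) (hS : SUPB) : SWX`.
-/

set_option autoImplicit false
set_option maxSynthPendingDepth 3
set_option linter.unusedSectionVars false

open scoped ContDiff ENNReal NNReal Topology Manifold Bundle RealInnerProductSpace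
open MeasureTheory Set Filter Metric Bundle

universe v

noncomputable section

namespace Crest.Agent.R235.Swx_333

open Crest.Agent.R249.Tv57 Crest.Agent.R247.Ms322 Crest.Agent.R247.Dir593
open Crest.Agent.R235.SWDefs_53 Crest.Agent.R235.CptB_755 Crest.Agent.R235.Fs4_546
open Crest.Agent.R235.CptC_755 Crest.Agent.R235.Cpt_755 Crest.Agent.R235.Fred_649

local notation "ipp" => Crest.Agent.R249.Tv57.ip 4

/-- Sobolev embedding for all bundles on closed four-manifolds. -/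
def EMB4 : Prop :=
  ∀ (M : Type v) [MetricSpace M] [CompactSpace M] [ConnectedSpace M]
    [ChartedSpace (EuclideanSpace ℝ (Fin 4)) M] [IsManifold (𝓡 4) ∞ M]
    [RiemannianBundle (fun p : M => TangentSpace (𝓡 4) p)]
    [IsContMDiffRiemannianBundle (𝓡 4) ∞ (EuclideanSpace ℝ (Fin 4))
      (fun p : M => TangentSpace (𝓡 4) p)]
    [IsRiemannianManifold (𝓡 4) M] [MeasurableSpace M] [BorelSpace M]
    [SecondCountableTopology M] [Nonempty M] [IsFiniteMeasureOnCompacts (μHE[4] : Measure M)]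
    (κ : Type) [Fintype κ] (D : Dat 4 M κ), Emb4 D.toAD.i1

section main

variable {M : Type v} [MetricSpace M] [CompactSpace M] [ConnectedSpace M]
  [ChartedSpace (EuclideanSpace ℝ (Fin 4)) M] [IsManifold (𝓡 4) ∞ M]
  [RiemannianBundle (fun p : M => TangentSpace (𝓡 4) p)]
  [IsContMDiffRiemannianBundle (𝓡 4) ∞ (EuclideanSpace ℝ (Fin 4))
    (fun p : M => TangentSpace (𝓡 4) p)]
  [IsRiemannianManifold (𝓡 4) M] [MeasurableSpace M] [BorelSpace M]
  [SecondCountableTopology M] [Nonempty M] [IsFiniteMeasureOnCompacts (μHE[4] : Measure M)]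
  {κ0 κ1 κT : Type} [Fintype κ0] [Fintype κ1] [Fintype κT]

/-- the linear part is bijective. -/
theorem lin_bij {S : SWS M κ0 κ1 κT} {d : SWD M κT} (hd : d.Adm S) :
    Function.Bijective fun q : E3 × EuclideanSpace ℝ (Fin 0) =>
      (0 : EuclideanSpace ℝ (Fin 0) →L[ℝ] E3) q.2 + LinearMap.toContinuousLinearMap (gA d) q.1 := by
  have h := gA_bij hd
  constructor
  · intro q q' hq
    have h1 : gA d q.1 = gA d q'.1 := by
      have : (0 : EuclideanSpace ℝ (Fin 0) →L[ℝ] E3) q.2 +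
        LinearMap.toContinuousLinearMap (gA d) q.1 =
        (0 : EuclideanSpace ℝ (Fin 0) →L[ℝ] E3) q'.2 +
        LinearMap.toContinuousLinearMap (gA d) q'.1 := hq
      simpa using this
    exact Prod.ext (h.1 h1) (Subsingleton.elim _ _)
  · intro y
    obtain ⟨t, ht⟩ := h.2 y
    exact ⟨(t, 0), by simpa using ht⟩

/-- the harmonic part at the zero spinor. -/
theorem hpr_zero {S : SWS M κ0 κ1 κT} {d : SWD M κT} (hS : S.OK) (hd : d.Adm S) {R : ℝ}
    (hR : 0 < R) {t : E3} (ht : t ∈ BB) (i : Fin 3) :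
    hpr hd (Fq (S := S) d R t 0) i = ipp (wi d i) (red d t) := by
  have := finM (M := M)
  rw [hpr_apply]
  refine inner_HH (Wi hd i) (Fq (S := S) d R t 0) (coe_clH (wi d i) (sm_wi hd i)) ?_
  have e0 : ∀ᵐ z ∂(μHE[4] : Measure M), ∀ a, (S.D0.toAD.i1 0 a : M → ℝ) z = 0 := by
    rw [ae_all_iff]
    intro a
    have : S.D0.toAD.i1 0 = 0 := map_zero _
    rw [this]
    exact Lp.coeFn_zero ℝ 2 (μHE[4] : Measure M)
  filter_upwards [coe_nem (nemOK hS hd hR (μHE[4] : Measure M)) ht (S.D0.toAD.i1 0), e0]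
    with z e1 e2 l
  have e3 : (Fq (S := S) d R t 0 l : M → ℝ) z =
    Qf S d R t z (fun a => (S.D0.toAD.i1 0 a : M → ℝ) z) l := e1 l
  rw [e3]
  have e4 : (fun a => (S.D0.toAD.i1 0 a : M → ℝ) z) = 0 := funext e2
  rw [e4]
  refine Fin.cases ?_ (fun k => ?_) l
  · rfl
  · rw [Qf_at_zero]
    rfl

set_option maxHeartbeats 3200000 in
/-- **the assembly**. -/
theorem core {S : SWS M κ0 κ1 κT} {d : SWD M κT} (hS : S.OK) (hd : d.Adm S)
    (s0 : Spec S.DL) (sT : Spec S.DT) (p0 : Spec S.D0) (p1 : Spec S.D1)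
    (h4 : Emb4 S.D0.toAD.i1) (hT4 : Emb4 S.DT.toAD.i1) (K : KerD S.DL S.H.A 4)
    (hlt : p1.ker.card < p0.ker.card)
    (hb : ∃ C0 : ℝ, ∀ R : ℝ, C0 < R ^ 2 → 0 < R → ∀ (t : E3) (a : κT → M → ℝ) (u : κ0 → M → ℝ),
      ‖t‖ ≤ 1 → TSol S d R t a u → ∀ᵐ z ∂(μHE[4] : Measure M), ∑ y, u y z ^ 2 ≤ C0) :
    ∃ (t : E3) (a : κT → M → ℝ) (u : κ0 → M → ℝ), ‖t‖ = 1 ∧ Sol S d t a u := by
  by_contra hno
  push Not at hno
  have := finM (M := M)
  obtain ⟨C0, hC0⟩ := hb
  set R := √(max C0 0) + 1 with hRdef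
  have hs0 : 0 ≤ √(max C0 0) := Real.sqrt_nonneg _
  have hR : 0 < R := by positivity
  have hCR : C0 < R ^ 2 := by
    have h1 := Real.sq_sqrt (le_max_right C0 0)
    have h2 := le_max_left C0 0
    rw [hRdef]
    nlinarith
  obtain ⟨r, hr, hbd⟩ := zero_bound hS hd s0 h4 hT4 hR C0
  have hQ := nemOK hS hd hR (μHE[4] : Measure M)
  have hjc : IsCompactOperator S.D0.toAD.i1 := S.D0.toAD.compact_i1 fried4
  have hL : ContinuousOn (fun t => (matR (bm_mth hS hd t) :
      HH (μHE[4] : Measure M) κ0 →L[ℝ] HH (μHE[4] : Measure M) κ1)) BB :=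
    matR_family (bm_mth hS hd) fun t0 ht0 ε hε => mth_unif hS hd ht0 hε
  refine Crest.Agent.R235.Gal_755.no_map (T := E3) (Xa := EuclideanSpace ℝ (Fin 0)) (Ya := E3)
    (Xp := S.D0.toAD.WE) (Yp := S.D1.toAD.HE)
    (0 : EuclideanSpace ℝ (Fin 0) →L[ℝ] E3) (LinearMap.toContinuousLinearMap (gA d))
    (Ah S.P) (lin_bij hd) (finiteDimensional_ker (dns4 _) p0) ?_ ?_ ?_
    (fun t _ p => hpr hd (Fq d R t p)) (fun t _ p => PL S.D1 (KKt hS hd s0 R t p))
    ?_ ?_ ?_ ?_ ?_ ?_ r ?_ ?_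
  · exact isClosed_range (P := S.P) (dns4 _) (dns4 _) p1
  · rw [orth_range (P := S.P) (dns4 _) (dns4 _) p1]
    infer_instance
  · rw [finrank_coker (P := S.P) (dns4 _) (dns4 _) p1, finrank_ker (P := S.P) (dns4 _) p0]
    exact hlt
  · -- continuity of the curvature part
    have h1 := HQ_continuousOn (j := S.D0.toAD.i1) hQ (hpr hd)
    exact h1.comp (f := fun q : E3 × (EuclideanSpace ℝ (Fin 0) × S.D0.toAD.WE) =>
      ((q.1, q.2.2) : E3 × S.D0.toAD.WE))
      (continuous_fst.prodMk (continuous_snd.comp continuous_snd)).continuousOn (fun q hq => hq)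
  · -- continuity of the Dirac part
    have h1 := KK_continuousOn h4 hT4 hQ (GG1 S s0) (cc S) (bm_cc hS) hL
    have h2 : ContinuousOn (fun q : E3 × S.D0.toAD.WE => PL S.D1 (KKt hS hd s0 R q.1 q.2))
        {q | q.1 ∈ BB} := (PL S.D1).continuous.comp_continuousOn h1
    exact h2.comp (f := fun q : E3 × (EuclideanSpace ℝ (Fin 0) × S.D0.toAD.WE) =>
      ((q.1, q.2.2) : E3 × S.D0.toAD.WE))
      (continuous_fst.prodMk (continuous_snd.comp continuous_snd)).continuousOn (fun q hq => hq)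
  · intro ρ
    obtain ⟨C, hC, h1⟩ := HQ_compact hjc hQ (hpr hd) isCompact_BB ρ
    exact ⟨C, hC, fun t a p ht _ hp => h1 t p ht hp⟩
  · intro ρ
    obtain ⟨C, hC, h1⟩ := KK_compact h4 hjc hT4 hQ (GG1 S s0) (cc S) (bm_cc hS) hL isCompact_BB ρ
    exact ⟨PL S.D1 '' C, hC.image (PL S.D1).continuous,
      fun t a p ht _ hp => ⟨_, h1 t p ht hp, rfl⟩⟩
  · intro t a p ht
    show hpr hd (Fq d R t (-p)) = hpr hd (Fq d R t p)
    have h1 : Fq d R t (-p) = Fq d R t p := by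
      show nem (Qf S d R) t (S.D0.toAD.i1 (-p)) = nem (Qf S d R) t (S.D0.toAD.i1 p)
      rw [map_neg]
      exact nem_even (fun x v => Qf_even S d R t x v) _ hQ ht
    rw [h1]
  · intro t a p ht
    show PL S.D1 (KKt hS hd s0 R t (-p)) = -PL S.D1 (KKt hS hd s0 R t p)
    rw [← map_neg]
    congr 1
    exact KK_odd hQ (GG1 S s0) (cc S) (bm_cc hS) ht (fun x v => Qf_even S d R t x v) p
  · -- the zeros
    intro t a p ht h1 h2
    have h1' : hpr hd (Fq d R t p) = 0 := by simpa using h1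
    have hT := tsol_of_zero hS hd s0 sT h4 hT4 K hR ht p h1' h2
    have hbb := hC0 R hCR hR t _ _ ht hT
    have hSol := sol_of_tsol hR hCR hT hbb
    have ha : a = 0 := Subsingleton.elim _ _
    refine ⟨lt_of_le_of_ne ht fun h => hno t _ _ h hSol, ?_, hbd t ht p h2 hbb⟩
    rw [ha, norm_zero]
    exact hr
  · -- the reducible part
    intro s hs hs1 t a ht h1
    have ha : a = 0 := Subsingleton.elim _ _
    refine ⟨lt_of_le_of_ne ht fun h => ?_, by rw [ha, norm_zero]; exact hr⟩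
    refine hred hd hs hs1 h (V := hpr hd (Fq (S := S) d R t 0)) (hpr_zero hS hd hR ht) ?_
    simpa using h1

end main

/-- **SWX**, from the Sobolev embedding and the sup bound. -/
theorem swx_of_emb (hE : EMB4.{v}) (hS : SUPB.{v}) : SWX.{v} := by
  intro M _ _ _ _ _ _ _ _ _ _ _ _ _ κ0 κ1 κT _ _ _ S d hOK hAdm d0 d1 hK0 hK1 hlt hK
  obtain ⟨K⟩ := hK
  obtain ⟨s0⟩ := spec_DL hOK
  obtain ⟨sT⟩ := spec4 S.DT (exists_p_ne S.H s0)
  obtain ⟨p0⟩ : Nonempty (Spec S.D0) := by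
    obtain ⟨K0⟩ := hK0
    exact spec4 S.D0 (exists_p_ne_of_ker K0 (by omega))
  obtain ⟨p1⟩ := spec4 S.D1 (exists_p_ne S.P p0)
  have e0 := card_ker S.P p0 hK0
  have e1 := card_ker S.P.swap p1 hK1
  exact core hOK hAdm s0 sT p0 p1 (hE M κ0 S.D0) (hE M κT S.DT) K (by rw [e0, e1]; exact hlt)
    (hS M κ0 κ1 κT S d hOK hAdm)

end Crest.Agent.R235.Swx_333

end
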