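import Crest.Agent.R235.TauT2_483
import Crest.Agent.R235.ModR_692

/-!
Row 235 (S0364), package SW (helper692): `T2X` from 483's `t2_fam`.
-/

set_option autoImplicit false
set_option maxSynthPendingDepth 3
set_option linter.unusedSectionVars false

open scoped ContDiff ENNReal NNReal Topology Manifold Bundle RealInnerProductSpace
open MeasureTheory Set Filter Metric Bundle Matrix

universe v

namespace Crest.Agent.R235.ModR_692

open Crest.Agent.R240 Crest.Agent.R240.Ch Crest.Agent.R240.Int Crest.Agent.R235.SWDefs_53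
open Crest.Agent.R235.IndTri_451 Crest.Agent.R235.Tau483 Crest.Agent.R235.TauOK_692
open Crest.Agent.R235.SWData_451 Crest.Agent.R235.SWTn_451
open Crest.Agent.R249.Tz805 (ToF)
open Crest.Agent.R235.FamR_692

noncomputable section

variable {M : Type v} [MetricSpace M] [CompactSpace M] [ConnectedSpace M]
  [ChartedSpace (EuclideanSpace ℝ (Fin 4)) M] [IsManifold (𝓡 4) ∞ M]
  [RiemannianBundle (fun p : M => TangentSpace (𝓡 4) p)]
  [IsContMDiffRiemannianBundle (𝓡 4) ∞ (EuclideanSpace ℝ (Fin 4))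
    (fun p : M => TangentSpace (𝓡 4) p)]
  [IsRiemannianManifold (𝓡 4) M] [MeasurableSpace M] [BorelSpace M]
  [SecondCountableTopology M] [Nonempty M] [IsFiniteMeasureOnCompacts (μHE[4] : Measure M)]
  {κ0 κ1 κT : Type} [Fintype κ0] [Fintype κ1] [Fintype κT]
  {S : SWS M κ0 κ1 κT} {T : ToF 4 M}
    {c : κ1 → κ0 → (z : M) → TangentSpace (𝓡 4) z}
    {W : κ0 → κ0 → (z : M) → TangentSpace (𝓡 4) z}
    {sT : κT → (z : M) → TangentSpace (𝓡 4) z} {w : Trip M} {e : Fin 3 → F2 E4 M}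
    {σ ι : ℝ} {ww : Fin 3 → Fin 3 → M → ℝ} {cE : E3 → Z2 M}

/-- the second identity, uniformly over the sphere. -/
theorem t2_hyp (hS : S.OK) (h : Hyp S T c W sT w e σ ι ww cE) :
    ∃ C, ∀ t : E3, ‖t‖ = 1 → T2P (tauF S T c W sT w e σ ww cE t) S C := by
  obtain ⟨C, -, hC⟩ := t2_fam (Θ := Sph) (τ := fun θ => tauF S T c W sT w e σ ww cE θ.1)
    (cE := fun θ => cE θ.1) hS h.tg (fun θ => h.te θ.ne) (fun θ => h.tc θ.ne)
    (o1_of T h.jf_rr) (fun k => o1_of T (h.jf_n k)) (fun A => oo_of (h.jf_sh A))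
    (fun x y => oo_of (h.jf_Z x y))
  exact ⟨C, fun t ht => fun a s s' ha hsa hs hs' hE hE' => hC ⟨t, ht⟩ a s s' ha hsa hs hs' hE hE'⟩

/-- **T2X**. -/
theorem t2x : T2X := by
  intro M _ _ _ _ _ _ _ _ _ _ _ _ _ κ0 κ1 κT _ _ _ S T c W sT w e σ ι ww cE hS h
  exact t2_hyp hS h

/-- **MODR** from `CEX`. -/
theorem modr_of_cex (hC : CEX) : SWTop_53.MODR := modr_of hC t2x

end

end Crest.Agent.R235.ModR_692
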