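import Crest.Agent.R235.SWJF_451
import Crest.Agent.R235.TauL_483
import Crest.Agent.R235.TauH_483

/-!
Row 235 (S0364), SW-TAU, leaf JE (helper129): families of Taubes data `τ : E3 → TD M κT` with
`n_k`, `sh` jointly smooth: the connection form `β_t`, the Chern form and the curvature
`Φ_t = 2π c_t - dβ_t` are jointly smooth; continuity of `fE_k` on `{‖t‖ = 1} × M`; uniform bounds.
-/

set_option autoImplicit false
set_option maxSynthPendingDepth 3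
set_option linter.unusedSectionVars false

open scoped ContDiff ENNReal NNReal Topology Manifold Bundle RealInnerProductSpace
open MeasureTheory Set Filter Metric Bundle

universe v

namespace Crest.Agent.R235.TauJE_129

open Crest.Agent.R240 Crest.Agent.R240.Ch Crest.Agent.R235 Crest.Agent.R235.SWDefs_53
open Crest.Agent.R235.IndTri_451 Crest.Agent.R235.TauJ
open Crest.Agent.R235.Tau483 (TG TC bF bV0 P0f P0f_apply fld Jm PEf Ch0 Phi SmC OO O1)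
open Crest.Agent.R235.SWJF_451 (jf_of flG_add)
open Crest.Agent.R249.Tv57 (Dat OpPair SmF)
open Crest.Agent.R249.Tz805 (ToF)
open Crest.Agent.R249.Vf281 (VSm)
open Crest.Agent.R247.Ms322 (Gr)

noncomputable section

variable {M : Type v} [MetricSpace M] [CompactSpace M] [ConnectedSpace M]
  [ChartedSpace (EuclideanSpace ℝ (Fin 4)) M] [IsManifold (𝓡 4) ∞ M]
  [RiemannianBundle (fun p : M => TangentSpace (𝓡 4) p)]
  [IsContMDiffRiemannianBundle (𝓡 4) ∞ (EuclideanSpace ℝ (Fin 4))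
    (fun p : M => TangentSpace (𝓡 4) p)]
  [IsRiemannianManifold (𝓡 4) M] [MeasurableSpace M] [BorelSpace M]
  [SecondCountableTopology M] [Nonempty M]
  {κ0 κ1 κT : Type} [Fintype κ0] [Fintype κ1] [Fintype κT]

/-! ### scalar families -/

theorem ne_of_norm {t : E3} (ht : ‖t‖ = 1) : t ≠ 0 := fun h0 => by simp [h0] at ht

theorem oo_jf {f : E3 → M → ℝ} (hf : JF f) :
    OO (fun _ _ => 1) fun (θ : {t : E3 // ‖t‖ = 1}) => f θ.1 := by
  obtain ⟨C, hC0, hC⟩ := hf.bound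
  exact ⟨C, hC0, fun θ z => by rw [mul_one]; exact hC θ.1 θ.2 z⟩

theorem o1_jf (T : ToF 4 M) {f : E3 → M → ℝ} (hf : JF f) :
    O1 fun (θ : {t : E3 // ‖t‖ = 1}) => f θ.1 := by
  refine ⟨fun θ => (RiemB_399.smoothF_iff _).1 (hf.sl (ne_of_norm θ.2)), oo_jf hf, ?_⟩
  obtain ⟨C, hC0, hC⟩ := hf.Gr_bound T
  exact ⟨C, hC0, fun θ z => by rw [mul_one, abs_norm]; exact hC θ.1 θ.2 z⟩

/-! ### the geometric families -/

section geo

variable {S : SWS M κ0 κ1 κT} {T : ToF 4 M}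
    {c : κ1 → κ0 → (z : M) → TangentSpace (𝓡 4) z}
    {W : κ0 → κ0 → (z : M) → TangentSpace (𝓡 4) z}
    {sT : κT → (z : M) → TangentSpace (𝓡 4) z} {w : Trip M} {e : Fin 3 → F2 E4 M}
    {σ ι : ℝ} {τ : E3 → TD M κT}

section base

variable (smJ : ∀ y y', ContMDiff (𝓡 4) 𝓘(ℝ, ℝ) ∞ (S.J y y'))
  (smρ : ∀ k y y', ContMDiff (𝓡 4) 𝓘(ℝ, ℝ) ∞ (S.rho k y y'))
include smJ smρ

omit smJ in
theorem jf_P0f (hn : ∀ k, JF fun t => (τ t).n k) (y y' : κ0) : JF fun t z => P0f (τ t) S z y y' := by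
  simp only [P0f_apply]
  exact JF.cmul _ ((jf_of (S.D0.smp y y')).sub
    (JF.sum' fun k => (hn k).mul (jf_of (smρ k y y'))))

theorem jf_JP0f (hn : ∀ k, JF fun t => (τ t).n k) (y y' : κ0) :
    JF fun t z => (Jm S z * P0f (τ t) S z) y y' := by
  simp only [Matrix.mul_apply]
  exact JF.sum' fun d => (jf_of (smJ y d)).mul (jf_P0f smρ hn d y')

omit smJ in
theorem jf_PE_re (hn : ∀ k, JF fun t => (τ t).n k) (y y' : κ0) :
    JF fun t z => (PEf (τ t) S z y y').re := by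
  refine (JF.cmul (1 / 2) (jf_P0f smρ hn y y')).congr fun t _ z => ?_
  show ((1 / 2 : ℂ) * ((P0f (τ t) S z y y' : ℂ) -
    Complex.I * (((Jm S z * P0f (τ t) S z) y y' : ℝ) : ℂ))).re = _
  simp

theorem jf_PE_im (hn : ∀ k, JF fun t => (τ t).n k) (y y' : κ0) :
    JF fun t z => (PEf (τ t) S z y y').im := by
  refine (JF.cmul (-(1 / 2)) (jf_JP0f smJ smρ hn y y')).congr fun t _ z => ?_
  show ((1 / 2 : ℂ) * ((P0f (τ t) S z y y' : ℂ) -
    Complex.I * (((Jm S z * P0f (τ t) S z) y y' : ℝ) : ℂ))).im = _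
  simp

/-- the Chern forms of the eigenlines. -/
theorem j2_chF (hn : ∀ k, JF fun t => (τ t).n k) : J2 fun t => chF (PEf (τ t) S) := by
  have hre := jf_PE_re (τ := τ) smρ hn
  have him := jf_PE_im (τ := τ) smJ smρ hn
  refine J2.sum' fun i => J2.sum' fun j => J2.sum' fun k => ?_
  exact (J2.fmul ((hre i j).cmul _) ((J2.wedG (J1.dF (hre j k)) (J1.dF (him k i))).add
    (J2.wedG (J1.dF (him j k)) (J1.dF (hre k i))))).add
    (J2.fmul ((him i j).cmul _) ((J2.wedG (J1.dF (hre j k)) (J1.dF (hre k i))).sub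
    (J2.wedG (J1.dF (him j k)) (J1.dF (him k i)))))

theorem smC_PE (hn : ∀ k, JF fun t => (τ t).n k) {t : E3} (ht : t ≠ 0) (i j : κ0) :
    SmC fun x => PEf (τ t) S x i j :=
  smC_iff.2 ⟨(jf_PE_re smρ hn i j).sl ht, (jf_PE_im smJ smρ hn i j).sl ht⟩

theorem chern_PE (hn : ∀ k, JF fun t => (τ t).n k) {t : E3} (ht : t ≠ 0) {a : Z2 M}
    (ha : Ch0 (PEf (τ t) S) a) : (a.1.1 : F2 E4 M) = chF (PEf (τ t) S) :=
  chern_eq (smC_PE smJ smρ hn ht) ha

/-- **(1)** the connection forms. -/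
theorem j1_bF (h : TG S T c W sT w e σ ι)
    (hsh : ∀ A, JF fun t => (τ t).sh A) (hn : ∀ k, JF fun t => (τ t).n k) :
    J1 fun t => bF (τ t) S W sT e := by
  have hg := QSTri_451.met_gg h.tri
  have hJP : ∀ y y', JF fun t z => (-(1 / 2)) * (Jm S z * P0f (τ t) S z) y y' := fun y y' =>
    JF.cmul _ (jf_JP0f smJ smρ hn y y')
  have h1 : J1 fun t => RiemB_399.flG (gg e) (fld sT (τ t).sh) :=
    J1.flG hg hsh h.smsT
  have h2 : ∀ y, J1 fun t => RiemB_399.flG (gg e) (fun z =>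
      ∑ y', (-(1 / 2) * (Jm S z * P0f (τ t) S z) y y') • W y' y z) := fun y =>
    J1.flG hg (fun y' => hJP y y') fun y' => h.smW y' y
  have h3 : J1 fun t => RiemB_399.flG (gg e) (bV0 (τ t) S W) := by
    refine (J1.sum' h2).congr fun t _ => ?_
    unfold bV0
    funext x
    rw [Finset.sum_apply]
    exact map_sum (at2 (gg e) x) _ _
  refine (h1.add h3).congr fun t _ => ?_
  exact flG_add _ _ _

end base

theorem gg_norm (h : TG S T c W sT w e σ ι) (x : M) (v : TangentSpace (𝓡 4) x) :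
    at2 (gg e) x v v = ‖v‖ ^ 2 :=
  (h.met x v v).symm.trans (real_inner_self_eq_norm_sq v)

/-- the curvature form, explicitly. -/
def PsiF (τ : E3 → TD M κT) (S : SWS M κ0 κ1 κT) (W : κ0 → κ0 → (z : M) → TangentSpace (𝓡 4) z)
    (sT : κT → (z : M) → TangentSpace (𝓡 4) z) (e : Fin 3 → F2 E4 M) (t : E3) : F2 E4 M :=
  (2 * Real.pi) • chF (PEf (τ t) S) - dG (bF (τ t) S W sT e)

section base2

variable (smJ : ∀ y y', ContMDiff (𝓡 4) 𝓘(ℝ, ℝ) ∞ (S.J y y'))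
  (smρ : ∀ k y y', ContMDiff (𝓡 4) 𝓘(ℝ, ℝ) ∞ (S.rho k y y'))
  (h : TG S T c W sT w e σ ι)
  (hsh : ∀ A, JF fun t => (τ t).sh A) (hn : ∀ k, JF fun t => (τ t).n k)
include smJ smρ h hsh hn

/-- **(2)** the curvature. -/
theorem j2_Psi : J2 (PsiF τ S W sT e) :=
  (J2.smul _ (j2_chF smJ smρ hn)).sub (J2.dG (j1_bF smJ smρ h hsh hn))

omit h hsh in
theorem Psi_eq {t : E3} (ht : t ≠ 0) {a : Z2 M} (ha : Ch0 (PEf (τ t) S) a) (z : M) :
    at2 (PsiF τ S W sT e t) z = Phi a (bF (τ t) S W sT e) z := by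
  have h1 : at2 (PsiF τ S W sT e t) z =
      (2 * Real.pi) • at2 (chF (PEf (τ t) S)) z - at2 (dG (bF (τ t) S W sT e)) z := rfl
  rw [h1, ← chern_PE smJ smρ hn ht ha]
  rfl

/-- **(3)** continuity of `q(w_0; e_k, Φ_t)`. -/
theorem cont_q {cE : E3 → Z2 M} (hc : ∀ t, ‖t‖ = 1 → Ch0 (PEf (τ t) S) (cE t)) (k : Fin 3) :
    ContinuousOn (fun x : E3 × M => q (at2 ((w 0).1.1 : F2 E4 M) x.2) (at2 (e k) x.2)
      (Phi (cE x.1) (bF (τ x.1) S W sT e) x.2)) {x | ‖x.1‖ = 1} := by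
  have h1 := (JF.qG' (w 0).1.2 h.tri.W_ne (J2.of (h.tri.smooth k))
    (j2_Psi smJ smρ h hsh hn)).contS
  refine h1.congr fun x hx => ?_
  show _ = q (at2 ((w 0).1.1 : F2 E4 M) x.2) (at2 (e k) x.2) (at2 (PsiF τ S W sT e x.1) x.2)
  rw [Psi_eq smJ smρ hn (ne_of_norm hx) (hc x.1 hx)]

/-- **(3)** continuity of `fE_k`. -/
theorem cfE {cE : E3 → Z2 M} (hc : ∀ t, ‖t‖ = 1 → TC (τ t) S W sT w e σ (cE t)) (k : Fin 3) :
    ContinuousOn (fun x : E3 × M => (τ x.1).fE k x.2) {x | ‖x.1‖ = 1} := by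
  refine (continuousOn_const (c := -2 * σ).mul
    (cont_q smJ smρ h hsh hn (fun t ht => (hc t ht).ch) k)).congr fun x hx => ?_
  exact (hc x.1 hx).fE k x.2

/-- uniform bound of `fE_k`. -/
theorem bdE {cE : E3 → Z2 M} (hc : ∀ t, ‖t‖ = 1 → TC (τ t) S W sT w e σ (cE t)) :
    ∃ K : ℝ, 0 ≤ K ∧ ∀ (t : E3) k z, ‖t‖ = 1 → |(τ t).fE k z| ≤ K := by
  have h1 : ∀ k, ∃ K : ℝ, ∀ x ∈ {x : E3 × M | ‖x.1‖ = 1}, ‖(τ x.1).fE k x.2‖ ≤ K := fun k =>
    isCompact_S.exists_bound_of_continuousOn (cfE smJ smρ h hsh hn hc k)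
  choose K hK using h1
  refine ⟨∑ k, |K k|, Finset.sum_nonneg fun k _ => abs_nonneg _, fun t k z ht => ?_⟩
  have h2 : |(τ t).fE k z| ≤ K k := hK k (t, z) ht
  exact h2.trans ((le_abs_self _).trans
    (Finset.single_le_sum (f := fun k => |K k|) (fun k _ => abs_nonneg _) (Finset.mem_univ k)))

/-- **(4)** uniform bound of the curvature. -/
theorem bdPhi : ∃ B : ℝ, 0 ≤ B ∧ ∀ t : E3, ‖t‖ = 1 → ∀ a : Z2 M, Ch0 (PEf (τ t) S) a →
    ∀ (z : M) (u v : TangentSpace (𝓡 4) z),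
      |Phi a (bF (τ t) S W sT e) z u v| ≤ B * ‖u‖ * ‖v‖ := by
  obtain ⟨B, hB0, hB⟩ := (j2_Psi smJ smρ h hsh hn).bound
  refine ⟨B, hB0, fun t ht a ha z u v => ?_⟩
  rw [← Psi_eq smJ smρ hn (ne_of_norm ht) ha z]
  exact hB t ht z u v

omit hsh in
/-- uniform bound of the Chern forms, in terms of the metric. -/
theorem bda : ∃ K : ℝ, 0 ≤ K ∧ ∀ t : E3, ‖t‖ = 1 → ∀ a : Z2 M, Ch0 (PEf (τ t) S) a →
    ∀ (x : M) (u v : E4), (val a x u v) ^ 2 ≤ K * (at2 (gg e) x u u * at2 (gg e) x v v) := by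
  obtain ⟨B, hB0, hB⟩ := (j2_chF smJ smρ hn).bound (M := M)
  refine ⟨B ^ 2, sq_nonneg B, fun t ht a ha x u v => ?_⟩
  have h1 : val a x u v = at2 (chF (PEf (τ t) S)) x u v := by
    rw [← chern_PE smJ smρ hn (ne_of_norm ht) ha]
    rfl
  have h2 := hB t ht x u v
  have h3 := gg_norm h x u
  have h4 := gg_norm h x v
  rw [h1, h3, h4, ← sq_abs]
  refine (pow_le_pow_left₀ (abs_nonneg _) h2 2).trans (le_of_eq ?_)
  ring

/-- uniform bound of the connection forms, in terms of the metric. -/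
theorem bdβ : ∃ K : ℝ, 0 ≤ K ∧ ∀ t : E3, ‖t‖ = 1 → ∀ (x : M) (v : E4),
    (at1 (bF (τ t) S W sT e) x v) ^ 2 ≤ K * at2 (gg e) x v v := by
  obtain ⟨B, hB0, hB⟩ := (j1_bF smJ smρ h hsh hn).bound
  refine ⟨B ^ 2, sq_nonneg B, fun t ht x v => ?_⟩
  have h2 := hB t ht x v
  have h4 := gg_norm h x v
  rw [h4, ← sq_abs]
  refine (pow_le_pow_left₀ (abs_nonneg _) h2 2).trans (le_of_eq ?_)
  ring

end base2

end geo

end

end Crest.Agent.R235.TauJE_129
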