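import Crest.Agent.R235.TauH_483

/-!
Row 235 (S0364), SW-TAU (helper483), part K: pointwise form of the second identity `T2`:
sections `b_k = ρ_{y^k} s'`, `s' = (1/2) ∑ ρ_{y^k} b_k`, the Dirac operator on `s'`.
-/

set_option autoImplicit false
set_option maxSynthPendingDepth 3
set_option linter.unusedSectionVars false

open scoped ContDiff ENNReal NNReal Topology Manifold Bundle RealInnerProductSpace
open MeasureTheory Set Filter Metric Bundle Matrix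

universe v

namespace Crest.Agent.R235.Tau483

open Crest.Agent.R240 Crest.Agent.R240.Ch Crest.Agent.R240.Int Crest.Agent.R235.SWDefs_53
open Crest.Agent.R235.IndTri_451
open Crest.Agent.R249.Tv57 (Dat OpPair SmF Spec)
open Crest.Agent.R247.Ms322 (Gr)
open Crest.Agent.R249.Vf281 (VSm mCov)
open Crest.Agent.R247.Bo84 (mgrad inner_mgrad)
open Crest.Agent.R249.Tz805 (ToF)

noncomputable section

/-! ### matrices -/

section mat

variable {κ : Type*} [Fintype κ]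

/-- `(P + R)/2`. -/
def P1 (P : Matrix κ κ ℝ) (ρ : Fin 3 → Matrix κ κ ℝ) (n : Fin 3 → ℝ) : Matrix κ κ ℝ :=
  (1 / 2 : ℝ) • (P + RR ρ n)

variable {P J : Matrix κ κ ℝ} {ρ : Fin 3 → Matrix κ κ ℝ} {n : Fin 3 → ℝ} {ι : ℝ}

theorem Al.ryP (h : Al P J ρ n ι) (y : Fin 3 → ℝ) : RR ρ y * P = RR ρ y := by
  unfold RR
  rw [Finset.sum_mul]
  exact Finset.sum_congr rfl fun k _ => by rw [Matrix.smul_mul, h.rP]

theorem Al.P1_ry (h : Al P J ρ n ι) {y : Fin 3 → ℝ} (hy : ∑ k, y k * n k = 0) :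
    P1 P ρ n * RR ρ y = RR ρ y * P0 P ρ n := by
  unfold P1 P0
  rw [Matrix.smul_mul, Matrix.mul_smul, Matrix.add_mul, Matrix.mul_sub, h.Pry, h.ryP, h.Rr y hy]
  module

theorem Al.Jry (h : Al P J ρ n ι) (y : Fin 3 → ℝ) : J * RR ρ y = RR ρ y * J := by
  unfold RR
  rw [Finset.mul_sum, Finset.sum_mul]
  exact Finset.sum_congr rfl fun k _ => by rw [Matrix.mul_smul, Matrix.smul_mul, h.Jr]

end mat

variable {M : Type v} [MetricSpace M] [CompactSpace M] [ConnectedSpace M]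
  [ChartedSpace (EuclideanSpace ℝ (Fin 4)) M] [IsManifold (𝓡 4) ∞ M]
  [RiemannianBundle (fun p : M => TangentSpace (𝓡 4) p)]
  [IsContMDiffRiemannianBundle (𝓡 4) ∞ (EuclideanSpace ℝ (Fin 4))
    (fun p : M => TangentSpace (𝓡 4) p)]
  [IsRiemannianManifold (𝓡 4) M] [MeasurableSpace M] [BorelSpace M]
  [SecondCountableTopology M] [Nonempty M]
  {κ0 κ1 κT : Type} [Fintype κ0] [Fintype κ1] [Fintype κT]

/-- `ρ_{y^k}`. -/
def Ym (τ : TD M κT) (S : SWS M κ0 κ1 κT) (k : Fin 3) (z : M) : Matrix κ0 κ0 ℝ :=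
  RR (Rm S z) (Al.yk (nv τ z) k)

/-- `ρ_{y^k} s`. -/
def ryf (τ : TD M κT) (S : SWS M κ0 κ1 κT) (k : Fin 3) (s : κ0 → M → ℝ) (y : κ0) (z : M) : ℝ :=
  ∑ y', Ym τ S k z y y' * s y' z

theorem sv_ryf (τ : TD M κT) (S : SWS M κ0 κ1 κT) (k : Fin 3) (s : κ0 → M → ℝ) (z : M) :
    sv (ryf τ S k s) z = Ym τ S k z *ᵥ sv s z := rfl

theorem Ym_apply (τ : TD M κT) (S : SWS M κ0 κ1 κT) (k : Fin 3) (z : M) (y y' : κ0) :
    Ym τ S k z y y' = ∑ l, ((if l = k then 1 else 0) - τ.n k z * τ.n l z) * S.rho l y y' z := by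
  unfold Ym RR
  rw [Matrix.sum_apply]
  rfl

section k

variable [IsFiniteMeasureOnCompacts (μHE[4] : Measure M)]
  {τ : TD M κT} {S : SWS M κ0 κ1 κT} {T : ToF 4 M}
    {cc : κ1 → κ0 → (z : M) → TangentSpace (𝓡 4) z}
    {W : κ0 → κ0 → (z : M) → TangentSpace (𝓡 4) z}
    {sT : κT → (z : M) → TangentSpace (𝓡 4) z} {w : Trip M} {e : Fin 3 → F2 E4 M}
    {σ ι : ℝ} {Z : κ1 → κ0 → M → ℝ}

theorem sm_Ym (hS : S.OK) (hn : ∀ k, ContMDiff (𝓡 4) 𝓘(ℝ, ℝ) ∞ (τ.n k)) (k : Fin 3) (y y' : κ0) :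
    ContMDiff (𝓡 4) 𝓘(ℝ, ℝ) ∞ fun z => Ym τ S k z y y' := by
  simp only [Ym_apply]
  exact sm_sum fun l => sm_mul (sm_sub (sm_const _) (sm_mul (hn k) (hn l))) (hS.smrho l y y')

theorem sm_ryf (hS : S.OK) (hn : ∀ k, ContMDiff (𝓡 4) 𝓘(ℝ, ℝ) ∞ (τ.n k)) (k : Fin 3)
    {s : κ0 → M → ℝ} (hs : Crest.Agent.R249.Tv57.SmV (n := 4) s) :
    Crest.Agent.R249.Tv57.SmV (n := 4) (ryf τ S k s) :=
  fun y => sm_sum fun y' => sm_mul (sm_Ym hS hn k y y') (hs y')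

theorem secE_ryf (hS : S.OK) (h : TG S T cc W sT w e σ ι) (nn : ∀ z, ∑ k, τ.n k z ^ 2 = 1)
    (k : Fin 3) {s : κ0 → M → ℝ} (hs : τ.SecE' S s) : τ.SecE S (ryf τ S k s) :=
  secE_of fun z => by
    have hA := al_of hS h (n := nv τ z) z (nn z)
    exact hA.inE_ry (inE'_of hs z) (hA.yk_perp k)

theorem sum_ryf (hS : S.OK) (h : TG S T cc W sT w e σ ι) (nn : ∀ z, ∑ k, τ.n k z ^ 2 = 1)
    {s : κ0 → M → ℝ} (hs : S.D0.Sec s) (y : κ0) (z : M) :
    s y z = (1 / 2) * ∑ k, ryf τ S k (ryf τ S k s) y z := by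
  have hA := al_of hS h (n := nv τ z) z (nn z)
  have h1 := congrArg (fun A => (A *ᵥ sv s z) y) hA.sum_yk
  simp only [sum_mulVec, Finset.sum_apply, smul_mulVec, Pi.smul_apply, smul_eq_mul] at h1
  have h2 : (Pm S z *ᵥ sv s z) y = s y z := hs y z
  rw [h2] at h1
  have h3 : ∀ k, ryf τ S k (ryf τ S k s) y z =
      ((RR (Rm S z) (Al.yk (nv τ z) k) * RR (Rm S z) (Al.yk (nv τ z) k)) *ᵥ sv s z) y := by
    intro k
    rw [← mulVec_mulVec]
    rfl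
  simp only [h3, h1]
  ring

/-! ### the covariant derivative -/

/-- `∇_a s` in the direction `v`. -/
def nva (S : SWS M κ0 κ1 κT) (T : ToF 4 M) (sT : κT → (z : M) → TangentSpace (𝓡 4) z)
    (a : κT → M → ℝ) (s : κ0 → M → ℝ) (z : M) (v : TangentSpace (𝓡 4) z) : κ0 → ℝ :=
  dsv T z v s + Xm S T z v *ᵥ sv s z + (inner ℝ (fld sT a z) v : ℝ) • (Jm S z *ᵥ sv s z)

/-- the derivative of `ρ_{y^k}`. -/
def dYm (τ : TD M κT) (S : SWS M κ0 κ1 κT) (T : ToF 4 M) (k : Fin 3) (z : M)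
    (v : TangentSpace (𝓡 4) z) : Matrix κ0 κ0 ℝ := fun y y' => dr T z v fun x => Ym τ S k x y y'

/-- the covariant derivative of `ρ_{y^k}`. -/
def DYm (τ : TD M κT) (S : SWS M κ0 κ1 κT) (T : ToF 4 M) (k : Fin 3) (z : M)
    (v : TangentSpace (𝓡 4) z) : Matrix κ0 κ0 ℝ :=
  dYm τ S T k z v + (Xm S T z v * Ym τ S k z - Ym τ S k z * Xm S T z v)

theorem dsv_ryf (hS : S.OK) (hn : ∀ k, ContMDiff (𝓡 4) 𝓘(ℝ, ℝ) ∞ (τ.n k)) (k : Fin 3)
    {s : κ0 → M → ℝ} (hs : Crest.Agent.R249.Tv57.SmV (n := 4) s) (z : M)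
    (v : TangentSpace (𝓡 4) z) : dsv T z v (ryf τ S k s) =
      dYm τ S T k z v *ᵥ sv s z + Ym τ S k z *ᵥ dsv T z v s := by
  funext y
  unfold dsv ryf
  rw [dr_sum T fun y' => sm_mul (sm_Ym hS hn k y y') (hs y')]
  have h1 : ∀ y', dr T z v (fun x => Ym τ S k x y y' * s y' x) =
      dYm τ S T k z v y y' * s y' z + Ym τ S k z y y' * dr T z v (s y') := by
    intro y'
    rw [dr_mul T (sm_Ym hS hn k y y') (hs y')]
    show _ = dr T z v (fun x => Ym τ S k x y y') * s y' z + _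
    ring
  simp only [h1, Finset.sum_add_distrib]
  rfl

theorem nva_ryf (hS : S.OK) (h : TG S T cc W sT w e σ ι) (nn : ∀ z, ∑ k, τ.n k z ^ 2 = 1)
    (hn : ∀ k, ContMDiff (𝓡 4) 𝓘(ℝ, ℝ) ∞ (τ.n k)) (k : Fin 3) (a : κT → M → ℝ)
    {s : κ0 → M → ℝ} (hs : Crest.Agent.R249.Tv57.SmV (n := 4) s) (z : M)
    (v : TangentSpace (𝓡 4) z) : nva S T sT a (ryf τ S k s) z v =
      Ym τ S k z *ᵥ nva S T sT a s z v + DYm τ S T k z v *ᵥ sv s z := by
  have hA := al_of hS h (n := nv τ z) z (nn z)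
  have hJ : Jm S z *ᵥ (Ym τ S k z *ᵥ sv s z) = Ym τ S k z *ᵥ (Jm S z *ᵥ sv s z) := by
    rw [mulVec_mulVec, mulVec_mulVec]
    congr 1
    exact hA.Jry _
  unfold nva DYm
  rw [dsv_ryf hS hn k hs, sv_ryf, hJ, mulVec_add, mulVec_add, mulVec_smul, add_mulVec, sub_mulVec,
    ← mulVec_mulVec, ← mulVec_mulVec]
  abel

/-- the values of `nP s'` in the direction `v`. -/
theorem nP_inner (h : TG S T cc W sT w e σ ι) (a : κT → M → ℝ) (s : κ0 → M → ℝ) (z : M)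
    (v : TangentSpace (𝓡 4) z) : (fun y => ⟪nP τ S a s y z, T.toF z v⟫) =
      P1 (Pm S z) (Rm S z) (nv τ z) *ᵥ nva S T sT a s z v := by
  funext y
  unfold nP
  rw [sum_inner]
  simp only [real_inner_smul_left, nab_inner h]
  have h1 : ∀ y', P1 (Pm S z) (Rm S z) (nv τ z) y y' =
      (1 / 2) * (S.D0.p y y' z + ∑ k, τ.n k z * S.rho k y y' z) := by
    intro y'
    rw [← RR_apply]
    rfl
  show _ = ∑ y', P1 (Pm S z) (Rm S z) (nv τ z) y y' * nva S T sT a s z v y'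
  simp only [h1]
  rfl

/-- the zero order term. -/
def RMm (τ : TD M κT) (S : SWS M κ0 κ1 κT) (T : ToF 4 M)
    (sT : κT → (z : M) → TangentSpace (𝓡 4) z) (z : M) (v : TangentSpace (𝓡 4) z) :
    Matrix κ0 κ0 ℝ :=
  (1 / 2 : ℝ) • ∑ k, (P1 (Pm S z) (Rm S z) (nv τ z) * DYm τ S T k z v * Ym τ S k z -
    (inner ℝ (fld sT τ.sh z) v : ℝ) • (Ym τ S k z * Jm S z * Ym τ S k z))

theorem nva_sum (S : SWS M κ0 κ1 κT) (T : ToF 4 M) (sT : κT → (z : M) → TangentSpace (𝓡 4) z)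
    (a : κT → M → ℝ) {s : κ0 → M → ℝ} {b : Fin 3 → κ0 → M → ℝ}
    (hb : ∀ k, Crest.Agent.R249.Tv57.SmV (n := 4) (b k))
    (hs : ∀ y z, s y z = (1 / 2) * ∑ k, b k y z) (z : M) (v : TangentSpace (𝓡 4) z) :
    nva S T sT a s z v = (1 / 2 : ℝ) • ∑ k, nva S T sT a (b k) z v := by
  have h1 : s = fun y z => (1 / 2) * ∑ k, b k y z := by
    funext y z; exact hs y z
  have h2 : sv s z = (1 / 2 : ℝ) • ∑ k, sv (b k) z := by
    funext y
    rw [h1, Pi.smul_apply, Finset.sum_apply]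
    rfl
  have h3 : dsv T z v s = (1 / 2 : ℝ) • ∑ k, dsv T z v (b k) := by
    funext y
    rw [h1, Pi.smul_apply, Finset.sum_apply]
    unfold dsv
    rw [dr_const_mul T _ (sm_sum fun k => hb k y), dr_sum T fun k => hb k y]
    rfl
  unfold nva
  rw [h2, h3, mulVec_smul, mulVec_smul, mulVec_sum, mulVec_sum]
  simp only [Finset.sum_add_distrib, ← Finset.smul_sum, smul_add]
  rw [smul_comm (inner ℝ (fld sT a z) v : ℝ)]

/-- **`nP s' = (1/2) ∑ ρ_{y^k} ∇^E b_k + (zero order)`**. -/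
theorem nP_eq (hS : S.OK) (h : TG S T cc W sT w e σ ι) (nn : ∀ z, ∑ k, τ.n k z ^ 2 = 1)
    (hn : ∀ k, ContMDiff (𝓡 4) 𝓘(ℝ, ℝ) ∞ (τ.n k)) (a : κT → M → ℝ)
    {s : κ0 → M → ℝ} (hsm : Crest.Agent.R249.Tv57.SmV (n := 4) s) (hs : τ.SecE' S s) (z : M)
    (v : TangentSpace (𝓡 4) z) : (fun y => ⟪nP τ S a s y z, T.toF z v⟫) =
      (1 / 2 : ℝ) • ∑ k, Ym τ S k z *ᵥ gE τ S T a (ryf τ S k s) z v +
        RMm τ S T sT z v *ᵥ sv s z := by
  have hA := al_of hS h (n := nv τ z) z (nn z)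
  have hb := fun k => sm_ryf hS hn k hsm
  rw [nP_inner h, nva_sum S T sT a (fun k => sm_ryf hS hn k (hb k))
    (fun y z => sum_ryf hS h nn hs.1 y z) z v, mulVec_smul, mulVec_sum]
  have h1 : ∀ k, P1 (Pm S z) (Rm S z) (nv τ z) *ᵥ
      nva S T sT a (ryf τ S k (ryf τ S k s)) z v =
      Ym τ S k z *ᵥ gE τ S T a (ryf τ S k s) z v +
        (P1 (Pm S z) (Rm S z) (nv τ z) * DYm τ S T k z v * Ym τ S k z -
    (inner ℝ (fld sT τ.sh z) v : ℝ) • (Ym τ S k z * Jm S z * Ym τ S k z)) *ᵥ sv s z := by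
    intro k
    have h2 : P1 (Pm S z) (Rm S z) (nv τ z) * Ym τ S k z = Ym τ S k z * P0f τ S z :=
      hA.P1_ry (hA.yk_perp k)
    have h3 : P0f τ S z *ᵥ nva S T sT a (ryf τ S k s) z v =
        gE τ S T a (ryf τ S k s) z v -
          (inner ℝ (fld sT τ.sh z) v : ℝ) • (Jm S z *ᵥ (Ym τ S k z *ᵥ sv s z)) := by
      rw [gE_eq h, sv_ryf]
      unfold nva
      rw [sv_ryf]
      abel
    rw [nva_ryf hS h nn hn k a (hb k), mulVec_add, mulVec_mulVec, h2, ← mulVec_mulVec, h3,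
      mulVec_sub, mulVec_smul, sub_mulVec, smul_mulVec, sv_ryf]
    simp only [mulVec_mulVec, Matrix.mul_assoc]
    abel
  simp only [h1, Finset.sum_add_distrib, smul_add]
  unfold RMm
  rw [smul_mulVec, sum_mulVec]

/-! ### the pointwise identity -/

/-- the total zero order term of the Dirac operator on `s'`. -/
def Mm (τ : TD M κT) (S : SWS M κ0 κ1 κT) (T : ToF 4 M)
    (cc : κ1 → κ0 → (z : M) → TangentSpace (𝓡 4) z)
    (sT : κT → (z : M) → TangentSpace (𝓡 4) z) (e : Fin 3 → F2 E4 M) (Z : κ1 → κ0 → M → ℝ) (z : M) :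
    Matrix κ1 κ0 ℝ := ∑ i, Cm cc e z i * RMm τ S T sT z (vf e z i) + Matrix.of fun x y => Z x y z

/-- the main term: `σ ∑_k ∑_l (y^k_l q(e_l, HI_k) + ι (y^k × n)_l q(e_l, HR_k))`. -/
def mn (τ : TD M κT) (S : SWS M κ0 κ1 κT) (W : κ0 → κ0 → (z : M) → TangentSpace (𝓡 4) z)
    (sT : κT → (z : M) → TangentSpace (𝓡 4) z) (w : Trip M) (e : Fin 3 → F2 E4 M) (ι : ℝ)
    (a : κT → M → ℝ) (s s' : κ0 → M → ℝ) (z : M) : ℝ :=
  ∑ k, ∑ l, (Al.yk (nv τ z) k l *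
      q (at2 ((w 0).1.1 : F2 E4 M) z) (at2 (e l) z) (HI τ S W sT e a s (ryf τ S k s') z) +
    ι * Al.cr (Al.yk (nv τ z) k) (nv τ z) l *
      q (at2 ((w 0).1.1 : F2 E4 M) z) (at2 (e l) z) (HR τ S W sT e a s (ryf τ S k s') z))

theorem cl_pair (hS : S.OK) (h : TG S T cc W sT w e σ ι) (ht : TE τ S T cc Z) (a : κT → M → ℝ)
    {s s' : κ0 → M → ℝ} (hsm : Crest.Agent.R249.Tv57.SmV (n := 4) s) (hs : τ.SecE S s)
    (hsm' : Crest.Agent.R249.Tv57.SmV (n := 4) s') (hs' : τ.SecE' S s') (z : M) :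
    ∑ x, clG T cc z (fun y => τ.nE S a s y z) x *
        (clG T cc z (fun y => nP τ S a s' y z) x + ∑ y, Z x y z * s' y z) =
      σ * mn τ S W sT w e ι a s s' z +
        clG T cc z (fun y => τ.nE S a s y z) ⬝ᵥ (Mm τ S T cc sT e Z z *ᵥ sv s' z) := by
  have hA := al_of hS h (n := nv τ z) z (ht.norm z)
  have hb := fun k => sm_ryf hS ht.smn k hsm'
  have hbE := fun k => secE_ryf hS h ht.norm k hs'
  have h0 : clG T cc z (fun y => nP τ S a s' y z) =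
      ∑ i, Cm cc e z i *ᵥ ((1 / 2 : ℝ) • ∑ k, Ym τ S k z *ᵥ
        gE τ S T a (ryf τ S k s') z (vf e z i) + RMm τ S T sT z (vf e z i) *ᵥ sv s' z) := by
    rw [clG_eq h]
    refine Finset.sum_congr rfl fun i _ => ?_
    congr 1
    exact nP_eq hS h ht.norm ht.smn a hsm' hs' z (vf e z i)
  have h1 : ∀ x, clG T cc z (fun y => nP τ S a s' y z) x + ∑ y, Z x y z * s' y z =
      ((1 / 2 : ℝ) • ∑ k, ∑ i, Cm cc e z i *ᵥ (Ym τ S k z *ᵥ
        gE τ S T a (ryf τ S k s') z (vf e z i)) + Mm τ S T cc sT e Z z *ᵥ sv s' z) x := by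
    intro x
    have h2 : (∑ y, Z x y z * s' y z) = ((Matrix.of fun x y => Z x y z) *ᵥ sv s' z) x := rfl
    rw [h0, h2, ← Pi.add_apply]
    congr 1
    unfold Mm
    simp only [mulVec_add, mulVec_smul, mulVec_sum, Finset.sum_add_distrib, add_mulVec,
      sum_mulVec, mulVec_mulVec]
    rw [← Finset.smul_sum, Finset.sum_comm, add_assoc]
  simp only [h1]
  have h3 : clG T cc z (fun y => τ.nE S a s y z) =
      ∑ i, Cm cc e z i *ᵥ gE τ S T a s z (vf e z i) := clG_eq h z _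
  show clG T cc z (fun y => τ.nE S a s y z) ⬝ᵥ _ = _
  rw [dotProduct_add]
  congr 1
  rw [dotProduct_smul, dotProduct_sum, h3]
  have h4 := fun k => hA.clif_ry (Cm_mul h z) (G := fun i => gE τ S T a s z (vf e z i))
    (K := fun i => gE τ S T a (ryf τ S k s') z (vf e z i))
    (fun i => inE_gE hS h ht.norm a hs z _)
    (fun i => inE_gE hS h ht.norm a (hbE k) z _) (hA.yk_perp k)
  have h5 : ∀ k, (∑ i, Cm cc e z i *ᵥ gE τ S T a s z (vf e z i)) ⬝ᵥ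
      (∑ i, Cm cc e z i *ᵥ (Ym τ S k z *ᵥ gE τ S T a (ryf τ S k s') z (vf e z i))) =
      2 * σ * ∑ l, (Al.yk (nv τ z) k l *
      q (at2 ((w 0).1.1 : F2 E4 M) z) (at2 (e l) z) (HI τ S W sT e a s (ryf τ S k s') z) +
    ι * Al.cr (Al.yk (nv τ z) k) (nv τ z) l *
      q (at2 ((w 0).1.1 : F2 E4 M) z) (at2 (e l) z) (HR τ S W sT e a s (ryf τ S k s') z)) := by
    intro k
    refine (h4 k).trans ?_
    rw [mul_comm 2 σ, mul_assoc, Finset.mul_sum (a := (2 : ℝ))]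
    congr 1
    refine Finset.sum_congr rfl fun l _ => ?_
    have e1 := sum_HI hS h ht.norm a hsm hs (hb k) (hbE k) z l
    have e2 := sum_HR hS h ht.norm a hsm hs (hb k) (hbE k) z l
    have e3 : ∑ i, ∑ j, ek e z l i j * (Al.yk (nv τ z) k l *
        (gE τ S T a s z (vf e z i) ⬝ᵥ (Jm S z *ᵥ gE τ S T a (ryf τ S k s') z (vf e z j))) +
        ι * Al.cr (Al.yk (nv τ z) k) (nv τ z) l *
          (gE τ S T a s z (vf e z i) ⬝ᵥ gE τ S T a (ryf τ S k s') z (vf e z j))) =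
        Al.yk (nv τ z) k l * ∑ i, ∑ j, ek e z l i j *
          (gE τ S T a s z (vf e z i) ⬝ᵥ (Jm S z *ᵥ gE τ S T a (ryf τ S k s') z (vf e z j))) +
        ι * Al.cr (Al.yk (nv τ z) k) (nv τ z) l * ∑ i, ∑ j, ek e z l i j *
          (gE τ S T a s z (vf e z i) ⬝ᵥ gE τ S T a (ryf τ S k s') z (vf e z j)) := by
      simp only [Finset.mul_sum, ← Finset.sum_add_distrib]
      exact Finset.sum_congr rfl fun i _ => Finset.sum_congr rfl fun j _ => by ring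
    rw [e3, e1, e2]
    ring
  simp only [h5]
  unfold mn
  rw [smul_eq_mul, ← Finset.mul_sum]
  ring

end k

end

end Crest.Agent.R235.Tau483
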