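import Crest.Agent.R235.TauK_483

/-!
Row 235 (S0364), SW-TAU (helper483), part N: the integral identity behind `T2`.
-/

set_option autoImplicit false
set_option maxSynthPendingDepth 3
set_option linter.unusedSectionVars false

open scoped ContDiff ENNReal NNReal Topology Manifold Bundle RealInnerProductSpace
open MeasureTheory Set Filter Metric Bundle Matrix

universe v

namespace Crest.Agent.R235.Tau483

open Crest.Agent.R240 Crest.Agent.R240.Ch Crest.Agent.R240.Int Crest.Agent.R235.SWDefs_53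
open Crest.Agent.R235.IndTri_451
open Crest.Agent.R249.Tv57 (Dat OpPair SmF Spec)
open Crest.Agent.R247.Ms322 (Gr)
open Crest.Agent.R249.Vf281 (VSm mCov)
open Crest.Agent.R247.Bo84 (mgrad inner_mgrad)
open Crest.Agent.R249.Tz805 (ToF)

noncomputable section

variable {M : Type v} [MetricSpace M] [CompactSpace M] [ConnectedSpace M]
  [ChartedSpace (EuclideanSpace ℝ (Fin 4)) M] [IsManifold (𝓡 4) ∞ M]
  [RiemannianBundle (fun p : M => TangentSpace (𝓡 4) p)]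
  [IsContMDiffRiemannianBundle (𝓡 4) ∞ (EuclideanSpace ℝ (Fin 4))
    (fun p : M => TangentSpace (𝓡 4) p)]
  [IsRiemannianManifold (𝓡 4) M] [MeasurableSpace M] [BorelSpace M]
  [SecondCountableTopology M] [Nonempty M]
  {κ0 κ1 κT : Type} [Fintype κ0] [Fintype κ1] [Fintype κT]

/-- coefficient of `w_j` in `rr y^k`. -/
def fc (τ : TD M κT) (A : Fin 3 → Fin 3 → M → ℝ) (k j : Fin 3) (z : M) : ℝ :=
  ∑ l, τ.rr z * Al.yk (nv τ z) k l * A l j z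

/-- coefficient of `w_j` in `rr y^k × n`. -/
def gc (τ : TD M κT) (A : Fin 3 → Fin 3 → M → ℝ) (k j : Fin 3) (z : M) : ℝ :=
  ∑ l, τ.rr z * Al.cr (Al.yk (nv τ z) k) (nv τ z) l * A l j z

section n

variable [IsFiniteMeasureOnCompacts (μHE[4] : Measure M)]
  {τ : TD M κT} {S : SWS M κ0 κ1 κT} {T : ToF 4 M}
    {cc : κ1 → κ0 → (z : M) → TangentSpace (𝓡 4) z}
    {W : κ0 → κ0 → (z : M) → TangentSpace (𝓡 4) z}
    {sT : κT → (z : M) → TangentSpace (𝓡 4) z} {w : Trip M} {e : Fin 3 → F2 E4 M}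
    {σ ι : ℝ} {Z : κ1 → κ0 → M → ℝ} {A : Fin 3 → Fin 3 → M → ℝ}

theorem sm_yk (hn : ∀ k, ContMDiff (𝓡 4) 𝓘(ℝ, ℝ) ∞ (τ.n k)) (k l : Fin 3) :
    ContMDiff (𝓡 4) 𝓘(ℝ, ℝ) ∞ fun z => Al.yk (nv τ z) k l :=
  sm_sub (sm_const _) (sm_mul (hn k) (hn l))

theorem sm_fc (hr : ContMDiff (𝓡 4) 𝓘(ℝ, ℝ) ∞ τ.rr)
    (hn : ∀ k, ContMDiff (𝓡 4) 𝓘(ℝ, ℝ) ∞ (τ.n k))
    (hA : ∀ i j, ContMDiff (𝓡 4) 𝓘(ℝ, ℝ) ∞ (A i j)) (k j : Fin 3) :
    ContMDiff (𝓡 4) 𝓘(ℝ, ℝ) ∞ (fc τ A k j) :=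
  sm_sum fun l => sm_mul (sm_mul hr (sm_yk hn k l)) (hA l j)

theorem sm_gc (hr : ContMDiff (𝓡 4) 𝓘(ℝ, ℝ) ∞ τ.rr)
    (hn : ∀ k, ContMDiff (𝓡 4) 𝓘(ℝ, ℝ) ∞ (τ.n k))
    (hA : ∀ i j, ContMDiff (𝓡 4) 𝓘(ℝ, ℝ) ∞ (A i j)) (k j : Fin 3) :
    ContMDiff (𝓡 4) 𝓘(ℝ, ℝ) ∞ (gc τ A k j) :=
  sm_sum fun l => sm_mul (sm_mul hr (sm_sub (sm_mul (sm_yk hn k (l + 1)) (hn (l + 2)))
    (sm_mul (sm_yk hn k (l + 2)) (hn (l + 1))))) (hA l j)

theorem smF_nE (hS : S.OK) (ht : TE τ S T cc Z) {a : κT → M → ℝ} {s : κ0 → M → ℝ}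
    (ha : Crest.Agent.R249.Tv57.SmV (n := 4) a) (hs : Crest.Agent.R249.Tv57.SmV (n := 4) s)
    (y : κ0) : SmF (τ.nE S a s y) := by
  have h1 : ∀ (c : κT → M → ℝ), Crest.Agent.R249.Tv57.SmV (n := 4) c →
      SmF fun z => ∑ A, c A z • S.s A z := fun c hc =>
    Crest.Agent.R249.Tv57.SmF.sum _ fun A _ => Crest.Agent.R249.Tv57.SmF.smul (hc A) (hS.sms A)
  have h2 : ∀ y, SmF (S.nab a s y) := fun y =>
    ((Crest.Agent.R249.Tv57.smF_Gr (hs y)).add (Crest.Agent.R249.Tv57.SmF.sum _ fun b _ =>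
      Crest.Agent.R249.Tv57.SmF.smul (hs b) (S.D0.smX y b))).add
      (Crest.Agent.R249.Tv57.SmF.smul (sm_sum fun y' => sm_mul (hS.smJ y y') (hs y')) (h1 a ha))
  have h3 : ∀ y', ContMDiff (𝓡 4) 𝓘(ℝ, ℝ) ∞ fun z =>
      (1 / 2) * (S.D0.p y y' z - ∑ k, τ.n k z * S.rho k y y' z) := fun y' =>
    sm_mul (sm_const _) (sm_sub (S.D0.smp y y') (sm_sum fun k => sm_mul (ht.smn k)
      (hS.smrho k y y')))
  exact (Crest.Agent.R249.Tv57.SmF.sum _ fun y' _ =>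
    Crest.Agent.R249.Tv57.SmF.smul (h3 y') (h2 y')).add
    (Crest.Agent.R249.Tv57.SmF.smul (sm_sum fun y' => sm_mul (hS.smJ y y') (hs y'))
      (h1 _ ht.smsh))

theorem cont_nEsq (hS : S.OK) (ht : TE τ S T cc Z) {a : κT → M → ℝ} {s : κ0 → M → ℝ}
    (ha : Crest.Agent.R249.Tv57.SmV (n := 4) a) (hs : Crest.Agent.R249.Tv57.SmV (n := 4) s) :
    Continuous fun z => ∑ y, ‖τ.nE S a s y z‖ ^ 2 := by
  refine continuous_finsetSum _ fun y _ => ?_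
  have h1 := ((smF_nE hS ht ha hs y).inner (smF_nE hS ht ha hs y)).continuous
  simpa only [real_inner_self_eq_norm_sq] using h1

/-! #### the terms -/

/-- `f q(HI, w_j)`. -/
def uI (τ : TD M κT) (S : SWS M κ0 κ1 κT)
    (W : κ0 → κ0 → (z : M) → TangentSpace (𝓡 4) z)
    (sT : κT → (z : M) → TangentSpace (𝓡 4) z) (w : Trip M) (e : Fin 3 → F2 E4 M)
    (A : Fin 3 → Fin 3 → M → ℝ) (a : κT → M → ℝ) (s s' : κ0 → M → ℝ) (k j : Fin 3) (z : M) : ℝ :=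
  fc τ A k j z * q (at2 ((w 0).1.1 : F2 E4 M) z) (HI τ S W sT e a s (ryf τ S k s') z)
    (at2 ((w j).1.1 : F2 E4 M) z)

/-- `g q(HR, w_j)`. -/
def uR (τ : TD M κT) (S : SWS M κ0 κ1 κT)
    (W : κ0 → κ0 → (z : M) → TangentSpace (𝓡 4) z)
    (sT : κT → (z : M) → TangentSpace (𝓡 4) z) (w : Trip M) (e : Fin 3 → F2 E4 M)
    (A : Fin 3 → Fin 3 → M → ℝ) (a : κT → M → ℝ) (s s' : κ0 → M → ℝ) (k j : Fin 3) (z : M) : ℝ :=
  gc τ A k j z * q (at2 ((w 0).1.1 : F2 E4 M) z) (HR τ S W sT e a s (ryf τ S k s') z)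
    (at2 ((w j).1.1 : F2 E4 M) z)

/-- `- f Re q(Φ, w_j)`. -/
def rI (τ : TD M κT) (S : SWS M κ0 κ1 κT)
    (W : κ0 → κ0 → (z : M) → TangentSpace (𝓡 4) z)
    (sT : κT → (z : M) → TangentSpace (𝓡 4) z) (w : Trip M) (e : Fin 3 → F2 E4 M) (cE : Z2 M)
    (A : Fin 3 → Fin 3 → M → ℝ) (a : κT → M → ℝ) (s s' : κ0 → M → ℝ) (k j : Fin 3) (z : M) : ℝ :=
  -(fc τ A k j z * (hp (hatf S s z) (hatf S (ryf τ S k s') z)).re *
      q (at2 ((w 0).1.1 : F2 E4 M) z) (Phi cE (tF τ S W sT e a) z) (at2 ((w j).1.1 : F2 E4 M) z))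

/-- `g Im q(Φ, w_j)`. -/
def rR (τ : TD M κT) (S : SWS M κ0 κ1 κT)
    (W : κ0 → κ0 → (z : M) → TangentSpace (𝓡 4) z)
    (sT : κT → (z : M) → TangentSpace (𝓡 4) z) (w : Trip M) (e : Fin 3 → F2 E4 M) (cE : Z2 M)
    (A : Fin 3 → Fin 3 → M → ℝ) (a : κT → M → ℝ) (s s' : κ0 → M → ℝ) (k j : Fin 3) (z : M) : ℝ :=
  gc τ A k j z * (hp (hatf S s z) (hatf S (ryf τ S k s') z)).im *
      q (at2 ((w 0).1.1 : F2 E4 M) z) (Phi cE (tF τ S W sT e a) z) (at2 ((w j).1.1 : F2 E4 M) z)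

/-- error terms. -/
def eI (τ : TD M κT) (S : SWS M κ0 κ1 κT)
    (W : κ0 → κ0 → (z : M) → TangentSpace (𝓡 4) z)
    (sT : κT → (z : M) → TangentSpace (𝓡 4) z) (w : Trip M) (e : Fin 3 → F2 E4 M)
    (A : Fin 3 → Fin 3 → M → ℝ) (a : κT → M → ℝ) (s s' : κ0 → M → ℝ) (k j : Fin 3) (z : M) : ℝ :=
  qG ((w 0).1.1 : F2 E4 M) (wedG (dF (fc τ A k j))
      (lim (tF τ S W sT e a) (hatf S s) (hatf S (ryf τ S k s')))) ((w j).1.1 : F2 E4 M) z

/-- error terms. -/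
def eR (τ : TD M κT) (S : SWS M κ0 κ1 κT)
    (W : κ0 → κ0 → (z : M) → TangentSpace (𝓡 4) z)
    (sT : κT → (z : M) → TangentSpace (𝓡 4) z) (w : Trip M) (e : Fin 3 → F2 E4 M)
    (A : Fin 3 → Fin 3 → M → ℝ) (a : κT → M → ℝ) (s s' : κ0 → M → ℝ) (k j : Fin 3) (z : M) : ℝ :=
  qG ((w 0).1.1 : F2 E4 M) (wedG (dF (gc τ A k j))
      (lre (tF τ S W sT e a) (hatf S s) (hatf S (ryf τ S k s')))) ((w j).1.1 : F2 E4 M) z

/-- error terms. -/
def eM (τ : TD M κT) (S : SWS M κ0 κ1 κT) (T : ToF 4 M)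
    (cc : κ1 → κ0 → (z : M) → TangentSpace (𝓡 4) z)
    (sT : κT → (z : M) → TangentSpace (𝓡 4) z) (e : Fin 3 → F2 E4 M) (Z : κ1 → κ0 → M → ℝ)
    (a : κT → M → ℝ) (s s' : κ0 → M → ℝ) (z : M) : ℝ :=
  τ.rr z * (clG T cc z (fun y => τ.nE S a s y z) ⬝ᵥ (Mm τ S T cc sT e Z z *ᵥ sv s' z))

/-- the product of the Dirac operators. -/
def pD (τ : TD M κT) (S : SWS M κ0 κ1 κT) (a : κT → M → ℝ) (s s' : κ0 → M → ℝ) (z : M) : ℝ :=
  τ.rr z ^ (-(1 / 2) : ℝ) *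
        (∑ x, (S.P.A (τ.sc (3 / 4) s) + S.cm a (τ.sc (3 / 4) s)) x z *
          (S.P.A (τ.sc (3 / 4) s') + S.cm a (τ.sc (3 / 4) s')) x z)

theorem q_eA {F : F2 E4 M} (hAe : ∀ i x, at2 (e i) x = ∑ j, A i j x • at2 ((w j).1.1 : F2 E4 M) x)
    (z : M) (l : Fin 3) (β : Bil) : q (at2 F z) (at2 (e l) z) β =
      ∑ j, A l j z * q (at2 F z) β (at2 ((w j).1.1 : F2 E4 M) z) := by
  rw [hAe l z, q_sum_left]
  exact Finset.sum_congr rfl fun j _ => by rw [q_smul_left, q_comm]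

theorem sum_fc {c : Fin 3 → Fin 3 → ℝ} {Q : Fin 3 → ℝ} (B : Fin 3 → Fin 3 → ℝ) (r : ℝ)
    (k : Fin 3) : ∑ l, r * c k l * ∑ j, B l j * Q j = ∑ j, (∑ l, r * c k l * B l j) * Q j := by
  simp only [Finset.mul_sum, Finset.sum_mul]
  rw [Finset.sum_comm]
  exact Finset.sum_congr rfl fun j _ => Finset.sum_congr rfl fun l _ => by ring

theorem mn_eq (hAe : ∀ i x, at2 (e i) x = ∑ j, A i j x • at2 ((w j).1.1 : F2 E4 M) x)
    (a : κT → M → ℝ) (s s' : κ0 → M → ℝ) (z : M) :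
    τ.rr z * mn τ S W sT w e ι a s s' z =
      ∑ k, ∑ j, (uI τ S W sT w e A a s s' k j z + ι * uR τ S W sT w e A a s s' k j z) := by
  unfold mn
  rw [Finset.mul_sum]
  refine Finset.sum_congr rfl fun k _ => ?_
  have h1 := sum_fc (c := fun k l => Al.yk (nv τ z) k l)
    (Q := fun j => q (at2 ((w 0).1.1 : F2 E4 M) z) (HI τ S W sT e a s (ryf τ S k s') z)
      (at2 ((w j).1.1 : F2 E4 M) z)) (fun l j => A l j z) (τ.rr z) k
  have h2 := sum_fc (c := fun k l => Al.cr (Al.yk (nv τ z) k) (nv τ z) l)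
    (Q := fun j => q (at2 ((w 0).1.1 : F2 E4 M) z) (HR τ S W sT e a s (ryf τ S k s') z)
      (at2 ((w j).1.1 : F2 E4 M) z)) (fun l j => A l j z) (τ.rr z) k
  have h3 : ∑ j, (uI τ S W sT w e A a s s' k j z + ι * uR τ S W sT w e A a s s' k j z) =
      (∑ j, (∑ l, τ.rr z * Al.yk (nv τ z) k l * A l j z) *
        q (at2 ((w 0).1.1 : F2 E4 M) z) (HI τ S W sT e a s (ryf τ S k s') z)
      (at2 ((w j).1.1 : F2 E4 M) z)) + ι * (∑ j,
        (∑ l, τ.rr z * Al.cr (Al.yk (nv τ z) k) (nv τ z) l * A l j z) *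
        q (at2 ((w 0).1.1 : F2 E4 M) z) (HR τ S W sT e a s (ryf τ S k s') z)
      (at2 ((w j).1.1 : F2 E4 M) z)) := by
    rw [Finset.mul_sum, ← Finset.sum_add_distrib]
    rfl
  rw [h3, ← h1, ← h2, Finset.mul_sum, Finset.mul_sum, ← Finset.sum_add_distrib]
  refine Finset.sum_congr rfl fun l _ => ?_
  rw [q_eA hAe, q_eA hAe]
  ring

theorem pD_eq (hS : S.OK) (h : TG S T cc W sT w e σ ι) (ht : TE τ S T cc Z)
    (hAe : ∀ i x, at2 (e i) x = ∑ j, A i j x • at2 ((w j).1.1 : F2 E4 M) x) {a : κT → M → ℝ}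
    (ha : Crest.Agent.R249.Tv57.SmV (n := 4) a)
    (hsa : S.DT.Sec a) {s s' : κ0 → M → ℝ} (hsm : Crest.Agent.R249.Tv57.SmV (n := 4) s)
    (hs : τ.SecE S s) (hsm' : Crest.Agent.R249.Tv57.SmV (n := 4) s') (hs' : τ.SecE' S s')
    (z : M) : pD τ S a s s' z =
      σ * ∑ k, ∑ j, (uI τ S W sT w e A a s s' k j z + ι * uR τ S W sT w e A a s s' k j z) +
        eM τ S T cc sT e Z a s s' z := by
  have h1 : ∑ x, (S.P.A (τ.sc (3 / 4) s) + S.cm a (τ.sc (3 / 4) s)) x z *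
        (S.P.A (τ.sc (3 / 4) s') + S.cm a (τ.sc (3 / 4) s')) x z =
      (τ.rr z ^ (3 / 4 : ℝ) * τ.rr z ^ (3 / 4 : ℝ)) *
        ∑ x, clG T cc z (fun y => τ.nE S a s y z) x *
          (clG T cc z (fun y => nP τ S a s' y z) x + ∑ y, Z x y z * s' y z) := by
    rw [Finset.mul_sum]
    refine Finset.sum_congr rfl fun x _ => ?_
    rw [ht.dir a s ha hsa hsm hs x z, ht.dir' a s' ha hsa hsm' hs' x z]
    unfold clG
    ring
  unfold pD
  rw [h1, ← mul_assoc, rr_pow (ht.pos z), cl_pair hS h ht a hsm hs hsm' hs' z, mul_add,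
    ← mn_eq hAe]
  unfold eM
  ring

/-- `⟨s, ρ_l s'⟩`. -/
theorem rho_pair (hS : S.OK) (h : TG S T cc W sT w e σ ι) (nn : ∀ z, ∑ k, τ.n k z ^ 2 = 1)
    {s s' : κ0 → M → ℝ} (hs : τ.SecE S s) (hs' : τ.SecE' S s') (l : Fin 3) (z : M) :
    ∑ y, ∑ y', S.rho l y y' z * s y z * s' y' z =
        (1 / 2) * ∑ k, (Al.yk (nv τ z) k l * (hp (hatf S s z) (hatf S (ryf τ S k s') z)).re -
          ι * Al.cr (Al.yk (nv τ z) k) (nv τ z) l *
            (hp (hatf S s z) (hatf S (ryf τ S k s') z)).im) := by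
  have hal := al_of hS h (n := nv τ z) z (nn z)
  have hbE := fun k => secE_ryf hS h nn k hs'
  have g2 : ∀ k, (hp (hatf S s z) (hatf S (ryf τ S k s') z)).re =
      sv s z ⬝ᵥ sv (ryf τ S k s') z := by
    intro k
    rw [hp_hatf hS h nn (hbE k)]
    simp
  have g3 : ∀ k, (hp (hatf S s z) (hatf S (ryf τ S k s') z)).im =
      sv s z ⬝ᵥ (Jm S z *ᵥ sv (ryf τ S k s') z) := by
    intro k
    rw [hp_hatf hS h nn (hbE k)]
    simp
  have e0 : ∑ y, ∑ y', S.rho l y y' z * s y z * s' y' z =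
      sv s z ⬝ᵥ (Rm S z l *ᵥ sv s' z) := by
    unfold dotProduct mulVec dotProduct
    refine Finset.sum_congr rfl fun y _ => ?_
    rw [Finset.mul_sum]
    exact Finset.sum_congr rfl fun y' _ => by
      show S.rho l y y' z * s y z * s' y' z = s y z * (S.rho l y y' z * s' y' z)
      ring
  have e1 : sv s' z = (1 / 2 : ℝ) • ∑ k, RR (Rm S z) (Al.yk (nv τ z) k) *ᵥ
      sv (ryf τ S k s') z := by
    funext y
    rw [Pi.smul_apply, Finset.sum_apply]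
    exact sum_ryf hS h nn hs'.1 y z
  rw [e0]
  conv_lhs => rw [e1]
  rw [mulVec_smul, mulVec_sum, dotProduct_smul, dotProduct_sum, smul_eq_mul]
  congr 1
  refine Finset.sum_congr rfl fun k _ => ?_
  rw [g2, g3]
  exact hal.dot_rry (inE_of hs z) (inE_of (hbE k) z) l _

theorem rho_eq (hS : S.OK) (h : TG S T cc W sT w e σ ι) (ht : TE τ S T cc Z)
    {cE : Z2 M} (hc : TC τ S W sT w e σ cE)
    (hAe : ∀ i x, at2 (e i) x = ∑ j, A i j x • at2 ((w j).1.1 : F2 E4 M) x) {a : κT → M → ℝ}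
    (ha : Crest.Agent.R249.Tv57.SmV (n := 4) a)
    (hsa : S.DT.Sec a) {s s' : κ0 → M → ℝ}
    (hs : τ.SecE S s) (hs' : τ.SecE' S s') (z : M) :
    τ.rr z * ∑ k, (S.H.B a k.succ z + τ.fE k z) *
      ∑ y, ∑ y', S.rho k y y' z * s y z * s' y' z =
      σ * ∑ k, ∑ j, (rI τ S W sT w e cE A a s s' k j z + ι * rR τ S W sT w e cE A a s s' k j z) := by
  set R : Fin 3 → ℝ := fun k => (hp (hatf S s z) (hatf S (ryf τ S k s') z)).re with hR
  set I : Fin 3 → ℝ := fun k => (hp (hatf S s z) (hatf S (ryf τ S k s') z)).im with hI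
  set Q : Fin 3 → ℝ := fun j => q (at2 ((w 0).1.1 : F2 E4 M) z) (Phi cE (tF τ S W sT e a) z)
    (at2 ((w j).1.1 : F2 E4 M) z) with hQ
  have h0 : ∀ l, (S.H.B a l.succ z + τ.fE l z) * ∑ y, ∑ y', S.rho l y y' z * s y z * s' y' z =
      σ * ∑ k, (-(Al.yk (nv τ z) k l * R k) + ι * Al.cr (Al.yk (nv τ z) k) (nv τ z) l * I k) *
        ∑ j, A l j z * Q j := by
    intro l
    rw [rho_pair hS h ht.norm hs hs', curv_eq hS h ht hc ha hsa, q_eA hAe, ← Finset.sum_mul]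
    have h1 : ∑ k, (-(Al.yk (nv τ z) k l * R k) +
        ι * Al.cr (Al.yk (nv τ z) k) (nv τ z) l * I k) =
        - ∑ k, (Al.yk (nv τ z) k l * R k - ι * Al.cr (Al.yk (nv τ z) k) (nv τ z) l * I k) := by
      rw [← Finset.sum_neg_distrib]
      exact Finset.sum_congr rfl fun k _ => by ring
    rw [h1]
    ring
  simp only [h0]
  rw [← Finset.mul_sum, ← mul_assoc, mul_comm (τ.rr z) σ, mul_assoc]
  congr 1
  rw [Finset.sum_comm, Finset.mul_sum]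
  refine Finset.sum_congr rfl fun k _ => ?_
  have h2 := sum_fc (c := fun k l => -(Al.yk (nv τ z) k l * R k) +
      ι * Al.cr (Al.yk (nv τ z) k) (nv τ z) l * I k) (Q := Q) (fun l j => A l j z) (τ.rr z) k
  rw [Finset.mul_sum]
  refine Eq.trans (Finset.sum_congr rfl fun l _ => (mul_assoc _ _ _).symm) (h2.trans ?_)
  refine Finset.sum_congr rfl fun j _ => ?_
  have h3 : ∑ l, τ.rr z * (-(Al.yk (nv τ z) k l * R k) +
      ι * Al.cr (Al.yk (nv τ z) k) (nv τ z) l * I k) * A l j z =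
      -(fc τ A k j z * R k) + ι * (gc τ A k j z * I k) := by
    unfold fc gc
    rw [Finset.sum_mul, Finset.sum_mul, Finset.mul_sum, ← Finset.sum_neg_distrib,
      ← Finset.sum_add_distrib]
    exact Finset.sum_congr rfl fun l _ => by ring
  rw [h3]
  unfold rI rR
  simp only [hR, hI, hQ]
  ring

end n

end

end Crest.Agent.R235.Tau483
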