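import Crest.Agent.R235.TauH_483
import Crest.Agent.R235.SWModel_53
import Crest.Agent.R235.SWJDefs_53

/-!
Row 235 (S0364), package SW, model (helper692): `TD.OK` from the geometric facts and the second identity.

* `T2P τ S C`  : the second identity with the constant `C`;
* `ok_of`      : `S.OK`, `TG`, `TE`, `TC`, `WT`, harmonicity of `w_t`, `T2P` give `τ.OK S C`.
-/

set_option autoImplicit false
set_option maxSynthPendingDepth 3
set_option linter.unusedSectionVars false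

open scoped ContDiff ENNReal NNReal Topology Manifold Bundle RealInnerProductSpace
open MeasureTheory Set Filter Metric Bundle Matrix

universe v

namespace Crest.Agent.R235.TauOK_692

open Crest.Agent.R240 Crest.Agent.R240.Ch Crest.Agent.R240.Int Crest.Agent.R235.SWDefs_53
open Crest.Agent.R235.IndTri_451 Crest.Agent.R235.Tau483
open Crest.Agent.R249.Tv57 (Dat OpPair SmF Spec)
open Crest.Agent.R247.Ms322 (Gr)
open Crest.Agent.R249.Tz805 (ToF)

noncomputable section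

variable {M : Type v} [MetricSpace M] [CompactSpace M] [ConnectedSpace M]
  [ChartedSpace (EuclideanSpace ℝ (Fin 4)) M] [IsManifold (𝓡 4) ∞ M]
  [RiemannianBundle (fun p : M => TangentSpace (𝓡 4) p)]
  [IsContMDiffRiemannianBundle (𝓡 4) ∞ (EuclideanSpace ℝ (Fin 4))
    (fun p : M => TangentSpace (𝓡 4) p)]
  [IsRiemannianManifold (𝓡 4) M] [MeasurableSpace M] [BorelSpace M]
  [SecondCountableTopology M] [Nonempty M]
  {κ0 κ1 κT : Type} [Fintype κ0] [Fintype κ1] [Fintype κT]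

/-- the second identity of `TD.OK`. -/
def T2P (τ : TD M κT) (S : SWS M κ0 κ1 κT) (C : ℝ) : Prop :=
  ∀ (a : κT → M → ℝ) (s s' : κ0 → M → ℝ), Crest.Agent.R249.Tv57.SmV (n := 4) a → S.DT.Sec a →
    Crest.Agent.R249.Tv57.SmV (n := 4) s →
    Crest.Agent.R249.Tv57.SmV (n := 4) s' → τ.SecE S s → τ.SecE' S s' →
    |∫ z, (τ.rr z ^ (-(1 / 2) : ℝ) *
        (∑ x, (S.P.A (τ.sc (3 / 4) s) + S.cm a (τ.sc (3 / 4) s)) x z *
          (S.P.A (τ.sc (3 / 4) s') + S.cm a (τ.sc (3 / 4) s')) x z) -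
        τ.rr z * ∑ k, (S.H.B a k.succ z + τ.fE k z) * ∑ y, ∑ y', S.rho k y y' z * s y z * s' y' z)
      ∂(μHE[4] : Measure M)| ≤
    C * ∫ z, √(∑ y, ‖τ.nE S a s y z‖ ^ 2) * √(∑ y, s' y z ^ 2) ∂(μHE[4] : Measure M)

theorem T2P.mono {τ : TD M κT} {S : SWS M κ0 κ1 κT} {C C' : ℝ} (h : T2P τ S C) (hC : C ≤ C') :
    T2P τ S C' := by
  intro a s s' ha hsa hs hs' hE hE'
  refine (h a s s' ha hsa hs hs' hE hE').trans ?_
  exact mul_le_mul_of_nonneg_right hC (integral_nonneg fun z =>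
    mul_nonneg (Real.sqrt_nonneg _) (Real.sqrt_nonneg _))

section gl

variable [IsFiniteMeasureOnCompacts (μHE[4] : Measure M)]
  {τ : TD M κT} {S : SWS M κ0 κ1 κT} {T : ToF 4 M}
    {cc : κ1 → κ0 → (z : M) → TangentSpace (𝓡 4) z}
    {W : κ0 → κ0 → (z : M) → TangentSpace (𝓡 4) z}
    {sT : κT → (z : M) → TangentSpace (𝓡 4) z} {w : Trip M} {e : Fin 3 → F2 E4 M}
    {σ ι : ℝ} {Z : κ1 → κ0 → M → ℝ}

theorem smfE (hS : S.OK) (h : TG S T cc W sT w e σ ι) (ht : TE τ S T cc Z) {cE : Z2 M}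
    (hc : TC τ S W sT w e σ cE) (k : Fin 3) : ContMDiff (𝓡 4) 𝓘(ℝ, ℝ) ∞ (τ.fE k) := by
  have h1 : SmoothF E4 (fun z => q (at2 ((w 0).1.1 : F2 E4 M) z) (at2 (e k) z)
      (Phi cE (bF τ S W sT e) z)) := by
    have h2 : (fun z => q (at2 ((w 0).1.1 : F2 E4 M) z) (at2 (e k) z)
      (Phi cE (bF τ S W sT e) z)) = qG ((w 0).1.1 : F2 E4 M) (e k) (PhiF cE (bF τ S W sT e)) := by
      funext z
      unfold qG
      rw [at2_PhiF]
    rw [h2]
    exact Crest.Agent.R240.En4.smoothF_qG (w 0).1.2 h.tri.W_ne (h.tri.smooth k)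
      (smooth_PhiF cE (smooth_bF hS h ht))
  have h3 : τ.fE k = fun z => -2 * σ * q (at2 ((w 0).1.1 : F2 E4 M) z) (at2 (e k) z)
      (Phi cE (bF τ S W sT e) z) := funext fun z => hc.fE k z
  rw [h3]
  exact sm_mul (sm_const _) ((Crest.Agent.R240.Ch.smoothF_iff _).2 h1)

/-- **`TD.OK`**. -/
theorem ok_of (hS : S.OK) (h : TG S T cc W sT w e σ ι) (ht : TE τ S T cc Z) {wt : Z2 M}
    (hwt : WT τ e wt) {cE : Z2 M} (hc : TC τ S W sT w e σ cE)
    (harm : ∀ x z, S.H.A (Fin.cons (fun _ => 0) fun k z => τ.rr z * τ.n k z) x z = 0)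
    {C : ℝ} (h2 : T2P τ S C) : τ.OK S C where
  smrr := ht.smrr
  pos := ht.pos
  smn := ht.smn
  smsh := ht.smsh
  secsh := ht.secsh
  smfE := smfE hS h ht hc
  norm := ht.norm
  rsec k y y'' z := h.prho k y y'' z
  invol y y'' z := by
    have h1 := congrFun (congrFun (al_of hS h (n := nv τ z) z (ht.norm z)).R_sq y) y''
    rw [Matrix.mul_apply] at h1
    simp only [RR_apply] at h1
    exact h1
  harm := harm
  T1 a s ha hsa hs hE := t1 hS h ht hwt hc ha hsa hs hE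
  T2 := h2

end gl

end

end Crest.Agent.R235.TauOK_692
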