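import Crest.Agent.R235.TauN_483

/-!
Row 235 (S0364), SW-TAU (helper483), part P: the integral identity behind `T2`.
-/

set_option autoImplicit false
set_option maxSynthPendingDepth 3
set_option linter.unusedSectionVars false

open scoped ContDiff ENNReal NNReal Topology Manifold Bundle RealInnerProductSpace
open MeasureTheory Set Filter Metric Bundle Matrix

universe v

namespace Crest.Agent.R235.Tau483

open Crest.Agent.R240 Crest.Agent.R240.Ch Crest.Agent.R240.Int Crest.Agent.R235.SWDefs_53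
open Crest.Agent.R235.IndTri_451
open Crest.Agent.R249.Tv57 (Dat OpPair SmF Spec)
open Crest.Agent.R247.Ms322 (Gr)
open Crest.Agent.R249.Vf281 (VSm mCov)
open Crest.Agent.R247.Bo84 (mgrad inner_mgrad)
open Crest.Agent.R249.Tz805 (ToF)

noncomputable section

variable {M : Type v} [MetricSpace M] [CompactSpace M] [ConnectedSpace M]
  [ChartedSpace (EuclideanSpace ℝ (Fin 4)) M] [IsManifold (𝓡 4) ∞ M]
  [RiemannianBundle (fun p : M => TangentSpace (𝓡 4) p)]
  [IsContMDiffRiemannianBundle (𝓡 4) ∞ (EuclideanSpace ℝ (Fin 4))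
    (fun p : M => TangentSpace (𝓡 4) p)]
  [IsRiemannianManifold (𝓡 4) M] [MeasurableSpace M] [BorelSpace M]
  [SecondCountableTopology M] [Nonempty M]
  {κ0 κ1 κT : Type} [Fintype κ0] [Fintype κ1] [Fintype κT]

variable [IsFiniteMeasureOnCompacts (μHE[4] : Measure M)]
  {τ : TD M κT} {S : SWS M κ0 κ1 κT} {T : ToF 4 M}
    {cc : κ1 → κ0 → (z : M) → TangentSpace (𝓡 4) z}
    {W : κ0 → κ0 → (z : M) → TangentSpace (𝓡 4) z}
    {sT : κT → (z : M) → TangentSpace (𝓡 4) z} {w : Trip M} {e : Fin 3 → F2 E4 M}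
    {σ ι : ℝ} {Z : κ1 → κ0 → M → ℝ} {A : Fin 3 → Fin 3 → M → ℝ}

/-- an abstract integral identity. -/
theorem int_abs {σ ι : ℝ} {u1 u2 r1 r2 e1 e2 : Fin 3 → Fin 3 → M → ℝ} {E D R : M → ℝ}
    (cu1 : ∀ k j, Continuous (u1 k j)) (cu2 : ∀ k j, Continuous (u2 k j))
    (cr1 : ∀ k j, Continuous (r1 k j)) (cr2 : ∀ k j, Continuous (r2 k j))
    (ce1 : ∀ k j, Continuous (e1 k j)) (ce2 : ∀ k j, Continuous (e2 k j)) (cD : Continuous D)
    (I1 : ∀ k j, ∫ z, u1 k j z ∂(μHE[4] : Measure M) =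
      ∫ z, r1 k j z + e1 k j z ∂(μHE[4] : Measure M))
    (I2 : ∀ k j, ∫ z, u2 k j z ∂(μHE[4] : Measure M) =
      ∫ z, r2 k j z + e2 k j z ∂(μHE[4] : Measure M))
    (hD : ∀ z, D z = σ * ∑ k, ∑ j, (u1 k j z + ι * u2 k j z) + E z)
    (hR : ∀ z, R z = σ * ∑ k, ∑ j, (r1 k j z + ι * r2 k j z)) :
    ∫ z, (D z - R z) ∂(μHE[4] : Measure M) =
      ∫ z, (E z + σ * ∑ k, ∑ j, (e1 k j z + ι * e2 k j z)) ∂(μHE[4] : Measure M) := by
  have key : ∀ z, D z - R z = (E z + σ * ∑ k, ∑ j, (e1 k j z + ι * e2 k j z)) +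
      σ * ∑ k, ∑ j, ((u1 k j z - (r1 k j z + e1 k j z)) +
        ι * (u2 k j z - (r2 k j z + e2 k j z))) := by
    intro z
    rw [hD, hR]
    have : ∑ k, ∑ j, ((u1 k j z - (r1 k j z + e1 k j z)) +
        ι * (u2 k j z - (r2 k j z + e2 k j z))) = ∑ k, ∑ j, (u1 k j z + ι * u2 k j z) -
        ∑ k, ∑ j, (r1 k j z + ι * r2 k j z) - ∑ k, ∑ j, (e1 k j z + ι * e2 k j z) := by
      simp only [← Finset.sum_sub_distrib]
      exact Finset.sum_congr rfl fun k _ => Finset.sum_congr rfl fun j _ => by ring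
    rw [this]
    ring
  have cE1 : Continuous E := by
    have : E = fun z => D z - σ * ∑ k, ∑ j, (u1 k j z + ι * u2 k j z) := by
      funext z; rw [hD]; ring
    rw [this]
    exact cD.sub (continuous_const.mul (continuous_finsetSum _ fun k _ =>
      continuous_finsetSum _ fun j _ => (cu1 k j).add (continuous_const.mul (cu2 k j))))
  have cer : Continuous fun z => E z + σ * ∑ k, ∑ j, (e1 k j z + ι * e2 k j z) :=
    cE1.add (continuous_const.mul (continuous_finsetSum _ fun k _ =>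
      continuous_finsetSum _ fun j _ => (ce1 k j).add (continuous_const.mul (ce2 k j))))
  have cz : ∀ k j, Continuous fun z => (u1 k j z - (r1 k j z + e1 k j z)) +
        ι * (u2 k j z - (r2 k j z + e2 k j z)) := fun k j =>
    ((cu1 k j).sub ((cr1 k j).add (ce1 k j))).add
      (continuous_const.mul ((cu2 k j).sub ((cr2 k j).add (ce2 k j))))
  have cz' : Continuous fun z => σ * ∑ k, ∑ j, ((u1 k j z - (r1 k j z + e1 k j z)) +
        ι * (u2 k j z - (r2 k j z + e2 k j z))) :=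
    continuous_const.mul (continuous_finsetSum _ fun k _ => continuous_finsetSum _ fun j _ => cz k j)
  rw [integral_congr_ae (Filter.Eventually.of_forall key), integral_add (int_cont cer)
    (int_cont cz'), integral_const_mul, integral_finsetSum _ fun k _ =>
      int_cont (continuous_finsetSum _ fun j _ => cz k j)]
  have hz : ∀ k, ∫ z, ∑ j, ((u1 k j z - (r1 k j z + e1 k j z)) +
        ι * (u2 k j z - (r2 k j z + e2 k j z))) ∂(μHE[4] : Measure M) = 0 := by
    intro k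
    rw [integral_finsetSum _ fun j _ => int_cont (cz k j)]
    refine Finset.sum_eq_zero fun j _ => ?_
    have i1 : Integrable (fun z => r1 k j z + e1 k j z) (μHE[4] : Measure M) :=
      int_cont ((cr1 k j).add (ce1 k j))
    have i2 : Integrable (fun z => r2 k j z + e2 k j z) (μHE[4] : Measure M) :=
      int_cont ((cr2 k j).add (ce2 k j))
    have i3 : Integrable (fun z => u1 k j z - (r1 k j z + e1 k j z)) (μHE[4] : Measure M) :=
      (int_cont (cu1 k j)).sub i1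
    have i4 : Integrable (fun z => u2 k j z - (r2 k j z + e2 k j z)) (μHE[4] : Measure M) :=
      (int_cont (cu2 k j)).sub i2
    rw [integral_add i3 (i4.const_mul ι), integral_const_mul, integral_sub (int_cont (cu1 k j)) i1,
      integral_sub (int_cont (cu2 k j)) i2, I1, I2]
    ring
  simp only [hz, Finset.sum_const_zero, mul_zero, add_zero]

/-- the error density. -/
def erT (τ : TD M κT) (S : SWS M κ0 κ1 κT) (T : ToF 4 M)
    (cc : κ1 → κ0 → (z : M) → TangentSpace (𝓡 4) z)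
    (W : κ0 → κ0 → (z : M) → TangentSpace (𝓡 4) z)
    (sT : κT → (z : M) → TangentSpace (𝓡 4) z) (w : Trip M) (e : Fin 3 → F2 E4 M)
    (σ ι : ℝ) (Z : κ1 → κ0 → M → ℝ) (A : Fin 3 → Fin 3 → M → ℝ) (a : κT → M → ℝ)
    (s s' : κ0 → M → ℝ) (z : M) : ℝ :=
  eM τ S T cc sT e Z a s s' z +
    σ * ∑ k, ∑ j, (eI τ S W sT w e A a s s' k j z + ι * eR τ S W sT w e A a s s' k j z)

section ints

variable (hS : S.OK) (h : TG S T cc W sT w e σ ι) (ht : TE τ S T cc Z)
    {cE : Z2 M} (hc : TC τ S W sT w e σ cE)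
    (hA : ∀ i j, ContMDiff (𝓡 4) 𝓘(ℝ, ℝ) ∞ (A i j)) {a : κT → M → ℝ}
    (ha : Crest.Agent.R249.Tv57.SmV (n := 4) a)
    {s s' : κ0 → M → ℝ} (hsm : Crest.Agent.R249.Tv57.SmV (n := 4) s)
    (hs : τ.SecE S s) (hsm' : Crest.Agent.R249.Tv57.SmV (n := 4) s') (hs' : τ.SecE' S s')
    (k j : Fin 3)
include hS h ht hc hA ha hsm hs hsm' hs'

theorem int_uI : ∫ z, uI τ S W sT w e A a s s' k j z ∂(μHE[4] : Measure M) =
    ∫ z, rI τ S W sT w e cE A a s s' k j z + eI τ S W sT w e A a s s' k j z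
      ∂(μHE[4] : Measure M) := by
  have hln := ln_PEf (T := T) (cc := cc) hS h ht.smn ht.norm
  have hb := sm_ryf hS ht.smn k hsm'
  have hbE := secE_ryf hS h ht.norm k hs'
  have h1 := T2im (vol_w h) hln hc.ch (smooth_tF hS h ht ha) (smV_hatf hS hsm) (smV_hatf hS hb)
    (PEf_hatf hS h ht.norm hs) (PEf_hatf hS h ht.norm hbE)
    ((smoothF_iff _).1 (sm_fc ht.smrr ht.smn hA k j)) (w j).1.2 (w j).2
  rw [int_mu h, int_mu h] at h1
  exact mul_left_cancel₀ two_ne_zero h1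

theorem int_uR : ∫ z, uR τ S W sT w e A a s s' k j z ∂(μHE[4] : Measure M) =
    ∫ z, rR τ S W sT w e cE A a s s' k j z + eR τ S W sT w e A a s s' k j z
      ∂(μHE[4] : Measure M) := by
  have hln := ln_PEf (T := T) (cc := cc) hS h ht.smn ht.norm
  have hb := sm_ryf hS ht.smn k hsm'
  have hbE := secE_ryf hS h ht.norm k hs'
  have h1 := T2re (vol_w h) hln hc.ch (smooth_tF hS h ht ha) (smV_hatf hS hsm) (smV_hatf hS hb)
    (PEf_hatf hS h ht.norm hs) (PEf_hatf hS h ht.norm hbE)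
    ((smoothF_iff _).1 (sm_gc ht.smrr ht.smn hA k j)) (w j).1.2 (w j).2
  rw [int_mu h, int_mu h] at h1
  exact mul_left_cancel₀ two_ne_zero h1

theorem c_uI : Continuous (uI τ S W sT w e A a s s' k j) :=
  (sm_fc ht.smrr ht.smn hA k j).continuous.mul
    (cont_hwI (vol_w h) (ln_PEf (T := T) (cc := cc) hS h ht.smn ht.norm) hc.ch
      (smooth_tF hS h ht ha) (smV_hatf hS hsm) (smV_hatf hS (sm_ryf hS ht.smn k hsm'))
      (PEf_hatf hS h ht.norm hs) (PEf_hatf hS h ht.norm (secE_ryf hS h ht.norm k hs')) (w j).1.2)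

theorem c_uR : Continuous (uR τ S W sT w e A a s s' k j) :=
  (sm_gc ht.smrr ht.smn hA k j).continuous.mul
    (cont_hwR (vol_w h) (ln_PEf (T := T) (cc := cc) hS h ht.smn ht.norm) hc.ch
      (smooth_tF hS h ht ha) (smV_hatf hS hsm) (smV_hatf hS (sm_ryf hS ht.smn k hsm'))
      (PEf_hatf hS h ht.norm hs) (PEf_hatf hS h ht.norm (secE_ryf hS h ht.norm k hs')) (w j).1.2)

theorem c_rI : Continuous (rI τ S W sT w e cE A a s s' k j) :=
  (((sm_fc ht.smrr ht.smn hA k j).continuous.mul (SmoothF.cont (smC_hp (smV_hatf hS hsm)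
    (smV_hatf hS (sm_ryf hS ht.smn k hsm'))).re)).mul
      (cont_Phi (vol_w h) cE (smooth_tF hS h ht ha) (w j).1.2)).neg

theorem c_rR : Continuous (rR τ S W sT w e cE A a s s' k j) :=
  ((sm_gc ht.smrr ht.smn hA k j).continuous.mul (SmoothF.cont (smC_hp (smV_hatf hS hsm)
    (smV_hatf hS (sm_ryf hS ht.smn k hsm'))).im)).mul
      (cont_Phi (vol_w h) cE (smooth_tF hS h ht ha) (w j).1.2)

theorem c_eI : Continuous (eI τ S W sT w e A a s s' k j) :=
  continuous_qG (vol_w h)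
    (Smooth2.cont2 (Smooth2.wed (Smooth1.dF ((smoothF_iff _).1 (sm_fc ht.smrr ht.smn hA k j)))
      (smooth_lim (smooth_tF hS h ht ha) (smV_hatf hS hsm) (smV_hatf hS (sm_ryf hS ht.smn k hsm')))))
    (Smooth2.cont2 (w j).1.2)

theorem c_eR : Continuous (eR τ S W sT w e A a s s' k j) :=
  continuous_qG (vol_w h)
    (Smooth2.cont2 (Smooth2.wed (Smooth1.dF ((smoothF_iff _).1 (sm_gc ht.smrr ht.smn hA k j)))
      (smooth_lre (smooth_tF hS h ht ha) (smV_hatf hS hsm) (smV_hatf hS (sm_ryf hS ht.smn k hsm')))))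
    (Smooth2.cont2 (w j).1.2)

end ints

theorem c_pD (hS : S.OK) (ht : TE τ S T cc Z) {a : κT → M → ℝ}
    (ha : Crest.Agent.R249.Tv57.SmV (n := 4) a)
    {s s' : κ0 → M → ℝ} (hsm : Crest.Agent.R249.Tv57.SmV (n := 4) s)
    (hs : τ.SecE S s) (hsm' : Crest.Agent.R249.Tv57.SmV (n := 4) s') (hs' : τ.SecE' S s') :
    Continuous (pD τ S a s s') := by
  refine (sm_rpow ht.smrr ht.pos _).continuous.mul (continuous_finsetSum _ fun x _ => ?_)
  exact (sm_D hS ha (sm_sc ht _ hsm) (sec_sc _ hs.1) x).continuous.mul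
    (sm_D hS ha (sm_sc ht _ hsm') (sec_sc _ hs'.1) x).continuous

/-- **the integral identity of `T2`**. -/
theorem t2_int (hS : S.OK) (h : TG S T cc W sT w e σ ι) (ht : TE τ S T cc Z)
    {cE : Z2 M} (hc : TC τ S W sT w e σ cE) (hA : ∀ i j, ContMDiff (𝓡 4) 𝓘(ℝ, ℝ) ∞ (A i j))
    (hAe : ∀ i x, at2 (e i) x = ∑ j, A i j x • at2 ((w j).1.1 : F2 E4 M) x) {a : κT → M → ℝ}
    (ha : Crest.Agent.R249.Tv57.SmV (n := 4) a)
    (hsa : S.DT.Sec a) {s s' : κ0 → M → ℝ} (hsm : Crest.Agent.R249.Tv57.SmV (n := 4) s)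
    (hs : τ.SecE S s) (hsm' : Crest.Agent.R249.Tv57.SmV (n := 4) s') (hs' : τ.SecE' S s') :
    ∫ z, (pD τ S a s s' z -
        τ.rr z * ∑ k, (S.H.B a k.succ z + τ.fE k z) * ∑ y, ∑ y', S.rho k y y' z * s y z * s' y' z)
      ∂(μHE[4] : Measure M) =
    ∫ z, erT τ S T cc W sT w e σ ι Z A a s s' z ∂(μHE[4] : Measure M) :=
  int_abs (c_uI hS h ht hc hA ha hsm hs hsm' hs') (c_uR hS h ht hc hA ha hsm hs hsm' hs')
    (c_rI hS h ht hc hA ha hsm hs hsm' hs') (c_rR hS h ht hc hA ha hsm hs hsm' hs')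
    (c_eI hS h ht hc hA ha hsm hs hsm' hs') (c_eR hS h ht hc hA ha hsm hs hsm' hs')
    (c_pD hS ht ha hsm hs hsm' hs')
    (int_uI hS h ht hc hA ha hsm hs hsm' hs') (int_uR hS h ht hc hA ha hsm hs hsm' hs')
    (pD_eq hS h ht hAe ha hsa hsm hs hsm' hs') (rho_eq hS h ht hc hAe ha hsa hs hs')

end

end Crest.Agent.R235.Tau483
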