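import Crest.Agent.R235.TauF_483

/-!
Row 235 (S0364), SW-TAU (captain helper483), leaf STAR (helper133):
`2 q(w 0; d a, Φ) = ∑_A ⟨∇ a_A, g_A⟩` with `g_A = - T (shp (⋆Φ (s_A, ·)))`.
-/

set_option autoImplicit false
set_option maxSynthPendingDepth 3
set_option linter.unusedSectionVars false

open scoped ContDiff ENNReal NNReal Topology Manifold Bundle RealInnerProductSpace
open MeasureTheory Set Filter Metric Bundle Matrix

universe v

namespace Crest.Agent.R235.TauStar_133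

open Crest.Agent.R240 Crest.Agent.R240.Ch Crest.Agent.R235.SWDefs_53 Crest.Agent.R235.IndTri_451
open Crest.Agent.R235.Tau483
open Crest.Agent.R249.Tv57 (Dat OpPair SmF Spec)
open Crest.Agent.R247.Ms322 (Gr)
open Crest.Agent.R249.Vf281 (VSm mCov)
open Crest.Agent.R247.Bo84 (mgrad inner_mgrad)
open Crest.Agent.R249.Tz805 (ToF)

noncomputable section

/-! ### the star in `ℝ⁴` -/

section Lin

/-- the star of a two-form. -/
def stB (F : Bil) (e : Fin 3 → Bil) (Φ : Bil) : Bil := (2 : ℝ) • (∑ k, q F (e k) Φ • e k) - Φ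

theorem stB_apply (F : Bil) (e : Fin 3 → Bil) (Φ : Bil) (u v : E4) :
    stB F e Φ u v = 2 * ∑ k, q F (e k) Φ * e k u v - Φ u v := by
  unfold stB
  simp only [_root_.sub_apply, _root_.smul_apply, _root_.sum_apply, smul_eq_mul]

theorem stB_alt {F : Bil} {e : Fin 3 → Bil} {Φ : Bil} (he : ∀ k, Alt (e k)) (hΦ : Alt Φ) :
    Alt (stB F e Φ) := by
  intro v
  rw [stB_apply, hΦ v]
  simp [he _ v]

theorem q_star {g : Bil} {e : Fin 3 → Bil} {I : Fin 3 → E4 →L[ℝ] E4} {T : E4 →L[ℝ] E4}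
    (H : Fr g e I T) (he : ∀ k, Alt (e k)) {ψ Φ : Bil} (hψ : Alt ψ) (hΦ : Alt Φ) :
    ∑ i, ∑ j, ψ (T (ee i)) (T (ee j)) * stB (e 0) e Φ (T (ee i)) (T (ee j)) =
      4 * q (e 0) ψ Φ := by
  have h1 : W (pull T ψ) (pull T Φ) = 2 * q (e 0) ψ Φ := by
    rw [W_pull hψ hΦ]
    unfold q
    have h2 := H.det
    have h3 : W (e 0) (e 0) ≠ 0 := by
      intro h0
      rw [h0, zero_mul] at h2
      exact two_ne_zero h2.symm
    field_simp
    linear_combination (W ψ Φ) * h2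
  have h2 : 4 * q (e 0) ψ Φ = 2 * W (pull T ψ) (pull T Φ) := by rw [h1]; ring
  rw [h2]
  have b0 : ∀ i j, ψ (T (ee i)) (T (ee j)) = ent (pull T ψ) i j := fun i j => (pull_apply _ _ _ _).symm
  have b1 : ∀ i j, Φ (T (ee i)) (T (ee j)) = ent (pull T Φ) i j := fun i j => (pull_apply _ _ _ _).symm
  have hψ' : Alt (pull T ψ) := hψ.pull T
  have hΦ' : Alt (pull T Φ) := hΦ.pull T
  have k0 := q_frame H he 0 hΦ
  have k1 := q_frame H he 1 hΦ
  have k2 := q_frame H he 2 hΦ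
  simp only [stB_apply, b0, b1, Fin.sum_univ_three]
  simp only [b1] at k0 k1 k2
  simp only [Fin.isValue, H.e0, H.e1, H.e2, ee_apply, Fin.sum_univ_four] at k0 k1 k2 ⊢
  simp [hΦ'.ent_swap 1 0, hΦ'.ent_swap 3 2, hΦ'.ent_swap 2 0, hΦ'.ent_swap 3 1,
    hΦ'.ent_swap 3 0, hΦ'.ent_swap 2 1] at k0 k1 k2
  have e0 : q (e 0) (e 0) Φ = (1 / 2) * (ent (pull T Φ) 0 1 + ent (pull T Φ) 2 3) := by linarith
  have e1 : q (e 0) (e 1) Φ = (1 / 2) * (ent (pull T Φ) 0 2 - ent (pull T Φ) 1 3) := by linarith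
  have e2 : q (e 0) (e 2) Φ = (1 / 2) * (ent (pull T Φ) 0 3 + ent (pull T Φ) 1 2) := by linarith
  rw [e0, e1, e2]
  unfold W
  simp [hΦ'.ent_swap 1 0, hΦ'.ent_swap 3 2, hΦ'.ent_swap 2 0, hΦ'.ent_swap 3 1,
    hΦ'.ent_swap 3 0, hΦ'.ent_swap 2 1, hψ'.ent_swap 1 0, hψ'.ent_swap 3 2, hψ'.ent_swap 2 0,
    hψ'.ent_swap 3 1, hψ'.ent_swap 3 0, hψ'.ent_swap 2 1, hψ'.ent_self, hΦ'.ent_self]
  ring

end Lin

variable {M : Type v} [MetricSpace M] [CompactSpace M] [ConnectedSpace M]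
  [ChartedSpace (EuclideanSpace ℝ (Fin 4)) M] [IsManifold (𝓡 4) ∞ M]
  [RiemannianBundle (fun p : M => TangentSpace (𝓡 4) p)]
  [IsContMDiffRiemannianBundle (𝓡 4) ∞ (EuclideanSpace ℝ (Fin 4))
    (fun p : M => TangentSpace (𝓡 4) p)]
  [IsRiemannianManifold (𝓡 4) M] [MeasurableSpace M] [BorelSpace M]
  [SecondCountableTopology M] [Nonempty M]
  {κ0 κ1 κT : Type} [Fintype κ0] [Fintype κ1] [Fintype κT]

/-- the star of a two-form on the manifold. -/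
def stG (w e : Fin 3 → F2 E4 M) (Φ : F2 E4 M) : F2 E4 M :=
  (2 : ℝ) • (fmul (qG (w 0) (e 0) Φ) (e 0) + fmul (qG (w 0) (e 1) Φ) (e 1) +
    fmul (qG (w 0) (e 2) Φ) (e 2)) - Φ

theorem at2_stG (w e : Fin 3 → F2 E4 M) (Φ : F2 E4 M) (z : M) :
    at2 (stG w e Φ) z = stB (at2 (w 0) z) (fun k => at2 (e k) z) (at2 Φ z) := by
  unfold stB
  rw [Fin.sum_univ_three]
  rfl

theorem smooth_stG {w e : Fin 3 → F2 E4 M} (h : IsTri w e) {Φ : F2 E4 M} (hΦ : Smooth2 Φ) :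
    Smooth2 (stG w e Φ) := by
  have h0 : Smooth2 (w 0) := h.e_zero ▸ h.smooth 0
  have hq : ∀ k, Smooth2 (fmul (qG (w 0) (e k) Φ) (e k)) := fun k =>
    Crest.Agent.R240.En4.smooth2_fmul
      (Crest.Agent.R240.En4.smoothF_qG h0 h.W_ne (h.smooth k) hΦ) (h.smooth k)
  exact smooth2_sub ((((hq 0).add (hq 1)).add (hq 2)).smul 2) hΦ

theorem q_stG {w e : Fin 3 → F2 E4 M} (h : IsTri w e) {Φ : F2 E4 M} (hΦ : Smooth2 Φ)
    {ψ : Bil} (hψ : Alt ψ) (z : M) :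
    ∑ i, ∑ j, ψ (vf e z i) (vf e z j) * at2 (stG w e Φ) z (vf e z i) (vf e z j) =
      4 * q (at2 (w 0) z) ψ (at2 Φ z) := by
  have h1 := q_star (fr_of h z) (fun k => (h.smooth k).1 z) hψ (hΦ.1 z)
  rw [h.e_zero] at h1
  rw [at2_stG]
  exact h1

theorem smooth1_flG' {g : F2 E4 M} (hg : Smooth2 g) {X : (x : M) → TangentSpace 𝓘(ℝ, E4) x}
    (hX : ∀ z, VSm 4 ∞ X z) : Smooth1 (RiemB_399.flG g X) := by
  intro p
  have h1 : ContDiffOn ℝ ∞ (fun y => rep p g y (repV p (X : VF E4 M) y)) (chartAt E4 p).target :=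
    (hg.2 p).clm_apply ((RiemB_399.smoothV_iff X).2 hX p)
  exact h1.congr fun y hy => RiemB_399.rep1_flG g X p hy

theorem VSm_fld_133 {sT : κT → (z : M) → TangentSpace (𝓡 4) z} (hs : ∀ A z, VSm 4 ∞ (sT A) z)
    {a : κT → M → ℝ} (ha : Crest.Agent.R249.Tv57.SmV (n := 4) a) (z : M) :
    VSm 4 ∞ (fld sT a) z :=
  RiemB_399.VSm_sum fun A => VSm.smul le_rfl (ha A z) (hs A z)

section star

variable [IsFiniteMeasureOnCompacts (μHE[4] : Measure M)]
  {S : SWS M κ0 κ1 κT} {T : ToF 4 M}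
    {cc : κ1 → κ0 → (z : M) → TangentSpace (𝓡 4) z}
    {W : κ0 → κ0 → (z : M) → TangentSpace (𝓡 4) z}
    {sT : κT → (z : M) → TangentSpace (𝓡 4) z} {w : Trip M} {e : Fin 3 → F2 E4 M}
    {σ ι : ℝ}

/-- the coefficients. -/
def stg (T : ToF 4 M) (sT : κT → (z : M) → TangentSpace (𝓡 4) z) (w : Trip M)
    (e : Fin 3 → F2 E4 M) (Φ : F2 E4 M) (A : κT) (z : M) : EuclideanSpace ℝ (Fin 4) :=
  T.toF z (- RiemB_399.shp (RiemB_399.flG (stG (fun i => (w i).1.1) e Φ) (sT A)) z)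

theorem smF_stg (h : TG S T cc W sT w e σ ι) {Φ : F2 E4 M} (hΦ : Smooth2 Φ) (A : κT) :
    SmF (stg T sT w e Φ A) := by
  refine T.smooth _ fun z => ?_
  exact (RiemB_399.VSm_shp (smooth1_flG' (smooth_stG h.tri hΦ) (h.smsT A)) z).neg

/-- **STAR** -/
theorem star_g (h : TG S T cc W sT w e σ ι) {Φ : F2 E4 M} (hΦ : Smooth2 Φ) :
    ∃ g : κT → M → EuclideanSpace ℝ (Fin 4), (∀ A, SmF (g A)) ∧
      ∀ a : κT → M → ℝ, Crest.Agent.R249.Tv57.SmV (n := 4) a → S.DT.Sec a → ∀ z,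
        ∑ A, ⟪S.DT.cv a A z, g A z⟫ =
          2 * q (at2 ((w 0).1.1 : F2 E4 M) z)
            (at2 (dG (RiemB_399.flG (gg e) (fld sT a))) z) (at2 Φ z) := by
  refine ⟨stg T sT w e Φ, fun A => smF_stg h hΦ A, fun a ha hs z => ?_⟩
  have hmet : Riem_399.Met (gg e) := ⟨h.tri.g_smooth, h.tri.g_symm, h.tri.pos⟩
  have hV := VSm_fld_133 h.smsT ha z
  have hψ : Alt (at2 (dG (RiemB_399.flG (gg e) (fld sT a))) z) := fun v => d1_self _ _ _
  have h1 := q_stG h.tri hΦ hψ z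
  set Ψ : F2 E4 M := stG (fun i => (w i).1.1) e Φ with hΨ
  have hΨa : Alt (at2 Ψ z) := (smooth_stG h.tri hΦ).1 z
  have h2 : ∀ i j, at2 (dG (RiemB_399.flG (gg e) (fld sT a))) z (vf e z i) (vf e z j) =
      inner ℝ (mCov 4 (fld sT a) z (vf e z i)) (vf e z j) -
        inner ℝ (mCov 4 (fld sT a) z (vf e z j)) (vf e z i) := fun i j =>
    RiemB_399.dG_mCov h.met hmet hV _ _
  have h3 : ∑ i, ∑ j, at2 (dG (RiemB_399.flG (gg e) (fld sT a))) z (vf e z i) (vf e z j) *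
      at2 Ψ z (vf e z i) (vf e z j) =
      2 * ∑ i, ∑ j, inner ℝ (mCov 4 (fld sT a) z (vf e z i)) (vf e z j) *
        at2 Ψ z (vf e z i) (vf e z j) := by
    simp only [h2, sub_mul, Finset.sum_sub_distrib]
    have h4 : ∑ i, ∑ j, inner ℝ (mCov 4 (fld sT a) z (vf e z j)) (vf e z i) *
        at2 Ψ z (vf e z i) (vf e z j) =
        - ∑ i, ∑ j, inner ℝ (mCov 4 (fld sT a) z (vf e z i)) (vf e z j) *
          at2 Ψ z (vf e z i) (vf e z j) := by
      rw [Finset.sum_comm, ← Finset.sum_neg_distrib]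
      refine Finset.sum_congr rfl fun i _ => ?_
      rw [← Finset.sum_neg_distrib]
      refine Finset.sum_congr rfl fun j _ => ?_
      rw [hΨa.swap (vf e z j) (vf e z i)]
      ring
    rw [h4]; ring
  have h5 : 2 * q (at2 ((w 0).1.1 : F2 E4 M) z)
      (at2 (dG (RiemB_399.flG (gg e) (fld sT a))) z) (at2 Φ z) =
      ∑ i, ∑ j, inner ℝ (mCov 4 (fld sT a) z (vf e z i)) (vf e z j) *
        at2 Ψ z (vf e z i) (vf e z j) := by
    linarith
  rw [h5]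
  -- the coefficients in the frame
  have h6 : ∀ A, stg T sT w e Φ A z =
      ∑ i, (at2 Ψ z (vf e z i) (sT A z)) • T.toF z (vf e z i) := by
    intro A
    have hx := sum_vf h.tri h.met z (RiemB_399.shp (RiemB_399.flG Ψ (sT A)) z)
    have hy : stg T sT w e Φ A z = - T.toF z (RiemB_399.shp (RiemB_399.flG Ψ (sT A)) z) :=
      map_neg _ _
    rw [hy, ← hx, map_sum, ← Finset.sum_neg_distrib]
    refine Finset.sum_congr rfl fun i _ => ?_
    rw [map_smul, ← neg_smul]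
    congr 1
    rw [real_inner_comm, RiemB_399.inner_shp]
    exact (hΨa.swap _ _).symm
  have h7 : ∀ A, ⟪S.DT.cv a A z, stg T sT w e Φ A z⟫ =
      ∑ i, ∑ j, at2 Ψ z (vf e z i) (vf e z j) *
        (⟪S.DT.cv a A z, T.toF z (vf e z i)⟫ * (inner ℝ (sT A z) (vf e z j) : ℝ)) := by
    intro A
    rw [h6, inner_sum]
    refine Finset.sum_congr rfl fun i _ => ?_
    rw [real_inner_smul_right]
    have hx := sum_vf h.tri h.met z (sT A z)
    have hy : at2 Ψ z (vf e z i) (sT A z) =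
        ∑ j, (inner ℝ (vf e z j) (sT A z) : ℝ) * at2 Ψ z (vf e z i) (vf e z j) := by
      conv_lhs => rw [← hx]
      refine (map_sum (at2 Ψ z (vf e z i)) _ _).trans (Finset.sum_congr rfl fun j _ => ?_)
      exact map_smul (at2 Ψ z (vf e z i)) _ _
    rw [hy, Finset.sum_mul]
    refine Finset.sum_congr rfl fun j _ => ?_
    rw [real_inner_comm (sT A z)]
    ring
  simp only [h7]
  rw [Finset.sum_comm]
  refine Finset.sum_congr rfl fun i _ => ?_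
  rw [Finset.sum_comm]
  refine Finset.sum_congr rfl fun j _ => ?_
  rw [← Finset.mul_sum, h.cvT a ha hs z]
  ring

end star

end

end Crest.Agent.R235.TauStar_133
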