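import Mathlib

/-!
# Row 235, SW-TAUX, part A (helper433): the pointwise algebra of the Taubes estimate

`p` projection, `ρ_k` symmetric with the Fierz identity, `R = ∑ n_k ρ_k`, `|n| = 1`;
`R s = - s`, `R s' = s'`.
-/

set_option autoImplicit false

noncomputable section
namespace Crest.Agent.R235.TauxA_433

variable {κ : Type} [Fintype κ]

/-- the bilinear form of a matrix -/
def bf (m : κ → κ → ℝ) (u v : κ → ℝ) : ℝ := ∑ y, ∑ y', m y y' * u y * v y'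

theorem bf_comm {m : κ → κ → ℝ} (hm : ∀ y y', m y y' = m y' y) (u v : κ → ℝ) :
    bf m u v = bf m v u := by
  unfold bf
  rw [Finset.sum_comm]
  refine Finset.sum_congr rfl fun y _ => Finset.sum_congr rfl fun y' _ => ?_
  rw [hm y' y]
  ring

theorem bf_add_add {m : κ → κ → ℝ} (hm : ∀ y y', m y y' = m y' y) (u v : κ → ℝ) :
    bf m (fun y => u y + v y) (fun y => u y + v y) = bf m u u + 2 * bf m u v + bf m v v := by
  have h1 : bf m (fun y => u y + v y) (fun y => u y + v y) =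
      bf m u u + bf m u v + bf m v u + bf m v v := by
    unfold bf
    simp only [← Finset.sum_add_distrib]
    refine Finset.sum_congr rfl fun y _ => Finset.sum_congr rfl fun y' _ => ?_
    ring
  rw [h1, bf_comm hm v u]
  ring

theorem bf_smul {m : κ → κ → ℝ} (c : ℝ) (u v : κ → ℝ) :
    bf m (fun y => c * u y) (fun y => c * v y) = c ^ 2 * bf m u v := by
  unfold bf
  simp only [Finset.mul_sum]
  refine Finset.sum_congr rfl fun y _ => Finset.sum_congr rfl fun y' _ => ?_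
  ring

variable {p : κ → κ → ℝ} {rho : Fin 3 → κ → κ → ℝ} {n : Fin 3 → ℝ}

theorem bf_R (hsym : ∀ k y y', rho k y y' = rho k y' y) {e : ℝ} {s : κ → ℝ}
    (hR : ∀ y, ∑ k, ∑ y', n k * rho k y y' * s y' = e * s y) (v : κ → ℝ) :
    ∑ k, n k * bf (rho k) s v = e * ∑ y, s y * v y := by
  have h1 : ∑ k, n k * bf (rho k) s v =
      ∑ y', (∑ k, ∑ y, n k * rho k y' y * s y) * v y' := by
    unfold bf
    simp only [Finset.mul_sum, Finset.sum_mul]
    rw [Finset.sum_comm' (s := (Finset.univ : Finset κ)) (t := fun _ => Finset.univ)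
      (s' := fun _ => Finset.univ) (t' := Finset.univ) (by simp)]
    refine Finset.sum_congr rfl fun k _ => ?_
    rw [Finset.sum_comm]
    refine Finset.sum_congr rfl fun y' _ => Finset.sum_congr rfl fun y _ => ?_
    rw [hsym k y y']
    ring
  rw [h1, Finset.mul_sum]
  refine Finset.sum_congr rfl fun y _ => ?_
  rw [hR y]
  ring

/-- `⟨ρ_k s, s⟩ = e |s|² n_k` on the eigenspace `R = e` -/
theorem alg1 (hsym : ∀ k y y', rho k y y' = rho k y' y) (hn : ∑ k, n k ^ 2 = 1)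
    (hf : ∀ u : κ → ℝ, (∀ y, ∑ y', p y y' * u y' = u y) →
      ∑ k, (∑ y, ∑ y', rho k y y' * u y * u y') ^ 2 = (∑ y, u y ^ 2) ^ 2)
    {s : κ → ℝ} (hs : ∀ y, ∑ y', p y y' * s y' = s y) {e : ℝ} (he : e ^ 2 = 1)
    (hR : ∀ y, ∑ k, ∑ y', n k * rho k y y' * s y' = e * s y) (k : Fin 3) :
    bf (rho k) s s = e * (∑ y, s y ^ 2) * n k := by
  generalize hN : ∑ y, s y ^ 2 = N
  have h1 : ∑ k, n k * bf (rho k) s s = e * N := by
    rw [bf_R hsym hR s, ← hN]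
    congr 1
    exact Finset.sum_congr rfl fun y _ => by ring
  have h2 : ∑ k, bf (rho k) s s ^ 2 = N ^ 2 := by
    rw [← hN]
    exact hf s hs
  have h3 : ∑ k, (bf (rho k) s s - e * N * n k) ^ 2 = 0 := by
    have e1 : ∑ k, (bf (rho k) s s - e * N * n k) ^ 2 =
        ∑ k, bf (rho k) s s ^ 2 - 2 * (e * N) * ∑ k, n k * bf (rho k) s s +
          (e * N) ^ 2 * ∑ k, n k ^ 2 := by
      rw [Finset.mul_sum, Finset.mul_sum, ← Finset.sum_sub_distrib, ← Finset.sum_add_distrib]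
      exact Finset.sum_congr rfl fun k _ => by ring
    rw [e1, h1, h2, hn]
    have : (e * N) ^ 2 = N ^ 2 := by rw [mul_pow, he, one_mul]
    nlinarith
  have h4 := (Finset.sum_eq_zero_iff_of_nonneg fun k _ => sq_nonneg _).1 h3 k (Finset.mem_univ k)
  have h5 : bf (rho k) s s - e * N * n k = 0 := by
    rcases sq_eq_zero_iff.1 h4 with h
    exact h
  linarith

/-- the mixed terms -/
theorem alg2 (hsym : ∀ k y y', rho k y y' = rho k y' y)
    {s s' : κ → ℝ} (hR : ∀ y, ∑ k, ∑ y', n k * rho k y y' * s y' = -1 * s y)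
    (hR' : ∀ y, ∑ k, ∑ y', n k * rho k y y' * s' y' = 1 * s' y) :
    ∑ y, s y * s' y = 0 ∧ ∑ k, n k * bf (rho k) s s' = 0 := by
  have h1 := bf_R hsym hR s'
  have h2 := bf_R hsym hR' s
  have h3 : ∑ k, n k * bf (rho k) s' s = ∑ k, n k * bf (rho k) s s' :=
    Finset.sum_congr rfl fun k _ => by rw [bf_comm (hsym k) s' s]
  have h4 : ∑ y, s' y * s y = ∑ y, s y * s' y := Finset.sum_congr rfl fun y _ => mul_comm _ _
  rw [h3, h4] at h2
  constructor <;> linarith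

theorem alg3 (hsym : ∀ k y y', rho k y y' = rho k y' y) (hn : ∑ k, n k ^ 2 = 1)
    (hf : ∀ u : κ → ℝ, (∀ y, ∑ y', p y y' * u y' = u y) →
      ∑ k, (∑ y, ∑ y', rho k y y' * u y * u y') ^ 2 = (∑ y, u y ^ 2) ^ 2)
    {s s' : κ → ℝ} (hs : ∀ y, ∑ y', p y y' * s y' = s y) (hs' : ∀ y, ∑ y', p y y' * s' y' = s' y)
    (hR : ∀ y, ∑ k, ∑ y', n k * rho k y y' * s y' = -1 * s y)
    (hR' : ∀ y, ∑ k, ∑ y', n k * rho k y y' * s' y' = 1 * s' y) :
    ∑ k, bf (rho k) s s' ^ 2 = (∑ y, s y ^ 2) * ∑ y, s' y ^ 2 := by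
  obtain ⟨h1, h2⟩ := alg2 hsym hR hR'
  set N0 : ℝ := ∑ y, s y ^ 2 with hN0
  set N1 : ℝ := ∑ y, s' y ^ 2 with hN1
  have h3 := hf (fun y => s y + s' y) (fun y => by
    rw [← hs y, ← hs' y, ← Finset.sum_add_distrib]
    refine Finset.sum_congr rfl fun y' _ => ?_
    ring)
  have h4 : ∑ y, (s y + s' y) ^ 2 = N0 + N1 := by
    have : ∑ y, (s y + s' y) ^ 2 = N0 + 2 * (∑ y, s y * s' y) + N1 := by
      rw [Finset.mul_sum, ← Finset.sum_add_distrib, ← Finset.sum_add_distrib]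
      exact Finset.sum_congr rfl fun y _ => by ring
    rw [this, h1]
    ring
  have h5 : ∀ k, ∑ y, ∑ y', rho k y y' * (s y + s' y) * (s y' + s' y') =
      (N1 - N0) * n k + 2 * bf (rho k) s s' := by
    intro k
    have e1 := bf_add_add (hsym k) s s'
    rw [alg1 hsym hn hf hs (by norm_num) hR k, alg1 hsym hn hf hs' (by norm_num) hR' k] at e1
    refine Eq.trans ?_ (e1.trans ?_)
    · rfl
    · ring
  simp only [h5] at h3
  rw [h4] at h3
  have h6 : ∑ k, ((N1 - N0) * n k + 2 * bf (rho k) s s') ^ 2 =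
      (N1 - N0) ^ 2 * (∑ k, n k ^ 2) + 4 * (N1 - N0) * (∑ k, n k * bf (rho k) s s') +
        4 * ∑ k, bf (rho k) s s' ^ 2 := by
    rw [Finset.mul_sum, Finset.mul_sum, Finset.mul_sum, ← Finset.sum_add_distrib,
      ← Finset.sum_add_distrib]
    exact Finset.sum_congr rfl fun k _ => by ring
  rw [h6, hn, h2] at h3
  nlinarith

/-- the quadratic map of `r^{3/4} (s + s')` -/
theorem alg4 (hsym : ∀ k y y', rho k y y' = rho k y' y) (hn : ∑ k, n k ^ 2 = 1)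
    (hf : ∀ u : κ → ℝ, (∀ y, ∑ y', p y y' * u y' = u y) →
      ∑ k, (∑ y, ∑ y', rho k y y' * u y * u y') ^ 2 = (∑ y, u y ^ 2) ^ 2)
    {s s' : κ → ℝ} (hs : ∀ y, ∑ y', p y y' * s y' = s y) (hs' : ∀ y, ∑ y', p y y' * s' y' = s' y)
    (hR : ∀ y, ∑ k, ∑ y', n k * rho k y y' * s y' = -1 * s y)
    (hR' : ∀ y, ∑ k, ∑ y', n k * rho k y y' * s' y' = 1 * s' y) (c : ℝ) {u : κ → ℝ}
    (hu : ∀ y, u y = c * (s y + s' y)) (k : Fin 3) :
    bf (rho k) u u = c ^ 2 * (((∑ y, s' y ^ 2) - ∑ y, s y ^ 2) * n k + 2 * bf (rho k) s s') := by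
  have e0 : u = fun y => c * (s y + s' y) := funext hu
  rw [e0, bf_smul, bf_add_add (hsym k), alg1 hsym hn hf hs (by norm_num) hR k,
    alg1 hsym hn hf hs' (by norm_num) hR' k]
  ring

/-- the curvature: with `B_k = (1/2) ρ^{-1/2} q_k(u) + r ρ n_k` -/
theorem alg5 (hsym : ∀ k y y', rho k y y' = rho k y' y) (hn : ∑ k, n k ^ 2 = 1)
    (hf : ∀ u : κ → ℝ, (∀ y, ∑ y', p y y' * u y' = u y) →
      ∑ k, (∑ y, ∑ y', rho k y y' * u y * u y') ^ 2 = (∑ y, u y ^ 2) ^ 2)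
    {s s' : κ → ℝ} (hs : ∀ y, ∑ y', p y y' * s y' = s y) (hs' : ∀ y, ∑ y', p y y' * s' y' = s' y)
    (hR : ∀ y, ∑ k, ∑ y', n k * rho k y y' * s y' = -1 * s y)
    (hR' : ∀ y, ∑ k, ∑ y', n k * rho k y y' * s' y' = 1 * s' y) {rr r : ℝ} (hrr : 0 < rr)
    {u : κ → ℝ} (hu : ∀ y, u y = rr ^ (3 / 4 : ℝ) * (s y + s' y)) {B : Fin 3 → ℝ}
    (hB : ∀ k, B k = rr ^ (-(1 / 2) : ℝ) * ((1 / 2) * bf (rho k) u u) + r * (rr * n k)) :
    (∑ k, B k * n k = rr * (r + ((∑ y, s' y ^ 2) - ∑ y, s y ^ 2) / 2)) ∧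
      ∑ k, B k * bf (rho k) s s' = rr * ((∑ y, s y ^ 2) * ∑ y, s' y ^ 2) := by
  set N0 : ℝ := ∑ y, s y ^ 2 with hN0
  set N1 : ℝ := ∑ y, s' y ^ 2 with hN1
  have h1 : ∀ k, B k = rr * (r + (N1 - N0) / 2) * n k + rr * bf (rho k) s s' := by
    intro k
    rw [hB k, alg4 hsym hn hf hs hs' hR hR' _ hu k]
    have e1 : rr ^ (-(1 / 2) : ℝ) * (rr ^ (3 / 4 : ℝ)) ^ 2 = rr := by
      rw [← Real.rpow_natCast, ← Real.rpow_mul hrr.le, ← Real.rpow_add hrr]
      norm_num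
    have e2 : rr ^ (-(1 / 2) : ℝ) * (1 / 2 * ((rr ^ (3 / 4 : ℝ)) ^ 2 *
        ((N1 - N0) * n k + 2 * bf (rho k) s s'))) =
        (rr ^ (-(1 / 2) : ℝ) * (rr ^ (3 / 4 : ℝ)) ^ 2) * (1 / 2 *
        ((N1 - N0) * n k + 2 * bf (rho k) s s')) := by ring
    rw [e2, e1]
    ring
  obtain ⟨-, h2⟩ := alg2 hsym hR hR'
  have h3 := alg3 hsym hn hf hs hs' hR hR'
  constructor
  · have e1 : ∑ k, B k * n k = rr * (r + (N1 - N0) / 2) * (∑ k, n k ^ 2) +
        rr * ∑ k, n k * bf (rho k) s s' := by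
      rw [Finset.mul_sum, Finset.mul_sum, ← Finset.sum_add_distrib]
      exact Finset.sum_congr rfl fun k _ => by rw [h1 k]; ring
    rw [e1, hn, h2]
    ring
  · have e1 : ∑ k, B k * bf (rho k) s s' =
        rr * (r + (N1 - N0) / 2) * (∑ k, n k * bf (rho k) s s') +
          rr * ∑ k, bf (rho k) s s' ^ 2 := by
      rw [Finset.mul_sum, Finset.mul_sum, ← Finset.sum_add_distrib]
      exact Finset.sum_congr rfl fun k _ => by rw [h1 k]; ring
    rw [e1, h2, h3]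
    ring

/-- the pointwise inequality of the Taubes estimate -/
theorem ptineq {C rr r G N0 N1 : ℝ} (hrr : 0 < rr) (hC : C ^ 2 ≤ r * rr ^ 3)
    (hN1 : 0 ≤ N1) :
    (1 / 2) * (rr * G) + (1 / 2) * (rr ^ 2 * ((2 * r - N0) ^ 2 + N1 * (r + N0))) ≤
      rr * G - rr * (rr * (r + (N1 - N0) / 2)) * N0 + rr * (rr * (N0 * N1)) -
        (1 / 2) * (rr * G) - C ^ 2 / 2 * (rr⁻¹ * N1) + 2 * r * (rr * (rr * (r + (N1 - N0) / 2))) := by
  have h1 : C ^ 2 / 2 * (rr⁻¹ * N1) ≤ (1 / 2) * (r * rr ^ 2 * N1) := by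
    have e1 : C ^ 2 * rr⁻¹ ≤ r * rr ^ 2 := by
      rw [← div_eq_mul_inv, div_le_iff₀ hrr]
      calc C ^ 2 ≤ r * rr ^ 3 := hC
        _ = r * rr ^ 2 * rr := by ring
    have := mul_le_mul_of_nonneg_right e1 hN1
    nlinarith
  nlinarith

end Crest.Agent.R235.TauxA_433
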