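import Crest.Agent.R235.Tauf_433
import Crest.Agent.R235.WtzW_86
import Crest.Agent.R235.Sob4_984

/-!
# Row 235, SW-TAUX, part B (helper433): the Stokes identities on `W^{1,2}`

For `α : W^{1,2}(T*M)`, `w : W^{1,2}(W⁺ ⊗ L)`, `s := Π₀ w`, `s' := Π₁ w`:
* `t1W` : `TD.OK.T1` for `(α, s)`;
* `t2W` : `TD.OK.T2` for `(α, s, s')`, in the form with `∫ (ρ/2)|∇ s|² + (C²/2ρ)|s'|²`.
-/

set_option autoImplicit false
set_option linter.unusedSectionVars false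
set_option linter.unusedVariables false
set_option maxSynthPendingDepth 3
open scoped ContDiff ENNReal NNReal Topology Manifold Bundle RealInnerProductSpace
open MeasureTheory Set Filter Metric Bundle

universe v

noncomputable section
namespace Crest.Agent.R235.TauxB_433

open Crest.Agent.R247.Dir593 Crest.Agent.R247.Ms322 Crest.Agent.R247.Frd657
open Crest.Agent.R249.Tv57 Crest.Agent.R235.Dens_433 Crest.Agent.R235.Fs4_546
open Crest.Agent.R235.Dns_433 Crest.Agent.R235.SWDefs_53 Crest.Agent.R235.W12_109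
open Crest.Agent.R235.SupbA_433 Crest.Agent.R235.Cpt_755 Crest.Agent.R235.L4_433
open Crest.Agent.R235.CptC_755 Crest.Agent.R235.WtzW_86 Crest.Agent.R235.Tauf_433

/-! ### bounded multipliers of vector valued functions -/

section mV
variable {X : Type*} [MeasurableSpace X] {μ : Measure X} {F : Type*} [NormedAddCommGroup F]
  [InnerProductSpace ℝ F] {κ : Type} [Fintype κ]

theorem bm_top {w : X → ℝ} (hw : BM μ w) : MemLp w ∞ μ := by
  obtain ⟨C, -, hC⟩ := hw.bd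
  exact memLp_top_of_bound hw.meas C hC

/-- `f ↦ w f` -/
def mV {w : X → ℝ} (hw : BM μ w) : Lp F 2 μ →L[ℝ] Lp F 2 μ :=
  (ContinuousLinearMap.lsmul ℝ ℝ : ℝ →L[ℝ] F →L[ℝ] F).holderL μ ∞ 2 2 ((bm_top hw).toLp w)

theorem coe_mV {w : X → ℝ} (hw : BM μ w) (f : Lp F 2 μ) :
    (mV hw f : X → F) =ᵐ[μ] fun x => w x • (f : X → F) x := by
  filter_upwards [ContinuousLinearMap.coeFn_holder (r := 2)
    (ContinuousLinearMap.lsmul ℝ ℝ : ℝ →L[ℝ] F →L[ℝ] F) ((bm_top hw).toLp w) f,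
    (bm_top hw).coeFn_toLp] with x e1 e2
  have e3 : (mV hw f : X → F) x = (ContinuousLinearMap.lsmul ℝ ℝ : ℝ →L[ℝ] F →L[ℝ] F)
      (((bm_top hw).toLp w : X → ℝ) x) ((f : X → F) x) := e1
  rw [e3, e2]
  rfl

/-- `(m f)_a = ∑ m_ab f_b` for vector valued `f` -/
def mVm {m : κ → κ → X → ℝ} (hm : ∀ a b, BM μ (m a b)) : GG F μ κ →L[ℝ] GG F μ κ :=
  ((PiLp.continuousLinearEquiv 2 ℝ (fun _ : κ => Lp F 2 μ)).symm :
      (∀ _ : κ, Lp F 2 μ) →L[ℝ] PiLp 2 (fun _ : κ => Lp F 2 μ)).comp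
    (ContinuousLinearMap.pi fun a => ∑ b, (mV (hm a b)).comp (PiLp.proj 2 _ b))

theorem coe_mVm {m : κ → κ → X → ℝ} (hm : ∀ a b, BM μ (m a b)) (u : GG F μ κ) :
    ∀ᵐ x ∂μ, ∀ a, (mVm hm u a : X → F) x = ∑ b, m a b x • (u b : X → F) x := by
  rw [ae_all_iff]
  intro a
  have h1 : ∀ᵐ x ∂μ, ∀ b, (mV (hm a b) (u b) : X → F) x = m a b x • (u b : X → F) x :=
    ae_all_iff.2 fun b => coe_mV (hm a b) (u b)
  have h0 : mVm hm u a = ∑ b, mV (hm a b) (u b) := by simp [mVm]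
  filter_upwards [h1, Lp.coeFn_fun_finsetSum Finset.univ (fun b => mV (hm a b) (u b))]
    with x e1 e2
  rw [h0, e2]
  exact Finset.sum_congr rfl fun b _ => e1 b

/-- the weighted product `∫ w ⟨u, v⟩` -/
def wip {w : X → ℝ} (hw : BM μ w) (u v : GG F μ κ) : ℝ := ∑ a, (⟪mV hw (u a), v a⟫ : ℝ)

theorem continuous_wip {Y : Type*} [TopologicalSpace Y] {w : X → ℝ} (hw : BM μ w)
    {u v : Y → GG F μ κ} (hu : Continuous u) (hv : Continuous v) :
    Continuous fun q => wip hw (u q) (v q) := by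
  unfold wip
  refine continuous_finsetSum _ fun a _ => ?_
  exact ((mV hw).continuous.comp ((PiLp.continuous_apply 2 (fun _ : κ => Lp F 2 μ) a).comp
    hu)).inner ((PiLp.continuous_apply 2 (fun _ : κ => Lp F 2 μ) a).comp hv)

theorem wip_eq {w : X → ℝ} (hw : BM μ w) {u v : GG F μ κ} {f g : κ → X → F}
    (hf : ∀ᵐ x ∂μ, ∀ a, (u a : X → F) x = f a x) (hg : ∀ᵐ x ∂μ, ∀ a, (v a : X → F) x = g a x) :
    wip hw u v = ∫ x, w x * ∑ a, ⟪f a x, g a x⟫ ∂μ ∧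
      Integrable (fun x => w x * ∑ a, (⟪f a x, g a x⟫ : ℝ)) μ := by
  have h0 : (fun x => ∑ a, (⟪(mV hw (u a) : X → F) x, (v a : X → F) x⟫ : ℝ)) =ᵐ[μ]
      fun x => w x * ∑ a, (⟪f a x, g a x⟫ : ℝ) := by
    have h2 : ∀ᵐ x ∂μ, ∀ a, (mV hw (u a) : X → F) x = w x • (u a : X → F) x :=
      ae_all_iff.2 fun a => coe_mV hw (u a)
    filter_upwards [hf, hg, h2] with x e1 e2 e3
    rw [Finset.mul_sum]
    refine Finset.sum_congr rfl fun a _ => ?_
    rw [e3 a, e1 a, e2 a, real_inner_smul_left]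
  have h1 : Integrable (fun x => ∑ a, (⟪(mV hw (u a) : X → F) x, (v a : X → F) x⟫ : ℝ)) μ :=
    integrable_finsetSum _ fun a _ => L2.integrable_inner _ _
  refine ⟨?_, h1.congr h0⟩
  unfold wip
  simp only [L2.inner_def]
  rw [← integral_finsetSum]
  · exact integral_congr_ae h0
  · intro a _
    exact L2.integrable_inner _ _

end mV

section mfd
variable {M : Type v} [MetricSpace M] [CompactSpace M] [ConnectedSpace M]
  [ChartedSpace (EuclideanSpace ℝ (Fin 4)) M] [IsManifold (𝓡 4) ∞ M]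
  [RiemannianBundle (fun p : M => TangentSpace (𝓡 4) p)]
  [IsContMDiffRiemannianBundle (𝓡 4) ∞ (EuclideanSpace ℝ (Fin 4))
    (fun p : M => TangentSpace (𝓡 4) p)]
  [IsRiemannianManifold (𝓡 4) M] [MeasurableSpace M] [BorelSpace M]
  [SecondCountableTopology M] [Nonempty M] [IsFiniteMeasureOnCompacts (μHE[4] : Measure M)]
  {κ0 κ1 κT : Type} [Fintype κ0] [Fintype κ1] [Fintype κT] (S : SWS M κ0 κ1 κT)

local notation "𝔼" => EuclideanSpace ℝ (Fin 4)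

/-- induction over smooth pairs -/
theorem smooth_pair {p : S.DT.toAD.WE × S.D0.toAD.WE → Prop} (hp : IsClosed {q | p q})
    (h : ∀ (a : SmS S.DT) (u : SmS S.D0), p (cW S.DT a, cW S.D0 u)) (q) : p q :=
  isClosed_property ((dns S.DT (by norm_num)).prodMap (dns S.D0 (by norm_num))) hp
    (fun x => h x.1 x.2) q

variable {τ : TD M κT} {C : ℝ}

/-! ### the projections -/

variable (τ) in
/-- `Π₁` -/
def Po (y y' : κ0) (z : M) : ℝ := (1 / 2) * (S.D0.p y y' z + ∑ k, τ.n k z * S.rho k y y' z)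

theorem smooth_Po (hOK : S.OK) (hτ : τ.OK S C) (y y' : κ0) :
    ContMDiff (𝓡 4) 𝓘(ℝ, ℝ) ∞ (Po S τ y y') :=
  contMDiff_const.mul ((S.D0.smp y y').add
    (contMDiff_finsetSum fun k _ => (hτ.smn k).mul (hOK.smrho k y y')))

theorem p_Po (hτ : τ.OK S C) (a b : κ0) (z : M) :
    ∑ c, S.D0.p a c z * Po S τ c b z = Po S τ a b z := by
  have h1 : ∑ c, S.D0.p a c z * Po S τ c b z =
      (1 / 2) * ((∑ c, S.D0.p a c z * S.D0.p c b z) +
        ∑ k, τ.n k z * ∑ c, S.D0.p a c z * S.rho k c b z) := by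
    unfold Po
    rw [mul_add, Finset.mul_sum, Finset.mul_sum]
    simp only [mul_add, Finset.sum_add_distrib, Finset.mul_sum]
    congr 1
    · exact Finset.sum_congr rfl fun c _ => by ring
    · rw [Finset.sum_comm]
      exact Finset.sum_congr rfl fun k _ => Finset.sum_congr rfl fun c _ => by ring
  rw [h1, S.D0.idem]
  simp only [hτ.rsec]
  rfl

/-- `R Π = Π R`-type identities as matrices -/
theorem R_Po (hOK : S.OK) (hτ : τ.OK S C) (y b : κ0) (z : M) :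
    ∑ y', (∑ k, τ.n k z * S.rho k y y' z) * Po S τ y' b z = Po S τ y b z := by
  have e1 : ∑ y', (∑ k, τ.n k z * S.rho k y y' z) * Po S τ y' b z =
      (1 / 2) * ((∑ y', (∑ k, τ.n k z * S.rho k y y' z) * S.D0.p y' b z) +
        ∑ y', (∑ k, τ.n k z * S.rho k y y' z) * (∑ k, τ.n k z * S.rho k y' b z)) := by
    unfold Po
    rw [← Finset.sum_add_distrib, Finset.mul_sum]
    exact Finset.sum_congr rfl fun y' _ => by ring
  have e2 : ∑ y', (∑ k, τ.n k z * S.rho k y y' z) * S.D0.p y' b z =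
      ∑ k, τ.n k z * S.rho k y b z := by
    simp only [Finset.sum_mul]
    rw [Finset.sum_comm]
    refine Finset.sum_congr rfl fun k _ => ?_
    rw [← rho_p S hOK hτ k y b z, Finset.mul_sum]
    exact Finset.sum_congr rfl fun y' _ => by ring
  rw [e1, e2, hτ.invol]
  unfold Po
  ring

/-- `Π₁ u` is a section of the complement of `E` -/
theorem secE'_Po (hOK : S.OK) (hτ : τ.OK S C) (u : κ0 → M → ℝ) :
    τ.SecE' S (fun y z => ∑ b, Po S τ y b z * u b z) := by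
  constructor
  · intro y z
    simp only [Finset.mul_sum]
    rw [Finset.sum_comm]
    refine Finset.sum_congr rfl fun b _ => ?_
    rw [← p_Po S hτ y b z, Finset.sum_mul]
    exact Finset.sum_congr rfl fun c _ => by ring
  · intro y z
    unfold TD.R
    rw [Finset.sum_comm]
    have e3 : ∀ y', ∑ k, τ.n k z * S.rho k y y' z * ∑ b, Po S τ y' b z * u b z =
        ∑ b, ((∑ k, τ.n k z * S.rho k y y' z) * Po S τ y' b z) * u b z := by
      intro y'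
      rw [← Finset.sum_mul, Finset.mul_sum]
      exact Finset.sum_congr rfl fun b _ => by ring
    simp only [e3]
    rw [Finset.sum_comm]
    refine Finset.sum_congr rfl fun b _ => ?_
    rw [← Finset.sum_mul, R_Po S hOK hτ y b z]

/-- smooth powers of `ρ` -/
theorem smooth_rr (hτ : τ.OK S C) (e : ℝ) :
    ContMDiff (𝓡 4) 𝓘(ℝ, ℝ) ∞ (fun z => τ.rr z ^ e) := by
  intro z
  exact (Real.contDiffAt_rpow_const_of_ne (p := e) (hτ.pos z).ne').contMDiffAt.comp z (hτ.smrr z)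

/-- `w ↦ Π₀ w` -/
def zW (hOK : S.OK) (hτ : τ.OK S C) : S.D0.toAD.WE →L[ℝ] S.D0.toAD.WE :=
  mulS S.D0 S.D0 (fun a b => smooth_Pz S hOK hτ a b) (fun a b z => p_Pz S hτ a b z)

/-- `w ↦ Π₁ w` -/
def oW (hOK : S.OK) (hτ : τ.OK S C) : S.D0.toAD.WE →L[ℝ] S.D0.toAD.WE :=
  mulS S.D0 S.D0 (fun a b => smooth_Po S hOK hτ a b) (fun a b z => p_Po S hτ a b z)

/-- `w ↦ ρ^e w` -/
def scW (hτ : τ.OK S C) (e : ℝ) : S.D0.toAD.WE →L[ℝ] S.D0.toAD.WE :=
  mulS S.D0 S.D0 (m := fun a b z => τ.rr z ^ e * S.D0.p a b z)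
    (fun a b => (smooth_rr S hτ e).mul (S.D0.smp a b))
    (fun a b z => by
      rw [← S.D0.idem a b z, Finset.mul_sum]
      exact Finset.sum_congr rfl fun c _ => by ring)

theorem coe_zW (hOK : S.OK) (hτ : τ.OK S C) (w : S.D0.toAD.WE) :
    ∀ᵐ z ∂(μHE[4] : Measure M), ∀ y, rp (zW S hOK hτ w) y z = ∑ b, Pz S τ y b z * rp w b z :=
  coe_mulS S.D0 S.D0 _ _ w

theorem coe_oW (hOK : S.OK) (hτ : τ.OK S C) (w : S.D0.toAD.WE) :
    ∀ᵐ z ∂(μHE[4] : Measure M), ∀ y, rp (oW S hOK hτ w) y z = ∑ b, Po S τ y b z * rp w b z :=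
  coe_mulS S.D0 S.D0 _ _ w

theorem rp_p (w : S.D0.toAD.WE) :
    ∀ᵐ z ∂(μHE[4] : Measure M), ∀ y, ∑ b, S.D0.p y b z * rp w b z = rp w y z := by
  have h2 := S.D0.toAD.coe_P (S.D0.toAD.i1 w)
  rw [show S.D0.toAD.P (S.D0.toAD.i1 w) = S.D0.toAD.i1 w from w.2.2] at h2
  filter_upwards [h2] with z e2 y
  exact (e2 y).symm

theorem coe_scW (hτ : τ.OK S C) (e : ℝ) (w : S.D0.toAD.WE) :
    ∀ᵐ z ∂(μHE[4] : Measure M), ∀ y, rp (scW S hτ e w) y z = τ.rr z ^ e * rp w y z := by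
  have h1 : ∀ᵐ z ∂(μHE[4] : Measure M), ∀ y, rp (scW S hτ e w) y z =
      ∑ b, (τ.rr z ^ e * S.D0.p y b z) * rp w b z := coe_mulS S.D0 S.D0 _ _ w
  filter_upwards [h1, rp_p S w] with z e1 e2 y
  rw [e1 y]
  rw [← e2 y, Finset.mul_sum]
  exact Finset.sum_congr rfl fun b _ => by ring

/-- `Π₀ u` for smooth sections -/
def zS (hOK : S.OK) (hτ : τ.OK S C) (u : SmS S.D0) : SmS S.D0 :=
  ⟨fun y z => ∑ b, Pz S τ y b z * u.1 b z,
    fun y => contMDiff_finsetSum fun b _ => (smooth_Pz S hOK hτ y b).mul (u.2.1 b),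
    (secE_Pz S hOK hτ u.1).1⟩

/-- `Π₁ u` for smooth sections -/
def oS (hOK : S.OK) (hτ : τ.OK S C) (u : SmS S.D0) : SmS S.D0 :=
  ⟨fun y z => ∑ b, Po S τ y b z * u.1 b z,
    fun y => contMDiff_finsetSum fun b _ => (smooth_Po S hOK hτ y b).mul (u.2.1 b),
    (secE'_Po S hOK hτ u.1).1⟩

/-- `ρ^e u` for smooth sections -/
def scS (hτ : τ.OK S C) (e : ℝ) (u : SmS S.D0) : SmS S.D0 :=
  ⟨τ.sc e u.1, fun y => (smooth_rr S hτ e).mul (u.2.1 y), fun y z => by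
    have h1 := u.2.2 y z
    show ∑ b, S.D0.p y b z * (τ.rr z ^ e * u.1 b z) = τ.rr z ^ e * u.1 y z
    rw [← h1, Finset.mul_sum]
    exact Finset.sum_congr rfl fun b _ => by ring⟩

theorem rp_cW (u : SmS S.D0) : ∀ᵐ z ∂(μHE[4] : Measure M), ∀ y, rp (cW S.D0 u) y z = u.1 y z :=
  coe_clH u.1 u.2.1

theorem rp_cWT (a : SmS S.DT) : ∀ᵐ z ∂(μHE[4] : Measure M), ∀ y, rp (cW S.DT a) y z = a.1 y z :=
  coe_clH a.1 a.2.1

theorem eq_cW {w : S.D0.toAD.WE} {u : SmS S.D0}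
    (h : ∀ᵐ z ∂(μHE[4] : Measure M), ∀ y, rp w y z = u.1 y z) : w = cW S.D0 u := by
  refine i1_injective S.D0.toAD ?_
  ext y
  filter_upwards [h, rp_cW S u] with z e1 e2
  exact (e1 y).trans (e2 y).symm

theorem zW_cW (hOK : S.OK) (hτ : τ.OK S C) (u : SmS S.D0) :
    zW S hOK hτ (cW S.D0 u) = cW S.D0 (zS S hOK hτ u) := by
  refine eq_cW S ?_
  filter_upwards [coe_zW S hOK hτ (cW S.D0 u), rp_cW S u] with z e1 e2 y
  rw [e1 y]
  exact Finset.sum_congr rfl fun b _ => by rw [e2 b]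

theorem oW_cW (hOK : S.OK) (hτ : τ.OK S C) (u : SmS S.D0) :
    oW S hOK hτ (cW S.D0 u) = cW S.D0 (oS S hOK hτ u) := by
  refine eq_cW S ?_
  filter_upwards [coe_oW S hOK hτ (cW S.D0 u), rp_cW S u] with z e1 e2 y
  rw [e1 y]
  exact Finset.sum_congr rfl fun b _ => by rw [e2 b]

theorem scW_cW (hτ : τ.OK S C) (e : ℝ) (u : SmS S.D0) :
    scW S hτ e (cW S.D0 u) = cW S.D0 (scS S hτ e u) := by
  refine eq_cW S ?_
  filter_upwards [coe_scW S hτ e (cW S.D0 u), rp_cW S u] with z e1 e2 y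
  rw [e1 y, e2 y]
  rfl

/-! ### the `L²` objects -/

/-- `(A + c(α) i) U` in `L²` -/
def DL (hOK : S.OK) (α : S.DT.toAD.WE) (U : S.D0.toAD.WE) : HH (μHE[4] : Measure M) κ1 :=
  ((Ah S.P U : S.D1.toAD.HE) : HH (μHE[4] : Measure M) κ1) + CM S hOK α U

theorem coe_DL (hOK : S.OK) (α : S.DT.toAD.WE) (U : S.D0.toAD.WE) :
    ∀ᵐ z ∂(μHE[4] : Measure M), ∀ x, (DL S hOK α U x : M → ℝ) z = dirW S α U x z :=
  coe_dirW hOK (Sob4_984.emb4_Dat S.DT) (Sob4_984.emb4_Dat S.D0) α U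

theorem continuous_DL (hOK : S.OK) : Continuous fun q : S.DT.toAD.WE × S.D0.toAD.WE =>
    DL S hOK q.1 q.2 :=
  (continuous_subtype_val.comp ((Ah S.P).continuous.comp continuous_snd)).add
    (cont_CM hOK (Sob4_984.emb4_Dat S.DT) (Sob4_984.emb4_Dat S.D0))

/-- the field `J ⊗ ∑ sh_A s_A` -/
theorem bm_sh (hOK : S.OK) (hτ : τ.OK S C) (y y' : κ0) :
    BM (μHE[4] : Measure M) (fun z => S.J y y' z • ∑ A, τ.sh A z • S.s A z) :=
  (SmF.smul (hOK.smJ y y') (SmF.sum _ fun A _ => SmF.smul (hτ.smsh A) (hOK.sms A))).bm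

/-- `∇^E s` in `L²` -/
def PL (hOK : S.OK) (hτ : τ.OK S C) (α : S.DT.toAD.WE) (w : S.D0.toAD.WE) :
    GG 𝔼 (μHE[4] : Measure M) κ0 :=
  mVm (fun a b => bm_smooth (smooth_Pz S hOK hτ a b)) (S.D0.toAD.c1 w + NM S hOK α w) +
    matF (fun a b => bm_sh S hOK hτ a b) (S.D0.toAD.i1 w)

theorem continuous_PL (hOK : S.OK) (hτ : τ.OK S C) :
    Continuous fun q : S.DT.toAD.WE × S.D0.toAD.WE => PL S hOK hτ q.1 q.2 := by
  have h1 : Continuous fun q : S.DT.toAD.WE × S.D0.toAD.WE =>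
      S.D0.toAD.c1 q.2 + NM S hOK q.1 q.2 :=
    (S.D0.toAD.c1.continuous.comp continuous_snd).add
      (cont_NM hOK (Sob4_984.emb4_Dat S.DT) (Sob4_984.emb4_Dat S.D0))
  have h2 : Continuous fun q : S.DT.toAD.WE × S.D0.toAD.WE =>
      mVm (F := 𝔼) (fun a b => bm_smooth (smooth_Pz S hOK hτ a b))
        (S.D0.toAD.c1 q.2 + NM S hOK q.1 q.2) :=
    (mVm (F := 𝔼) (fun a b => bm_smooth (smooth_Pz S hOK hτ a b))).continuous.comp h1
  have h3 : Continuous fun q : S.DT.toAD.WE × S.D0.toAD.WE =>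
      matF (fun a b => bm_sh S hOK hτ a b) (S.D0.toAD.i1 q.2) :=
    (matF (fun a b => bm_sh S hOK hτ a b)).continuous.comp
      (S.D0.toAD.i1.continuous.comp continuous_snd)
  exact h2.add h3

theorem coe_PL (hOK : S.OK) (hτ : τ.OK S C) (α : S.DT.toAD.WE) (w : S.D0.toAD.WE) :
    ∀ᵐ z ∂(μHE[4] : Measure M), ∀ y, (PL S hOK hτ α w y : M → 𝔼) z =
      τ.prE S (nabW S α w) (rp w) y z := by
  have h1 : ∀ᵐ z ∂(μHE[4] : Measure M), ∀ y, (PL S hOK hτ α w y : M → 𝔼) z =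
      (mVm (fun a b => bm_smooth (smooth_Pz S hOK hτ a b)) (S.D0.toAD.c1 w + NM S hOK α w) y :
        M → 𝔼) z + (matF (fun a b => bm_sh S hOK hτ a b) (S.D0.toAD.i1 w) y : M → 𝔼) z :=
    ae_all_iff.2 fun y => Lp.coeFn_add _ _
  filter_upwards [h1, coe_mVm (fun a b => bm_smooth (smooth_Pz S hOK hτ a b))
    (S.D0.toAD.c1 w + NM S hOK α w), coe_matF (fun a b => bm_sh S hOK hτ a b) (S.D0.toAD.i1 w),
    coe_nabW hOK (Sob4_984.emb4_Dat S.DT) (Sob4_984.emb4_Dat S.D0) α w] with z e1 e2 e3 e4 y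
  rw [e1 y, e2 y, e3 y, TD.prE]
  congr 1
  · exact Finset.sum_congr rfl fun b _ => by rw [e4 b]; rfl
  · rw [Finset.sum_smul]
    refine Finset.sum_congr rfl fun b _ => ?_
    rw [smul_smul, mul_comm]
    rfl

/-- the curvature `(B α)_{k+1} + fE_k` in `L²` -/
def BL (hτ : τ.OK S C) (k : Fin 3) (α : S.DT.toAD.WE) : Lp ℝ 2 (μHE[4] : Measure M) :=
  ((Ah S.H.swap α : S.DL.toAD.HE) : HH (μHE[4] : Measure M) (Fin 4)) k.succ +
    GradS.tL (isT_smooth (hτ.smfE k))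

/-- the values of the curvature -/
def cur (α : S.DT.toAD.WE) (k : Fin 3) (z : M) : ℝ :=
  (((Ah S.H.swap α : S.DL.toAD.HE) : HH (μHE[4] : Measure M) (Fin 4)) k.succ : M → ℝ) z

theorem coe_BL (hτ : τ.OK S C) (k : Fin 3) (α : S.DT.toAD.WE) :
    (BL S hτ k α : M → ℝ) =ᵐ[(μHE[4] : Measure M)] fun z => cur S α k z + τ.fE k z := by
  filter_upwards [Lp.coeFn_add (((Ah S.H.swap α : S.DL.toAD.HE) :
    HH (μHE[4] : Measure M) (Fin 4)) k.succ) (GradS.tL (isT_smooth (hτ.smfE k))),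
    GradS.coe_tL (μ := (μHE[4] : Measure M)) (isT_smooth (hτ.smfE k))] with z e1 e2
  rw [BL, e1, Pi.add_apply, e2]
  rfl

theorem continuous_BL (hτ : τ.OK S C) (k : Fin 3) : Continuous (BL S hτ k) :=
  ((PiLp.continuous_apply 2 (fun _ : Fin 4 => Lp ℝ 2 (μHE[4] : Measure M)) k.succ).comp
      (continuous_subtype_val.comp (Ah S.H.swap).continuous)).add continuous_const

/-- `∑_k ρ n_k (B_k + fE_k)` in `L²` -/
def BN (hτ : τ.OK S C) (α : S.DT.toAD.WE) : Lp ℝ 2 (μHE[4] : Measure M) :=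
  ∑ k, mV (bm_smooth (hτ.smrr.mul (hτ.smn k))) (BL S hτ k α)

theorem coe_BN (hτ : τ.OK S C) (α : S.DT.toAD.WE) :
    (BN S hτ α : M → ℝ) =ᵐ[(μHE[4] : Measure M)] fun z =>
      ∑ k, (τ.rr z * τ.n k z) * (cur S α k z + τ.fE k z) := by
  have h1 : ∀ᵐ z ∂(μHE[4] : Measure M), ∀ k,
      (mV (bm_smooth (hτ.smrr.mul (hτ.smn k))) (BL S hτ k α) : M → ℝ) z =
      (τ.rr z * τ.n k z) * (cur S α k z + τ.fE k z) := by
    rw [ae_all_iff]
    intro k
    filter_upwards [coe_mV (bm_smooth (hτ.smrr.mul (hτ.smn k))) (BL S hτ k α), coe_BL S hτ k α]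
      with z e1 e2
    rw [e1, e2]
    rfl
  filter_upwards [h1, Lp.coeFn_fun_finsetSum Finset.univ (fun k =>
    mV (bm_smooth (hτ.smrr.mul (hτ.smn k))) (BL S hτ k α))] with z e1 e2
  rw [BN, e2]
  exact Finset.sum_congr rfl fun k _ => e1 k

theorem continuous_BN (hτ : τ.OK S C) : Continuous (BN S hτ) :=
  continuous_finsetSum _ fun k _ => (mV _).continuous.comp (continuous_BL S hτ k)

/-- `|w|²` in `L²` -/
def N2 (w : S.D0.toAD.WE) : Lp ℝ 2 (μHE[4] : Measure M) :=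
  ∑ y, pr4 (Sob4_984.emb4_Dat S.D0) (Sob4_984.emb4_Dat S.D0) y y w w

theorem coe_N2 (w : S.D0.toAD.WE) :
    (N2 S w : M → ℝ) =ᵐ[(μHE[4] : Measure M)] fun z => ∑ y, rp w y z ^ 2 := by
  have h1 : ∀ᵐ z ∂(μHE[4] : Measure M), ∀ y,
      (pr4 (Sob4_984.emb4_Dat S.D0) (Sob4_984.emb4_Dat S.D0) y y w w : M → ℝ) z =
        rp w y z ^ 2 := by
    rw [ae_all_iff]
    intro y
    filter_upwards [coe_pr4 (Sob4_984.emb4_Dat S.D0) (Sob4_984.emb4_Dat S.D0) y y w w] with z e1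
    rw [e1, sq]
    rfl
  filter_upwards [h1, Lp.coeFn_fun_finsetSum Finset.univ (fun y =>
    pr4 (Sob4_984.emb4_Dat S.D0) (Sob4_984.emb4_Dat S.D0) y y w w)] with z e1 e2
  rw [N2, e2]
  exact Finset.sum_congr rfl fun k _ => e1 k

theorem continuous_N2 : Continuous fun w : S.D0.toAD.WE => N2 S w := by
  unfold N2 pr4
  fun_prop

theorem inner_L2 {u v : Lp ℝ 2 (μHE[4] : Measure M)} {f g : M → ℝ}
    (hf : (u : M → ℝ) =ᵐ[(μHE[4] : Measure M)] f) (hg : (v : M → ℝ) =ᵐ[(μHE[4] : Measure M)] g) :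
    (⟪u, v⟫ : ℝ) = ∫ z, f z * g z ∂(μHE[4] : Measure M) ∧
      Integrable (fun z => f z * g z) (μHE[4] : Measure M) := by
  have h0 : (fun z => (⟪(u : M → ℝ) z, (v : M → ℝ) z⟫ : ℝ)) =ᵐ[(μHE[4] : Measure M)]
      fun z => f z * g z := by
    filter_upwards [hf, hg] with z e1 e2
    rw [e1, e2, rin]
  exact ⟨(L2.inner_def u v).trans (integral_congr_ae h0), (L2.integrable_inner u v).congr h0⟩

end mfd

end Crest.Agent.R235.TauxB_433
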