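import Crest.Agent.R235.TauxA_433
import Crest.Agent.R235.TauxB_433

/-!
# Row 235, SW-TAUX, part C (helper433): `t1W`, `t2W`, the Stokes identities on `W^{1,2}`
-/

set_option autoImplicit false
set_option linter.unusedSectionVars false
set_option linter.unusedVariables false
set_option maxSynthPendingDepth 3
open scoped ContDiff ENNReal NNReal Topology Manifold Bundle RealInnerProductSpace
open MeasureTheory Set Filter Metric Bundle

universe v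

noncomputable section
namespace Crest.Agent.R235.TauxC_433

open Crest.Agent.R247.Dir593 Crest.Agent.R247.Ms322 Crest.Agent.R247.Frd657
open Crest.Agent.R249.Tv57 Crest.Agent.R235.Dens_433 Crest.Agent.R235.Fs4_546
open Crest.Agent.R235.Dns_433 Crest.Agent.R235.SWDefs_53 Crest.Agent.R235.W12_109
open Crest.Agent.R235.SupbA_433 Crest.Agent.R235.Cpt_755 Crest.Agent.R235.L4_433
open Crest.Agent.R235.CptC_755 Crest.Agent.R235.WtzW_86 Crest.Agent.R235.Tauf_433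
open Crest.Agent.R235.TauxB_433 Crest.Agent.R235.TauxA_433

theorem cont_in {Y H : Type*} [TopologicalSpace Y] [NormedAddCommGroup H] [InnerProductSpace ℝ H]
    {f g : Y → H} (hf : Continuous f) (hg : Continuous g) :
    Continuous fun q => (⟪f q, g q⟫ : ℝ) := hf.inner hg

theorem cont_cp {Y Z W : Type*} [TopologicalSpace Y] [TopologicalSpace Z] [TopologicalSpace W]
    {f : Z → W} (hf : Continuous f) {g : Y → Z} (hg : Continuous g) :
    Continuous fun q => f (g q) := hf.comp hg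

theorem cont_cp2 {Y Z Z' W : Type*} [TopologicalSpace Y] [TopologicalSpace Z]
    [TopologicalSpace Z'] [TopologicalSpace W] {f : Z → Z' → W}
    (hf : Continuous fun q : Z × Z' => f q.1 q.2) {g : Y → Z} (hg : Continuous g) {g' : Y → Z'}
    (hg' : Continuous g') : Continuous fun q => f (g q) (g' q) := hf.comp (hg.prodMk hg')

section mfd
variable {M : Type v} [MetricSpace M] [CompactSpace M] [ConnectedSpace M]
  [ChartedSpace (EuclideanSpace ℝ (Fin 4)) M] [IsManifold (𝓡 4) ∞ M]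
  [RiemannianBundle (fun p : M => TangentSpace (𝓡 4) p)]
  [IsContMDiffRiemannianBundle (𝓡 4) ∞ (EuclideanSpace ℝ (Fin 4))
    (fun p : M => TangentSpace (𝓡 4) p)]
  [IsRiemannianManifold (𝓡 4) M] [MeasurableSpace M] [BorelSpace M]
  [SecondCountableTopology M] [Nonempty M] [IsFiniteMeasureOnCompacts (μHE[4] : Measure M)]
  {κ0 κ1 κT : Type} [Fintype κ0] [Fintype κ1] [Fintype κT] (S : SWS M κ0 κ1 κT)

local notation "𝔼" => EuclideanSpace ℝ (Fin 4)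

variable {τ : TD M κT} {C : ℝ} (hOK : S.OK) (hτ : τ.OK S C)

/-- `∫ ρ^{-1/2} ⟨(A + c(α) i) V, (A + c(α) i) V'⟩` -/
def I4 (α : S.DT.toAD.WE) (V V' : S.D0.toAD.WE) : ℝ :=
  wip (bm_smooth (smooth_rr S hτ (-(1 / 2) : ℝ))) (DL S hOK α V) (DL S hOK α V')

theorem I4_eq (α : S.DT.toAD.WE) (V V' : S.D0.toAD.WE) :
    I4 S hOK hτ α V V' = ∫ z, τ.rr z ^ (-(1 / 2) : ℝ) *
      ∑ x, dirW S α V x z * dirW S α V' x z ∂(μHE[4] : Measure M) ∧
    Integrable (fun z => τ.rr z ^ (-(1 / 2) : ℝ) *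
      ∑ x, dirW S α V x z * dirW S α V' x z) (μHE[4] : Measure M) := by
  have h := wip_eq (bm_smooth (smooth_rr S hτ (-(1 / 2) : ℝ))) (coe_DL S hOK α V)
    (coe_DL S hOK α V')
  simp only [rin] at h
  exact h

/-- `∫ ρ |∇^E s|²` -/
def I2 (α : S.DT.toAD.WE) (s : S.D0.toAD.WE) : ℝ :=
  wip (bm_smooth hτ.smrr) (TauxB_433.PL S hOK hτ α s) (TauxB_433.PL S hOK hτ α s)

theorem I2_eq (α : S.DT.toAD.WE) (s : S.D0.toAD.WE) :
    I2 S hOK hτ α s = ∫ z, τ.rr z * ∑ y, ‖τ.prE S (nabW S α s) (rp s) y z‖ ^ 2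
      ∂(μHE[4] : Measure M) ∧
    Integrable (fun z => τ.rr z * ∑ y, ‖τ.prE S (nabW S α s) (rp s) y z‖ ^ 2)
      (μHE[4] : Measure M) := by
  have h := wip_eq (bm_smooth hτ.smrr) (coe_PL S hOK hτ α s) (coe_PL S hOK hτ α s)
  simp only [real_inner_self_eq_norm_sq] at h
  exact h

/-- `∫ ρ ⟨B α + fE, n⟩ |s|²` -/
def I3 (α : S.DT.toAD.WE) (s : S.D0.toAD.WE) : ℝ := ⟪BN S hτ α, N2 S s⟫

theorem I3_eq (α : S.DT.toAD.WE) (s : S.D0.toAD.WE) :
    I3 S hτ α s = ∫ z, (∑ k, (τ.rr z * τ.n k z) * (cur S α k z + τ.fE k z)) * ∑ y, rp s y z ^ 2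
      ∂(μHE[4] : Measure M) ∧
    Integrable (fun z => (∑ k, (τ.rr z * τ.n k z) * (cur S α k z + τ.fE k z)) *
      ∑ y, rp s y z ^ 2) (μHE[4] : Measure M) :=
  inner_L2 (coe_BN S hτ α) (coe_N2 S s)

/-- `∫ ρ ∑ (B α + fE)_k ⟨ρ_k s, s'⟩` -/
def I5 (α : S.DT.toAD.WE) (s s' : S.D0.toAD.WE) : ℝ :=
  ∑ k, (⟪mV (bm_smooth hτ.smrr) (BL S hτ k α), RM S hOK k s s'⟫ : ℝ)

theorem I5_eq (α : S.DT.toAD.WE) (s s' : S.D0.toAD.WE) :
    I5 S hOK hτ α s s' = ∫ z, τ.rr z * ∑ k, (cur S α k z + τ.fE k z) *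
      ∑ y, ∑ y', S.rho k y y' z * rp s y z * rp s' y' z ∂(μHE[4] : Measure M) ∧
    Integrable (fun z => τ.rr z * ∑ k, (cur S α k z + τ.fE k z) *
      ∑ y, ∑ y', S.rho k y y' z * rp s y z * rp s' y' z) (μHE[4] : Measure M) := by
  have h1 : ∀ k, (⟪mV (bm_smooth hτ.smrr) (BL S hτ k α), RM S hOK k s s'⟫ : ℝ) =
      ∫ z, (τ.rr z * (cur S α k z + τ.fE k z)) *
        ∑ y, ∑ y', S.rho k y y' z * rp s y z * rp s' y' z ∂(μHE[4] : Measure M) ∧
      Integrable (fun z => (τ.rr z * (cur S α k z + τ.fE k z)) *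
        ∑ y, ∑ y', S.rho k y y' z * rp s y z * rp s' y' z) (μHE[4] : Measure M) := by
    intro k
    refine inner_L2 ?_ (coe_RM hOK (Sob4_984.emb4_Dat S.D0) k s s')
    filter_upwards [coe_mV (bm_smooth hτ.smrr) (BL S hτ k α), coe_BL S hτ k α] with z e1 e2
    rw [e1, e2]
    rfl
  have h2 : ∀ z, ∑ k, (τ.rr z * (cur S α k z + τ.fE k z)) *
        ∑ y, ∑ y', S.rho k y y' z * rp s y z * rp s' y' z =
      τ.rr z * ∑ k, (cur S α k z + τ.fE k z) *
        ∑ y, ∑ y', S.rho k y y' z * rp s y z * rp s' y' z := by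
    intro z
    rw [Finset.mul_sum]
    exact Finset.sum_congr rfl fun k _ => by rw [mul_assoc]
  constructor
  · unfold I5
    rw [Finset.sum_congr rfl fun k _ => (h1 k).1, ← integral_finsetSum _ fun k _ => (h1 k).2]
    exact integral_congr_ae (Eventually.of_forall h2)
  · exact (integrable_finsetSum _ fun k _ => (h1 k).2).congr (Eventually.of_forall h2)

/-- `∫ ρ⁻¹ |s'|²` -/
def I6 (s' : S.D0.toAD.WE) : ℝ :=
  wip (bm_smooth (smooth_rr S hτ (-1 : ℝ))) (S.D0.toAD.i1 s') (S.D0.toAD.i1 s')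

theorem I6_eq (s' : S.D0.toAD.WE) :
    I6 S hτ s' = ∫ z, (τ.rr z)⁻¹ * ∑ y, rp s' y z ^ 2 ∂(μHE[4] : Measure M) ∧
    Integrable (fun z => (τ.rr z)⁻¹ * ∑ y, rp s' y z ^ 2) (μHE[4] : Measure M) := by
  obtain ⟨h1, h2⟩ := wip_eq (bm_smooth (smooth_rr S hτ (-1 : ℝ)))
    (u := S.D0.toAD.i1 s') (v := S.D0.toAD.i1 s') (f := rp s') (g := rp s')
    (Eventually.of_forall fun _ _ => rfl) (Eventually.of_forall fun _ _ => rfl)
  have h3 : ∀ z, τ.rr z ^ (-1 : ℝ) * ∑ a, (⟪rp s' a z, rp s' a z⟫ : ℝ) =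
      (τ.rr z)⁻¹ * ∑ y, rp s' y z ^ 2 := fun z => by
    rw [Real.rpow_neg_one]
    congr 1
    exact Finset.sum_congr rfl fun y _ => by rw [rin, sq]
  exact ⟨h1.trans (integral_congr_ae (Eventually.of_forall h3)),
    h2.congr (Eventually.of_forall h3)⟩

/-! ### smooth sections -/

theorem prE_cW (a : SmS S.DT) (u : SmS S.D0) : ∀ᵐ z ∂(μHE[4] : Measure M), ∀ y,
    τ.prE S (nabW S (cW S.DT a) (cW S.D0 u)) (rp (cW S.D0 u)) y z = τ.nE S a.1 u.1 y z := by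
  filter_upwards [nabW_sm a u, rp_cW S u] with z e1 e2 y
  unfold TD.nE TD.prE
  simp only [e1, e2]

theorem cur_cW (a : SmS S.DT) : ∀ᵐ z ∂(μHE[4] : Measure M), ∀ k : Fin 3,
    cur S (cW S.DT a) k z = S.H.B a.1 k.succ z := by
  filter_upwards [curW_sm a] with z e1 k
  exact e1 k.succ

set_option maxHeartbeats 1600000 in
/-- **T1 on `W^{1,2}`** -/
theorem t1W (α : S.DT.toAD.WE) (w : S.D0.toAD.WE) :
    I4 S hOK hτ α (scW S hτ (3 / 4) (zW S hOK hτ w)) (scW S hτ (3 / 4) (zW S hOK hτ w)) =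
      I2 S hOK hτ α (zW S hOK hτ w) - I3 S hτ α (zW S hOK hτ w) := by
  have hz : Continuous fun q : S.DT.toAD.WE × S.D0.toAD.WE => zW S hOK hτ q.2 :=
    (zW S hOK hτ).continuous.comp continuous_snd
  have hV : Continuous fun q : S.DT.toAD.WE × S.D0.toAD.WE =>
      scW S hτ (3 / 4) (zW S hOK hτ q.2) := cont_cp (scW S hτ (3 / 4)).continuous hz
  have hDL : Continuous fun q : S.DT.toAD.WE × S.D0.toAD.WE =>
      DL S hOK q.1 (scW S hτ (3 / 4) (zW S hOK hτ q.2)) :=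
    cont_cp2 (f := fun a u => DL S hOK a u) (continuous_DL S hOK) continuous_fst hV
  have hPL : Continuous fun q : S.DT.toAD.WE × S.D0.toAD.WE =>
      TauxB_433.PL S hOK hτ q.1 (zW S hOK hτ q.2) :=
    cont_cp2 (f := fun a u => TauxB_433.PL S hOK hτ a u) (continuous_PL S hOK hτ)
      continuous_fst hz
  have c1 : Continuous fun q : S.DT.toAD.WE × S.D0.toAD.WE =>
      I4 S hOK hτ q.1 (scW S hτ (3 / 4) (zW S hOK hτ q.2)) (scW S hτ (3 / 4) (zW S hOK hτ q.2)) :=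
    continuous_wip _ hDL hDL
  have c2 : Continuous fun q : S.DT.toAD.WE × S.D0.toAD.WE =>
      I2 S hOK hτ q.1 (zW S hOK hτ q.2) := continuous_wip _ hPL hPL
  have b1 : Continuous fun q : S.DT.toAD.WE × S.D0.toAD.WE => BN S hτ q.1 :=
    cont_cp (continuous_BN S hτ) continuous_fst
  have b2 : Continuous fun q : S.DT.toAD.WE × S.D0.toAD.WE => N2 S (zW S hOK hτ q.2) :=
    cont_cp (f := fun w => N2 S w) (continuous_N2 S) hz
  have c3 : Continuous fun q : S.DT.toAD.WE × S.D0.toAD.WE =>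
      I3 S hτ q.1 (zW S hOK hτ q.2) := by
    unfold I3
    exact cont_in b1 b2
  refine smooth_pair S (p := fun q => I4 S hOK hτ q.1 (scW S hτ (3 / 4) (zW S hOK hτ q.2))
    (scW S hτ (3 / 4) (zW S hOK hτ q.2)) =
      I2 S hOK hτ q.1 (zW S hOK hτ q.2) - I3 S hτ q.1 (zW S hOK hτ q.2))
    (isClosed_eq c1 (c2.sub c3)) (fun a u => ?_) (α, w)
  beta_reduce
  simp only [zW_cW, scW_cW]
  set s := zS S hOK hτ u with hsd
  rw [(I4_eq S hOK hτ _ _ _).1, (I2_eq S hOK hτ _ _).1, (I3_eq S hτ _ _).1,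
    ← integral_sub (I2_eq S hOK hτ _ _).2 (I3_eq S hτ _ _).2]
  have hT := hτ.T1 a.1 s.1 a.2.1 a.2.2 s.2.1 (secE_Pz S hOK hτ u.1)
  refine Eq.trans ?_ (hT.trans ?_)
  · refine integral_congr_ae ?_
    filter_upwards [dirW_sm a (scS S hτ (3 / 4) s)] with z e1
    simp only [e1]
    congr 1
    exact Finset.sum_congr rfl fun x _ => (sq _).symm
  · refine integral_congr_ae ?_
    filter_upwards [prE_cW S (τ := τ) a s, cur_cW S a, rp_cW S s] with z e1 e2 e3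
    simp only [e1, e2, e3]
    congr 1
    have : ∑ k, τ.rr z * τ.n k z * (S.H.B a.1 k.succ z + τ.fE k z) =
        τ.rr z * ∑ k, (S.H.B a.1 k.succ z + τ.fE k z) * τ.n k z := by
      rw [Finset.mul_sum]
      exact Finset.sum_congr rfl fun k _ => by ring
    rw [this]

set_option maxHeartbeats 1600000 in
/-- **T2 on `W^{1,2}`** -/
theorem t2W (α : S.DT.toAD.WE) (w : S.D0.toAD.WE) :
    |I4 S hOK hτ α (scW S hτ (3 / 4) (zW S hOK hτ w)) (scW S hτ (3 / 4) (oW S hOK hτ w)) -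
      I5 S hOK hτ α (zW S hOK hτ w) (oW S hOK hτ w)| ≤
      (1 / 2) * I2 S hOK hτ α (zW S hOK hτ w) + C ^ 2 / 2 * I6 S hτ (oW S hOK hτ w) := by
  have hz : Continuous fun q : S.DT.toAD.WE × S.D0.toAD.WE => zW S hOK hτ q.2 :=
    (zW S hOK hτ).continuous.comp continuous_snd
  have ho : Continuous fun q : S.DT.toAD.WE × S.D0.toAD.WE => oW S hOK hτ q.2 :=
    (oW S hOK hτ).continuous.comp continuous_snd
  have hV : Continuous fun q : S.DT.toAD.WE × S.D0.toAD.WE =>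
      scW S hτ (3 / 4) (zW S hOK hτ q.2) := cont_cp (scW S hτ (3 / 4)).continuous hz
  have hV' : Continuous fun q : S.DT.toAD.WE × S.D0.toAD.WE =>
      scW S hτ (3 / 4) (oW S hOK hτ q.2) := cont_cp (scW S hτ (3 / 4)).continuous ho
  have hDL : Continuous fun q : S.DT.toAD.WE × S.D0.toAD.WE =>
      DL S hOK q.1 (scW S hτ (3 / 4) (zW S hOK hτ q.2)) :=
    cont_cp2 (f := fun a u => DL S hOK a u) (continuous_DL S hOK) continuous_fst hV
  have hDL' : Continuous fun q : S.DT.toAD.WE × S.D0.toAD.WE =>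
      DL S hOK q.1 (scW S hτ (3 / 4) (oW S hOK hτ q.2)) :=
    cont_cp2 (f := fun a u => DL S hOK a u) (continuous_DL S hOK) continuous_fst hV'
  have hPL : Continuous fun q : S.DT.toAD.WE × S.D0.toAD.WE =>
      TauxB_433.PL S hOK hτ q.1 (zW S hOK hτ q.2) :=
    cont_cp2 (f := fun a u => TauxB_433.PL S hOK hτ a u) (continuous_PL S hOK hτ)
      continuous_fst hz
  have c1 : Continuous fun q : S.DT.toAD.WE × S.D0.toAD.WE =>
      I4 S hOK hτ q.1 (scW S hτ (3 / 4) (zW S hOK hτ q.2)) (scW S hτ (3 / 4) (oW S hOK hτ q.2)) :=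
    continuous_wip _ hDL hDL'
  have c2 : Continuous fun q : S.DT.toAD.WE × S.D0.toAD.WE =>
      I2 S hOK hτ q.1 (zW S hOK hτ q.2) := continuous_wip _ hPL hPL
  have c5 : Continuous fun q : S.DT.toAD.WE × S.D0.toAD.WE =>
      I5 S hOK hτ q.1 (zW S hOK hτ q.2) (oW S hOK hτ q.2) := by
    unfold I5
    refine continuous_finsetSum _ fun k _ => ?_
    have b1 : Continuous fun q : S.DT.toAD.WE × S.D0.toAD.WE => BL S hτ k q.1 :=
      cont_cp (continuous_BL S hτ k) continuous_fst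
    have b2 : Continuous fun q : S.DT.toAD.WE × S.D0.toAD.WE =>
        mV (bm_smooth hτ.smrr) (BL S hτ k q.1) :=
      cont_cp (mV (bm_smooth hτ.smrr)).continuous b1
    have b3 : Continuous fun q : S.DT.toAD.WE × S.D0.toAD.WE =>
        RM S hOK k (zW S hOK hτ q.2) (oW S hOK hτ q.2) :=
      cont_cp2 (f := fun u w => RM S hOK k u w) (cont_RM hOK (Sob4_984.emb4_Dat S.D0) k) hz ho
    exact cont_in b2 b3
  have c6 : Continuous fun q : S.DT.toAD.WE × S.D0.toAD.WE => I6 S hτ (oW S hOK hτ q.2) :=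
    continuous_wip _ (cont_cp S.D0.toAD.i1.continuous ho) (cont_cp S.D0.toAD.i1.continuous ho)
  refine smooth_pair S (p := fun q =>
    |I4 S hOK hτ q.1 (scW S hτ (3 / 4) (zW S hOK hτ q.2)) (scW S hτ (3 / 4) (oW S hOK hτ q.2)) -
      I5 S hOK hτ q.1 (zW S hOK hτ q.2) (oW S hOK hτ q.2)| ≤
      (1 / 2) * I2 S hOK hτ q.1 (zW S hOK hτ q.2) + C ^ 2 / 2 * I6 S hτ (oW S hOK hτ q.2))
    (isClosed_le (c1.sub c5).abs ((c2.const_mul _).add (c6.const_mul _))) (fun a u => ?_) (α, w)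
  beta_reduce
  simp only [zW_cW, oW_cW, scW_cW]
  set s := zS S hOK hτ u with hsd
  set s' := oS S hOK hτ u with hsd'
  have hT := hτ.T2 a.1 s.1 s'.1 a.2.1 a.2.2 s.2.1 s'.2.1 (secE_Pz S hOK hτ u.1)
    (secE'_Po S hOK hτ u.1)
  have hL : I4 S hOK hτ (cW S.DT a) (cW S.D0 (scS S hτ (3 / 4) s)) (cW S.D0 (scS S hτ (3 / 4) s')) -
      I5 S hOK hτ (cW S.DT a) (cW S.D0 s) (cW S.D0 s') =
      ∫ z, (τ.rr z ^ (-(1 / 2) : ℝ) *
        (∑ x, (S.P.A (τ.sc (3 / 4) s.1) + S.cm a.1 (τ.sc (3 / 4) s.1)) x z *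
          (S.P.A (τ.sc (3 / 4) s'.1) + S.cm a.1 (τ.sc (3 / 4) s'.1)) x z) -
        τ.rr z * ∑ k, (S.H.B a.1 k.succ z + τ.fE k z) *
          ∑ y, ∑ y', S.rho k y y' z * s.1 y z * s'.1 y' z) ∂(μHE[4] : Measure M) := by
    rw [(I4_eq S hOK hτ _ _ _).1, (I5_eq S hOK hτ _ _ _).1,
      ← integral_sub (I4_eq S hOK hτ _ _ _).2 (I5_eq S hOK hτ _ _ _).2]
    refine integral_congr_ae ?_
    filter_upwards [dirW_sm a (scS S hτ (3 / 4) s), dirW_sm a (scS S hτ (3 / 4) s'),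
      cur_cW S a, rp_cW S s, rp_cW S s'] with z e1 e2 e3 e4 e5
    simp only [e1, e2, e3, e4, e5]
    rfl
  rw [hL]
  refine hT.trans ?_
  have hR : (1 / 2) * I2 S hOK hτ (cW S.DT a) (cW S.D0 s) + C ^ 2 / 2 * I6 S hτ (cW S.D0 s') =
      ∫ z, ((1 / 2) * (τ.rr z * ∑ y, ‖τ.prE S (nabW S (cW S.DT a) (cW S.D0 s))
        (rp (cW S.D0 s)) y z‖ ^ 2) + C ^ 2 / 2 * ((τ.rr z)⁻¹ * ∑ y, rp (cW S.D0 s') y z ^ 2))
        ∂(μHE[4] : Measure M) := by
    rw [(I2_eq S hOK hτ _ _).1, (I6_eq S hτ _).1, integral_add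
      ((I2_eq S hOK hτ _ _).2.const_mul _) ((I6_eq S hτ _).2.const_mul _), integral_const_mul,
      integral_const_mul]
  have hRi : Integrable (fun z => (1 / 2) * (τ.rr z * ∑ y, ‖τ.prE S (nabW S (cW S.DT a)
      (cW S.D0 s)) (rp (cW S.D0 s)) y z‖ ^ 2) +
      C ^ 2 / 2 * ((τ.rr z)⁻¹ * ∑ y, rp (cW S.D0 s') y z ^ 2)) (μHE[4] : Measure M) :=
    ((I2_eq S hOK hτ _ _).2.const_mul _).add ((I6_eq S hτ _).2.const_mul _)
  rw [hR]
  have h0 : 0 ≤ ∫ z, √(∑ y, ‖τ.nE S a.1 s.1 y z‖ ^ 2) * √(∑ y, s'.1 y z ^ 2)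
      ∂(μHE[4] : Measure M) := integral_nonneg fun z => by positivity
  refine (mul_le_mul_of_nonneg_right (le_abs_self C) h0).trans ?_
  rw [← integral_const_mul]
  refine integral_mono_of_nonneg (Eventually.of_forall fun z => by positivity) hRi ?_
  filter_upwards [prE_cW S (τ := τ) a s, rp_cW S s'] with z e1 e2
  simp only [e1, e2]
  set G : ℝ := ∑ y, ‖τ.nE S a.1 s.1 y z‖ ^ 2 with hG
  set N : ℝ := ∑ y, s'.1 y z ^ 2 with hN
  have hG0 : 0 ≤ G := Finset.sum_nonneg fun _ _ => sq_nonneg _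
  have hN0 : 0 ≤ N := Finset.sum_nonneg fun _ _ => sq_nonneg _
  have hr := hτ.pos z
  have k1 : (√(τ.rr z) * √G - |C| * √N / √(τ.rr z)) ^ 2 =
      τ.rr z * G - 2 * (|C| * (√G * √N)) + C ^ 2 * ((τ.rr z)⁻¹ * N) := by
    have r0 : √(τ.rr z) ≠ 0 := (Real.sqrt_pos.2 hr).ne'
    have r1 : √(τ.rr z) ^ 2 = τ.rr z := Real.sq_sqrt hr.le
    have r2 : √G ^ 2 = G := Real.sq_sqrt hG0
    have r3 : √N ^ 2 = N := Real.sq_sqrt hN0
    have r4 : |C| ^ 2 = C ^ 2 := sq_abs C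
    have e : (√(τ.rr z) * √G - |C| * √N / √(τ.rr z)) ^ 2 =
        √(τ.rr z) ^ 2 * √G ^ 2 - 2 * (|C| * (√G * √N)) * (√(τ.rr z) / √(τ.rr z)) +
          |C| ^ 2 * (√N ^ 2 / √(τ.rr z) ^ 2) := by
      field_simp
      ring
    rw [e, r1, r2, r3, r4, div_self r0, mul_one, div_eq_inv_mul]
  have k2 := sq_nonneg (√(τ.rr z) * √G - |C| * √N / √(τ.rr z))
  rw [k1] at k2
  linarith

end mfd

end Crest.Agent.R235.TauxC_433
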