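import Crest.Agent.R235.TauxC_433

/-!
# Row 235, SW-TAUX, part E (helper433): the Taubes estimate
-/

set_option autoImplicit false
set_option linter.unusedSectionVars false
set_option linter.unusedVariables false
set_option maxSynthPendingDepth 3
open scoped ContDiff ENNReal NNReal Topology Manifold Bundle RealInnerProductSpace
open MeasureTheory Set Filter Metric Bundle

universe v

noncomputable section
namespace Crest.Agent.R235.TauxE_433

open Crest.Agent.R247.Dir593 Crest.Agent.R247.Ms322 Crest.Agent.R247.Frd657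
open Crest.Agent.R249.Tv57 Crest.Agent.R235.Dens_433 Crest.Agent.R235.Fs4_546
open Crest.Agent.R235.Dns_433 Crest.Agent.R235.SWDefs_53 Crest.Agent.R235.W12_109
open Crest.Agent.R235.SupbA_433 Crest.Agent.R235.Cpt_755 Crest.Agent.R235.L4_433
open Crest.Agent.R235.CptC_755 Crest.Agent.R235.WtzW_86 Crest.Agent.R235.Tauf_433
open Crest.Agent.R235.TauxB_433 Crest.Agent.R235.TauxA_433 Crest.Agent.R235.TauxC_433

theorem int6 {X : Type*} [MeasurableSpace X] {μ : Measure X} {f1 f2 f3 f4 f5 f6 : X → ℝ}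
    (h1 : Integrable f1 μ) (h2 : Integrable f2 μ) (h3 : Integrable f3 μ) (h4 : Integrable f4 μ)
    (h5 : Integrable f5 μ) (h6 : Integrable f6 μ) (c1 c4 c5 c6 : ℝ) :
    Integrable (fun z => c1 * f1 z - f2 z + f3 z - c4 * f4 z + c5 * f5 z + c6 * f6 z) μ ∧
    ∫ z, (c1 * f1 z - f2 z + f3 z - c4 * f4 z + c5 * f5 z + c6 * f6 z) ∂μ =
      c1 * ∫ z, f1 z ∂μ - ∫ z, f2 z ∂μ + ∫ z, f3 z ∂μ - c4 * ∫ z, f4 z ∂μ + c5 * ∫ z, f5 z ∂μ +
        c6 * ∫ z, f6 z ∂μ := by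
  have i2 : Integrable (fun z => c1 * f1 z - f2 z) μ := (h1.const_mul c1).sub h2
  have i3 : Integrable (fun z => c1 * f1 z - f2 z + f3 z) μ := i2.add h3
  have i4 : Integrable (fun z => c1 * f1 z - f2 z + f3 z - c4 * f4 z) μ :=
    i3.sub (h4.const_mul c4)
  have i5 : Integrable (fun z => c1 * f1 z - f2 z + f3 z - c4 * f4 z + c5 * f5 z) μ :=
    i4.add (h5.const_mul c5)
  refine ⟨i5.add (h6.const_mul c6), ?_⟩
  rw [integral_add i5 (h6.const_mul c6), integral_add i4 (h5.const_mul c5),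
    integral_sub i3 (h4.const_mul c4), integral_add i2 h3, integral_sub (h1.const_mul c1) h2,
    integral_const_mul, integral_const_mul, integral_const_mul, integral_const_mul]

section mfd
variable {M : Type v} [MetricSpace M] [CompactSpace M] [ConnectedSpace M]
  [ChartedSpace (EuclideanSpace ℝ (Fin 4)) M] [IsManifold (𝓡 4) ∞ M]
  [RiemannianBundle (fun p : M => TangentSpace (𝓡 4) p)]
  [IsContMDiffRiemannianBundle (𝓡 4) ∞ (EuclideanSpace ℝ (Fin 4))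
    (fun p : M => TangentSpace (𝓡 4) p)]
  [IsRiemannianManifold (𝓡 4) M] [MeasurableSpace M] [BorelSpace M]
  [SecondCountableTopology M] [Nonempty M] [IsFiniteMeasureOnCompacts (μHE[4] : Measure M)]
  {κ0 κ1 κT : Type} [Fintype κ0] [Fintype κ1] [Fintype κT] (S : SWS M κ0 κ1 κT)

local notation "𝔼" => EuclideanSpace ℝ (Fin 4)

variable {τ : TD M κT} {C : ℝ} (hOK : S.OK) (hτ : τ.OK S C)

/-- the Dirac operator is additive in the spinor -/
theorem dirW_add (α : S.DT.toAD.WE) (V V' : S.D0.toAD.WE) : ∀ᵐ z ∂(μHE[4] : Measure M), ∀ x,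
    dirW S α (V + V') x z = dirW S α V x z + dirW S α V' x z := by
  have h1 : ∀ᵐ z ∂(μHE[4] : Measure M), ∀ x,
      (((Ah S.P (V + V') : S.D1.toAD.HE) : HH (μHE[4] : Measure M) κ1) x : M → ℝ) z =
      (((Ah S.P V : S.D1.toAD.HE) : HH (μHE[4] : Measure M) κ1) x : M → ℝ) z +
      (((Ah S.P V' : S.D1.toAD.HE) : HH (μHE[4] : Measure M) κ1) x : M → ℝ) z := by
    rw [map_add]
    exact ae_all_iff.2 fun x => Lp.coeFn_add _ _
  have h2 : ∀ᵐ z ∂(μHE[4] : Measure M), ∀ y, rp (V + V') y z = rp V y z + rp V' y z := by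
    unfold rp
    rw [map_add]
    exact ae_all_iff.2 fun x => Lp.coeFn_add _ _
  filter_upwards [h1, h2] with z e1 e2 x
  unfold dirW
  rw [e1 x]
  have e3 : S.cm (rp α) (rp (V + V')) x z = S.cm (rp α) (rp V) x z + S.cm (rp α) (rp V') x z := by
    unfold SWS.cm
    simp only [e2, ← Finset.sum_add_distrib]
    exact Finset.sum_congr rfl fun A _ => Finset.sum_congr rfl fun y _ => by ring
  rw [e3]
  ring

/-- the two parts -/
theorem z_add_o (w : S.D0.toAD.WE) : ∀ᵐ z ∂(μHE[4] : Measure M), ∀ y,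
    rp (zW S hOK hτ w) y z + rp (oW S hOK hτ w) y z = rp w y z := by
  filter_upwards [coe_zW S hOK hτ w, coe_oW S hOK hτ w, rp_p S w] with z e1 e2 e3 y
  rw [e1 y, e2 y, ← e3 y, ← Finset.sum_add_distrib]
  refine Finset.sum_congr rfl fun b _ => ?_
  unfold Pz Po
  ring

theorem R_zW (w : S.D0.toAD.WE) : ∀ᵐ z ∂(μHE[4] : Measure M), ∀ y,
    ∑ k, ∑ y', τ.n k z * S.rho k y y' z * rp (zW S hOK hτ w) y' z =
      -1 * rp (zW S hOK hτ w) y z := by
  filter_upwards [coe_zW S hOK hτ w] with z e1 y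
  have h := (secE_Pz S hOK hτ (rp w)).2 y z
  simp only [e1]
  rw [neg_one_mul]
  exact h

theorem R_oW (w : S.D0.toAD.WE) : ∀ᵐ z ∂(μHE[4] : Measure M), ∀ y,
    ∑ k, ∑ y', τ.n k z * S.rho k y y' z * rp (oW S hOK hτ w) y' z =
      1 * rp (oW S hOK hτ w) y z := by
  filter_upwards [coe_oW S hOK hτ w] with z e1 y
  have h := (secE'_Po S hOK hτ (rp w)).2 y z
  simp only [e1]
  rw [one_mul]
  exact h

set_option maxHeartbeats 1600000 in
/-- **the Taubes estimate** -/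
theorem core {r : ℝ} (hr : 0 < r) (hbig : ∀ z, C ^ 2 ≤ r * τ.rr z ^ 3)
    (htop : ∫ z, ∑ k, τ.rr z * τ.n k z * τ.fE k z ∂(μHE[4] : Measure M) ≤ 0)
    {β : S.DT.toAD.WE} {U : S.D0.toAD.WE} {u : κ0 → M → ℝ}
    (hU : ∀ᵐ z ∂(μHE[4] : Measure M), ∀ y, rp U y z = u y z)
    (hcur : ∀ᵐ z ∂(μHE[4] : Measure M), ∀ k : Fin 3, cur S β k z + τ.fE k z =
      τ.rr z ^ (-(1 / 2) : ℝ) * ((1 / 2) * S.rq k u z) + r * (τ.rr z * τ.n k z))
    (hdir : ∀ᵐ z ∂(μHE[4] : Measure M), ∀ x, dirW S β U x z = 0)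
    (h6i : Integrable (fun z => ∑ k, τ.rr z * τ.n k z * cur S β k z) (μHE[4] : Measure M))
    (h6 : ∫ z, ∑ k, τ.rr z * τ.n k z * cur S β k z ∂(μHE[4] : Measure M) = 0) :
    ∀ᵐ z ∂(μHE[4] : Measure M),
      (∀ y, rp (oW S hOK hτ (scW S hτ (-(3 / 4)) U)) y z = 0) ∧
      (∀ y, τ.prE S (nabW S β (zW S hOK hτ (scW S hτ (-(3 / 4)) U)))
        (rp (zW S hOK hτ (scW S hτ (-(3 / 4)) U))) y z = 0) ∧
      ∑ y, rp (zW S hOK hτ (scW S hτ (-(3 / 4)) U)) y z ^ 2 = 2 * r := by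
  set w := scW S hτ (-(3 / 4)) U with hw
  set s := zW S hOK hτ w with hs
  set s' := oW S hOK hτ w with hs'
  set V := scW S hτ (3 / 4) s with hV
  set V' := scW S hτ (3 / 4) s' with hV'
  -- `u = ρ^{3/4} (s + s')`
  have hus : ∀ᵐ z ∂(μHE[4] : Measure M), ∀ y,
      u y z = τ.rr z ^ (3 / 4 : ℝ) * (rp s y z + rp s' y z) := by
    filter_upwards [hU, coe_scW S hτ (-(3 / 4)) U, z_add_o S hOK hτ w] with z e1 e2 e3 y
    rw [e3 y, e2 y, ← e1 y, ← mul_assoc, ← Real.rpow_add (hτ.pos z)]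
    norm_num
  have hVV : V + V' = U := by
    refine i1_injective S.D0.toAD ?_
    ext y
    have h1 : ∀ᵐ z ∂(μHE[4] : Measure M), ∀ y, rp (V + V') y z = rp V y z + rp V' y z := by
      unfold rp
      rw [map_add]
      exact ae_all_iff.2 fun x => Lp.coeFn_add _ _
    filter_upwards [h1, coe_scW S hτ (3 / 4) s, coe_scW S hτ (3 / 4) s', hus, hU]
      with z e1 e2 e3 e4 e5
    have h2 : rp (V + V') y z = rp U y z := by
      rw [e1 y, e2 y, e3 y, e5 y, e4 y]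
      ring
    exact h2
  -- the Dirac equation
  have hdd : ∀ᵐ z ∂(μHE[4] : Measure M), ∀ x, dirW S β V' x z = - dirW S β V x z := by
    filter_upwards [dirW_add S β V V', hdir] with z e1 e2 x
    have e3 := e1 x
    rw [hVV, e2 x] at e3
    linarith
  -- pointwise algebra
  have halg : ∀ᵐ z ∂(μHE[4] : Measure M),
      (∑ k, (cur S β k z + τ.fE k z) * τ.n k z =
        τ.rr z * (r + ((∑ y, rp s' y z ^ 2) - ∑ y, rp s y z ^ 2) / 2)) ∧
      ∑ k, (cur S β k z + τ.fE k z) * bf (fun y y' => S.rho k y y' z) (fun y => rp s y z)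
        (fun y => rp s' y z) = τ.rr z * ((∑ y, rp s y z ^ 2) * ∑ y, rp s' y z ^ 2) := by
    filter_upwards [hus, hcur, rp_p S s, rp_p S s', R_zW S hOK hτ w, R_oW S hOK hτ w]
      with z e1 e2 e3 e4 e5 e6
    exact alg5 (p := fun y y' => S.D0.p y y' z) (rho := fun k y y' => S.rho k y y' z)
      (n := fun k => τ.n k z) (fun k y y' => hOK.symrho k y y' z) (hτ.norm z)
      (fun v hv => hOK.fierz z v hv) (s := fun y => rp s y z) (s' := fun y => rp s' y z)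
      e3 e4 e5 e6 (hτ.pos z) (u := fun y => u y z) e1 (fun k => e2 k)
  -- the integrals
  obtain ⟨a1, b1⟩ := I4_eq S hOK hτ β V V
  obtain ⟨a1', b1'⟩ := I4_eq S hOK hτ β V V'
  obtain ⟨a2, b2⟩ := I2_eq S hOK hτ β s
  obtain ⟨a3, b3⟩ := I3_eq S hτ β s
  obtain ⟨a5, b5⟩ := I5_eq S hOK hτ β s s'
  obtain ⟨a6, b6⟩ := I6_eq S hτ s'
  have t1 := t1W S hOK hτ β w
  have t2 := t2W S hOK hτ β w
  rw [← hs, ← hV] at t1
  rw [← hs, ← hs', ← hV, ← hV'] at t2
  have hneg : I4 S hOK hτ β V V' = - I4 S hOK hτ β V V := by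
    rw [a1', a1, ← integral_neg]
    refine integral_congr_ae ?_
    filter_upwards [hdd] with z e1
    simp only [e1, mul_neg, Finset.sum_neg_distrib]
  have hfEi : Integrable (fun z => ∑ k, τ.rr z * τ.n k z * τ.fE k z) (μHE[4] : Measure M) := by
    have hc : Continuous fun z => ∑ k, τ.rr z * τ.n k z * τ.fE k z :=
      continuous_finsetSum _ fun k _ => (hτ.smrr.continuous.mul (hτ.smn k).continuous).mul
        (hτ.smfE k).continuous
    exact hc.integrable_of_hasCompactSupport (HasCompactSupport.of_compactSpace _)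
  have hle : I4 S hOK hτ β V V + I5 S hOK hτ β s s' ≤
      (1 / 2) * I2 S hOK hτ β s + C ^ 2 / 2 * I6 S hτ s' := by
    have h1 := (abs_le.1 t2).1
    rw [hneg] at h1
    linarith
  -- the function `Ψ`
  set Ψ : M → ℝ := fun z =>
    (1 / 2) * (τ.rr z * ∑ y, ‖τ.prE S (nabW S β s) (rp s) y z‖ ^ 2) -
    (∑ k, (τ.rr z * τ.n k z) * (cur S β k z + τ.fE k z)) * (∑ y, rp s y z ^ 2) +
    τ.rr z * (∑ k, (cur S β k z + τ.fE k z) *
      ∑ y, ∑ y', S.rho k y y' z * rp s y z * rp s' y' z) -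
    C ^ 2 / 2 * ((τ.rr z)⁻¹ * ∑ y, rp s' y z ^ 2) +
    2 * r * (∑ k, τ.rr z * τ.n k z * cur S β k z) +
    2 * r * (∑ k, τ.rr z * τ.n k z * τ.fE k z) with hΨ
  obtain ⟨hΨi0, hΨint0⟩ := int6 b2 b3 b5 b6 h6i hfEi (1 / 2) (C ^ 2 / 2) (2 * r) (2 * r)
  have hΨi : Integrable Ψ (μHE[4] : Measure M) := hΨi0
  have hΨint : ∫ z, Ψ z ∂(μHE[4] : Measure M) = (1 / 2) * I2 S hOK hτ β s - I3 S hτ β s +
      I5 S hOK hτ β s s' - C ^ 2 / 2 * I6 S hτ s' + 2 * r * 0 +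
      2 * r * ∫ z, ∑ k, τ.rr z * τ.n k z * τ.fE k z ∂(μHE[4] : Measure M) := by
    rw [a2, a3, a5, a6, ← h6]
    exact hΨint0
  have hΨle : ∫ z, Ψ z ∂(μHE[4] : Measure M) ≤ 0 := by
    rw [hΨint]
    have h2r : 2 * r * ∫ z, ∑ k, τ.rr z * τ.n k z * τ.fE k z ∂(μHE[4] : Measure M) ≤ 0 :=
      mul_nonpos_of_nonneg_of_nonpos (by linarith) htop
    linarith
  have hpt : ∀ᵐ z ∂(μHE[4] : Measure M),
      (1 / 2) * (τ.rr z * ∑ y, ‖τ.prE S (nabW S β s) (rp s) y z‖ ^ 2) +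
      (1 / 2) * (τ.rr z ^ 2 * ((2 * r - ∑ y, rp s y z ^ 2) ^ 2 +
        (∑ y, rp s' y z ^ 2) * (r + ∑ y, rp s y z ^ 2))) ≤ Ψ z := by
    filter_upwards [halg] with z hz
    obtain ⟨z1, z2⟩ := hz
    have h1 := ptineq (C := C) (rr := τ.rr z) (r := r)
      (G := ∑ y, ‖τ.prE S (nabW S β s) (rp s) y z‖ ^ 2) (N0 := ∑ y, rp s y z ^ 2)
      (N1 := ∑ y, rp s' y z ^ 2) (hτ.pos z) (hbig z) (Finset.sum_nonneg fun _ _ => sq_nonneg _)
    have e1 : ∑ k, (τ.rr z * τ.n k z) * (cur S β k z + τ.fE k z) =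
        τ.rr z * (τ.rr z * (r + ((∑ y, rp s' y z ^ 2) - ∑ y, rp s y z ^ 2) / 2)) := by
      rw [← z1, Finset.mul_sum]
      exact Finset.sum_congr rfl fun k _ => by ring
    have e2 : ∑ k, (cur S β k z + τ.fE k z) *
        ∑ y, ∑ y', S.rho k y y' z * rp s y z * rp s' y' z =
        τ.rr z * ((∑ y, rp s y z ^ 2) * ∑ y, rp s' y z ^ 2) := z2
    have e3 : (∑ k, τ.rr z * τ.n k z * cur S β k z) + (∑ k, τ.rr z * τ.n k z * τ.fE k z) =
        τ.rr z * (τ.rr z * (r + ((∑ y, rp s' y z ^ 2) - ∑ y, rp s y z ^ 2) / 2)) := by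
      rw [← e1, ← Finset.sum_add_distrib]
      exact Finset.sum_congr rfl fun k _ => by ring
    have e4 : Ψ z = τ.rr z * (∑ y, ‖τ.prE S (nabW S β s) (rp s) y z‖ ^ 2) -
        τ.rr z * (τ.rr z * (r + ((∑ y, rp s' y z ^ 2) - ∑ y, rp s y z ^ 2) / 2)) *
          (∑ y, rp s y z ^ 2) +
        τ.rr z * (τ.rr z * ((∑ y, rp s y z ^ 2) * ∑ y, rp s' y z ^ 2)) -
        (1 / 2) * (τ.rr z * ∑ y, ‖τ.prE S (nabW S β s) (rp s) y z‖ ^ 2) -
        C ^ 2 / 2 * ((τ.rr z)⁻¹ * ∑ y, rp s' y z ^ 2) +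
        2 * r * (τ.rr z * (τ.rr z * (r + ((∑ y, rp s' y z ^ 2) - ∑ y, rp s y z ^ 2) / 2))) := by
      rw [← e3]
      simp only [hΨ]
      rw [e1, e2]
      rw [← e3]
      ring
    rw [e4]
    exact h1
  have hnn : ∀ᵐ z ∂(μHE[4] : Measure M), 0 ≤ Ψ z := by
    filter_upwards [hpt] with z hz
    refine le_trans ?_ hz
    have := hτ.pos z
    have g1 : 0 ≤ ∑ y, ‖τ.prE S (nabW S β s) (rp s) y z‖ ^ 2 :=
      Finset.sum_nonneg fun _ _ => sq_nonneg _
    have g2 : 0 ≤ ∑ y, rp s y z ^ 2 := Finset.sum_nonneg fun _ _ => sq_nonneg _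
    have g3 : 0 ≤ ∑ y, rp s' y z ^ 2 := Finset.sum_nonneg fun _ _ => sq_nonneg _
    positivity
  have hzero : Ψ =ᵐ[(μHE[4] : Measure M)] 0 :=
    (integral_eq_zero_iff_of_nonneg_ae hnn hΨi).1
      (le_antisymm hΨle (integral_nonneg_of_ae hnn))
  filter_upwards [hpt, hzero] with z e1 e2
  rw [e2] at e1
  have hp := hτ.pos z
  set G : ℝ := ∑ y, ‖τ.prE S (nabW S β s) (rp s) y z‖ ^ 2 with hG
  set N0 : ℝ := ∑ y, rp s y z ^ 2 with hN0
  set N1 : ℝ := ∑ y, rp s' y z ^ 2 with hN1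
  have g1 : 0 ≤ G := Finset.sum_nonneg fun _ _ => sq_nonneg _
  have g2 : 0 ≤ N0 := Finset.sum_nonneg fun _ _ => sq_nonneg _
  have g3 : 0 ≤ N1 := Finset.sum_nonneg fun _ _ => sq_nonneg _
  have k1 : 0 ≤ τ.rr z * G := by positivity
  have k2 : 0 ≤ τ.rr z ^ 2 * (2 * r - N0) ^ 2 := by positivity
  have k3 : 0 ≤ τ.rr z ^ 2 * (N1 * (r + N0)) := by positivity
  have e1' : (1 / 2) * (τ.rr z * G) + (1 / 2) * (τ.rr z ^ 2 * (2 * r - N0) ^ 2) +
      (1 / 2) * (τ.rr z ^ 2 * (N1 * (r + N0))) ≤ 0 := by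
    have : (0 : M → ℝ) z = 0 := rfl
    rw [this] at e1
    linarith [e1, mul_add (τ.rr z ^ 2) ((2 * r - N0) ^ 2) (N1 * (r + N0))]
  have m1 : G = 0 := by
    have : τ.rr z * G = 0 := by linarith
    rcases mul_eq_zero.1 this with h | h
    · exact absurd h hp.ne'
    · exact h
  have m2 : N0 = 2 * r := by
    have h1 : τ.rr z ^ 2 * (2 * r - N0) ^ 2 = 0 := by linarith
    rcases mul_eq_zero.1 h1 with h | h
    · exact absurd h (by positivity)
    · have := pow_eq_zero_iff (two_ne_zero) |>.1 h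
      linarith
  have m3 : N1 = 0 := by
    have h1 : τ.rr z ^ 2 * (N1 * (r + N0)) = 0 := by linarith
    rcases mul_eq_zero.1 h1 with h | h
    · exact absurd h (by positivity)
    · rcases mul_eq_zero.1 h with h | h
      · exact h
      · exact absurd h (by positivity)
  refine ⟨fun y => ?_, fun y => ?_, m2⟩
  · have := (Finset.sum_eq_zero_iff_of_nonneg fun y _ => sq_nonneg (rp s' y z)).1 m3 y
      (Finset.mem_univ y)
    exact pow_eq_zero_iff (two_ne_zero) |>.1 this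
  · have := (Finset.sum_eq_zero_iff_of_nonneg fun y _ =>
      sq_nonneg ‖τ.prE S (nabW S β s) (rp s) y z‖).1 m1 y (Finset.mem_univ y)
    exact norm_eq_zero.1 (pow_eq_zero_iff (two_ne_zero) |>.1 this)

end mfd

end Crest.Agent.R235.TauxE_433
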