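import Crest.Agent.R235.LbG_453
import Crest.Agent.R235.LbC_453

/-!
Row 235, helper453: tensor products and duals of rank one projections, the Chern class is additive.
-/

set_option autoImplicit false
set_option maxSynthPendingDepth 3
set_option linter.unusedSectionVars false

open Set Function Filter MeasureTheory
open scoped Manifold ContDiff Topology ComplexConjugate

universe u

namespace Crest.Agent.R235.Lb453

open Crest.Agent.R240 Crest.Agent.R240.Ch Crest.Agent.R235

noncomputable section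

section alg

variable {N K : ℕ}

/-- the Kronecker product, reindexed. -/
def kr (P : Matrix (Fin N) (Fin N) ℂ) (Q : Matrix (Fin K) (Fin K) ℂ) :
    Matrix (Fin (N * K)) (Fin (N * K)) ℂ :=
  fun i j => P (finProdFinEquiv.symm i).1 (finProdFinEquiv.symm j).1 *
    Q (finProdFinEquiv.symm i).2 (finProdFinEquiv.symm j).2

/-- the tensor product of vectors. -/
def kv (v : Fin N → ℂ) (w : Fin K → ℂ) : Fin (N * K) → ℂ :=
  fun i => v (finProdFinEquiv.symm i).1 * w (finProdFinEquiv.symm i).2

theorem sum_fin (f : Fin N → Fin K → ℂ) :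
    ∑ i : Fin (N * K), f (finProdFinEquiv.symm i).1 (finProdFinEquiv.symm i).2 =
      ∑ i, ∑ j, f i j := by
  rw [← Fintype.sum_prod_type' (f := f)]
  exact Equiv.sum_comp finProdFinEquiv.symm (fun x : Fin N × Fin K => f x.1 x.2)

theorem kr_mul (P P' : Matrix (Fin N) (Fin N) ℂ) (Q Q' : Matrix (Fin K) (Fin K) ℂ) :
    kr P Q * kr P' Q' = kr (P * P') (Q * Q') := by
  ext i j
  simp only [Matrix.mul_apply, kr]
  rw [sum_fin (fun a b => P (finProdFinEquiv.symm i).1 a * Q (finProdFinEquiv.symm i).2 b *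
    (P' a (finProdFinEquiv.symm j).1 * Q' b (finProdFinEquiv.symm j).2)), Finset.sum_mul_sum]
  refine Finset.sum_congr rfl fun a _ => Finset.sum_congr rfl fun b _ => ?_
  ring

theorem kr_mulVec (P : Matrix (Fin N) (Fin N) ℂ) (Q : Matrix (Fin K) (Fin K) ℂ)
    (v : Fin N → ℂ) (w : Fin K → ℂ) :
    (kr P Q).mulVec (kv v w) = kv (P.mulVec v) (Q.mulVec w) := by
  ext i
  simp only [Matrix.mulVec, dotProduct, kr, kv]
  rw [sum_fin (fun a b => P (finProdFinEquiv.symm i).1 a * Q (finProdFinEquiv.symm i).2 b *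
    (v a * w b)), Finset.sum_mul_sum]
  refine Finset.sum_congr rfl fun a _ => Finset.sum_congr rfl fun b _ => ?_
  ring

theorem kr_trace (P : Matrix (Fin N) (Fin N) ℂ) (Q : Matrix (Fin K) (Fin K) ℂ) :
    (kr P Q).trace = P.trace * Q.trace := by
  simp only [Matrix.trace, Matrix.diag_apply, kr]
  rw [sum_fin (fun a b => P a a * Q b b), Finset.sum_mul_sum]

theorem kr_herm (P : Matrix (Fin N) (Fin N) ℂ) (Q : Matrix (Fin K) (Fin K) ℂ) :
    (kr P Q).conjTranspose = kr P.conjTranspose Q.conjTranspose := by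
  ext i j
  simp [kr, Matrix.conjTranspose_apply]

theorem kr_add_left (P P' : Matrix (Fin N) (Fin N) ℂ) (Q : Matrix (Fin K) (Fin K) ℂ) :
    kr (P + P') Q = kr P Q + kr P' Q := by
  ext i j
  simp [kr, add_mul]

theorem kr_add_right (P : Matrix (Fin N) (Fin N) ℂ) (Q Q' : Matrix (Fin K) (Fin K) ℂ) :
    kr P (Q + Q') = kr P Q + kr P Q' := by
  ext i j
  simp [kr, mul_add]

theorem kr_zero_left (Q : Matrix (Fin K) (Fin K) ℂ) :
    kr (0 : Matrix (Fin N) (Fin N) ℂ) Q = 0 := by
  ext i j
  simp [kr]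

theorem kr_zero_right (P : Matrix (Fin N) (Fin N) ℂ) :
    kr P (0 : Matrix (Fin K) (Fin K) ℂ) = 0 := by
  ext i j
  simp [kr]

theorem kv_inner (v v' : Fin N → ℂ) (w w' : Fin K → ℂ) :
    ∑ i, conj (kv v w i) * kv v' w' i = (∑ i, conj (v i) * v' i) * ∑ i, conj (w i) * w' i := by
  simp only [kv]
  rw [sum_fin (fun a b => conj (v a * w b) * (v' a * w' b)), Finset.sum_mul_sum]
  refine Finset.sum_congr rfl fun a _ => Finset.sum_congr rfl fun b _ => ?_
  rw [map_mul]
  ring

theorem kv_norm (v : Fin N → ℂ) (w : Fin K → ℂ) :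
    ∑ i, ‖kv v w i‖ ^ 2 = (∑ i, ‖v i‖ ^ 2) * ∑ i, ‖w i‖ ^ 2 := by
  have h := kv_inner v v w w
  have e : ∀ {n : ℕ} (u : Fin n → ℂ), ∑ i, conj (u i) * u i = ((∑ i, ‖u i‖ ^ 2 : ℝ) : ℂ) := by
    intro n u
    push_cast
    exact Finset.sum_congr rfl fun i _ => Complex.conj_mul' (u i)
  rw [e, e, e] at h
  exact_mod_cast h

/-- the trace formula for the curvature of a tensor product. -/
theorem curv_kr {P A B : Matrix (Fin N) (Fin N) ℂ} {Q C D : Matrix (Fin K) (Fin K) ℂ}
    (hP : P * P = P) (hQ : Q * Q = Q) (hPt : P.trace = 1) (hQt : Q.trace = 1)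
    (hA : P * A * P = 0) (hB : P * B * P = 0) (hC : Q * C * Q = 0) (hD : Q * D * Q = 0) :
    (kr P Q * ((kr A Q + kr P C) * (kr B Q + kr P D) -
        (kr B Q + kr P D) * (kr A Q + kr P C))).trace =
      (P * (A * B - B * A)).trace + (Q * (C * D - D * C)).trace := by
  have key : ∀ {A B : Matrix (Fin N) (Fin N) ℂ} {C D : Matrix (Fin K) (Fin K) ℂ},
      P * A * P = 0 → Q * C * Q = 0 →
      (kr P Q * ((kr A Q + kr P C) * (kr B Q + kr P D))).trace =
        (P * (A * B)).trace + (Q * (C * D)).trace := by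
    intro A B C D hA hC
    simp only [add_mul, mul_add, kr_mul, Matrix.trace_add, kr_trace]
    have e1 : Q * (Q * Q) = Q := by rw [hQ, hQ]
    have e2 : P * (P * P) = P := by rw [hP, hP]
    have e3 : P * (A * P) = 0 := by rw [← mul_assoc, hA]
    have e4 : Q * (C * Q) = 0 := by rw [← mul_assoc, hC]
    rw [e1, e2, e3, e4, hPt, hQt]
    simp
  rw [mul_sub, Matrix.trace_sub, key hA hC, key hB hD, mul_sub, mul_sub, Matrix.trace_sub,
    Matrix.trace_sub]
  ring

end alg

variable {M : Type u} [TopologicalSpace M] [T2Space M] [CompactSpace M]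
  [ChartedSpace E4 M] [IsManifold 𝓘(ℝ, E4) ∞ M]
variable {N K : ℕ} {p : M → Matrix (Fin N) (Fin N) ℂ} {q : M → Matrix (Fin K) (Fin K) ℂ}

/-- the tensor product. -/
def tens (p : M → Matrix (Fin N) (Fin N) ℂ) (q : M → Matrix (Fin K) (Fin K) ℂ) :
    M → Matrix (Fin (N * K)) (Fin (N * K)) ℂ := fun x => kr (p x) (q x)

/-- the dual = the conjugate. -/
def dual (p : M → Matrix (Fin N) (Fin N) ℂ) : M → Matrix (Fin N) (Fin N) ℂ :=
  fun x => (p x).map conj

theorem diff_entry (hp : ∀ i j, ContMDiff 𝓘(ℝ, E4) 𝓘(ℝ, ℂ) ∞ (fun x => p x i j)) (x : M)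
    (i j : Fin N) :
    DifferentiableAt ℝ (fun y : E4 => p ((chartAt E4 x).symm y) i j) (chartAt E4 x x) :=
  (sc_of_contMDiff (hp i j) x).diff

/-- `p dp p = 0`. -/
theorem dmat_idem (hp : IsLine p) (x : M) (v : E4) :
    dmat p x v * p x + p x * dmat p x v = dmat p x v := by
  ext i j
  have hx : (chartAt E4 x).symm (chartAt E4 x x) = x :=
    (chartAt E4 x).left_inv (mem_chart_source E4 x)
  have hev : (fun y : E4 => p ((chartAt E4 x).symm y) i j) =
      fun y : E4 => ∑ k, p ((chartAt E4 x).symm y) i k * p ((chartAt E4 x).symm y) k j := by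
    funext y
    conv_lhs => rw [← hp.idem]
    rw [Matrix.mul_apply]
  have hd := fun i j => diff_entry hp.smooth x i j
  have h2 : fderiv ℝ (fun y : E4 => p ((chartAt E4 x).symm y) i j) (chartAt E4 x x) v =
      ∑ k, (p x i k * dmat p x v k j + p x k j * dmat p x v i k) := by
    rw [hev, fderiv_fun_sum (fun k _ => (hd i k).fun_mul (hd k j)), ContinuousLinearMap.sum_apply]
    refine Finset.sum_congr rfl fun k _ => ?_
    rw [fderiv_fun_mul (hd i k) (hd k j)]
    simp only [add_apply, smul_apply, smul_eq_mul, hx]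
    rfl
  show (dmat p x v * p x + p x * dmat p x v) i j = _
  rw [Matrix.add_apply, Matrix.mul_apply, Matrix.mul_apply]
  refine Eq.trans ?_ h2.symm
  rw [Finset.sum_add_distrib, add_comm]
  congr 1
  exact Finset.sum_congr rfl fun k _ => mul_comm _ _

theorem p_dmat_p (hp : IsLine p) (x : M) (v : E4) : p x * dmat p x v * p x = 0 := by
  have h := congrArg (fun A => p x * A) (dmat_idem hp x v)
  simp only [mul_add] at h
  rw [← mul_assoc, ← mul_assoc, hp.idem] at h
  exact left_eq_add.1 (h.symm.trans (add_comm _ _)) |> fun h => h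

theorem dmat_tens (hp : ∀ i j, ContMDiff 𝓘(ℝ, E4) 𝓘(ℝ, ℂ) ∞ (fun x => p x i j))
    (hq : ∀ i j, ContMDiff 𝓘(ℝ, E4) 𝓘(ℝ, ℂ) ∞ (fun x => q x i j)) (x : M) (v : E4) :
    dmat (tens p q) x v = kr (dmat p x v) (q x) + kr (p x) (dmat q x v) := by
  ext i j
  have hx : (chartAt E4 x).symm (chartAt E4 x x) = x :=
    (chartAt E4 x).left_inv (mem_chart_source E4 x)
  have h1 := diff_entry hp x (finProdFinEquiv.symm i).1 (finProdFinEquiv.symm j).1
  have h2 := diff_entry hq x (finProdFinEquiv.symm i).2 (finProdFinEquiv.symm j).2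
  show fderiv ℝ (fun y : E4 => p ((chartAt E4 x).symm y) (finProdFinEquiv.symm i).1
      (finProdFinEquiv.symm j).1 * q ((chartAt E4 x).symm y) (finProdFinEquiv.symm i).2
      (finProdFinEquiv.symm j).2) (chartAt E4 x x) v = _
  rw [fderiv_fun_mul h1 h2]
  simp only [add_apply, smul_apply, smul_eq_mul, hx,
    Matrix.add_apply, kr]
  rw [add_comm]
  congr 1
  exact mul_comm _ _

theorem isLine_tens (hp : IsLine p) (hq : IsLine q) : IsLine (tens p q) where
  smooth i j := contMDiff_mulC (hp.smooth _ _) (hq.smooth _ _)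
  idem x := by
    show kr (p x) (q x) * kr (p x) (q x) = kr (p x) (q x)
    rw [kr_mul, hp.idem, hq.idem]
  herm x := by
    show (kr (p x) (q x)).conjTranspose = kr (p x) (q x)
    rw [kr_herm, hp.herm, hq.herm]
  rank x := by
    show (kr (p x) (q x)).trace = 1
    rw [kr_trace, hp.rank, hq.rank, mul_one]

theorem isChern_tens (hp : IsLine p) (hq : IsLine q) {a b : Z2 M} (ha : IsChern p a)
    (hb : IsChern q b) : IsChern (tens p q) (a + b) := by
  intro x u v
  have h1 : val (a + b) x u v = val a x u v + val b x u v := rfl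
  rw [h1, ha x u v, hb x u v, dmat_tens hp.smooth hq.smooth, dmat_tens hp.smooth hq.smooth]
  show _ = ((Complex.I / (2 * Real.pi)) * (kr (p x) (q x) * _).trace).re
  rw [curv_kr (hp.idem x) (hq.idem x) (hp.rank x) (hq.rank x) (p_dmat_p hp x u)
    (p_dmat_p hp x v) (p_dmat_p hq x u) (p_dmat_p hq x v), mul_add, Complex.add_re]

omit [T2Space M] [CompactSpace M] [IsManifold 𝓘(ℝ, E4) ∞ M] in
theorem dual_eq (hp : ∀ x, (p x).conjTranspose = p x) (x : M) : dual p x = (p x).transpose := by
  conv_rhs => rw [← hp x]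
  rfl

theorem contMDiff_conj {g : M → ℂ} (hg : ContMDiff 𝓘(ℝ, E4) 𝓘(ℝ, ℂ) ∞ g) :
    ContMDiff 𝓘(ℝ, E4) 𝓘(ℝ, ℂ) ∞ (fun x => conj (g x)) :=
  Complex.conjCLE.contDiff.contMDiff.comp hg

theorem isLine_dual (hp : IsLine p) : IsLine (dual p) where
  smooth i j := contMDiff_conj (hp.smooth i j)
  idem x := by
    rw [dual_eq hp.herm, ← Matrix.transpose_mul, hp.idem]
  herm x := by
    show (((p x).map conj).transpose).map star = (p x).map conj
    have h := hp.herm x
    conv_rhs => rw [← h]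
    rfl
  rank x := by
    rw [dual_eq hp.herm, Matrix.trace_transpose, hp.rank]

theorem dmat_dual (hp : IsLine p) (x : M) (v : E4) :
    dmat (dual p) x v = (dmat p x v).transpose := by
  ext i j
  show fderiv ℝ (fun y : E4 => dual p ((chartAt E4 x).symm y) i j) (chartAt E4 x x) v =
    fderiv ℝ (fun y : E4 => p ((chartAt E4 x).symm y) j i) (chartAt E4 x x) v
  congr 2
  funext y
  rw [dual_eq hp.herm]
  rfl

theorem isChern_dual (hp : IsLine p) {a : Z2 M} (ha : IsChern p a) : IsChern (dual p) (-a) := by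
  intro x u v
  have h1 : val (-a) x u v = -val a x u v := rfl
  rw [h1, ha x u v, dmat_dual hp, dmat_dual hp, dual_eq hp.herm, ← Complex.neg_re]
  congr 1
  rw [← mul_neg]
  congr 1
  rw [← Matrix.transpose_mul, ← Matrix.transpose_mul, ← Matrix.transpose_sub,
    ← Matrix.transpose_mul, Matrix.trace_transpose, Matrix.trace_mul_comm, ← Matrix.trace_neg,
    ← neg_mul, neg_sub]

/-! ### vectors in the fibres -/

omit [TopologicalSpace M] [T2Space M] [CompactSpace M] [ChartedSpace E4 M]
  [IsManifold 𝓘(ℝ, E4) ∞ M] in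
theorem mem_tens {x : M} {v : Fin N → ℂ} {w : Fin K → ℂ} (hv : (p x).mulVec v = v)
    (hw : (q x).mulVec w = w) : (tens p q x).mulVec (kv v w) = kv v w := by
  show (kr (p x) (q x)).mulVec (kv v w) = kv v w
  rw [kr_mulVec, hv, hw]

omit [TopologicalSpace M] [T2Space M] [CompactSpace M] [ChartedSpace E4 M]
  [IsManifold 𝓘(ℝ, E4) ∞ M] in
theorem mem_dual {x : M} {v : Fin N → ℂ} (hv : (p x).mulVec v = v) :
    (dual p x).mulVec (fun i => conj (v i)) = fun i => conj (v i) := by
  ext i
  have h := congrFun hv i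
  show ∑ j, conj (p x i j) * conj (v j) = conj (v i)
  conv_rhs => rw [← h]
  show _ = conj (∑ j, p x i j * v j)
  rw [map_sum]
  exact Finset.sum_congr rfl fun j _ => (map_mul _ _ _).symm

/-- the fibre is one-dimensional. -/
theorem fib_one (hp : IsLine p) {x : M} {v w : Fin N → ℂ} (hv : (p x).mulVec v = v)
    (hw : (p x).mulVec w = w) (h0 : ∑ i, ‖v i‖ ^ 2 = 1) :
    w = (∑ i, conj (v i) * w i) • v := by
  obtain ⟨m, hm⟩ := Om_cover hp x
  have hm' := Om_ne hm
  have hP : p x = pr (col (p x) m) := eq_pr_col (hp.idem x) (hp.herm x) (hp.rank x) hm'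
  set s := col (p x) m with hs
  have hsu : ∑ i, conj (s i) * s i = 1 := col_unit (hp.idem x) (hp.herm x) hm'
  have key : ∀ {u : Fin N → ℂ}, (p x).mulVec u = u → u = (∑ i, conj (s i) * u i) • s := by
    intro u hu
    conv_lhs => rw [← hu, hP]
    ext i
    show ∑ j, s i * conj (s j) * u j = (∑ j, conj (s j) * u j) * s i
    rw [Finset.sum_mul]
    exact Finset.sum_congr rfl fun j _ => by ring
  have hv' := key hv
  have hw' := key hw
  set a := ∑ i, conj (s i) * v i with ha
  set b := ∑ i, conj (s i) * w i with hb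
  have haa : conj a * a = 1 := by
    have e1 : ∑ i, conj (v i) * v i = 1 := by
      have e : ∑ i, conj (v i) * v i = ((∑ i, ‖v i‖ ^ 2 : ℝ) : ℂ) := by
        push_cast
        exact Finset.sum_congr rfl fun i _ => Complex.conj_mul' (v i)
      rw [e, h0]; simp
    have e2 : ∑ i, conj (v i) * v i = conj a * a * ∑ i, conj (s i) * s i := by
      rw [Finset.mul_sum]
      refine Finset.sum_congr rfl fun i _ => ?_
      have hi : v i = a * s i := congrFun hv' i
      rw [hi, map_mul]
      ring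
    rw [e1, hsu, mul_one] at e2
    exact e2.symm
  have hc : ∑ i, conj (v i) * w i = conj a * b := by
    have : ∑ i, conj (v i) * w i = conj a * b * ∑ i, conj (s i) * s i := by
      rw [Finset.mul_sum]
      refine Finset.sum_congr rfl fun i _ => ?_
      have hi : v i = a * s i := congrFun hv' i
      have hj : w i = b * s i := congrFun hw' i
      rw [hi, hj, map_mul]
      ring
    rw [this, hsu, mul_one]
  rw [hc]
  ext i
  have hi : v i = a * s i := congrFun hv' i
  have hj : w i = b * s i := congrFun hw' i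
  show w i = conj a * b * v i
  rw [hi, hj]
  linear_combination (- b * s i) * haa

end

end Crest.Agent.R235.Lb453
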