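import Crest.Agent.R235.Top_844
import Crest.Agent.R235.ReachSet_844
import Crest.Agent.R235.TyR_844

/-!
Row 235 (S0364), helper844: THE TOP THEOREM with the real torus type `T4R`
(captain's decision 2 (1)): `main_of_props' : DICHR, EXJ, ROOT, CONE, HKCONE, LATK, KUM, LATTR, TORR ⇒ MAIN`,
and the versions of `swb_of`, `sys`, `joined_of`, `reach_Q`, `reach_all` with `TyOK F`
(`K3Type F`, `T4Type F` and `T4R F` all give `TyOK F`: `tyOK_of_type`, `tyOK_of`).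
-/

set_option autoImplicit false
set_option maxSynthPendingDepth 3

open Set Function Filter MeasureTheory
open scoped Manifold ContDiff Topology

universe u

namespace Crest.Agent.R235

open Crest.Agent.R240 Crest.Agent.R240.Ch Crest.Agent.R240.Int

noncomputable section

set_option linter.unusedSectionVars false

section Inst

variable {M : Type u} [TopologicalSpace M] [T2Space M] [CompactSpace M] [ConnectedSpace M]
  [ChartedSpace E4 M] [IsManifold 𝓘(ℝ, E4) ∞ M]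

theorem swb_of' {F : Z2 M} (hF : Vol (F.1.1 : F2 E4 M)) {n : ℕ} (E : H2 M ≃ₗ[ℝ] (Fin n → ℝ))
    (hty : TyOK F)
    (hroot : ∀ w : Trip M, Pos3 w → K3Type (w 0) → ∀ d ∈ Root (w 0),
      ∃ i, ip (w 0) d (cls (w i)) ≠ 0)
    {w : Trip M} (hw : w ∈ PO F) : ∀ d ∈ E '' Dg F, ∃ i, Bt F hF E d (E (clw w i)) ≠ 0 := by
  rintro _ ⟨e, he, rfl⟩
  by_contra hcon
  push Not at hcon
  have h0 : ∀ i, ip F e (cls (w i)) = 0 := by
    intro i
    have h1 := hcon i
    rw [Bt_apply, E.symm_apply_apply, E.symm_apply_apply] at h1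
    exact h1
  have hneg : ip F e e < 0 := by
    have hpc := BPlus_723.posCls_of_pos3 hw.1
    rw [PosCls_congr (PO.ip_eq hF hw)] at hpc
    exact hty.neg _ hpc e h0 he.2.1
  rcases he.2.2 with h1 | h1
  · exact absurd hneg (not_lt.2 h1)
  · have h2 : K3Type (w 0) := by rw [K3Type_congr (PO.ip_eq hF hw)]; exact h1.1
    have h3 : e ∈ Root (w 0) := by rw [Root_congr (PO.ip_eq hF hw)]; exact h1.2
    obtain ⟨i, hi⟩ := hroot w hw.1 h2 e h3
    rw [PO.ip_eq hF hw] at hi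
    exact hi (h0 i)

/-- the data of the abstract argument. -/
def sys' (F : Z2 M) (hF : Vol (F.1.1 : F2 E4 M)) {n : ℕ} (E : H2 M ≃ₗ[ℝ] (Fin n → ℝ))
    (hty : TyOK F)
    (hex : ∀ w : Trip M, Pos3 w → ∃ J, IsJ w J)
    (hroot : ∀ w : Trip M, Pos3 w → K3Type (w 0) → ∀ d ∈ Root (w 0),
      ∃ i, ip (w 0) d (cls (w i)) ≠ 0)
    (hcone : ∀ w : Trip M, Pos3 w → ∀ (k : Fin 3) (x : H2 M), CCond (w 0) (clw w) k x →
      ∃ a : Z2 M, cls a = x ∧ Seg w (update w k a))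
    (hhk : ∀ w : Trip M, Pos3 w → HK w → ∀ (k : Fin 3) (x : H2 M), CCond (w 0) (clw w) k x →
      ∃ a : Z2 M, cls a = x ∧ Seg w (update w k a) ∧ HK (update w k a)) :
    Mv.Sys (Z2 M) (Fin n → ℝ) where
  P := PO F
  P_act := fun g w hg hw => so_linear hw hg
  cl := clt E
  B := Bt F hF E
  B_symm := fun a b => ip_comm F _ _
  R := E '' Dg F
  R_cnt := (hty.cnt.mono fun e he => he.1).image _
  Hy := {w | w ∈ PO F ∧ HK w}
  Hy_sub := fun w hw => hw.1
  Hy_act := fun g w hg hw => ⟨so_linear hw.1 hg, hw.2.linear hg⟩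
  cvx := by
    intro w hw k
    have : Mv.Tm (PO F) w k = {a : Z2 M | Seg w (update w k a)} := by
      ext a; exact tm_iff hw k a
    rw [this]
    exact convex_tame hw.1 k hex
  opn := isOpen_PO F
  pos := fun w hw => pos_of hF E hw
  swb := fun w hw => swb_of' hF E hty hroot hw
  cone := by
    intro w hw k c hc
    obtain ⟨a, ha, hs⟩ := hcone w hw.1 k (E.symm c) (ccond_of hF E hw hc)
    exact ⟨a, (tm_iff hw k a).2 hs, by rw [clt_apply, ha, E.apply_symm_apply]⟩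
  hkcone := by
    intro w hw k c hc
    obtain ⟨a, ha, hs, hk⟩ := hhk w hw.1.1 hw.2 k (E.symm c) (ccond_of hF E hw.1 hc)
    have h1 := (tm_iff hw.1 k a).2 hs
    exact ⟨a, h1, by rw [clt_apply, ha, E.apply_symm_apply], Mv.Seg.right h1, hk⟩

theorem joined_of' {F : Z2 M} (hF : Vol (F.1.1 : F2 E4 M)) {n : ℕ} (E : H2 M ≃ₗ[ℝ] (Fin n → ℝ))
    (hty : TyOK F)
    (hex : ∀ w : Trip M, Pos3 w → ∃ J, IsJ w J)
    (hroot : ∀ w : Trip M, Pos3 w → K3Type (w 0) → ∀ d ∈ Root (w 0),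
      ∃ i, ip (w 0) d (cls (w i)) ≠ 0)
    (hcone : ∀ w : Trip M, Pos3 w → ∀ (k : Fin 3) (x : H2 M), CCond (w 0) (clw w) k x →
      ∃ a : Z2 M, cls a = x ∧ Seg w (update w k a))
    (hhk : ∀ w : Trip M, Pos3 w → HK w → ∀ (k : Fin 3) (x : H2 M), CCond (w 0) (clw w) k x →
      ∃ a : Z2 M, cls a = x ∧ Seg w (update w k a) ∧ HK (update w k a))
    {w : Trip M} (hw : w ∈ PO F) {b : Fin 3 → H2 M} (hb : PosCls F b)
    (hgen : ∀ e ∈ HZ M, e ≠ 0 → ip F e (b 0) ≠ 0)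
    (hdet : 0 < (Matrix.of fun i j => ip F (b i) (cls (w j))).det)
    (htar : ∀ w' ∈ PO F, (∀ i, cls (w' i) = b i) → ∃ z : Trip M, PL w' z ∧ HK z) :
    ∃ z : Trip M, Joined w z ∧ HK z := by
  have h1 : Mv.PosF (Bt F hF E) (fun i => E (b i)) := by
    intro a ha
    have h1 := hb a ha
    rw [Bt_apply, symm_comb]
    exact h1
  have h2 : ∀ d ∈ E '' Dg F, Bt F hF E d (E (b 0)) ≠ 0 := by
    rintro _ ⟨e, he, rfl⟩
    rw [Bt_apply, E.symm_apply_apply, E.symm_apply_apply]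
    exact hgen e he.1 he.2.1
  have h3 : 0 < (Matrix.of fun i j => Bt F hF E (clt E (w i)) (E (b j))).det := by
    rw [← Matrix.det_transpose]
    have e : (Matrix.of fun i j => Bt F hF E (clt E (w i)) (E (b j))).transpose =
        Matrix.of fun i j => ip F (b i) (cls (w j)) := by
      ext i j
      rw [Matrix.transpose_apply, Matrix.of_apply, Matrix.of_apply, Bt_apply, clt_apply,
        E.symm_apply_apply, E.symm_apply_apply, ip_comm]
    rw [e]
    exact hdet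
  have h4 : ∀ w' ∈ PO F, (fun i => clt E (w' i)) = (fun i => E (b i)) →
      ∃ z ∈ {w : Trip M | w ∈ PO F ∧ HK w}, Relation.ReflTransGen (Mv.Seg (PO F)) w' z := by
    intro w' hw' hcl
    have h1 : ∀ i, cls (w' i) = b i := fun i => E.injective (congrFun hcl i)
    obtain ⟨z, hz, hzk⟩ := htar w' hw' h1
    obtain ⟨h2, h3⟩ := path_of_pl hw' hz
    exact ⟨z, ⟨h2, hzk⟩, h3⟩
  obtain ⟨z, hz, hzH⟩ := (sys' F hF E hty hex hroot hcone hhk).main (w := w) hw h1 h2 h3 h4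
  exact ⟨z, joined_of_mv E hz, hzH.2⟩

set_option maxHeartbeats 1600000 in
/-- REACH inside a set `Q` of positive triples of orientation `F`: `Q` is stable under
recombinations, and every class move allowed by the class condition can be made inside `Q`.
(For `Q = PO F` this is what CONE gives; for even triples average the form over the involution.) -/
theorem reach_QR' {F : Z2 M} (hF : Vol (F.1.1 : F2 E4 M)) (hty : TyOK F)
    {n : ℕ} (E : H2 M ≃ₗ[ℝ] (Fin n → ℝ))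
    (hroot : ∀ w : Trip M, Pos3 w → K3Type (w 0) → ∀ d ∈ Root (w 0),
      ∃ i, ip (w 0) d (cls (w i)) ≠ 0)
    (Q : Set (Trip M)) (hQP : Q ⊆ PO F)
    (hQa : ∀ (g : Matrix (Fin 3) (Fin 3) ℝ) (w : Trip M), g.det ≠ 0 → w ∈ Q →
      (fun i => ∑ j, g i j • w j) ∈ Q)
    (hQc : ∀ w ∈ Q, ∀ (k : Fin 3) (x : H2 M), CCond (w 0) (clw w) k x →
      ∃ a : Z2 M, cls a = x ∧ ∀ t : ℝ, 0 ≤ t → t ≤ 1 → seg w (update w k a) t ∈ Q)
    {w : Trip M} (hw : w ∈ Q) {b : Fin 3 → H2 M} (hb : PosCls F b)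
    (hgen : ∀ e ∈ HZ M, e ≠ 0 → ip F e (b 0) ≠ 0)
    (hdet : 0 < (Matrix.of fun i j => ip F (b i) (cls (w j))).det) :
    ∃ w' ∈ Q, Relation.ReflTransGen
      (fun u v : Trip M => ∀ t : ℝ, 0 ≤ t → t ≤ 1 → seg u v t ∈ Q) w w' ∧
      ∀ i, cls (w' i) = b i := by
  have h1 : Mv.PosF (Bt F hF E) (fun i => E (b i)) := by
    intro a ha
    have h1 := hb a ha
    rw [Bt_apply, symm_comb]
    exact h1
  have h2 : ∀ d ∈ E '' Dg F, Bt F hF E d (E (b 0)) ≠ 0 := by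
    rintro _ ⟨e, he, rfl⟩
    rw [Bt_apply, E.symm_apply_apply, E.symm_apply_apply]
    exact hgen e he.1 he.2.1
  have h3 : 0 < (Matrix.of fun i j => Bt F hF E (clt E (w i)) (E (b j))).det := by
    rw [← Matrix.det_transpose]
    have e : (Matrix.of fun i j => Bt F hF E (clt E (w i)) (E (b j))).transpose =
        Matrix.of fun i j => ip F (b i) (cls (w j)) := by
      ext i j
      rw [Matrix.transpose_apply, Matrix.of_apply, Matrix.of_apply, Bt_apply, clt_apply,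
        E.symm_apply_apply, E.symm_apply_apply, ip_comm]
    rw [e]
    exact hdet
  have k1 : ∀ a b, Bt F hF E a b = Bt F hF E b a := fun a b => ip_comm F _ _
  have k2 : (E '' Dg F).Countable := (hty.cnt.mono fun e he => he.1).image _
  have k3 : ∀ w ∈ Q, Mv.PosF (Bt F hF E) (fun i => clt E (w i)) :=
    fun w hw => pos_of hF E (hQP hw)
  have k4 : ∀ w ∈ Q, ∀ d ∈ E '' Dg F, ∃ i, Bt F hF E d (clt E (w i)) ≠ 0 :=
    fun w hw => swb_of' hF E hty hroot (hQP hw)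
  have k5 : ∀ w ∈ Q, ∀ k, ∀ c : Fin n → ℝ,
      Mv.CC (Bt F hF E) (E '' Dg F) (fun i => clt E (w i)) k c →
      ∃ x, Mv.Seg Q w (update w k x) ∧ clt E x = c := by
    intro w hw k c hc
    obtain ⟨a, ha, hs⟩ := hQc w hw k (E.symm c) (ccond_of hF E (hQP hw) hc)
    exact ⟨a, fun t ht => hs t ht.1 ht.2, by rw [clt_apply, ha, E.apply_symm_apply]⟩
  obtain ⟨w', hw', h4, h5⟩ := Mv.reach_set Q hQa (clt E) (Bt F hF E) k1 (E '' Dg F) k2 k3 k4 k5
    hw h1 h2 h3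
  refine ⟨w', hw', ?_, fun i => E.injective (congrFun h5 i)⟩
  clear h5
  induction h4 with
  | refl => exact Relation.ReflTransGen.refl
  | tail _ h2 ih => exact (ih h2.left).tail fun t h0 h1 => h2 t ⟨h0, h1⟩

theorem reach_QR {F : Z2 M} (hF : Vol (F.1.1 : F2 E4 M)) (hty : TyOK F)
    (hroot : ∀ w : Trip M, Pos3 w → K3Type (w 0) → ∀ d ∈ Root (w 0),
      ∃ i, ip (w 0) d (cls (w i)) ≠ 0)
    (Q : Set (Trip M)) (hQP : Q ⊆ PO F)
    (hQa : ∀ (g : Matrix (Fin 3) (Fin 3) ℝ) (w : Trip M), g.det ≠ 0 → w ∈ Q →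
      (fun i => ∑ j, g i j • w j) ∈ Q)
    (hQc : ∀ w ∈ Q, ∀ (k : Fin 3) (x : H2 M), CCond (w 0) (clw w) k x →
      ∃ a : Z2 M, cls a = x ∧ ∀ t : ℝ, 0 ≤ t → t ≤ 1 → seg w (update w k a) t ∈ Q)
    {w : Trip M} (hw : w ∈ Q) {b : Fin 3 → H2 M} (hb : PosCls F b)
    (hgen : ∀ e ∈ HZ M, e ≠ 0 → ip F e (b 0) ≠ 0)
    (hdet : 0 < (Matrix.of fun i j => ip F (b i) (cls (w j))).det) :
    ∃ w' ∈ Q, Relation.ReflTransGen
      (fun u v : Trip M => ∀ t : ℝ, 0 ≤ t → t ≤ 1 → seg u v t ∈ Q) w w' ∧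
      ∀ i, cls (w' i) = b i := by
  have hfin : Module.Finite ℝ (H2 M) := hty.fin
  exact reach_QR' hF hty (Module.finBasis ℝ (H2 M)).equivFun hroot Q hQP hQa hQc hw hb hgen hdet

/-- REACH from CONE (`Q` = all positive triples). -/
theorem reach_allR {F : Z2 M} (hF : Vol (F.1.1 : F2 E4 M)) (hty : TyOK F)
    (hroot : ∀ w : Trip M, Pos3 w → K3Type (w 0) → ∀ d ∈ Root (w 0),
      ∃ i, ip (w 0) d (cls (w i)) ≠ 0)
    (hcone : ∀ w : Trip M, Pos3 w → ∀ (k : Fin 3) (x : H2 M), CCond (w 0) (clw w) k x →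
      ∃ a : Z2 M, cls a = x ∧ Seg w (update w k a))
    {w : Trip M} (hw : w ∈ PO F) {b : Fin 3 → H2 M} (hb : PosCls F b)
    (hgen : ∀ e ∈ HZ M, e ≠ 0 → ip F e (b 0) ≠ 0)
    (hdet : 0 < (Matrix.of fun i j => ip F (b i) (cls (w j))).det) :
    ∃ w' ∈ PO F, PL w w' ∧ ∀ i, cls (w' i) = b i := by
  obtain ⟨w', hw', h1, h2⟩ := reach_QR hF hty hroot (PO F) subset_rfl
    (fun g w hg hw => so_linear hw hg) (by
      intro w hw k x hx
      obtain ⟨a, ha, hs⟩ := hcone w hw.1 k x hx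
      refine ⟨a, ha, fun t h0 h1 => ?_⟩
      have := (mvSeg_iff hw).2 hs
      exact this t ⟨h0, h1⟩) hw hb hgen hdet
  refine ⟨w', hw', ?_, h2⟩
  clear h2 hw'
  induction h1 with
  | refl => exact Relation.ReflTransGen.refl
  | tail _ h2 ih => exact ih.tail fun t h0 h1 => (h2 t h0 h1).1

end Inst

/-- `BPLUS` from the real dichotomy. -/
theorem bplus_of_dichr (h : DICHR.{u}) : BPLUS.{u} := by
  intro M _ _ _ _ _ _ w hw c hc h0
  exact (tyOK_of (hw.vol 0) (h M w hw)).neg _ (BPlus_723.posCls_of_pos3 hw) c hc h0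

/-- THE TOP THEOREM, real torus type. -/
theorem main_of_props' (hD : DICHR.{u}) (hJ : EXJ.{u}) (hR : ROOT.{u}) (hC : CONE.{u})
    (hH : HKCONE.{u}) (hLK : LATK.{u}) (hK : KUM.{u}) (hLT : LATTR.{u}) (hT : TORR.{u}) :
    MAIN.{u} := by
  intro M _ _ _ _ _ _ w hw
  have hty := hD M w hw
  have hF : Vol ((w 0).1.1 : F2 E4 M) := hw.vol 0
  have hok : TyOK (w 0) := tyOK_of hF hty
  have hfin : Module.Finite ℝ (H2 M) := hok.fin
  have hwP : w ∈ PO (w 0) := ⟨hw, hw.so 0 0⟩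
  rcases hty with h | h
  · obtain ⟨d, b, hb, hd⟩ := hLK M w hw h
    refine joined_of' hF (Module.finBasis ℝ (H2 M)).equivFun hok (hJ M) (hR M) (hC M) (hH M)
      hwP ((BPlus_723.posCls_iff hF b).2 hb.pos) hd.gen hb.ori fun w' hw' hcl => ?_
    have h1 : clw w' = b := funext hcl
    refine hK M w' d hw'.1 ?_ ?_
    · rw [K3Type_congr (PO.ip_eq hF hw')]; exact h
    · rw [h1]; exact KumPos_congr (PO.ip_eq hF hw') hd
  · obtain ⟨e, b, hb, hd⟩ := hLT M w hw h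
    refine joined_of' hF (Module.finBasis ℝ (H2 M)).equivFun hok (hJ M) (hR M) (hC M) (hH M)
      hwP ((BPlus_723.posCls_iff hF b).2 hb.pos) hd.gen hb.ori fun w' hw' hcl => ?_
    have h1 : clw w' = b := funext hcl
    refine hT M w' e hw'.1 ?_ ?_
    · rw [T4R_congr (hw'.2.pI_eq hF (hw'.1.vol 0))]; exact h
    · rw [h1]; exact TorPos_congr (PO.ip_eq hF hw') hd

end

end Crest.Agent.R235
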