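import Crest.Agent.R235.TorDefs_225
import Crest.Agent.R235.Ip_288
import Crest.Agent.R235.Ip2_288

/-!
Row 235 (S0364), PACKAGE TOR (helper225): `LOCTUBE, INTT, TORLIM ⇒ ATLAS` (globalisation), and
`TORUSR, ATLAS, COFRAME, FLATC ⇒ TORR`.
-/

set_option autoImplicit false
set_option maxSynthPendingDepth 3

open Set Function Filter MeasureTheory
open scoped Manifold ContDiff Topology

universe u

namespace Crest.Agent.R235.Tor2_225

open Crest.Agent.R240 Crest.Agent.R240.Ch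

noncomputable section

section Open

variable {M : Type u} [TopologicalSpace M] [ChartedSpace E4 M] [IsManifold 𝓘(ℝ, E4) ∞ M]

/-- an immersion `E4 → M` is open. -/
theorem map_nhds {Φ : E4 → M} (hs : ContMDiff 𝓘(ℝ, E4) 𝓘(ℝ, E4) ∞ Φ) {y : E4}
    (hi : ∀ v : E4, dmap Φ y v = 0 → v = 0) : map Φ (𝓝 y) = 𝓝 (Φ y) := by
  set F : E4 → E4 := fun z => chartAt E4 (Φ y) (Φ z) with hF
  have hsrc : ∀ᶠ z in 𝓝 y, Φ z ∈ (chartAt E4 (Φ y)).source :=
    hs.continuous.continuousAt ((chartAt E4 (Φ y)).open_source.mem_nhds (mem_chart_source E4 (Φ y)))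
  have hc : ContMDiffAt 𝓘(ℝ, E4) 𝓘(ℝ, E4) ∞ F y :=
    ((contMDiffOn_chart (I := 𝓘(ℝ, E4)) (n := ∞) (x := Φ y)).contMDiffAt
      ((chartAt E4 (Φ y)).open_source.mem_nhds (mem_chart_source E4 (Φ y)))).comp y (hs y)
  have hcd : ContDiffAt ℝ ∞ F y := hc.contDiffAt
  have hst : HasStrictFDerivAt F (fderiv ℝ F y) y := hcd.hasStrictFDerivAt (by simp)
  have hinj : Function.Injective (fderiv ℝ F y) := by
    intro u v huv
    have h0 : fderiv ℝ F y (u - v) = 0 := by rw [map_sub, huv, sub_self]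
    exact sub_eq_zero.1 (hi _ h0)
  have hsurj : (fderiv ℝ F y : E4 →L[ℝ] E4).range = ⊤ :=
    LinearMap.range_eq_top.2 (LinearMap.injective_iff_surjective.1 hinj)
  have h1 : map F (𝓝 y) = 𝓝 (F y) := hst.map_nhds_eq_of_surj hsurj
  have h2 : Φ =ᶠ[𝓝 y] fun z => (chartAt E4 (Φ y)).symm (F z) := by
    filter_upwards [hsrc] with z hz
    exact ((chartAt E4 (Φ y)).left_inv hz).symm
  have h3 : map (chartAt E4 (Φ y)).symm (𝓝 (F y)) = 𝓝 (Φ y) := by
    have := (chartAt E4 (Φ y)).symm.map_nhds_eq (x := F y)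
      ((chartAt E4 (Φ y)).map_source (mem_chart_source E4 (Φ y)))
    rw [this]
    congr 1
    exact (chartAt E4 (Φ y)).left_inv (mem_chart_source E4 (Φ y))
  calc map Φ (𝓝 y) = map (fun z => (chartAt E4 (Φ y)).symm (F z)) (𝓝 y) := map_congr h2
    _ = map (chartAt E4 (Φ y)).symm (map F (𝓝 y)) := (map_map).symm
    _ = 𝓝 (Φ y) := by rw [h1, h3]

theorem isOpenMap {Φ : E4 → M} (hs : ContMDiff 𝓘(ℝ, E4) 𝓘(ℝ, E4) ∞ Φ)
    (hi : ∀ y v : E4, dmap Φ y v = 0 → v = 0) : IsOpenMap Φ :=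
  isOpenMap_iff_nhds_le.2 fun y => (map_nhds hs (hi y)).ge

end Open

section TubeLemmas

variable {M : Type u} [TopologicalSpace M] [T2Space M] [CompactSpace M]
  [ChartedSpace E4 M] [IsManifold 𝓘(ℝ, E4) ∞ M]

omit [TopologicalSpace M] [T2Space M] [CompactSpace M] [ChartedSpace E4 M]
  [IsManifold 𝓘(ℝ, E4) ∞ M] in
theorem slice_translate (Φ : E4 → M) (a y : E4) :
    slice (fun z => Φ (z + a)) y = slice Φ (y + a) := by
  funext q
  simp only [slice]
  congr 1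
  abel

theorem tube_translate {w : Trip M} {f : H2 M} {Φ : E4 → M} (h : Tube w f Φ) (a : E4) :
    Tube w f (fun z => Φ (z + a)) where
  smooth := h.smooth.comp (contDiff_id.add contDiff_const).contMDiff
  per := fun y m n => by
    have := h.per (y + a) m n
    rw [← this]
    congr 1
    abel
  inj := fun y z hyz => by
    obtain ⟨m, n, e⟩ := h.inj (y + a) (z + a) hyz
    refine ⟨m, n, ?_⟩
    have : z = y + a + lv m n - a := by rw [← e]; abel
    rw [this]; abel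
  imm := fun y v hv => by
    apply h.imm (y + a) v
    rw [← hv]
    simp only [dmap]
    have h1 := fderiv_comp_add_right (𝕜 := ℝ)
      (f := fun z : E4 => chartAt E4 (Φ (y + a)) (Φ z)) (x := y) a
    exact (congrArg (fun L : E4 →L[ℝ] E4 => L v) h1).symm
  leaf := fun y => by
    rw [slice_translate]
    exact h.leaf (y + a)

omit [TopologicalSpace M] [T2Space M] [CompactSpace M] [ChartedSpace E4 M]
  [IsManifold 𝓘(ℝ, E4) ∞ M] in
theorem mem_slice (Φ : E4 → M) (y : E4) : Φ y ∈ range (slice Φ y) := by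
  refine ⟨0, ?_⟩
  simp only [slice]
  congr 1
  have : lv ((0 : Ep) 0) ((0 : Ep) 1) = 0 := by
    ext i
    fin_cases i <;> simp [lv]
  rw [this, add_zero]

theorem tube_pts {w : Trip M} {f : H2 M} {Φ : E4 → M} (h : Tube w f Φ) (y : E4) :
    Φ y ∈ TorPts w f := ⟨_, h.leaf y, mem_slice Φ y⟩

theorem tube_open {w : Trip M} {f : H2 M} {Φ : E4 → M} (h : Tube w f Φ) :
    IsOpen (range Φ) := (isOpenMap h.smooth h.imm).isOpen_range

end TubeLemmas

/-- a torus point has a tube centred at it. -/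
theorem exists_tube (hL : LOCTUBE.{u}) {M : Type u} [TopologicalSpace M] [T2Space M]
    [CompactSpace M] [ConnectedSpace M] [ChartedSpace E4 M] [IsManifold 𝓘(ℝ, E4) ∞ M]
    {w : Trip M} (hw : Pos3 w) {f : H2 M} {x : M} (hx : x ∈ TorPts w f) :
    ∃ Φ : E4 → M, Tube w f Φ ∧ Φ 0 = x := by
  obtain ⟨σ, hσ, q, rfl⟩ := hx
  obtain ⟨Φ, hΦ, he⟩ := hL M w hw f σ hσ
  exact ⟨_, tube_translate hΦ (lv (q 0) (q 1)), by simpa using he q⟩

/-- globalisation (B2). -/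
theorem atlas_of (hL : LOCTUBE.{u}) (hI : INTT.{u}) (hC : TORLIM.{u}) : ATLAS.{u} := by
  intro M _ _ _ _ _ _ w e hw hT he k hk hne
  have hV : Int.Vol ((w 0).1.1 : F2 E4 M) := hw.vol 0
  have hz : ∀ k k' : ℕ, ip (w 0) ((k : ℝ) • e) ((k' : ℝ) • e) ≤ 0 := fun k k' => by
    rw [ip_smul_left hV, ip_smul_right hV, he.iso]
    simp
  have hopen : IsOpen (TorPts w ((k : ℝ) • e)) := by
    rw [isOpen_iff_mem_nhds]
    intro x hx
    obtain ⟨Φ, hΦ, h0⟩ := exists_tube hL hw hx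
    refine mem_of_superset ((tube_open hΦ).mem_nhds ⟨0, h0⟩) ?_
    rintro _ ⟨y, rfl⟩
    exact tube_pts hΦ y
  have hclosed : IsClosed (TorPts w ((k : ℝ) • e)) := by
    refine isClosed_of_closure_subset fun x hx => ?_
    obtain ⟨k', hk', hx'⟩ := hC M w e hw hT he _ x hx
    obtain ⟨Φ, hΦ, h0⟩ := exists_tube hL hw hx'
    obtain ⟨_, ⟨y, rfl⟩, σ, hσ, hz'⟩ :=
      mem_closure_iff_nhds.1 hx _ ((tube_open hΦ).mem_nhds ⟨0, h0⟩)
    have h1 := (hI M w hw _ _ σ (slice Φ y) hσ (hΦ.leaf y) (hz k k') ⟨_, hz', mem_slice Φ y⟩).2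
    rw [h1]
    exact hx'
  have huniv : TorPts w ((k : ℝ) • e) = univ := IsClopen.eq_univ ⟨hclosed, hopen⟩ hne
  refine ⟨{Φ | Tube w ((k : ℝ) • e) Φ}, ⟨fun Φ h => h, fun x => ?_, ?_⟩⟩
  · have hx : x ∈ TorPts w ((k : ℝ) • e) := by rw [huniv]; trivial
    exact exists_tube hL hw hx
  · intro Φ hΦ Ψ hΨ y z hyz
    refine (hI M w hw _ _ (slice Φ y) (slice Ψ z) (Tube.leaf hΦ y) (Tube.leaf hΨ z)
      (hz k k) ⟨Φ y, mem_slice Φ y, ?_⟩).1
    rw [hyz]
    exact mem_slice Ψ z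

/-- the variant with `TORUSX`. -/
theorem torlim_of (hX : TORUSX.{u}) : TORLIM.{u} :=
  fun M _ _ _ _ _ _ w e hw hT he _ x _ => hX M w e hw hT he x

/-- the package output. -/
theorem torr_of (hTorus : TORUSR.{u}) (hA : ATLAS.{u}) (hC : COFRAME.{u}) (hF : FLATC.{u}) :
    TORR.{u} := by
  intro M _ _ _ _ _ _ w e hw hT he
  obtain ⟨k, hk, hσ⟩ := hTorus M w e hw hT he
  obtain ⟨T, hTA⟩ := hA M w e hw hT he k hk hσ
  obtain ⟨l, a, hla⟩ := hC M w _ hw hT T hTA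
  obtain ⟨w1, w', h1, h2, h3, -⟩ := hF M w hw l a hla
  exact ⟨w', h1.pl.trans h2.pl, h3⟩

end

end Crest.Agent.R235.Tor2_225
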