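import Mathlib
import Crest.Agent.R240.Lin1

/-!
Row 235 (S0364), package TOR, helper68: pointwise algebra for the three straight segments.
-/

set_option autoImplicit false
set_option linter.unusedVariables false

namespace Crest.Agent.R235.TorAlg_68

open Crest.Agent.R240

noncomputable section

/-- Laplace expansion of `W b c` in a coframe. -/
theorem laplace (b c : Bil) (a1 a2 l1 l2 : E4 →L[ℝ] ℝ) :
    W (wed a1 a2) (wed l1 l2) * W b c =
      (W b (wed l1 l2) * W c (wed a1 a2) + W b (wed a1 a2) * W c (wed l1 l2))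
      - (W b (wed a2 l2) * W c (wed a1 l1) + W b (wed a1 l1) * W c (wed a2 l2))
      + (W b (wed a2 l1) * W c (wed a1 l2) + W b (wed a1 l2) * W c (wed a2 l1)) := by
  unfold W
  simp only [ent, wed_apply]
  generalize b (ee 0) (ee 1) = b01
  generalize b (ee 0) (ee 2) = b02
  generalize b (ee 0) (ee 3) = b03
  generalize b (ee 1) (ee 2) = b12
  generalize b (ee 1) (ee 3) = b13
  generalize b (ee 2) (ee 3) = b23
  generalize c (ee 0) (ee 1) = c01
  generalize c (ee 0) (ee 2) = c02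
  generalize c (ee 0) (ee 3) = c03
  generalize c (ee 1) (ee 2) = c12
  generalize c (ee 1) (ee 3) = c13
  generalize c (ee 2) (ee 3) = c23
  generalize a1 (ee 0) = x0
  generalize a1 (ee 1) = x1
  generalize a1 (ee 2) = x2
  generalize a1 (ee 3) = x3
  generalize a2 (ee 0) = y0
  generalize a2 (ee 1) = y1
  generalize a2 (ee 2) = y2
  generalize a2 (ee 3) = y3
  generalize l1 (ee 0) = z0
  generalize l1 (ee 1) = z1
  generalize l1 (ee 2) = z2
  generalize l1 (ee 3) = z3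
  generalize l2 (ee 0) = t0
  generalize l2 (ee 1) = t1
  generalize l2 (ee 2) = t2
  generalize l2 (ee 3) = t3
  ring

section Table

variable (a1 a2 l1 l2 : E4 →L[ℝ] ℝ)

/-- the forms of the flat triple. -/
def p0 : Bil := wed a1 l1 + wed a2 l2
/-- the second form of the pair. -/
def q0 : Bil := wed a2 l1 - wed a1 l2
/-- the third form. -/
def u0 : Bil := wed a1 a2 - wed l1 l2

theorem W_11_22 : W (wed a1 l1) (wed a2 l2) = - W (wed a1 a2) (wed l1 l2) := by
  unfold W; simp only [ent, wed_apply]; ring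
theorem W_11_21 : W (wed a1 l1) (wed a2 l1) = 0 := by
  unfold W; simp only [ent, wed_apply]; ring
theorem W_22_21 : W (wed a2 l2) (wed a2 l1) = 0 := by
  unfold W; simp only [ent, wed_apply]; ring
theorem W_22_22 : W (wed a2 l2) (wed a2 l2) = 0 := by
  unfold W; simp only [ent, wed_apply]; ring
theorem W_11_12 : W (wed a1 l1) (wed a1 l2) = 0 := by
  unfold W; simp only [ent, wed_apply]; ring
theorem W_22_12 : W (wed a2 l2) (wed a1 l2) = 0 := by
  unfold W; simp only [ent, wed_apply]; ring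
theorem W_r_21 : W (wed l1 l2) (wed a2 l1) = 0 := by
  unfold W; simp only [ent, wed_apply]; ring
theorem W_r_12 : W (wed l1 l2) (wed a1 l2) = 0 := by
  unfold W; simp only [ent, wed_apply]; ring
theorem W_r_11 : W (wed l1 l2) (wed a1 l1) = 0 := by
  unfold W; simp only [ent, wed_apply]; ring
theorem W_r_22 : W (wed l1 l2) (wed a2 l2) = 0 := by
  unfold W; simp only [ent, wed_apply]; ring
theorem W_r_r : W (wed l1 l2) (wed l1 l2) = 0 := by
  unfold W; simp only [ent, wed_apply]; ring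

theorem W_p0_p0 : W (p0 a1 a2 l1 l2) (p0 a1 a2 l1 l2) = -2 * W (wed a1 a2) (wed l1 l2) := by
  unfold p0 W; simp only [ent_add]; simp only [ent, wed_apply]; ring
theorem W_q0_q0 : W (q0 a1 a2 l1 l2) (q0 a1 a2 l1 l2) = -2 * W (wed a1 a2) (wed l1 l2) := by
  unfold q0 W; simp only [ent_sub]; simp only [ent, wed_apply]; ring
theorem W_u0_u0 : W (u0 a1 a2 l1 l2) (u0 a1 a2 l1 l2) = -2 * W (wed a1 a2) (wed l1 l2) := by
  unfold u0 W; simp only [ent_sub]; simp only [ent, wed_apply]; ring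
theorem W_p0_q0 : W (p0 a1 a2 l1 l2) (q0 a1 a2 l1 l2) = 0 := by
  unfold p0 q0 W; simp only [ent_sub, ent_add]; simp only [ent, wed_apply]; ring
theorem W_p0_u0 : W (p0 a1 a2 l1 l2) (u0 a1 a2 l1 l2) = 0 := by
  unfold p0 u0 W; simp only [ent_sub, ent_add]; simp only [ent, wed_apply]; ring
theorem W_q0_u0 : W (q0 a1 a2 l1 l2) (u0 a1 a2 l1 l2) = 0 := by
  unfold q0 u0 W; simp only [ent_sub]; simp only [ent, wed_apply]; ring
theorem W_r_p0 : W (wed l1 l2) (p0 a1 a2 l1 l2) = 0 := by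
  unfold p0 W; simp only [ent_add]; simp only [ent, wed_apply]; ring
theorem W_r_q0 : W (wed l1 l2) (q0 a1 a2 l1 l2) = 0 := by
  unfold q0 W; simp only [ent_sub]; simp only [ent, wed_apply]; ring
theorem W_r_u0 : W (wed l1 l2) (u0 a1 a2 l1 l2) = W (wed a1 a2) (wed l1 l2) := by
  unfold u0 W; simp only [ent_sub]; simp only [ent, wed_apply]; ring

end Table

/-! ### positive triples at a point -/

/-- positivity of a triple at a point. -/
def PT (u p q : Bil) : Prop :=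
  ∀ x y z : ℝ, (x ≠ 0 ∨ y ≠ 0 ∨ z ≠ 0) →
    W (x • u + y • p + z • q) (x • u + y • p + z • q) ≠ 0

theorem W_quad (u p q : Bil) (x y z : ℝ) :
    W (x • u + y • p + z • q) (x • u + y • p + z • q) =
      x ^ 2 * W u u + 2 * x * y * W u p + 2 * x * z * W u q + y ^ 2 * W p p
        + 2 * y * z * W p q + z ^ 2 * W q q := by
  simp only [W_add_left, W_add_right, W_smul_left, W_smul_right]
  rw [W_comm p u, W_comm q u, W_comm q p]
  ring

theorem real_quad {b c : ℝ} (h : ∀ t : ℝ, t ^ 2 + 2 * b * t + c ≠ 0) : b ^ 2 < c := by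
  by_contra hc
  push Not at hc
  have h1 := h (-b + √(b ^ 2 - c))
  have h2 : √(b ^ 2 - c) ^ 2 = b ^ 2 - c := Real.sq_sqrt (by linarith)
  apply h1
  nlinarith

theorem PT.ne {u p q : Bil} (h : PT u p q) : W p p ≠ 0 := by
  have h1 := h 0 1 0 (by simp)
  rw [W_quad] at h1
  intro h2
  apply h1
  rw [h2]; ring

theorem PT.block {u p q : Bil} (h : PT u p q) {x z : ℝ} (hxz : x ≠ 0 ∨ z ≠ 0) :
    (x * (W u p / W p p) + z * (W p q / W p p)) ^ 2 <
      x ^ 2 * (W u u / W p p) + 2 * x * z * (W u q / W p p) + z ^ 2 * (W q q / W p p) := by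
  have hF := h.ne
  apply real_quad
  intro t ht
  have h1 := h x t z (by tauto)
  rw [W_quad] at h1
  apply h1
  have h2 : x ^ 2 * W u u + 2 * x * t * W u p + 2 * x * z * W u q + t ^ 2 * W p p
        + 2 * t * z * W p q + z ^ 2 * W q q =
      W p p * (t ^ 2 + 2 * (x * (W u p / W p p) + z * (W p q / W p p)) * t +
      (x ^ 2 * (W u u / W p p) + 2 * x * z * (W u q / W p p) + z ^ 2 * (W q q / W p p))) := by
    field_simp
    ring
  rw [h2, ht, mul_zero]

/-- criterion. -/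
theorem PT.of {u p q : Bil} (hF : W p p ≠ 0)
    (hD : (W p q / W p p) ^ 2 < W q q / W p p)
    (hdet : (W u q / W p p - W u p / W p p * (W p q / W p p)) ^ 2 <
      (W u u / W p p - (W u p / W p p) ^ 2) * (W q q / W p p - (W p q / W p p) ^ 2)) :
    PT u p q := by
  intro x y z hxyz h0
  rw [W_quad] at h0
  obtain ⟨A, hA⟩ : ∃ A, A = W u u / W p p := ⟨_, rfl⟩
  obtain ⟨b, hb⟩ : ∃ b, b = W u p / W p p := ⟨_, rfl⟩
  obtain ⟨d, hd⟩ : ∃ d, d = W u q / W p p := ⟨_, rfl⟩
  obtain ⟨e, he⟩ : ∃ e, e = W p q / W p p := ⟨_, rfl⟩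
  obtain ⟨f, hf⟩ : ∃ f, f = W q q / W p p := ⟨_, rfl⟩
  rw [← hA, ← hb, ← hd, ← he, ← hf] at hdet
  rw [← he, ← hf] at hD
  have h1 : x ^ 2 * A + 2 * x * y * b + 2 * x * z * d + y ^ 2 + 2 * y * z * e + z ^ 2 * f = 0 := by
    have : W p p * (x ^ 2 * A + 2 * x * y * b + 2 * x * z * d + y ^ 2 + 2 * y * z * e
        + z ^ 2 * f) = 0 := by
      rw [← h0, hA, hb, hd, he, hf]
      field_simp
    rcases mul_eq_zero.1 this with h | h
    · exact absurd h hF
    · exact h
  have hpos : 0 < f - e ^ 2 := by linarith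
  have hA' : 0 < A - b ^ 2 := by
    by_contra hcon
    push Not at hcon
    have : (A - b ^ 2) * (f - e ^ 2) ≤ 0 := mul_nonpos_of_nonpos_of_nonneg hcon hpos.le
    nlinarith [sq_nonneg (d - b * e)]
  -- complete the squares
  have h2 : (f - e ^ 2) * (x ^ 2 * A + 2 * x * y * b + 2 * x * z * d + y ^ 2 + 2 * y * z * e
      + z ^ 2 * f) = (f - e ^ 2) * (y + x * b + z * e) ^ 2
      + (z * (f - e ^ 2) + x * (d - b * e)) ^ 2
      + x ^ 2 * ((A - b ^ 2) * (f - e ^ 2) - (d - b * e) ^ 2) := by ring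
  rw [h1, mul_zero] at h2
  have h3 : 0 < (A - b ^ 2) * (f - e ^ 2) - (d - b * e) ^ 2 := by linarith
  have hx : x = 0 := by
    by_contra hx
    have h4 : 0 < x ^ 2 := by positivity
    have h5 : 0 < x ^ 2 * ((A - b ^ 2) * (f - e ^ 2) - (d - b * e) ^ 2) := mul_pos h4 h3
    have h6 : 0 ≤ (f - e ^ 2) * (y + x * b + z * e) ^ 2 := mul_nonneg hpos.le (sq_nonneg _)
    nlinarith [sq_nonneg (z * (f - e ^ 2) + x * (d - b * e))]
  subst hx
  have hz : z = 0 := by
    by_contra hz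
    have h4 : 0 < (z * (f - e ^ 2) + 0 * (d - b * e)) ^ 2 := by
      have : z * (f - e ^ 2) + 0 * (d - b * e) ≠ 0 := by
        simp only [zero_mul, add_zero]
        exact mul_ne_zero hz hpos.ne'
      positivity
    have h6 : 0 ≤ (f - e ^ 2) * (y + 0 * b + z * e) ^ 2 := mul_nonneg hpos.le (sq_nonneg _)
    nlinarith
  subst hz
  have hy : y = 0 := by
    have : y ^ 2 = 0 := by nlinarith
    exact pow_eq_zero_iff (two_ne_zero) |>.1 this
  subst hy
  simp at hxyz

/-! ### facts at a point -/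

section Facts

variable {a1 a2 l1 l2 : E4 →L[ℝ] ℝ} {u p q : Bil} {h : ℝ}

/-- `W u (l1∧l2) ≠ 0`. -/
theorem ne_ur (hW : W (wed a1 a2) (wed l1 l2) ≠ 0) (hP : PT u p q)
    (hp : p = p0 a1 a2 l1 l2 + h • wed l1 l2) (hq : W q (wed l1 l2) = 0) :
    W u (wed l1 l2) ≠ 0 := by
  intro hu
  have hp1 : W p (wed l1 l2) = 0 := by
    rw [hp, W_add_left, W_smul_left, W_comm (p0 a1 a2 l1 l2), W_r_p0, W_r_r]; ring
  have hp2 : W p (wed a2 l2) = - W (wed a1 a2) (wed l1 l2) := by
    rw [hp, p0, W_add_left, W_add_left, W_smul_left, W_11_22, W_22_22, W_r_22]; ring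
  have hp3 : W p (wed a2 l1) = 0 := by
    rw [hp, p0, W_add_left, W_add_left, W_smul_left, W_11_21, W_22_21, W_r_21]; ring
  obtain ⟨x, z, hxz, h1⟩ : ∃ x z : ℝ, (x ≠ 0 ∨ z ≠ 0) ∧
      x * W u (wed a2 l1) + z * W q (wed a2 l1) = 0 := by
    by_cases h0 : W u (wed a2 l1) = 0
    · exact ⟨1, 0, by simp, by rw [h0]; ring⟩
    · exact ⟨W q (wed a2 l1), - W u (wed a2 l1), Or.inr (by simpa using h0), by ring⟩
  set y : ℝ := (x * W u (wed a2 l2) + z * W q (wed a2 l2)) / W (wed a1 a2) (wed l1 l2) with hy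
  have hy' : y * W (wed a1 a2) (wed l1 l2) = x * W u (wed a2 l2) + z * W q (wed a2 l2) := by
    rw [hy]; field_simp
  have h2 := laplace (x • u + y • p + z • q) (x • u + y • p + z • q) a1 a2 l1 l2
  have e1 : W (x • u + y • p + z • q) (wed l1 l2) = 0 := by
    simp only [W_add_left, W_smul_left, hu, hp1, hq]; ring
  have e2 : W (x • u + y • p + z • q) (wed a2 l2) = 0 := by
    simp only [W_add_left, W_smul_left, hp2]; linarith
  have e3 : W (x • u + y • p + z • q) (wed a2 l1) = 0 := by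
    simp only [W_add_left, W_smul_left, hp3]; linarith
  rw [e1, e2, e3] at h2
  have h3 : W (x • u + y • p + z • q) (x • u + y • p + z • q) = 0 := by
    have : W (wed a1 a2) (wed l1 l2) *
      W (x • u + y • p + z • q) (x • u + y • p + z • q) = 0 := by rw [h2]; ring
    rcases mul_eq_zero.1 this with h | h
    · exact absurd h hW
    · exact h
  exact hP x y z (by tauto) h3

/-- `W q q0 ≠ 0`. -/
theorem ne_qq (hW : W (wed a1 a2) (wed l1 l2) ≠ 0) (hP : PT u p q)
    (hp : p = p0 a1 a2 l1 l2 + h • wed l1 l2) (hq : W q (wed l1 l2) = 0) :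
    W q (q0 a1 a2 l1 l2) ≠ 0 := by
  intro h0
  have hp1 : W p (wed l1 l2) = 0 := by
    rw [hp, W_add_left, W_smul_left, W_comm (p0 a1 a2 l1 l2), W_r_p0, W_r_r]; ring
  have hp2 : W p (wed a2 l2) = - W (wed a1 a2) (wed l1 l2) := by
    rw [hp, p0, W_add_left, W_add_left, W_smul_left, W_11_22, W_22_22, W_r_22]; ring
  have hp2' : W p (wed a1 l1) = - W (wed a1 a2) (wed l1 l2) := by
    rw [hp, p0, W_add_left, W_add_left, W_smul_left, W_r_11]
    have e1 : W (wed a1 l1) (wed a1 l1) = 0 := W_22_22 a1 l1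
    rw [e1, W_comm (wed a2 l2), W_11_22]; ring
  have hp3 : W p (wed a2 l1) = 0 := by
    rw [hp, p0, W_add_left, W_add_left, W_smul_left, W_11_21, W_22_21, W_r_21]; ring
  have hp3' : W p (wed a1 l2) = 0 := by
    rw [hp, p0, W_add_left, W_add_left, W_smul_left, W_11_12, W_22_12, W_r_12]; ring
  rw [q0, W_sub_right] at h0
  obtain ⟨w0, hw0⟩ : ∃ w0, w0 = W (wed a1 a2) (wed l1 l2) := ⟨_, rfl⟩
  obtain ⟨A, hA⟩ : ∃ A, A = W q (wed a2 l2) := ⟨_, rfl⟩
  obtain ⟨B, hB⟩ : ∃ B, B = W q (wed a1 l1) := ⟨_, rfl⟩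
  obtain ⟨C, hC⟩ : ∃ C, C = W q (wed a2 l1) := ⟨_, rfl⟩
  have hC' : W q (wed a1 l2) = C := by rw [hC]; linarith
  set s : ℝ := √((A - B) ^ 2 + 4 * C ^ 2) with hs
  have hs2 : s ^ 2 = (A - B) ^ 2 + 4 * C ^ 2 := Real.sq_sqrt (by positivity)
  set t : ℝ := (A + B + s) / 2 / w0 with ht
  have hw0' : w0 ≠ 0 := by rw [hw0]; exact hW
  have htw : t * w0 = (A + B + s) / 2 := by rw [ht]; field_simp
  have h2 := laplace ((0 : ℝ) • u + t • p + (1 : ℝ) • q) ((0 : ℝ) • u + t • p + (1 : ℝ) • q)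
    a1 a2 l1 l2
  have e1 : W ((0 : ℝ) • u + t • p + (1 : ℝ) • q) (wed l1 l2) = 0 := by
    simp only [W_add_left, W_smul_left, hp1, hq]; ring
  have e2 : W ((0 : ℝ) • u + t • p + (1 : ℝ) • q) (wed a2 l2) = A - (A + B + s) / 2 := by
    simp only [W_add_left, W_smul_left, hp2, ← hA, ← hw0]; linarith
  have e2' : W ((0 : ℝ) • u + t • p + (1 : ℝ) • q) (wed a1 l1) = B - (A + B + s) / 2 := by
    simp only [W_add_left, W_smul_left, hp2', ← hB, ← hw0]; linarith
  have e3 : W ((0 : ℝ) • u + t • p + (1 : ℝ) • q) (wed a2 l1) = C := by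
    simp only [W_add_left, W_smul_left, hp3, ← hC]; ring
  have e3' : W ((0 : ℝ) • u + t • p + (1 : ℝ) • q) (wed a1 l2) = C := by
    simp only [W_add_left, W_smul_left, hp3', hC']; ring
  rw [e1, e2, e2', e3, e3', ← hw0] at h2
  have h3 : W ((0 : ℝ) • u + t • p + (1 : ℝ) • q) ((0 : ℝ) • u + t • p + (1 : ℝ) • q) = 0 := by
    have : w0 * W ((0 : ℝ) • u + t • p + (1 : ℝ) • q)
      ((0 : ℝ) • u + t • p + (1 : ℝ) • q) = 0 := by rw [h2]; nlinarith
    rcases mul_eq_zero.1 this with h | h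
    · exact absurd h hw0'
    · exact h
  exact hP 0 t 1 (by simp) h3

end Facts

end

end Crest.Agent.R235.TorAlg_68
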