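import Mathlib
import Crest.Agent.R235.TorAlg_68

/-!
Row 235 (S0364), package TOR, helper68: pointwise algebra, the three segments.
-/

set_option autoImplicit false
set_option linter.unusedVariables false

namespace Crest.Agent.R235.TorAlg_68

open Crest.Agent.R240

noncomputable section

theorem PT.hD {u p q : Bil} (h : PT u p q) : (W p q / W p p) ^ 2 < W q q / W p p := by
  have := h.block (x := 0) (z := 1) (by simp)
  simpa using this

theorem PT.hdet {u p q : Bil} (h : PT u p q) :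
    (W u q / W p p - W u p / W p p * (W p q / W p p)) ^ 2 <
      (W u u / W p p - (W u p / W p p) ^ 2) * (W q q / W p p - (W p q / W p p) ^ 2) := by
  have hD := h.hD
  obtain ⟨A, hA⟩ : ∃ A, A = W u u / W p p := ⟨_, rfl⟩
  obtain ⟨b, hb⟩ : ∃ b, b = W u p / W p p := ⟨_, rfl⟩
  obtain ⟨d, hd⟩ : ∃ d, d = W u q / W p p := ⟨_, rfl⟩
  obtain ⟨e, he⟩ : ∃ e, e = W p q / W p p := ⟨_, rfl⟩
  obtain ⟨f, hf⟩ : ∃ f, f = W q q / W p p := ⟨_, rfl⟩
  have h1 := h.block (x := W q q / W p p - (W p q / W p p) ^ 2)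
    (z := -(W u q / W p p - W u p / W p p * (W p q / W p p))) (Or.inl (by linarith))
  rw [← hA, ← hb, ← hd, ← he, ← hf] at h1 ⊢
  rw [← he, ← hf] at hD
  have h2 : 0 < (f - e ^ 2) * ((A - b ^ 2) * (f - e ^ 2) - (d - b * e) ^ 2) := by nlinarith
  have h3 : 0 < f - e ^ 2 := by linarith
  have h4 := (pos_iff_pos_of_mul_pos h2).1 h3
  linarith

/-- first segment. -/
theorem seg1 {u p q r : Bil} {s : ℝ} (hP : PT u p q) (hr : W r r = 0) (hpr : W p r = 0)
    (hqr : W q r = 0) (hs : 0 ≤ s * (W u r / W p p)) : PT (u + s • r) p q := by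
  have e1 : W (u + s • r) p = W u p := by
    rw [W_add_left, W_smul_left, W_comm r, hpr]; ring
  have e2 : W (u + s • r) q = W u q := by
    rw [W_add_left, W_smul_left, W_comm r, hqr]; ring
  have e3 : W (u + s • r) (u + s • r) = W u u + 2 * s * W u r := by
    rw [W_add_left, W_smul_left, W_add_right, W_add_right, W_smul_right, W_smul_right, hr,
      W_comm r u]; ring
  refine PT.of hP.ne hP.hD ?_
  have h1 := hP.hdet
  have h2 := hP.hD
  have h3 : (W u u + 2 * s * W u r) / W p p = W u u / W p p + 2 * (s * (W u r / W p p)) := by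
    ring
  rw [e1, e2, e3, h3]
  have h4 : 0 ≤ 2 * (s * (W u r / W p p)) * (W q q / W p p - (W p q / W p p) ^ 2) :=
    mul_nonneg (by linarith) (by linarith)
  nlinarith

/-- numerical lemma for the second segment. -/
theorem num2 {C δ A x y e D m : ℝ} (hC : 0 ≤ C) (hδ : 0 < δ) (hA : |A| ≤ C) (hx : |x| ≤ C)
    (hy : |y| ≤ C) (he : |e| ≤ C) (hD : δ / 2 ≤ D)
    (hm : C + C ^ 2 + 2 / δ * (C + C ^ 2) ^ 2 + 1 ≤ 2 * m) :
    (y - x * e) ^ 2 < (A + 2 * m - x ^ 2) * D := by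
  have h1 : |y - x * e| ≤ C + C ^ 2 := by
    calc |y - x * e| ≤ |y| + |x * e| := abs_sub _ _
      _ = |y| + |x| * |e| := by rw [abs_mul]
      _ ≤ C + C * C := by gcongr
      _ = C + C ^ 2 := by ring
  have h2 : (y - x * e) ^ 2 ≤ (C + C ^ 2) ^ 2 := by
    rw [← sq_abs]; gcongr
  have h3 : x ^ 2 ≤ C ^ 2 := by rw [← sq_abs]; gcongr
  have h4 : -C ≤ A := (abs_le.1 hA).1
  have h5 : 2 / δ * (C + C ^ 2) ^ 2 + 1 ≤ A + 2 * m - x ^ 2 := by linarith
  have h6 : 0 < 2 / δ * (C + C ^ 2) ^ 2 + 1 := by positivity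
  have h7 : (2 / δ * (C + C ^ 2) ^ 2 + 1) * (δ / 2) ≤ (A + 2 * m - x ^ 2) * D :=
    mul_le_mul h5 hD (by linarith) (by linarith)
  have h8 : (2 / δ * (C + C ^ 2) ^ 2 + 1) * (δ / 2) = (C + C ^ 2) ^ 2 + δ / 2 := by
    field_simp
  linarith

section Seg

variable {a1 a2 l1 l2 : E4 →L[ℝ] ℝ} {u p q : Bil} {h : ℝ}

theorem Wpp (hp : p = p0 a1 a2 l1 l2 + h • wed l1 l2) :
    W p p = W (p0 a1 a2 l1 l2) (p0 a1 a2 l1 l2) := by
  rw [hp, W_add_left, W_add_right, W_add_right, W_smul_left, W_smul_left, W_smul_right,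
    W_smul_right, W_r_p0, W_r_r, W_comm (p0 a1 a2 l1 l2) (wed l1 l2), W_r_p0]; ring

theorem Wpp0 (hp : p = p0 a1 a2 l1 l2 + h • wed l1 l2) :
    W p (p0 a1 a2 l1 l2) = W (p0 a1 a2 l1 l2) (p0 a1 a2 l1 l2) := by
  rw [hp, W_add_left, W_smul_left, W_r_p0]; ring

theorem Wpq0 (hp : p = p0 a1 a2 l1 l2 + h • wed l1 l2) :
    W p (q0 a1 a2 l1 l2) = 0 := by
  rw [hp, W_add_left, W_smul_left, W_r_q0, W_p0_q0]; ring

theorem Wpr (hp : p = p0 a1 a2 l1 l2 + h • wed l1 l2) :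
    W p (wed l1 l2) = 0 := by
  rw [hp, W_add_left, W_smul_left, W_r_r, W_comm (p0 a1 a2 l1 l2), W_r_p0]; ring

theorem Wp0q (hp : p = p0 a1 a2 l1 l2 + h • wed l1 l2) (hq : W q (wed l1 l2) = 0) :
    W (p0 a1 a2 l1 l2) q = W p q := by
  rw [hp, W_add_left, W_smul_left, W_comm (wed l1 l2) q, hq]; ring

/-- second segment. -/
theorem seg2 {C δ K s τ : ℝ} (hW : W (wed a1 a2) (wed l1 l2) ≠ 0)
    (hp : p = p0 a1 a2 l1 l2 + h • wed l1 l2) (hq : W q (wed l1 l2) = 0)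
    (hτ : τ ^ 2 = 1) (hs0 : 0 ≤ s) (hs1 : s ≤ 1) (hC : 0 ≤ C) (hδ : 0 < δ) (hδ1 : δ ≤ 1)
    (h1 : |W u u / W p p| ≤ C) (h2 : |W u p / W p p| ≤ C)
    (h3 : |W u (p0 a1 a2 l1 l2) / W p p| ≤ C) (h4 : |W u q / W p p| ≤ C)
    (h5 : |W u (q0 a1 a2 l1 l2) / W p p| ≤ C) (h6 : |W p q / W p p| ≤ C)
    (h7 : δ ≤ W q q / W p p - (W p q / W p p) ^ 2)
    (h8 : 0 ≤ τ * (W q (q0 a1 a2 l1 l2) / W p p))
    (h9 : C + C ^ 2 + 2 / δ * (C + C ^ 2) ^ 2 + 1 ≤ 2 * (K * (W u (wed l1 l2) / W p p))) :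
    PT (u + K • wed l1 l2) ((1 - s) • p + s • p0 a1 a2 l1 l2)
      ((1 - s) • q + s • (τ • q0 a1 a2 l1 l2)) := by
  have hF : W p p ≠ 0 := by
    rw [Wpp hp, W_p0_p0]; simpa using hW
  have f1 := Wpp hp
  have f2 := Wpp0 hp
  have f3 := Wpq0 hp
  have f4 := Wpr hp
  have f5 := Wp0q hp hq
  have hRR := W_r_r l1 l2
  have hrp := W_r_p0 a1 a2 l1 l2
  have hrq := W_r_q0 a1 a2 l1 l2
  have hp0q0 := W_p0_q0 a1 a2 l1 l2
  have hq0q0 : W (q0 a1 a2 l1 l2) (q0 a1 a2 l1 l2) = W p p := by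
    rw [f1, W_p0_p0, W_q0_q0]
  generalize hr : wed l1 l2 = r at *
  generalize hP0 : p0 a1 a2 l1 l2 = P0 at *
  generalize hQ0 : q0 a1 a2 l1 l2 = Q0 at *
  have g1 : W ((1 - s) • p + s • P0) ((1 - s) • p + s • P0) = W p p := by
    simp only [W_add_left, W_add_right, W_smul_left, W_smul_right]
    rw [W_comm P0 p, f2, ← f1]; ring
  have g2 : W ((1 - s) • p + s • P0) ((1 - s) • q + s • (τ • Q0)) = (1 - s) * W p q := by
    simp only [W_add_left, W_add_right, W_smul_left, W_smul_right]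
    rw [f5, f3, hp0q0]; ring
  have g3 : W ((1 - s) • q + s • (τ • Q0)) ((1 - s) • q + s • (τ • Q0)) =
      (1 - s) ^ 2 * W q q + 2 * s * (1 - s) * (τ * W q Q0) + s ^ 2 * W p p := by
    simp only [W_add_left, W_add_right, W_smul_left, W_smul_right]
    rw [W_comm Q0 q, hq0q0]
    linear_combination s ^ 2 * W p p * hτ
  have g4 : W (u + K • r) ((1 - s) • p + s • P0) = (1 - s) * W u p + s * W u P0 := by
    simp only [W_add_left, W_add_right, W_smul_left, W_smul_right]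
    rw [W_comm r p, f4, hrp]; ring
  have g5 : W (u + K • r) ((1 - s) • q + s • (τ • Q0)) =
      (1 - s) * W u q + s * (τ * W u Q0) := by
    simp only [W_add_left, W_add_right, W_smul_left, W_smul_right]
    rw [W_comm r q, hq, hrq]; ring
  have g6 : W (u + K • r) (u + K • r) = W u u + 2 * K * W u r := by
    simp only [W_add_left, W_add_right, W_smul_left, W_smul_right]
    rw [W_comm r u, hRR]; ring
  have hτ1 : |τ| = 1 := by
    have : |τ| ^ 2 = 1 := by rw [sq_abs]; exact hτ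
    exact (pow_eq_one_iff_of_nonneg (abs_nonneg τ) two_ne_zero).1 this
  have hs1' : 0 ≤ 1 - s := by linarith
  -- the quotient D
  have hDD : δ / 2 ≤ ((1 - s) ^ 2 * W q q + 2 * s * (1 - s) * (τ * W q Q0) + s ^ 2 * W p p) / W p p
      - ((1 - s) * W p q / W p p) ^ 2 := by
    have : ((1 - s) ^ 2 * W q q + 2 * s * (1 - s) * (τ * W q Q0) + s ^ 2 * W p p) / W p p
      - ((1 - s) * W p q / W p p) ^ 2 = (1 - s) ^ 2 * (W q q / W p p - (W p q / W p p) ^ 2)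
        + 2 * s * (1 - s) * (τ * (W q Q0 / W p p)) + s ^ 2 := by
      field_simp
      ring
    rw [this]
    have e1 : (1 - s) ^ 2 * δ ≤ (1 - s) ^ 2 * (W q q / W p p - (W p q / W p p) ^ 2) :=
      mul_le_mul_of_nonneg_left h7 (sq_nonneg _)
    have e2 : 0 ≤ 2 * s * (1 - s) * (τ * (W q Q0 / W p p)) := by positivity
    have e3 : s ^ 2 * δ ≤ s ^ 2 * 1 := mul_le_mul_of_nonneg_left hδ1 (sq_nonneg s)
    have e4 : 0 ≤ δ * (1 - 2 * s) ^ 2 := mul_nonneg hδ.le (sq_nonneg _)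
    have e5 : (1 - s) ^ 2 * δ + s ^ 2 * δ - δ / 2 = (δ * (1 - 2 * s) ^ 2) / 2 := by ring
    linarith
  have hb : ∀ {a b : ℝ}, |a| ≤ C → |b| ≤ C → |(1 - s) * a + s * b| ≤ C := by
    intro a b ha hb
    calc |(1 - s) * a + s * b| ≤ |(1 - s) * a| + |s * b| := abs_add_le _ _
      _ = (1 - s) * |a| + s * |b| := by rw [abs_mul, abs_mul, abs_of_nonneg hs1', abs_of_nonneg hs0]
      _ ≤ (1 - s) * C + s * C := by gcongr
      _ = C := by ring
  refine PT.of (by rw [g1]; exact hF) ?_ ?_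
  · rw [g1, g2, g3]
    linarith
  · rw [g1, g2, g3, g4, g5, g6]
    have e0 : (W u u + 2 * K * W u r) / W p p = W u u / W p p + 2 * (K * (W u r / W p p)) := by
      ring
    rw [e0]
    refine num2 (e := (1 - s) * W p q / W p p) hC hδ h1 ?_ ?_ ?_ hDD h9
    · have : ((1 - s) * W u p + s * W u P0) / W p p =
        (1 - s) * (W u p / W p p) + s * (W u P0 / W p p) := by ring
      rw [this]; exact hb h2 h3
    · have : ((1 - s) * W u q + s * (τ * W u Q0)) / W p p =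
        (1 - s) * (W u q / W p p) + s * (τ * (W u Q0 / W p p)) := by ring
      rw [this]
      refine hb h4 ?_
      rw [abs_mul, hτ1, one_mul]; exact h5
    · have : (1 - s) * W p q / W p p = (1 - s) * (W p q / W p p) + s * 0 := by ring
      rw [this]
      exact hb h6 (by simpa using hC)

/-- third segment. -/
theorem seg3 {K s τ σ : ℝ} {U : Bil} (hW : W (wed a1 a2) (wed l1 l2) ≠ 0)
    (hτ : τ ^ 2 = 1) (hσ : σ ^ 2 = 1) (hs0 : 0 ≤ s) (hs1 : s ≤ 1)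
    (h1 : (W U (p0 a1 a2 l1 l2) / W (p0 a1 a2 l1 l2) (p0 a1 a2 l1 l2)) ^ 2 +
      (W U (q0 a1 a2 l1 l2) / W (p0 a1 a2 l1 l2) (p0 a1 a2 l1 l2)) ^ 2 <
      W U U / W (p0 a1 a2 l1 l2) (p0 a1 a2 l1 l2))
    (h2 : 0 ≤ σ * (W U (u0 a1 a2 l1 l2) / W (p0 a1 a2 l1 l2) (p0 a1 a2 l1 l2))) :
    PT ((1 - s) • U + s • (σ • u0 a1 a2 l1 l2)) (p0 a1 a2 l1 l2) (τ • q0 a1 a2 l1 l2) := by
  have hF : W (p0 a1 a2 l1 l2) (p0 a1 a2 l1 l2) ≠ 0 := by
    rw [W_p0_p0]; simpa using hW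
  have hp0q0 := W_p0_q0 a1 a2 l1 l2
  have hp0u0 := W_p0_u0 a1 a2 l1 l2
  have hq0u0 := W_q0_u0 a1 a2 l1 l2
  have hq0q0 : W (q0 a1 a2 l1 l2) (q0 a1 a2 l1 l2) =
      W (p0 a1 a2 l1 l2) (p0 a1 a2 l1 l2) := by rw [W_p0_p0, W_q0_q0]
  have hu0u0 : W (u0 a1 a2 l1 l2) (u0 a1 a2 l1 l2) =
      W (p0 a1 a2 l1 l2) (p0 a1 a2 l1 l2) := by rw [W_p0_p0, W_u0_u0]
  generalize p0 a1 a2 l1 l2 = P at *
  generalize q0 a1 a2 l1 l2 = Q at *
  generalize u0 a1 a2 l1 l2 = V at *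
  have g1 : W P (τ • Q) = 0 := by rw [W_smul_right, hp0q0]; ring
  have g2 : W (τ • Q) (τ • Q) = W P P := by
    rw [W_smul_left, W_smul_right, hq0q0]; linear_combination W P P * hτ
  have g3 : W ((1 - s) • U + s • (σ • V)) P = (1 - s) * W U P := by
    simp only [W_add_left, W_smul_left]
    rw [W_comm V P, hp0u0]; ring
  have g4 : W ((1 - s) • U + s • (σ • V)) (τ • Q) = (1 - s) * (τ * W U Q) := by
    simp only [W_add_left, W_smul_left, W_smul_right]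
    rw [W_comm V Q, hq0u0]; ring
  have g5 : W ((1 - s) • U + s • (σ • V)) ((1 - s) • U + s • (σ • V)) =
      (1 - s) ^ 2 * W U U + 2 * s * (1 - s) * (σ * W U V) + s ^ 2 * W P P := by
    simp only [W_add_left, W_add_right, W_smul_left, W_smul_right]
    rw [W_comm V U, hu0u0]
    linear_combination s ^ 2 * W P P * hσ
  refine PT.of hF ?_ ?_
  · rw [g1, g2, zero_div, div_self hF]; norm_num
  · rw [g1, g2, g3, g4, g5, zero_div, div_self hF]
    have e1 : ((1 - s) ^ 2 * W U U + 2 * s * (1 - s) * (σ * W U V) + s ^ 2 * W P P) / W P P =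
        (1 - s) ^ 2 * (W U U / W P P) + 2 * s * (1 - s) * (σ * (W U V / W P P)) + s ^ 2 := by
      field_simp
    have e2 : (1 - s) * W U P / W P P = (1 - s) * (W U P / W P P) := by ring
    have e3 : (1 - s) * (τ * W U Q) / W P P = (1 - s) * (τ * (W U Q / W P P)) := by ring
    rw [e1, e2, e3]
    have e4 : (τ * (W U Q / W P P)) ^ 2 = (W U Q / W P P) ^ 2 := by
      rw [mul_pow, hτ, one_mul]
    have e5 : 0 ≤ 2 * s * (1 - s) * (σ * (W U V / W P P)) := by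
      have : 0 ≤ 1 - s := by linarith
      positivity
    have e6 : ((1 - s) * (τ * (W U Q / W P P)) - (1 - s) * (W U P / W P P) * 0) ^ 2 =
      (1 - s) ^ 2 * (W U Q / W P P) ^ 2 := by
      rw [mul_zero, sub_zero, mul_pow, e4]
    rw [e6]
    have e7 : 0 < (1 - s) ^ 2 * (W U U / W P P - (W U P / W P P) ^ 2 - (W U Q / W P P) ^ 2)
        + s ^ 2 := by
      rcases eq_or_lt_of_le hs0 with h0 | h0
      · rw [← h0]; norm_num; linarith
      · have : 0 ≤ (1 - s) ^ 2 * (W U U / W P P - (W U P / W P P) ^ 2 - (W U Q / W P P) ^ 2) :=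
          mul_nonneg (sq_nonneg _) (by linarith)
        positivity
    nlinarith

end Seg

end

end Crest.Agent.R235.TorAlg_68
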