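import Crest.Agent.R235.TorCut_649

/-!
Row 235 (S0364), PACKAGE TOR, node CUT in the form consumed by COFRAME (helper129, #1793).
-/

set_option autoImplicit false
set_option maxSynthPendingDepth 3

open Set Function Filter MeasureTheory
open scoped Manifold ContDiff Topology

universe u

namespace Crest.Agent.R235.TorCut2_649

open Crest.Agent.R235 Crest.Agent.R240 Crest.Agent.R240.Ch Crest.Agent.R235.TorCut_649

variable {M : Type u} [TopologicalSpace M] [T2Space M] [CompactSpace M]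
  [ChartedSpace E4 M] [IsManifold 𝓘(ℝ, E4) ∞ M]
variable {w : Trip M} {f : H2 M} {T : Set (E4 → M)}

/-- **CUT.** -/
theorem cut (h : TAtlas w f T) :
    ∃ (n : ℕ) (Φ : Fin n → E4 → M) (ρ : Fin n → M → ℝ), (∀ i, Φ i ∈ T) ∧
      (∀ i, SmoothF E4 (ρ i)) ∧ (∀ x, ∑ i, ρ i x = 1) ∧ (∀ i x, 0 ≤ ρ i x) ∧
      (∀ i, ∀ Ψ ∈ T, ∀ (y : E4) (s t : ℝ), ρ i (Ψ (y + lv s t)) = ρ i (Ψ y)) ∧
      (∀ i, ∀ u : E4 → ℝ, ContDiff ℝ ∞ u → (∀ (y : E4) (m n : ℤ), u (y + lv m n) = u y) →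
        ∃ g : M → ℝ, SmoothF E4 g ∧ (∀ y, g (Φ i y) = ρ i (Φ i y) * u y) ∧
          ∀ x, x ∉ range (Φ i) → g =ᶠ[𝓝 x] 0) ∧
      ∀ i x, x ∉ range (Φ i) → ρ i =ᶠ[𝓝 x] 0 := by
  obtain ⟨n, Φ, ρ, hρ⟩ := exists_part h
  have hoff : ∀ i x, x ∉ range (Φ i) → ρ i =ᶠ[𝓝 x] 0 := by
    intro i x hx
    have h1 : x ∉ KT (Φ i) := fun h2 => hx (KT_sub h2)
    filter_upwards [(KT_closed (h.tube _ (hρ.mem i))).isOpen_compl.mem_nhds h1] with z hz
    exact hρ.off hz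
  refine ⟨n, Φ, ρ, hρ.mem, hρ.smooth, hρ.sum, hρ.nonneg, hρ.leaf, ?_, hoff⟩
  intro i u hu hper
  refine ⟨fun x => ρ i x * push (Φ i) u x, (smoothF_iff _).1 (term_smooth h hρ hper hu),
    fun y => ?_, fun x hx => ?_⟩
  · simp only [push_apply (h.tube _ (hρ.mem i)) hper]
  · filter_upwards [hoff i x hx] with z hz
    simp only [hz, Pi.zero_apply, zero_mul]

end Crest.Agent.R235.TorCut2_649
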