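import Crest.Agent.R235.TorSp_384
import Crest.Agent.R281.Mc6_673

/-!
# Row 235 (S0364), TOR / FIB-B1 (helper384)

* `contDiff_cod` : a smooth map with values in a closed subspace is smooth into the subspace
* `exists_ext`   : a closed form on the tube is extended by a cut-off to a form with bounded derivatives
-/

set_option autoImplicit false
set_option maxSynthPendingDepth 3

open MeasureTheory Set Metric Filter Topology
open scoped ContDiff

namespace Crest.Agent.R235.TorCut_384

open Crest.Agent.R281.Mc673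
open Crest.Agent.R235.TorOm_384 (BS Lp)

noncomputable section

section cod

variable {E : Type} [NormedAddCommGroup E] [NormedSpace ℝ E]

theorem deriv_mem {F : Type} [NormedAddCommGroup F] [NormedSpace ℝ F] {p : Submodule ℝ F}
    (hp : IsClosed (p : Set F)) {f : E → F} (h : ∀ x, f x ∈ p) {x : E} {f' : E →L[ℝ] F}
    (hf : HasFDerivAt f f' x) (v : E) : f' v ∈ p := by
  have h1 : HasDerivAt (fun t : ℝ => f (x + t • v)) (f' v) 0 := by
    have h2 : HasDerivAt (fun t : ℝ => x + t • v) v 0 := by
      simpa using ((hasDerivAt_id (0 : ℝ)).smul_const v).const_add x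
    have h3 : HasFDerivAt f f' (x + (0 : ℝ) • v) := by simpa using hf
    exact h3.comp_hasDerivAt 0 h2
  rw [hasDerivAt_iff_tendsto_slope] at h1
  refine hp.mem_of_tendsto h1 (Eventually.of_forall fun t => ?_)
  rw [slope_def_module]
  exact p.smul_mem _ (p.sub_mem (h _) (h _))

theorem contDiff_cod_nat (n : ℕ) : ∀ (F : Type) [NormedAddCommGroup F] [NormedSpace ℝ F]
    (p : Submodule ℝ F), IsClosed (p : Set F) → ∀ (f : E → F), ContDiff ℝ n f →
      ∀ h : ∀ x, f x ∈ p, ContDiff ℝ n (fun x => (⟨f x, h x⟩ : p)) := by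
  induction n with
  | zero =>
    intro F _ _ p _ f hf h
    exact contDiff_zero.2 ((contDiff_zero.1 hf).subtype_mk h)
  | succ n ih =>
    intro F _ _ p hp f hf h
    obtain ⟨f', hf', hd⟩ := contDiff_succ_iff_hasFDerivAt.1 hf
    have hmem : ∀ x v, f' x v ∈ p := fun x v => deriv_mem hp h (hd x) v
    let P : Submodule ℝ (E →L[ℝ] F) :=
      { carrier := {L | ∀ v, L v ∈ p}
        add_mem' := fun ha hb v => p.add_mem (ha v) (hb v)
        zero_mem' := fun v => p.zero_mem
        smul_mem' := fun c L hL v => p.smul_mem c (hL v) }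
    have hP : IsClosed (P : Set (E →L[ℝ] F)) := by
      have : (P : Set (E →L[ℝ] F)) = ⋂ v, (fun L : E →L[ℝ] F => L v) ⁻¹' (p : Set F) := by
        ext L; simp [P]
      rw [this]
      exact isClosed_iInter fun v => hp.preimage (ContinuousLinearMap.apply ℝ F v).continuous
    have h1 := ih (E →L[ℝ] F) P hP f' hf' hmem
    let R : P →L[ℝ] (E →L[ℝ] p) := LinearMap.mkContinuous
      { toFun := fun L => (L : E →L[ℝ] F).codRestrict p (fun v => L.2 v)
        map_add' := fun L L' => by ext v; rfl
        map_smul' := fun c L => by ext v; rfl } 1 (fun L => by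
          rw [one_mul]
          refine ContinuousLinearMap.opNorm_le_bound _ (norm_nonneg _) fun v => ?_
          exact (L : E →L[ℝ] F).le_opNorm v)
    refine contDiff_succ_iff_hasFDerivAt.2 ⟨fun x => R ⟨f' x, hmem x⟩, R.contDiff.comp h1,
      fun x => ?_⟩
    have h2 := hd x
    rw [hasFDerivAt_iff_isLittleO] at h2 ⊢
    exact Asymptotics.IsLittleO.of_norm_left h2.norm_left

theorem contDiff_cod {F : Type} [NormedAddCommGroup F] [NormedSpace ℝ F] {p : Submodule ℝ F}
    (hp : IsClosed (p : Set F)) {f : E → F} (hf : ContDiff ℝ ∞ f) (h : ∀ x, f x ∈ p) :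
    ContDiff ℝ ∞ (fun x => (⟨f x, h x⟩ : p)) :=
  contDiff_infty.2 fun n => contDiff_cod_nat n F p hp f (contDiff_infty.1 hf n) h

end cod

section ext

variable {N : ℕ}

theorem bs_of_per {F : Type*} [NormedAddCommGroup F] [NormedSpace ℝ F] {f : W N → F} {R : ℝ}
    (hf : ContDiff ℝ ∞ f) (hp : ∀ (k : Fin N → ℤ) (p : W N), f (p.1 + kv k, p.2) = f p)
    (h0 : ∀ p, R ≤ ‖p.2‖ → f p = 0) : BS f := by
  refine ⟨hf, fun n => ?_⟩
  have hc : Continuous (iteratedFDeriv ℝ n f) := hf.continuous_iteratedFDeriv (by exact_mod_cast le_top)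
  obtain ⟨C, hC⟩ := ((isCompact_cube (N := N)).prod
    (isCompact_closedBall (0 : V N) R)).exists_bound_of_continuousOn hc.continuousOn
  refine ⟨max C 0, fun p => ?_⟩
  rcases lt_or_ge R ‖p.2‖ with h | h
  · have h1 : f =ᶠ[𝓝 p] fun _ => (0 : F) := by
      have ho : IsOpen {q : W N | R < ‖q.2‖} := isOpen_lt continuous_const continuous_snd.norm
      filter_upwards [ho.mem_nhds h] with q hq
      exact h0 q hq.le
    have h2 := h1.iteratedFDeriv ℝ n
    rw [h2.eq_of_nhds]
    have h3 : iteratedFDeriv ℝ n (fun _ : W N => (0 : F)) p = 0 := by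
      have := iteratedFDeriv_fun_zero (𝕜 := ℝ) (E := W N) (F := F) (n := n)
      exact congrFun this p
    rw [h3, norm_zero]
    exact le_max_right _ _
  · obtain ⟨k, y, hy, hk⟩ := exists_cube p.1
    have h1 : (fun q : W N => f (q + (kv k, 0))) = f := by
      funext q
      have := hp k q
      rw [← this]
      congr 1
      ext1 <;> simp
    have h2 : iteratedFDeriv ℝ n f ((y, p.2) + (kv k, 0)) = iteratedFDeriv ℝ n f (y, p.2) := by
      have h3 := iteratedFDeriv_comp_add_right (𝕜 := ℝ) (f := f) n (kv k, 0) ((y, p.2) : W N)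
      rw [h1] at h3
      exact h3.symm
    have h3 : p = ((y, p.2) : W N) + (kv k, 0) := by
      ext1
      · simp [hk]
      · simp
    rw [h3, h2]
    exact (hC _ ⟨hy, by simpa using h⟩).trans (le_max_left _ _)

theorem exists_ext {r : ℝ} (hr : 0 < r) {w : Fo N} (hw : ClF r w) : ∃ w' : Fo N, BS w' ∧
    (∀ p, ‖p.2‖ ≤ r / 2 → w' p = w p) ∧
    ∀ (k : Fin N → ℤ) (p : W N), w' (p.1 + kv k, p.2) = w' p := by
  let f : ContDiffBump (0 : V N) := ⟨r / 2, 3 * r / 4, by positivity, by linarith⟩
  have hz : ∀ p : W N, 3 * r / 4 ≤ ‖p.2‖ → f p.2 = 0 := fun p hp =>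
    f.zero_of_le_dist (by rw [dist_zero_right]; exact hp)
  have hsm : ContDiff ℝ ∞ (fun p : W N => f p.2 • w p) := by
    refine contDiff_iff_contDiffAt.2 fun p => ?_
    rcases lt_or_ge ‖p.2‖ r with h | h
    · exact (f.contDiff.contDiffAt.comp p contDiffAt_snd).smul (hw.cda h)
    · have ho : IsOpen {q : W N | 3 * r / 4 < ‖q.2‖} := isOpen_lt continuous_const continuous_snd.norm
      have h1 : (fun p : W N => f p.2 • w p) =ᶠ[𝓝 p] fun _ => 0 := by
        filter_upwards [ho.mem_nhds (show 3 * r / 4 < ‖p.2‖ by linarith)] with q hq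
        rw [hz q (le_of_lt hq), zero_smul]
      exact contDiffAt_const.congr_of_eventuallyEq h1
  have hper : ∀ (k : Fin N → ℤ) (p : W N), f p.2 • w (p.1 + kv k, p.2) = f p.2 • w p := by
    intro k p
    rcases lt_or_ge ‖p.2‖ r with h | h
    · rw [hw.per k p h]
    · rw [hz p (by linarith), zero_smul, zero_smul]
  refine ⟨fun p => f p.2 • w p, bs_of_per hsm hper fun p hp => by rw [hz p hp, zero_smul],
    fun p hp => ?_, hper⟩
  have : f p.2 = 1 := f.one_of_mem_closedBall (by simpa using hp)
  show f p.2 • w p = w p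
  rw [this, one_smul]

/-- the shifted form -/
def shf (h : V N) (w : Fo N) : Fo N := fun p => w (p.1 + h, p.2)

theorem shf_clf {r : ℝ} {w : Fo N} (hw : ClF r w) (h : V N) : ClF r (shf h w) := by
  have e : ∀ p : W N, ((p.1 + h, p.2) : W N) = p + (h, 0) := fun p => by ext1 <;> simp
  have hmem : ∀ p ∈ tube N r, p + ((h, 0) : W N) ∈ tube N r := by
    intro p hp
    have : (p + ((h, 0) : W N)).2 = p.2 := by simp
    show ‖(p + ((h, 0) : W N)).2‖ < r
    rw [this]; exact hp
  have hs : shf h w = fun p => w (p + (h, 0)) := by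
    funext p; exact congrArg w (e p)
  refine ⟨?_, fun p hp u v => ?_, fun p hp u v z => ?_, fun k p hp => ?_⟩
  · rw [hs]
    exact hw.sm.comp ((contDiff_id.add contDiff_const : ContDiff ℝ ∞ fun p : W N => p + ((h, 0) : W N)).contDiffOn) hmem
  · exact hw.alt _ (by rw [e]; exact hmem p hp) u v
  · have hf : fderiv ℝ (shf h w) p = fderiv ℝ w (p + (h, 0)) := by
      rw [hs]; exact fderiv_comp_add_right _
    rw [hf]
    exact hw.cl _ (hmem p hp) u v z
  · show w (p.1 + kv k + h, p.2) = w (p.1 + h, p.2)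
    have h1 := hw.per k (p.1 + h, p.2) (by rw [e]; exact hmem p hp)
    rw [← h1]
    congr 1
    ext1
    · show p.1 + kv k + h = p.1 + h + kv k
      abel
    · rfl

end ext

end

end Crest.Agent.R235.TorCut_384
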