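import Crest.Agent.R235.TorND_384

/-!
# Row 235 (S0364), TOR / FIB-B1b (helper384): translations, bijectivity, implicit function
-/

set_option autoImplicit false
set_option maxSynthPendingDepth 3

open MeasureTheory Set Metric Filter Topology
open scoped ContDiff

namespace Crest.Agent.R235.TorNM_384

open Crest.Agent.R238 (Ell)
open Crest.Agent.R238.Sch (ee D2 LB norm_ee)
open Crest.Agent.R273.SchA_152 (HO)
open Crest.Agent.R275.Tor812 (box volume_box)
open Crest.Agent.R281.Mc673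
open Crest.Agent.R235.TorOm_384 (BS Lp)
open Crest.Agent.R235.TorSch_384 Crest.Agent.R235.TorSp_384 Crest.Agent.R235.TorHS_384
open Crest.Agent.R235.TorHS_384.HS Crest.Agent.R235.TorCut_384
open Crest.Agent.R235.TorFam_384 Crest.Agent.R235.TorIft_384

noncomputable section

variable {a : ℝ} {N : ℕ}

/-! ### translations -/

theorem mn_shift {f : V N → ℝ} (hf : SP f) (c : V N) : mn (fun x => f (x + c)) = mn f := by
  rw [mn_eq_box hf (WithLp.ofLp c)]
  unfold mn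
  have h1 := (measurePreserving_add_right (volume : Measure (Fin N → ℝ))
    (WithLp.ofLp c)).setIntegral_preimage_emb (measurableEmbedding_addRight (WithLp.ofLp c))
    (fun x : Fin N → ℝ => f (WithLp.toLp 2 x)) (box (WithLp.ofLp c))
  have h2 : (fun x : Fin N → ℝ => x + WithLp.ofLp c) ⁻¹' box (WithLp.ofLp c) =
      box (0 : Fin N → ℝ) := by
    ext x
    show (∀ i, x i + c i ∈ Ioc (c i) (c i + 1)) ↔ ∀ i, x i ∈ Ioc ((0 : Fin N → ℝ) i) (0 + 1)
    refine forall_congr' fun i => ?_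
    simp only [mem_Ioc, Pi.zero_apply]
    constructor
    · rintro ⟨a, b⟩; constructor <;> linarith
    · rintro ⟨a, b⟩; constructor <;> linarith
  rw [h2] at h1
  exact h1

theorem sp_shift {F : Type*} [NormedAddCommGroup F] [NormedSpace ℝ F] {f : V N → F} (hf : SP f)
    (c : V N) : SP fun x => f (x + c) :=
  ⟨hf.sm.comp (contDiff_id.add contDiff_const), fun k x => by
    show f (x + kv k + c) = f (x + c)
    rw [add_right_comm]; exact hf.per k (x + c)⟩

/-- translation of jets -/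
def trP (h : V N) : P2J a N →L[ℝ] P2J a N := (tr h).prodMap ((tr h).prodMap (tr h))

theorem isJet_tr (h : V N) {q : P2J a N} (hq : IsJet q) : IsJet (trP h q) where
  sp := sp_shift hq.sp h
  mn0 := (mn_shift hq.sp h).trans hq.mn0
  h1 x := by
    have h1 : HasFDerivAt (fun x : V N => x + h) (ContinuousLinearMap.id ℝ (V N)) x :=
      (hasFDerivAt_id x).add_const h
    have h2 := HasFDerivAt.comp (g := HS.fn q.1) x (hq.h1 (x + h)) h1
    rwa [ContinuousLinearMap.comp_id] at h2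
  h2 x := by
    have h1 : HasFDerivAt (fun x : V N => x + h) (ContinuousLinearMap.id ℝ (V N)) x :=
      (hasFDerivAt_id x).add_const h
    have h2 := HasFDerivAt.comp (g := HS.fn q.2.1) x (hq.h2 (x + h)) h1
    rwa [ContinuousLinearMap.comp_id] at h2

theorem trP_mem (h : V N) {q : P2J a N} (hq : q ∈ XX a N) : trP h q ∈ XX a N :=
  map_mem_closure (trP h).continuous hq fun _ hp => isJet_tr h hp

theorem norm_trP_le (h : V N) (q : P2J a N) : ‖trP h q‖ ≤ ‖q‖ :=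
  max_le_max (norm_tr_le h _) (max_le_max (norm_tr_le h _) (norm_tr_le h _))

/-- translation on `XX` -/
def trX (h : V N) : XX a N →L[ℝ] XX a N :=
  ((trP h).comp (XX a N).subtypeL).codRestrict (XX a N) fun q => trP_mem h q.2

theorem norm_trX_le (h : V N) (q : XX a N) : ‖trX h q‖ ≤ ‖q‖ := norm_trP_le h (q : P2J a N)

/-- translation on the unknowns -/
def TQ (h : V 2) : QQ a →L[ℝ] QQ a := (trX h).prodMap (trX h)

theorem norm_TQ_le (h : V 2) (q : QQ a) : ‖TQ h q‖ ≤ ‖q‖ :=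
  max_le_max (norm_trX_le h _) (norm_trX_le h _)

theorem fn_aF_TQ (h c x : V 2) (q : QQ a) :
    HS.fn (aF (c, II (TQ h q))) x = HS.fn (aF (c, II q)) (x + h) := rfl

theorem fn_dF_TQ (j : Fin 2) (h x : V 2) (q : QQ a) :
    HS.fn (dF j (II (TQ h q))) x = HS.fn (dF j (II q)) (x + h) := rfl

/-- the equation pointwise -/
theorem NN_eq_zero {w : Fo 2} {ha : 0 < a} {ha1 : a ≤ 1} {hw : BS w} {hp : PerF w}
    {c h : V 2} {q : QQ a} : NN ha ha1 hw hp ((c, h), q) = 0 ↔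
      ∀ x, w (x + h, HS.fn (aF (c, II q)) x) (ee 0, HS.fn (dF 0 (II q)) x)
        (ee 1, HS.fn (dF 1 (II q)) x) = mn (HS.fn (Gop ha ha1 hw ((c, h), II q))) := by
  have e1 : (NN ha ha1 hw hp ((c, h), q) : HS a 2 ℝ) = Nop ha ha1 hw ((c, h), II q) := rfl
  constructor
  · intro h0 x
    have e2 : Nop ha ha1 hw ((c, h), II q) = 0 := by rw [← e1, h0]; rfl
    have e3 : HS.fn (Nop ha ha1 hw ((c, h), II q)) x = 0 := by rw [e2]; rfl
    rw [fn_Nop, fn_Gop] at e3
    linarith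
  · intro hx
    refine Subtype.ext (e1.trans (HS.ext fun x => ?_))
    rw [fn_Nop, fn_Gop, hx, sub_self]
    rfl

theorem mn_Gop_const {w : Fo 2} {ha : 0 < a} {ha1 : a ≤ 1} {hw : BS w} {c h : V 2} {q : PQ a}
    {K : ℝ} (hK : ∀ x, w (x + h, HS.fn (aF (c, q)) x) (ee 0, HS.fn (dF 0 q) x)
        (ee 1, HS.fn (dF 1 q) x) = K) : mn (HS.fn (Gop ha ha1 hw ((c, h), q))) = K := by
  have e : HS.fn (Gop ha ha1 hw ((c, h), q)) = fun _ => K := by
    funext y
    rw [fn_Gop, hK]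
  rw [e, mn_const]

theorem NN_tr {w : Fo 2} {ha : 0 < a} {ha1 : a ≤ 1} {hw : BS w} {hp : PerF w}
    {c : V 2} (h : V 2) {q : QQ a} (hz : NN ha ha1 hw hp ((c, 0), q) = 0) :
    NN ha ha1 hw hp ((c, h), TQ h q) = 0 := by
  rw [NN_eq_zero] at hz
  have key : ∀ x, w (x + h, HS.fn (aF (c, II (TQ h q))) x) (ee 0, HS.fn (dF 0 (II (TQ h q))) x)
        (ee 1, HS.fn (dF 1 (II (TQ h q))) x) = mn (HS.fn (Gop ha ha1 hw ((c, 0), II q))) := by
    intro x
    have := hz (x + h)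
    rw [add_zero] at this
    exact this
  exact NN_eq_zero.2 fun x => (key x).trans (mn_Gop_const key).symm

/-! ### bijectivity of the linearisation -/

section lin

variable {r lam : ℝ} {x y : Fo 2}

theorem S1_x (H : FamH r x y) (h θ : V 2) : S1 x h θ = !![0, 1; -1, 0] := by
  have e : ∀ k l, Bm x h k l θ = inner ℝ (ee l : V 2) (ee k) := fun k l => H.norm (θ + h) (ee k) (ee l)
  unfold S1
  rw [e, e, e, e]
  simp [ee, EuclideanSpace.inner_single_left]

theorem S2_x (H : FamH r x y) (h θ : V 2) : S2 x h θ = 1 := by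
  have e : ∀ k l, Bm x h k l θ = inner ℝ (ee l : V 2) (ee k) := fun k l => H.norm (θ + h) (ee k) (ee l)
  unfold S2
  rw [e, e, e, e]
  simp [ee, EuclideanSpace.inner_single_left]
  ext i j
  fin_cases i <;> fin_cases j <;> simp

theorem S1_shift (w : Fo 2) (h θ : V 2) : S1 w h θ = S1 w 0 (θ + h) := by
  unfold S1 Bm
  rw [add_zero]

/-- the rotation part vanishes -/
theorem LX_rot (ha : 0 < a) (ha1 : a ≤ 1) {S : V 2 → Matrix (Fin 2) (Fin 2) ℝ} (hS : SM S)
    (hS' : ∀ θ, S θ = !![0, 1; -1, 0]) (q : XX a 2) : LX ha ha1 hS q = 0 := by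
  have hP : ∀ p : P2J a 2, p ∈ XX a 2 → Lop ha ha1 hS p = 0 := by
    intro p hp
    have hcl : IsClosed {p : P2J a 2 | Lop ha ha1 hS p = 0} :=
      isClosed_eq (Lop ha ha1 hS).continuous continuous_const
    refine closure_minimal (fun p hp => ?_) hcl hp
    have hp' : IsJet p := hp
    refine HS.ext fun θ => ?_
    rw [Lop_jet ha ha1 hS hp']
    unfold LL
    rw [Fin.sum_univ_two]
    have t1 : (fun y => ∑ j, S y 0 j * dr j (HS.fn p.1) y) = dr 1 (HS.fn p.1) := by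
      funext y; rw [Fin.sum_univ_two, hS']; simp
    have t2 : (fun y => ∑ j, S y 1 j * dr j (HS.fn p.1) y) = fun y => - dr 0 (HS.fn p.1) y := by
      funext y; rw [Fin.sum_univ_two, hS']; simp
    rw [t1, t2, dr_neg, dr_comm hp'.sp 0 1]
    show _ = (0 : ℝ)
    ring
  exact Subtype.ext ((LX_coe ha ha1 hS q).trans (hP q q.2))

/-- the total linearised operator -/
def LT (ha : 0 < a) (ha1 : a ≤ 1) (H : FamH r x y) (h : V 2) : QQ a →L[ℝ] YY a 2 × YY a 2 :=
  (LN ha ha1 H.pos H.clx h).prod (LN ha ha1 H.pos H.cly h)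

theorem LT_bij (ha : 0 < a) (ha1 : a < 1) (H : FamH r x y) (hlam : 0 < lam) (hE : El lam (S1 y 0))
    (h : V 2) : Function.Bijective (LT ha ha1.le H h) := by
  have hx0 : ∀ q : XX a 2, LX ha ha1.le (sm_S1 H.pos H.clx h) q = 0 :=
    LX_rot ha ha1.le _ (S1_x H h)
  have hE2 : El 1 (S2 x h) := by
    intro θ z
    rw [S2_x H]
    exact ((ell_one (N := 2)).2 z).1
  have hE1 : El lam (S1 y h) := by
    intro θ z
    rw [S1_shift]
    exact hE (θ + h) z
  have i2 := inj_LX ha ha1 one_pos (sm_S2 H.pos H.clx h) hE2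
  have s2 := surj_LX ha ha1 one_pos (sm_S2 H.pos H.clx h) hE2
  have i1 := inj_LX ha ha1 hlam (sm_S1 H.pos H.cly h) hE1
  have s1 := surj_LX ha ha1 hlam (sm_S1 H.pos H.cly h) hE1
  constructor
  · rw [injective_iff_map_eq_zero]
    rintro ⟨φ, ψ⟩ hq
    have e1 : LN ha ha1.le H.pos H.clx h (φ, ψ) = 0 := congrArg Prod.fst hq
    have e2 : LN ha ha1.le H.pos H.cly h (φ, ψ) = 0 := congrArg Prod.snd hq
    rw [LN_apply] at e1 e2
    have e3 : LX ha ha1.le (sm_S2 H.pos H.clx h) ψ = 0 := by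
      have := hx0 φ
      rw [this, zero_add] at e1
      exact e1
    have hψ : ψ = 0 := i2 (by rw [e3, map_zero])
    have e4 : LX ha ha1.le (sm_S1 H.pos H.cly h) φ = 0 := by
      rw [hψ] at e2
      have e5 : LX ha ha1.le (sm_S2 H.pos H.cly h) (0 : XX a 2) = 0 := map_zero _
      have e6 : LX ha ha1.le (sm_S1 H.pos H.cly h) φ +
        LX ha ha1.le (sm_S2 H.pos H.cly h) (0 : XX a 2) = 0 := e2
      rw [e5, add_zero] at e6
      exact e6
    have hφ : φ = 0 := i1 (by rw [e4, map_zero])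
    rw [hφ, hψ]
    rfl
  · rintro ⟨u, v⟩
    obtain ⟨ψ, hψ⟩ := s2 u
    obtain ⟨φ, hφ⟩ := s1 (v - LX ha ha1.le (sm_S2 H.pos H.cly h) ψ)
    refine ⟨(φ, ψ), Prod.ext ?_ ?_⟩
    · show LN ha ha1.le H.pos H.clx h (φ, ψ) = u
      rw [LN_apply]
      show LX ha ha1.le (sm_S1 H.pos H.clx h) φ + LX ha ha1.le (sm_S2 H.pos H.clx h) ψ = u
      rw [hx0 φ, hψ, zero_add]
    · show LN ha ha1.le H.pos H.cly h (φ, ψ) = v
      rw [LN_apply]
      show LX ha ha1.le (sm_S1 H.pos H.cly h) φ + LX ha ha1.le (sm_S2 H.pos H.cly h) ψ = v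
      rw [hφ]
      abel

end lin

/-! ### the family of solutions -/

section abs

variable {P Q Y : Type*} [NormedAddCommGroup P] [NormedSpace ℝ P] [CompleteSpace P]
  [NormedAddCommGroup Q] [NormedSpace ℝ Q] [CompleteSpace Q]
  [NormedAddCommGroup Y] [NormedSpace ℝ Y] [CompleteSpace Y]

/-- solutions of an equivariant equation -/
theorem sols_abs {f : (P × P) × Q → Y} (hf : ContDiff ℝ ∞ f) (hf0 : ∀ h, f ((0, h), 0) = 0)
    {A : P → Q →L[ℝ] Y} (hfd : ∀ h, HasFDerivAt (fun q => f ((0, h), q)) (A h) 0)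
    (hb : ∀ h, Function.Bijective (A h)) {T : P → Q → Q} (hT : ∀ h q, ‖T h q‖ ≤ ‖q‖)
    (htr : ∀ c h q, f ((c, 0), q) = 0 → f ((c, h), T h q) = 0) :
    ∃ q : P → Q, q 0 = 0 ∧ ContDiffAt ℝ ∞ q 0 ∧ (∀ᶠ c in 𝓝 (0 : P), f ((c, 0), q c) = 0) ∧
      ∀ h0 : P, ∀ᶠ t in 𝓝 ((0, h0) : P × P),
        ContDiffAt ℝ ∞ (fun t : P × P => T t.2 (q t.1)) t := by
  have key := fun h : P => ift hf (hf0 h) (hfd h) (hb h)
  obtain ⟨g, hg0, hgs, hgz, -⟩ := key 0
  have tc : Tendsto (fun c : P => ((c, 0) : P × P)) (𝓝 0) (𝓝 (0, 0)) :=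
    (continuous_id.prodMk continuous_const).tendsto' _ _ rfl
  have hqs : ContDiffAt ℝ ∞ (fun c : P => g (c, 0)) 0 := by
    have h1 : ContDiffAt ℝ ∞ g ((0, 0) : P × P) := hgs.self_of_nhds
    exact ContDiffAt.comp (f := fun c : P => ((c, 0) : P × P)) 0 h1
      (contDiffAt_id.prodMk contDiffAt_const)
  have hqc := hqs.continuousAt
  have hqz : ∀ᶠ c in 𝓝 (0 : P), f ((c, 0), g (c, 0)) = 0 := tc.eventually hgz
  refine ⟨fun c => g (c, 0), hg0, hqs, hqz, fun h0 => ?_⟩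
  obtain ⟨g', -, hgs', -, hu⟩ := key h0
  have tt : Tendsto (fun t : P × P => ((t, T t.2 (g (t.1, 0))) : (P × P) × Q))
      (𝓝 (0, h0)) (𝓝 ((0, h0), 0)) := by
    rw [nhds_prod_eq (x := ((0, h0) : P × P))]
    refine tendsto_id.prodMk ?_
    have h1 : Tendsto (fun t : P × P => ‖g (t.1, 0)‖) (𝓝 (0, h0)) (𝓝 0) := by
      have h2 : Tendsto (fun c : P => ‖g (c, 0)‖) (𝓝 0) (𝓝 0) := by
        have := hqc.norm.tendsto
        simp only [hg0, norm_zero] at this
        exact this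
      exact h2.comp (continuous_fst.tendsto' _ _ rfl)
    exact squeeze_zero_norm (fun t => hT _ _) h1
  have t1 : Tendsto (fun t : P × P => t.1) (𝓝 (0, h0)) (𝓝 0) :=
    continuous_fst.tendsto' _ _ rfl
  have heq : (fun t : P × P => T t.2 (g (t.1, 0))) =ᶠ[𝓝 (0, h0)] g' := by
    filter_upwards [tt.eventually hu, t1.eventually hqz] with t ht1 ht2
    exact ht1 (htr _ _ _ ht2)
  filter_upwards [heq.eventually_nhds, hgs'] with t ht1 ht2
  exact ht2.congr_of_eventuallyEq ht1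

end abs

section fam

variable {r lam : ℝ} {x y : Fo 2}

/-- both equations -/
def NP (ha : 0 < a) (ha1 : a ≤ 1) {x' y' : Fo 2} (hx' : BS x') (hy' : BS y') (px : PerF x')
    (py : PerF y') (p : (V 2 × V 2) × QQ a) : YY a 2 × YY a 2 :=
  (NN ha ha1 hx' px p, NN ha ha1 hy' py p)

/-- the solutions -/
theorem exists_sols (ha : 0 < a) (ha1 : a < 1) (H : FamH r x y) (hlam : 0 < lam)
    (hE : El lam (S1 y 0)) {x' y' : Fo 2} (hx' : BS x') (hy' : BS y') (px : PerF x')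
    (py : PerF y') (ex : ∀ p : W 2, ‖p.2‖ ≤ r / 2 → x' p = x p)
    (ey : ∀ p : W 2, ‖p.2‖ ≤ r / 2 → y' p = y p) :
    ∃ q : V 2 → QQ a, q 0 = 0 ∧ ContDiffAt ℝ ∞ q 0 ∧
      (∀ᶠ c in 𝓝 (0 : V 2), NP ha ha1.le hx' hy' px py ((c, 0), q c) = 0) ∧
      ∀ h0 : V 2, ∀ᶠ t in 𝓝 ((0, h0) : V 2 × V 2),
        ContDiffAt ℝ ∞ (fun t : V 2 × V 2 => TQ t.2 (q t.1)) t := by
  have hf : ContDiff ℝ ∞ (NP ha ha1.le hx' hy' px py) :=
    (contDiff_NN ha ha1.le hx' px).prodMk (contDiff_NN ha ha1.le hy' py)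
  have hf0 : ∀ h : V 2, NP ha ha1.le hx' hy' px py ((0, h), 0) = 0 := fun h =>
    Prod.ext (NN_zero ha ha1.le H.pos hx' px ex H.horx h)
      (NN_zero ha ha1.le H.pos hy' py ey H.hory h)
  have hfd : ∀ h : V 2, HasFDerivAt (fun q : QQ a => NP ha ha1.le hx' hy' px py ((0, h), q))
      (LT ha ha1.le H h) 0 := fun h =>
    (hasFDerivAt_NN ha ha1.le H.pos H.clx hx' px ex H.horx h).prodMk
      (hasFDerivAt_NN ha ha1.le H.pos H.cly hy' py ey H.hory h)
  refine sols_abs hf hf0 hfd (LT_bij ha ha1 H hlam hE) (T := fun h => TQ h)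
    (fun h q => norm_TQ_le h q) (fun c h q hq => ?_)
  exact Prod.ext (NN_tr (hp := px) h (congrArg Prod.fst hq))
    (NN_tr (hp := py) h (congrArg Prod.snd hq))

end fam

end

end Crest.Agent.R235.TorNM_384
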