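import Crest.Agent.R235.TorFamDefs_384
import Crest.Agent.R235.NoZeroT_504

/-!
# Row 235 (S0364), TOR / FIB-B1b (helper384): families of graphs, the parts without function spaces
-/

set_option autoImplicit false
set_option maxSynthPendingDepth 3

open MeasureTheory Set Metric Filter Topology
open scoped ContDiff

namespace Crest.Agent.R235.TorFa_384

open Crest.Agent.R238.Sch (ee D2 LB norm_ee)
open Crest.Agent.R281.Mc673

noncomputable section

variable {N : ℕ}

/-- a local property along the zero section holds on a tube -/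
theorem tube_ev {P : W N → Prop} (hper : ∀ (n : Fin N → ℤ) (p : W N), P p → P (p.1 + kv n, p.2))
    (h : ∀ y : V N, ∀ᶠ p in 𝓝 ((y, 0) : W N), P p) : ∃ r : ℝ, 0 < r ∧ ∀ p ∈ tube N r, P p := by
  have h1 : ∀ᶠ v in 𝓝 (0 : V N), ∀ y ∈ cube N, P (y, v) := by
    refine isCompact_cube.eventually_forall_of_forall_eventually fun y _ => ?_
    have hsw : Tendsto (fun z : W N => (z.2, z.1)) (𝓝 (0, y)) (𝓝 (y, 0)) :=
      (continuous_snd.prodMk continuous_fst).tendsto' _ _ rfl
    exact hsw.eventually (h y)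
  obtain ⟨r, hr, hr'⟩ := Metric.eventually_nhds_iff.1 h1
  refine ⟨r, hr, fun p hp => ?_⟩
  obtain ⟨k, y, hy, hk⟩ := exists_cube p.1
  have h2 := hr' (y := p.2) (by rw [dist_zero_right]; exact hp) y hy
  have h3 := hper k _ h2
  have h4 : p = (y + kv k, p.2) := by rw [← hk]
  rw [h4]
  exact h3

theorem vec_eq (u : V 2) : u = u 0 • (ee 0 : V 2) + u 1 • (ee 1 : V 2) := by
  ext i
  fin_cases i <;> simp [ee]

/-- from the two basis vectors to all vectors -/
theorem lag_all {B : W 2 →L[ℝ] W 2 →L[ℝ] ℝ} (hB : ∀ u v, B u v = - B v u) {D : V 2 →L[ℝ] V 2}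
    (h : B (ee 0, D (ee 0)) (ee 1, D (ee 1)) = 0) (u v : V 2) : B (u, D u) (v, D v) = 0 := by
  have e : ∀ u : V 2, ((u, D u) : W 2) = u 0 • ((ee 0, D (ee 0)) : W 2) +
      u 1 • ((ee 1, D (ee 1)) : W 2) := by
    intro u
    have h1 := vec_eq u
    ext1
    · exact h1
    · show D u = u 0 • D (ee 0) + u 1 • D (ee 1)
      conv_lhs => rw [h1]
      rw [map_add, map_smul, map_smul]
  have s0 : B (ee 0, D (ee 0)) (ee 0, D (ee 0)) = 0 := by
    have := hB (ee 0, D (ee 0)) (ee 0, D (ee 0)); linarith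
  have s1 : B (ee 1, D (ee 1)) (ee 1, D (ee 1)) = 0 := by
    have := hB (ee 1, D (ee 1)) (ee 1, D (ee 1)); linarith
  have h' : B (ee 1, D (ee 1)) (ee 0, D (ee 0)) = 0 := by
    rw [hB, h, neg_zero]
  rw [e u, e v]
  simp only [map_add, map_smul, add_apply, smul_apply, smul_eq_mul, s0, s1, h, h', mul_zero,
    add_zero]

section eta

variable {r δ : ℝ} {w : Fo N} {al : W N → V N}

/-- the variation field -/
def eta (al : W N → V N) (v θ : V N) : V N := fderiv ℝ al (θ, 0) (0, v)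

theorem sp_eta (hδ : 0 < δ) (hs : ∀ p ∈ tube N δ, ContDiffAt ℝ ∞ al p)
    (hper : ∀ (k : Fin N → ℤ) (p : W N), al (p.1 + kv k, p.2) = al p) (v : V N) :
    SP (eta al v) := by
  have h0 : ∀ θ : V N, ((θ, 0) : W N) ∈ tube N δ := fun θ => by
    show ‖(0 : V N)‖ < δ
    rwa [norm_zero]
  refine ⟨contDiff_iff_contDiffAt.2 fun θ => ?_, fun k θ => ?_⟩
  · have h1 : ContDiffAt ℝ ∞ (fderiv ℝ al) (θ, 0) := (hs _ (h0 θ)).fderiv_right (by simp)
    have h2 : ContDiffAt ℝ ∞ (fun θ : V N => fderiv ℝ al (θ, 0)) θ :=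
      ContDiffAt.comp θ h1 (contDiffAt_id.prodMk contDiffAt_const)
    exact h2.clm_apply contDiffAt_const
  · unfold eta
    have e : (fun p : W N => al (p + (kv k, 0))) = al := by
      funext p
      have := hper k p
      rw [← this]
      congr 1
      ext1 <;> simp
    have h1 : fderiv ℝ (fun p : W N => al (p + (kv k, 0))) (θ, 0) =
        fderiv ℝ al ((θ, 0) + (kv k, 0)) := fderiv_comp_add_right _
    rw [e] at h1
    have h2 : ((θ, 0) : W N) + (kv k, 0) = (θ + kv k, 0) := by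
      ext1 <;> simp
    rw [h2] at h1
    rw [h1]

/-- the linearised equation -/
theorem eta_eq (hr : 0 < r) (hw : ClF r w) (hδ : 0 < δ) (hs : ∀ p ∈ tube N δ, ContDiffAt ℝ ∞ al p)
    (hper : ∀ (k : Fin N → ℤ) (p : W N), al (p.1 + kv k, p.2) = al p)
    (h0 : ∀ θ, al (θ, 0) = 0) (j k : Fin N)
    (hl : ∀ p ∈ tube N δ, w (p.1, al p) (ee j, fderiv ℝ al p (ee j, 0))
      (ee k, fderiv ℝ al p (ee k, 0)) = 0) (v θ : V N) :
    dr j (lam w (eta al v) 0 k) θ = dr k (lam w (eta al v) 0 j) θ := by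
  have hη := sp_eta hδ hs hper v
  have m0 : ((θ, 0) : W N) ∈ tube N δ := by
    show ‖(0 : V N)‖ < δ
    rwa [norm_zero]
  have hsm := hs _ m0
  -- the curve
  have hc : HasDerivAt (fun s : ℝ => ((θ, s • v) : W N)) (0, v) 0 := by
    have := (hasDerivAt_const (0 : ℝ) θ).prodMk ((hasDerivAt_id (0 : ℝ)).smul_const v)
    simpa using this
  have hc0 : ((θ, (0 : ℝ) • v) : W N) = (θ, 0) := by rw [zero_smul]
  have hfd : HasFDerivAt al (fderiv ℝ al (θ, 0)) (θ, (0 : ℝ) • v) := by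
    rw [hc0]
    exact (hsm.differentiableAt (by simp)).hasFDerivAt
  have hfd2 : HasFDerivAt (fderiv ℝ al) (fderiv ℝ (fderiv ℝ al) (θ, 0)) (θ, (0 : ℝ) • v) := by
    rw [hc0]
    exact ((hsm.fderiv_right (m := ∞) (by simp)).differentiableAt (by simp)).hasFDerivAt
  have d1 : HasDerivAt (fun s : ℝ => al (θ, s • v)) (eta al v θ) 0 := hfd.comp_hasDerivAt 0 hc
  have d2 : ∀ i, HasDerivAt (fun s : ℝ => fderiv ℝ al (θ, s • v) (ee i, 0))
      (fderiv ℝ (fderiv ℝ al) (θ, 0) (0, v) (ee i, 0)) 0 := fun i => by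
    have e1 : HasDerivAt (fun s : ℝ => fderiv ℝ al (θ, s • v))
        (fderiv ℝ (fderiv ℝ al) (θ, 0) (0, v)) 0 := hfd2.comp_hasDerivAt 0 hc
    refine (e1.clm_apply (hasDerivAt_const (0 : ℝ) ((ee i, 0) : W N))).congr_deriv ?_
    rw [map_zero, add_zero]
  -- the derivative at the zero section in the torus direction
  have z1 : ∀ (θ : V N) (i : Fin N), fderiv ℝ al (θ, 0) (ee i, 0) = 0 := by
    intro θ i
    have m0 : ((θ, 0) : W N) ∈ tube N δ := by
      show ‖(0 : V N)‖ < δ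
      rwa [norm_zero]
    have h1 : HasFDerivAt al (fderiv ℝ al (θ, 0)) (θ, 0) :=
      ((hs _ m0).differentiableAt (by simp)).hasFDerivAt
    have h2 : HasFDerivAt (fun θ : V N => ((θ, 0) : W N)) (ContinuousLinearMap.inl ℝ (V N) (V N))
        θ := (hasFDerivAt_id θ).prodMk (hasFDerivAt_const (0 : V N) θ)
    have h3 := HasFDerivAt.comp (g := al) θ h1 h2
    have h4 : (al ∘ fun θ : V N => ((θ, 0) : W N)) = fun _ => (0 : V N) := funext fun θ => h0 θ
    rw [h4] at h3
    have h5 := h3.unique (hasFDerivAt_const (0 : V N) θ)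
    have h6 := congrArg (fun L : V N →L[ℝ] V N => L (ee i)) h5
    exact h6
  -- symmetry
  have sym : ∀ i, fderiv ℝ (fderiv ℝ al) (θ, 0) (0, v) (ee i, 0) = dr i (eta al v) θ := by
    intro i
    have hs2 : fderiv ℝ (fderiv ℝ al) (θ, 0) (0, v) (ee i, 0) =
        fderiv ℝ (fderiv ℝ al) (θ, 0) (ee i, 0) (0, v) :=
      hsm.isSymmSndFDerivAt (by rw [minSmoothness_of_isRCLikeNormedField]; norm_cast) _ _
    rw [hs2]
    have h2 : HasFDerivAt (fun θ : V N => ((θ, 0) : W N)) (ContinuousLinearMap.inl ℝ (V N) (V N))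
        θ := (hasFDerivAt_id θ).prodMk (hasFDerivAt_const (0 : V N) θ)
    have h1 : HasFDerivAt (fderiv ℝ al) (fderiv ℝ (fderiv ℝ al) (θ, 0)) (θ, 0) :=
      ((hsm.fderiv_right (m := ∞) (by simp)).differentiableAt (by simp)).hasFDerivAt
    have h3 := (HasFDerivAt.comp (g := fderiv ℝ al) θ h1 h2).clm_apply
      (hasFDerivAt_const ((0, v) : W N) θ)
    have h4 : HasFDerivAt (eta al v) _ θ := h3
    show _ = fderiv ℝ (eta al v) θ (ee i)
    rw [h4.fderiv]
    simp
  -- differentiate the equation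
  have dw : HasDerivAt (fun s : ℝ => w (θ, al (θ, s • v))) (fderiv ℝ w (θ, 0) (0, eta al v θ)) 0 := by
    have e1 : HasDerivAt (fun s : ℝ => ((θ, al (θ, s • v)) : W N)) (0, eta al v θ) 0 :=
      (hasDerivAt_const (0 : ℝ) θ).prodMk d1
    have e2 : HasFDerivAt w (fderiv ℝ w (θ, 0)) (θ, al (θ, (0 : ℝ) • v)) := by
      rw [hc0, h0]
      exact (hw.da (p := (θ, 0)) (by show ‖(0 : V N)‖ < r; rwa [norm_zero])).hasFDerivAt
    exact e2.comp_hasDerivAt 0 e1
  have dt : ∀ i, HasDerivAt (fun s : ℝ => ((ee i, fderiv ℝ al (θ, s • v) (ee i, 0)) : W N))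
      (0, dr i (eta al v) θ) 0 := fun i => by
    have := d2 i
    rw [sym] at this
    exact (hasDerivAt_const (0 : ℝ) (ee i : V N)).prodMk this
  have dG := (dw.clm_apply (dt j)).clm_apply (dt k)
  have hG0 : (fun s : ℝ => w (θ, al (θ, s • v)) (ee j, fderiv ℝ al (θ, s • v) (ee j, 0))
      (ee k, fderiv ℝ al (θ, s • v) (ee k, 0))) =ᶠ[𝓝 0] fun _ => (0 : ℝ) := by
    have hcont : Continuous fun s : ℝ => ‖s • v‖ := (continuous_id.smul continuous_const).norm
    have ht := hcont.tendsto 0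
    rw [zero_smul, norm_zero] at ht
    filter_upwards [ht.eventually_lt_const hδ] with s hs
    exact hl (θ, s • v) hs
  have hz := dG.unique ((hasDerivAt_const (0 : ℝ) (0 : ℝ)).congr_of_eventuallyEq hG0)
  simp only [hc0, h0, z1] at hz
  -- comparison with `pbd`
  have hp := pbd_eq hw hη j k 0 θ (fun θ => by rw [zero_smul, norm_zero]; exact hr)
  unfold pbd at hp
  simp only [zero_smul] at hp
  have : fderiv ℝ w (θ, 0) (0, eta al v θ) (ee j, 0) (ee k, 0) +
    w (θ, 0) (0, dr j (eta al v) θ) (ee k, 0) + w (θ, 0) (ee j, 0) (0, dr k (eta al v) θ) = 0 := by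
    simpa [add_apply] using hz
  rw [this] at hp
  linarith

end eta

end

end Crest.Agent.R235.TorFa_384
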