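import Crest.Agent.R235.TorFam_384

/-!
# Row 235 (S0364), TOR / FIB-B1b (helper384): **FAM**
-/

set_option autoImplicit false
set_option maxSynthPendingDepth 3

open MeasureTheory Set Metric Filter Topology
open scoped ContDiff

namespace Crest.Agent.R235.TorFam_384

open Crest.Agent.R238.Sch (ee D2 LB norm_ee)
open Crest.Agent.R281.Mc673
open Crest.Agent.R235.TorOm_384 (BS Lp)
open Crest.Agent.R235.TorSch_384 Crest.Agent.R235.TorSp_384 Crest.Agent.R235.TorHS_384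
open Crest.Agent.R235.TorHS_384.HS Crest.Agent.R235.TorCut_384
open Crest.Agent.R235.TorNM_384 Crest.Agent.R235.TorIft_384 Crest.Agent.R235.TorFa_384

noncomputable section

/-- injectivity near the zero section -/
theorem inj_near {A : W 2 → V 2} {p0 : W 2} (hs : ContDiffAt ℝ ∞ A p0)
    (hi : ∀ u : V 2, fderiv ℝ A p0 (0, u) = 0 → u = 0) :
    ∀ᶠ p in 𝓝 p0, ∀ u : V 2, fderiv ℝ A p (0, u) = 0 → u = 0 := by
  let R : (W 2 →L[ℝ] V 2) →L[ℝ] (V 2 →L[ℝ] V 2) :=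
    (ContinuousLinearMap.compL ℝ (V 2) (W 2) (V 2)).flip (ContinuousLinearMap.inr ℝ (V 2) (V 2))
  have hR : ∀ L u, R L u = L (0, u) := fun L u => rfl
  have hc : ContinuousAt (fun p => R (fderiv ℝ A p)) p0 :=
    R.continuous.continuousAt.comp (hs.fderiv_right (m := 0) (by simp)).continuousAt
  have hinj : Function.Injective (R (fderiv ℝ A p0)) := by
    rw [injective_iff_map_eq_zero]
    intro u hu
    exact hi u hu
  have hbij : Function.Bijective (R (fderiv ℝ A p0)) :=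
    ⟨hinj, LinearMap.injective_iff_surjective (f := ((R (fderiv ℝ A p0) : V 2 →L[ℝ] V 2) :
      V 2 →ₗ[ℝ] V 2)) |>.1 hinj⟩
  obtain ⟨e, he⟩ := exists_equiv _ hbij
  have hn : range ((↑) : ((V 2) ≃L[ℝ] (V 2)) → ((V 2) →L[ℝ] (V 2))) ∈
      𝓝 (R (fderiv ℝ A p0)) := by
    rw [← he]; exact e.nhds
  filter_upwards [hc.eventually hn] with p hp u hu
  obtain ⟨e', he'⟩ := hp
  have h1 : e' u = 0 := by
    have : (e' : V 2 →L[ℝ] V 2) u = 0 := by rw [he']; exact hu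
    exact this
  exact (map_eq_zero_iff e' e'.injective).1 h1

/-- the family, under ellipticity -/
theorem fam_of_ell {r lm : ℝ} {x y : Fo 2} (H : FamH r x y) (hlam : 0 < lm)
    (hE : El lm (S1 y 0)) : ∃ (δ : ℝ) (A : W 2 → V 2), FamT r x y δ A := by
  have ha : (0 : ℝ) < 1 / 2 := by norm_num
  have ha1 : (1 / 2 : ℝ) < 1 := by norm_num
  have hr := H.pos
  obtain ⟨x', hx', ex, px⟩ := exists_ext H.pos H.clx
  obtain ⟨y', hy', ey, py⟩ := exists_ext H.pos H.cly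
  obtain ⟨q, hq0, hqs, hqz, hqt⟩ := exists_sols ha ha1 H hlam hE hx' hy' px py ex ey
  obtain ⟨A, hA⟩ : ∃ A : W 2 → V 2, A = al q := ⟨_, rfl⟩
  have hper : ∀ (k : Fin 2 → ℤ) (p : W 2), A (p.1 + kv k, p.2) = A p := by
    rw [hA]; exact al_per q
  have hzero : ∀ θ, A (θ, 0) = 0 := by
    rw [hA]; exact al_zero hq0
  -- first tube
  obtain ⟨δ1, hδ1, h1⟩ := tube_ev (P := fun p : W 2 => ContDiffAt ℝ ∞ A p ∧ ‖A p‖ < r / 2 ∧
      NP ha ha1.le hx' hy' px py ((p.2, 0), q p.2) = 0) (fun n p hp => by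
    refine ⟨?_, ?_, hp.2.2⟩
    · have e : (fun p : W 2 => A (p + (-kv n, 0))) = A := by
        funext p
        have h2 := hper n (p + (-kv n, 0))
        rw [← h2]
        congr 1
        ext1 <;> simp
      rw [← e]
      have e2 : ((p.1 + kv n, p.2) : W 2) + (-kv n, 0) = p := by
        ext1 <;> simp
      have h3 : ContDiffAt ℝ ∞ A ((fun z : W 2 => z + (-kv n, 0)) (p.1 + kv n, p.2)) := by
        show ContDiffAt ℝ ∞ A (((p.1 + kv n, p.2) : W 2) + (-kv n, 0))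
        rw [e2]; exact hp.1
      exact ContDiffAt.comp (g := A) (f := fun z : W 2 => z + (-kv n, 0)) (p.1 + kv n, p.2) h3
        (contDiffAt_id.add contDiffAt_const)
    · rw [hper]; exact hp.2.1) (fun θ => by
    have s1 : ∀ᶠ p in 𝓝 ((θ, 0) : W 2), ContDiffAt ℝ ∞ A p := by
      rw [hA]; exact al_smooth hqt θ
    have s2 : ∀ᶠ p in 𝓝 ((θ, 0) : W 2), ‖A p‖ < r / 2 := by
      have h3 := s1.self_of_nhds.continuousAt.norm.tendsto
      rw [hzero, norm_zero] at h3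
      exact h3.eventually_lt_const (by linarith)
    have s3 : ∀ᶠ p in 𝓝 ((θ, 0) : W 2), NP ha ha1.le hx' hy' px py ((p.2, 0), q p.2) = 0 :=
      (show Tendsto (fun p : W 2 => p.2) (𝓝 (θ, 0)) (𝓝 0) from
        continuous_snd.tendsto' _ _ rfl).eventually hqz
    filter_upwards [s1, s2, s3] with p p1 p2 p3
    exact ⟨p1, p2, p3⟩)
  have hs : ∀ p ∈ tube 2 δ1, ContDiffAt ℝ ∞ A p := fun p hp => (h1 p hp).1
  -- the equations
  have hsl : ∀ p ∈ tube 2 δ1, ∀ θ, ((θ, p.2) : W 2) ∈ tube 2 δ1 := fun p hp θ => hp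
  have heq : ∀ {w w' : Fo 2} (hw : ClF r w) {hw' : BS w'} {hp' : PerF w'}
      (he : ∀ p : W 2, ‖p.2‖ ≤ r / 2 → w' p = w p)
      (hor : ∀ θ u v : V 2, w (θ, 0) (u, 0) (v, 0) = 0) (p : W 2), p ∈ tube 2 δ1 →
      NN ha ha1.le hw' hp' ((p.2, 0), q p.2) = 0 →
      w (p.1, A p) (ee 0, fderiv ℝ A p (ee 0, 0)) (ee 1, fderiv ℝ A p (ee 1, 0)) = 0 := by
    intro w w' hw hw' hp' he hor p hp hz
    have t1 : ∀ θ, ContDiffAt ℝ ∞ (al q) (θ, p.2) := fun θ => by
      rw [← hA]; exact hs _ (hsl p hp θ)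
    have t2 : ∀ θ, ‖al q (θ, p.2)‖ < r / 2 := fun θ => by
      rw [← hA]; exact (h1 _ (hsl p hp θ)).2.1
    have h3 := pb_slice hr hw he hor t1 t2 hz p.1
    have h4 := slice_fd q (t1 p.1) (ee 0)
    have h5 := slice_fd q (t1 p.1) (ee 1)
    have h6 : pb w (HS.fn (aF (p.2, II (q p.2)))) 0 1 p.1 =
        w (p.1, al q p) (ee 0, fderiv ℝ (al q) p (ee 0, 0)) (ee 1, fderiv ℝ (al q) p (ee 1, 0)) :=
      congrArg₂ (fun u v => w (p.1, al q p) (ee 0, u) (ee 1, v)) h4 h5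
    rw [hA]
    exact h6.symm.trans h3
  have hx : ∀ p ∈ tube 2 δ1, x (p.1, A p) (ee 0, fderiv ℝ A p (ee 0, 0))
      (ee 1, fderiv ℝ A p (ee 1, 0)) = 0 := fun p hp =>
    heq H.clx (hp' := px) ex H.horx p hp (congrArg Prod.fst (h1 p hp).2.2)
  have hy : ∀ p ∈ tube 2 δ1, y (p.1, A p) (ee 0, fderiv ℝ A p (ee 0, 0))
      (ee 1, fderiv ℝ A p (ee 1, 0)) = 0 := fun p hp =>
    heq H.cly (hp' := py) ey H.hory p hp (congrArg Prod.snd (h1 p hp).2.2)
  -- the variation field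
  have hinj0 : ∀ (θ u : V 2), fderiv ℝ A (θ, 0) (0, u) = 0 → u = 0 := by
    intro θ u hu
    have h2 : ∀ θ', eta A u θ' = 0 :=
      eta_ne H hlam hE hδ1 hs hper hzero hx hy (v := u) (θ0 := θ) hu
    have h3 : ∀ k, mn (fun θ => eta (al q) u θ k) = u k :=
      mn_eta hqs (θ0 := fun θ => (θ, 0)) (fun θ => rfl) (fun θ => by
        rw [← hA]
        exact hs _ (show ‖(0 : V 2)‖ < δ1 by rwa [norm_zero])) u
    rw [← hA] at h3
    ext k
    rw [← h3 k]
    have h4 : (fun θ => eta A u θ k) = fun _ => (0 : ℝ) := by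
      funext θ'
      rw [h2 θ']
      rfl
    rw [h4, mn_const]
    rfl
  -- second tube
  obtain ⟨δ2, hδ2, h2⟩ := tube_ev (P := fun p : W 2 => ∀ u : V 2, fderiv ℝ A p (0, u) = 0 → u = 0)
    (fun n p hp u hu => by
      have e : (fun p : W 2 => A (p + (kv n, 0))) = A := by
        funext p
        have h2 := hper n p
        rw [← h2]
        congr 1
        ext1 <;> simp
      have h3 : fderiv ℝ (fun p : W 2 => A (p + (kv n, 0))) p = fderiv ℝ A (p + (kv n, 0)) :=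
        fderiv_comp_add_right _
      rw [e] at h3
      have e2 : p + ((kv n, 0) : W 2) = (p.1 + kv n, p.2) := by
        ext1 <;> simp
      rw [e2] at h3
      exact hp u (by rw [h3]; exact hu))
    (fun θ => inj_near (hs _ (show ‖(0 : V 2)‖ < δ1 by rwa [norm_zero])) (hinj0 θ))
  have m1 : ∀ p ∈ tube 2 (min δ1 δ2), p ∈ tube 2 δ1 := fun p hp =>
    lt_of_lt_of_le (show ‖p.2‖ < _ from hp) (min_le_left _ _)
  have m2 : ∀ p ∈ tube 2 (min δ1 δ2), p ∈ tube 2 δ2 := fun p hp =>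
    lt_of_lt_of_le (show ‖p.2‖ < _ from hp) (min_le_right _ _)
  have hn : ∀ p ∈ tube 2 δ1, ‖A p‖ < r := fun p hp => by
    have := (h1 p hp).2.1
    linarith
  have key : ∀ {w : Fo 2} (hw : ClF r w) (p : W 2), p ∈ tube 2 δ1 →
      w (p.1, A p) (ee 0, fderiv ℝ A p (ee 0, 0)) (ee 1, fderiv ℝ A p (ee 1, 0)) = 0 →
      ∀ u v : V 2, w (p.1, A p) (u, fderiv ℝ A p (u, 0)) (v, fderiv ℝ A p (v, 0)) = 0 := by
    intro w hw p hp h0 u v
    exact lag_all (B := w (p.1, A p)) (D := (fderiv ℝ A p).comp (ContinuousLinearMap.inl ℝ (V 2) (V 2)))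
      (hw.alt (p.1, A p) (hn p hp)) h0 u v
  exact ⟨min δ1 δ2, A,
    { pos := lt_min hδ1 hδ2
      smooth := fun p hp => (hs p (m1 p hp)).contDiffWithinAt
      per := hper
      zero := hzero
      small := fun p hp => hn p (m1 p hp)
      lagx := fun p hp => key H.clx p (m1 p hp) (hx p (m1 p hp))
      lagy := fun p hp => key H.cly p (m1 p hp) (hy p (m1 p hp))
      inj := fun p hp => h2 p (m2 p hp) }⟩

end

end Crest.Agent.R235.TorFam_384
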