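import Crest.Agent.R235.TorFM_384
import Crest.Agent.R235.TorFa_384

/-!
# Row 235 (S0364), TOR / FIB-B1b (helper384): the family of lagrangian graphs, `FAM`
-/

set_option autoImplicit false
set_option maxSynthPendingDepth 3

open MeasureTheory Set Metric Filter Topology
open scoped ContDiff

namespace Crest.Agent.R235.TorFam_384

open Crest.Agent.R238.Sch (ee D2 LB norm_ee)
open Crest.Agent.R281.Mc673
open Crest.Agent.R235.TorOm_384 (BS Lp)
open Crest.Agent.R235.TorSch_384 Crest.Agent.R235.TorSp_384 Crest.Agent.R235.TorHS_384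
open Crest.Agent.R235.TorHS_384.HS Crest.Agent.R235.TorCut_384
open Crest.Agent.R235.TorNM_384 Crest.Agent.R235.TorIft_384 Crest.Agent.R235.TorFa_384

noncomputable section

variable {a : ℝ}

/-- the graph map of a family of solutions -/
def al (q : V 2 → QQ a) (p : W 2) : V 2 := HS.fn (aF (p.2, II (q p.2))) p.1

theorem II_mem1 (q : QQ a) : (II q).1 ∈ XX a 2 := by rw [II_fst]; exact q.1.2

theorem II_mem2 (q : QQ a) : (II q).2 ∈ XX a 2 := by rw [II_snd]; exact q.2.2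

theorem al_per (q : V 2 → QQ a) (k : Fin 2 → ℤ) (p : W 2) :
    al q (p.1 + kv k, p.2) = al q p :=
  per_aF (II_mem1 _) (II_mem2 _) p.2 k p.1

theorem al_zero {q : V 2 → QQ a} (hq : q 0 = 0) (θ : V 2) : al q (θ, 0) = 0 := by
  have e : aF (a := a) ((0 : V 2), II (q 0)) = 0 := by
    rw [hq, map_zero]
    exact map_zero _
  unfold al
  simp only
  rw [e]
  rfl

/-- evaluation of the map at a point, as a function of `(c, TQ θ q)` -/
def Ev : V 2 × QQ a →L[ℝ] V 2 :=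
  (ev (0 : V 2)).comp (aF.comp ((ContinuousLinearMap.id ℝ (V 2)).prodMap II))

theorem al_eq (q : V 2 → QQ a) (p : W 2) : al q p = Ev (p.2, TQ p.1 (q p.2)) := by
  show HS.fn (aF (p.2, II (q p.2))) p.1 = HS.fn (aF (p.2, II (TQ p.1 (q p.2)))) 0
  rw [fn_aF_TQ, zero_add]

theorem al_smooth {q : V 2 → QQ a} (hq : ∀ h0 : V 2, ∀ᶠ t in 𝓝 ((0, h0) : V 2 × V 2),
    ContDiffAt ℝ ∞ (fun t : V 2 × V 2 => TQ t.2 (q t.1)) t) (θ : V 2) :
    ∀ᶠ p in 𝓝 ((θ, 0) : W 2), ContDiffAt ℝ ∞ (al q) p := by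
  have hsw : Tendsto (fun p : W 2 => ((p.2, p.1) : V 2 × V 2)) (𝓝 (θ, 0)) (𝓝 (0, θ)) :=
    (continuous_snd.prodMk continuous_fst).tendsto' _ _ rfl
  have hfun : al q = fun p : W 2 => Ev (p.2, TQ p.1 (q p.2)) := funext fun p => al_eq q p
  filter_upwards [hsw.eventually (hq θ)] with p hp
  rw [hfun]
  have h1 : ContDiffAt ℝ ∞ (fun p : W 2 => TQ p.1 (q p.2)) p :=
    ContDiffAt.comp (g := fun t : V 2 × V 2 => TQ t.2 (q t.1)) (f := fun p : W 2 => (p.2, p.1)) p hp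
      (contDiffAt_snd.prodMk contDiffAt_fst)
  exact (Ev (a := a)).contDiff.contDiffAt.comp p (contDiffAt_snd.prodMk h1)

/-- the slice -/
theorem slice_fd (q : V 2 → QQ a) {p : W 2} (hp : ContDiffAt ℝ ∞ (al q) p) (u : V 2) :
    fderiv ℝ (HS.fn (aF (p.2, II (q p.2)))) p.1 u = fderiv ℝ (al q) p (u, 0) := by
  have h2 : HasFDerivAt (fun θ : V 2 => ((θ, p.2) : W 2)) (ContinuousLinearMap.inl ℝ (V 2) (V 2))
      p.1 := (hasFDerivAt_id p.1).prodMk (hasFDerivAt_const p.2 p.1)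
  have h1 : HasFDerivAt (al q) (fderiv ℝ (al q) p) (p.1, p.2) :=
    (hp.differentiableAt (by simp)).hasFDerivAt
  have h3 := HasFDerivAt.comp (g := al q) p.1 h1 h2
  have h4 : HasFDerivAt (HS.fn (aF (p.2, II (q p.2)))) _ p.1 := h3
  rw [h4.fderiv]
  rfl

theorem sp_slice {q : V 2 → QQ a} {c : V 2} (h : ∀ θ, ContDiffAt ℝ ∞ (al q) (θ, c)) :
    SP (HS.fn (aF (c, II (q c)))) :=
  ⟨contDiff_iff_contDiffAt.2 fun θ =>
    ContDiffAt.comp (g := al q) (f := fun θ : V 2 => ((θ, c) : W 2)) θ (h θ)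
      (contDiffAt_id.prodMk contDiffAt_const), fun k θ => per_aF (II_mem1 _) (II_mem2 _) c k θ⟩

/-- the equation for a slice -/
theorem pb_slice {r : ℝ} {w w' : Fo 2} (hr : 0 < r) (hw : ClF r w) {ha : 0 < a} {ha1 : a ≤ 1}
    {hw' : BS w'} {hp : PerF w'} (he : ∀ p : W 2, ‖p.2‖ ≤ r / 2 → w' p = w p)
    (hor : ∀ θ u v : V 2, w (θ, 0) (u, 0) (v, 0) = 0)
    {q : V 2 → QQ a} {c : V 2} (h : ∀ θ, ContDiffAt ℝ ∞ (al q) (θ, c))
    (hn : ∀ θ, ‖al q (θ, c)‖ < r / 2) (hz : NN ha ha1 hw' hp ((c, 0), q c) = 0) (θ : V 2) :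
    pb w (HS.fn (aF (c, II (q c)))) 0 1 θ = 0 := by
  have hsp := sp_slice h
  rw [NN_eq_zero] at hz
  obtain ⟨K, hK⟩ : ∃ K : ℝ, K = mn (HS.fn (Gop ha ha1 hw' ((c, 0), II (q c)))) := ⟨_, rfl⟩
  rw [← hK] at hz
  have hn' : ∀ θ, ‖HS.fn (aF (c, II (q c))) θ‖ < r / 2 := hn
  have key : ∀ θ, pb w (HS.fn (aF (c, II (q c)))) 0 1 θ = K := by
    intro θ
    have h1 := hz θ
    have d0 := fderiv_aF (II_mem1 (q c)) (II_mem2 (q c)) c θ 0
    have d1 := fderiv_aF (II_mem1 (q c)) (II_mem2 (q c)) c θ 1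
    have e1 : pb w (HS.fn (aF (c, II (q c)))) 0 1 θ =
        w (θ, HS.fn (aF (c, II (q c))) θ) (ee 0, HS.fn (dF 0 (II (q c))) θ)
          (ee 1, HS.fn (dF 1 (II (q c))) θ) :=
      congrArg₂ (fun u v => w (θ, HS.fn (aF (c, II (q c))) θ) (ee 0, u) (ee 1, v)) d0 d1
    have e2 : w' (θ + 0, HS.fn (aF (c, II (q c))) θ) = w (θ, HS.fn (aF (c, II (q c))) θ) := by
      have e3 : ((θ + 0, HS.fn (aF (c, II (q c))) θ) : W 2) = (θ, HS.fn (aF (c, II (q c))) θ) :=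
        Prod.ext (add_zero θ) rfl
      exact (congrArg w' e3).trans (he _ (hn' θ).le)
    exact e1.trans ((congrArg (fun B : W 2 →L[ℝ] W 2 →L[ℝ] ℝ =>
      B (ee 0, HS.fn (dF 0 (II (q c))) θ) (ee 1, HS.fn (dF 1 (II (q c))) θ)) e2).symm.trans h1)
  have h2 := mn_pb hw hsp (fun θ => (hn' θ).trans (by linarith)) 0 1
  have h3 : pb w (HS.fn (aF (c, II (q c)))) 0 1 = fun _ => K := funext key
  have h4 : pb w (fun _ => (0 : V 2)) 0 1 = fun _ => (0 : ℝ) := by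
    funext θ
    unfold pb
    have hd0 : ∀ j, dr j (fun _ : V 2 => (0 : V 2)) θ = 0 := fun j => by
      show fderiv ℝ (fun _ : V 2 => (0 : V 2)) θ (ee j) = 0
      rw [fderiv_const_apply]; rfl
    rw [hd0, hd0]
    exact hor θ (ee 0) (ee 1)
  rw [h3, h4, mn_const, mn_const] at h2
  rw [key, h2]

/-- the mean of the variation field -/
theorem mn_eta {q : V 2 → QQ a} (hq : ContDiffAt ℝ ∞ q 0) {θ0 : V 2 → W 2}
    (hθ : ∀ θ, θ0 θ = (θ, 0)) (h : ∀ θ, ContDiffAt ℝ ∞ (al q) (θ0 θ)) (v : V 2) (k : Fin 2) :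
    mn (fun θ => eta (al q) v θ k) = v k := by
  have hq' : HasFDerivAt q (fderiv ℝ q 0) 0 := (hq.differentiableAt (by simp)).hasFDerivAt
  have key : ∀ θ, eta (al q) v θ = HS.fn (aF (v, II (fderiv ℝ q 0 v))) θ := by
    intro θ
    have h1 : HasFDerivAt (fun c : V 2 => ((c, q c) : V 2 × QQ a))
        ((ContinuousLinearMap.id ℝ (V 2)).prod (fderiv ℝ q 0)) 0 :=
      (hasFDerivAt_id (0 : V 2)).prodMk hq'
    let E : V 2 × QQ a →L[ℝ] V 2 :=
      (ev θ).comp (aF.comp ((ContinuousLinearMap.id ℝ (V 2)).prodMap II))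
    have h2 : HasFDerivAt (fun c : V 2 => E (c, q c))
        (E.comp ((ContinuousLinearMap.id ℝ (V 2)).prod (fderiv ℝ q 0))) 0 :=
      E.hasFDerivAt.comp 0 h1
    have h3 : HasFDerivAt (fun c : V 2 => ((θ, c) : W 2)) (ContinuousLinearMap.inr ℝ (V 2) (V 2))
        0 := (hasFDerivAt_const θ 0).prodMk (hasFDerivAt_id 0)
    have h4 : HasFDerivAt (al q) (fderiv ℝ (al q) (θ, 0)) (θ, 0) := by
      have := h θ
      rw [hθ] at this
      exact (this.differentiableAt (by simp)).hasFDerivAt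
    have h5 := HasFDerivAt.comp (g := al q) 0 h4 h3
    have h6 : HasFDerivAt (fun c : V 2 => E (c, q c)) _ 0 := h5
    have h7 := h6.unique h2
    have h8 := congrArg (fun L : V 2 →L[ℝ] V 2 => L v) h7
    exact h8
  have e1 : (fun θ => eta (al q) v θ k) = fun θ => HS.fn (aF (v, II (fderiv ℝ q 0 v))) θ k :=
    funext fun θ => by rw [key]
  rw [e1]
  exact mn_aF (II_mem1 _) (II_mem2 _) v k

theorem shf_zero {N : ℕ} (w : Fo N) : shf 0 w = w := by
  funext p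
  unfold shf
  rw [add_zero]

/-- the matrix of `y` -/
def Am (y : Fo 2) (θ : V 2) : Matrix (Fin 2) (Fin 2) ℝ := fun k l => Bm y 0 k l θ

theorem Am_mulVec (y : Fo 2) (θ : V 2) (z : Fin 2 → ℝ) (k : Fin 2) :
    (Am y θ).mulVec z k = z 0 * Bm y 0 k 0 θ + z 1 * Bm y 0 k 1 θ := by
  simp only [Matrix.mulVec, dotProduct, Fin.sum_univ_two, Am]
  ring

theorem eta_ne {r lm δ : ℝ} {x y : Fo 2} (H : FamH r x y) (hlam : 0 < lm)
    (hE : El lm (S1 y 0)) {A : W 2 → V 2} (hδ : 0 < δ) (hs : ∀ p ∈ tube 2 δ, ContDiffAt ℝ ∞ A p)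
    (hper : ∀ (k : Fin 2 → ℤ) (p : W 2), A (p.1 + kv k, p.2) = A p)
    (h0 : ∀ θ, A (θ, 0) = 0)
    (hx : ∀ p ∈ tube 2 δ, x (p.1, A p) (ee 0, fderiv ℝ A p (ee 0, 0))
      (ee 1, fderiv ℝ A p (ee 1, 0)) = 0)
    (hy : ∀ p ∈ tube 2 δ, y (p.1, A p) (ee 0, fderiv ℝ A p (ee 0, 0))
      (ee 1, fderiv ℝ A p (ee 1, 0)) = 0) {v θ0 : V 2} (hv : eta A v θ0 = 0) (θ : V 2) :
    eta A v θ = 0 := by
  have hη := sp_eta hδ hs hper v
  have ex := eta_eq H.pos H.clx hδ hs hper h0 0 1 hx v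
  have ey := eta_eq H.pos H.cly hδ hs hper h0 0 1 hy v
  have lx : ∀ k, lam x (eta A v) 0 k = fun θ => eta A v θ k := by
    intro k
    funext θ
    have h1 := lam_eq (w := x) 0 (A := eta A v) k θ
    rw [shf_zero] at h1
    show lam x (eta A v) 0 k θ = _
    rw [h1]
    have e : ∀ k l, Bm x 0 k l θ = inner ℝ (ee l : V 2) (ee k) := fun k l =>
      H.norm (θ + 0) (ee k) (ee l)
    rw [e, e]
    fin_cases k <;> simp [ee, EuclideanSpace.inner_single_left]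
  have ly : ∀ k, lam y (eta A v) 0 k = fun θ => (Am y θ).mulVec (fun i => eta A v θ i) k := by
    intro k
    funext θ
    have h1 := lam_eq (w := y) 0 (A := eta A v) k θ
    rw [shf_zero] at h1
    show lam y (eta A v) 0 k θ = _
    rw [h1, Am_mulVec]
  have key := NoZeroT_504.nozero (Am y) (fun k l => sp_Bm H.pos H.cly 0 k l) (fun θ z hz => ?_)
    (fun θ i => eta A v θ i) (fun i => sp_comp (EuclideanSpace.proj i : V 2 →L[ℝ] ℝ) hη)
    (fun θ => ?_) (fun θ => ?_) θ0 ?_ θ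
  · ext i
    exact congrFun key i
  · have h1 := hE θ z
    simp only [Fin.sum_univ_two] at h1
    have h2 : 0 < z 0 ^ 2 + z 1 ^ 2 := by
      by_contra hc
      have a0 : z 0 = 0 := by nlinarith [sq_nonneg (z 0), sq_nonneg (z 1)]
      have a1 : z 1 = 0 := by nlinarith [sq_nonneg (z 0), sq_nonneg (z 1)]
      exact hz (by ext i; fin_cases i <;> simp [a0, a1])
    rw [Am_mulVec, Am_mulVec]
    have h3 := mul_pos hlam h2
    have h4 : S1 y 0 θ 0 0 * z 0 * z 0 + S1 y 0 θ 0 1 * z 0 * z 1 +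
        (S1 y 0 θ 1 0 * z 1 * z 0 + S1 y 0 θ 1 1 * z 1 * z 1) =
        z 0 * (z 0 * Bm y 0 1 0 θ + z 1 * Bm y 0 1 1 θ) -
          z 1 * (z 0 * Bm y 0 0 0 θ + z 1 * Bm y 0 0 1 θ) := by
      show Bm y 0 1 0 θ * z 0 * z 0 + Bm y 0 1 1 θ * z 0 * z 1 +
        (-Bm y 0 0 0 θ * z 1 * z 0 + -Bm y 0 0 1 θ * z 1 * z 1) = _
      ring
    rw [h4] at h1
    linarith
  · have h1 := ex θ
    have e0 : lam x (eta A v) 0 0 = fun θ => eta A v θ 0 := lx 0
    have e1 : lam x (eta A v) 0 1 = fun θ => eta A v θ 1 := lx 1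
    rw [e0, e1] at h1
    exact h1
  · have h1 := ey θ
    have e0 : lam y (eta A v) 0 0 = fun θ => (Am y θ).mulVec (fun i => eta A v θ i) 0 := ly 0
    have e1 : lam y (eta A v) 0 1 = fun θ => (Am y θ).mulVec (fun i => eta A v θ i) 1 := ly 1
    rw [e0, e1] at h1
    exact h1
  · funext i
    rw [hv]
    rfl

end

end Crest.Agent.R235.TorFam_384
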