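import Crest.Agent.R235.TorSch_384
import Crest.Agent.R281.Mc6_673

/-!
# Row 235 (S0364), TOR / FIB-B1 (helper384), part 2

Global Schauder estimate on the torus with variable coefficients, divergence form.
-/

set_option autoImplicit false

open MeasureTheory Set Metric
open scoped ContDiff

namespace Crest.Agent.R235.TorSch_384

open Crest.Agent.R238 (Ell)
open Crest.Agent.R238.Sch (ee D2 LB norm_ee)
open Crest.Agent.R273.SchA_152 (HO lb_loc)
open Crest.Agent.R273.SchB_152 (P2)
open Crest.Agent.R275.Tor812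
open Crest.Agent.R281.Mc673

noncomputable section

variable {N : ℕ}

theorem ho_dr {a G : ℝ} {w : V N → ℝ} (h : HO a G univ (fderiv ℝ w)) (j : Fin N) :
    HO a G univ (dr j w) where
  bdd x _ := by
    refine ((fderiv ℝ w x).le_opNorm _).trans ?_
    rw [norm_ee, mul_one]
    exact h.bdd x (mem_univ x)
  hol x _ y _ := by
    have e : dr j w x - dr j w y = (fderiv ℝ w x - fderiv ℝ w y) (ee j) := rfl
    rw [e]
    refine (ContinuousLinearMap.le_opNorm _ _).trans ?_
    rw [norm_ee, mul_one]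
    exact h.hol x (mem_univ x) y (mem_univ y)

/-- interpolation, global -/
theorem interp {a ε : ℝ} (ha : 0 < a) (ha1 : a < 1) (hε : 0 < ε) :
    ∃ C : ℝ, 0 ≤ C ∧ ∀ (w : V N → ℝ) (X W : ℝ), ContDiff ℝ 2 w → 0 ≤ X →
      (∀ x, ‖D2 w x‖ ≤ X) → (∀ x, |w x| ≤ W) →
        HO a (ε * X + C * W) univ w ∧ HO a (ε * X + C * W) univ (fderiv ℝ w) := by
  obtain ⟨C, hC, H⟩ := lb_loc (n := N) ha ha1 (show 0 < ε / 4 by positivity)
  refine ⟨4 * C, by positivity, fun w X W hw hX hD hW => ?_⟩
  have key : ∀ x0 : V N, LB a (ε / 4 * X + C * W) (closedBall 0 (3 / 4)) (fun z => w (z + x0)) := by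
    intro x0
    have hf : fderiv ℝ (fun z => w (z + x0)) = fun z => fderiv ℝ w (z + x0) := by
      funext z; exact fderiv_comp_add_right x0
    refine H (fun z => w (z + x0)) X W (hw.comp (contDiff_id.add contDiff_const)) hX
      (fun z _ => ?_) (fun z _ => hW _)
    have h2 : D2 (fun z => w (z + x0)) z = D2 w (z + x0) := by
      unfold D2
      rw [hf]
      exact fderiv_comp_add_right x0
    rw [h2]
    exact hD _
  have e : ε * X + 4 * C * W = 4 * (ε / 4 * X + C * W) := by ring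
  rw [e]
  have hmem : ∀ x0 y : V N, y ∈ closedBall x0 (1 / 2) → y - x0 ∈ closedBall (0 : V N) (3 / 4) := by
    intro x0 y hy
    rw [mem_closedBall, dist_eq_norm] at hy
    rw [mem_closedBall, dist_zero_right]
    linarith
  have hf : ∀ x0 z : V N, fderiv ℝ (fun z => w (z + x0)) z = fderiv ℝ w (z + x0) :=
    fun x0 z => fderiv_comp_add_right x0
  refine ⟨ho_glob ha ha1.le fun x0 => ⟨fun y hy => ?_, fun y hy z hz => ?_⟩,
    ho_glob ha ha1.le fun x0 => ⟨fun y hy => ?_, fun y hy z hz => ?_⟩⟩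
  · have := (key x0).h0 _ (hmem x0 y hy)
    simpa using this
  · have := (key x0).h1 _ (hmem x0 y hy) _ (hmem x0 z hz)
    simpa using this
  · have := (key x0).d0 _ (hmem x0 y hy)
    rw [hf] at this
    simpa using this
  · have := (key x0).d1 _ (hmem x0 y hy) _ (hmem x0 z hz)
    rw [hf, hf] at this
    simpa using this

/-- absorption -/
theorem absorb {a K : ℝ} {F : Type*} [NormedAddCommGroup F] {f : V N → F} (hK : 0 ≤ K)
    (h0 : ∃ G, HO a G univ f)
    (hs : ∀ G, 0 ≤ G → HO a G univ f → HO a (G / 2 + K) univ f) : HO a (2 * K) univ f := by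
  obtain ⟨G0, hG0⟩ := h0
  have hG0' : 0 ≤ G0 := hG0.nonneg (mem_univ (0 : V N))
  have h1 : ∀ n : ℕ, HO a (2 * K + G0 / 2 ^ n) univ f := by
    intro n
    induction n with
    | zero => exact hG0.mono (by simp; linarith)
    | succ n ih =>
      have h2 := hs _ (by positivity) ih
      have e : (2 * K + G0 / 2 ^ n) / 2 + K = 2 * K + G0 / 2 ^ (n + 1) := by
        rw [pow_succ]; field_simp; ring
      rwa [e] at h2
  have hlim : Filter.Tendsto (fun n : ℕ => 2 * K + G0 / 2 ^ n) Filter.atTop (nhds (2 * K)) := by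
    have h3 : Filter.Tendsto (fun n : ℕ => G0 * (1 / 2 : ℝ) ^ n) Filter.atTop (nhds (G0 * 0)) :=
      (tendsto_pow_atTop_nhds_zero_of_lt_one (by norm_num) (by norm_num)).const_mul G0
    have h4 : Filter.Tendsto (fun n : ℕ => 2 * K + G0 * (1 / 2 : ℝ) ^ n) Filter.atTop
        (nhds (2 * K + G0 * 0)) := tendsto_const_nhds.add h3
    rw [mul_zero, add_zero] at h4
    refine h4.congr fun n => ?_
    rw [one_div, inv_pow]; rfl
  refine ⟨fun x hx => ?_, fun x hx y hy => ?_⟩
  · exact ge_of_tendsto' hlim fun n => (h1 n).bdd x hx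
  · exact ge_of_tendsto' (hlim.mul_const _) fun n => (h1 n).hol x hx y hy

/-- **Schauder estimate on the torus, variable coefficients.** -/
theorem torus_schauder_var (N : ℕ) {a lam M : ℝ} (ha : 0 < a) (ha1 : a < 1) (hlam : 0 < lam)
    (hM : 0 ≤ M) :
    ∃ C : ℝ, 0 < C ∧ ∀ S : V N → Matrix (Fin N) (Fin N) ℝ, SM S → BdS a M S → El lam S →
      ∀ w : V N → ℝ, SP w → mn w = 0 → ∀ B : ℝ, HO a B univ (LL S w) →
        HO a (C * B) univ w ∧ HO a (C * B) univ (fderiv ℝ w) ∧
          HO a (C * B) univ (fderiv ℝ (fderiv ℝ w)) := by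
  obtain ⟨C0, hC0, H⟩ := Crest.Agent.R273.SchC_152.int_schauder N ha ha1 hlam
    (le_max_left lam (N * M)) M (R := 1) one_pos le_rfl
  set Cb : ℝ := N * (N * (2 * (M * 1))) with hCb
  have hCb0 : 0 ≤ Cb := by positivity
  obtain ⟨Ce, hCe, Hi⟩ := interp (N := N) ha ha1
    (show 0 < 1 / (8 * C0 * (Cb + 1)) by positivity)
  set K1 : ℝ := 1 + Ce + 4 * C0 with hK1
  have hK1p : 1 ≤ K1 := by linarith
  -- first and second derivatives by `B + W`
  have step : ∀ S : V N → Matrix (Fin N) (Fin N) ℝ, SM S → BdS a M S → El lam S →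
      ∀ w : V N → ℝ, SP w → ∀ B W : ℝ, HO a B univ (LL S w) → (∀ x, |w x| ≤ W) →
        HO a (2 * (K1 * (B + W))) univ (fderiv ℝ w) ∧
        HO a (4 * (C0 * (B + Cb * (2 * (K1 * (B + W))) + W))) univ (D2 w) ∧
        HO a (2 * (K1 * (B + W))) univ w := by
    intro S hS hb hl w hw B W hB hW
    have hB0 : 0 ≤ B := hB.nonneg (mem_univ 0)
    have hW0 : 0 ≤ W := (abs_nonneg _).trans (hW 0)
    have hw2 : ContDiff ℝ 2 w := by exact_mod_cast contDiff_infty.1 hw.sm 2
    obtain ⟨V2, hV2⟩ := hw.fderiv.fderiv.ho ha.le ha1.le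
    -- second derivatives from `G`
    have h2 : ∀ G, 0 ≤ G → HO a G univ (fderiv ℝ w) →
        HO a (4 * (C0 * (B + Cb * G + W))) univ (D2 w) := by
      intro G hG0 hG
      have hP : HO a (B + Cb * G) univ (P2 (sy S) w) := by
        have e : P2 (sy S) w = fun x =>
            LL S w x - ∑ i, ∑ j, dr i (fun y => S y i j) x * dr j w x :=
          funext fun x => P2_sy hS hw x
        rw [e]
        have h3 : HO a (∑ _i : Fin N, ∑ _j : Fin N, 2 * (M * G)) univ
            (fun x => ∑ i, ∑ j, dr i (fun y => S y i j) x * dr j w x) :=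
          HO.sum _ fun i _ => HO.sum _ fun j _ => ho_mul (hb.b1 i j i) (ho_dr hG j) hM hG0
        have e2 : (∑ _i : Fin N, ∑ _j : Fin N, 2 * (M * G)) = Cb * G := by
          simp only [Finset.sum_const, Finset.card_univ, Fintype.card_fin, nsmul_eq_mul, hCb]
          ring
        rw [e2] at h3
        exact HO.sub' hB h3
      refine ho_glob ha ha1.le fun x => ?_
      exact (H x (sy S) (fun y _ => ell_sy hl hb y) (fun i j => by
        have h4 : HO a (1 / 2 * (M + M)) univ (fun x => sy S x i j) := by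
          have h5 := (hb.b0 i j).add (hb.b0 j i)
          refine ⟨fun y hy => ?_, fun y hy z hz => ?_⟩
          · have := h5.bdd y hy
            simp only [sy]
            rw [Real.norm_eq_abs] at this ⊢
            rw [abs_div, abs_two]; linarith
          · have := h5.hol y hy z hz
            simp only [sy]
            rw [Real.norm_eq_abs] at this ⊢
            have e6 : (S y i j + S y j i) / 2 - (S z i j + S z j i) / 2 =
                (S y i j + S y j i - (S z i j + S z j i)) / 2 := by ring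
            rw [e6, abs_div, abs_two]
            linarith
        exact (h4.subset (subset_univ _)).mono (by linarith)) w (B + Cb * G) W hw2
        ⟨V2, hV2.subset (subset_univ _)⟩ (hP.subset (subset_univ _)) (fun y _ => hW y)).1
    -- interpolation and absorption
    have h3 : ∀ G, 0 ≤ G → HO a G univ (fderiv ℝ w) →
        HO a (G / 2 + K1 * (B + W)) univ (fderiv ℝ w) ∧
        HO a (G / 2 + K1 * (B + W)) univ w := by
      intro G hG0 hG
      have h4 := h2 G hG0 hG
      have hX : 0 ≤ 4 * (C0 * (B + Cb * G + W)) := by positivity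
      obtain ⟨h5, h6⟩ := Hi w _ W hw2 hX (fun x => h4.bdd x (mem_univ x)) hW
      have h7 : 1 / (8 * C0 * (Cb + 1)) * (4 * (C0 * (B + Cb * G + W))) + Ce * W ≤
          G / 2 + K1 * (B + W) := by
        have e : 1 / (8 * C0 * (Cb + 1)) * (4 * (C0 * (B + Cb * G + W))) =
            (B + Cb * G + W) / (2 * (Cb + 1)) := by field_simp; ring
        rw [e]
        have h8 : (B + Cb * G + W) / (2 * (Cb + 1)) ≤ (B + W) + G / 2 := by
          rw [div_le_iff₀ (by positivity)]
          nlinarith [mul_nonneg hCb0 hB0, mul_nonneg hCb0 hW0]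
        have h9 : Ce * W ≤ Ce * (B + W) := mul_le_mul_of_nonneg_left (by linarith) hCe
        have h10 : K1 * (B + W) = (B + W) + Ce * (B + W) + 4 * C0 * (B + W) := by rw [hK1]; ring
        have h11 : 0 ≤ 4 * C0 * (B + W) := by positivity
        linarith
      exact ⟨h6.mono h7, h5.mono h7⟩
    have h4 : HO a (2 * (K1 * (B + W))) univ (fderiv ℝ w) :=
      absorb (by positivity) (hw.fderiv.ho ha.le ha1.le) fun G hG0 hG => (h3 G hG0 hG).1
    refine ⟨h4, h2 _ (by positivity) h4, ?_⟩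
    exact (h3 _ (by positivity) h4).2.mono (by linarith)
  -- the sup bound
  set C1 : ℝ := 2 * K1 with hC1
  have hC1' : 1 ≤ C1 := by linarith
  set r : ℝ := 1 / (4 * C1 * (N + 1)) with hr
  have hr0 : 0 < r := by positivity
  have hr1 : r ≤ 1 / 4 := by
    rw [hr]
    refine one_div_le_one_div_of_le (by norm_num) ?_
    have hN : (0 : ℝ) ≤ N := Nat.cast_nonneg N
    nlinarith
  set q : ℝ := (2 * r) ^ N with hq
  have hq0 : 0 < q := by positivity
  have hq1 : q ≤ 1 := pow_le_one₀ (by positivity) (by linarith)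
  set K2 : ℝ := 2 / (q * lam) + 1 with hK2
  have hK2p : 1 ≤ K2 := by
    have : 0 < 2 / (q * lam) := by positivity
    linarith
  have sup : ∀ S : V N → Matrix (Fin N) (Fin N) ℝ, SM S → BdS a M S → El lam S →
      ∀ w : V N → ℝ, SP w → mn w = 0 → ∀ B : ℝ, HO a B univ (LL S w) →
        ∀ x, |w x| ≤ K2 * B := by
    intro S hS hb hl w hw hm B hB
    have hB0 : 0 ≤ B := hB.nonneg (mem_univ 0)
    obtain ⟨x0, hx0⟩ := Per.exists_max (f := fun x => |w x|)
      (fun k x => by show |w (x + kv k)| = |w x|; rw [hw.per k x]) hw.cont.abs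
    set W : ℝ := |w x0| with hWdef
    have hW0 : 0 ≤ W := abs_nonneg _
    suffices hWB : W ≤ K2 * B from fun x => (hx0 x).trans hWB
    rcases le_total W B with hc | hc
    · nlinarith
    have hG : ∀ y : V N, ‖fderiv ℝ w y‖ ≤ 2 * C1 * W := fun y => by
      refine ((step S hS hb hl w hw B W hB hx0).1.bdd y (mem_univ y)).trans ?_
      nlinarith
    have hlip : ∀ y : V N, |w y - w x0| ≤ 2 * C1 * W * ‖y - x0‖ := fun y =>
      convex_univ.norm_image_sub_le_of_norm_fderiv_le (𝕜 := ℝ) (fun z _ => hw.diff z)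
        (fun z _ => hG z) (mem_univ x0) (mem_univ y)
    have h3 : (W / 2) ^ 2 * q ≤ (B / lam) ^ 2 := by
      refine (l2_lower (x0 := x0) hw hr0 (by linarith) (by positivity) fun y hy => ?_).trans
        (l2_var hlam hS hl hw hm (B := B) fun x => hB.bdd x (mem_univ x))
      have h4 := hlip y
      have h5 : 2 * C1 * W * ‖y - x0‖ ≤ W / 2 := by
        calc 2 * C1 * W * ‖y - x0‖ ≤ 2 * C1 * W * ((N + 1) * r) :=
              mul_le_mul_of_nonneg_left hy (by positivity)
          _ = W / 2 := by rw [hr]; field_simp; ring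
      have h6 : W - |w y| ≤ |w y - w x0| := by
        have := abs_sub_abs_le_abs_sub (w x0) (w y)
        rwa [abs_sub_comm] at this
      linarith
    have h7 : (W / 2) ^ 2 ≤ (B / (lam * q)) ^ 2 := by
      have e : (B / (lam * q)) ^ 2 = (B / lam) ^ 2 / q ^ 2 := by rw [← div_div, div_pow (B / lam)]
      rw [e, le_div_iff₀ (by positivity)]
      calc (W / 2) ^ 2 * q ^ 2 = (W / 2) ^ 2 * q * q := by ring
        _ ≤ (B / lam) ^ 2 * q := mul_le_mul_of_nonneg_right h3 hq0.le
        _ ≤ (B / lam) ^ 2 := mul_le_of_le_one_right (sq_nonneg _) hq1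
    have h8 := (sq_le_sq₀ (by positivity) (by positivity)).1 h7
    have h9 : K2 * B = 2 * (B / (lam * q)) + B := by rw [hK2]; field_simp
    rw [h9]; linarith
  have hQ0 : 0 ≤ 4 * (C0 * (1 + Cb * (2 * (K1 * (1 + K2))) + K2)) := by positivity
  refine ⟨2 * (K1 * (1 + K2)) + 4 * (C0 * (1 + Cb * (2 * (K1 * (1 + K2))) + K2)),
    by positivity, fun S hS hb hl w hw hm B hB => ?_⟩
  have hB0 : 0 ≤ B := hB.nonneg (mem_univ 0)
  obtain ⟨h1, h2, h3⟩ := step S hS hb hl w hw B (K2 * B) hB (sup S hS hb hl w hw hm B hB)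
  have e1 : 2 * (K1 * (B + K2 * B)) = 2 * (K1 * (1 + K2)) * B := by ring
  have e2 : 4 * (C0 * (B + Cb * (2 * (K1 * (B + K2 * B))) + K2 * B)) =
      4 * (C0 * (1 + Cb * (2 * (K1 * (1 + K2))) + K2)) * B := by ring
  rw [e1] at h1 h3
  rw [e2] at h2
  have i1 : 2 * (K1 * (1 + K2)) * B ≤
      (2 * (K1 * (1 + K2)) + 4 * (C0 * (1 + Cb * (2 * (K1 * (1 + K2))) + K2))) * B :=
    mul_le_mul_of_nonneg_right (by linarith) hB0
  have hK12 : 0 ≤ 2 * (K1 * (1 + K2)) := by positivity
  have i2 : 4 * (C0 * (1 + Cb * (2 * (K1 * (1 + K2))) + K2)) * B ≤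
      (2 * (K1 * (1 + K2)) + 4 * (C0 * (1 + Cb * (2 * (K1 * (1 + K2))) + K2))) * B :=
    mul_le_mul_of_nonneg_right (by linarith) hB0
  exact ⟨h3.mono i1, h1.mono i1, h2.mono i2⟩

end

end Crest.Agent.R235.TorSch_384
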