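import Crest.Agent.R235.TorOm_384
import Crest.Agent.R235.TorSch2_384

/-!
# Row 235 (S0364), TOR / FIB-B1 (helper384): Hölder spaces on `V N`, opaque wrappers

`HS a N F` is `Hol a (V N) F` behind a definition, so that instance search is fast.
-/

set_option autoImplicit false

open MeasureTheory Set Metric Filter Topology
open scoped ContDiff

namespace Crest.Agent.R235.TorHS_384

open Crest.Agent.R238.Sch (ee norm_ee)
open Crest.Agent.R273.SchA_152 (HO)
open Crest.Agent.R281.Mc673
open Crest.Agent.R235.NWDefs_334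
open Crest.Agent.R235.TorOm_384 (BS Lp)

noncomputable section

/-- Banach space of bounded `a`-Hölder functions `V N → F` -/
def HS (a : ℝ) (N : ℕ) (F : Type) [NormedAddCommGroup F] [NormedSpace ℝ F] : Type :=
  ↥(Hol a (V N) F)

variable {a : ℝ} {N : ℕ} {E F G : Type} [NormedAddCommGroup E] [NormedSpace ℝ E]
  [NormedAddCommGroup F] [NormedSpace ℝ F] [NormedAddCommGroup G] [NormedSpace ℝ G]

instance : NormedAddCommGroup (HS a N F) := inferInstanceAs (NormedAddCommGroup ↥(Hol a (V N) F))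
instance : NormedSpace ℝ (HS a N F) := inferInstanceAs (NormedSpace ℝ ↥(Hol a (V N) F))
instance [CompleteSpace F] : CompleteSpace (HS a N F) :=
  inferInstanceAs (CompleteSpace ↥(Hol a (V N) F))

namespace HS

/-- the underlying function -/
def fn (u : HS a N F) : V N → F := Hol.fn (X := V N) (a := a) (E := F) u

@[simp] theorem fn_add (u v : HS a N F) (x : V N) : fn (u + v) x = fn u x + fn v x := rfl
@[simp] theorem fn_sub (u v : HS a N F) (x : V N) : fn (u - v) x = fn u x - fn v x := rfl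
@[simp] theorem fn_neg (u : HS a N F) (x : V N) : fn (-u) x = -(fn u x) := rfl
@[simp] theorem fn_zero (x : V N) : fn (0 : HS a N F) x = 0 := rfl
@[simp] theorem fn_smul (c : ℝ) (u : HS a N F) (x : V N) : fn (c • u) x = c • fn u x := rfl

theorem ext {u v : HS a N F} (h : ∀ x, fn u x = fn v x) : u = v := NWHol_952.ext h

omit [NormedSpace ℝ F] in
theorem hb_iff {M : ℝ} {f : V N → F} : HB a M f ↔ HO a M univ f :=
  ⟨fun h => ⟨fun x _ => h.bdd x, fun x _ y _ => by
      have := h.hol x y; rwa [dist_eq_norm] at this⟩,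
    fun h => ⟨fun x => h.bdd x (mem_univ x), fun x y => by
      rw [dist_eq_norm]; exact h.hol x (mem_univ x) y (mem_univ y)⟩⟩

theorem ho (u : HS a N F) : HO a ‖u‖ univ (fn u) := hb_iff.1 (NWHol_952.hb u)

theorem norm_fn_le (u : HS a N F) (x : V N) : ‖fn u x‖ ≤ ‖u‖ := (ho u).bdd x (mem_univ x)

theorem norm_le {u : HS a N F} {M : ℝ} (h : HO a M univ (fn u)) : ‖u‖ ≤ M :=
  NWHol_952.norm_le (h.nonneg (mem_univ 0)) (hb_iff.2 h)

/-- constructor -/
def mk (ha : 0 < a) (f : V N → F) (M : ℝ) (h : HO a M univ f) : HS a N F :=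
  NWHol_952.mk ha f M (hb_iff.2 h)

@[simp] theorem fn_mk (ha : 0 < a) (f : V N → F) (M : ℝ) (h : HO a M univ f) :
    fn (mk ha f M h) = f := rfl

theorem norm_mk_le (ha : 0 < a) {f : V N → F} {M : ℝ} (h : HO a M univ f) : ‖mk ha f M h‖ ≤ M :=
  norm_le h

/-- evaluation -/
def ev (x : V N) : HS a N F →L[ℝ] F := NWHol_952.ev (a := a) (E := F) x

@[simp] theorem ev_apply (x : V N) (u : HS a N F) : ev x u = fn u x := rfl

theorem fn_continuous (u : HS a N F) : Continuous (fn u) := NWHol_952.fn_continuous _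

theorem fn_sum {ι : Type*} (s : Finset ι) (u : ι → HS a N F) (x : V N) :
    fn (∑ i ∈ s, u i) x = ∑ i ∈ s, fn (u i) x := map_sum (ev (a := a) (F := F) x) u s

/-- bilinear operation -/
def bl (B : E →L[ℝ] F →L[ℝ] G) : HS a N E →L[ℝ] HS a N F →L[ℝ] HS a N G :=
  NWHol_952.bl (X := V N) (a := a) B

@[simp] theorem fn_bl (B : E →L[ℝ] F →L[ℝ] G) (u : HS a N E) (v : HS a N F) (x : V N) :
    fn (bl B u v) x = B (fn u x) (fn v x) := rfl

/-- linear operation -/
def cl (T : E →L[ℝ] F) : HS a N E →L[ℝ] HS a N F := NWHol_952.clL (X := V N) (a := a) T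

@[simp] theorem fn_cl (T : E →L[ℝ] F) (u : HS a N E) (x : V N) : fn (cl T u) x = T (fn u x) := rfl

/-- constants -/
def cst : E →L[ℝ] HS a N E := NWHol_952.cst (V N)

@[simp] theorem fn_cst (e : E) (x : V N) : fn (cst e : HS a N E) x = e := rfl

/-- pairs -/
def pair : (HS a N E × HS a N F) →L[ℝ] HS a N (E × F) := NWHol_952.pair (X := V N) (a := a)

@[simp] theorem fn_pair (p : HS a N E × HS a N F) (x : V N) : fn (pair p) x = (fn p.1 x, fn p.2 x) :=
  rfl

/-- translation -/
def tr (h : V N) : HS a N F →L[ℝ] HS a N F :=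
  LinearMap.mkContinuous
    { toFun := fun u => NWHol_952.mkc (fun x => fn u (x + h))
        ((fn_continuous u).comp (continuous_id.add continuous_const)) ‖u‖
        (hb_iff.2 ⟨fun x _ => norm_fn_le u _, fun x _ y _ => by
          have := (ho u).hol (x + h) (mem_univ _) (y + h) (mem_univ _)
          rwa [add_sub_add_right_eq_sub] at this⟩)
      map_add' := fun u v => ext fun x => rfl
      map_smul' := fun c u => ext fun x => rfl } 1 (fun u => by
        rw [one_mul]
        exact norm_le ⟨fun x _ => norm_fn_le u _, fun x _ y _ => by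
          have := (ho u).hol (x + h) (mem_univ _) (y + h) (mem_univ _)
          rwa [add_sub_add_right_eq_sub] at this⟩)

@[simp] theorem fn_tr (h : V N) (u : HS a N F) (x : V N) : fn (tr h u) x = fn u (x + h) := rfl

theorem norm_tr_le (h : V N) (u : HS a N F) : ‖tr h u‖ ≤ ‖u‖ :=
  norm_le ⟨fun x _ => norm_fn_le u _, fun x _ y _ => by
    have := (ho u).hol (x + h) (mem_univ _) (y + h) (mem_univ _)
    rwa [add_sub_add_right_eq_sub] at this⟩

/-- a smooth periodic function as an element of the Hölder space -/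
def ofSP (ha : 0 < a) (ha1 : a ≤ 1) (f : V N → F) (hf : SP f) : HS a N F :=
  mk ha f (hf.ho ha.le ha1).choose (hf.ho ha.le ha1).choose_spec

@[simp] theorem fn_ofSP (ha : 0 < a) (ha1 : a ≤ 1) (f : V N → F) (hf : SP f) :
    fn (ofSP ha ha1 f hf) = f := rfl

/-- Nemytskii operator with base map -/
def om (ha : 0 < a) (ha1 : a ≤ 1) {L : ℝ} {z0 : V N → E} (hz : Lp L z0) (f : E → F) (hf : BS f)
    (u : HS a N E) : HS a N F := TorOm_384.Om (X := V N) ha ha1 hz f hf u

@[simp] theorem fn_om (ha : 0 < a) (ha1 : a ≤ 1) {L : ℝ} {z0 : V N → E} (hz : Lp L z0) (f : E → F)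
    (hf : BS f) (u : HS a N E) (x : V N) : fn (om ha ha1 hz f hf u) x = f (z0 x + fn u x) := rfl

theorem contDiff_om (ha : 0 < a) (ha1 : a ≤ 1) {L : ℝ} {z0 : V N → E} (hz : Lp L z0) (f : E → F)
    (hf : BS f) : ContDiff ℝ ∞ (om ha ha1 hz f hf) :=
  TorOm_384.Om_contDiff (X := V N) ha ha1 hz f hf

end HS

end

end Crest.Agent.R235.TorHS_384
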