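import Mathlib

/-!
# Row 235 (S0364), TOR / FIB-B1 (helper384): implicit function theorem, smooth on a neighbourhood
-/

set_option autoImplicit false

open Set Metric Filter Topology
open scoped ContDiff

namespace Crest.Agent.R235.TorIft_384

noncomputable section

variable {T Q Y : Type*} [NormedAddCommGroup T] [NormedSpace ℝ T] [CompleteSpace T]
  [NormedAddCommGroup Q] [NormedSpace ℝ Q] [CompleteSpace Q]
  [NormedAddCommGroup Y] [NormedSpace ℝ Y] [CompleteSpace Y]

/-- a bijective continuous linear map is invertible -/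
theorem exists_equiv {E F : Type*} [NormedAddCommGroup E] [NormedSpace ℝ E] [CompleteSpace E]
    [NormedAddCommGroup F] [NormedSpace ℝ F] [CompleteSpace F] (A : E →L[ℝ] F)
    (hA : Function.Bijective A) : ∃ e : E ≃L[ℝ] F, (e : E →L[ℝ] F) = A :=
  ⟨ContinuousLinearEquiv.ofBijective A (LinearMap.ker_eq_bot.2 hA.1) (LinearMap.range_eq_top.2 hA.2),
    ContinuousLinearEquiv.coe_ofBijective _ _ _⟩

/-- **implicit function theorem**, the implicit function is smooth on a neighbourhood -/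
theorem ift {f : T × Q → Y} (hf : ContDiff ℝ ∞ f) {t0 : T} {q0 : Q} (h0 : f (t0, q0) = 0)
    {A : Q →L[ℝ] Y} (hA : HasFDerivAt (fun q => f (t0, q)) A q0) (hb : Function.Bijective A) :
    ∃ g : T → Q, g t0 = q0 ∧ (∀ᶠ t in 𝓝 t0, ContDiffAt ℝ ∞ g t) ∧ (∀ᶠ t in 𝓝 t0, f (t, g t) = 0) ∧
      ∀ᶠ p in 𝓝 (t0, q0), f p = 0 → p.2 = g p.1 := by
  let F : T × Q → T × Y := fun p => (p.1, f p)
  have hF : ContDiff ℝ ∞ F := contDiff_fst.prodMk hf
  have hfd : ∀ p, HasFDerivAt f (fderiv ℝ f p) p := fun p =>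
    (hf.differentiable (by simp) p).hasFDerivAt
  have hFd : ∀ p, HasFDerivAt F ((ContinuousLinearMap.fst ℝ T Q).prod (fderiv ℝ f p)) p := fun p =>
    hasFDerivAt_fst.prodMk (hfd p)
  have hA' : ∀ q, fderiv ℝ f (t0, q0) (0, q) = A q := by
    intro q
    have h1 : HasFDerivAt (fun q : Q => ((t0, q) : T × Q)) (ContinuousLinearMap.inr ℝ T Q) q0 :=
      (hasFDerivAt_const t0 q0).prodMk (hasFDerivAt_id q0)
    have h2 := (hfd (t0, q0)).comp q0 h1
    have h3 := h2.unique hA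
    rw [← h3]
    rfl
  have hbij : Function.Bijective ((ContinuousLinearMap.fst ℝ T Q).prod (fderiv ℝ f (t0, q0))) := by
    have hdec : ∀ (t : T) (q : Q), fderiv ℝ f (t0, q0) (t, q) =
        fderiv ℝ f (t0, q0) (t, 0) + A q := by
      intro t q
      rw [← hA', ← map_add]
      congr 1
      ext1 <;> simp
    constructor
    · rw [injective_iff_map_eq_zero]
      rintro ⟨t, q⟩ h
      have h1 : t = 0 := congrArg Prod.fst h
      have h2 : fderiv ℝ f (t0, q0) (t, q) = 0 := congrArg Prod.snd h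
      rw [h1, hA'] at h2
      have h3 : q = 0 := hb.1 (by rw [h2, map_zero])
      rw [h1, h3]; rfl
    · rintro ⟨t, y⟩
      obtain ⟨q, hq⟩ := hb.2 (y - fderiv ℝ f (t0, q0) (t, 0))
      refine ⟨(t, q), ?_⟩
      show (t, fderiv ℝ f (t0, q0) (t, q)) = (t, y)
      rw [hdec, hq]
      congr 1
      abel
  obtain ⟨e, he⟩ := exists_equiv _ hbij
  have hFe : HasFDerivAt F (e : (T × Q) →L[ℝ] (T × Y)) (t0, q0) := by
    rw [he]; exact hFd _
  let Φ := hF.contDiffAt.toOpenPartialHomeomorph F hFe (by simp : (∞ : WithTop ℕ∞) ≠ 0)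
  have hsrc : (t0, q0) ∈ Φ.source :=
    hF.contDiffAt.mem_toOpenPartialHomeomorph_source hFe (by simp)
  have htgt : F (t0, q0) ∈ Φ.target :=
    hF.contDiffAt.image_mem_toOpenPartialHomeomorph_target hFe (by simp)
  have hΦ : ∀ p, Φ p = F p := fun p => rfl
  have hF0 : F (t0, q0) = (t0, 0) := by
    show (t0, f (t0, q0)) = (t0, 0)
    rw [h0]
  rw [hF0] at htgt
  have hs0 : Φ.symm (t0, 0) = (t0, q0) := by
    rw [← hF0]; exact Φ.left_inv hsrc
  have hsc : ContinuousAt Φ.symm (t0, 0) := Φ.continuousAt_symm htgt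
  -- invertibility near the point
  have hfc : Continuous fun p => (ContinuousLinearMap.fst ℝ T Q).prod (fderiv ℝ f p) := by
    have h1 : Continuous (fderiv ℝ F) := hF.continuous_fderiv (by simp)
    have h2 : fderiv ℝ F = fun p => (ContinuousLinearMap.fst ℝ T Q).prod (fderiv ℝ f p) :=
      funext fun p => (hFd p).fderiv
    rwa [h2] at h1
  have hinv : ∀ᶠ p in 𝓝 (t0, q0), ∃ e : (T × Q) ≃L[ℝ] (T × Y),
      (e : (T × Q) →L[ℝ] (T × Y)) = (ContinuousLinearMap.fst ℝ T Q).prod (fderiv ℝ f p) := by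
    have h1 := hfc.continuousAt (x := (t0, q0))
    have h2 : range ((↑) : ((T × Q) ≃L[ℝ] (T × Y)) → ((T × Q) →L[ℝ] (T × Y))) ∈
        𝓝 ((ContinuousLinearMap.fst ℝ T Q).prod (fderiv ℝ f (t0, q0))) := by
      rw [← he]; exact e.nhds
    exact h1.eventually h2
  have hsm : ∀ᶠ z in 𝓝 (t0, (0 : Y)), ContDiffAt ℝ ∞ Φ.symm z := by
    have h1 : ∀ᶠ z in 𝓝 (t0, (0 : Y)), z ∈ Φ.target := Φ.open_target.mem_nhds htgt
    have h2 : Tendsto Φ.symm (𝓝 (t0, (0 : Y))) (𝓝 (t0, q0)) := by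
      have := hsc.tendsto
      rwa [hs0] at this
    filter_upwards [h1, h2.eventually hinv] with z hz1 hz2
    obtain ⟨e', he'⟩ := hz2
    refine Φ.contDiffAt_symm (f₀' := e') hz1 ?_ ?_
    · rw [he']
      exact hFd _
    · exact hF.contDiffAt
  have ht : Tendsto (fun t : T => (t, (0 : Y))) (𝓝 t0) (𝓝 (t0, 0)) :=
    (continuous_id.prodMk continuous_const).tendsto' _ _ rfl
  refine ⟨fun t => (Φ.symm (t, 0)).2, congrArg Prod.snd hs0, ?_, ?_, ?_⟩
  · filter_upwards [ht.eventually hsm] with t hz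
    have h1 : ContDiffAt ℝ ∞ (fun t : T => (t, (0 : Y))) t :=
      contDiffAt_id.prodMk contDiffAt_const
    exact contDiffAt_snd.comp t (ContDiffAt.comp t hz h1)
  · filter_upwards [ht.eventually (Φ.open_target.mem_nhds htgt)] with t hz
    have h1 : F (Φ.symm (t, 0)) = (t, 0) := Φ.right_inv hz
    have h2 : (Φ.symm (t, 0)).1 = t := congrArg Prod.fst h1
    have h3 : f (Φ.symm (t, 0)) = 0 := congrArg Prod.snd h1
    have h4 : ((t, (Φ.symm (t, 0)).2) : T × Q) = Φ.symm (t, 0) := by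
      ext1
      · exact h2.symm
      · rfl
    rw [h4, h3]
  · filter_upwards [Φ.open_source.mem_nhds hsrc] with p hp hp0
    have h1 : Φ.symm (F p) = p := Φ.left_inv hp
    have h2 : F p = (p.1, 0) := by
      show (p.1, f p) = (p.1, 0)
      rw [hp0]
    rw [h2] at h1
    show p.2 = (Φ.symm (p.1, 0)).2
    rw [h1]

end

end Crest.Agent.R235.TorIft_384
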