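import Crest.Agent.R235.TorNN_384

/-!
# Row 235 (S0364), TOR / FIB-B1b (helper384): the linearisation
-/

set_option autoImplicit false
set_option maxSynthPendingDepth 3

open MeasureTheory Set Metric Filter Topology
open scoped ContDiff

namespace Crest.Agent.R235.TorNM_384

open Crest.Agent.R238.Sch (ee D2 LB norm_ee)
open Crest.Agent.R273.SchA_152 (HO)
open Crest.Agent.R281.Mc673
open Crest.Agent.R235.TorOm_384 (BS Lp)
open Crest.Agent.R235.TorSch_384 Crest.Agent.R235.TorSp_384 Crest.Agent.R235.TorHS_384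
open Crest.Agent.R235.TorHS_384.HS Crest.Agent.R235.TorCut_384

noncomputable section

variable {a : ℝ}

/-- the coefficient matrix -/
def Bm (w : Fo 2) (h : V 2) (k l : Fin 2) (θ : V 2) : ℝ := w (θ + h, 0) (0, ee l) (ee k, 0)

/-- coefficients for the gradient -/
def S1 (w : Fo 2) (h : V 2) (θ : V 2) : Matrix (Fin 2) (Fin 2) ℝ :=
  !![Bm w h 1 0 θ, Bm w h 1 1 θ; -Bm w h 0 0 θ, -Bm w h 0 1 θ]

/-- coefficients for the rotated gradient -/
def S2 (w : Fo 2) (h : V 2) (θ : V 2) : Matrix (Fin 2) (Fin 2) ℝ :=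
  !![Bm w h 1 1 θ, -Bm w h 1 0 θ; -Bm w h 0 1 θ, Bm w h 0 0 θ]

section B

variable {r : ℝ} {w : Fo 2}

theorem sp_Bm (hr : 0 < r) (hw : ClF r w) (h : V 2) (k l : Fin 2) : SP (Bm w h k l) := by
  have h1 : SP fun θ => shf h w (θ, (fun _ : V 2 => (0 : V 2)) θ) :=
    sp_wa (shf_clf hw h) (SP.const 0) fun θ => by simpa using hr
  have h2 : SP fun θ => shf h w (θ, (0 : V 2)) (0, ee l) :=
    SP.clm (T := fun θ => shf h w (θ, (0 : V 2))) (u := fun _ => ((0, ee l) : W 2)) h1 (SP.const _)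
  exact SP.clm (T := fun θ => shf h w (θ, (0 : V 2)) (0, ee l))
    (u := fun _ => ((ee k, 0) : W 2)) h2 (SP.const _)

theorem sm_S1 (hr : 0 < r) (hw : ClF r w) (h : V 2) : SM (S1 w h) := by
  intro i j
  fin_cases i <;> fin_cases j
  · exact sp_Bm hr hw h 1 0
  · exact sp_Bm hr hw h 1 1
  · exact (sp_Bm hr hw h 0 0).neg
  · exact (sp_Bm hr hw h 0 1).neg

theorem sm_S2 (hr : 0 < r) (hw : ClF r w) (h : V 2) : SM (S2 w h) := by
  intro i j
  fin_cases i <;> fin_cases j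
  · exact sp_Bm hr hw h 1 1
  · exact (sp_Bm hr hw h 1 0).neg
  · exact (sp_Bm hr hw h 0 1).neg
  · exact sp_Bm hr hw h 0 0

/-- decomposition of the flux -/
theorem lam_eq (h : V 2) {A : V 2 → V 2} (k : Fin 2) (θ : V 2) :
    lam (shf h w) A 0 k θ = A θ 0 * Bm w h k 0 θ + A θ 1 * Bm w h k 1 θ := by
  unfold lam shf Bm
  simp only [zero_smul]
  have e : ((0, A θ) : W 2) = A θ 0 • ((0, ee 0) : W 2) + A θ 1 • ((0, ee 1) : W 2) := by
    have e1 : A θ = A θ 0 • (ee 0 : V 2) + A θ 1 • (ee 1 : V 2) := by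
      ext i
      fin_cases i <;> simp [ee]
    ext1
    · simp
    · simpa using e1
  rw [e, map_add, map_smul, map_smul]
  rfl

/-- components of the map -/
theorem comp_aF (q : PQ a) (h1 : IsJet q.1) (h2 : IsJet q.2) (x : V 2) :
    HS.fn (aF (0, q)) x 0 = dr 0 (HS.fn q.1.1) x - dr 1 (HS.fn q.2.1) x ∧
    HS.fn (aF (0, q)) x 1 = dr 1 (HS.fn q.1.1) x + dr 0 (HS.fn q.2.1) x := by
  rw [fn_aF, gr_apply, rt_apply, h1.d1, h2.d1]
  refine ⟨?_, ?_⟩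
  · simp [ee, dr, sub_eq_add_neg]
  · simp [ee, dr]

/-- the linearised operator on smooth jets -/
theorem curl_eq (hr : 0 < r) (hw : ClF r w) (h : V 2) {q : PQ a} (h1 : IsJet q.1) (h2 : IsJet q.2)
    (θ : V 2) :
    dr 0 (lam (shf h w) (HS.fn (aF (0, q))) 0 1) θ - dr 1 (lam (shf h w) (HS.fn (aF (0, q))) 0 0) θ =
      LL (S1 w h) (HS.fn q.1.1) θ + LL (S2 w h) (HS.fn q.2.1) θ := by
  have hB := sp_Bm hr hw h
  have s1 : ∀ j, SP (dr j (HS.fn q.1.1)) := fun j => h1.sp.dr j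
  have s2 : ∀ j, SP (dr j (HS.fn q.2.1)) := fun j => h2.sp.dr j
  have f : ∀ k, lam (shf h w) (HS.fn (aF (0, q))) 0 k = fun θ =>
      (Bm w h k 0 θ * dr 0 (HS.fn q.1.1) θ + Bm w h k 1 θ * dr 1 (HS.fn q.1.1) θ) +
      (Bm w h k 1 θ * dr 0 (HS.fn q.2.1) θ - Bm w h k 0 θ * dr 1 (HS.fn q.2.1) θ) := by
    intro k
    funext θ
    rw [lam_eq, (comp_aF q h1 h2 θ).1, (comp_aF q h1 h2 θ).2]
    ring
  have g1 : ∀ k, SP fun θ => Bm w h k 0 θ * dr 0 (HS.fn q.1.1) θ +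
      Bm w h k 1 θ * dr 1 (HS.fn q.1.1) θ := fun k =>
    ((hB k 0).mul (s1 0)).add ((hB k 1).mul (s1 1))
  have g2 : ∀ k, SP fun θ => Bm w h k 1 θ * dr 0 (HS.fn q.2.1) θ -
      Bm w h k 0 θ * dr 1 (HS.fn q.2.1) θ := fun k =>
    ((hB k 1).mul (s2 0)).sub ((hB k 0).mul (s2 1))
  rw [f 1, f 0, dr_add (g1 1) (g2 1), dr_add (g1 0) (g2 0)]
  unfold LL
  rw [Fin.sum_univ_two, Fin.sum_univ_two]
  have t1 : (fun y => ∑ j, S1 w h y 0 j * dr j (HS.fn q.1.1) y) = fun y =>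
      Bm w h 1 0 y * dr 0 (HS.fn q.1.1) y + Bm w h 1 1 y * dr 1 (HS.fn q.1.1) y := by
    funext y; rw [Fin.sum_univ_two]; rfl
  have t2 : (fun y => ∑ j, S1 w h y 1 j * dr j (HS.fn q.1.1) y) = fun y =>
      -(Bm w h 0 0 y * dr 0 (HS.fn q.1.1) y + Bm w h 0 1 y * dr 1 (HS.fn q.1.1) y) := by
    funext y; rw [Fin.sum_univ_two]
    show -Bm w h 0 0 y * _ + -Bm w h 0 1 y * _ = _
    ring
  have t3 : (fun y => ∑ j, S2 w h y 0 j * dr j (HS.fn q.2.1) y) = fun y =>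
      Bm w h 1 1 y * dr 0 (HS.fn q.2.1) y - Bm w h 1 0 y * dr 1 (HS.fn q.2.1) y := by
    funext y; rw [Fin.sum_univ_two]
    show Bm w h 1 1 y * _ + -Bm w h 1 0 y * _ = _
    ring
  have t4 : (fun y => ∑ j, S2 w h y 1 j * dr j (HS.fn q.2.1) y) = fun y =>
      -(Bm w h 0 1 y * dr 0 (HS.fn q.2.1) y - Bm w h 0 0 y * dr 1 (HS.fn q.2.1) y) := by
    funext y; rw [Fin.sum_univ_two]
    show -Bm w h 0 1 y * _ + Bm w h 0 0 y * _ = _
    ring
  rw [t1, t2, t3, t4, dr_neg, dr_neg]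
  ring

end B

/-! ### the derivative -/

section D

variable {r : ℝ} {w w' : Fo 2}

/-- the value on the curve `s • q` -/
theorem Gop_smul (ha : 0 < a) (ha1 : a ≤ 1) (hw' : BS w')
    (he : ∀ p : W 2, ‖p.2‖ ≤ r / 2 → w' p = w p) (h : V 2) {q : PQ a} (h1 : IsJet q.1)
    (h2 : IsJet q.2) {s : ℝ} (hs : |s| * ‖aF (0, q)‖ ≤ r / 2) :
    HS.fn (Gop ha ha1 hw' (((0 : V 2), h), s • q)) =
      pb (shf h w) (fun θ => s • HS.fn (aF (0, q)) θ) 0 1 := by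
  have e0 : aF ((0 : V 2), s • q) = s • aF (a := a) (0, q) := by
    rw [← map_smul]
    congr 1
    ext1 <;> simp
  have hA := sp_aF h1 h2 (0 : V 2)
  have e1 : ∀ j, dr j (fun θ => s • HS.fn (aF (0, q)) θ) = HS.fn (dF j (s • q)) := by
    intro j
    funext θ
    rw [dr_smul hA, dr_aF h1 h2, map_smul]
    rfl
  funext θ
  rw [fn_Gop, e0, fn_smul]
  unfold pb
  rw [e1, e1]
  have hle : ‖s • HS.fn (aF (0, q)) θ‖ ≤ r / 2 := by
    rw [norm_smul, Real.norm_eq_abs]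
    exact (mul_le_mul_of_nonneg_left (norm_fn_le _ θ) (abs_nonneg s)).trans hs
  rw [he (θ + h, s • HS.fn (aF (0, q)) θ) hle]
  rfl

/-- the derivative on smooth jets -/
theorem hasDerivAt_Nop (ha : 0 < a) (ha1 : a ≤ 1) (hr : 0 < r) (hw : ClF r w) (hw' : BS w')
    (he : ∀ p : W 2, ‖p.2‖ ≤ r / 2 → w' p = w p)
    (hor : ∀ θ u v : V 2, w (θ, 0) (u, 0) (v, 0) = 0) (h : V 2) {q : PQ a} (h1 : IsJet q.1)
    (h2 : IsJet q.2) (θ : V 2) :
    HasDerivAt (fun s : ℝ => HS.fn (Nop ha ha1 hw' (((0 : V 2), h), s • q)) θ)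
      (LL (S1 w h) (HS.fn q.1.1) θ + LL (S2 w h) (HS.fn q.2.1) θ) 0 := by
  have hsw := shf_clf hw h
  have hA := sp_aF h1 h2 (0 : V 2)
  have hd := hasDerivAt_pbt hsw hA 0 1 0 θ (by rw [zero_smul, norm_zero]; exact hr)
  rw [pbd_eq hsw hA 0 1 0 θ (fun θ => by rw [zero_smul, norm_zero]; exact hr),
    curl_eq hr hw h h1 h2] at hd
  refine hd.congr_of_eventuallyEq ?_
  have hev : ∀ᶠ s : ℝ in 𝓝 0, |s| * ‖aF (0, q)‖ < r / 2 := by
    have hc : Continuous fun s : ℝ => |s| * ‖aF (a := a) (0, q)‖ :=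
      continuous_abs.mul continuous_const
    have := hc.tendsto 0
    rw [abs_zero, zero_mul] at this
    exact this.eventually_lt_const (by linarith)
  filter_upwards [hev] with s hs
  rw [fn_Nop, Gop_smul ha ha1 hw' he h h1 h2 hs.le]
  have hsr : ∀ θ, ‖s • HS.fn (aF (0, q)) θ‖ < r := fun θ => by
    rw [norm_smul, Real.norm_eq_abs]
    have := (mul_le_mul_of_nonneg_left (norm_fn_le (aF (0, q)) θ) (abs_nonneg s)).trans_lt hs
    linarith
  rw [mn_pb hsw (hA.smul s) hsr]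
  have hz : pb (shf h w) (fun _ => (0 : V 2)) 0 1 = fun _ => (0 : ℝ) := by
    funext θ
    unfold pb
    have hd0 : ∀ j, dr j (fun _ : V 2 => (0 : V 2)) θ = 0 := fun j => by
      show fderiv ℝ (fun _ : V 2 => (0 : V 2)) θ (ee j) = 0
      rw [fderiv_const_apply]; rfl
    rw [hd0, hd0]
    exact hor (θ + h) (ee 0) (ee 1)
  rw [hz, mn_const, sub_zero]

/-- the ambient derivative, on jets -/
theorem fderiv_Nop_jet (ha : 0 < a) (ha1 : a ≤ 1) (hr : 0 < r) (hw : ClF r w) (hw' : BS w')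
    (he : ∀ p : W 2, ‖p.2‖ ≤ r / 2 → w' p = w p)
    (hor : ∀ θ u v : V 2, w (θ, 0) (u, 0) (v, 0) = 0) (h : V 2) {q : PQ a} (h1 : IsJet q.1)
    (h2 : IsJet q.2) :
    fderiv ℝ (fun q : PQ a => Nop ha ha1 hw' (((0 : V 2), h), q)) 0 q =
      Lop ha ha1 (sm_S1 hr hw h) q.1 + Lop ha ha1 (sm_S2 hr hw h) q.2 := by
  refine HS.ext fun θ => ?_
  have hsm : ContDiff ℝ ∞ fun q : PQ a => Nop ha ha1 hw' (((0 : V 2), h), q) :=
    (contDiff_Nop ha ha1 hw').comp (contDiff_const.prodMk contDiff_id)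
  have hd : HasFDerivAt (fun q : PQ a => Nop ha ha1 hw' (((0 : V 2), h), q))
      (fderiv ℝ (fun q : PQ a => Nop ha ha1 hw' (((0 : V 2), h), q)) 0) ((0 : ℝ) • q) := by
    rw [zero_smul]
    exact (hsm.differentiable (by simp) 0).hasFDerivAt
  have hl : HasDerivAt (fun s : ℝ => s • q) q 0 := by
    simpa using (hasDerivAt_id (0 : ℝ)).smul_const q
  have h3 := (ev (a := a) θ).hasFDerivAt.comp_hasDerivAt 0 (hd.comp_hasDerivAt 0 hl)
  have h4 := h3.unique (hasDerivAt_Nop ha ha1 hr hw hw' he hor h h1 h2 θ)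
  rw [fn_add, Lop_jet ha ha1 (sm_S1 hr hw h) h1, Lop_jet ha ha1 (sm_S2 hr hw h) h2]
  exact h4

/-- the ambient derivative -/
theorem fderiv_Nop (ha : 0 < a) (ha1 : a ≤ 1) (hr : 0 < r) (hw : ClF r w) (hw' : BS w')
    (he : ∀ p : W 2, ‖p.2‖ ≤ r / 2 → w' p = w p)
    (hor : ∀ θ u v : V 2, w (θ, 0) (u, 0) (v, 0) = 0) (h : V 2) {q : PQ a} (h1 : q.1 ∈ XX a 2)
    (h2 : q.2 ∈ XX a 2) :
    fderiv ℝ (fun q : PQ a => Nop ha ha1 hw' (((0 : V 2), h), q)) 0 q =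
      Lop ha ha1 (sm_S1 hr hw h) q.1 + Lop ha ha1 (sm_S2 hr hw h) q.2 := by
  refine dense_ind (isClosed_eq (ContinuousLinearMap.continuous _)
    (((Lop ha ha1 (sm_S1 hr hw h)).continuous.comp continuous_fst).add
      ((Lop ha ha1 (sm_S2 hr hw h)).continuous.comp continuous_snd)))
    (fun q h1 h2 => fderiv_Nop_jet ha ha1 hr hw hw' he hor h h1 h2) h1 h2

/-- a derivative in a submodule, from the ambient derivative -/
theorem lift_deriv {E F G : Type*} [NormedAddCommGroup E] [NormedSpace ℝ E]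
    [NormedAddCommGroup F] [NormedSpace ℝ F] [NormedAddCommGroup G] [NormedSpace ℝ G]
    (I : E →L[ℝ] F) (p : Submodule ℝ G) {f : F → G} {D : F →L[ℝ] G} {g : E → p} {L : E →L[ℝ] p}
    {x : E} (hf : HasFDerivAt f D (I x)) (hg : ∀ x, (g x : G) = f (I x))
    (hL : ∀ x, (L x : G) = D (I x)) : HasFDerivAt g L x := by
  have h3 : HasFDerivAt (fun x => f (I x)) (D.comp I) x := hf.comp x I.hasFDerivAt
  rw [hasFDerivAt_iff_isLittleO] at h3 ⊢
  refine Asymptotics.IsLittleO.of_norm_left ?_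
  refine h3.norm_left.congr_left fun q => ?_
  rw [ContinuousLinearMap.comp_apply, ← hg, ← hg, ← hL]
  rfl

/-- inclusion of the unknowns -/
def II : QQ a →L[ℝ] PQ a := (XX a 2).subtypeL.prodMap (XX a 2).subtypeL

theorem II_fst (q : QQ a) : (II q).1 = (q.1 : P2J a 2) := rfl

theorem II_snd (q : QQ a) : (II q).2 = (q.2 : P2J a 2) := rfl

/-- the linearised operator -/
def LN (ha : 0 < a) (ha1 : a ≤ 1) (hr : 0 < r) (hw : ClF r w) (h : V 2) : QQ a →L[ℝ] YY a 2 :=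
  (LX ha ha1 (sm_S1 hr hw h)).comp (ContinuousLinearMap.fst ℝ _ _) +
        (LX ha ha1 (sm_S2 hr hw h)).comp (ContinuousLinearMap.snd ℝ _ _)

theorem LN_apply (ha : 0 < a) (ha1 : a ≤ 1) (hr : 0 < r) (hw : ClF r w) (h : V 2) (q : QQ a) :
    LN ha ha1 hr hw h q = LX ha ha1 (sm_S1 hr hw h) q.1 + LX ha ha1 (sm_S2 hr hw h) q.2 := rfl

theorem LN_coe (ha : 0 < a) (ha1 : a ≤ 1) (hr : 0 < r) (hw : ClF r w) (h : V 2) (q : QQ a) :
    (LN ha ha1 hr hw h q : HS a 2 ℝ) =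
      Lop ha ha1 (sm_S1 hr hw h) (II q).1 + Lop ha ha1 (sm_S2 hr hw h) (II q).2 := by
  refine (congrArg Subtype.val (LN_apply ha ha1 hr hw h q)).trans ((Submodule.coe_add _ _).trans ?_)
  exact congrArg₂ (· + ·) (LX_coe ha ha1 (sm_S1 hr hw h) q.1) (LX_coe ha ha1 (sm_S2 hr hw h) q.2)

/-- **the linearisation** -/
theorem hasFDerivAt_NN (ha : 0 < a) (ha1 : a ≤ 1) (hr : 0 < r) (hw : ClF r w) (hw' : BS w')
    (hp : PerF w') (he : ∀ p : W 2, ‖p.2‖ ≤ r / 2 → w' p = w p)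
    (hor : ∀ θ u v : V 2, w (θ, 0) (u, 0) (v, 0) = 0) (h : V 2) :
    HasFDerivAt (fun q : QQ a => NN ha ha1 hw' hp (((0 : V 2), h), q)) (LN ha ha1 hr hw h) 0 := by
  have hsm : ContDiff ℝ ∞ fun q : PQ a => Nop ha ha1 hw' (((0 : V 2), h), q) :=
    (contDiff_Nop ha ha1 hw').comp (contDiff_const.prodMk contDiff_id)
  have hd : HasFDerivAt (fun q : PQ a => Nop ha ha1 hw' (((0 : V 2), h), q))
      (fderiv ℝ (fun q : PQ a => Nop ha ha1 hw' (((0 : V 2), h), q)) 0) (II 0) := by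
    rw [map_zero]
    exact (hsm.differentiable (by simp) 0).hasFDerivAt
  refine lift_deriv II (YY a 2) hd (fun q => rfl) fun q => ?_
  rw [LN_coe]
  have m1 : (II q).1 ∈ XX a 2 := by rw [II_fst]; exact q.1.2
  have m2 : (II q).2 ∈ XX a 2 := by rw [II_snd]; exact q.2.2
  exact (fderiv_Nop ha ha1 hr hw hw' he hor h m1 m2).symm

/-- the trivial solution -/
theorem NN_zero (ha : 0 < a) (ha1 : a ≤ 1) (hr : 0 < r) (hw' : BS w')
    (hp : PerF w') (he : ∀ p : W 2, ‖p.2‖ ≤ r / 2 → w' p = w p)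
    (hor : ∀ θ u v : V 2, w (θ, 0) (u, 0) (v, 0) = 0) (h : V 2) :
    NN ha ha1 hw' hp (((0 : V 2), h), (0 : QQ a)) = 0 := by
  refine Subtype.ext (HS.ext fun θ => ?_)
  have key : HS.fn (Gop (a := a) ha ha1 hw' (((0 : V 2), h), 0)) = fun _ => (0 : ℝ) := by
    funext θ
    rw [fn_Gop]
    have e0 : HS.fn (aF (a := a) ((0 : V 2), (0 : PQ a))) θ = 0 := by
      have : ((0 : V 2), (0 : PQ a)) = 0 := rfl
      rw [this, map_zero]; rfl
    have e1 : ∀ j, HS.fn (dF (a := a) j (0 : PQ a)) θ = 0 := fun j => by rw [map_zero]; rfl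
    rw [e0, e1, e1, he _ (by simpa using by linarith)]
    exact hor _ _ _
  show HS.fn (Nop ha ha1 hw' (((0 : V 2), h), 0)) θ = 0
  rw [fn_Nop, key, mn_const, sub_zero]

end D

end

end Crest.Agent.R235.TorNM_384
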