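import Crest.Agent.R235.TorCut_384
import Crest.Agent.R235.TorIft_384
import Crest.Agent.R235.TorFamDefs_384

/-!
# Row 235 (S0364), TOR / FIB-B1b (helper384): the nonlinear map

Unknown `q = (φ, ψ)` (2-jets of functions on `T²`), parameters `(c, h)`:
`A = c + grad φ + rot ψ`, `𝒩 (c, h, q) = w (θ + h, A) ((e₀, ∂₀A), (e₁, ∂₁A)) - mean`.
-/

set_option autoImplicit false
set_option maxSynthPendingDepth 3

open MeasureTheory Set Metric Filter Topology
open scoped ContDiff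

namespace Crest.Agent.R235.TorNM_384

open Crest.Agent.R238.Sch (ee D2 LB norm_ee)
open Crest.Agent.R273.SchA_152 (HO)
open Crest.Agent.R275.Tor812 (box volume_box)
open Crest.Agent.R281.Mc673
open Crest.Agent.R235.TorOm_384 (BS Lp)
open Crest.Agent.R235.TorSch_384 Crest.Agent.R235.TorSp_384 Crest.Agent.R235.TorHS_384
open Crest.Agent.R235.TorHS_384.HS Crest.Agent.R235.TorCut_384

noncomputable section

variable {a : ℝ}

/-! ### the mean as a functional -/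

section mean

variable {N : ℕ}

theorem integrable_fn (u : HS a N ℝ) :
    Integrable (fun x => HS.fn u (WithLp.toLp 2 x)) (volume.restrict (box (0 : Fin N → ℝ))) := by
  have : IsFiniteMeasure (volume.restrict (box (0 : Fin N → ℝ))) :=
    ⟨by rw [Measure.restrict_apply_univ, volume_box]; exact ENNReal.one_lt_top⟩
  refine Integrable.of_bound
    (((fn_continuous u).comp (PiLp.continuous_toLp 2 _)).aestronglyMeasurable) ‖u‖
    (Eventually.of_forall fun x => norm_fn_le u _)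

/-- the mean -/
def mnL : HS a N ℝ →L[ℝ] ℝ := LinearMap.mkContinuous
  { toFun := fun u => mn (HS.fn u)
    map_add' := fun u v => integral_add (integrable_fn u) (integrable_fn v)
    map_smul' := fun c u => integral_const_mul _ _ } 1 (fun u => by
      rw [one_mul]
      have : IsFiniteMeasure (volume.restrict (box (0 : Fin N → ℝ))) :=
        ⟨by rw [Measure.restrict_apply_univ, volume_box]; exact ENNReal.one_lt_top⟩
      have h := norm_integral_le_of_norm_le_const (μ := volume.restrict (box (0 : Fin N → ℝ)))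
        (f := fun x => HS.fn u (WithLp.toLp 2 x)) (C := ‖u‖)
        (Eventually.of_forall fun x => norm_fn_le u _)
      have h2 : (volume.restrict (box (0 : Fin N → ℝ))).real univ = 1 := by
        rw [measureReal_def, Measure.restrict_apply_univ, volume_box]; rfl
      rw [h2, mul_one] at h
      exact h)

@[simp] theorem mnL_apply (u : HS a N ℝ) : mnL u = mn (HS.fn u) := rfl

end mean

/-! ### gradient and rotated gradient -/

/-- the gradient -/
def gr : (V 2 →L[ℝ] ℝ) →L[ℝ] V 2 :=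
  (ev1 0).smulRight (ee 0) + (ev1 1).smulRight (ee 1)

/-- the rotated gradient -/
def rt : (V 2 →L[ℝ] ℝ) →L[ℝ] V 2 :=
  (ev1 0).smulRight (ee 1) - (ev1 1).smulRight (ee 0)

theorem gr_apply (L : V 2 →L[ℝ] ℝ) : gr L = L (ee 0) • ee 0 + L (ee 1) • ee 1 := rfl

theorem rt_apply (L : V 2 →L[ℝ] ℝ) : rt L = L (ee 0) • ee 1 - L (ee 1) • ee 0 := rfl

/-- derivative of the gradient -/
def gr2 (j : Fin 2) : (V 2 →L[ℝ] V 2 →L[ℝ] ℝ) →L[ℝ] V 2 :=
  gr.comp (ContinuousLinearMap.apply ℝ (V 2 →L[ℝ] ℝ) (ee j))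

/-- derivative of the rotated gradient -/
def rt2 (j : Fin 2) : (V 2 →L[ℝ] V 2 →L[ℝ] ℝ) →L[ℝ] V 2 :=
  rt.comp (ContinuousLinearMap.apply ℝ (V 2 →L[ℝ] ℝ) (ee j))

theorem gr2_apply (j : Fin 2) (L : V 2 →L[ℝ] V 2 →L[ℝ] ℝ) : gr2 j L = gr (L (ee j)) := rfl

theorem rt2_apply (j : Fin 2) (L : V 2 →L[ℝ] V 2 →L[ℝ] ℝ) : rt2 j L = rt (L (ee j)) := rfl

variable (a) in
/-- pairs of jets -/
abbrev PQ : Type := P2J a 2 × P2J a 2

/-- the map -/
def aF : V 2 × PQ a →L[ℝ] HS a 2 (V 2) :=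
  cst.comp (ContinuousLinearMap.fst ℝ (V 2) (PQ a)) +
  ((cl gr).comp ((ContinuousLinearMap.fst ℝ _ _).comp ((ContinuousLinearMap.snd ℝ _ _).comp
      (ContinuousLinearMap.fst ℝ (P2J a 2) (P2J a 2)))) +
    (cl rt).comp ((ContinuousLinearMap.fst ℝ _ _).comp ((ContinuousLinearMap.snd ℝ _ _).comp
      (ContinuousLinearMap.snd ℝ (P2J a 2) (P2J a 2))))).comp
    (ContinuousLinearMap.snd ℝ (V 2) (PQ a))

/-- its partial derivatives -/
def dF (j : Fin 2) : PQ a →L[ℝ] HS a 2 (V 2) :=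
  (cl (gr2 j)).comp ((ContinuousLinearMap.snd ℝ _ _).comp ((ContinuousLinearMap.snd ℝ _ _).comp
      (ContinuousLinearMap.fst ℝ (P2J a 2) (P2J a 2)))) +
    (cl (rt2 j)).comp ((ContinuousLinearMap.snd ℝ _ _).comp ((ContinuousLinearMap.snd ℝ _ _).comp
      (ContinuousLinearMap.snd ℝ (P2J a 2) (P2J a 2))))

@[simp] theorem fn_aF (c : V 2) (q : PQ a) (x : V 2) :
    HS.fn (aF (c, q)) x = c + (gr (HS.fn q.1.2.1 x) + rt (HS.fn q.2.2.1 x)) := rfl

@[simp] theorem fn_dF (j : Fin 2) (q : PQ a) (x : V 2) :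
    HS.fn (dF j q) x = gr (HS.fn q.1.2.2 x (ee j)) + rt (HS.fn q.2.2.2 x (ee j)) := rfl

/-- base map -/
def z0 (x : V 2) : W 2 := (x, 0)

theorem lp_z0 : Lp 1 z0 := by
  refine ⟨zero_le_one, fun x y => ?_⟩
  rw [one_mul, dist_eq_norm]
  have : z0 x - z0 y = ((x - y, 0) : W 2) := by
    show ((x, 0) - (y, 0) : W 2) = _
    rw [Prod.mk_sub_mk, sub_zero]
  rw [this, Prod.norm_mk, norm_zero]
  exact max_le le_rfl (norm_nonneg _)

section G

variable {w : Fo 2}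

/-- argument of the Nemytskii operator -/
def arg : (V 2 × V 2) × PQ a →L[ℝ] HS a 2 (W 2) :=
  (pair (a := a) (N := 2) (E := V 2) (F := V 2)).comp
    ((cst.comp ((ContinuousLinearMap.snd ℝ _ _).comp
        (ContinuousLinearMap.fst ℝ (V 2 × V 2) (PQ a)))).prod
      (aF.comp (((ContinuousLinearMap.fst ℝ _ _).comp
        (ContinuousLinearMap.fst ℝ (V 2 × V 2) (PQ a))).prod
          (ContinuousLinearMap.snd ℝ (V 2 × V 2) (PQ a)))))

theorem fn_arg (c h : V 2) (q : PQ a) (x : V 2) :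
    HS.fn (arg ((c, h), q)) x = (h, HS.fn (aF (c, q)) x) := rfl

/-- the `j`-th tangent vector -/
def tv (j : Fin 2) (q : PQ a) : HS a 2 (W 2) :=
  cst ((ee j, 0) : W 2) + cl (ContinuousLinearMap.inr ℝ (V 2) (V 2)) (dF j q)

theorem fn_tv (j : Fin 2) (q : PQ a) (x : V 2) : HS.fn (tv j q) x = (ee j, HS.fn (dF j q) x) := by
  show ((ee j, 0) : W 2) + ((0 : V 2), HS.fn (dF j q) x) = _
  rw [Prod.mk_add_mk, add_zero, zero_add]

theorem contDiff_tv (j : Fin 2) : ContDiff ℝ ∞ (tv (a := a) j) :=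
  contDiff_const.add ((cl _).contDiff.comp (dF j).contDiff)

/-- the pulled back form -/
def Gop (ha : 0 < a) (ha1 : a ≤ 1) (hw : BS w) (p : (V 2 × V 2) × PQ a) : HS a 2 ℝ :=
  bl (ContinuousLinearMap.id ℝ (W 2 →L[ℝ] ℝ))
    (bl (ContinuousLinearMap.id ℝ (W 2 →L[ℝ] W 2 →L[ℝ] ℝ)) (om ha ha1 lp_z0 w hw (arg p))
      (tv 0 p.2)) (tv 1 p.2)

theorem fn_Gop (ha : 0 < a) (ha1 : a ≤ 1) (hw : BS w) (c h : V 2) (q : PQ a) (x : V 2) :
    HS.fn (Gop ha ha1 hw ((c, h), q)) x =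
      w (x + h, HS.fn (aF (c, q)) x) (ee 0, HS.fn (dF 0 q) x) (ee 1, HS.fn (dF 1 q) x) := by
  unfold Gop
  rw [fn_bl, fn_bl, fn_om, fn_arg, fn_tv, fn_tv]
  show w (z0 x + (h, HS.fn (aF (c, q)) x)) _ _ = _
  have : z0 x + (h, HS.fn (aF (c, q)) x) = ((x + h, HS.fn (aF (c, q)) x) : W 2) := by
    show ((x, 0) : W 2) + (h, HS.fn (aF (c, q)) x) = _
    rw [Prod.mk_add_mk, zero_add]
  rw [this]

theorem contDiff_Gop (ha : 0 < a) (ha1 : a ≤ 1) (hw : BS w) :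
    ContDiff ℝ ∞ (Gop (a := a) ha ha1 hw) := by
  have h1 : ContDiff ℝ ∞ fun p : (V 2 × V 2) × PQ a => om ha ha1 lp_z0 w hw (arg p) :=
    (contDiff_om ha ha1 lp_z0 w hw).comp arg.contDiff
  have h2 : ∀ j, ContDiff ℝ ∞ fun p : (V 2 × V 2) × PQ a => tv j p.2 := fun j =>
    (contDiff_tv j).comp contDiff_snd
  have h3 : ContDiff ℝ ∞ fun p : (V 2 × V 2) × PQ a =>
      bl (ContinuousLinearMap.id ℝ (W 2 →L[ℝ] W 2 →L[ℝ] ℝ)) (om ha ha1 lp_z0 w hw (arg p))
      (tv 0 p.2) :=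
    ((bl (a := a) (N := 2) (ContinuousLinearMap.id ℝ (W 2 →L[ℝ] W 2 →L[ℝ] ℝ))).contDiff.comp
      h1).clm_apply (h2 0)
  exact ((bl (a := a) (N := 2) (ContinuousLinearMap.id ℝ (W 2 →L[ℝ] ℝ))).contDiff.comp
      h3).clm_apply (h2 1)

/-- minus its mean -/
def Nop (ha : 0 < a) (ha1 : a ≤ 1) (hw : BS w) (p : (V 2 × V 2) × PQ a) : HS a 2 ℝ :=
  Gop ha ha1 hw p - cst (mnL (Gop ha ha1 hw p))

theorem contDiff_Nop (ha : 0 < a) (ha1 : a ≤ 1) (hw : BS w) :
    ContDiff ℝ ∞ (Nop (a := a) ha ha1 hw) :=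
  (contDiff_Gop ha ha1 hw).sub (cst.contDiff.comp (mnL.contDiff.comp (contDiff_Gop ha ha1 hw)))

theorem fn_Nop (ha : 0 < a) (ha1 : a ≤ 1) (hw : BS w) (p : (V 2 × V 2) × PQ a) (x : V 2) :
    HS.fn (Nop ha ha1 hw p) x = HS.fn (Gop ha ha1 hw p) x - mn (HS.fn (Gop ha ha1 hw p)) := rfl

end G

end

end Crest.Agent.R235.TorNM_384
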