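import Crest.Agent.R235.TorNM_384

/-!
# Row 235 (S0364), TOR / FIB-B1b (helper384): the nonlinear map into the closed subspaces
-/

set_option autoImplicit false
set_option maxSynthPendingDepth 3

open MeasureTheory Set Metric Filter Topology
open scoped ContDiff

namespace Crest.Agent.R235.TorNM_384

open Crest.Agent.R238.Sch (ee D2 LB norm_ee)
open Crest.Agent.R273.SchA_152 (HO)
open Crest.Agent.R281.Mc673
open Crest.Agent.R235.TorOm_384 (BS Lp)
open Crest.Agent.R235.TorSch_384 Crest.Agent.R235.TorSp_384 Crest.Agent.R235.TorHS_384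
open Crest.Agent.R235.TorHS_384.HS Crest.Agent.R235.TorCut_384

noncomputable section

variable {a : ℝ}

/-- density of the smooth jets -/
theorem dense_ind {P : PQ a → Prop} (hc : IsClosed {q | P q})
    (h : ∀ q : PQ a, IsJet q.1 → IsJet q.2 → P q) {q : PQ a} (h1 : q.1 ∈ XX a 2)
    (h2 : q.2 ∈ XX a 2) : P q := by
  have h3 : q ∈ closure ((JS a 2 : Set (P2J a 2)) ×ˢ (JS a 2 : Set (P2J a 2))) := by
    rw [closure_prod_eq]
    exact ⟨h1, h2⟩
  exact closure_minimal (fun p hp => h p hp.1 hp.2) hc h3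

/-- elements of `XX`: the second component is the derivative of the first -/
theorem XX_deriv {N : ℕ} {q : P2J a N} (hq : q ∈ XX a N) (x : V N) :
    HasFDerivAt (HS.fn q.2.1) (HS.fn q.2.2 x) x := by
  obtain ⟨u, hu, hlim⟩ := mem_closure_iff_seq_limit.1
    (show q ∈ closure (JS a N : Set (P2J a N)) from hq)
  have h1 : Tendsto (fun n => (u n).2.1) atTop (𝓝 q.2.1) :=
    ((continuous_fst.comp continuous_snd).tendsto q).comp hlim
  have h2 : Tendsto (fun n => (u n).2.2) atTop (𝓝 q.2.2) :=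
    ((continuous_snd.comp continuous_snd).tendsto q).comp hlim
  have huj : ∀ n, IsJet (u n) := fun n => hu n
  refine hasFDerivAt_of_tendstoUniformly (l := atTop) (f := fun n => HS.fn (u n).2.1)
    (f' := fun n => HS.fn (u n).2.2) ?_ (fun n x => (huj n).h2 x) ?_ x
  · rw [Metric.tendstoUniformly_iff]
    intro ε hε
    filter_upwards [(Metric.tendsto_nhds.1 h2) ε hε] with n hn y
    rw [dist_eq_norm] at hn ⊢
    rw [norm_sub_rev] at hn
    exact (norm_fn_le (q.2.2 - (u n).2.2) y).trans_lt hn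
  · intro y
    exact ((ev (a := a) y).continuous.tendsto _).comp h1

/-- periodicity of the elements of `XX` -/
theorem XX_per {N : ℕ} {q : P2J a N} (hq : q ∈ XX a N) (k : Fin N → ℤ) (x : V N) :
    HS.fn q.2.1 (x + kv k) = HS.fn q.2.1 x ∧ HS.fn q.2.2 (x + kv k) = HS.fn q.2.2 x := by
  have c1 : Continuous fun q : P2J a N => q.2.1 := continuous_fst.comp continuous_snd
  have c2 : Continuous fun q : P2J a N => q.2.2 := continuous_snd.comp continuous_snd
  have hc : IsClosed {q : P2J a N | HS.fn q.2.1 (x + kv k) = HS.fn q.2.1 x ∧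
      HS.fn q.2.2 (x + kv k) = HS.fn q.2.2 x} :=
    (isClosed_eq ((ev _).continuous.comp c1) ((ev _).continuous.comp c1)).inter
      (isClosed_eq ((ev _).continuous.comp c2) ((ev _).continuous.comp c2))
  refine closure_minimal (fun p hp => ?_) hc hq
  have hp' : IsJet p := hp
  have e1 := hp'.sp.fderiv
  have e2 := hp'.sp.fderiv.fderiv
  refine ⟨?_, ?_⟩
  · rw [hp'.d1]; exact e1.per k x
  · rw [hp'.d2]; exact e2.per k x

theorem hasFDerivAt_aF {q : PQ a} (h1 : q.1 ∈ XX a 2) (h2 : q.2 ∈ XX a 2) (c x : V 2) :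
    HasFDerivAt (HS.fn (aF (c, q))) (gr.comp (HS.fn q.1.2.2 x) + rt.comp (HS.fn q.2.2.2 x)) x :=
  ((gr.hasFDerivAt.comp x (XX_deriv h1 x)).add (rt.hasFDerivAt.comp x (XX_deriv h2 x))).const_add c

theorem fderiv_aF {q : PQ a} (h1 : q.1 ∈ XX a 2) (h2 : q.2 ∈ XX a 2) (c x : V 2) (j : Fin 2) :
    fderiv ℝ (HS.fn (aF (c, q))) x (ee j) = HS.fn (dF j q) x := by
  rw [(hasFDerivAt_aF h1 h2 c x).fderiv]
  rfl

theorem per_aF {q : PQ a} (h1 : q.1 ∈ XX a 2) (h2 : q.2 ∈ XX a 2) (c : V 2) (k : Fin 2 → ℤ)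
    (x : V 2) : HS.fn (aF (c, q)) (x + kv k) = HS.fn (aF (c, q)) x := by
  rw [fn_aF, fn_aF, (XX_per h1 k x).1, (XX_per h2 k x).1]

theorem sp_comp {N : ℕ} {F G : Type*} [NormedAddCommGroup F] [NormedSpace ℝ F]
    [NormedAddCommGroup G] [NormedSpace ℝ G] (T : F →L[ℝ] G) {u : V N → F} (hu : SP u) :
    SP fun x => T (u x) :=
  ⟨T.contDiff.comp hu.sm, fun k x => by simp only [hu.per k x]⟩

theorem sp_aF {q : PQ a} (h1 : IsJet q.1) (h2 : IsJet q.2) (c : V 2) : SP (HS.fn (aF (c, q))) := by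
  have e1 : SP fun x => gr (HS.fn q.1.2.1 x) := by
    rw [h1.d1]; exact sp_comp gr h1.sp.fderiv
  have e2 : SP fun x => rt (HS.fn q.2.2.1 x) := by
    rw [h2.d1]; exact sp_comp rt h2.sp.fderiv
  exact (SP.const c).add (e1.add e2)

theorem dr_aF {q : PQ a} (h1 : IsJet q.1) (h2 : IsJet q.2) (c : V 2) (j : Fin 2) :
    dr j (HS.fn (aF (c, q))) = HS.fn (dF j q) :=
  funext fun x => fderiv_aF (JS_le (show q.1 ∈ JS a 2 from h1)) (JS_le (show q.2 ∈ JS a 2 from h2))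
    c x j

/-- the mean of the map is `c` -/
theorem mn_aF {q : PQ a} (h1 : q.1 ∈ XX a 2) (h2 : q.2 ∈ XX a 2) (c : V 2) (k : Fin 2) :
    mn (fun x => HS.fn (aF (c, q)) x k) = c k := by
  let T : V 2 →L[ℝ] ℝ := EuclideanSpace.proj k
  have e0 : ∀ q : PQ a, mn (fun x => HS.fn (aF (c, q)) x k) = mnL (cl T (aF (c, q))) := fun q => rfl
  rw [e0]
  have hcont : Continuous fun q : PQ a => mnL (cl T (aF (c, q))) :=
    mnL.continuous.comp ((cl T).continuous.comp (aF.continuous.comp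
      (continuous_const.prodMk continuous_id)))
  refine dense_ind (P := fun q => mnL (cl T (aF (c, q))) = c k)
    (isClosed_eq hcont continuous_const) (fun q h1 h2 => ?_) h1 h2
  rw [← e0]
  have hd1 : ∀ j, SP (dr j (HS.fn q.1.1)) := fun j => h1.sp.dr j
  have hd2 : ∀ j, SP (dr j (HS.fn q.2.1)) := fun j => h2.sp.dr j
  have key : ∀ x, HS.fn (aF (c, q)) x k = c k +
      ((dr 0 (HS.fn q.1.1) x * (ee 0 : V 2) k + dr 1 (HS.fn q.1.1) x * (ee 1 : V 2) k) +
       (dr 0 (HS.fn q.2.1) x * (ee 1 : V 2) k - dr 1 (HS.fn q.2.1) x * (ee 0 : V 2) k)) := by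
    intro x
    rw [fn_aF, gr_apply, rt_apply, h1.d1, h2.d1]
    rfl
  have e1 : (fun x => HS.fn (aF (c, q)) x k) = fun x => c k +
      ((dr 0 (HS.fn q.1.1) x * (ee 0 : V 2) k + dr 1 (HS.fn q.1.1) x * (ee 1 : V 2) k) +
       (dr 0 (HS.fn q.2.1) x * (ee 1 : V 2) k - dr 1 (HS.fn q.2.1) x * (ee 0 : V 2) k)) :=
    funext key
  have m : ∀ {f : V 2 → ℝ} (s : ℝ), mn (fun x => f x * s) = mn f * s := fun s =>
    integral_mul_const _ _
  have sm : ∀ {f : V 2 → ℝ} (s : ℝ), SP f → SP (fun x => f x * s) := fun s hf =>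
    hf.mul (SP.const s)
  rw [e1, mn_add (SP.const _) (((sm _ (hd1 0)).add (sm _ (hd1 1))).add
    ((sm _ (hd2 0)).sub (sm _ (hd2 1)))), mn_const,
    mn_add ((sm _ (hd1 0)).add (sm _ (hd1 1))) ((sm _ (hd2 0)).sub (sm _ (hd2 1))),
    mn_add (sm _ (hd1 0)) (sm _ (hd1 1)), mn_sub (sm _ (hd2 0)) (sm _ (hd2 1)),
    m, m, m, m, mn_dr h1.sp, mn_dr h1.sp, mn_dr h2.sp, mn_dr h2.sp]
  ring

/-! ### membership -/

section G

variable {w : Fo 2}

/-- periodic -/
def PerF (w : Fo 2) : Prop := ∀ (k : Fin 2 → ℤ) (p : W 2), w (p.1 + kv k, p.2) = w p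

theorem sp_Gop (ha : 0 < a) (ha1 : a ≤ 1) (hw : BS w) (hp : PerF w) (c h : V 2) {q : PQ a}
    (h1 : IsJet q.1) (h2 : IsJet q.2) : SP (HS.fn (Gop ha ha1 hw ((c, h), q))) := by
  have hA := sp_aF h1 h2 c
  have hD : ∀ j, SP (HS.fn (dF j q)) := fun j => by
    rw [← dr_aF h1 h2 c j]; exact hA.dr j
  have e : HS.fn (Gop ha ha1 hw ((c, h), q)) = fun x =>
      w (x + h, HS.fn (aF (c, q)) x) (ee 0, HS.fn (dF 0 q) x) (ee 1, HS.fn (dF 1 q) x) :=
    funext fun x => fn_Gop ha ha1 hw c h q x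
  rw [e]
  refine ⟨?_, fun k x => ?_⟩
  · have s1 : ContDiff ℝ ∞ fun x : V 2 => w (x + h, HS.fn (aF (c, q)) x) :=
      hw.sm.comp ((contDiff_id.add contDiff_const).prodMk hA.sm)
    exact (s1.clm_apply (contDiff_const.prodMk (hD 0).sm)).clm_apply
      (contDiff_const.prodMk (hD 1).sm)
  · simp only [hA.per k x, (hD 0).per k x, (hD 1).per k x]
    have := hp k (x + h, HS.fn (aF (c, q)) x)
    simp only at this
    rw [← this]
    congr 4
    abel

theorem Nop_mem (ha : 0 < a) (ha1 : a ≤ 1) (hw : BS w) (hp : PerF w) (t : V 2 × V 2) {q : PQ a}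
    (h1 : q.1 ∈ XX a 2) (h2 : q.2 ∈ XX a 2) : Nop ha ha1 hw (t, q) ∈ YY a 2 := by
  have hc : IsClosed {q : PQ a | Nop ha ha1 hw (t, q) ∈ YY a 2} :=
    (Submodule.isClosed_topologicalClosure (YS a 2)).preimage
      ((contDiff_Nop ha ha1 hw).continuous.comp (continuous_const.prodMk continuous_id))
  refine dense_ind hc (fun q h1 h2 => ?_) h1 h2
  obtain ⟨c, h⟩ := t
  have hs := sp_Gop ha ha1 hw hp c h h1 h2
  have e : HS.fn (Nop ha ha1 hw ((c, h), q)) = fun x => HS.fn (Gop ha ha1 hw ((c, h), q)) x -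
      mn (HS.fn (Gop ha ha1 hw ((c, h), q))) := rfl
  refine YS_le ⟨?_, ?_⟩
  · rw [e]; exact hs.sub (SP.const _)
  · rw [e, mn_sub hs (SP.const _), mn_const, sub_self]

variable (a) in
/-- the space of unknowns -/
abbrev QQ : Type := XX a 2 × XX a 2

/-- inclusion -/
def incl : (V 2 × V 2) × QQ a →L[ℝ] (V 2 × V 2) × PQ a :=
  (ContinuousLinearMap.id ℝ (V 2 × V 2)).prodMap
    ((XX a 2).subtypeL.prodMap (XX a 2).subtypeL)

theorem incl_apply (t : V 2 × V 2) (q : QQ a) : incl (t, q) = (t, ((q.1 : P2J a 2), (q.2 : P2J a 2))) :=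
  rfl

/-- the nonlinear map -/
def NN (ha : 0 < a) (ha1 : a ≤ 1) (hw : BS w) (hp : PerF w) (p : (V 2 × V 2) × QQ a) : YY a 2 :=
  ⟨Nop ha ha1 hw (incl p), Nop_mem ha ha1 hw hp p.1 p.2.1.2 p.2.2.2⟩

theorem NN_coe (ha : 0 < a) (ha1 : a ≤ 1) (hw : BS w) (hp : PerF w) (p : (V 2 × V 2) × QQ a) :
    (NN ha ha1 hw hp p : HS a 2 ℝ) = Nop ha ha1 hw (incl p) := rfl

theorem contDiff_NN (ha : 0 < a) (ha1 : a ≤ 1) (hw : BS w) (hp : PerF w) :
    ContDiff ℝ ∞ (NN (a := a) ha ha1 hw hp) :=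
  contDiff_cod (Submodule.isClosed_topologicalClosure (YS a 2))
    ((contDiff_Nop ha ha1 hw).comp incl.contDiff) fun p => Nop_mem ha ha1 hw hp p.1 p.2.1.2 p.2.2.2

end G

end

end Crest.Agent.R235.TorNM_384
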