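import Crest.Agent.R235.NWHol_952

/-!
# Row 235 (S0364), TOR / FIB-B1 (helper384): Nemytskii operators with a base map

`Om : Hol a X E → Hol a X F`, `Om u = f ∘ (z0 + u)`, `f` smooth with all derivatives bounded, `z0` a
Lipschitz map (not bounded): `Om` is smooth.
-/

set_option autoImplicit false

open Set Filter Metric Topology
open scoped ContDiff

universe u v

namespace Crest.Agent.R235.TorOm_384

open Crest.Agent.R235.NWDefs_334 Crest.Agent.R235.NWHol_952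

noncomputable section

/-- smooth with bounded derivatives of all orders -/
structure BS {E F : Type*} [NormedAddCommGroup E] [NormedSpace ℝ E] [NormedAddCommGroup F]
    [NormedSpace ℝ F] (f : E → F) : Prop where
  sm : ContDiff ℝ ∞ f
  bd : ∀ n : ℕ, ∃ C : ℝ, ∀ x, ‖iteratedFDeriv ℝ n f x‖ ≤ C

section basic

variable {E F : Type*} [NormedAddCommGroup E] [NormedSpace ℝ E] [NormedAddCommGroup F]
  [NormedSpace ℝ F] {f : E → F}

theorem BS.fderiv (hf : BS f) : BS (_root_.fderiv ℝ f) where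
  sm := hf.sm.fderiv_right (by simp)
  bd n := by
    obtain ⟨C, hC⟩ := hf.bd (n + 1)
    exact ⟨C, fun x => by rw [norm_iteratedFDeriv_fderiv]; exact hC x⟩

theorem BS.bd0 (hf : BS f) : ∃ C : ℝ, 0 ≤ C ∧ ∀ x, ‖f x‖ ≤ C := by
  obtain ⟨C, hC⟩ := hf.bd 0
  refine ⟨C, (norm_nonneg _).trans (hC 0), fun x => ?_⟩
  have := hC x
  rwa [norm_iteratedFDeriv_zero] at this

theorem BS.diff (hf : BS f) : Differentiable ℝ f := hf.sm.differentiable (by simp)

theorem BS.bd1 (hf : BS f) : ∃ C : ℝ, 0 ≤ C ∧ ∀ x, ‖_root_.fderiv ℝ f x‖ ≤ C := hf.fderiv.bd0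

theorem BS.lip (hf : BS f) : ∃ C : ℝ, 0 ≤ C ∧ ∀ x y, ‖f x - f y‖ ≤ C * ‖x - y‖ := by
  obtain ⟨C, hC0, hC⟩ := hf.bd1
  exact ⟨C, hC0, fun x y => convex_univ.norm_image_sub_le_of_norm_fderiv_le (𝕜 := ℝ)
    (fun z _ => hf.diff z) (fun z _ => hC z) (mem_univ y) (mem_univ x)⟩

/-- second order remainder -/
def Q (f : E → F) (z h : E) : F := f (z + h) - f z - _root_.fderiv ℝ f z h

theorem hasFDerivAt_Q2 (hf : BS f) (z h : E) :
    HasFDerivAt (fun h => Q f z h) (_root_.fderiv ℝ f (z + h) - _root_.fderiv ℝ f z) h := by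
  have h1 : HasFDerivAt (fun h => f (z + h)) (_root_.fderiv ℝ f (z + h)) h := by
    have h2 := HasFDerivAt.comp (g := f) (f := fun h => z + h) h (hf.diff (z + h)).hasFDerivAt
      ((hasFDerivAt_id h).const_add z)
    exact h2.congr_fderiv (ContinuousLinearMap.comp_id _)
  exact (h1.sub_const _).sub (_root_.fderiv ℝ f z).hasFDerivAt

theorem hasFDerivAt_Q1 (hf : BS f) (z h : E) :
    HasFDerivAt (fun z => Q f z h) (Q (_root_.fderiv ℝ f) z h) z := by
  have h1 : HasFDerivAt (fun z => f (z + h)) (_root_.fderiv ℝ f (z + h)) z := by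
    have h2 := HasFDerivAt.comp (g := f) (f := fun z => z + h) z (hf.diff (z + h)).hasFDerivAt
      ((hasFDerivAt_id z).add_const h)
    exact h2.congr_fderiv (ContinuousLinearMap.comp_id _)
  have h3 := (hf.fderiv.diff z).hasFDerivAt.clm_apply (hasFDerivAt_const h z)
  have h4 := (h1.sub (hf.diff z).hasFDerivAt).sub h3
  refine h4.congr_fderiv ?_
  ext v
  have hs : _root_.fderiv ℝ (_root_.fderiv ℝ f) z v h = _root_.fderiv ℝ (_root_.fderiv ℝ f) z h v :=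
    (hf.sm.contDiffAt (x := z)).isSymmSndFDerivAt (by
      rw [minSmoothness_of_isRCLikeNormedField]; norm_cast) _ _
  simp only [Q, sub_apply, add_apply,
    ContinuousLinearMap.comp_apply, ContinuousLinearMap.flip_apply,
    zero_apply, map_zero, zero_add, hs]

theorem Q_zero (f : E → F) (z : E) : Q f z 0 = 0 := by simp [Q]

theorem Q_bd (hf : BS f) : ∃ C : ℝ, 0 ≤ C ∧ ∀ z h, ‖Q f z h‖ ≤ C * ‖h‖ ^ 2 := by
  obtain ⟨C, hC0, hC⟩ := hf.fderiv.lip
  refine ⟨C, hC0, fun z h => ?_⟩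
  have h1 : ‖Q f z h - Q f z 0‖ ≤ C * ‖h‖ * ‖h - 0‖ := by
    refine (convex_closedBall (0 : E) ‖h‖).norm_image_sub_le_of_norm_hasFDerivWithin_le
      (f := fun h => Q f z h) (f' := fun h => _root_.fderiv ℝ f (z + h) - _root_.fderiv ℝ f z)
      (fun k _ => (hasFDerivAt_Q2 hf z k).hasFDerivWithinAt) (fun k hk => ?_)
      (mem_closedBall_self (norm_nonneg _)) (by simp)
    refine (hC _ _).trans ?_
    rw [add_sub_cancel_left]
    exact mul_le_mul_of_nonneg_left (by simpa using hk) hC0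
  rw [Q_zero, sub_zero, sub_zero] at h1
  calc ‖Q f z h‖ ≤ C * ‖h‖ * ‖h‖ := h1
    _ = C * ‖h‖ ^ 2 := by ring

theorem Q_lip (hf : BS f) : ∃ C : ℝ, 0 ≤ C ∧ ∀ (z z' h h' : E) (H : ℝ), ‖h‖ ≤ H → ‖h'‖ ≤ H →
    ‖Q f z h - Q f z' h'‖ ≤ C * H ^ 2 * ‖z - z'‖ + C * H * ‖h - h'‖ := by
  obtain ⟨C, hC0, hC⟩ := hf.fderiv.lip
  obtain ⟨D, hD0, hD⟩ := Q_bd hf.fderiv
  refine ⟨max C D, le_max_of_le_left hC0, fun z z' h h' H hh hh' => ?_⟩
  have hH : 0 ≤ H := (norm_nonneg _).trans hh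
  have h1 : ‖Q f z h - Q f z' h‖ ≤ D * H ^ 2 * ‖z - z'‖ := by
    refine convex_univ.norm_image_sub_le_of_norm_hasFDerivWithin_le
      (f := fun z => Q f z h) (f' := fun z => Q (_root_.fderiv ℝ f) z h)
      (fun k _ => (hasFDerivAt_Q1 hf k h).hasFDerivWithinAt) (fun k _ => ?_)
      (mem_univ _) (mem_univ _)
    refine (hD _ _).trans (mul_le_mul_of_nonneg_left ?_ hD0)
    exact pow_le_pow_left₀ (norm_nonneg _) hh 2
  have h2 : ‖Q f z' h - Q f z' h'‖ ≤ C * H * ‖h - h'‖ := by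
    refine (convex_closedBall (0 : E) H).norm_image_sub_le_of_norm_hasFDerivWithin_le
      (f := fun h => Q f z' h) (f' := fun h => _root_.fderiv ℝ f (z' + h) - _root_.fderiv ℝ f z')
      (fun k _ => (hasFDerivAt_Q2 hf z' k).hasFDerivWithinAt) (fun k hk => ?_)
      (by simpa using hh') (by simpa using hh)
    refine (hC _ _).trans ?_
    rw [add_sub_cancel_left]
    exact mul_le_mul_of_nonneg_left (by simpa using hk) hC0
  have e : Q f z h - Q f z' h' = (Q f z h - Q f z' h) + (Q f z' h - Q f z' h') := by abel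
  rw [e]
  refine (norm_add_le _ _).trans (add_le_add (h1.trans ?_) (h2.trans ?_))
  · gcongr; exact le_max_right _ _
  · gcongr; exact le_max_left _ _

end basic

section om

variable {a : ℝ} {X : Type*} [MetricSpace X]
variable {E : Type u} [NormedAddCommGroup E] [NormedSpace ℝ E]
variable {F : Type v} [NormedAddCommGroup F] [NormedSpace ℝ F]

/-- Lipschitz base map -/
def Lp (L : ℝ) (z0 : X → E) : Prop := 0 ≤ L ∧ ∀ x y, ‖z0 x - z0 y‖ ≤ L * dist x y

omit [NormedSpace ℝ F] in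
theorem hold_of {A B L : ℝ} (ha : 0 < a) (ha1 : a ≤ 1) {g : X → F} {z0 : X → E} (hz : Lp L z0)
    (u : Hol a X E) (hA : 0 ≤ A) (hB : 0 ≤ B) (h0 : ∀ x, ‖g x‖ ≤ A)
    (h1 : ∀ x y, ‖g x - g y‖ ≤ B * ‖(z0 x + Hol.fn u x) - (z0 y + Hol.fn u y)‖) :
    HB a (2 * A + B * (L + ‖u‖)) g where
  bdd x := by
    refine (h0 x).trans ?_
    have : 0 ≤ B * (L + ‖u‖) := mul_nonneg hB (add_nonneg hz.1 (norm_nonneg _))
    linarith
  hol x y := by
    have hr : 0 ≤ dist x y ^ a := Real.rpow_nonneg dist_nonneg a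
    have hBL : 0 ≤ B * (L + ‖u‖) := mul_nonneg hB (add_nonneg hz.1 (norm_nonneg _))
    rcases le_total (dist x y) 1 with h | h
    · have h2 : dist x y ≤ dist x y ^ a := by
        rcases (dist_nonneg (x := x) (y := y)).eq_or_lt with h3 | h3
        · rw [← h3]; exact Real.rpow_nonneg le_rfl _
        · calc dist x y = dist x y ^ (1 : ℝ) := (Real.rpow_one _).symm
            _ ≤ dist x y ^ a := Real.rpow_le_rpow_of_exponent_ge h3 h ha1
      have h3 : ‖(z0 x + Hol.fn u x) - (z0 y + Hol.fn u y)‖ ≤ (L + ‖u‖) * dist x y ^ a := by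
        have e : (z0 x + Hol.fn u x) - (z0 y + Hol.fn u y) =
            (z0 x - z0 y) + (Hol.fn u x - Hol.fn u y) := by abel
        rw [e, add_mul]
        refine (norm_add_le _ _).trans (add_le_add ((hz.2 x y).trans ?_) (norm_fn_sub_le u x y))
        exact mul_le_mul_of_nonneg_left h2 hz.1
      calc ‖g x - g y‖ ≤ B * ‖(z0 x + Hol.fn u x) - (z0 y + Hol.fn u y)‖ := h1 x y
        _ ≤ B * ((L + ‖u‖) * dist x y ^ a) := mul_le_mul_of_nonneg_left h3 hB
        _ = B * (L + ‖u‖) * dist x y ^ a := by ring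
        _ ≤ _ := mul_le_mul_of_nonneg_right (by linarith) hr
    · have h2 : 1 ≤ dist x y ^ a := Real.one_le_rpow h ha.le
      have h3 : ‖g x - g y‖ ≤ 2 * A := (norm_sub_le _ _).trans (by linarith [h0 x, h0 y])
      calc ‖g x - g y‖ ≤ 2 * A := h3
        _ ≤ (2 * A + B * (L + ‖u‖)) * 1 := by linarith
        _ ≤ _ := mul_le_mul_of_nonneg_left h2 (by linarith)

theorem om_hb {f : E → F} (hf : BS f) {L : ℝ} {z0 : X → E} (hz : Lp L z0) (ha : 0 < a)
    (ha1 : a ≤ 1) (u : Hol a X E) : ∃ M, 0 ≤ M ∧ HB a M (fun x => f (z0 x + Hol.fn u x)) := by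
  obtain ⟨A, hA, h0⟩ := hf.bd0
  obtain ⟨B, hB, h1⟩ := hf.lip
  refine ⟨2 * A + B * (L + ‖u‖), ?_, hold_of ha ha1 hz u hA hB (fun x => h0 _)
    fun x y => h1 _ _⟩
  have := hz.1
  positivity

/-- the Nemytskii operator -/
def Om (ha : 0 < a) (ha1 : a ≤ 1) {L : ℝ} {z0 : X → E} (hz : Lp L z0) (f : E → F) (hf : BS f)
    (u : Hol a X E) : Hol a X F :=
  mk ha (fun x => f (z0 x + Hol.fn u x)) (om_hb hf hz ha ha1 u).choose
    (om_hb hf hz ha ha1 u).choose_spec.2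

@[simp] theorem fn_Om (ha : 0 < a) (ha1 : a ≤ 1) {L : ℝ} {z0 : X → E} (hz : Lp L z0) (f : E → F)
    (hf : BS f) (u : Hol a X E) (x : X) :
    Hol.fn (Om ha ha1 hz f hf u) x = f (z0 x + Hol.fn u x) := rfl

theorem Om_rem (ha : 0 < a) (ha1 : a ≤ 1) {L : ℝ} {z0 : X → E} (hz : Lp L z0) (f : E → F)
    (hf : BS f) (u : Hol a X E) : ∃ C : ℝ, 0 ≤ C ∧ ∀ h : Hol a X E,
      ‖Om ha ha1 hz f hf (u + h) - Om ha ha1 hz f hf u -
        bl (ContinuousLinearMap.id ℝ (E →L[ℝ] F)) (Om ha ha1 hz (fderiv ℝ f) hf.fderiv u) h‖ ≤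
        C * ‖h‖ ^ 2 := by
  obtain ⟨C, hC0, hC⟩ := Q_bd hf
  obtain ⟨D, hD0, hD⟩ := Q_lip hf
  refine ⟨2 * C + D * (L + ‖u‖) + D, by have := hz.1; positivity, fun h => ?_⟩
  set r := Om ha ha1 hz f hf (u + h) - Om ha ha1 hz f hf u -
    bl (ContinuousLinearMap.id ℝ (E →L[ℝ] F)) (Om ha ha1 hz (fderiv ℝ f) hf.fderiv u) h with hr
  have hfn : ∀ x, Hol.fn r x = Q f (z0 x + Hol.fn u x) (Hol.fn h x) := by
    intro x
    rw [hr]
    simp only [fn_sub, fn_Om, fn_add, fn_bl, ContinuousLinearMap.id_apply, Q, add_assoc]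
  have hL := hz.1
  refine norm_le (by positivity) ⟨fun x => ?_, fun x y => ?_⟩
  · rw [hfn]
    refine (hC _ _).trans ?_
    have h1 : ‖Hol.fn h x‖ ^ 2 ≤ ‖h‖ ^ 2 := pow_le_pow_left₀ (norm_nonneg _) (norm_fn_le h x) 2
    calc C * ‖Hol.fn h x‖ ^ 2 ≤ C * ‖h‖ ^ 2 := mul_le_mul_of_nonneg_left h1 hC0
      _ ≤ _ := mul_le_mul_of_nonneg_right (by
        have : 0 ≤ D * (L + ‖u‖) := by positivity
        linarith) (sq_nonneg _)
  · rw [hfn, hfn]
    have hr : 0 ≤ dist x y ^ a := Real.rpow_nonneg dist_nonneg a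
    have hh : ∀ x, ‖Hol.fn h x‖ ≤ ‖h‖ := norm_fn_le h
    rcases le_total (dist x y) 1 with hd | hd
    · have h2 : dist x y ≤ dist x y ^ a := by
        rcases (dist_nonneg (x := x) (y := y)).eq_or_lt with h3 | h3
        · rw [← h3]; exact Real.rpow_nonneg le_rfl _
        · calc dist x y = dist x y ^ (1 : ℝ) := (Real.rpow_one _).symm
            _ ≤ dist x y ^ a := Real.rpow_le_rpow_of_exponent_ge h3 hd ha1
      have h3 : ‖(z0 x + Hol.fn u x) - (z0 y + Hol.fn u y)‖ ≤ (L + ‖u‖) * dist x y ^ a := by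
        have e : (z0 x + Hol.fn u x) - (z0 y + Hol.fn u y) =
            (z0 x - z0 y) + (Hol.fn u x - Hol.fn u y) := by abel
        rw [e, add_mul]
        refine (norm_add_le _ _).trans (add_le_add ((hz.2 x y).trans ?_) (norm_fn_sub_le u x y))
        exact mul_le_mul_of_nonneg_left h2 hz.1
      refine (hD _ _ _ _ ‖h‖ (hh x) (hh y)).trans ?_
      calc D * ‖h‖ ^ 2 * ‖(z0 x + Hol.fn u x) - (z0 y + Hol.fn u y)‖ +
            D * ‖h‖ * ‖Hol.fn h x - Hol.fn h y‖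
          ≤ D * ‖h‖ ^ 2 * ((L + ‖u‖) * dist x y ^ a) + D * ‖h‖ * (‖h‖ * dist x y ^ a) := by
            gcongr
            exact norm_fn_sub_le h x y
        _ = (D * (L + ‖u‖) + D) * (‖h‖ ^ 2 * dist x y ^ a) := by ring
        _ ≤ (2 * C + D * (L + ‖u‖) + D) * (‖h‖ ^ 2 * dist x y ^ a) :=
            mul_le_mul_of_nonneg_right (by linarith) (by positivity)
        _ = _ := by ring
    · have h2 : 1 ≤ dist x y ^ a := Real.one_le_rpow hd ha.le
      have h1 : ∀ x, ‖Q f (z0 x + Hol.fn u x) (Hol.fn h x)‖ ≤ C * ‖h‖ ^ 2 := fun x =>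
        (hC _ _).trans (mul_le_mul_of_nonneg_left
          (pow_le_pow_left₀ (norm_nonneg _) (hh x) 2) hC0)
      have h3 := (norm_sub_le (Q f (z0 x + Hol.fn u x) (Hol.fn h x))
        (Q f (z0 y + Hol.fn u y) (Hol.fn h y))).trans (add_le_add (h1 x) (h1 y))
      have h4 : 0 ≤ D * (L + ‖u‖) + D := by positivity
      calc _ ≤ C * ‖h‖ ^ 2 + C * ‖h‖ ^ 2 := h3
        _ = (2 * C) * ‖h‖ ^ 2 * 1 := by ring
        _ ≤ (2 * C) * ‖h‖ ^ 2 * dist x y ^ a := mul_le_mul_of_nonneg_left h2 (by positivity)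
        _ ≤ _ := by
          refine mul_le_mul_of_nonneg_right (mul_le_mul_of_nonneg_right ?_ (sq_nonneg _)) hr
          linarith

theorem Om_hasFDerivAt (ha : 0 < a) (ha1 : a ≤ 1) {L : ℝ} {z0 : X → E} (hz : Lp L z0) (f : E → F)
    (hf : BS f) (u : Hol a X E) :
    HasFDerivAt (Om ha ha1 hz f hf)
      (bl (ContinuousLinearMap.id ℝ (E →L[ℝ] F)) (Om ha ha1 hz (fderiv ℝ f) hf.fderiv u)) u := by
  obtain ⟨C, hC0, hC⟩ := Om_rem ha ha1 hz f hf u
  rw [hasFDerivAt_iff_isLittleO_nhds_zero]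
  have h1 : (fun h : Hol a X E => Om ha ha1 hz f hf (u + h) - Om ha ha1 hz f hf u -
      bl (ContinuousLinearMap.id ℝ (E →L[ℝ] F)) (Om ha ha1 hz (fderiv ℝ f) hf.fderiv u) h)
      =O[𝓝 0] fun h => ‖h‖ ^ 2 :=
    Asymptotics.IsBigO.of_bound C (Eventually.of_forall fun h => by
      rw [Real.norm_eq_abs, abs_of_nonneg (sq_nonneg ‖h‖)]; exact hC h)
  refine h1.trans_isLittleO ?_
  have h2 : (fun h : Hol a X E => ‖h‖ ^ 2) =o[𝓝 0] fun h => h :=
    Asymptotics.isLittleO_norm_pow_id one_lt_two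
  exact h2

end om

section smooth

variable {a : ℝ} {X : Type*} [MetricSpace X]
variable {E : Type u} [NormedAddCommGroup E] [NormedSpace ℝ E]

theorem Om_contDiff_nat (ha : 0 < a) (ha1 : a ≤ 1) {L : ℝ} {z0 : X → E} (hz : Lp L z0) (n : ℕ) :
    ∀ (F : Type u) [NormedAddCommGroup F] [NormedSpace ℝ F] (f : E → F) (hf : BS f),
      ContDiff ℝ n (Om ha ha1 hz f hf) := by
  induction n with
  | zero =>
    intro F _ _ f hf
    exact contDiff_zero.2 (continuous_iff_continuousAt.2 fun u =>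
      (Om_hasFDerivAt ha ha1 hz f hf u).continuousAt)
  | succ n ih =>
    intro F _ _ f hf
    refine contDiff_succ_iff_hasFDerivAt.2 ⟨_, ?_, fun u => Om_hasFDerivAt ha ha1 hz f hf u⟩
    have h1 : ContDiff ℝ n (bl (a := a) (X := X) (ContinuousLinearMap.id ℝ (E →L[ℝ] F))) :=
      ContinuousLinearMap.contDiff (𝕜 := ℝ) (E := Hol a X (E →L[ℝ] F))
        (F := Hol a X E →L[ℝ] Hol a X F) (bl (a := a) (X := X)
          (ContinuousLinearMap.id ℝ (E →L[ℝ] F)))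
    exact h1.comp (ih (E →L[ℝ] F) (fderiv ℝ f) hf.fderiv)

theorem Om_contDiff (ha : 0 < a) (ha1 : a ≤ 1) {L : ℝ} {z0 : X → E} (hz : Lp L z0)
    {F : Type u} [NormedAddCommGroup F] [NormedSpace ℝ F] (f : E → F) (hf : BS f) :
    ContDiff ℝ ∞ (Om ha ha1 hz f hf) :=
  contDiff_infty.2 fun n => Om_contDiff_nat ha ha1 hz n F f hf

end smooth

end

end Crest.Agent.R235.TorOm_384
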