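import Crest.Agent.R281.Mc3_673

/-!
# Row 235 (S0364), TOR / FIB-B1 (helper384), part 1

Variable coefficients on the torus `ℝ^N / ℤ^N`: the operator `∑ ∂_i (S_ij ∂_j w)` (divergence form,
`S` not necessarily symmetric), energy identity, Poincaré inequality, global Schauder estimate
`|w|_{2,a} ≤ C |LL S w|_a` for smooth `w` of mean zero, with a constant depending only on bounds.
-/

set_option autoImplicit false

open MeasureTheory Set Metric
open scoped ContDiff

namespace Crest.Agent.R235.TorSch_384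

open Crest.Agent.R238 (Ell)
open Crest.Agent.R238.Sch (ee D2 LB norm_ee)
open Crest.Agent.R273.SchA_152 (HO)
open Crest.Agent.R273.SchB_152 (P2)
open Crest.Agent.R275.Tor812
open Crest.Agent.R281.Mc673

noncomputable section

variable {N : ℕ}

/-- `∑ ∂_i (S_ij ∂_j w)` -/
def LL (S : V N → Matrix (Fin N) (Fin N) ℝ) (w : V N → ℝ) (x : V N) : ℝ :=
  ∑ i, dr i (fun y => ∑ j, S y i j * dr j w y) x

/-- smooth periodic matrix field -/
def SM (S : V N → Matrix (Fin N) (Fin N) ℝ) : Prop := ∀ i j, SP fun x => S x i j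

/-- ellipticity -/
def El (lam : ℝ) (S : V N → Matrix (Fin N) (Fin N) ℝ) : Prop :=
  ∀ (x : V N) (v : Fin N → ℝ), lam * ∑ i, v i ^ 2 ≤ ∑ i, ∑ j, S x i j * v i * v j

/-- bounds of `S` and `DS` -/
structure BdS (a M : ℝ) (S : V N → Matrix (Fin N) (Fin N) ℝ) : Prop where
  b0 : ∀ i j, HO a M univ fun x => S x i j
  b1 : ∀ i j k, HO a M univ (dr k fun x => S x i j)

section

variable {S : V N → Matrix (Fin N) (Fin N) ℝ} {w u : V N → ℝ}

theorem sp_flux (hS : SM S) (hw : SP w) (i : Fin N) : SP fun y => ∑ j, S y i j * dr j w y :=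
  SP.sum _ fun j _ => (hS i j).mul (hw.dr j)

theorem sp_LL (hS : SM S) (hw : SP w) : SP (LL S w) :=
  SP.sum (f := fun i => dr i fun y => ∑ j, S y i j * dr j w y) _ fun i _ => (sp_flux hS hw i).dr i

theorem mn_LL (hS : SM S) (hw : SP w) : mn (LL S w) = 0 := by
  have h := mn_sum (N := N) Finset.univ (f := fun i => dr i fun y => ∑ j, S y i j * dr j w y)
    fun i _ => (sp_flux hS hw i).dr i
  have h2 : LL S w = fun x => ∑ i, dr i (fun y => ∑ j, S y i j * dr j w y) x := rfl
  rw [h2, h]
  exact Finset.sum_eq_zero fun i _ => mn_dr (sp_flux hS hw i) i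

/-- expansion -/
theorem LL_eq (hS : SM S) (hw : SP w) (x : V N) :
    LL S w x = (∑ i, ∑ j, S x i j * dr i (dr j w) x) +
      ∑ i, ∑ j, dr i (fun y => S y i j) x * dr j w x := by
  unfold LL
  rw [← Finset.sum_add_distrib]
  refine Finset.sum_congr rfl fun i _ => ?_
  rw [dr_sum _ (fun j _ => (hS i j).mul (hw.dr j)), ← Finset.sum_add_distrib]
  refine Finset.sum_congr rfl fun j _ => ?_
  rw [dr_mul (hS i j) (hw.dr j)]
  ring

/-- the symmetric part -/
def sy (S : V N → Matrix (Fin N) (Fin N) ℝ) (x : V N) : Matrix (Fin N) (Fin N) ℝ :=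
  fun i j => (S x i j + S x j i) / 2

theorem P2_sy (hS : SM S) (hw : SP w) (x : V N) :
    P2 (sy S) w x = LL S w x - ∑ i, ∑ j, dr i (fun y => S y i j) x * dr j w x := by
  rw [LL_eq hS hw, add_sub_cancel_right]
  unfold P2 sy
  have h1 : ∀ i j, D2 w x (ee i) (ee j) = dr i (dr j w) x := fun i j => D2_eq hw i j x
  have h2 : (∑ i, ∑ j, S x j i * dr i (dr j w) x) = ∑ i, ∑ j, S x i j * dr i (dr j w) x := by
    rw [Finset.sum_comm]
    refine Finset.sum_congr rfl fun i _ => Finset.sum_congr rfl fun j _ => ?_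
    rw [dr_comm hw]
  calc ∑ i, ∑ j, (S x i j + S x j i) / 2 * D2 w x (ee i) (ee j)
      = (∑ i, ∑ j, S x i j * dr i (dr j w) x + ∑ i, ∑ j, S x j i * dr i (dr j w) x) / 2 := by
        rw [← Finset.sum_add_distrib, Finset.sum_div]
        refine Finset.sum_congr rfl fun i _ => ?_
        rw [← Finset.sum_add_distrib, Finset.sum_div]
        refine Finset.sum_congr rfl fun j _ => ?_
        rw [h1]; ring
    _ = _ := by rw [h2]; ring

theorem ell_sy {lam a M : ℝ} (hl : El lam S) (hb : BdS a M S) (x : V N) :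
    Ell lam (max lam (N * M)) (sy S x) := by
  refine ⟨fun i j => by simp only [sy]; ring, fun z => ?_⟩
  have e : ∑ i, ∑ j, sy S x i j * z i * z j = ∑ i, ∑ j, S x i j * z i * z j := by
    have h2 : (∑ i, ∑ j, S x j i * z i * z j) = ∑ i, ∑ j, S x i j * z i * z j := by
      rw [Finset.sum_comm]
      refine Finset.sum_congr rfl fun i _ => Finset.sum_congr rfl fun j _ => ?_
      ring
    calc ∑ i, ∑ j, sy S x i j * z i * z j
        = (∑ i, ∑ j, S x i j * z i * z j + ∑ i, ∑ j, S x j i * z i * z j) / 2 := by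
          rw [← Finset.sum_add_distrib, Finset.sum_div]
          refine Finset.sum_congr rfl fun i _ => ?_
          rw [← Finset.sum_add_distrib, Finset.sum_div]
          refine Finset.sum_congr rfl fun j _ => ?_
          simp only [sy]; ring
      _ = _ := by rw [h2]; ring
  rw [e]
  refine ⟨hl x z, ?_⟩
  have hM : 0 ≤ N * M ∨ N = 0 := by
    rcases Nat.eq_zero_or_pos N with h | h
    · exact Or.inr h
    · left
      have : 0 ≤ M := (hb.b0 ⟨0, h⟩ ⟨0, h⟩).nonneg (mem_univ (0 : V N))
      positivity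
  have hz : 0 ≤ ∑ i, z i ^ 2 := Finset.sum_nonneg fun _ _ => sq_nonneg _
  have h3 : ∑ i, ∑ j, S x i j * z i * z j ≤ (N * M) * ∑ i, z i ^ 2 := by
    calc ∑ i, ∑ j, S x i j * z i * z j ≤ ∑ i, ∑ j, M * ((z i ^ 2 + z j ^ 2) / 2) := by
          refine Finset.sum_le_sum fun i _ => Finset.sum_le_sum fun j _ => ?_
          have h4 := (hb.b0 i j).bdd x (mem_univ x)
          rw [Real.norm_eq_abs] at h4
          have h5 : |z i * z j| ≤ (z i ^ 2 + z j ^ 2) / 2 := by
            rw [abs_le]; constructor <;> nlinarith [sq_nonneg (z i + z j), sq_nonneg (z i - z j)]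
          calc S x i j * z i * z j = S x i j * (z i * z j) := by ring
            _ ≤ |S x i j * (z i * z j)| := le_abs_self _
            _ = |S x i j| * |z i * z j| := abs_mul _ _
            _ ≤ _ := mul_le_mul h4 h5 (abs_nonneg _) ((abs_nonneg _).trans h4)
      _ = _ := by
          simp only [← Finset.mul_sum, ← Finset.sum_div, Finset.sum_add_distrib,
            Finset.sum_const, Finset.card_univ, Fintype.card_fin, nsmul_eq_mul]
          ring
  exact h3.trans (mul_le_mul_of_nonneg_right (le_max_right _ _) hz)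

/-! ### energy and Poincaré -/

theorem energy (hS : SM S) (hw : SP w) :
    mn (fun x => w x * LL S w x) = - mn (fun x => ∑ i, ∑ j, S x i j * dr i w x * dr j w x) := by
  have hi : ∀ i, SP fun x => w x * ∑ j, S x i j * dr j w x := fun i => hw.mul (sp_flux hS hw i)
  have h1 : ∀ x, w x * LL S w x = (∑ i, dr i (fun y => w y * ∑ j, S y i j * dr j w y) x) -
      ∑ i, ∑ j, S x i j * dr i w x * dr j w x := by
    intro x
    unfold LL
    rw [Finset.mul_sum, ← Finset.sum_sub_distrib]
    refine Finset.sum_congr rfl fun i _ => ?_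
    rw [dr_mul hw (sp_flux hS hw i), Finset.mul_sum]
    have : ∀ j, S x i j * dr i w x * dr j w x = dr i w x * (S x i j * dr j w x) := fun j => by ring
    simp only [this]
    ring
  have s1 : SP fun x => ∑ i, dr i (fun y => w y * ∑ j, S y i j * dr j w y) x :=
    SP.sum (f := fun i => dr i (fun y => w y * ∑ j, S y i j * dr j w y)) _ fun i _ => (hi i).dr i
  have s2 : SP fun x => ∑ i, ∑ j, S x i j * dr i w x * dr j w x :=
    SP.sum _ fun i _ => SP.sum _ fun j _ => ((hS i j).mul (hw.dr i)).mul (hw.dr j)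
  have h2 : (fun x => w x * LL S w x) = fun x =>
      (∑ i, dr i (fun y => w y * ∑ j, S y i j * dr j w y) x) -
      ∑ i, ∑ j, S x i j * dr i w x * dr j w x := funext h1
  rw [h2, mn_sub s1 s2,
    mn_sum (N := N) Finset.univ (f := fun i => dr i (fun y => w y * ∑ j, S y i j * dr j w y))
      fun i _ => (hi i).dr i,
    Finset.sum_eq_zero fun i _ => mn_dr (hi i) i, zero_sub]

theorem mn_mono {f g : V N → ℝ} (hf : SP f) (hg : SP g) (h : ∀ x, f x ≤ g x) : mn f ≤ mn g :=
  integral_mono (integrable_box hf) (integrable_box hg) fun _ => h _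

theorem mn_nonneg {f : V N → ℝ} (h : ∀ x, 0 ≤ f x) : 0 ≤ mn f :=
  integral_nonneg fun _ => h _

/-- the Poincaré inequality -/
theorem poincare (hw : SP w) (hm : mn w = 0) :
    mn (fun x => w x ^ 2) ≤ mn (fun x => ∑ i, dr i w x ^ 2) := by
  have hl : ∀ {f : V N → ℝ} (hf : SP f), l2 (toS f hf) = mn (fun x => f x ^ 2) := by
    intro f hf
    unfold l2 mn
    refine integral_congr_ae (Filter.Eventually.of_forall fun x => ?_)
    show ‖toS f hf x‖ ^ 2 = _
    rw [toS_apply, Complex.norm_real, Real.norm_eq_abs, sq_abs]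
  have hsq : ∀ i, SP fun x => dr i w x ^ 2 := fun i => by
    have := (hw.dr i).mul (hw.dr i)
    simpa only [← sq] using this
  rw [mn_sum (N := N) Finset.univ (f := fun i x => dr i w x ^ 2) fun i _ => hsq i]
  have e1 : ∀ i, mn (fun x => dr i w x ^ 2) = l2 (toS (dr i w) (hw.dr i)) := fun i =>
    (hl (hw.dr i)).symm
  rw [← hl hw]
  simp only [e1]
  have h1 := parseval (toS w hw)
  have h2 : HasSum (fun k => ∑ i, ‖fc (toS (dr i w) (hw.dr i)) k‖ ^ 2)
      (∑ i, l2 (toS (dr i w) (hw.dr i))) :=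
    hasSum_sum fun i _ => parseval (toS (dr i w) (hw.dr i))
  refine hasSum_le (fun k => ?_) h1 h2
  by_cases hk : k = 0
  · subst hk
    rw [fc_toS_zero, hm]
    simpa using Finset.sum_nonneg fun i _ => sq_nonneg ‖fc (toS (dr i w) (hw.dr i)) 0‖
  · have h3 : ∀ i, ‖fc (toS (dr i w) (hw.dr i)) k‖ ^ 2 =
        (4 * Real.pi ^ 2 * (k i : ℝ) ^ 2) * ‖fc (toS w hw) k‖ ^ 2 := by
      intro i
      rw [← pd_toS hw, fc_pd, norm_mul, mul_pow]
      congr 1
      simp only [norm_mul, Complex.norm_real, Complex.norm_I, Complex.norm_ofNat,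
        Complex.norm_intCast, Real.norm_eq_abs, mul_pow, sq_abs]
      ring
    simp only [h3, ← Finset.sum_mul, ← Finset.mul_sum]
    have h4 := one_le_norm_sq hk
    have h5 : (1 : ℝ) ≤ Real.pi := by linarith [Real.pi_gt_three]
    have h6 : 1 ≤ 4 * Real.pi ^ 2 * ∑ i, (k i : ℝ) ^ 2 := by nlinarith
    exact le_mul_of_one_le_left (sq_nonneg _) h6

/-- Cauchy-Schwarz with `ε = 1` type bound: the `L²` norm from a sup bound of `LL`. -/
theorem l2_var {lam : ℝ} (hlam : 0 < lam) (hS : SM S) (hl : El lam S) (hw : SP w) (hm : mn w = 0)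
    {B : ℝ} (hB : ∀ x, |LL S w x| ≤ B) :
    mn (fun x => w x ^ 2) ≤ (B / lam) ^ 2 := by
  have hsq : SP fun x => w x ^ 2 := by
    have := hw.mul hw
    simpa only [← sq] using this
  have hdr : SP fun x => ∑ i, dr i w x ^ 2 := SP.sum _ fun i _ => by
    have := (hw.dr i).mul (hw.dr i)
    simpa only [← sq] using this
  have s2 : SP fun x => ∑ i, ∑ j, S x i j * dr i w x * dr j w x :=
    SP.sum _ fun i _ => SP.sum _ fun j _ => ((hS i j).mul (hw.dr i)).mul (hw.dr j)
  have h1 := poincare hw hm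
  have h2 : mn (fun x => lam * ∑ i, dr i w x ^ 2) ≤
      mn (fun x => ∑ i, ∑ j, S x i j * dr i w x * dr j w x) := by
    refine mn_mono ?_ s2 fun x => hl x _
    exact (SP.const lam).mul hdr
  rw [mn_mul] at h2
  have h3 := energy hS hw
  have h4 : mn (fun x => - (w x * LL S w x)) ≤
      mn (fun x => lam / 2 * w x ^ 2 + B ^ 2 / (2 * lam)) := by
    refine mn_mono (hw.mul (sp_LL hS hw)).neg (((SP.const _).mul hsq).add (SP.const _)) fun x => ?_
    have h5 := hB x
    have h6 : LL S w x ^ 2 ≤ B ^ 2 := by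
      rw [← sq_abs (LL S w x)]
      exact pow_le_pow_left₀ (abs_nonneg _) h5 2
    have h7 : - (w x * LL S w x) ≤ lam / 2 * w x ^ 2 + LL S w x ^ 2 / (2 * lam) := by
      have h8 : 0 ≤ (lam * w x + LL S w x) ^ 2 / (2 * lam) := by positivity
      have h9 : (lam * w x + LL S w x) ^ 2 / (2 * lam) =
          lam / 2 * w x ^ 2 + w x * LL S w x + LL S w x ^ 2 / (2 * lam) := by
        field_simp; ring
      linarith
    have h10 : LL S w x ^ 2 / (2 * lam) ≤ B ^ 2 / (2 * lam) :=
      div_le_div_of_nonneg_right h6 (by positivity)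
    linarith
  rw [mn_neg, mn_add ((SP.const _).mul hsq) (SP.const _), mn_mul, mn_const, h3, neg_neg] at h4
  have h11 : lam / 2 * mn (fun x => w x ^ 2) ≤ B ^ 2 / (2 * lam) := by
    have := mul_le_mul_of_nonneg_left h1 hlam.le
    linarith
  have h12 : (B / lam) ^ 2 = (2 / lam) * (B ^ 2 / (2 * lam)) := by field_simp
  rw [h12]
  calc mn (fun x => w x ^ 2) = (2 / lam) * (lam / 2 * mn (fun x => w x ^ 2)) := by
        field_simp
    _ ≤ _ := mul_le_mul_of_nonneg_left h11 (by positivity)

theorem LL_inj {lam : ℝ} (hlam : 0 < lam) (hS : SM S) (hl : El lam S) (hw : SP w) (hm : mn w = 0)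
    (h : ∀ x, LL S w x = 0) : ∀ x, w x = 0 := by
  have hsq : SP fun x => w x ^ 2 := by
    have := hw.mul hw
    simpa only [← sq] using this
  have h1 := l2_var hlam hS hl hw hm (B := 0) fun x => by rw [h x, abs_zero]
  intro x
  by_contra hx
  have hc : ContinuousAt (fun y => |w y|) x := hw.cont.abs.continuousAt
  have hpos : 0 < |w x| := abs_pos.2 hx
  obtain ⟨d, hd, hd2⟩ := Metric.continuousAt_iff.1 hc (|w x| / 2) (by positivity)
  set r : ℝ := min (1 / 2) (d / (2 * (N + 1))) with hr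
  have hr0 : 0 < r := by positivity
  have h2 := l2_lower (x0 := x) hw hr0 (min_le_left _ _) (W := |w x| / 2) (by positivity)
    fun y hy => by
      have h3 : ‖y - x‖ < d := by
        refine hy.trans_lt ?_
        calc ((N : ℝ) + 1) * r ≤ (N + 1) * (d / (2 * (N + 1))) :=
              mul_le_mul_of_nonneg_left (min_le_right _ _) (by positivity)
          _ = d / 2 := by field_simp
          _ < d := by linarith
      have h4 := hd2 (x := y) (by rw [dist_eq_norm]; exact h3)
      rw [Real.dist_eq, abs_lt] at h4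
      linarith [h4.1]
  have h5 : (0 : ℝ) < (|w x| / 2) ^ 2 * (2 * r) ^ N := by positivity
  have h6 : mn (fun y => w y ^ 2) = ∫ x in box (0 : Fin N → ℝ), w (WithLp.toLp 2 x) ^ 2 := rfl
  rw [h6] at h1
  simp only [zero_div, ne_eq, OfNat.ofNat_ne_zero, not_false_eq_true, zero_pow] at h1
  linarith

end

end

end Crest.Agent.R235.TorSch_384
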