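import Crest.Agent.R235.TorHS_384

/-!
# Row 235 (S0364), TOR / FIB-B1 (helper384): function spaces on the torus

* `YY a N`   : closure of the smooth periodic functions of mean zero in `HS a N ℝ`
* `XX a N`   : closure of the 2-jets of smooth periodic functions of mean zero
* `Lop S`    : the operator `∑ ∂_i (S_ij ∂_j ·)` on 2-jets
* `Leq`      : `Lop S : XX → YY` is bijective (method of continuity)
-/

set_option autoImplicit false

open MeasureTheory Set Metric Filter Topology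
open scoped ContDiff

namespace Crest.Agent.R235.TorSp_384

open Crest.Agent.R238 (Ell)
open Crest.Agent.R238.Sch (ee D2 LB norm_ee)
open Crest.Agent.R273.SchA_152 (HO)
open Crest.Agent.R275.Tor812
open Crest.Agent.R281.Mc673
open Crest.Agent.R235.TorSch_384 Crest.Agent.R235.TorHS_384 Crest.Agent.R235.TorHS_384.HS

noncomputable section

/-! ### the method of continuity -/

section cont

variable {X Y : Type*} [NormedAddCommGroup X] [NormedSpace ℝ X] [CompleteSpace X]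
  [NormedAddCommGroup Y] [NormedSpace ℝ Y]

theorem closed_range {A : X →L[ℝ] Y} {C : ℝ} (hC : 0 ≤ C) (h : ∀ x, ‖x‖ ≤ C * ‖A x‖) :
    IsClosed (range A) := by
  have h1 : AntilipschitzWith C.toNNReal A := by
    refine AddMonoidHomClass.antilipschitz_of_bound A fun x => ?_
    rw [Real.coe_toNNReal C hC]
    exact h x
  exact h1.isClosed_range A.uniformContinuous

theorem surj_step {A D : X →L[ℝ] Y} {C : ℝ} (hC : 0 ≤ C) (h : ∀ x, ‖x‖ ≤ C * ‖A x‖)
    (h' : ∀ x, ‖x‖ ≤ C * ‖(A + D) x‖) (hA : Function.Surjective A) (hD : C * ‖D‖ ≤ 1 / 2) :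
    Function.Surjective (A + D) := by
  by_contra hc
  have hcl : IsClosed ((LinearMap.range ((A + D : X →L[ℝ] Y) : X →ₗ[ℝ] Y) : Submodule ℝ Y) :
      Set Y) := by
    have h1 := closed_range hC h'
    have h2 : ((LinearMap.range ((A + D : X →L[ℝ] Y) : X →ₗ[ℝ] Y) : Submodule ℝ Y) : Set Y) =
        range (A + D) := by
      ext y; simp [LinearMap.mem_range]
    rw [h2]; exact h1
  have hne : ∃ y : Y, y ∉ LinearMap.range ((A + D : X →L[ℝ] Y) : X →ₗ[ℝ] Y) := by
    by_contra hall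
    push Not at hall
    exact hc fun y => by
      obtain ⟨x, hx⟩ := hall y
      exact ⟨x, hx⟩
  obtain ⟨y, hy, hy2⟩ := riesz_lemma hcl hne (r := 3 / 4) (by norm_num)
  have hy0 : y ≠ 0 := fun h0 => hy (h0 ▸ Submodule.zero_mem _)
  have hyp : 0 < ‖y‖ := norm_pos_iff.2 hy0
  obtain ⟨x, hx⟩ := hA y
  have h1 := hy2 ((A + D) x) ⟨x, rfl⟩
  have h2 : y - (A + D) x = - D x := by
    rw [← hx]; simp
  rw [h2, norm_neg] at h1
  have h3 : ‖D x‖ ≤ 1 / 2 * ‖y‖ := by
    calc ‖D x‖ ≤ ‖D‖ * ‖x‖ := D.le_opNorm x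
      _ ≤ ‖D‖ * (C * ‖A x‖) := mul_le_mul_of_nonneg_left (h x) (norm_nonneg _)
      _ = (C * ‖D‖) * ‖y‖ := by rw [hx]; ring
      _ ≤ _ := mul_le_mul_of_nonneg_right hD hyp.le
  linarith

theorem cont_method (A B : X →L[ℝ] Y) {C : ℝ} (hC : 0 ≤ C)
    (h : ∀ t ∈ Icc (0 : ℝ) 1, ∀ x, ‖x‖ ≤ C * ‖((1 - t) • A + t • B) x‖)
    (hA : Function.Surjective A) : Function.Surjective B := by
  obtain ⟨n, hn⟩ := exists_nat_gt (2 * (C * ‖B - A‖) + 1)
  have hn0 : (0 : ℝ) < n := by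
    have : 0 ≤ C * ‖B - A‖ := mul_nonneg hC (norm_nonneg _)
    linarith
  have key : ∀ k : ℕ, k ≤ n →
      Function.Surjective ((1 - (k / n : ℝ)) • A + (k / n : ℝ) • B) := by
    intro k
    induction k with
    | zero =>
      intro _
      simpa using hA
    | succ k ih =>
      intro hk
      have hk' : k ≤ n := by omega
      have hkn : (k : ℝ) + 1 ≤ n := by exact_mod_cast hk
      have m1 : (k / n : ℝ) ∈ Icc (0 : ℝ) 1 :=
        ⟨by positivity, by rw [div_le_one hn0]; linarith⟩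
      have m2 : ((k + 1 : ℕ) / n : ℝ) ∈ Icc (0 : ℝ) 1 :=
        ⟨by positivity, by rw [div_le_one hn0]; push_cast; exact hkn⟩
      have e : (1 - ((k + 1 : ℕ) / n : ℝ)) • A + ((k + 1 : ℕ) / n : ℝ) • B =
          ((1 - (k / n : ℝ)) • A + (k / n : ℝ) • B) + (1 / n : ℝ) • (B - A) := by
        ext x
        simp only [add_apply, smul_apply, sub_apply, Nat.cast_add, Nat.cast_one, add_div, sub_smul,
          add_smul, one_smul, smul_sub]
        abel
      have h2 := h _ m2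
      rw [e] at h2 ⊢
      refine surj_step hC (h _ m1) h2 (ih hk') ?_
      rw [norm_smul, Real.norm_eq_abs, abs_of_pos (by positivity)]
      have : C * (1 / n * ‖B - A‖) = (C * ‖B - A‖) / n := by ring
      rw [this, div_le_iff₀ hn0]
      linarith
  have h1 := key n le_rfl
  rw [div_self hn0.ne'] at h1
  simpa using h1

end cont

/-! ### Hölder spaces of periodic functions -/

variable {a : ℝ} {N : ℕ}

variable (a N) in
/-- the space of 2-jets -/
abbrev P2J : Type := HS a N ℝ × HS a N (V N →L[ℝ] ℝ) ×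
  HS a N (V N →L[ℝ] V N →L[ℝ] ℝ)

/-- the 2-jet of a smooth function -/
structure IsJet (q : P2J a N) : Prop where
  sp : SP (HS.fn q.1)
  mn0 : mn (HS.fn q.1) = 0
  h1 : ∀ x, HasFDerivAt (HS.fn q.1) (HS.fn q.2.1 x) x
  h2 : ∀ x, HasFDerivAt (HS.fn q.2.1) (HS.fn q.2.2 x) x

theorem IsJet.d1 {q : P2J a N} (h : IsJet q) : HS.fn q.2.1 = fderiv ℝ (HS.fn q.1) :=
  funext fun x => (h.h1 x).fderiv.symm

theorem IsJet.d2 {q : P2J a N} (h : IsJet q) :
    HS.fn q.2.2 = fderiv ℝ (fderiv ℝ (HS.fn q.1)) := by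
  rw [← h.d1]
  exact funext fun x => (h.h2 x).fderiv.symm

variable (a N) in
/-- smooth 2-jets, mean zero -/
def JS : Submodule ℝ (P2J a N) where
  carrier := {q | IsJet q}
  add_mem' := by
    rintro ⟨p, p', p''⟩ ⟨q, q', q''⟩ hp hq
    refine ⟨hp.sp.add hq.sp, ?_, fun x => (hp.h1 x).add (hq.h1 x), fun x => (hp.h2 x).add (hq.h2 x)⟩
    have := mn_add hp.sp hq.sp
    rw [hp.mn0, hq.mn0, add_zero] at this
    exact this
  zero_mem' := ⟨SP.const 0, mn_const 0, fun x => hasFDerivAt_const _ x,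
    fun x => hasFDerivAt_const _ x⟩
  smul_mem' := by
    rintro c ⟨q, q', q''⟩ hq
    refine ⟨hq.sp.smul c, ?_, fun x => (hq.h1 x).const_smul c, fun x => (hq.h2 x).const_smul c⟩
    have := mn_mul c (HS.fn q)
    have h0 : mn (HS.fn q) = 0 := hq.mn0
    rw [h0, mul_zero] at this
    exact this

variable (a N) in
/-- smooth functions of mean zero -/
def YS : Submodule ℝ (HS a N ℝ) where
  carrier := {u | SP (HS.fn u) ∧ mn (HS.fn u) = 0}
  add_mem' := by
    rintro p q hp hq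
    have e0 : HS.fn (p + q) = fun x => HS.fn p x + HS.fn q x := rfl
    exact ⟨by rw [e0]; exact hp.1.add hq.1, by rw [e0, mn_add hp.1 hq.1, hp.2, hq.2, add_zero]⟩
  zero_mem' := by
    have e0 : HS.fn (0 : HS a N ℝ) = fun _ => (0 : ℝ) := rfl
    exact ⟨by rw [e0]; exact SP.const 0, by rw [e0, mn_const]⟩
  smul_mem' := by
    rintro c q hq
    have e0 : HS.fn (c • q) = fun x => c • HS.fn q x := rfl
    refine ⟨by rw [e0]; exact hq.1.smul c, ?_⟩
    rw [e0]
    simp only [smul_eq_mul]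
    rw [mn_mul, hq.2, mul_zero]

variable (a N) in
/-- the space of potentials -/
def XX : Submodule ℝ (P2J a N) := (JS a N).topologicalClosure

variable (a N) in
/-- the target space -/
def YY : Submodule ℝ (HS a N ℝ) := (YS a N).topologicalClosure

theorem JS_le : JS a N ≤ XX a N := Submodule.le_topologicalClosure _

theorem YS_le : YS a N ≤ YY a N := Submodule.le_topologicalClosure _

instance : CompleteSpace (XX a N) := (Submodule.isClosed_topologicalClosure _).completeSpace_coe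

instance : CompleteSpace (YY a N) := (Submodule.isClosed_topologicalClosure _).completeSpace_coe

/-- the 2-jet of a smooth function -/
def jet (ha : 0 < a) (ha1 : a ≤ 1) (w : V N → ℝ) (hw : SP w) : P2J a N :=
  (ofSP ha ha1 w hw, ofSP ha ha1 (fderiv ℝ w) hw.fderiv,
    ofSP ha ha1 (fderiv ℝ (fderiv ℝ w)) hw.fderiv.fderiv)

theorem jet_mem (ha : 0 < a) (ha1 : a ≤ 1) {w : V N → ℝ} (hw : SP w) (hm : mn w = 0) :
    jet ha ha1 w hw ∈ JS a N :=
  ⟨hw, hm, fun x => (hw.diff x).hasFDerivAt, fun x => (hw.fderiv.diff x).hasFDerivAt⟩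

/-! ### the operator -/

section op

variable {S : V N → Matrix (Fin N) (Fin N) ℝ}

/-- multiplication by a smooth function -/
def mulS (ha : 0 < a) (ha1 : a ≤ 1) (f : V N → ℝ) (hf : SP f) :
    HS a N ℝ →L[ℝ] HS a N ℝ :=
  bl (ContinuousLinearMap.mul ℝ ℝ) (ofSP ha ha1 f hf)

@[simp] theorem fn_mulS (ha : 0 < a) (ha1 : a ≤ 1) (f : V N → ℝ) (hf : SP f)
    (u : HS a N ℝ) (x : V N) : HS.fn (mulS ha ha1 f hf u) x = f x * HS.fn u x := rfl

/-- evaluation of the second derivative -/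
def ev2 (i j : Fin N) : (V N →L[ℝ] V N →L[ℝ] ℝ) →L[ℝ] ℝ :=
  (ContinuousLinearMap.apply ℝ ℝ (ee j)).comp (ContinuousLinearMap.apply ℝ (V N →L[ℝ] ℝ) (ee i))

@[simp] theorem ev2_apply (i j : Fin N) (L : V N →L[ℝ] V N →L[ℝ] ℝ) :
    ev2 i j L = L (ee i) (ee j) := rfl

/-- evaluation of the first derivative -/
def ev1 (j : Fin N) : (V N →L[ℝ] ℝ) →L[ℝ] ℝ := ContinuousLinearMap.apply ℝ ℝ (ee j)

@[simp] theorem ev1_apply (j : Fin N) (L : V N →L[ℝ] ℝ) : ev1 j L = L (ee j) := rfl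

/-- the operator on jets -/
def Lop (ha : 0 < a) (ha1 : a ≤ 1) (hS : SM S) : P2J a N →L[ℝ] HS a N ℝ :=
  (∑ i, ∑ j, (mulS ha ha1 _ (hS i j)).comp ((cl (ev2 i j)).comp
    ((ContinuousLinearMap.snd ℝ _ _).comp (ContinuousLinearMap.snd ℝ _ _)))) +
  ∑ i, ∑ j, (mulS ha ha1 _ ((hS i j).dr i)).comp ((cl (ev1 j)).comp
    ((ContinuousLinearMap.fst ℝ _ _).comp (ContinuousLinearMap.snd ℝ _ _)))

theorem fn_Lop (ha : 0 < a) (ha1 : a ≤ 1) (hS : SM S) (q : P2J a N) (x : V N) :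
    HS.fn (Lop ha ha1 hS q) x = (∑ i, ∑ j, S x i j * HS.fn q.2.2 x (ee i) (ee j)) +
      ∑ i, ∑ j, dr i (fun y => S y i j) x * HS.fn q.2.1 x (ee j) := by
  simp only [Lop, add_apply, fn_add, sum_apply, fn_sum, ContinuousLinearMap.comp_apply,
    fn_mulS, fn_cl, ev2_apply, ev1_apply, ContinuousLinearMap.coe_snd',
    ContinuousLinearMap.coe_fst']

theorem Lop_jet (ha : 0 < a) (ha1 : a ≤ 1) (hS : SM S) {q : P2J a N} (hq : IsJet q) :
    HS.fn (Lop ha ha1 hS q) = LL S (HS.fn q.1) := by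
  funext x
  rw [fn_Lop, LL_eq hS hq.sp, hq.d1, hq.d2]
  congr 1
  refine Finset.sum_congr rfl fun i _ => Finset.sum_congr rfl fun j _ => ?_
  rw [← D2_eq hq.sp]
  rfl

theorem Lop_mem (ha : 0 < a) (ha1 : a ≤ 1) (hS : SM S) {q : P2J a N} (hq : q ∈ XX a N) :
    Lop ha ha1 hS q ∈ YY a N := by
  refine map_mem_closure (Lop ha ha1 hS).continuous hq fun p hp => ?_
  have hp' : IsJet p := hp
  have e := Lop_jet ha ha1 hS hp'
  exact ⟨by rw [e]; exact sp_LL hS hp'.sp, by rw [e]; exact mn_LL hS hp'.sp⟩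

/-- the operator `XX → YY` -/
def LX (ha : 0 < a) (ha1 : a ≤ 1) (hS : SM S) : XX a N →L[ℝ] YY a N :=
  ((Lop ha ha1 hS).comp (XX a N).subtypeL).codRestrict (YY a N) fun q => Lop_mem ha ha1 hS q.2

@[simp] theorem LX_coe (ha : 0 < a) (ha1 : a ≤ 1) (hS : SM S) (q : XX a N) :
    (LX ha ha1 hS q : HS a N ℝ) = Lop ha ha1 hS q := rfl

/-- a priori estimate, uniform -/
theorem apriori (N : ℕ) {a lam M : ℝ} (ha : 0 < a) (ha1 : a < 1) (hlam : 0 < lam) (hM : 0 ≤ M) :
    ∃ C : ℝ, 0 ≤ C ∧ ∀ (S : V N → Matrix (Fin N) (Fin N) ℝ) (hS : SM S), BdS a M S → El lam S →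
      ∀ q : XX a N, ‖q‖ ≤ C * ‖LX ha ha1.le hS q‖ := by
  obtain ⟨C, hC, H⟩ := torus_schauder_var N ha ha1 hlam hM
  refine ⟨C, hC.le, fun S hS hb hl q => ?_⟩
  have h1 : ∀ p : P2J a N, p ∈ XX a N → ‖p‖ ≤ C * ‖Lop ha ha1.le hS p‖ := by
    intro p hp
    have hcl : IsClosed {p : P2J a N | ‖p‖ ≤ C * ‖Lop ha ha1.le hS p‖} :=
      isClosed_le continuous_norm (continuous_const.mul (Lop ha ha1.le hS).continuous.norm)
    refine closure_minimal (fun p hp => ?_) hcl hp
    have hp' : IsJet p := hp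
    have h2 : HO a ‖Lop ha ha1.le hS p‖ univ (LL S (HS.fn p.1)) := by
      rw [← Lop_jet ha ha1.le hS hp']; exact HS.ho _
    obtain ⟨h3, h4, h5⟩ := H S hS hb hl _ hp'.sp hp'.mn0 _ h2
    rw [← hp'.d2] at h5
    rw [← hp'.d1] at h4
    show max ‖p.1‖ (max ‖p.2.1‖ ‖p.2.2‖) ≤ _
    exact max_le (norm_le h3) (max_le (norm_le h4) (norm_le h5))
  exact h1 q q.2

theorem sm_one : SM (fun _ : V N => (1 : Matrix (Fin N) (Fin N) ℝ)) := fun _ _ => SP.const _

theorem LL_one {w : V N → ℝ} (hw : SP w) (x : V N) :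
    LL (fun _ => (1 : Matrix (Fin N) (Fin N) ℝ)) w x = PP 1 w x := by
  rw [LL_eq sm_one hw]
  have h : ∀ i j : Fin N, dr i (fun _ : V N => (1 : Matrix (Fin N) (Fin N) ℝ) i j) x = 0 := by
    intro i j
    show fderiv ℝ (fun _ : V N => (1 : Matrix (Fin N) (Fin N) ℝ) i j) x (ee i) = 0
    rw [fderiv_const_apply]; rfl
  simp only [h, zero_mul, Finset.sum_const_zero, add_zero]
  rfl

theorem ell_one : Ell 1 1 (1 : Matrix (Fin N) (Fin N) ℝ) := by
  refine ⟨fun i j => by rw [Matrix.one_apply, Matrix.one_apply]; simp [eq_comm], fun z => ?_⟩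
  have e : ∑ i, ∑ j, (1 : Matrix (Fin N) (Fin N) ℝ) i j * z i * z j = ∑ i, z i ^ 2 := by
    refine Finset.sum_congr rfl fun i _ => ?_
    rw [Finset.sum_eq_single i]
    · rw [Matrix.one_apply_eq]; ring
    · intro j _ hj
      rw [Matrix.one_apply_ne (Ne.symm hj)]; ring
    · simp
  rw [e, one_mul]
  exact ⟨le_rfl, le_rfl⟩

/-- the segment from the identity -/
theorem seg_sm (hS : SM S) (t : ℝ) : SM (fun x => (1 - t) • (1 : Matrix (Fin N) (Fin N) ℝ) +
    t • S x) := fun i j => by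
  have h1 : SP fun x => (1 - t) * (1 : Matrix (Fin N) (Fin N) ℝ) i j + t * S x i j :=
    (SP.const _).add ((SP.const t).mul (hS i j))
  exact h1

theorem seg_LX (ha : 0 < a) (ha1 : a ≤ 1) (hS : SM S) (t : ℝ) :
    (1 - t) • LX ha ha1 (sm_one (N := N)) + t • LX ha ha1 hS = LX ha ha1 (seg_sm hS t) := by
  ext q : 1
  refine Subtype.ext (ext fun x => ?_)
  show (1 - t) * HS.fn (Lop ha ha1 (sm_one (N := N)) q) x + t * HS.fn (Lop ha ha1 hS q) x =
    HS.fn (Lop ha ha1 (seg_sm hS t) q) x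
  rw [fn_Lop, fn_Lop, fn_Lop]
  have h1 : ∀ i j : Fin N, dr i (fun _ : V N => (1 : Matrix (Fin N) (Fin N) ℝ) i j) x = 0 := by
    intro i j
    show fderiv ℝ (fun _ : V N => (1 : Matrix (Fin N) (Fin N) ℝ) i j) x (ee i) = 0
    rw [fderiv_const_apply]; rfl
  have h2 : ∀ i j : Fin N, dr i (fun y : V N => ((1 - t) • (1 : Matrix (Fin N) (Fin N) ℝ) +
      t • S y) i j) x = t * dr i (fun y => S y i j) x := by
    intro i j
    have e : (fun y : V N => ((1 - t) • (1 : Matrix (Fin N) (Fin N) ℝ) + t • S y) i j) =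
        fun y => (1 - t) * (1 : Matrix (Fin N) (Fin N) ℝ) i j + t * S y i j := rfl
    rw [e, dr_add (SP.const _) ((SP.const t).mul (hS i j)), dr_const_mul (hS i j)]
    show fderiv ℝ (fun _ : V N => (1 - t) * (1 : Matrix (Fin N) (Fin N) ℝ) i j) x (ee i) + _ = _
    rw [fderiv_const_apply]
    simp
  simp only [h1, h2]
  simp only [zero_mul, Finset.sum_const_zero, add_zero, Matrix.add_apply,
    Matrix.smul_apply, smul_eq_mul, add_mul, Finset.sum_add_distrib, mul_add, Finset.mul_sum,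
    mul_assoc]
  ring

theorem surj_one (ha : 0 < a) (ha1 : a < 1) :
    Function.Surjective (LX ha ha1.le (sm_one (N := N))) := by
  have hM : (0 : ℝ) ≤ 1 := zero_le_one
  have hb : BdS a 1 (fun _ : V N => (1 : Matrix (Fin N) (Fin N) ℝ)) := by
    refine ⟨fun i j => ho_const _ ?_, fun i j k => ?_⟩
    · rw [Matrix.one_apply]; split_ifs <;> simp
    · have e : dr k (fun _ : V N => (1 : Matrix (Fin N) (Fin N) ℝ) i j) = fun _ => (0 : ℝ) := by
        funext x
        show fderiv ℝ (fun _ : V N => (1 : Matrix (Fin N) (Fin N) ℝ) i j) x (ee k) = 0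
        rw [fderiv_const_apply]; rfl
      rw [e]
      exact ho_zero zero_le_one
  have hl : El 1 (fun _ : V N => (1 : Matrix (Fin N) (Fin N) ℝ)) := fun x z =>
    ((ell_one (N := N)).2 z).1
  obtain ⟨C, hC, H⟩ := apriori N ha ha1 one_pos hM
  have hcl := closed_range hC (H _ (sm_one (N := N)) hb hl)
  intro y
  have h1 : (YS a N : Set (HS a N ℝ)) ⊆
      (fun z : YY a N => (z : HS a N ℝ)) '' range (LX ha ha1.le (sm_one (N := N))) := by
    rintro u ⟨hu, hm⟩
    obtain ⟨w, hw, hwm, hw2⟩ := exists_sol (ell_one (N := N)) hu hm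
    refine ⟨⟨u, YS_le ⟨hu, hm⟩⟩, ⟨⟨jet ha ha1.le w hw, JS_le (jet_mem ha ha1.le hw hwm)⟩, ?_⟩, rfl⟩
    refine Subtype.ext (ext fun x => ?_)
    rw [LX_coe, Lop_jet ha ha1.le sm_one (jet_mem ha ha1.le hw hwm)]
    show LL _ w x = HS.fn u x
    rw [LL_one hw, hw2]
  have h2 : IsClosed ((fun z : YY a N => (z : HS a N ℝ)) ''
      range (LX ha ha1.le (sm_one (N := N)))) :=
    (Submodule.isClosed_topologicalClosure _).isClosedEmbedding_subtypeVal.isClosedMap _ hcl
  obtain ⟨z, hz, hzy⟩ := closure_minimal h1 h2 y.2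
  have : z = y := Subtype.ext hzy
  rwa [this] at hz

/-- **solvability of the variable coefficient equation** -/
theorem surj_LX (ha : 0 < a) (ha1 : a < 1) {lam : ℝ} (hlam : 0 < lam) (hS : SM S) (hl : El lam S) :
    Function.Surjective (LX ha ha1.le hS) := by
  -- bounds
  obtain ⟨M, hM0, hM⟩ : ∃ M : ℝ, 0 ≤ M ∧ ∀ t ∈ Icc (0 : ℝ) 1,
      BdS a M (fun x => (1 - t) • (1 : Matrix (Fin N) (Fin N) ℝ) + t • S x) := by
    have h0 : ∀ i j, ∃ m, HO a m univ fun x => S x i j := fun i j => (hS i j).ho ha.le ha1.le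
    have h1 : ∀ i j k, ∃ m, HO a m univ (dr k fun x => S x i j) := fun i j k =>
      ((hS i j).dr k).ho ha.le ha1.le
    choose m0 hm0 using h0
    choose m1 hm1 using h1
    have p0 : ∀ i j, 0 ≤ m0 i j := fun i j => (hm0 i j).nonneg (mem_univ 0)
    have p1 : ∀ i j k, 0 ≤ m1 i j k := fun i j k => (hm1 i j k).nonneg (mem_univ 0)
    have s0 : ∀ i j, m0 i j ≤ ∑ i, ∑ j, m0 i j := fun i j =>
      (Finset.single_le_sum (f := fun j => m0 i j) (fun j _ => p0 i j) (Finset.mem_univ j)).trans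
        (Finset.single_le_sum (f := fun i => ∑ j, m0 i j)
          (fun i _ => Finset.sum_nonneg fun j _ => p0 i j) (Finset.mem_univ i))
    have s1 : ∀ i j k, m1 i j k ≤ ∑ i, ∑ j, ∑ k, m1 i j k := fun i j k =>
      (Finset.single_le_sum (f := fun k => m1 i j k) (fun k _ => p1 i j k)
        (Finset.mem_univ k)).trans
      ((Finset.single_le_sum (f := fun j => ∑ k, m1 i j k)
        (fun j _ => Finset.sum_nonneg fun k _ => p1 i j k) (Finset.mem_univ j)).trans
        (Finset.single_le_sum (f := fun i => ∑ j, ∑ k, m1 i j k)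
          (fun i _ => Finset.sum_nonneg fun j _ => Finset.sum_nonneg fun k _ => p1 i j k)
          (Finset.mem_univ i)))
    have q0 : 0 ≤ ∑ i, ∑ j, m0 i j :=
      Finset.sum_nonneg fun i _ => Finset.sum_nonneg fun j _ => p0 i j
    have q1 : 0 ≤ ∑ i, ∑ j, ∑ k, m1 i j k :=
      Finset.sum_nonneg fun i _ => Finset.sum_nonneg fun j _ => Finset.sum_nonneg fun k _ => p1 i j k
    have hsc : ∀ {f : V N → ℝ} {m t : ℝ}, t ∈ Icc (0 : ℝ) 1 → HO a m univ f →
        HO a m univ fun x => t * f x := by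
      intro f m t ht hf
      have hm : 0 ≤ m := hf.nonneg (mem_univ 0)
      refine ⟨fun x hx => ?_, fun x hx y hy => ?_⟩
      · rw [norm_mul, Real.norm_eq_abs t, abs_of_nonneg ht.1]
        exact (mul_le_of_le_one_left (norm_nonneg _) ht.2).trans (hf.bdd x hx)
      · rw [← mul_sub, norm_mul, Real.norm_eq_abs t, abs_of_nonneg ht.1]
        exact (mul_le_of_le_one_left (norm_nonneg _) ht.2).trans (hf.hol x hx y hy)
    refine ⟨1 + ∑ i, ∑ j, m0 i j + ∑ i, ∑ j, ∑ k, m1 i j k, by positivity, fun t ht => ?_⟩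
    have ht' : 1 - t ∈ Icc (0 : ℝ) 1 := ⟨by linarith [ht.2], by linarith [ht.1]⟩
    refine ⟨fun i j => ?_, fun i j k => ?_⟩
    · have h1 : HO a 1 univ (fun _ : V N => (1 : Matrix (Fin N) (Fin N) ℝ) i j) := by
        refine ho_const _ ?_
        rw [Matrix.one_apply]; split_ifs <;> simp
      exact ((hsc ht' h1).add (hsc ht (hm0 i j))).mono (by linarith [s0 i j])
    · have e : dr k (fun x => ((1 - t) • (1 : Matrix (Fin N) (Fin N) ℝ) + t • S x) i j) =
          fun x => t * dr k (fun x => S x i j) x := by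
        funext x
        have e : (fun y : V N => ((1 - t) • (1 : Matrix (Fin N) (Fin N) ℝ) + t • S y) i j) =
            fun y => (1 - t) * (1 : Matrix (Fin N) (Fin N) ℝ) i j + t * S y i j := rfl
        rw [e, dr_add (SP.const _) ((SP.const t).mul (hS i j)), dr_const_mul (hS i j)]
        show fderiv ℝ (fun _ : V N => (1 - t) * (1 : Matrix (Fin N) (Fin N) ℝ) i j) x (ee k) + _ = _
        rw [fderiv_const_apply]
        simp
      rw [e]
      exact (hsc ht (hm1 i j k)).mono (by linarith [s1 i j k])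
  have hell : ∀ t ∈ Icc (0 : ℝ) 1,
      El (min 1 lam) (fun x => (1 - t) • (1 : Matrix (Fin N) (Fin N) ℝ) + t • S x) := by
    intro t ht x z
    have h1 := ((ell_one (N := N)).2 z).1
    have h2 := hl x z
    have hz : 0 ≤ ∑ i, z i ^ 2 := Finset.sum_nonneg fun _ _ => sq_nonneg _
    have e : ∑ i, ∑ j, ((1 - t) • (1 : Matrix (Fin N) (Fin N) ℝ) + t • S x) i j * z i * z j =
        (1 - t) * (∑ i, ∑ j, (1 : Matrix (Fin N) (Fin N) ℝ) i j * z i * z j) +
          t * ∑ i, ∑ j, S x i j * z i * z j := by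
      simp only [Matrix.add_apply, Matrix.smul_apply, smul_eq_mul, add_mul,
        Finset.sum_add_distrib, Finset.mul_sum, mul_assoc]
    rw [e]
    have a1 := mul_le_mul_of_nonneg_left h1 (by linarith [ht.2] : (0 : ℝ) ≤ 1 - t)
    have a2 := mul_le_mul_of_nonneg_left h2 ht.1
    have a3 : min 1 lam * ∑ i, z i ^ 2 ≤ 1 * ∑ i, z i ^ 2 :=
      mul_le_mul_of_nonneg_right (min_le_left _ _) hz
    have a4 : min 1 lam * ∑ i, z i ^ 2 ≤ lam * ∑ i, z i ^ 2 :=
      mul_le_mul_of_nonneg_right (min_le_right _ _) hz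
    have a5 := mul_le_mul_of_nonneg_left a3 (by linarith [ht.2] : (0 : ℝ) ≤ 1 - t)
    have a6 := mul_le_mul_of_nonneg_left a4 ht.1
    linarith
  obtain ⟨C, hC, H⟩ := apriori N ha ha1 (lt_min one_pos hlam) hM0
  refine cont_method (LX ha ha1.le (sm_one (N := N))) (LX ha ha1.le hS) hC (fun t ht q => ?_)
    (surj_one ha ha1)
  rw [seg_LX]
  exact H _ (seg_sm hS t) (hM t ht) (hell t ht) q

theorem inj_LX (ha : 0 < a) (ha1 : a < 1) {lam : ℝ} (hlam : 0 < lam) (hS : SM S) (hl : El lam S) :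
    Function.Injective (LX ha ha1.le hS) := by
  have h0 : ∀ i j, ∃ m, HO a m univ fun x => S x i j := fun i j => (hS i j).ho ha.le ha1.le
  have h1 : ∀ i j k, ∃ m, HO a m univ (dr k fun x => S x i j) := fun i j k =>
    ((hS i j).dr k).ho ha.le ha1.le
  choose m0 hm0 using h0
  choose m1 hm1 using h1
  have p0 : ∀ i j, 0 ≤ m0 i j := fun i j => (hm0 i j).nonneg (mem_univ 0)
  have p1 : ∀ i j k, 0 ≤ m1 i j k := fun i j k => (hm1 i j k).nonneg (mem_univ 0)
  have s0 : ∀ i j, m0 i j ≤ ∑ i, ∑ j, m0 i j := fun i j =>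
    (Finset.single_le_sum (f := fun j => m0 i j) (fun j _ => p0 i j) (Finset.mem_univ j)).trans
      (Finset.single_le_sum (f := fun i => ∑ j, m0 i j)
        (fun i _ => Finset.sum_nonneg fun j _ => p0 i j) (Finset.mem_univ i))
  have s1 : ∀ i j k, m1 i j k ≤ ∑ i, ∑ j, ∑ k, m1 i j k := fun i j k =>
    (Finset.single_le_sum (f := fun k => m1 i j k) (fun k _ => p1 i j k)
      (Finset.mem_univ k)).trans
    ((Finset.single_le_sum (f := fun j => ∑ k, m1 i j k)
      (fun j _ => Finset.sum_nonneg fun k _ => p1 i j k) (Finset.mem_univ j)).trans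
      (Finset.single_le_sum (f := fun i => ∑ j, ∑ k, m1 i j k)
        (fun i _ => Finset.sum_nonneg fun j _ => Finset.sum_nonneg fun k _ => p1 i j k)
        (Finset.mem_univ i)))
  have q0 : 0 ≤ ∑ i, ∑ j, m0 i j :=
    Finset.sum_nonneg fun i _ => Finset.sum_nonneg fun j _ => p0 i j
  have q1 : 0 ≤ ∑ i, ∑ j, ∑ k, m1 i j k :=
    Finset.sum_nonneg fun i _ => Finset.sum_nonneg fun j _ => Finset.sum_nonneg fun k _ => p1 i j k
  have hb : BdS a (∑ i, ∑ j, m0 i j + ∑ i, ∑ j, ∑ k, m1 i j k) S :=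
    ⟨fun i j => (hm0 i j).mono (by linarith [s0 i j]),
      fun i j k => (hm1 i j k).mono (by linarith [s1 i j k])⟩
  obtain ⟨C, hC, H⟩ := apriori N ha ha1 hlam
    (M := ∑ i, ∑ j, m0 i j + ∑ i, ∑ j, ∑ k, m1 i j k) (add_nonneg q0 q1)
  rw [injective_iff_map_eq_zero]
  intro q hq
  have := H S hS hb hl q
  rw [hq, norm_zero, mul_zero] at this
  exact norm_le_zero_iff.1 this

end op

end

end Crest.Agent.R235.TorSp_384
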