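import Crest.Agent.R235.Pull_153
import Crest.Agent.R235.Spray_153
import Crest.Agent.R281.Mc2_673

/-!
# Row 235, TOR / FIB-B1a (helper153): the normalised tube around a lagrangian torus

`exists_tube`: `EmbT s`, `Pos3 w`, `w 1`, `w 2` vanish on `s` ⇒ `∃ r T, TubeT w s r T`.
-/

set_option autoImplicit false
set_option maxSynthPendingDepth 3

open Set Function Filter
open scoped Manifold ContDiff Topology

universe u

namespace Crest.Agent.R235.Tube_153

open Crest.Agent.R240 Crest.Agent.R240.Ch Crest.Agent.R235.Pull_153 Crest.Agent.R235.Spray_153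
open Crest.Agent.R281.Mc673 (kv tube cube isCompact_cube exists_cube Per ClF isOpen_tube)

noncomputable section

/-! ### linear algebra -/

theorem nondeg {b : Bil} (hb : Alt b) (hW : Crest.Agent.R240.W b b ≠ 0) {v : E4}
    (h : ∀ u, b v u = 0) : v = 0 := by
  have h0 := h (ee 0)
  have h1 := h (ee 1)
  have h2 := h (ee 2)
  have h3 := h (ee 3)
  rw [alt_expand hb] at h0 h1 h2 h3
  simp [ee] at h0 h1 h2 h3
  have hW' : ent b 0 1 * ent b 2 3 - ent b 0 2 * ent b 1 3 + ent b 0 3 * ent b 1 2 ≠ 0 := by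
    intro h5
    apply hW
    unfold Crest.Agent.R240.W
    linear_combination 2 * h5
  ext i
  have key : (ent b 0 1 * ent b 2 3 - ent b 0 2 * ent b 1 3 + ent b 0 3 * ent b 1 2) * v i = 0 := by
    fin_cases i
    · simp only [Fin.zero_eta, Fin.isValue]
      linear_combination ent b 2 3 * h1 - ent b 1 3 * h2 + ent b 1 2 * h3
    · simp only [Fin.mk_one, Fin.isValue]
      linear_combination - ent b 2 3 * h0 + ent b 0 3 * h2 - ent b 0 2 * h3
    · simp only [Fin.reduceFinMk, Fin.isValue]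
      linear_combination ent b 1 3 * h0 - ent b 0 3 * h1 + ent b 0 1 * h3
    · simp only [Fin.reduceFinMk, Fin.isValue]
      linear_combination - ent b 1 2 * h0 + ent b 0 2 * h1 - ent b 0 1 * h2
  simpa using (mul_eq_zero.1 key).resolve_left hW'

/-! ### generalities on maps to `M` -/

section Gen

variable {V : Type} [NormedAddCommGroup V] [NormedSpace ℝ V]
variable {M : Type u} [TopologicalSpace M] [ChartedSpace E4 M]

theorem Dm_add {T : V → M} {c : V} (h : ∀ q, T (q + c) = T q) (p : V) :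
    Dm T (p + c) = Dm T p := by
  unfold Dm
  rw [h p]
  have h5 : (fun z : V => chartAt E4 (T p) (T z)) =
      fun z => (fun z' : V => chartAt E4 (T p) (T z')) (z + c) := by
    funext z
    show chartAt E4 (T p) (T z) = chartAt E4 (T p) (T (z + c))
    rw [h z]
  have h6 := fderiv_comp_add_right (𝕜 := ℝ) (f := fun z' : V => chartAt E4 (T p) (T z'))
    (x := p) c
  rw [← h6, ← h5]

theorem pbF_add {T : V → M} {c : V} (h : ∀ q, T (q + c) = T q) (a : F2 E4 M) (p : V) :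
    pbF T a (p + c) = pbF T a p := by
  unfold pbF
  rw [Dm_add h, h]

variable [IsManifold 𝓘(ℝ, E4) ∞ M]

/-- a smooth map with bijective differential is locally injective -/
theorem loc_inj [FiniteDimensional ℝ V] {T : V → M} {p : V}
    (hT : ContMDiffAt 𝓘(ℝ, V) 𝓘(ℝ, E4) ∞ T p) (hb : Bijective (Dm T p)) :
    ∃ g : E4 → V, ∀ᶠ x in 𝓝 p, g (chartAt E4 (T p) (T x)) = x := by
  have h1 : ContDiffAt ℝ ∞ (fun z => chartAt E4 (T p) (T z)) p :=
    chart_comp le_rfl hT (mem_chart_source E4 (T p))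
  have h2 : HasStrictFDerivAt (fun z => chartAt E4 (T p) (T z)) (Dm T p) p :=
    h1.hasStrictFDerivAt (by simp)
  have : CompleteSpace V := FiniteDimensional.complete ℝ V
  let e : V ≃L[ℝ] E4 := ContinuousLinearEquiv.ofBijective (Dm T p)
    (LinearMap.ker_eq_bot.2 hb.1) (LinearMap.range_eq_top.2 hb.2)
  have he : (e : V →L[ℝ] E4) = Dm T p := by
    ext v; rfl
  rw [← he] at h2
  exact ⟨_, h2.eventually_left_inverse⟩

variable {V' : Type} [NormedAddCommGroup V'] [NormedSpace ℝ V']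

theorem Dm_left {T : V × V' → M} {y : V} {v : V'}
    (hT : ContMDiffAt 𝓘(ℝ, V × V') 𝓘(ℝ, E4) 1 T (y, v)) (u : V) :
    Dm T (y, v) (u, 0) = Dm (fun z => T (z, v)) y u := by
  have hg : HasFDerivAt (fun z : V => (z, v)) (ContinuousLinearMap.inl ℝ V V') y :=
    (hasFDerivAt_id y).prodMk (hasFDerivAt_const v y)
  have h := Dm_comp (σ := T) (g := fun z : V => (z, v)) (y := y) hT hg.differentiableAt
  have h2 : Dm (fun z => T (z, v)) y = Dm (T ∘ fun z : V => (z, v)) y := rfl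
  rw [h2, h, hg.fderiv]
  rfl

theorem Dm_right {T : V × V' → M} {y : V} {v : V'}
    (hT : ContMDiffAt 𝓘(ℝ, V × V') 𝓘(ℝ, E4) 1 T (y, v)) (u : V') :
    Dm T (y, v) (0, u) = Dm (fun z => T (y, z)) v u := by
  have hg : HasFDerivAt (fun z : V' => (y, z)) (ContinuousLinearMap.inr ℝ V V') v :=
    (hasFDerivAt_const y v).prodMk (hasFDerivAt_id v)
  have h := Dm_comp (σ := T) (g := fun z : V' => (y, z)) (y := v) hT hg.differentiableAt
  have h2 : Dm (fun z => T (y, z)) v = Dm (T ∘ fun z : V' => (y, z)) v := rfl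
  rw [h2, h, hg.fderiv]
  rfl

end Gen

/-! ### the structure -/

section Str

variable {M : Type u} [TopologicalSpace M] [ChartedSpace E4 M] [IsManifold 𝓘(ℝ, E4) ∞ M]

/-- a normalised tube around the torus `s`, lagrangian for `w 1` and `w 2` -/
structure TubeT (w : Trip M) (s : Ep → M) (r : ℝ) (T : Ep × Ep → M) : Prop where
  pos : 0 < r
  smooth : ∀ p ∈ tube 2 r, ContMDiffAt 𝓘(ℝ, Ep × Ep) 𝓘(ℝ, E4) ∞ T p
  per : ∀ (n : Fin 2 → ℤ) (p : Ep × Ep), T (p.1 + kv n, p.2) = T p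
  zero : ∀ y, T (y, 0) = s y
  bij : ∀ p ∈ tube 2 r, Bijective (Dm T p)
  inj : ∀ p ∈ tube 2 r, ∀ q ∈ tube 2 r, T p = T q → q.2 = p.2 ∧ ∃ n : Fin 2 → ℤ, q.1 = p.1 + kv n
  norm : ∀ y u v : Ep, pbF T (w 1).1.1 (y, 0) (0, v) (u, 0) = inner ℝ v u
  hor1 : ∀ y u v : Ep, pbF T (w 1).1.1 (y, 0) (u, 0) (v, 0) = 0
  hor2 : ∀ y u v : Ep, pbF T (w 2).1.1 (y, 0) (u, 0) (v, 0) = 0
  nondeg : ∀ p ∈ tube 2 r, ∀ c : Fin 3 → ℝ, c ≠ 0 → ∀ u,
    (∀ v, ∑ i, c i * pbF T (w i).1.1 p u v = 0) → u = 0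

/-- the pulled back forms -/
theorem TubeT.clF {w : Trip M} {s : Ep → M} {r : ℝ} {T : Ep × Ep → M} (h : TubeT w s r T)
    (a : Z2 M) : ClF r (pbF T (a.1.1 : F2 E4 M)) :=
  clF_pbF h.smooth h.per a

theorem TubeT.mono {w : Trip M} {s : Ep → M} {r r' : ℝ} {T : Ep × Ep → M} (h : TubeT w s r T)
    (h0 : 0 < r') (hr : r' ≤ r) : TubeT w s r' T := by
  have hs : tube 2 r' ⊆ tube 2 r := fun p hp => lt_of_lt_of_le (show ‖p.2‖ < r' from hp) hr
  exact ⟨h0, fun p hp => h.smooth p (hs hp), h.per, h.zero, fun p hp => h.bij p (hs hp),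
    fun p hp q hq => h.inj p (hs hp) q (hs hq), h.norm, h.hor1, h.hor2,
    fun p hp => h.nondeg p (hs hp)⟩

end Str

/-! ### the normal frame -/

section Frame

variable {n : ℕ}

/-- the Riesz vector of a linear form -/
def rz (l : EuclideanSpace ℝ (Fin n) →L[ℝ] ℝ) : EuclideanSpace ℝ (Fin n) :=
  ∑ i, l (EuclideanSpace.single i 1) • EuclideanSpace.single i (1 : ℝ)

theorem rz_inner (l : EuclideanSpace ℝ (Fin n) →L[ℝ] ℝ) (v : EuclideanSpace ℝ (Fin n)) :
    inner ℝ (rz l) v = l v := by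
  have hv : v = ∑ i, v i • EuclideanSpace.single i (1 : ℝ) := by
    ext j
    simp [Finset.sum_apply, Pi.single_apply]
  conv_rhs => rw [hv, map_sum]
  rw [rz, sum_inner]
  refine Finset.sum_congr rfl fun i _ => ?_
  rw [inner_smul_left, EuclideanSpace.inner_single_left, map_smul]
  simp [mul_comm]

theorem rz_contDiff {V : Type} [NormedAddCommGroup V] [NormedSpace ℝ V]
    {l : V → EuclideanSpace ℝ (Fin n) →L[ℝ] ℝ} (hl : ContDiff ℝ ∞ l) :
    ContDiff ℝ ∞ fun y => rz (l y) := by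
  unfold rz
  exact ContDiff.sum fun i _ => (hl.clm_apply contDiff_const).smul contDiff_const

/-- the dual frame of two linearly independent vectors -/
def dfr (x y : EuclideanSpace ℝ (Fin n)) : EuclideanSpace ℝ (Fin n) :=
  (inner ℝ x x * inner ℝ y y - inner ℝ x y * inner ℝ x y : ℝ)⁻¹ •
    ((inner ℝ y y : ℝ) • x - (inner ℝ x y : ℝ) • y)

theorem gram_ne {x y : EuclideanSpace ℝ (Fin n)}
    (h : ∀ a b : ℝ, a • x + b • y = 0 → a = 0 ∧ b = 0) :
    (inner ℝ x x * inner ℝ y y - inner ℝ x y * inner ℝ x y : ℝ) ≠ 0 := by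
  intro h0
  have hz : (inner ℝ y y : ℝ) • x + (-(inner ℝ x y : ℝ)) • y = 0 := by
    rw [← inner_self_eq_zero (𝕜 := ℝ)]
    simp only [inner_add_left, inner_add_right, inner_smul_left, inner_smul_right,
      RCLike.conj_to_real]
    rw [real_inner_comm x y]
    linear_combination (inner ℝ y y : ℝ) * h0
  have h1 := (h _ _ hz).1
  rw [inner_self_eq_zero] at h1
  have h2 := (h 0 1 (by simp [h1])).2
  exact one_ne_zero h2

theorem dfr_left {x y : EuclideanSpace ℝ (Fin n)}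
    (h : (inner ℝ x x * inner ℝ y y - inner ℝ x y * inner ℝ x y : ℝ) ≠ 0) :
    inner ℝ x (dfr x y) = (1 : ℝ) := by
  rw [dfr, inner_smul_right, inner_sub_right, inner_smul_right, inner_smul_right,
    mul_comm (inner ℝ y y : ℝ) (inner ℝ x x : ℝ)]
  exact inv_mul_cancel₀ h

theorem dfr_right {x y : EuclideanSpace ℝ (Fin n)} :
    inner ℝ y (dfr x y) = (0 : ℝ) := by
  rw [dfr, inner_smul_right, inner_sub_right, inner_smul_right, inner_smul_right,
    real_inner_comm x y]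
  ring

theorem dfr_contDiff {V : Type} [NormedAddCommGroup V] [NormedSpace ℝ V]
    {f g : V → EuclideanSpace ℝ (Fin n)} (hf : ContDiff ℝ ∞ f) (hg : ContDiff ℝ ∞ g)
    (h : ∀ v, (inner ℝ (f v) (f v) * inner ℝ (g v) (g v) -
      inner ℝ (f v) (g v) * inner ℝ (f v) (g v) : ℝ) ≠ 0) :
    ContDiff ℝ ∞ fun v => dfr (f v) (g v) := by
  unfold dfr
  refine (ContDiff.inv ?_ h).smul ?_
  · exact ((hf.inner ℝ hf).mul (hg.inner ℝ hg)).sub ((hf.inner ℝ hg).mul (hf.inner ℝ hg))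
  · exact ((hg.inner ℝ hg).smul hf).sub ((hf.inner ℝ hg).smul hg)

end Frame

/-! ### the construction -/

section Con

variable {M : Type u} [TopologicalSpace M] [ChartedSpace E4 M] [IsManifold 𝓘(ℝ, E4) ∞ M]

theorem alt_val (a : Z2 M) (x : M) : Alt (at2 (a.1.1 : F2 E4 M) x) := by
  intro v
  have h := a.1.2.antisymm x v v
  linarith

theorem nondeg_val {w : Trip M} (hw : Pos3 w) (x : M) {c : Fin 3 → ℝ} (hc : c ≠ 0) {v : E4}
    (h : ∀ u, ∑ i, c i * at2 ((w i).1.1 : F2 E4 M) x v u = 0) : v = 0 := by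
  have h1 := hw x c hc
  have hb : Alt (∑ i, c i • val (w i) x) := by
    intro v
    simp only [_root_.sum_apply, _root_.smul_apply]
    refine Finset.sum_eq_zero fun i _ => ?_
    have h2 : val (w i) x v v = 0 := alt_val (w i) x v
    rw [h2, smul_zero]
  refine nondeg hb h1 fun u => ?_
  simp only [_root_.sum_apply, _root_.smul_apply, smul_eq_mul]
  exact h u

variable [T2Space M] [CompactSpace M]

theorem exists_map (w : Trip M) (hw : Pos3 w) (s : Ep → M) (hs : EmbT s) :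
    ∃ (r : ℝ) (T : Ep × Ep → M), 0 < r ∧
      (∀ p ∈ tube 2 r, ContMDiffAt 𝓘(ℝ, Ep × Ep) 𝓘(ℝ, E4) ∞ T p) ∧
      (∀ (n : Fin 2 → ℤ) (p : Ep × Ep), T (p.1 + kv n, p.2) = T p) ∧
      (∀ y, T (y, 0) = s y) ∧
      (∀ y u v : Ep, pbF T (w 1).1.1 (y, 0) (0, v) (u, 0) = inner ℝ v u) := by
  obtain ⟨n, F, r, hF⟩ := exists_spray (M := M)
  have hss : ∀ y, ContMDiffAt 𝓘(ℝ, Ep) 𝓘(ℝ, E4) ∞ s y := fun y => hs.smooth y
  set Φ : Ep × EuclideanSpace ℝ (Fin n) → M := fun p => F (s p.1) p.2 with hΦd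
  have hΦ : ∀ (y : Ep) (v : EuclideanSpace ℝ (Fin n)), ‖v‖ < r →
      ContMDiffAt 𝓘(ℝ, Ep × EuclideanSpace ℝ (Fin n)) 𝓘(ℝ, E4) ∞ Φ (y, v) := by
    intro y v hv
    have h1 : ContMDiffAt 𝓘(ℝ, Ep × EuclideanSpace ℝ (Fin n)) 𝓘(ℝ, E4) ∞
        (fun p : Ep × EuclideanSpace ℝ (Fin n) => s p.1) (y, v) :=
      ContMDiffAt.comp (y, v) (hss y) contDiff_fst.contMDiff.contMDiffAt
    have h2 : ContMDiffAt 𝓘(ℝ, Ep × EuclideanSpace ℝ (Fin n)) 𝓘(ℝ, EuclideanSpace ℝ (Fin n)) ∞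
        (fun p : Ep × EuclideanSpace ℝ (Fin n) => p.2) (y, v) :=
      contDiff_snd.contMDiff.contMDiffAt
    exact ContMDiffAt.comp (y, v) (g := fun q : M × EuclideanSpace ℝ (Fin n) => F q.1 q.2)
      (f := fun p : Ep × EuclideanSpace ℝ (Fin n) => (s p.1, p.2)) (hF.smooth (s y) v hv)
      (h1.prodMk h2)
  have hΦ0 : ∀ y, ContMDiffAt 𝓘(ℝ, Ep × EuclideanSpace ℝ (Fin n)) 𝓘(ℝ, E4) ∞ Φ (y, 0) :=
    fun y => hΦ y 0 (by rw [norm_zero]; exact hF.pos)
  have hs1 : (fun z => Φ (z, 0)) = s := funext fun z => hF.zero (s z)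
  have hΦz : ∀ y, Φ (y, 0) = s y := fun y => hF.zero (s y)
  have hD1 : ∀ y u, Dm Φ (y, 0) (u, 0) = Dm s y u := by
    intro y u
    rw [Dm_left ((hΦ0 y).of_le (by simp)), hs1]
  have hD2 : ∀ y (x : EuclideanSpace ℝ (Fin n)), Dm Φ (y, 0) (0, x) = Dm (F (s y)) 0 x := by
    intro y x
    rw [Dm_right ((hΦ0 y).of_le (by simp))]
  -- the pairing
  set q : Ep → Ep × EuclideanSpace ℝ (Fin n) →L[ℝ] Ep × EuclideanSpace ℝ (Fin n) →L[ℝ] ℝ :=
    fun y => pbF Φ (w 1).1.1 (y, 0) with hqd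
  have hq : ContDiff ℝ ∞ q := contDiff_iff_contDiffAt.2 fun y =>
    ContDiffAt.comp y (g := pbF Φ (w 1).1.1) (f := fun y : Ep => (y, (0 : EuclideanSpace ℝ (Fin n))))
      (pbF_contDiffAt (hΦ0 y) (w 1).1.2) (contDiff_id.prodMk contDiff_const).contDiffAt
  have hqp : ∀ (k : Fin 2 → ℤ) (y : Ep), q (y + kv k) = q y := by
    intro k y
    have h := pbF_add (T := Φ) (c := ((kv k : Ep), (0 : EuclideanSpace ℝ (Fin n))))
      (fun p => by
        show F (s (p.1 + kv k)) (p.2 + 0) = F (s p.1) p.2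
        rw [add_zero, show s (p.1 + kv k) = s p.1 from hs.per p.1 k]) (w 1).1.1 (y, 0)
    have h2 : ((y, 0) + (kv k, 0) : Ep × EuclideanSpace ℝ (Fin n)) = (y + kv k, 0) := by
      ext1 <;> simp
    rw [h2] at h
    exact h
  have hqe : ∀ y (x : EuclideanSpace ℝ (Fin n)) (u : Ep), q y (0, x) (u, 0) =
      at2 ((w 1).1.1 : F2 E4 M) (s y) (Dm (F (s y)) 0 x) (Dm s y u) := by
    intro y x u
    show pbF Φ (w 1).1.1 (y, 0) (0, x) (u, 0) = _
    rw [pbF_apply, hD1, hD2, hΦz]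
  let l : Fin 2 → Ep → EuclideanSpace ℝ (Fin n) →L[ℝ] ℝ := fun k y =>
    ((q y).flip (EuclideanSpace.single k 1, 0)).comp (ContinuousLinearMap.inr ℝ Ep _)
  have hl : ∀ k y x, l k y x = q y (0, x) (EuclideanSpace.single k 1, 0) := fun _ _ _ => rfl
  let β : Fin 2 → Ep → EuclideanSpace ℝ (Fin n) := fun k y => rz (l k y)
  have hβs : ∀ k, ContDiff ℝ ∞ (β k) := by
    intro k
    show ContDiff ℝ ∞ fun y => ∑ i, (q y (0, EuclideanSpace.single i 1)
      (EuclideanSpace.single k 1, 0)) • EuclideanSpace.single i (1 : ℝ)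
    exact ContDiff.sum fun i _ =>
      ((hq.clm_apply contDiff_const).clm_apply contDiff_const).smul contDiff_const
  have hβp : ∀ k (m : Fin 2 → ℤ) y, β k (y + kv m) = β k y := by
    intro k m y
    show rz (l k (y + kv m)) = rz (l k y)
    have : l k (y + kv m) = l k y := by
      show ((q (y + kv m)).flip _).comp _ = ((q y).flip _).comp _
      rw [hqp]
    rw [this]
  have hu : ∀ u : Ep, u = u 0 • EuclideanSpace.single 0 (1 : ℝ) +
      u 1 • EuclideanSpace.single 1 (1 : ℝ) := by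
    intro u
    ext i
    fin_cases i <;> simp
  have hqβ : ∀ y x (u : Ep), q y (0, x) (u, 0) =
      u 0 * inner ℝ (β 0 y) x + u 1 * inner ℝ (β 1 y) x := by
    intro y x u
    have h1 : inner ℝ (β 0 y) x = q y (0, x) (EuclideanSpace.single 0 1, 0) := rz_inner _ _
    have h2 : inner ℝ (β 1 y) x = q y (0, x) (EuclideanSpace.single 1 1, 0) := rz_inner _ _
    have h3 : ((u, 0) : Ep × EuclideanSpace ℝ (Fin n)) =
        u 0 • (EuclideanSpace.single 0 (1 : ℝ), 0) + u 1 • (EuclideanSpace.single 1 (1 : ℝ), 0) := by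
      ext1
      · simpa using hu u
      · simp
    rw [h1, h2, h3, map_add, map_smul, map_smul, smul_eq_mul, smul_eq_mul]
  have hLI : ∀ y, ∀ a b : ℝ, a • β 0 y + b • β 1 y = 0 → a = 0 ∧ b = 0 := by
    intro y a b hab
    set u : Ep := a • EuclideanSpace.single 0 (1 : ℝ) + b • EuclideanSpace.single 1 (1 : ℝ) with hud
    have hu0 : u 0 = a := by simp [hud]
    have hu1 : u 1 = b := by simp [hud]
    have h1 : ∀ x, q y (0, x) (u, 0) = 0 := by
      intro x
      rw [hqβ, hu0, hu1]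
      have h2 : inner ℝ (a • β 0 y + b • β 1 y) x = (0 : ℝ) := by rw [hab, inner_zero_left]
      rw [inner_add_left, inner_smul_left, inner_smul_left] at h2
      simpa using h2
    have h3 : Dm s y u = 0 := by
      refine nondeg_val hw (s y) (c := Pi.single 1 1) (by simp) fun z => ?_
      obtain ⟨x, rfl⟩ := hF.onto (s y) (mem_univ _) z
      have h4 := h1 x
      rw [hqe] at h4
      rw [Finset.sum_eq_single 1]
      · rw [Pi.single_eq_same, one_mul, (alt_val (w 1) (s y)).swap, h4, neg_zero]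
      · intro i _ hi
        rw [Pi.single_eq_of_ne hi, zero_mul]
      · intro h; exact absurd (Finset.mem_univ _) h
    have h5 : u = 0 := hs.imm y u h3
    rw [← hu0, ← hu1, h5]
    simp
  have hne : ∀ y, _ := fun y => gram_ne (hLI y)
  have hne' : ∀ y, (inner ℝ (β 1 y) (β 1 y) * inner ℝ (β 0 y) (β 0 y) -
      inner ℝ (β 1 y) (β 0 y) * inner ℝ (β 1 y) (β 0 y) : ℝ) ≠ 0 := by
    intro y
    rw [real_inner_comm (β 0 y) (β 1 y), mul_comm (inner ℝ (β 1 y) (β 1 y) : ℝ)]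
    exact hne y
  let N0 : Ep → EuclideanSpace ℝ (Fin n) := fun y => dfr (β 0 y) (β 1 y)
  let N1 : Ep → EuclideanSpace ℝ (Fin n) := fun y => dfr (β 1 y) (β 0 y)
  have hN0 : ContDiff ℝ ∞ N0 := dfr_contDiff (hβs 0) (hβs 1) hne
  have hN1 : ContDiff ℝ ∞ N1 := dfr_contDiff (hβs 1) (hβs 0) hne'
  have hN0p : Per N0 := fun k y => by
    show dfr (β 0 (y + kv k)) (β 1 (y + kv k)) = dfr (β 0 y) (β 1 y)
    rw [hβp, hβp]
  have hN1p : Per N1 := fun k y => by
    show dfr (β 1 (y + kv k)) (β 0 (y + kv k)) = dfr (β 1 y) (β 0 y)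
    rw [hβp, hβp]
  obtain ⟨C0, hC0, hC0'⟩ := hN0p.bdd hN0.continuous
  obtain ⟨C1, hC1, hC1'⟩ := hN1p.bdd hN1.continuous
  let L : Ep → Ep →L[ℝ] EuclideanSpace ℝ (Fin n) := fun y =>
    (EuclideanSpace.proj (0 : Fin 2)).smulRight (N0 y) +
      (EuclideanSpace.proj (1 : Fin 2)).smulRight (N1 y)
  have hL : ∀ y (v : Ep), L y v = v 0 • N0 y + v 1 • N1 y := fun _ _ => rfl
  have hLb : ∀ y (v : Ep), ‖L y v‖ ≤ (C0 + C1) * ‖v‖ := by
    intro y v
    have a0 : |v 0| ≤ ‖v‖ := PiLp.norm_apply_le v 0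
    have a1 : |v 1| ≤ ‖v‖ := PiLp.norm_apply_le v 1
    rw [hL]
    refine (norm_add_le _ _).trans ?_
    rw [norm_smul, norm_smul, Real.norm_eq_abs, Real.norm_eq_abs]
    have b0 := hC0' y
    have b1 := hC1' y
    have := mul_le_mul a0 b0 (norm_nonneg _) (norm_nonneg v)
    have := mul_le_mul a1 b1 (norm_nonneg _) (norm_nonneg v)
    linarith
  have hr0 : 0 < r / (C0 + C1 + 1) := div_pos hF.pos (by positivity)
  let T : Ep × Ep → M := fun p => F (s p.1) (L p.1 p.2)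
  have hh : ContDiff ℝ ∞ fun p : Ep × Ep => (p.1, L p.1 p.2) := by
    refine contDiff_fst.prodMk ?_
    show ContDiff ℝ ∞ fun p : Ep × Ep => p.2 0 • N0 p.1 + p.2 1 • N1 p.1
    have c0 : ContDiff ℝ ∞ fun p : Ep × Ep => p.2 0 :=
      (EuclideanSpace.proj (𝕜 := ℝ) (0 : Fin 2)).contDiff.comp contDiff_snd
    have c1 : ContDiff ℝ ∞ fun p : Ep × Ep => p.2 1 :=
      (EuclideanSpace.proj (𝕜 := ℝ) (1 : Fin 2)).contDiff.comp contDiff_snd
    exact (c0.smul (hN0.comp contDiff_fst)).add (c1.smul (hN1.comp contDiff_fst))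
  have hTs : ∀ p ∈ tube 2 (r / (C0 + C1 + 1)), ContMDiffAt 𝓘(ℝ, Ep × Ep) 𝓘(ℝ, E4) ∞ T p := by
    intro p hp
    have hp' : ‖p.2‖ < r / (C0 + C1 + 1) := hp
    have h1 : ‖L p.1 p.2‖ < r := by
      rw [lt_div_iff₀ (by positivity)] at hp'
      refine (hLb p.1 p.2).trans_lt (lt_of_le_of_lt ?_ hp')
      nlinarith [norm_nonneg p.2]
    exact ContMDiffAt.comp p (g := Φ) (f := fun p : Ep × Ep => (p.1, L p.1 p.2))
      (hΦ p.1 (L p.1 p.2) h1) hh.contMDiff.contMDiffAt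
  have hT0 : ∀ y, T (y, 0) = s y := by
    intro y
    show F (s y) (L y 0) = s y
    rw [map_zero, hF.zero]
  have hTy : (fun z => T (z, 0)) = s := funext hT0
  refine ⟨r / (C0 + C1 + 1), T, hr0, hTs, ?_, hT0, ?_⟩
  · intro k p
    show F (s (p.1 + kv k)) (L (p.1 + kv k) p.2) = F (s p.1) (L p.1 p.2)
    rw [show s (p.1 + kv k) = s p.1 from hs.per p.1 k, hL, hL, hN0p, hN1p]
  · intro y u v
    have hTy0 : ContMDiffAt 𝓘(ℝ, Ep × Ep) 𝓘(ℝ, E4) 1 T (y, 0) :=
      (hTs (y, 0) (show ‖(0 : Ep)‖ < _ by rw [norm_zero]; exact hr0)).of_le (by simp)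
    have e1 : Dm T (y, 0) (u, 0) = Dm s y u := by rw [Dm_left hTy0, hTy]
    have e2 : Dm T (y, 0) (0, v) = Dm (F (s y)) 0 (L y v) := by
      rw [Dm_right hTy0]
      have h3 : (fun z => T (y, z)) = F (s y) ∘ (L y) := rfl
      have h4 : ContMDiffAt 𝓘(ℝ, EuclideanSpace ℝ (Fin n)) 𝓘(ℝ, E4) 1 (F (s y)) (L y 0) := by
        rw [map_zero]
        exact (hF.smooth1 (s y) (by rw [norm_zero]; exact hF.pos)).of_le (by simp)
      rw [h3, Dm_comp h4 (L y).differentiableAt, (L y).fderiv, map_zero]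
      rfl
    rw [pbF_apply, e1, e2, hT0, ← hqe, hqβ, hL]
    simp only [inner_add_right, inner_smul_right]
    have f00 : inner ℝ (β 0 y) (N0 y) = (1 : ℝ) := dfr_left (hne y)
    have f10 : inner ℝ (β 1 y) (N0 y) = (0 : ℝ) := dfr_right
    have f11 : inner ℝ (β 1 y) (N1 y) = (1 : ℝ) := dfr_left (hne' y)
    have f01 : inner ℝ (β 0 y) (N1 y) = (0 : ℝ) := dfr_right
    rw [f00, f10, f11, f01, PiLp.inner_apply]
    simp

end Con

/-! ### the tube -/

section Fin

variable {M : Type u} [TopologicalSpace M] [ChartedSpace E4 M] [IsManifold 𝓘(ℝ, E4) ∞ M]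

theorem dim_bij (A : Ep × Ep →L[ℝ] E4) (h : Injective A) : Bijective A := by
  refine ⟨h, ?_⟩
  have hd : Module.finrank ℝ (Ep × Ep) = Module.finrank ℝ E4 := by
    rw [Module.finrank_prod]
    simp
  exact (LinearMap.injective_iff_surjective_of_finrank_eq_finrank
    (f := (A : Ep × Ep →ₗ[ℝ] E4)) hd).1 h

theorem tube_open {r : ℝ} {p : Ep × Ep} (hp : p ∈ tube 2 r) : tube 2 r ∈ 𝓝 p :=
  (isOpen_tube r).mem_nhds hp

/-- a local property along the zero section holds on a tube -/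
theorem tube_of_nhds {P : Ep × Ep → Prop} (hper : ∀ (n : Fin 2 → ℤ) (p : Ep × Ep), P p →
    P (p.1 + kv n, p.2)) (h : ∀ y : Ep, ∀ᶠ p in 𝓝 ((y, 0) : Ep × Ep), P p) :
    ∃ r : ℝ, 0 < r ∧ ∀ p ∈ tube 2 r, P p := by
  have h1 : ∀ᶠ v in 𝓝 (0 : Ep), ∀ y ∈ cube 2, P (y, v) := by
    refine isCompact_cube.eventually_forall_of_forall_eventually fun y _ => ?_
    have hsw : Tendsto (fun z : Ep × Ep => (z.2, z.1)) (𝓝 (0, y)) (𝓝 (y, 0)) :=
      (continuous_snd.prodMk continuous_fst).tendsto' _ _ rfl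
    exact hsw.eventually (h y)
  obtain ⟨r, hr, hr'⟩ := Metric.eventually_nhds_iff.1 h1
  refine ⟨r, hr, fun p hp => ?_⟩
  obtain ⟨k, y, hy, hk⟩ := exists_cube p.1
  have h2 := hr' (y := p.2) (by rw [dist_zero_right]; exact hp) y hy
  have h3 := hper k _ h2
  have h4 : p = (y + kv k, p.2) := by rw [← hk]
  rw [h4]
  exact h3

theorem kv_add (m n : Fin 2 → ℤ) : (kv (m + n) : Ep) = kv m + kv n := by
  ext i; simp [kv]

theorem kv_neg (n : Fin 2 → ℤ) : (kv (-n) : Ep) = - kv n := by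
  ext i; simp [kv]

variable [T2Space M]

/-- injectivity modulo the lattice on a small tube -/
theorem tube_inj {s : Ep → M} (hs : EmbT s) {T : Ep × Ep → M}
    (hper : ∀ (n : Fin 2 → ℤ) (p : Ep × Ep), T (p.1 + kv n, p.2) = T p)
    (hz : ∀ y, T (y, 0) = s y)
    (hsm : ∀ y : Ep, ContMDiffAt 𝓘(ℝ, Ep × Ep) 𝓘(ℝ, E4) ∞ T (y, 0))
    (hb : ∀ y : Ep, Bijective (Dm T (y, 0))) :
    ∃ r : ℝ, 0 < r ∧ ∀ p ∈ tube 2 r, ∀ q ∈ tube 2 r, T p = T q →
      q.2 = p.2 ∧ ∃ n : Fin 2 → ℤ, q.1 = p.1 + kv n := by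
  have h1 : ∀ᶠ v in 𝓝 ((0, 0) : Ep × Ep), ∀ y ∈ cube 2 ×ˢ cube 2,
      T (y.1, v.1) = T (y.2, v.2) → v.2 = v.1 ∧ ∃ n : Fin 2 → ℤ, y.2 = y.1 + kv n := by
    refine (isCompact_cube.prod isCompact_cube).eventually_forall_of_forall_eventually
      fun y _ => ?_
    obtain ⟨y, y'⟩ := y
    have t1 : Tendsto (fun z : (Ep × Ep) × (Ep × Ep) => (z.2.1, z.1.1)) (𝓝 ((0, 0), (y, y')))
        (𝓝 (y, 0)) := by
      have : Continuous fun z : (Ep × Ep) × (Ep × Ep) => (z.2.1, z.1.1) := by fun_prop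
      exact this.tendsto' _ _ rfl
    have t2 : Tendsto (fun z : (Ep × Ep) × (Ep × Ep) => (z.2.2, z.1.2)) (𝓝 ((0, 0), (y, y')))
        (𝓝 (y', 0)) := by
      have : Continuous fun z : (Ep × Ep) × (Ep × Ep) => (z.2.2, z.1.2) := by fun_prop
      exact this.tendsto' _ _ rfl
    by_cases hyy : s y = s y'
    · obtain ⟨n, hn⟩ := hs.inj y y' hyy
      obtain ⟨g, hg⟩ := loc_inj (hsm y) (hb y)
      have t3 : Tendsto (fun z : (Ep × Ep) × (Ep × Ep) => (z.2.2 + kv (-n), z.1.2))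
          (𝓝 ((0, 0), (y, y'))) (𝓝 (y, 0)) := by
        have : Continuous fun z : (Ep × Ep) × (Ep × Ep) => (z.2.2 + kv (-n), z.1.2) := by fun_prop
        refine this.tendsto' _ _ ?_
        ext1
        · show y' + kv (-n) = y
          rw [kv_neg, hn]
          show y + kv n + - kv n = y
          abel
        · rfl
      filter_upwards [t1.eventually hg, t3.eventually hg] with z h2 h3 h4
      have h5 : T (z.2.2 + kv (-n), z.1.2) = T (z.2.2, z.1.2) := hper (-n) (z.2.2, z.1.2)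
      rw [h5, ← h4, h2] at h3
      have h6 := congrArg Prod.fst h3
      have h7 := congrArg Prod.snd h3
      simp only at h6 h7
      refine ⟨h7.symm, n, ?_⟩
      rw [h6, kv_neg]
      abel
    · have c1 : Tendsto (fun z : (Ep × Ep) × (Ep × Ep) => T (z.2.1, z.1.1)) (𝓝 ((0, 0), (y, y')))
          (𝓝 (s y)) := by
        have := (hsm y).continuousAt.tendsto
        rw [hz] at this
        exact this.comp t1
      have c2 : Tendsto (fun z : (Ep × Ep) × (Ep × Ep) => T (z.2.2, z.1.2)) (𝓝 ((0, 0), (y, y')))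
          (𝓝 (s y')) := by
        have := (hsm y').continuousAt.tendsto
        rw [hz] at this
        exact this.comp t2
      have hop : IsOpen {q : M × M | q.1 ≠ q.2} := isClosed_diagonal.isOpen_compl
      filter_upwards [(c1.prodMk_nhds c2).eventually (hop.mem_nhds hyy)] with z h2 h3
      exact absurd h3 h2
  obtain ⟨r, hr, hr'⟩ := Metric.eventually_nhds_iff.1 h1
  refine ⟨r, hr, fun p hp q hq hpq => ?_⟩
  obtain ⟨k, y, hy, hk⟩ := exists_cube p.1
  obtain ⟨k', y', hy', hk'⟩ := exists_cube q.1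
  have hp2 : ‖p.2‖ < r := hp
  have hq2 : ‖q.2‖ < r := hq
  have e1 : T p = T (y, p.2) := by
    have := hper k (y, p.2)
    simp only at this
    rw [← this, ← hk]
  have e2 : T q = T (y', q.2) := by
    have := hper k' (y', q.2)
    simp only at this
    rw [← this, ← hk']
  have h2 := hr' (y := (p.2, q.2)) (by
    rw [Prod.dist_eq]
    simp only [dist_zero_right]
    exact max_lt hp2 hq2) (y, y') ⟨hy, hy'⟩ (by
      show T (y, p.2) = T (y', q.2)
      rw [← e1, ← e2, hpq])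
  obtain ⟨h3, n, h4⟩ := h2
  simp only at h3 h4
  refine ⟨h3, n - k + k', ?_⟩
  rw [hk', h4, hk, kv_add, sub_eq_add_neg, kv_add, kv_neg]
  abel

variable [CompactSpace M]

/-- **TUBE** (B1a): the normalised tube around a torus which is lagrangian for `w 1`, `w 2` -/
theorem exists_tube (w : Trip M) (hw : Pos3 w) (s : Ep → M) (hs : EmbT s)
    (lag1 : ∀ y u v : Ep, val (w 1) (s y) (dmap s y u) (dmap s y v) = 0)
    (lag2 : ∀ y u v : Ep, val (w 2) (s y) (dmap s y u) (dmap s y v) = 0) :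
    ∃ (r : ℝ) (T : Ep × Ep → M), TubeT w s r T := by
  obtain ⟨r0, T, hr0, hsm, hper, hz, hno⟩ := exists_map w hw s hs
  have hsm0 : ∀ y : Ep, ContMDiffAt 𝓘(ℝ, Ep × Ep) 𝓘(ℝ, E4) ∞ T (y, 0) := fun y =>
    hsm (y, 0) (show ‖(0 : Ep)‖ < _ by rw [norm_zero]; exact hr0)
  have hTy : (fun z => T (z, 0)) = s := funext hz
  have hD1 : ∀ y u, Dm T (y, 0) (u, 0) = Dm s y u := by
    intro y u
    rw [Dm_left ((hsm0 y).of_le (by simp)), hTy]
  have hor1 : ∀ y u v : Ep, pbF T (w 1).1.1 (y, 0) (u, 0) (v, 0) = 0 := by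
    intro y u v
    rw [pbF_apply, hD1, hD1, hz]
    exact lag1 y u v
  have hor2 : ∀ y u v : Ep, pbF T (w 2).1.1 (y, 0) (u, 0) (v, 0) = 0 := by
    intro y u v
    rw [pbF_apply, hD1, hD1, hz]
    exact lag2 y u v
  have hinj0 : ∀ y : Ep, Injective (pbF T (w 1).1.1 (y, 0)) := by
    intro y
    rw [injective_iff_map_eq_zero]
    rintro ⟨u, v⟩ h
    have h1 : ∀ e : Ep, pbF T (w 1).1.1 (y, 0) (u, v) (e, 0) = 0 := fun e => by rw [h]; rfl
    have hsp : ((u, v) : Ep × Ep) = (u, 0) + (0, v) := by ext1 <;> simp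
    have h2 : ∀ e : Ep, inner ℝ v e = (0 : ℝ) := by
      intro e
      have := h1 e
      rw [hsp, map_add, _root_.add_apply, hor1, hno, zero_add] at this
      exact this
    have hv : v = 0 := by
      have := h2 v
      rwa [inner_self_eq_zero] at this
    have h3 : ∀ e : Ep, inner ℝ e u = (0 : ℝ) := by
      intro e
      have h4 : pbF T (w 1).1.1 (y, 0) (u, v) (0, e) = 0 := by rw [h]; rfl
      rw [pbF_alt (w 1).1.2, hv, hno] at h4
      linarith
    have hu : u = 0 := by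
      have := h3 u
      rwa [inner_self_eq_zero] at this
    rw [hu, hv]
    rfl
  have hDinj : ∀ p : Ep × Ep, Injective (pbF T (w 1).1.1 p) → Bijective (Dm T p) := by
    intro p hp
    refine dim_bij _ ?_
    rw [injective_iff_map_eq_zero] at hp ⊢
    intro v hv
    refine hp v (ContinuousLinearMap.ext fun e => ?_)
    rw [pbF_apply, hv]
    simp
  obtain ⟨r1, hr1, hr1'⟩ := tube_of_nhds (P := fun p => Injective (pbF T (w 1).1.1 p))
    (by
      intro n p hp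
      have h := pbF_add (T := T) (c := ((kv n : Ep), (0 : Ep)))
        (fun p => by
          have h2 := hper n p
          rw [← h2]
          congr 1
          ext1 <;> simp) (w 1).1.1 p
      have h2 : ((p.1 + kv n, p.2) : Ep × Ep) = p + (kv n, 0) := by
        ext1 <;> simp
      rw [h2, h]
      exact hp)
    (by
      intro y
      have hc : ContinuousAt (pbF T (w 1).1.1) ((y, 0) : Ep × Ep) :=
        (pbF_contDiffAt (hsm0 y) (w 1).1.2).continuousAt
      exact hc.eventually (ContinuousLinearMap.isOpen_injective.mem_nhds (hinj0 y)))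
  obtain ⟨r2, hr2, hr2'⟩ := tube_inj hs hper hz hsm0 (fun y => hDinj _ (hinj0 y))
  have hs0 : tube 2 (min r0 (min r1 r2)) ⊆ tube 2 r0 := fun p hp =>
    lt_of_lt_of_le (show ‖p.2‖ < min r0 (min r1 r2) from hp) (min_le_left _ _)
  have hs1 : tube 2 (min r0 (min r1 r2)) ⊆ tube 2 r1 := fun p hp =>
    lt_of_lt_of_le (show ‖p.2‖ < min r0 (min r1 r2) from hp)
      ((min_le_right _ _).trans (min_le_left _ _))
  have hs2 : tube 2 (min r0 (min r1 r2)) ⊆ tube 2 r2 := fun p hp =>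
    lt_of_lt_of_le (show ‖p.2‖ < min r0 (min r1 r2) from hp)
      ((min_le_right _ _).trans (min_le_right _ _))
  refine ⟨min r0 (min r1 r2), T, lt_min hr0 (lt_min hr1 hr2), fun p hp => hsm p (hs0 hp), hper, hz,
    fun p hp => hDinj p (hr1' p (hs1 hp)), fun p hp q hq => hr2' p (hs2 hp) q (hs2 hq), hno, hor1,
    hor2, ?_⟩
  intro p hp c hc u h
  have hbij := hDinj p (hr1' p (hs1 hp))
  have h1 : Dm T p u = 0 := by
    refine nondeg_val hw (T p) hc fun z => ?_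
    obtain ⟨x, rfl⟩ := hbij.2 z
    exact h x
  exact hbij.1 (by rw [h1, map_zero])

end Fin

end

end Crest.Agent.R235.Tube_153
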