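import Crest.Agent.R235.Top_837

/-!
Row 235 (S0364), helper930: UNIVERSES, part 1.  A compact manifold `M : Type u` has a copy
`N : Type` with literally the same charts.
-/

set_option autoImplicit false
set_option maxSynthPendingDepth 3

open Set Function Filter
open scoped Manifold ContDiff Topology

universe u v

namespace Crest.Agent.R235.UnivA_930

open Crest.Agent.R240 Crest.Agent.R240.Ch

noncomputable section

/-- the charts of `N` are the charts of `M`, moved by the homeomorphism `h`. -/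
structure ChIso {M : Type u} {N : Type v} [TopologicalSpace M] [ChartedSpace E4 M]
    [TopologicalSpace N] [ChartedSpace E4 N] (h : M ≃ N) : Prop where
  tgt : ∀ p : M, (chartAt E4 (h p)).target = (chartAt E4 p).target
  app : ∀ p x : M, chartAt E4 (h p) (h x) = chartAt E4 p x
  symm : ∀ (p : M) (y : E4), (chartAt E4 (h p)).symm y = h ((chartAt E4 p).symm y)

section Basic

variable {M : Type u} {N : Type v} [TopologicalSpace M] [ChartedSpace E4 M]
  [TopologicalSpace N] [ChartedSpace E4 N] {h : M ≃ N}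

theorem ChIso.inv (H : ChIso h) : ChIso h.symm where
  tgt p := by
    have := H.tgt (h.symm p)
    rw [h.apply_symm_apply] at this
    exact this.symm
  app p x := by
    have := H.app (h.symm p) (h.symm x)
    rw [h.apply_symm_apply, h.apply_symm_apply] at this
    exact this.symm
  symm p y := by
    have := H.symm (h.symm p) y
    rw [h.apply_symm_apply] at this
    rw [this, h.symm_apply_apply]

variable [IsManifold 𝓘(ℝ, E4) ∞ M] [IsManifold 𝓘(ℝ, E4) ∞ N]

theorem ChIso.tcc (H : ChIso h) (p q x : M) :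
    Ch.tcc (E := E4) (h p) (h q) (h x) = Ch.tcc (E := E4) p q x := by
  rw [tcc_eq_fderiv, tcc_eq_fderiv, H.app]
  congr 1
  funext y
  simp only [comp_apply]
  rw [H.symm, H.app]

theorem ChIso.rep (H : ChIso h) (p : M) (a : F2 E4 N) (y : E4) :
    Ch.rep (h p) a y = Ch.rep p (fun x => a (h x)) y := by
  ext u v
  rw [rep_apply, rep_apply, H.symm, H.tcc]
  rfl

theorem ChIso.rep1 (H : ChIso h) (p : M) (s : F1 E4 N) (y : E4) :
    Ch.rep1 (h p) s y = Ch.rep1 p (fun x => s (h x)) y := by
  ext u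
  rw [rep1_apply, rep1_apply, H.symm, H.tcc]
  rfl

theorem ChIso.smooth2 (H : ChIso h) {a : F2 E4 N} (ha : Smooth2 a) :
    Smooth2 (fun x => a (h x) : F2 E4 M) := by
  refine ⟨fun x v => ha.1 (h x) v, fun p => ?_⟩
  have h1 := ha.2 (h p)
  rw [H.tgt] at h1
  exact h1.congr fun y _ => (H.rep p a y).symm

theorem ChIso.smooth1 (H : ChIso h) {s : F1 E4 N} (hs : Smooth1 s) :
    Smooth1 (fun x => s (h x) : F1 E4 M) := by
  intro p
  have h1 := hs (h p)
  rw [H.tgt] at h1
  exact h1.congr fun y _ => (H.rep1 p s y).symm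

theorem ChIso.closed2 (H : ChIso h) {a : F2 E4 N} (ha : Closed2 a) :
    Closed2 (fun x => a (h x) : F2 E4 M) := by
  intro p y hy u v w
  have h1 := ha (h p) y (by rw [H.tgt]; exact hy) u v w
  have h2 : Ch.rep (h p) a = Ch.rep p (fun x => a (h x)) := funext fun y => H.rep p a y
  rwa [h2] at h1

theorem ChIso.isEx (H : ChIso h) {a : F2 E4 N} (ha : IsEx a) :
    IsEx (fun x => a (h x) : F2 E4 M) := by
  obtain ⟨s, hs, h1⟩ := ha
  refine ⟨fun x => s (h x), H.smooth1 hs, fun p y hy => ?_⟩
  have h2 := h1 (h p) y (by rw [H.tgt]; exact hy)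
  have h3 : Ch.rep1 (h p) s = Ch.rep1 p (fun x => s (h x)) := funext fun y => H.rep1 p s y
  rwa [h3, H.rep] at h2

/-- pull-back of closed two-forms. -/
def pz (H : ChIso h) (a : Z2 N) : Z2 M :=
  ⟨⟨fun x => a.1.1 (h x), H.smooth2 a.1.2⟩, H.closed2 a.2⟩

theorem val_pz (H : ChIso h) (a : Z2 N) (x : M) : val (pz H a) x = val a (h x) := rfl

theorem pz_ext {a b : Z2 M} (hab : ∀ x, val a x = val b x) : a = b := by
  apply Subtype.ext
  apply Subtype.ext
  funext x
  exact hab x

theorem val_add (a b : Z2 M) (x : M) : val (a + b) x = val a x + val b x := rfl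

theorem val_sub (a b : Z2 M) (x : M) : val (a - b) x = val a x - val b x := rfl

theorem val_smul (r : ℝ) (a : Z2 M) (x : M) : val (r • a) x = r • val a x := rfl

theorem val_seg (w w' : Trip M) (t : ℝ) (i : Fin 3) (x : M) :
    val (seg w w' t i) x = (1 - t) • val (w i) x + t • val (w' i) x := rfl

/-- pull-back of triples. -/
def pt (H : ChIso h) (w : Trip N) : Trip M := fun i => pz H (w i)

theorem seg_pt (H : ChIso h) (w w' : Trip N) (t : ℝ) :
    seg (pt H w) (pt H w') t = pt H (seg w w' t) := by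
  funext i
  exact pz_ext fun x => rfl

theorem Pos3.pt (H : ChIso h) {w : Trip N} (hw : Pos3 w) : Pos3 (pt H w) :=
  fun x c hc => hw (h x) c hc

theorem Seg.pt (H : ChIso h) {w w' : Trip N} (hw : Seg w w') :
    Seg (UnivA_930.pt H w) (UnivA_930.pt H w') := by
  intro t h0 h1
  rw [seg_pt]
  exact Pos3.pt H (hw t h0 h1)

theorem HK.pt (H : ChIso h) {w : Trip N} (hw : HK w) : HK (UnivA_930.pt H w) := by
  obtain ⟨G, hG, h1⟩ := hw
  exact ⟨G, hG, fun x => h1 (h x)⟩

theorem cls_eq_iff (a b : Z2 M) : cls a = cls b ↔ IsEx ((a - b : Z2 M).1.1 : F2 E4 M) := by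
  unfold cls
  rw [← sub_eq_zero, ← map_sub, Submodule.mkQ_apply, Submodule.Quotient.mk_eq_zero]
  rfl

theorem pz_sub (H : ChIso h) (a b : Z2 N) : pz H (a - b) = pz H a - pz H b :=
  pz_ext fun _ => rfl

theorem isEx_pz (H : ChIso h) (c : Z2 N) (hc : IsEx (c.1.1 : F2 E4 N)) :
    IsEx ((pz H c).1.1 : F2 E4 M) := H.isEx (a := c.1.1) hc

theorem cls_pz (H : ChIso h) {a b : Z2 N} (hab : cls a = cls b) :
    cls (pz H a) = cls (pz H b) := by
  have h2 := isEx_pz H _ ((cls_eq_iff a b).1 hab)
  rw [pz_sub] at h2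
  exact (cls_eq_iff _ _).2 h2

theorem SameCls.pt (H : ChIso h) {w w' : Trip N} (hw : SameCls w w') :
    SameCls (UnivA_930.pt H w) (UnivA_930.pt H w') :=
  fun i => cls_pz H (hw i)

theorem Joined.pt (H : ChIso h) {w w' : Trip N} (hw : Joined w w') :
    Joined (UnivA_930.pt H w) (UnivA_930.pt H w') := by
  unfold Joined at hw ⊢
  induction hw with
  | refl => exact Relation.ReflTransGen.refl
  | tail _ h2 ih => exact ih.tail ⟨Seg.pt H h2.1, SameCls.pt H h2.2⟩

theorem pt_inv (H : ChIso h) (w : Trip M) : pt H (pt H.inv w) = w := by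
  funext i
  refine pz_ext fun x => ?_
  show val (w i) (h.symm (h x)) = val (w i) x
  rw [h.symm_apply_apply]

end Basic

end

end Crest.Agent.R235.UnivA_930
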