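import Crest.Agent.R235.UnivA_930

/-!
Row 235 (S0364), helper930: UNIVERSES, part 2.  `MAIN` in universe `0` gives `MAIN` in every
universe.
-/

set_option autoImplicit false
set_option maxSynthPendingDepth 3

open Set Function Filter
open scoped Manifold ContDiff Topology

universe u v

namespace Crest.Agent.R235.Univ_930

open Crest.Agent.R240 Crest.Agent.R240.Ch Crest.Agent.R235.UnivA_930

noncomputable section

/-- a compact space with charts in `E4` is small. -/
theorem small_of_compact (M : Type u) [TopologicalSpace M] [CompactSpace M]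
    [ChartedSpace E4 M] : Small.{0} M := by
  classical
  obtain ⟨t, ht⟩ := CompactSpace.elim_nhds_subcover (fun x : M => (chartAt E4 x).source)
    (fun x => (chartAt E4 x).open_source.mem_nhds (mem_chart_source E4 x))
  have h1 : ∀ x : M, ∃ p ∈ t, x ∈ (chartAt E4 p).source := by
    intro x
    have hx : x ∈ (⊤ : Set M) := trivial
    rw [← ht] at hx
    simpa using hx
  choose c hc hcx using h1
  refine small_of_injective (β := Fin t.card × E4)
    (f := fun x => (t.equivFin ⟨c x, hc x⟩, chartAt E4 (c x) x)) ?_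
  intro x y hxy
  simp only [Prod.mk.injEq, EmbeddingLike.apply_eq_iff_eq, Subtype.mk.injEq] at hxy
  obtain ⟨h2, h3⟩ := hxy
  rw [← h2] at h3
  exact (chartAt E4 (c x)).injOn (hcx x) (by rw [h2]; exact hcx y) h3

section Transport

variable {M : Type u} {N : Type v} [TopologicalSpace M] [ChartedSpace E4 M]

/-- the chart of `N` obtained from a chart of `M`. -/
def mv [TopologicalSpace N] (h : M ≃ₜ N) (e : OpenPartialHomeomorph M E4) :
    OpenPartialHomeomorph N E4 := h.symm.toOpenPartialHomeomorph.trans e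

/-- the transported charted space. -/
@[reducible] def cs [TopologicalSpace N] (h : M ≃ₜ N) : ChartedSpace E4 N where
  atlas := {e | ∃ e' ∈ atlas E4 M, e = mv h e'}
  chartAt x := mv h (chartAt E4 (h.symm x))
  mem_chart_source x := by simp [mv]
  chart_mem_atlas x := ⟨_, chart_mem_atlas E4 _, rfl⟩

theorem cs_manifold [TopologicalSpace N] (h : M ≃ₜ N) [IsManifold 𝓘(ℝ, E4) ∞ M] :
    @IsManifold ℝ _ E4 _ _ E4 _ 𝓘(ℝ, E4) ∞ N _ (cs h) := by
  letI := cs h
  refine isManifold_of_contDiffOn 𝓘(ℝ, E4) ∞ N ?_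
  rintro e e' ⟨f, hf, rfl⟩ ⟨f', hf', rfl⟩
  have h0 : f.symm.trans f' ∈ contDiffGroupoid ∞ 𝓘(ℝ, E4) :=
    HasGroupoid.compatible (G := contDiffGroupoid ∞ 𝓘(ℝ, E4)) hf hf'
  rw [contDiffGroupoid, mem_groupoid_of_pregroupoid] at h0
  have h1 : ContDiffOn ℝ ∞ (𝓘(ℝ, E4) ∘ (f.symm.trans f') ∘ 𝓘(ℝ, E4).symm)
      (𝓘(ℝ, E4).symm ⁻¹' (f.symm.trans f').source ∩ range 𝓘(ℝ, E4)) := h0.1
  have h2 : ((mv h f).symm.trans (mv h f')).source ⊆ (f.symm.trans f').source := by
    intro y hy
    simpa [mv] using hy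
  have h3 : ContDiffOn ℝ ∞ (𝓘(ℝ, E4) ∘ (f.symm.trans f') ∘ 𝓘(ℝ, E4).symm)
      (𝓘(ℝ, E4).symm ⁻¹' ((mv h f).symm.trans (mv h f')).source ∩ range 𝓘(ℝ, E4)) :=
    h1.mono (inter_subset_inter (preimage_mono h2) Subset.rfl)
  refine h3.congr fun y hy => ?_
  simp [mv]

theorem cs_iso [TopologicalSpace N] (h : M ≃ₜ N) :
    @ChIso M N _ _ _ (cs h) h.toEquiv := by
  letI := cs h
  refine ⟨fun p => ?_, fun p x => ?_, fun p y => ?_⟩
  · show (mv h (chartAt E4 (h.symm (h p)))).target = _
    rw [h.symm_apply_apply]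
    simp [mv]
  · show mv h (chartAt E4 (h.symm (h p))) (h x) = _
    rw [h.symm_apply_apply]
    simp [mv]
  · show (mv h (chartAt E4 (h.symm (h p)))).symm y = h _
    rw [h.symm_apply_apply]
    simp [mv]

end Transport

/-- every compact manifold has a copy in `Type`. -/
theorem exists_copy (M : Type u) [TopologicalSpace M] [T2Space M] [CompactSpace M]
    [ConnectedSpace M] [ChartedSpace E4 M] [IsManifold 𝓘(ℝ, E4) ∞ M] :
    ∃ (N : Type) (_ : TopologicalSpace N) (_ : T2Space N) (_ : CompactSpace N)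
      (_ : ConnectedSpace N) (_ : ChartedSpace E4 N) (_ : IsManifold 𝓘(ℝ, E4) ∞ N)
      (h : M ≃ₜ N), ChIso h.toEquiv := by
  haveI := small_of_compact M
  letI : TopologicalSpace (Shrink.{0} M) := TopologicalSpace.induced (equivShrink M).symm inferInstance
  let h : M ≃ₜ Shrink.{0} M := (Homeomorph.symm
    ((equivShrink M).symm.toHomeomorphOfIsInducing ⟨rfl⟩))
  haveI : T2Space (Shrink.{0} M) := h.t2Space
  haveI : CompactSpace (Shrink.{0} M) := h.compactSpace
  haveI : ConnectedSpace (Shrink.{0} M) := h.surjective.connectedSpace h.continuous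
  letI := cs h
  exact ⟨Shrink.{0} M, inferInstance, inferInstance, inferInstance, inferInstance, cs h,
    cs_manifold h, h, cs_iso h⟩

theorem main_univ (H : MAIN.{0}) : MAIN.{u} := by
  intro M _ _ _ _ _ _ w hw
  obtain ⟨N, _, _, _, _, _, _, h, hI⟩ := exists_copy M
  obtain ⟨w', h1, h2⟩ := H N (pt hI.inv w) (Pos3.pt hI.inv hw)
  refine ⟨pt hI w', ?_, HK.pt hI h2⟩
  have h3 := Joined.pt hI h1
  rwa [pt_inv] at h3

end

end Crest.Agent.R235.Univ_930
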