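import Crest.Agent.R235.RSBas_538

/-!
Row 235, package ADJ (helper464), leaf W2, part A: densities on a Riemann surface.

* `wg a b = a 1 * b I - a I * b 1`, `wg_mul`: transformation by a complex linear map
* `cov`: change of variables between two charts
* `Pou`: smooth partitions of unity adapted to a finite set
-/

set_option autoImplicit false

open Set Filter Topology Function MeasureTheory Metric
open scoped ContDiff

universe u v

namespace Crest.Agent.R235.W2_464

open RS

noncomputable section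

/-! ### wedge of covectors -/

/-- the wedge of two real covectors of the plane -/
def wg (a b : ℂ →L[ℝ] ℝ) : ℝ := a 1 * b Complex.I - a Complex.I * b 1

theorem clm_apply (a : ℂ →L[ℝ] ℝ) (z : ℂ) : a z = z.re * a 1 + z.im * a Complex.I := by
  conv_lhs => rw [← Complex.re_add_im z]
  have h1 : (z.re : ℂ) = z.re • (1 : ℂ) := by simp
  have h2 : (z.im : ℂ) * Complex.I = z.im • Complex.I := by simp
  rw [h1, h2, map_add, map_smul, map_smul, smul_eq_mul, smul_eq_mul]

/-- multiplication by `c`, real linear -/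
def mulL (c : ℂ) : ℂ →L[ℝ] ℂ := (ContinuousLinearMap.mul ℝ ℂ) c

@[simp] theorem mulL_apply (c z : ℂ) : mulL c z = c * z := rfl

theorem wg_mul (a b : ℂ →L[ℝ] ℝ) (c : ℂ) :
    wg (a.comp (mulL c)) (b.comp (mulL c)) = wg a b * Complex.normSq c := by
  simp only [wg, ContinuousLinearMap.comp_apply, mulL_apply, mul_one]
  rw [clm_apply a c, clm_apply b c, clm_apply a (c * Complex.I), clm_apply b (c * Complex.I)]
  simp only [Complex.mul_re, Complex.mul_im, Complex.I_re, Complex.I_im, mul_zero, mul_one,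
    Complex.normSq_apply]
  ring

@[simp] theorem wg_zero_left (b : ℂ →L[ℝ] ℝ) : wg 0 b = 0 := by simp [wg]

theorem wg_add_left (a a' b : ℂ →L[ℝ] ℝ) : wg (a + a') b = wg a b + wg a' b := by
  simp only [wg, add_apply]
  ring

theorem wg_sum_left {ι : Type*} (s : Finset ι) (a : ι → ℂ →L[ℝ] ℝ) (b : ℂ →L[ℝ] ℝ) :
    wg (∑ i ∈ s, a i) b = ∑ i ∈ s, wg (a i) b := by
  classical
  induction s using Finset.induction_on with
  | empty => simp
  | insert i s hi ih => rw [Finset.sum_insert hi, Finset.sum_insert hi, wg_add_left, ih]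

/-- the determinant of `mulL c` -/
theorem det_mulL (c : ℂ) : (mulL c).det = Complex.normSq c := by
  have h : (mulL c : ℂ →ₗ[ℝ] ℂ) = LinearMap.mulLeft ℝ c := by
    ext z <;> simp
  rw [ContinuousLinearMap.det, h]
  have := LinearMap.det_toLin Complex.basisOneI (!![c.re, -c.im; c.im, c.re] : Matrix _ _ ℝ)
  have h2 : Matrix.toLin Complex.basisOneI Complex.basisOneI !![c.re, -c.im; c.im, c.re]
      = LinearMap.mulLeft ℝ c := by
    refine Complex.basisOneI.ext fun i => ?_
    rw [Matrix.toLin_self, Fin.sum_univ_two]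
    fin_cases i <;> simp [Complex.ext_iff]
  rw [← h2, this, Matrix.det_fin_two_of, Complex.normSq_apply]
  ring

/-! ### change of variables -/

section Cov

variable {N : Type u} [TopologicalSpace N] (A : CAtl.{u, v} N)

theorem hasFDerivAt_tr {i j : A.ι} {z : ℂ} (hz : z ∈ A.dom i j) :
    HasFDerivAt (A.tr i j) (mulL (deriv (A.tr i j) z)) z := by
  have h := (A.tr_diffAt hz).hasDerivAt.hasFDerivAt.restrictScalars ℝ
  refine h.congr_fderiv ?_
  ext w <;> simp [mul_comm]

theorem tr_injOn (i j : A.ι) : InjOn (A.tr i j) (A.dom i j) := by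
  intro z hz w hw h
  have h1 := A.tr_tr (k := i) hz
  have h2 := A.tr_tr (k := i) hw
  rw [A.tr_self hz.1] at h1
  rw [A.tr_self hw.1] at h2
  rw [← h1, ← h2, h]

theorem tr_image (i j : A.ι) : A.tr i j '' A.dom i j = A.dom j i := by
  ext w
  constructor
  · rintro ⟨z, hz, rfl⟩
    exact A.tr_mem hz
  · intro hw
    refine ⟨A.tr j i w, A.tr_mem hw, ?_⟩
    rw [A.tr_tr hw, A.tr_self hw.1]

/-- **change of variables** for a density. -/
theorem cov {i j : A.ι} (D : A.ι → ℂ → ℝ)
    (htr : ∀ z ∈ A.dom i j, D i z = D j (A.tr i j z) * Complex.normSq (deriv (A.tr i j) z)) :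
    ∫ z in A.dom i j, D i z = ∫ z in A.dom j i, D j z := by
  rw [← tr_image A i j, integral_image_eq_integral_abs_det_fderiv_smul volume
    (A.isOpen_dom i j).measurableSet (fun z hz => (hasFDerivAt_tr A hz).hasFDerivWithinAt)
    (tr_injOn A i j)]
  refine setIntegral_congr_fun (A.isOpen_dom i j).measurableSet fun z hz => ?_
  show _ = _
  rw [det_mulL, abs_of_nonneg (Complex.normSq_nonneg _), smul_eq_mul, htr z hz]
  ring

end Cov

/-! ### partitions of unity -/

section Part

variable {N : Type u} [TopologicalSpace N] (A : CAtl.{u, v} N)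

/-- transplantation of a function of the plane by a chart -/
def tp (i : A.ι) (g : ℂ → ℝ) (y : N) : ℝ := by
  classical exact if y ∈ (A.c i).source then g (A.c i y) else 0

theorem tp_of_mem {i : A.ι} {g : ℂ → ℝ} {y : N} (hy : y ∈ (A.c i).source) :
    tp A i g y = g (A.c i y) := by simp [tp, hy]

theorem tp_of_not {i : A.ι} {g : ℂ → ℝ} {y : N} (hy : y ∉ (A.c i).source) :
    tp A i g y = 0 := by simp [tp, hy]

theorem tp_nonneg {i : A.ι} {g : ℂ → ℝ} (hg : ∀ z, 0 ≤ g z) (y : N) : 0 ≤ tp A i g y := by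
  by_cases hy : y ∈ (A.c i).source
  · rw [tp_of_mem A hy]; exact hg _
  · rw [tp_of_not A hy]

theorem tp_supp {i : A.ι} {g : ℂ → ℝ} {K : Set ℂ} (hg : ∀ z ∉ K, g z = 0) {y : N}
    (hy : tp A i g y ≠ 0) : ∃ z ∈ K, (A.c i).symm z = y := by
  by_cases h : y ∈ (A.c i).source
  · rw [tp_of_mem A h] at hy
    by_contra hcon
    push Not at hcon
    exact hy (hg _ fun hK => hcon _ hK ((A.c i).left_inv h))
  · exact absurd (tp_of_not A h) hy

theorem isClosed_symm_image [T2Space N] {i : A.ι} {K : Set ℂ} (hK : IsCompact K)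
    (hKt : K ⊆ (A.c i).target) : IsClosed ((A.c i).symm '' K) :=
  (hK.image_of_continuousOn ((A.c i).continuousOn_symm.mono hKt)).isClosed

theorem tp_smooth [T2Space N] {i : A.ι} {g : ℂ → ℝ} {K : Set ℂ} (hK : IsCompact K)
    (hKt : K ⊆ (A.c i).target) (hg : ContDiff ℝ (⊤ : ℕ∞) g) (h0 : ∀ z ∉ K, g z = 0) :
    A.Smooth (tp A i g) := by
  intro j z hz
  refine ContDiffAt.contDiffWithinAt ?_
  by_cases hx : (A.c j).symm z ∈ (A.c i).source
  · have hd : z ∈ A.dom j i := ⟨hz, hx⟩
    have h1 : ContDiffAt ℝ (⊤ : ℕ∞) (fun w => g (A.tr j i w)) z := by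
      refine hg.contDiffAt.comp z ?_
      exact (A.tr_analyticAt hd).contDiffAt.restrict_scalars ℝ
    refine h1.congr_of_eventuallyEq ?_
    filter_upwards [(A.isOpen_dom j i).mem_nhds hd] with w hw
    rw [tp_of_mem A hw.2]
    rfl
  · have h1 : ContDiffAt ℝ (⊤ : ℕ∞) (fun _ : ℂ => (0 : ℝ)) z := contDiffAt_const
    refine h1.congr_of_eventuallyEq ?_
    have hcl := isClosed_symm_image A hK hKt
    have hn : (A.c j).symm z ∉ (A.c i).symm '' K := by
      rintro ⟨w, hw, e⟩
      exact hx (e ▸ (A.c i).map_target (hKt hw))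
    have h2 : ContinuousAt (A.c j).symm z := (A.c j).continuousAt_symm hz
    filter_upwards [h2.eventually (hcl.isOpen_compl.mem_nhds hn)] with w hw
    by_contra hne
    exact hw (tp_supp A h0 hne)

/-- a finite smooth partition of unity by chart discs, adapted to a finite set `F`. -/
structure Pou (F : Finset N) where
  /-- the centres -/
  T : Finset N
  sub : F ⊆ T
  /-- the charts -/
  i : N → A.ι
  /-- the radii -/
  R : N → ℝ
  /-- the functions -/
  ρ : N → N → ℝ
  mem : ∀ k, k ∈ (A.c (i k)).source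
  Rpos : ∀ k, 0 < R k
  ball_sub : ∀ k, closedBall (A.c (i k) k) (R k) ⊆ (A.c (i k)).target
  ballF : ∀ k, ∀ z ∈ closedBall (A.c (i k) k) (R k), (A.c (i k)).symm z ∈ F →
    (A.c (i k)).symm z = k
  smooth : ∀ k, A.Smooth (ρ k)
  supp : ∀ k y, ρ k y ≠ 0 → ∃ z ∈ closedBall (A.c (i k) k) (R k / 2), (A.c (i k)).symm z = y
  sum : ∀ y, ∑ k ∈ T, ρ k y = 1
  one : ∀ k ∈ F, ∀ᶠ y in 𝓝 k, ρ k y = 1

theorem exists_pou [T2Space N] [CompactSpace N] (F : Finset N) : Nonempty (Pou A F) := by
  classical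
  have h1 : ∀ k : N, ∃ (i : A.ι) (R : ℝ), k ∈ (A.c i).source ∧ 0 < R ∧
      closedBall (A.c i k) R ⊆ (A.c i).target ∧
      ∀ z ∈ closedBall (A.c i k) R, (A.c i).symm z ∈ F → (A.c i).symm z = k := by
    intro k
    obtain ⟨i, hi⟩ := A.cover k
    have h2 : (A.c i).target ∈ 𝓝 (A.c i k) := (A.c i).open_target.mem_nhds ((A.c i).map_source hi)
    have h3 : ∀ᶠ y in 𝓝 k, y ∈ F → y = k := by
      have h4 : ((F.erase k : Finset N) : Set N)ᶜ ∈ 𝓝 k :=
        (F.erase k).finite_toSet.isClosed.isOpen_compl.mem_nhds (by simp)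
      filter_upwards [h4] with y hy hyF
      by_contra hne
      exact hy (by simp [hne, hyF])
    have h5 : ∀ᶠ z in 𝓝 (A.c i k), (A.c i).symm z ∈ F → (A.c i).symm z = k := by
      have h6 : Tendsto (A.c i).symm (𝓝 (A.c i k)) (𝓝 k) := by
        rw [Tendsto, A.nhds_symm hi]
      exact h6.eventually h3
    obtain ⟨R, hR, h7⟩ := Metric.nhds_basis_closedBall.mem_iff.1 (inter_mem h2 h5)
    exact ⟨i, R, hi, hR, fun z hz => (h7 hz).1, fun z hz => (h7 hz).2⟩
  choose i R hmem hR hsub hF using h1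
  -- the bumps
  have hR4 : ∀ k, 0 < R k / 4 := fun k => by have := hR k; positivity
  have hR42 : ∀ k, R k / 4 < R k / 2 := fun k => by have := hR k; linarith
  let f : ∀ k, ContDiffBump (A.c (i k) k) := fun k => ⟨R k / 4, R k / 2, hR4 k, hR42 k⟩
  let b : N → N → ℝ := fun k => tp A (i k) (f k)
  have hb2 : ∀ k, ∀ z ∉ closedBall (A.c (i k) k) (R k / 2), f k z = 0 := by
    intro k z hz
    refine (f k).zero_of_le_dist ?_
    rw [mem_closedBall, not_le] at hz
    exact hz.le
  have hsub2 : ∀ k, closedBall (A.c (i k) k) (R k / 2) ⊆ (A.c (i k)).target := fun k =>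
    (closedBall_subset_closedBall (by have := hR k; linarith)).trans (hsub k)
  have hbs : ∀ k, A.Smooth (b k) := fun k =>
    tp_smooth A (isCompact_closedBall _ _) (hsub2 k) (f k).contDiff (hb2 k)
  have hb0 : ∀ k y, 0 ≤ b k y := fun k => tp_nonneg A fun z => (f k).nonneg
  have hbsupp : ∀ k y, b k y ≠ 0 →
      ∃ z ∈ closedBall (A.c (i k) k) (R k / 2), (A.c (i k)).symm z = y := fun k y h =>
    tp_supp A (hb2 k) h
  have hb1 : ∀ k, ∀ᶠ y in 𝓝 k, b k y = 1 := by
    intro k
    have h2 : Tendsto (A.c (i k)) (𝓝 k) (𝓝 (A.c (i k) k)) := (A.c (i k)).continuousAt (hmem k)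
    filter_upwards [h2.eventually (closedBall_mem_nhds _ (hR4 k)),
      (A.c (i k)).open_source.mem_nhds (hmem k)] with y hy hys
    show tp A (i k) (f k) y = 1
    rw [tp_of_mem A hys]
    exact (f k).one_of_mem_closedBall hy
  obtain ⟨t, -, ht⟩ := isCompact_univ.elim_nhds_subcover (fun k => {y : N | b k y = 1})
    (fun k _ => hb1 k)
  set T := t ∪ F with hT
  have hS : ∀ y, 0 < ∑ k ∈ T, b k y := by
    intro y
    obtain ⟨k, hk, hy⟩ := mem_iUnion₂.1 (ht (mem_univ y))
    have hy' : b k y = 1 := hy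
    refine Finset.sum_pos' (fun l _ => hb0 l y) ⟨k, Finset.mem_union_left _ hk, ?_⟩
    rw [hy']; exact one_pos
  refine ⟨⟨T, Finset.subset_union_right, i, R, fun k y => b k y / ∑ l ∈ T, b l y, hmem, hR, hsub,
    hF, ?_, ?_, ?_, ?_⟩⟩
  · intro k j
    refine ContDiffOn.div (hbs k j) ?_ fun z _ => (hS _).ne'
    exact ContDiffOn.sum fun l _ => hbs l j
  · intro k y hy
    exact hbsupp k y fun h => hy (by simp [h])
  · intro y
    rw [← Finset.sum_div]
    exact div_self (hS y).ne'
  · intro k hk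
    have h2 : ∀ l, l ≠ k → ∀ᶠ y in 𝓝 k, b l y = 0 := by
      intro l hl
      have hcl := isClosed_symm_image A (i := i l) (isCompact_closedBall _ _) (hsub2 l)
      have hn : k ∉ (A.c (i l)).symm '' closedBall (A.c (i l) l) (R l / 2) := by
        rintro ⟨w, hw, e⟩
        have hw2 : w ∈ closedBall (A.c (i l) l) (R l) :=
          closedBall_subset_closedBall (by have := hR l; linarith) hw
        have := hF l w hw2 (e ▸ hk)
        exact hl (this.symm.trans e)
      filter_upwards [hcl.isOpen_compl.mem_nhds hn] with y hy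
      by_contra hne
      exact hy (hbsupp l y hne)
    have h3 : ∀ᶠ y in 𝓝 k, ∀ l ∈ T, l ≠ k → b l y = 0 :=
      (Finset.eventually_all T).2 fun l _ => by
        by_cases hl : l = k
        · exact Eventually.of_forall fun y h => absurd hl h
        · filter_upwards [h2 l hl] with y hy _
          exact hy
    filter_upwards [h3, hb1 k] with y hy hy1
    have h4 : ∑ l ∈ T, b l y = b k y :=
      Finset.sum_eq_single_of_mem k (Finset.mem_union_right _ hk) fun l hl hne => hy l hl hne
    rw [h4, hy1]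
    norm_num

end Part

end

end Crest.Agent.R235.W2_464
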