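import Crest.Agent.R235.W2A_464

/-!
Row 235, package ADJ (helper464), leaf W2, part B: Stokes on a closed Riemann surface.

* `sum_zero`: for a continuous one-form `α` off a finite set `F` and a partition of unity adapted
  to `F`, `Σ_k ∫ dρ_k ∧ α = 0`, each integral in the chart of `ρ_k`.
-/

set_option autoImplicit false

open Set Filter Topology Function MeasureTheory Metric
open scoped ContDiff

universe u v

namespace Crest.Agent.R235.W2_464

open RS

noncomputable section

/-- integrability of a compactly supported function, continuous on an open set -/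
theorem integrableOn_cs {U K : Set ℂ} (hU : MeasurableSet U) (hK : IsCompact K) (hKU : K ⊆ U)
    {g : ℂ → ℝ} (hg : ContinuousOn g U) (h0 : ∀ z ∈ U, z ∉ K → g z = 0) : IntegrableOn g U := by
  have h1 : IntegrableOn g K := (hg.mono hKU).integrableOn_compact hK
  have h2 : IntegrableOn g (U \ K) := by
    refine (integrableOn_zero (s := U \ K)).congr_fun (fun z hz => ?_)
      (hU.diff hK.measurableSet)
    exact (h0 z hz.1 hz.2).symm
  rw [← union_sdiff_cancel hKU]
  exact h1.union h2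

variable {N : Type u} [TopologicalSpace N] (A : CAtl.{u, v} N)

/-- representative in a chart -/
def rp {E : Type*} (f : N → E) (i : A.ι) (z : ℂ) : E := f ((A.c i).symm z)

theorem rp_tr {E : Type*} (f : N → E) {i j : A.ι} {z : ℂ} (hz : z ∈ A.dom i j) :
    rp A f j (A.tr i j z) = rp A f i z := by
  unfold rp
  rw [A.symm_tr hz]

theorem rp_ev {E : Type*} (f : N → E) {i j : A.ι} {z : ℂ} (hz : z ∈ A.dom i j) :
    rp A f i =ᶠ[𝓝 z] fun w => rp A f j (A.tr i j w) := by
  filter_upwards [(A.isOpen_dom i j).mem_nhds hz] with w hw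
  rw [rp_tr A f hw]

theorem fderiv_rp {E : Type*} [NormedAddCommGroup E] [NormedSpace ℝ E] (f : N → E) {i j : A.ι}
    {z : ℂ} (hz : z ∈ A.dom i j) (hf : DifferentiableAt ℝ (rp A f j) (A.tr i j z)) :
    fderiv ℝ (rp A f i) z = (fderiv ℝ (rp A f j) (A.tr i j z)).comp
      (mulL (deriv (A.tr i j) z)) := by
  rw [(rp_ev A f hz).fderiv_eq]
  exact (hf.hasFDerivAt.comp z (hasFDerivAt_tr A hz)).fderiv

theorem tendsto_symm {i : A.ι} {z : ℂ} (hz : z ∈ (A.c i).target) :
    Tendsto (A.c i).symm (𝓝 z) (𝓝 ((A.c i).symm z)) := (A.c i).continuousAt_symm hz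

namespace Pou

variable {A} {F : Finset N} (P : Pou A F)

/-- the chart target of `ρ k` -/
def tg (k : N) : Set ℂ := (A.c (P.i k)).target

/-- the support of `ρ k` -/
def K (k : N) : Set N := (A.c (P.i k)).symm '' closedBall (A.c (P.i k) k) (P.R k / 2)

theorem half_sub (k : N) : closedBall (A.c (P.i k) k) (P.R k / 2) ⊆ (A.c (P.i k)).target :=
  (closedBall_subset_closedBall (by have := P.Rpos k; linarith)).trans (P.ball_sub k)

theorem K_sub (k : N) : P.K k ⊆ (A.c (P.i k)).source := by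
  rintro _ ⟨z, hz, rfl⟩
  exact (A.c (P.i k)).map_target (P.half_sub k hz)

theorem K_closed [T2Space N] (k : N) : IsClosed (P.K k) :=
  isClosed_symm_image A (isCompact_closedBall _ _) (P.half_sub k)

theorem zero_off {k y : N} (hy : y ∉ P.K k) : P.ρ k y = 0 := by
  by_contra h
  exact hy (P.supp k y h)

/-- in its own chart the support is the closed ball -/
theorem mem_half {k : N} {z : ℂ} (hz : z ∈ (A.c (P.i k)).target)
    (h : (A.c (P.i k)).symm z ∈ P.K k) : z ∈ closedBall (A.c (P.i k) k) (P.R k / 2) := by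
  obtain ⟨w, hw, e⟩ := h
  have : w = z := (A.c (P.i k)).symm.injOn (P.half_sub k hw) hz e
  rwa [← this]

theorem locConst [T2Space N] {k x : N} (hx : x ∈ F) :
    ∃ c : ℝ, ∀ᶠ y in 𝓝 x, P.ρ k y = c := by
  by_cases h : x = k
  · subst h
    exact ⟨1, P.one x hx⟩
  · refine ⟨0, ?_⟩
    have hn : x ∉ P.K k := by
      rintro ⟨w, hw, e⟩
      have hw2 : w ∈ closedBall (A.c (P.i k) k) (P.R k) :=
        closedBall_subset_closedBall (by have := P.Rpos k; linarith) hw
      exact h ((P.ballF k w hw2 (e ▸ hx)).symm.trans e).symm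
    filter_upwards [(P.K_closed k).isOpen_compl.mem_nhds hn] with y hy
    exact P.zero_off hy

theorem fd_zero [T2Space N] {k : N} {i : A.ι} {z : ℂ} (hz : z ∈ (A.c i).target)
    (hF : (A.c i).symm z ∈ F) : ∀ᶠ w in 𝓝 z, fderiv ℝ (rp A (P.ρ k) i) w = 0 := by
  obtain ⟨c, hc⟩ := P.locConst (k := k) hF
  have h1 : ∀ᶠ w in 𝓝 z, rp A (P.ρ k) i w = c := (tendsto_symm A hz).eventually hc
  filter_upwards [h1.eventually_nhds] with w hw
  have h2 : rp A (P.ρ k) i =ᶠ[𝓝 w] fun _ => c := hw
  rw [h2.fderiv_eq, fderiv_fun_const]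
  rfl

theorem fd_off [T2Space N] {k : N} {i : A.ι} {z : ℂ} (hz : z ∈ (A.c i).target)
    (hK : (A.c i).symm z ∉ P.K k) : fderiv ℝ (rp A (P.ρ k) i) z = 0 := by
  have h1 : rp A (P.ρ k) i =ᶠ[𝓝 z] fun _ => 0 := by
    filter_upwards [(tendsto_symm A hz).eventually ((P.K_closed k).isOpen_compl.mem_nhds hK)]
      with w hw
    exact P.zero_off hw
  rw [h1.fderiv_eq, fderiv_fun_const]
  rfl

theorem rp_contDiffAt (k : N) {i : A.ι} {z : ℂ} (hz : z ∈ (A.c i).target) :
    ContDiffAt ℝ (⊤ : ℕ∞) (rp A (P.ρ k) i) z :=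
  (P.smooth k i).contDiffAt ((A.c i).open_target.mem_nhds hz)

theorem rp_diff (k : N) {i : A.ι} {z : ℂ} (hz : z ∈ (A.c i).target) :
    DifferentiableAt ℝ (rp A (P.ρ k) i) z :=
  (P.rp_contDiffAt k hz).differentiableAt (by simp)

theorem sum_fd {i : A.ι} {z : ℂ} (hz : z ∈ (A.c i).target) :
    ∑ k ∈ P.T, fderiv ℝ (rp A (P.ρ k) i) z = 0 := by
  have h1 : HasFDerivAt (fun w => ∑ k ∈ P.T, rp A (P.ρ k) i w)
      (∑ k ∈ P.T, fderiv ℝ (rp A (P.ρ k) i) z) z :=
    HasFDerivAt.fun_sum fun k _ => (P.rp_diff k hz).hasFDerivAt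
  have h2 : (fun w => ∑ k ∈ P.T, rp A (P.ρ k) i w) = fun _ => 1 := by
    ext w
    exact P.sum _
  rw [h2] at h1
  exact h1.unique (hasFDerivAt_const _ _)

end Pou

/-- a one-form off the set `F` : covectors in the charts -/
structure Form1 (F : Set N) where
  /-- the covector in a chart -/
  a : A.ι → ℂ → ℂ →L[ℝ] ℝ
  cont : ∀ i, ContinuousOn (a i) {z | z ∈ (A.c i).target ∧ (A.c i).symm z ∉ F}
  tr : ∀ i j, ∀ z ∈ A.dom i j, (A.c i).symm z ∉ F →
    a i z = (a j (A.tr i j z)).comp (mulL (deriv (A.tr i j) z))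

variable {A} {F : Finset N}

/-- the density `dρ_k ∧ α` in the chart `i` -/
def dens (P : Pou A F) (α : Form1 A (F : Set N)) (k : N) (i : A.ι) (z : ℂ) : ℝ :=
  wg (fderiv ℝ (rp A (P.ρ k) i) z) (α.a i z)

theorem dens_tr [T2Space N] (P : Pou A F) (α : Form1 A (F : Set N)) (k : N) {i j : A.ι} {z : ℂ}
    (hz : z ∈ A.dom i j) :
    dens P α k i z = dens P α k j (A.tr i j z) * Complex.normSq (deriv (A.tr i j) z) := by
  have hw := A.tr_mem hz
  unfold dens
  by_cases hF : (A.c i).symm z ∈ F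
  · have hF' : (A.c j).symm (A.tr i j z) ∈ F := by rwa [A.symm_tr hz]
    rw [(P.fd_zero (k := k) hz.1 hF).self_of_nhds, (P.fd_zero (k := k) hw.1 hF').self_of_nhds]
    simp
  · rw [α.tr i j z hz hF, fderiv_rp A (P.ρ k) hz (P.rp_diff k hw.1), wg_mul]

theorem wg_continuousOn {s : Set ℂ} {a b : ℂ → ℂ →L[ℝ] ℝ} (ha : ContinuousOn a s)
    (hb : ContinuousOn b s) : ContinuousOn (fun z => wg (a z) (b z)) s := by
  unfold wg
  exact ((ha.clm_apply continuousOn_const).mul (hb.clm_apply continuousOn_const)).sub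
    ((ha.clm_apply continuousOn_const).mul (hb.clm_apply continuousOn_const))

theorem wg_continuousAt {z : ℂ} {a b : ℂ → ℂ →L[ℝ] ℝ} (ha : ContinuousAt a z)
    (hb : ContinuousAt b z) : ContinuousAt (fun z => wg (a z) (b z)) z := by
  unfold wg
  exact ((ha.clm_apply continuousAt_const).mul (hb.clm_apply continuousAt_const)).sub
    ((ha.clm_apply continuousAt_const).mul (hb.clm_apply continuousAt_const))

theorem isOpen_off [T2Space N] (F : Finset N) (i : A.ι) :
    IsOpen {z | z ∈ (A.c i).target ∧ (A.c i).symm z ∉ (F : Set N)} :=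
  (A.c i).isOpen_inter_preimage_symm F.finite_toSet.isClosed.isOpen_compl

theorem dens_cont [T2Space N] (P : Pou A F) (α : Form1 A (F : Set N)) (k : N) (i : A.ι) :
    ContinuousOn (dens P α k i) (A.c i).target := by
  intro z hz
  refine ContinuousAt.continuousWithinAt ?_
  by_cases hF : (A.c i).symm z ∈ F
  · have h1 : dens P α k i =ᶠ[𝓝 z] fun _ => 0 := by
      filter_upwards [P.fd_zero (k := k) hz hF] with w hw
      simp [dens, hw]
    exact continuousAt_const.congr h1.symm
  · refine wg_continuousAt ?_ ?_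
    · exact ((P.rp_contDiffAt k hz).fderiv_right (m := 0) (by simp)).continuousAt
    · exact (α.cont i).continuousAt ((isOpen_off F i).mem_nhds ⟨hz, hF⟩)

theorem dens_off [T2Space N] (P : Pou A F) (α : Form1 A (F : Set N)) {k : N} {i : A.ι} {z : ℂ}
    (hz : z ∈ (A.c i).target) (hK : (A.c i).symm z ∉ P.K k) : dens P α k i z = 0 := by
  simp [dens, P.fd_off hz hK]

/-- **Stokes** : `Σ_k ∫ dρ_k ∧ α = 0`. -/
theorem sum_zero [T2Space N] (P : Pou A F) (α : Form1 A (F : Set N)) :
    ∑ k ∈ P.T, ∫ z in (A.c (P.i k)).target, dens P α k (P.i k) z = 0 := by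
  -- the densities `ρ_l dρ_k ∧ α`
  set G : N → N → A.ι → ℂ → ℝ := fun l k i z => rp A (P.ρ l) i z * dens P α k i z with hG
  have hGc : ∀ l k i, ContinuousOn (G l k i) (A.c i).target := fun l k i =>
    (P.smooth l i).continuousOn.mul (dens_cont P α k i)
  have hGk : ∀ l k i, ∀ z ∈ (A.c i).target, (A.c i).symm z ∉ P.K k → G l k i z = 0 :=
    fun l k i z hz hK => by simp [hG, dens_off P α hz hK]
  have hGl : ∀ l k i, ∀ z ∈ (A.c i).target, (A.c i).symm z ∉ P.K l → G l k i z = 0 :=
    fun l k i z hz hK => by simp [hG, rp, P.zero_off hK]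
  have hGi : ∀ l k, IntegrableOn (G l k (P.i k)) (A.c (P.i k)).target := fun l k =>
    integrableOn_cs (A.c (P.i k)).open_target.measurableSet (isCompact_closedBall _ _)
      (P.half_sub k) (hGc l k _) fun z hz hn => hGk l k _ z hz fun h => hn (P.mem_half hz h)
  have hGi2 : ∀ l k, IntegrableOn (G l k (P.i l)) (A.c (P.i l)).target := fun l k =>
    integrableOn_cs (A.c (P.i l)).open_target.measurableSet (isCompact_closedBall _ _)
      (P.half_sub l) (hGc l k _) fun z hz hn => hGl l k _ z hz fun h => hn (P.mem_half hz h)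
  have hdom : ∀ i j, A.dom i j ⊆ (A.c i).target := fun i j z hz => hz.1
  have hswap : ∀ l k, ∫ z in (A.c (P.i k)).target, G l k (P.i k) z
      = ∫ z in (A.c (P.i l)).target, G l k (P.i l) z := by
    intro l k
    have e1 : ∫ z in (A.c (P.i k)).target, G l k (P.i k) z
        = ∫ z in A.dom (P.i k) (P.i l), G l k (P.i k) z := by
      refine setIntegral_eq_of_subset_of_forall_sdiff_eq_zero
        (A.c (P.i k)).open_target.measurableSet (hdom _ _) fun z hz => ?_
      refine hGl l k _ z hz.1 fun h => hz.2 ⟨hz.1, P.K_sub l h⟩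
    have e2 : ∫ z in (A.c (P.i l)).target, G l k (P.i l) z
        = ∫ z in A.dom (P.i l) (P.i k), G l k (P.i l) z := by
      refine setIntegral_eq_of_subset_of_forall_sdiff_eq_zero
        (A.c (P.i l)).open_target.measurableSet (hdom _ _) fun z hz => ?_
      refine hGk l k _ z hz.1 fun h => hz.2 ⟨hz.1, P.K_sub k h⟩
    rw [e1, e2]
    refine cov A (G l k) fun z hz => ?_
    show rp A (P.ρ l) _ z * dens P α k _ z = _
    rw [dens_tr P α k hz]
    show _ = rp A (P.ρ l) _ (A.tr _ _ z) * _ * _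
    rw [rp_tr A _ hz]
    ring
  have h1 : ∀ k ∈ P.T, ∫ z in (A.c (P.i k)).target, dens P α k (P.i k) z
      = ∑ l ∈ P.T, ∫ z in (A.c (P.i l)).target, G l k (P.i l) z := by
    intro k _
    rw [← Finset.sum_congr rfl fun l _ => hswap l k, ← integral_finsetSum _ fun l _ => hGi l k]
    refine setIntegral_congr_fun (A.c (P.i k)).open_target.measurableSet fun z hz => ?_
    show _ = ∑ l ∈ P.T, rp A (P.ρ l) _ z * dens P α k _ z
    rw [← Finset.sum_mul]
    have : ∑ l ∈ P.T, rp A (P.ρ l) (P.i k) z = 1 := P.sum _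
    rw [this, one_mul]
  rw [Finset.sum_congr rfl h1, Finset.sum_comm]
  refine Finset.sum_eq_zero fun l _ => ?_
  rw [← integral_finsetSum _ fun k _ => hGi2 l k]
  refine setIntegral_eq_zero_of_forall_eq_zero fun z hz => ?_
  show ∑ k ∈ P.T, rp A (P.ρ l) _ z * dens P α k _ z = 0
  rw [← Finset.mul_sum]
  have : ∑ k ∈ P.T, dens P α k (P.i l) z = 0 := by
    unfold dens
    rw [← wg_sum_left, P.sum_fd hz, wg_zero_left]
  rw [this, mul_zero]

end

end Crest.Agent.R235.W2_464
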