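import Crest.Agent.R235.WKG_460

set_option autoImplicit false

open MeasureTheory Metric Set Filter Complex
open scoped ContDiff Topology ComplexConjugate ENNReal

namespace Crest.Agent.R235.WKBall_463

open Crest.Agent.R235.Loc Crest.Agent.R235.WKG_460

noncomputable section

/-- polar point -/
def pt (p : ℂ) (z : ℝ × ℝ) : ℂ := p + z.1 * exp (z.2 * I)

theorem pt_cont (p : ℂ) : Continuous (pt p) := by
  unfold pt; fun_prop

theorem pt_eq (p : ℂ) (z : ℝ × ℝ) : pt p z = p + Complex.polarCoord.symm z := by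
  rw [Complex.polarCoord_symm_apply, pt, Complex.exp_mul_I]
  push_cast
  ring

/-- the polar measure space -/
def PM : Measure (ℝ × ℝ) :=
  ((volume : Measure ℝ).restrict (Ioi 0)).prod ((volume : Measure ℝ).restrict (Ioo (-Real.pi) Real.pi))

theorem PM_eq : PM = (volume : Measure (ℝ × ℝ)).restrict polarCoord.target := by
  rw [PM, Measure.prod_restrict, polarCoord_target, Measure.volume_eq_prod]

theorem polar_int (p : ℂ) (f : ℂ → ℝ) (hf : Measurable f) (hi : Integrable f) :
    Integrable (fun z : ℝ × ℝ => z.1 * f (pt p z)) PM ∧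
      ∫ t, f t = ∫ z, z.1 * f (pt p z) ∂PM := by
  constructor
  · refine ⟨?_, ?_⟩
    · exact (measurable_fst.mul (hf.comp (pt_cont p).measurable)).aestronglyMeasurable
    · rw [hasFiniteIntegral_iff_enorm]
      have h1 := Complex.lintegral_comp_polarCoord_symm (fun t => ‖f (p + t)‖ₑ)
      have h2 : ∫⁻ t, ‖f (p + t)‖ₑ = ∫⁻ t, ‖f t‖ₑ :=
        lintegral_add_left_eq_self (fun t => ‖f t‖ₑ) p
      have h3 : ∫⁻ z, ‖z.1 * f (pt p z)‖ₑ ∂PM = ∫⁻ t, ‖f t‖ₑ := by
        rw [← h2, ← h1, PM_eq]
        refine setLIntegral_congr_fun polarCoord.open_target.measurableSet fun z hz => ?_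
        rw [polarCoord_target] at hz
        have hz0 : 0 < z.1 := hz.1
        simp only [smul_eq_mul]
        rw [enorm_mul, pt_eq, Real.enorm_eq_ofReal hz0.le]
      rw [h3]
      exact hi.2
  · rw [PM_eq]
    have h1 := Complex.integral_comp_polarCoord_symm (fun t => f (p + t))
    rw [integral_add_left_eq_self f p] at h1
    rw [← h1]
    refine setIntegral_congr_fun polarCoord.open_target.measurableSet fun z hz => ?_
    simp only [smul_eq_mul]
    rw [pt_eq]

/-- Lebesgue points against an approximate identity. -/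
theorem lebpt (J : ℝ → ℝ) (hJ : Integrable J) : ∀ᵐ r : ℝ, ∀ (δ : ℕ → ℝ), (∀ n, 0 < δ n) →
    Tendsto δ atTop (𝓝 0) → ∀ (w : ℕ → ℝ → ℝ) (M : ℝ), (∀ n, Measurable (w n)) →
    (∀ n x, |w n x| ≤ M / δ n) → (∀ n x, x ∉ closedBall r (δ n) → w n x = 0) →
    (∀ n, ∫ x, w n x = 1) → Tendsto (fun n => ∫ x, w n x * J x) atTop (𝓝 (J r)) := by
  filter_upwards [IsUnifLocDoublingMeasure.ae_tendsto_average_norm_sub (μ := (volume : Measure ℝ))
    hJ.locallyIntegrable 1] with r hr δ hδ0 hδ w M hwm hwb hws hw1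
  have h1 := hr (fun _ : ℕ => r) δ (tendsto_nhdsWithin_iff.2 ⟨hδ, Eventually.of_forall hδ0⟩)
    (Eventually.of_forall fun n => by simp [(hδ0 n).le])
  have hwi : ∀ n, Integrable (w n) := by
    intro n
    refine IntegrableOn.integrable_of_forall_notMem_eq_zero (s := closedBall r (δ n)) ?_ (hws n)
    refine Measure.integrableOn_of_bounded (M := M / δ n) measure_closedBall_lt_top.ne
      (hwm n).aestronglyMeasurable (Eventually.of_forall fun x => ?_)
    rw [Real.norm_eq_abs]; exact hwb n x
  have hwJ : ∀ n, Integrable (fun x => w n x * J x) := fun n =>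
    hJ.bdd_mul (c := M / δ n) (hwm n).aestronglyMeasurable
      (Eventually.of_forall fun x => by rw [Real.norm_eq_abs]; exact hwb n x)
  have hkey : ∀ n, |(∫ x, w n x * J x) - J r| ≤
      2 * M * ⨍ y in closedBall r (δ n), ‖J y - J r‖ := by
    intro n
    have hM : 0 ≤ M / δ n := (abs_nonneg _).trans (hwb n r)
    have hint : IntegrableOn (fun y => ‖J y - J r‖) (closedBall r (δ n)) :=
      (hJ.integrableOn.sub (integrableOn_const (measure_closedBall_lt_top.ne))).norm
    have e1 : (∫ x, w n x * J x) - J r = ∫ x, w n x * (J x - J r) := by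
      have : (∫ x, w n x * (J x - J r)) = (∫ x, w n x * J x) - ∫ x, w n x * J r := by
        rw [← integral_sub (hwJ n) ((hwi n).mul_const _)]
        refine integral_congr_ae (Eventually.of_forall fun x => ?_)
        simp only; ring
      rw [this, integral_mul_const, hw1 n, one_mul]
    have e2 : (∫ x, w n x * (J x - J r)) = ∫ x in closedBall r (δ n), w n x * (J x - J r) := by
      rw [setIntegral_eq_integral_of_forall_compl_eq_zero]
      intro x hx
      rw [hws n x hx, zero_mul]
    rw [e1, e2, setAverage_eq]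
    have hv : (volume : Measure ℝ).real (closedBall r (δ n)) = 2 * δ n := by
      rw [measureReal_def, Real.volume_closedBall, ENNReal.toReal_ofReal]
      have := hδ0 n; positivity
    calc |∫ x in closedBall r (δ n), w n x * (J x - J r)|
        ≤ ∫ x in closedBall r (δ n), M / δ n * ‖J x - J r‖ := by
          rw [← Real.norm_eq_abs]
          refine norm_integral_le_of_norm_le (hint.const_mul _) (Eventually.of_forall fun x => ?_)
          rw [norm_mul]
          exact mul_le_mul_of_nonneg_right (by rw [Real.norm_eq_abs]; exact hwb n x) (norm_nonneg _)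
      _ = M / δ n * ∫ x in closedBall r (δ n), ‖J x - J r‖ := integral_const_mul _ _
      _ = 2 * M * ((volume : Measure ℝ).real (closedBall r (δ n)))⁻¹ •
            ∫ x in closedBall r (δ n), ‖J x - J r‖ := by
          rw [hv, smul_eq_mul]
          have := (hδ0 n).ne'
          field_simp
      _ = _ := by simp only [smul_eq_mul]
  have h2 : Tendsto (fun n => 2 * M * ⨍ y in closedBall r (δ n), ‖J y - J r‖) atTop (𝓝 0) := by
    simpa using h1.const_mul (2 * M)
  rw [← tendsto_sub_nhds_zero_iff]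
  exact squeeze_zero_norm (fun n => by rw [Real.norm_eq_abs]; exact hkey n) h2

/-- a bound for the derivative of the smooth transition -/
theorem exists_M : ∃ M : ℝ, 0 ≤ M ∧ (∀ x, |deriv Real.smoothTransition x| ≤ M) ∧
    (∀ x, x < 0 → deriv Real.smoothTransition x = 0) ∧
    (∀ x, 1 < x → deriv Real.smoothTransition x = 0) := by
  have h0 : ∀ x, x < 0 → deriv Real.smoothTransition x = 0 := by
    intro x hx
    have : Real.smoothTransition =ᶠ[𝓝 x] fun _ => 0 := by
      filter_upwards [Iio_mem_nhds hx] with y hy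
      exact Real.smoothTransition.zero_of_nonpos (le_of_lt hy)
    rw [this.deriv_eq]; simp
  have h1 : ∀ x, 1 < x → deriv Real.smoothTransition x = 0 := by
    intro x hx
    have : Real.smoothTransition =ᶠ[𝓝 x] fun _ => 1 := by
      filter_upwards [Ioi_mem_nhds hx] with y hy
      exact Real.smoothTransition.one_of_one_le (le_of_lt hy)
    rw [this.deriv_eq]; simp
  have hc : Continuous (deriv Real.smoothTransition) :=
    (Real.smoothTransition.contDiff (n := 1)).continuous_deriv le_rfl
  obtain ⟨M, hM⟩ := (isCompact_Icc (a := (0:ℝ)) (b := 1)).exists_bound_of_continuousOn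
    hc.continuousOn
  refine ⟨max M 0, le_max_right _ _, fun x => ?_, h0, h1⟩
  by_cases hx : x ∈ Icc (0:ℝ) 1
  · exact (hM x hx).trans (le_max_left _ _)
  · rw [mem_Icc, not_and_or, not_le, not_le] at hx
    rcases hx with hx | hx
    · rw [h0 x hx]; simp
    · rw [h1 x hx]; simp

/-- radial cut-off -/
def chi (p : ℂ) (a b : ℝ) (t : ℂ) : ℝ :=
  Real.smoothTransition ((b ^ 2 - ‖t - p‖ ^ 2) / (b ^ 2 - a ^ 2))

/-- the radial weight -/
def wt (a b : ℝ) : ℝ → ℝ := (Icc a b).indicator fun ρ =>
  2 * ρ * deriv Real.smoothTransition ((b ^ 2 - ρ ^ 2) / (b ^ 2 - a ^ 2)) / (b ^ 2 - a ^ 2)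

theorem chi_smooth (p : ℂ) (a b : ℝ) : ContDiff ℝ ∞ (chi p a b) := by
  refine Real.smoothTransition.contDiff.comp ?_
  refine ContDiff.div_const (contDiff_const.sub ?_) _
  exact (contDiff_id.sub contDiff_const).norm_sq ℝ

theorem chi_nonneg (p : ℂ) (a b : ℝ) (t : ℂ) : 0 ≤ chi p a b t := Real.smoothTransition.nonneg _

theorem chi_le_one (p : ℂ) (a b : ℝ) (t : ℂ) : chi p a b t ≤ 1 := Real.smoothTransition.le_one _

theorem dS_cont : Continuous (deriv Real.smoothTransition) :=
  (Real.smoothTransition.contDiff (n := 1)).continuous_deriv le_rfl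

theorem wt_meas (a b : ℝ) : Measurable (wt a b) := by
  refine Measurable.indicator (Continuous.measurable ?_) measurableSet_Icc
  have := dS_cont
  fun_prop

section
variable (p : ℂ) {a b : ℝ} (ha : 0 < a) (hab : a < b)
include ha hab

theorem den_pos : 0 < b ^ 2 - a ^ 2 := by nlinarith

theorem wt_bound {M : ℝ} (hM : ∀ x, |deriv Real.smoothTransition x| ≤ M) (ρ : ℝ) :
    |wt a b ρ| ≤ 2 * M / (b - a) := by
  have h := den_pos ha hab
  have hM0 : 0 ≤ M := (abs_nonneg _).trans (hM 0)
  have hba : 0 < b - a := by linarith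
  by_cases hρ : ρ ∈ Icc a b
  · rw [wt, indicator_of_mem hρ, abs_div, abs_of_pos h, abs_mul, abs_mul, abs_of_pos (two_pos (α := ℝ)),
      abs_of_pos (ha.trans_le hρ.1), div_le_div_iff₀ h hba]
    have h1 := hM ((b ^ 2 - ρ ^ 2) / (b ^ 2 - a ^ 2))
    have h2 : ρ * |deriv Real.smoothTransition ((b ^ 2 - ρ ^ 2) / (b ^ 2 - a ^ 2))| ≤ (b + a) * M :=
      mul_le_mul (by linarith [hρ.2]) h1 (abs_nonneg _) (by linarith)
    nlinarith
  · rw [wt, indicator_of_notMem hρ, abs_zero]
    positivity

theorem wt_int : ∫ ρ, wt a b ρ = 1 := by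
  have h := den_pos ha hab
  rw [wt, integral_indicator measurableSet_Icc, integral_Icc_eq_integral_Ioc,
    ← intervalIntegral.integral_of_le hab.le]
  have hd : ∀ x ∈ uIcc a b, HasDerivAt
      (fun ρ : ℝ => -Real.smoothTransition ((b ^ 2 - ρ ^ 2) / (b ^ 2 - a ^ 2)))
      (2 * x * deriv Real.smoothTransition ((b ^ 2 - x ^ 2) / (b ^ 2 - a ^ 2)) / (b ^ 2 - a ^ 2))
      x := by
    intro x _
    have hS : HasDerivAt Real.smoothTransition
        (deriv Real.smoothTransition ((b ^ 2 - x ^ 2) / (b ^ 2 - a ^ 2)))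
        ((b ^ 2 - x ^ 2) / (b ^ 2 - a ^ 2)) :=
      ((Real.smoothTransition.contDiff (n := 1)).differentiable (by norm_num) _).hasDerivAt
    have hi : HasDerivAt (fun ρ : ℝ => (b ^ 2 - ρ ^ 2) / (b ^ 2 - a ^ 2))
        (-(2 * x) / (b ^ 2 - a ^ 2)) x := by
      have := (((hasDerivAt_pow 2 x).const_sub (b ^ 2)).div_const (b ^ 2 - a ^ 2))
      refine this.congr_deriv ?_
      simp
    refine (hS.comp x hi).neg.congr_deriv ?_
    ring
  rw [intervalIntegral.integral_eq_sub_of_hasDerivAt hd]
  · rw [sub_self, zero_div, Real.smoothTransition.zero, div_self h.ne', Real.smoothTransition.one]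
    norm_num
  · refine Continuous.intervalIntegrable ?_ _ _
    have := dS_cont
    fun_prop

theorem chi_one {t : ℂ} (ht : ‖t - p‖ ≤ a) : chi p a b t = 1 := by
  have h := den_pos ha hab
  refine Real.smoothTransition.one_of_one_le ?_
  rw [le_div_iff₀ h]
  nlinarith [norm_nonneg (t - p)]

theorem chi_zero {t : ℂ} (ht : b ≤ ‖t - p‖) : chi p a b t = 0 := by
  have h := den_pos ha hab
  refine Real.smoothTransition.zero_of_nonpos ?_
  refine div_nonpos_of_nonpos_of_nonneg ?_ h.le
  nlinarith [norm_nonneg (t - p)]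

theorem chi_supp : tsupport (chi p a b) ⊆ closedBall p b := by
  refine closure_minimal (fun t ht => ?_) isClosed_closedBall
  rw [mem_closedBall, dist_eq_norm]
  by_contra hc
  exact ht (chi_zero p ha hab (le_of_lt (not_le.1 hc)))

theorem chi_cpt : HasCompactSupport (chi p a b) :=
  (isCompact_closedBall p b).of_isClosed_subset (isClosed_tsupport _) (chi_supp p ha hab)

omit ha hab in
theorem chi_fderiv (a b : ℝ) (t u : ℂ) : fderiv ℝ (chi p a b) t u =
    -(2 * deriv Real.smoothTransition ((b ^ 2 - ‖t - p‖ ^ 2) / (b ^ 2 - a ^ 2)) / (b ^ 2 - a ^ 2)) *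
      (conj (t - p) * u).re := by
  have hS : HasDerivAt Real.smoothTransition
      (deriv Real.smoothTransition ((b ^ 2 - ‖t - p‖ ^ 2) / (b ^ 2 - a ^ 2)))
      ((b ^ 2 - ‖t - p‖ ^ 2) / (b ^ 2 - a ^ 2)) :=
    ((Real.smoothTransition.contDiff (n := 1)).differentiable (by norm_num) _).hasDerivAt
  have hn : HasFDerivAt (fun t : ℂ => ‖t - p‖ ^ 2) (2 • (innerSL ℝ (t - p))) t := by
    have := (hasStrictFDerivAt_norm_sq (t - p)).hasFDerivAt.comp t
      ((hasFDerivAt_id t).sub_const p)
    simpa [Function.comp_def] using this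
  have hd : HasFDerivAt (fun t : ℂ => (b ^ 2 - ‖t - p‖ ^ 2) / (b ^ 2 - a ^ 2))
      (((b ^ 2 - a ^ 2)⁻¹ : ℝ) • (-(2 • (innerSL ℝ (t - p))) : ℂ →L[ℝ] ℝ)) t := by
    have := (hn.const_sub (b ^ 2)).mul_const ((b ^ 2 - a ^ 2)⁻¹)
    simpa [div_eq_mul_inv] using this
  have h := hS.comp_hasFDerivAt t hd
  have h' : HasFDerivAt (chi p a b) _ t := h
  rw [h'.fderiv]
  have hin : (innerSL ℝ (t - p)) u = (conj (t - p) * u).re := by
    rw [innerSL_apply_apply, Complex.inner]
    try rw [mul_comm]
  simp only [ContinuousLinearMap.smul_apply, ContinuousLinearMap.neg_apply, smul_eq_mul,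
    nsmul_eq_mul, hin]
  push_cast
  field_simp

end

variable {μ β : ℂ × ℂ → ℂ} {c : ℂ} {R : ℝ} {k : ℕ} {s : ℂ → Fin k → ℂ}
    {A : ℂ → Fin k → (ℂ →L[ℝ] ℂ)} {ma : Measure ℂ} {K c0 Mb : ℝ}

/-- the angular integrand -/
def gg (s : ℂ → Fin k → ℂ) (A : ℂ → Fin k → (ℂ →L[ℝ] ℂ)) (p t : ℂ) : ℝ :=
  ∑ i, (conj (s t i) * A t i (I * (t - p))).im

theorem gg_eq (p t : ℂ) : gg s A p t = ∑ i, ((t - p).re * (conj (s t i) * A t i I).im -
    (t - p).im * (conj (s t i) * A t i 1).im) := by
  unfold gg
  refine Finset.sum_congr rfl fun i _ => ?_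
  have h1 : I * (t - p) = ((t - p).re : ℝ) • I - ((t - p).im : ℝ) • (1 : ℂ) := by
    apply Complex.ext <;> simp
  rw [h1, map_sub, map_smul, map_smul]
  simp only [Complex.real_smul, Complex.mul_im, Complex.mul_re, Complex.sub_im, Complex.sub_re,
    Complex.ofReal_re, Complex.ofReal_im, Complex.conj_re, Complex.conj_im]
  ring

theorem gg_meas (hW : WKG μ β c R k s A ma K c0 Mb) (p : ℂ) : Measurable (gg s A p) := by
  have : gg s A p = fun t => ∑ i, ((t - p).re * (conj (s t i) * A t i I).im -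
    (t - p).im * (conj (s t i) * A t i 1).im) := funext fun t => gg_eq p t
  rw [this]
  refine Finset.measurable_sum _ fun i _ => ?_
  have h1 := hW.smeas i
  have h2 := (hW.Ameas i).apply_continuousLinearMap I
  have h3 := (hW.Ameas i).apply_continuousLinearMap (1 : ℂ)
  have h4 : Measurable fun t => conj (s t i) := Complex.continuous_conj.measurable.comp h1
  have h5 : Measurable fun t : ℂ => (t - p).re :=
    (Complex.continuous_re.comp (continuous_id.sub continuous_const)).measurable
  have h6 : Measurable fun t : ℂ => (t - p).im :=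
    (Complex.continuous_im.comp (continuous_id.sub continuous_const)).measurable
  exact (h5.mul (Complex.measurable_im.comp (h4.mul h2))).sub
    (h6.mul (Complex.measurable_im.comp (h4.mul h3)))

theorem gg_bound (hW : WKG μ β c R k s A ma K c0 Mb) (p t : ℂ) :
    |gg s A p t| ≤ Mb * (∑ i, ‖A t i‖) * ‖t - p‖ := by
  unfold gg
  refine (Finset.abs_sum_le_sum_abs _ _).trans ?_
  rw [Finset.mul_sum, Finset.sum_mul]
  refine Finset.sum_le_sum fun i _ => ?_
  have hMb : 0 ≤ Mb := (norm_nonneg _).trans (hW.bdd t i)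
  calc |(conj (s t i) * A t i (I * (t - p))).im| ≤ ‖conj (s t i) * A t i (I * (t - p))‖ :=
        Complex.abs_im_le_norm _
    _ = ‖s t i‖ * ‖A t i (I * (t - p))‖ := by rw [norm_mul, RCLike.norm_conj]
    _ ≤ Mb * (‖A t i‖ * ‖t - p‖) := by
        refine mul_le_mul (hW.bdd t i) ?_ (norm_nonneg _) hMb
        refine ((A t i).le_opNorm _).trans_eq ?_
        rw [norm_mul, Complex.norm_I, one_mul]
    _ = _ := by ring

/-- the integrable density -/
def qq (s : ℂ → Fin k → ℂ) (A : ℂ → Fin k → (ℂ →L[ℝ] ℂ)) (p : ℂ) (r0 : ℝ) : ℂ → ℝ :=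
  (ball p r0).indicator fun t => gg s A p t / ‖t - p‖

theorem qq_meas (hW : WKG μ β c R k s A ma K c0 Mb) (p : ℂ) (r0 : ℝ) :
    Measurable (qq s A p r0) := by
  refine Measurable.indicator ((gg_meas hW p).div ?_) measurableSet_ball
  exact (continuous_id.sub continuous_const).norm.measurable

theorem qq_int (hW : WKG μ β c R k s A ma K c0 Mb) {p : ℂ} {r0 : ℝ}
    (hsub : ball p r0 ⊆ ball c R) : Integrable (qq s A p r0) := by
  unfold qq
  rw [integrable_indicator_iff measurableSet_ball]
  have h1 : IntegrableOn (fun t => Mb * ∑ i, (1 + ‖A t i‖ ^ 2)) (ball p r0) := by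
    refine Integrable.const_mul ?_ _
    have h2 : IntegrableOn (fun t => ∑ i, ‖A t i‖ ^ 2) (ball p r0) := hW.eint.mono_set hsub
    have h3 : IntegrableOn (fun _ : ℂ => ∑ _i : Fin k, (1 : ℝ)) (ball p r0) :=
      integrableOn_const measure_ball_lt_top.ne
    have := h3.add h2
    refine this.congr (Eventually.of_forall fun t => ?_)
    simp only [Pi.add_apply, Finset.sum_add_distrib]
  have hm : AEStronglyMeasurable (fun t => gg s A p t / ‖t - p‖)
      (volume.restrict (ball p r0)) :=
    ((gg_meas hW p).div (continuous_id.sub continuous_const).norm.measurable).aestronglyMeasurable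
  refine Integrable.mono' h1 hm (Eventually.of_forall fun t => ?_)
  rw [Real.norm_eq_abs, abs_div, abs_norm]
  have hb := gg_bound hW p t
  have hMb : (∑ i, ‖A t i‖) ≤ ∑ i, (1 + ‖A t i‖ ^ 2) :=
    Finset.sum_le_sum fun i _ => by nlinarith [sq_nonneg (‖A t i‖ - 1), norm_nonneg (A t i)]
  by_cases hk : k = 0
  · subst hk
    simp [gg]
  have i0 : Fin k := ⟨0, Nat.pos_of_ne_zero hk⟩
  have hMb0 : 0 ≤ Mb := (norm_nonneg _).trans (hW.bdd t i0)
  by_cases h0 : ‖t - p‖ = 0
  · rw [h0, div_zero]
    have : 0 ≤ ∑ i, (1 + ‖A t i‖ ^ 2) := Finset.sum_nonneg fun i _ => by positivity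
    positivity
  · have hpos : 0 < ‖t - p‖ := lt_of_le_of_ne (norm_nonneg _) (Ne.symm h0)
    rw [div_le_iff₀ hpos]
    refine hb.trans ?_
    exact mul_le_mul_of_nonneg_right (mul_le_mul_of_nonneg_left hMb hMb0) hpos.le

/-- the circle integral -/
def JJ (s : ℂ → Fin k → ℂ) (A : ℂ → Fin k → (ℂ →L[ℝ] ℂ)) (p : ℂ) (r0 : ℝ) : ℝ → ℝ :=
  (Ioi 0).indicator fun ρ => ∫ φ in Ioo (-Real.pi) Real.pi, ρ * qq s A p r0 (pt p (ρ, φ))

theorem JJ_int (hW : WKG μ β c R k s A ma K c0 Mb) {p : ℂ} {r0 : ℝ}
    (hsub : ball p r0 ⊆ ball c R) : Integrable (JJ s A p r0) := by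
  unfold JJ
  rw [integrable_indicator_iff measurableSet_Ioi]
  exact (polar_int p _ (qq_meas hW p r0) (qq_int hW hsub)).1.integral_prod_left

theorem JJ_eq {p : ℂ} {r r0 : ℝ} (hr : r ∈ Ioo 0 r0) : JJ s A p r0 r =
    ∫ φ in (-Real.pi)..Real.pi,
      ∑ i, (conj (s (p + r * exp (φ * I)) i) *
        A (p + r * exp (φ * I)) i (I * (r * exp (φ * I)))).im := by
  rw [JJ, indicator_of_mem (mem_Ioi.2 hr.1), intervalIntegral.integral_of_le (by
    linarith [Real.pi_pos]), integral_Ioc_eq_integral_Ioo]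
  refine setIntegral_congr_fun measurableSet_Ioo fun φ _ => ?_
  have hn : ‖pt p (r, φ) - p‖ = r := by
    simp [pt, Complex.norm_exp_ofReal_mul_I, abs_of_pos hr.1]
  have hmem : pt p (r, φ) ∈ ball p r0 := by
    rw [mem_ball, dist_eq_norm, hn]; exact hr.2
  have hr0 : r ≠ 0 := hr.1.ne'
  simp only [qq]
  rw [indicator_of_mem hmem, hn, mul_div_cancel₀ _ hr0]
  simp only [gg, pt, add_sub_cancel_left]

/-- the identity `e2` (works for both readings of the field `e2`; the second alternative is only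
used for the reading in which the last term is inside the integral). -/
theorem e2_cases (hW : WKG μ β c R k s A ma K c0 Mb) (χ : ℂ → ℝ) (h1 : ContDiff ℝ ∞ χ)
    (h2 : HasCompactSupport χ) (h3 : tsupport χ ⊆ ball c R) (h0 : ∀ t, 0 ≤ χ t) :
    (∫ t, χ t ∂ma = k * K * (∫ t, χ t) -
      1 / 2 * ∫ t in ball c R, ∑ i, (fderiv ℝ χ t 1 * (conj (s t i) * A t i I).im -
        fderiv ℝ χ t I * (conj (s t i) * A t i 1).im)) ∨
    ∫ t, χ t ∂ma ≤ k * K * ∫ t, χ t := by
  have he := hW.e2 χ h1 h2 h3
  have hkK : 0 ≤ (k : ℝ) * K := mul_nonneg (Nat.cast_nonneg _) hW.K0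
  have hi : Integrable χ := h1.continuous.integrable_of_hasCompactSupport h2
  first
  | exact Or.inl he
  | (refine Or.inr ?_
     rw [he]
     refine mul_le_mul_of_nonneg_left ?_ hkK
     generalize (1 / 2 * ∫ t in ball c R, ∑ i, (fderiv ℝ χ t 1 * (conj (s t i) * A t i I).im -
        fderiv ℝ χ t I * (conj (s t i) * A t i 1).im) : ℝ) = X
     by_cases hX : X = 0
     · simp [hX]
     · rw [integral_undef]
       · exact integral_nonneg h0
       · intro hc
         have h4 : Integrable fun _ : ℂ => X := by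
           have := hi.sub hc
           refine this.congr (Eventually.of_forall fun t => ?_)
           simp
         rw [integrable_const_iff] at h4
         rcases h4 with h4 | h4
         · exact hX h4
         · have := h4.measure_univ_lt_top
           simp at this)

theorem main (hW : WKG μ β c R k s A ma K c0 Mb) {p : ℂ} {r0 : ℝ}
    (hsub : ball p r0 ⊆ ball c R) {a b : ℝ} (ha : 0 < a) (hab : a < b) (hb : b < r0) :
    (ma (ball p a)).toReal ≤
      k * K * Real.pi * b ^ 2 + 1 / 2 * |∫ ρ, wt a b ρ * JJ s A p r0 ρ| := by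
  have hcb : closedBall p b ⊆ ball c R := (closedBall_subset_ball hb).trans hsub
  have he := e2_cases hW (chi p a b) (chi_smooth p a b) (chi_cpt p ha hab)
    ((chi_supp p ha hab).trans hcb) (chi_nonneg p a b)
  have hb0 : 0 < b := ha.trans hab
  -- left side
  have hL : (ma (ball p a)).toReal ≤ ∫ t, chi p a b t ∂ma := by
    have hfin : ma (closedBall p b) ≠ ⊤ := ne_top_of_le_ne_top hW.mfin (measure_mono hcb)
    have hi : Integrable (chi p a b) ma := by
      refine IntegrableOn.integrable_of_forall_notMem_eq_zero (s := closedBall p b) ?_ ?_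
      · refine Measure.integrableOn_of_bounded (M := 1) hfin
          (chi_smooth p a b).continuous.aestronglyMeasurable (Eventually.of_forall fun t => ?_)
        rw [Real.norm_eq_abs, abs_of_nonneg (chi_nonneg p a b t)]
        exact chi_le_one p a b t
      · intro t ht
        rw [mem_closedBall, not_le, dist_eq_norm] at ht
        exact chi_zero p ha hab ht.le
    have hfa : ma (ball p a) ≠ ⊤ := ne_top_of_le_ne_top hfin
      (measure_mono ((ball_subset_closedBall).trans (closedBall_subset_closedBall hab.le)))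
    have h1 : (ma (ball p a)).toReal = ∫ t, (ball p a).indicator (fun _ => (1 : ℝ)) t ∂ma := by
      rw [integral_indicator measurableSet_ball, setIntegral_const, smul_eq_mul, mul_one,
        measureReal_def]
    rw [h1]
    refine integral_mono ?_ hi fun t => ?_
    · exact (integrable_indicator_iff measurableSet_ball).2 (integrableOn_const hfa)
    · by_cases ht : t ∈ ball p a
      · rw [indicator_of_mem ht]
        rw [mem_ball, dist_eq_norm] at ht
        rw [chi_one p ha hab ht.le]
      · rw [indicator_of_notMem ht]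
        exact chi_nonneg p a b t
  -- the volume term
  have hV : ∫ t, chi p a b t ≤ Real.pi * b ^ 2 := by
    have h1 : ∫ t, (closedBall p b).indicator (fun _ => (1 : ℝ)) t = Real.pi * b ^ 2 := by
      rw [integral_indicator measurableSet_closedBall, setIntegral_const, smul_eq_mul, mul_one,
        measureReal_def, Complex.volume_closedBall]
      simp [ENNReal.toReal_mul, hb0.le, mul_comm]
    rw [← h1]
    have hi2 : Integrable ((closedBall p b).indicator fun _ => (1 : ℝ)) :=
      (integrable_indicator_iff measurableSet_closedBall).2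
        (integrableOn_const measure_closedBall_lt_top.ne)
    refine integral_mono ?_ hi2 fun t => ?_
    · exact (chi_smooth p a b).continuous.integrable_of_hasCompactSupport (chi_cpt p ha hab)
    · by_cases ht : t ∈ closedBall p b
      · rw [indicator_of_mem ht]
        exact chi_le_one p a b t
      · rw [indicator_of_notMem ht]
        rw [mem_closedBall, not_le, dist_eq_norm] at ht
        exact (chi_zero p ha hab ht.le).le
  -- the boundary term
  have hd := den_pos ha hab
  set D : ℝ → ℝ := fun ρ => 2 * deriv Real.smoothTransition ((b ^ 2 - ρ ^ 2) / (b ^ 2 - a ^ 2)) /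
    (b ^ 2 - a ^ 2) with hD
  obtain ⟨M, hM0, hM, hS0, hS1⟩ := exists_M
  have hDc : Continuous D := by
    rw [hD]
    have := dS_cont
    fun_prop
  have hDz : ∀ ρ, b < ρ → D ρ = 0 := by
    intro ρ hρ
    rw [hD]
    simp only
    rw [hS0 _ (div_neg_of_neg_of_pos (by nlinarith) hd)]
    simp
  have hDz' : ∀ ρ, 0 < ρ → ρ < a → D ρ = 0 := by
    intro ρ h0 hρ
    rw [hD]
    simp only
    rw [hS1 _ ((one_lt_div hd).2 (by nlinarith))]
    simp
  have hDb : ∀ ρ, |D ρ| ≤ 2 * M / (b ^ 2 - a ^ 2) := by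
    intro ρ
    rw [hD]
    simp only
    rw [abs_div, abs_mul, abs_of_pos hd, abs_of_pos (two_pos (α := ℝ))]
    exact div_le_div_of_nonneg_right (mul_le_mul_of_nonneg_left (hM _) two_pos.le) hd.le
  set f : ℂ → ℝ := fun t => min (D ‖t - p‖ * ‖t - p‖) (D ‖t - p‖ * ‖t - p‖) * qq s A p r0 t
    with hf
  have hfm : Measurable f := by
    have h1 : Continuous fun t : ℂ => D ‖t - p‖ * ‖t - p‖ := by fun_prop
    exact (h1.min h1).measurable.mul (qq_meas hW p r0)
  have hfi : Integrable f := by
    refine (qq_int hW hsub).bdd_mul (c := 2 * M / (b ^ 2 - a ^ 2) * b) ?_ ?_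
    · have h1 : Continuous fun t : ℂ => D ‖t - p‖ * ‖t - p‖ := by fun_prop
      exact (h1.min h1).aestronglyMeasurable
    · refine Eventually.of_forall fun t => ?_
      rw [min_self, Real.norm_eq_abs, abs_mul, abs_norm]
      by_cases ht : ‖t - p‖ ≤ b
      · exact mul_le_mul (hDb _) ht (norm_nonneg _) (by positivity)
      · rw [hDz _ (not_le.1 ht), abs_zero, zero_mul]
        positivity
  have hpt : ∀ t ∈ ball c R, ∑ i, (fderiv ℝ (chi p a b) t 1 * (conj (s t i) * A t i I).im -
      fderiv ℝ (chi p a b) t I * (conj (s t i) * A t i 1).im) = - f t := by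
    intro t _
    have e1 : ∑ i, (fderiv ℝ (chi p a b) t 1 * (conj (s t i) * A t i I).im -
      fderiv ℝ (chi p a b) t I * (conj (s t i) * A t i 1).im) = -(D ‖t - p‖) * gg s A p t := by
      rw [gg_eq, Finset.mul_sum]
      refine Finset.sum_congr rfl fun i _ => ?_
      rw [chi_fderiv p, chi_fderiv p]
      simp only [hD, mul_one, Complex.mul_re, Complex.conj_re, Complex.conj_im, Complex.I_re,
        Complex.I_im]
      ring
    rw [e1, hf]
    simp only
    rw [min_self]
    by_cases ht : t ∈ ball p r0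
    · rw [qq, indicator_of_mem ht]
      by_cases h0 : ‖t - p‖ = 0
      · have : t - p = 0 := norm_eq_zero.1 h0
        have hg : gg s A p t = 0 := by
          unfold gg
          rw [this]
          simp
        rw [hg]; simp
      · field_simp
    · rw [qq, indicator_of_notMem ht]
      rw [mem_ball, not_lt, dist_eq_norm] at ht
      rw [hDz _ (hb.trans_le ht)]
      simp
  have hB : ∫ t in ball c R, ∑ i, (fderiv ℝ (chi p a b) t 1 * (conj (s t i) * A t i I).im -
      fderiv ℝ (chi p a b) t I * (conj (s t i) * A t i 1).im) =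
      - ∫ ρ, wt a b ρ * JJ s A p r0 ρ := by
    rw [setIntegral_congr_fun measurableSet_ball hpt, integral_neg,
      setIntegral_eq_integral_of_forall_compl_eq_zero]
    swap
    · intro t ht
      have : t ∉ ball p r0 := fun h => ht (hsub h)
      rw [hf]
      simp only
      rw [qq, indicator_of_notMem this, mul_zero]
    obtain ⟨h1, h2⟩ := polar_int p f hfm hfi
    rw [h2, PM]
    rw [integral_prod _ h1]
    congr 1
    have h3 : ∀ ρ, wt a b ρ * JJ s A p r0 ρ = (Ioi 0).indicator (fun ρ => wt a b ρ *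
        ∫ φ in Ioo (-Real.pi) Real.pi, ρ * qq s A p r0 (pt p (ρ, φ))) ρ := by
      intro ρ
      rw [JJ]
      by_cases hρ : ρ ∈ Ioi (0:ℝ)
      · rw [indicator_of_mem hρ, indicator_of_mem hρ]
      · rw [indicator_of_notMem hρ, indicator_of_notMem hρ, mul_zero]
    rw [integral_congr_ae (Eventually.of_forall h3), integral_indicator measurableSet_Ioi]
    refine setIntegral_congr_ae measurableSet_Ioi ?_
    have hne : ∀ᵐ ρ : ℝ, ρ ≠ a := by
      rw [ae_iff]; simp
    have hne' : ∀ᵐ ρ : ℝ, ρ ≠ b := by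
      rw [ae_iff]; simp
    filter_upwards [hne, hne'] with ρ hna hnb hρ
    have hρ0 : 0 < ρ := hρ
    rw [← integral_const_mul]
    refine setIntegral_congr_fun measurableSet_Ioo fun φ _ => ?_
    have hn : ‖pt p (ρ, φ) - p‖ = ρ := by
      simp [pt, Complex.norm_exp_ofReal_mul_I, abs_of_pos hρ0]
    simp only [hf]
    rw [hn, min_self]
    have hw : wt a b ρ = ρ * D ρ := by
      by_cases h : ρ ∈ Icc a b
      · rw [wt, indicator_of_mem h, hD]
        simp only
        ring
      · rw [wt, indicator_of_notMem h]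
        rw [mem_Icc, not_and_or, not_le, not_le] at h
        rcases h with h | h
        · rw [hDz' ρ hρ0 h, mul_zero]
        · rw [hDz ρ h, mul_zero]
    rw [hw]
    ring
  rw [hB] at he
  have hkK : 0 ≤ (k : ℝ) * K := mul_nonneg (Nat.cast_nonneg _) hW.K0
  have h5 := mul_le_mul_of_nonneg_left hV hkK
  have h6 := abs_nonneg (∫ ρ, wt a b ρ * JJ s A p r0 ρ)
  have h7 := le_abs_self (∫ ρ, wt a b ρ * JJ s A p r0 ρ)
  rcases he with he | he
  · rw [he] at hL
    nlinarith
  · nlinarith

/-- **C1** (task 302). -/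
theorem ball_of (μ β : ℂ × ℂ → ℂ) (c : ℂ) (R : ℝ) (k : ℕ) (s : ℂ → Fin k → ℂ)
    (A : ℂ → Fin k → (ℂ →L[ℝ] ℂ)) (ma : Measure ℂ) (K c0 Mb : ℝ) :
    BALL μ β c R k s A ma K c0 Mb := by
  intro hW p r0 hsub
  obtain ⟨M, hM0, hM, -, -⟩ := exists_M
  filter_upwards [ae_restrict_of_ae (lebpt _ (JJ_int hW hsub)),
    ae_restrict_mem measurableSet_Ioo] with r hr hr2
  set δ : ℕ → ℝ := fun n => (r0 - r) / (n + 2) with hδ
  have hrr : 0 < r0 - r := by linarith [hr2.2]
  have hδ0 : ∀ n, 0 < δ n := fun n => by rw [hδ]; positivity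
  have hδ1 : ∀ n, δ n < r0 - r := by
    intro n
    rw [hδ]
    simp only
    rw [div_lt_iff₀ (by positivity)]
    have : (0 : ℝ) ≤ n := Nat.cast_nonneg n
    nlinarith
  have hδt : Tendsto δ atTop (𝓝 0) := by
    refine tendsto_const_nhds.div_atTop ?_
    exact tendsto_atTop_add_const_right _ _ tendsto_natCast_atTop_atTop
  have hlim := hr δ hδ0 hδt (fun n => wt r (r + δ n)) (2 * M) (fun n => wt_meas _ _)
    (fun n x => by
      have := wt_bound hr2.1 (b := r + δ n) (by linarith [hδ0 n]) hM x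
      rwa [add_sub_cancel_left] at this)
    (fun n x hx => by
      rw [wt, indicator_of_notMem]
      intro h
      apply hx
      rw [mem_closedBall, Real.dist_eq, abs_le]
      constructor <;> linarith [h.1, h.2, hδ0 n])
    (fun n => wt_int hr2.1 (by linarith [hδ0 n]))
  have hlim2 : Tendsto (fun n => k * K * Real.pi * (r + δ n) ^ 2 +
      1 / 2 * |∫ ρ, wt r (r + δ n) ρ * JJ s A p r0 ρ|) atTop
      (𝓝 (k * K * Real.pi * (r + 0) ^ 2 + 1 / 2 * |JJ s A p r0 r|)) :=
    ((((tendsto_const_nhds.add hδt).pow 2).const_mul _)).add (hlim.abs.const_mul _)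
  have hle := ge_of_tendsto' hlim2 fun n =>
    main hW hsub hr2.1 (by linarith [hδ0 n]) (by linarith [hδ1 n])
  rw [add_zero] at hle
  rw [← JJ_eq (s := s) (A := A) (p := p) hr2]
  exact hle

end

end Crest.Agent.R235.WKBall_463
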