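import Mathlib

/-!
Row 235 (S0364), PACKAGE REG, leaf BOXW, part 1 (helper348): measurable enumeration of the fibres
of a closed set `S ⊆ ℂ × ℂ` over a measurable set `G` of points with exactly `k` fibre points.
-/

set_option autoImplicit false

open MeasureTheory Set Filter
open scoped Topology

namespace Crest.Agent.R235.WKEn_348

noncomputable section

/-- the fibre. -/
def Fb (S : Set (ℂ × ℂ)) (z : ℂ) : Set ℂ := {w | (z, w) ∈ S}

variable {S : Set (ℂ × ℂ)}

theorem isClosed_hit (hS : IsClosed S) {C : Set ℂ} (hC : IsCompact C) :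
    IsClosed {z | (Fb S z ∩ C).Nonempty} := by
  have : CompactSpace C := isCompact_iff_compactSpace.1 hC
  have h1 : IsClosed {p : C × ℂ | (p.2, (p.1 : ℂ)) ∈ S} :=
    hS.preimage (f := fun p : C × ℂ => (p.2, (p.1 : ℂ))) (by fun_prop)
  have h2 := isClosedMap_snd_of_compactSpace (X := C) (Y := ℂ) _ h1
  convert h2 using 1
  ext z
  constructor
  · rintro ⟨w, hw, hwC⟩
    exact ⟨(⟨w, hwC⟩, z), hw, rfl⟩
  · rintro ⟨⟨w, z'⟩, h, rfl⟩
    exact ⟨w, h, w.2⟩

theorem measurable_hit (hS : IsClosed S) {O : Set ℂ} (hO : IsOpen O) :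
    MeasurableSet {z | (Fb S z ∩ O).Nonempty} := by
  obtain ⟨F, hF, hFO, hU, -⟩ := hO.exists_iUnion_isClosed
  have h : {z | (Fb S z ∩ O).Nonempty} =
      ⋃ n : ℕ, ⋃ l : ℕ, {z | (Fb S z ∩ (F n ∩ Metric.closedBall 0 l)).Nonempty} := by
    ext z
    simp only [mem_ofPred_eq, mem_iUnion]
    constructor
    · rintro ⟨w, hw, hwO⟩
      rw [← hU] at hwO
      obtain ⟨n, hn⟩ := mem_iUnion.1 hwO
      obtain ⟨l, hl⟩ := exists_nat_ge ‖w‖
      exact ⟨n, l, w, hw, hn, by simpa using hl⟩
    · rintro ⟨n, l, w, hw, hn, -⟩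
      exact ⟨w, hw, hFO n hn⟩
  rw [h]
  exact MeasurableSet.iUnion fun n => MeasurableSet.iUnion fun l =>
    (isClosed_hit hS ((isCompact_closedBall 0 _).inter_left (hF n))).measurableSet

theorem le_encard_iff {T O : Set ℂ} (j : ℕ) :
    (j : ℕ∞) ≤ (T ∩ O).encard ↔ ∃ U : Fin j → TopologicalSpace.countableBasis ℂ,
      (∀ i i', i ≠ i' → Disjoint (U i).1 (U i').1) ∧ ∀ i, (T ∩ ((U i).1 ∩ O)).Nonempty := by
  constructor
  · intro h
    obtain ⟨t, ht, htc⟩ := Set.exists_subset_encard_eq h
    have hfin : t.Finite := by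
      rw [← Set.encard_lt_top_iff, htc]
      exact ENat.natCast_lt_top j
    obtain ⟨V, hV, hVd⟩ := hfin.t2_separation
    have hcard : hfin.toFinset.card = j := by
      rw [hfin.encard_eq_coe_toFinset_card] at htc
      exact_mod_cast htc
    let e := hfin.toFinset.equivFinOfCardEq hcard
    have hmem : ∀ i, ((e.symm i : ℂ)) ∈ t := fun i => hfin.mem_toFinset.1 (e.symm i).2
    have hb : ∀ i : Fin j, ∃ B ∈ TopologicalSpace.countableBasis ℂ,
        (e.symm i : ℂ) ∈ B ∧ B ⊆ V (e.symm i : ℂ) := fun i =>
      (TopologicalSpace.isBasis_countableBasis ℂ).exists_subset_of_mem_open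
        (hV _).1 (hV _).2
    choose B hB hBm hBV using hb
    refine ⟨fun i => ⟨B i, hB i⟩, fun i i' hi => ?_, fun i => ?_⟩
    · have hne : (e.symm i : ℂ) ≠ (e.symm i' : ℂ) := fun h0 =>
        hi (e.symm.injective (Subtype.ext h0))
      exact (hVd (hmem i) (hmem i') hne).mono (hBV i) (hBV i')
    · exact ⟨_, (ht (hmem i)).1, hBm i, (ht (hmem i)).2⟩
  · rintro ⟨U, hd, hne⟩
    choose x hx using hne
    have hinj : Function.Injective x := by
      intro i i' h
      by_contra hi
      exact (Set.disjoint_left.1 (hd i i' hi)) (hx i).2.1 (by rw [h]; exact (hx i').2.1)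
    have h1 : (range x).encard = (j : ℕ∞) := by
      rw [← image_univ, hinj.encard_image]
      simp
    rw [← h1]
    refine Set.encard_le_encard ?_
    rintro _ ⟨i, rfl⟩
    exact ⟨(hx i).1, (hx i).2.2⟩

theorem measurable_le_encard (hS : IsClosed S) {O : Set ℂ} (hO : IsOpen O) (j : ℕ) :
    MeasurableSet {z | (j : ℕ∞) ≤ (Fb S z ∩ O).encard} := by
  have : Countable (TopologicalSpace.countableBasis ℂ) :=
    (TopologicalSpace.countable_countableBasis ℂ).to_subtype
  have h : {z | (j : ℕ∞) ≤ (Fb S z ∩ O).encard} =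
      ⋃ U : {U : Fin j → TopologicalSpace.countableBasis ℂ //
        ∀ i i', i ≠ i' → Disjoint (U i).1 (U i').1},
      ⋂ i : Fin j, {z | (Fb S z ∩ ((U.1 i).1 ∩ O)).Nonempty} := by
    ext z
    simp only [mem_ofPred_eq, le_encard_iff, mem_iUnion, mem_iInter]
    constructor
    · rintro ⟨U, h1, h2⟩
      exact ⟨⟨U, h1⟩, h2⟩
    · rintro ⟨U, h2⟩
      exact ⟨U.1, U.2, h2⟩
  rw [h]
  refine MeasurableSet.iUnion fun U => MeasurableSet.iInter fun i => measurable_hit hS ?_
  exact (TopologicalSpace.isOpen_of_mem_countableBasis (U.1 i).2).inter hO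

/-- order statistics of a finite set. -/
theorem orderEmb_le_iff {T : Finset ℝ} {k : ℕ} (h : T.card = k) (i : Fin k) (x : ℝ) :
    T.orderEmbOfFin h i ≤ x ↔ (i : ℕ) + 1 ≤ (T.filter (· ≤ x)).card := by
  have h1 : T.filter (· ≤ x) =
      (Finset.univ.filter fun j : Fin k => T.orderEmbOfFin h j ≤ x).map
        (T.orderEmbOfFin h).toEmbedding := by
    ext y
    simp only [Finset.mem_filter, Finset.mem_map, Finset.mem_univ, true_and]
    constructor
    · rintro ⟨hy, hyx⟩
      have h2 : y ∈ Set.range (T.orderEmbOfFin h) := by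
        rw [Finset.range_orderEmbOfFin]
        exact hy
      obtain ⟨j, rfl⟩ := h2
      exact ⟨j, hyx, rfl⟩
    · rintro ⟨j, hj, rfl⟩
      exact ⟨T.orderEmbOfFin_mem h j, hj⟩
  rw [h1, Finset.card_map]
  constructor
  · intro hi
    have h2 : Finset.Iic i ⊆ Finset.univ.filter fun j : Fin k => T.orderEmbOfFin h j ≤ x := by
      intro j hj
      simp only [Finset.mem_filter, Finset.mem_univ, true_and]
      exact ((T.orderEmbOfFin h).monotone (Finset.mem_Iic.1 hj)).trans hi
    have h3 := Finset.card_le_card h2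
    rwa [Fin.card_Iic] at h3
  · intro hi
    by_contra hn
    have h2 : (Finset.univ.filter fun j : Fin k => T.orderEmbOfFin h j ≤ x) ⊆ Finset.Iio i := by
      intro j hj
      simp only [Finset.mem_filter, Finset.mem_univ, true_and] at hj
      rw [Finset.mem_Iio]
      by_contra hji
      exact hn (((T.orderEmbOfFin h).monotone (not_lt.1 hji)).trans hj)
    have h3 := Finset.card_le_card h2
    rw [Fin.card_Iio] at h3
    omega

/-- the counting measure of the fibre. -/
def nu (S : Set (ℂ × ℂ)) (G : Set ℂ) (z : ℂ) : Measure ℂ :=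
  open Classical in if z ∈ G then Measure.count.restrict (Fb S z) else 0

theorem nu_apply {G : Set ℂ} {z : ℂ} (hz : z ∈ G) (hf : (Fb S z).Finite) (B : Set ℂ) :
    nu S G z B = (((Fb S z ∩ B).encard : ℕ∞) : ENNReal) := by
  have h0 : MeasurableSet (B ∩ Fb S z) := (hf.subset inter_subset_right).measurableSet
  rw [nu, if_pos hz, Measure.restrict_apply' hf.measurableSet, Measure.count_apply h0, inter_comm]

theorem nu_apply_not {G : Set ℂ} {z : ℂ} (hz : z ∉ G) (B : Set ℂ) : nu S G z B = 0 := by
  rw [nu, if_neg hz]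
  rfl

theorem measurable_nu (hS : IsClosed S) {G : Set ℂ} (hG : MeasurableSet G) (k : ℕ)
    (h : ∀ z ∈ G, (Fb S z).Finite ∧ (Fb S z).ncard = k) : Measurable (nu S G) := by
  have hfin : ∀ z, IsFiniteMeasure (nu S G z) := by
    intro z
    constructor
    by_cases hz : z ∈ G
    · rw [nu_apply hz (h z hz).1]
      have : (Fb S z ∩ univ).encard < ⊤ := by
        rw [inter_univ]
        exact Set.encard_lt_top_iff.2 (h z hz).1
      exact ENat.toENNReal_lt_top.2 this
    · rw [nu_apply_not hz]
      exact ENNReal.zero_lt_top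
  have hopen : ∀ O : Set ℂ, IsOpen O → Measurable fun z => nu S G z O := by
    intro O hO
    have h1 : (fun z => nu S G z O) = fun z =>
        ((open Classical in if z ∈ G then (Fb S z ∩ O).ncard else 0 : ℕ) : ENNReal) := by
      funext z
      by_cases hz : z ∈ G
      · rw [nu_apply hz (h z hz).1, if_pos hz,
          ← ((h z hz).1.subset inter_subset_left).cast_ncard_eq]
        rfl
      · rw [nu_apply_not hz, if_neg hz]
        simp
    rw [h1]
    refine (measurable_of_countable (fun n : ℕ => (n : ENNReal))).comp ?_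
    refine measurable_to_countable' fun n => ?_
    have h2 : ∀ j : ℕ, MeasurableSet {z | z ∈ G ∧ j ≤ (Fb S z ∩ O).ncard} := by
      intro j
      have h3 : {z | z ∈ G ∧ j ≤ (Fb S z ∩ O).ncard} =
          G ∩ {z | (j : ℕ∞) ≤ (Fb S z ∩ O).encard} := by
        ext z
        refine and_congr_right fun hz => ?_
        rw [mem_ofPred_eq, ← ((h z hz).1.subset inter_subset_left).cast_ncard_eq]
        exact Nat.cast_le.symm
      rw [h3]
      exact hG.inter (measurable_le_encard hS hO j)
    have h4 : (fun z => (open Classical in if z ∈ G then (Fb S z ∩ O).ncard else 0 : ℕ)) ⁻¹' {n} =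
        ({z | z ∈ G ∧ n ≤ (Fb S z ∩ O).ncard} \ {z | z ∈ G ∧ n + 1 ≤ (Fb S z ∩ O).ncard}) ∪
          (if n = 0 then Gᶜ else ∅) := by
      ext z
      simp only [mem_preimage, mem_singleton_iff, mem_union, Set.mem_sdiff, mem_ofPred_eq]
      by_cases hz : z ∈ G
      · by_cases hn : n = 0
        · simp [hz, hn]
        · simp [hz, hn]
          omega
      · by_cases hn : n = 0
        · simp [hz, hn]
        · simp [hz, hn]
          omega
    rw [h4]
    refine ((h2 n).diff (h2 (n + 1))).union ?_
    split_ifs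
    · exact hG.compl
    · exact MeasurableSet.empty
  refine Measurable.measure_of_isPiSystem (S := {O : Set ℂ | IsOpen O})
    (BorelSpace.measurable_eq (α := ℂ)) isPiSystem_isOpen ?_ (hopen _ isOpen_univ)
  exact fun O hO => hopen O hO

/-- MEASURABLE ENUMERATION of the fibres. -/
theorem exists_enum (hS : IsClosed S) {G : Set ℂ} (hG : MeasurableSet G) (k : ℕ)
    (h : ∀ z ∈ G, (Fb S z).Finite ∧ (Fb S z).ncard = k) :
    ∃ s : ℂ → Fin k → ℂ, (∀ i, Measurable fun z => s z i) ∧
      (∀ z ∈ G, Function.Injective (s z) ∧ ∀ w, w ∈ Fb S z ↔ ∃ i, s z i = w) ∧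
      ∀ z ∉ G, ∀ i, s z i = 0 := by
  classical
  let e := embeddingReal ℂ
  have he : MeasurableEmbedding e := measurableEmbedding_embeddingReal ℂ
  obtain ⟨g, hg, hge⟩ := he.exists_measurable_extend (g := (id : ℂ → ℂ)) measurable_id
    (fun _ => inferInstance)
  have hge' : ∀ w, g (e w) = w := fun w => congrFun hge w
  let T : ℂ → Finset ℝ := fun z =>
    if hz : z ∈ G then (h z hz).1.toFinset.image e else Finset.image (fun i : Fin k => (i : ℝ)) Finset.univ
  have hT : ∀ z, (T z).card = k := by
    intro z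
    by_cases hz : z ∈ G
    · have : T z = (h z hz).1.toFinset.image e := dif_pos hz
      rw [this, Finset.card_image_of_injective _ he.injective,
        ← Set.ncard_eq_toFinset_card _ (h z hz).1]
      exact (h z hz).2
    · have : T z = Finset.image (fun i : Fin k => (i : ℝ)) Finset.univ := dif_neg hz
      rw [this, Finset.card_image_of_injective]
      · simp
      · intro i j hij
        have hij' : ((i : ℕ) : ℝ) = (j : ℕ) := hij
        exact Fin.ext (by exact_mod_cast hij')
  let q : ℂ → Fin k → ℝ := fun z i => if z ∈ G then (T z).orderEmbOfFin (hT z) i else 0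
  have hq : ∀ i, Measurable fun z => q z i := by
    intro i
    refine measurable_of_Iic fun x => ?_
    have hν := measurable_nu hS hG k h
    have hνx : Measurable fun z => nu S G z (e ⁻¹' Iic x) :=
      (Measure.measurable_coe (he.measurable measurableSet_Iic)).comp hν
    have h1 : (fun z => q z i) ⁻¹' Iic x =
        (G ∩ {z | (((i : ℕ) + 1 : ℕ) : ENNReal) ≤ nu S G z (e ⁻¹' Iic x)}) ∪
          (if (0 : ℝ) ≤ x then Gᶜ else ∅) := by
      ext z
      rw [mem_preimage, mem_Iic]
      by_cases hz : z ∈ G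
      · have h2 : q z i = (T z).orderEmbOfFin (hT z) i := if_pos hz
        have h3 : T z = (h z hz).1.toFinset.image e := dif_pos hz
        have h4 : ((T z).filter (· ≤ x)).card = (Fb S z ∩ (e ⁻¹' Iic x)).ncard := by
          rw [h3, Finset.filter_image, Finset.card_image_of_injective _ he.injective,
            ← Set.ncard_coe_finset]
          congr 1
          ext w
          simp
        have h5 : nu S G z (e ⁻¹' Iic x) = ((Fb S z ∩ (e ⁻¹' Iic x)).ncard : ENNReal) := by
          rw [nu_apply hz (h z hz).1, ← ((h z hz).1.subset inter_subset_left).cast_ncard_eq]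
          rfl
        rw [h2, orderEmb_le_iff, h4]
        have h6 : z ∉ (if (0 : ℝ) ≤ x then Gᶜ else ∅) := by
          split_ifs
          · exact fun h => h hz
          · exact fun h => h
        rw [mem_union, or_iff_left h6, mem_inter_iff, mem_ofPred_eq, h5]
        simp only [hz, true_and]
        exact Nat.cast_le.symm
      · have h2 : q z i = 0 := if_neg hz
        rw [h2, mem_union, mem_inter_iff]
        simp only [hz, false_and, false_or]
        split_ifs with h0
        · simp [h0, hz]
        · simp [h0]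
    rw [h1]
    refine (hG.inter (measurableSet_le measurable_const hνx)).union ?_
    split_ifs
    · exact hG.compl
    · exact MeasurableSet.empty
  refine ⟨fun z i => if z ∈ G then g (q z i) else 0, fun i => ?_, fun z hz => ?_, fun z hz i => ?_⟩
  · exact Measurable.ite hG (hg.comp (hq i)) measurable_const
  · have h2 : ∀ i, q z i = (T z).orderEmbOfFin (hT z) i := fun i => if_pos hz
    have h3 : T z = (h z hz).1.toFinset.image e := dif_pos hz
    have h4 : ∀ i, ∃ w ∈ Fb S z, e w = q z i := by
      intro i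
      have h5 := (T z).orderEmbOfFin_mem (hT z) i
      rw [← h2, h3] at h5
      obtain ⟨w, hw, hwe⟩ := Finset.mem_image.1 h5
      exact ⟨w, (h z hz).1.mem_toFinset.1 hw, hwe⟩
    simp only [hz, if_true]
    constructor
    · intro i j hij
      obtain ⟨w, -, hw⟩ := h4 i
      obtain ⟨w', -, hw'⟩ := h4 j
      have h6 : w = w' := by
        have h7 : g (q z i) = g (q z j) := hij
        rwa [← hw, ← hw', hge', hge'] at h7
      have h8 : q z i = q z j := by rw [← hw, ← hw', h6]
      rw [h2, h2] at h8
      exact ((T z).orderEmbOfFin (hT z)).injective h8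
    · intro w
      constructor
      · intro hw
        have h5 : e w ∈ T z := by
          rw [h3]
          exact Finset.mem_image_of_mem _ ((h z hz).1.mem_toFinset.2 hw)
        have h6 : e w ∈ Set.range ((T z).orderEmbOfFin (hT z)) := by
          rw [Finset.range_orderEmbOfFin]
          exact h5
        obtain ⟨i, hi⟩ := h6
        refine ⟨i, ?_⟩
        rw [h2, hi, hge']
      · rintro ⟨i, rfl⟩
        obtain ⟨w, hw, hwe⟩ := h4 i
        rw [← hwe, hge']
        exact hw
  · simp only [hz, if_false]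

end

end Crest.Agent.R235.WKEn_348
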