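import Crest.Agent.R235.CylW_460
import Crest.Agent.R235.WKEn_348

/-!
Row 235 (S0364), PACKAGE REG, leaf BOXW, part 2 (helper348): pointwise algebra, disintegration
along an enumeration of the fibres, the calibrated mass.
-/

set_option autoImplicit false

open MeasureTheory Metric Set Filter Complex
open scoped ContDiff Topology ComplexConjugate

namespace Crest.Agent.R235.WKBoxA_348

open Crest.Agent.R235.Loc Crest.Agent.R235.Cyl Crest.Agent.R235.WKG_460

noncomputable section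

/-- the pointwise algebra of `ALG0` at one point. -/
structure PA (μ β : CC → ℂ) (C₀ c₀ : ℝ) (p X Y : CC) : Prop where
  h0 : 0 ≤ hh X Y
  h1 : hh X Y ≤ C₀
  k1 : |kk X Y| ≤ C₀
  low : c₀ ≤ kk X Y + C₀ * hh X Y
  v1 : V1 X Y = (((hh X Y : ℝ) : ℂ), (V1 X Y).2)
  vI : VI X Y = (I * ((hh X Y : ℝ) : ℂ), (VI X Y).2)
  n1 : ‖(V1 X Y).2‖ ^ 2 ≤ C₀ * hh X Y
  nI : ‖(VI X Y).2‖ ^ 2 ≤ C₀ * hh X Y
  pde : 0 < hh X Y → lzb (slo X Y) = μ p * lz (slo X Y) - β p
  en : 0 < hh X Y → ‖slo X Y‖ ^ 2 * hh X Y ≤ C₀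

theorem slo_one (X Y : CC) : slo X Y 1 = (hh X Y)⁻¹ • (V1 X Y).2 := by
  simp [slo]

theorem slo_I (X Y : CC) : slo X Y I = (hh X Y)⁻¹ • (VI X Y).2 := by
  simp [slo]

variable {μ β : CC → ℂ} {C₀ c₀ : ℝ} {p X Y : CC}

theorem PA.v1_two (h : PA μ β C₀ c₀ p X Y) : (V1 X Y).2 = hh X Y • slo X Y 1 := by
  rw [slo_one]
  rcases h.h0.eq_or_lt with h0 | h0
  · have h1 := h.n1
    rw [← h0, mul_zero] at h1
    have h2 : (V1 X Y).2 = 0 := by
      have h3 : ‖(V1 X Y).2‖ = 0 := by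
        have := sq_nonneg ‖(V1 X Y).2‖
        exact pow_eq_zero_iff (two_ne_zero) |>.1 (le_antisymm h1 this)
      exact norm_eq_zero.1 h3
    rw [h2, smul_zero, smul_zero]
  · rw [smul_smul, mul_inv_cancel₀ h0.ne', one_smul]

theorem PA.vI_two (h : PA μ β C₀ c₀ p X Y) : (VI X Y).2 = hh X Y • slo X Y I := by
  rw [slo_I]
  rcases h.h0.eq_or_lt with h0 | h0
  · have h1 := h.nI
    rw [← h0, mul_zero] at h1
    have h2 : (VI X Y).2 = 0 := by
      have h3 : ‖(VI X Y).2‖ = 0 := by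
        have := sq_nonneg ‖(VI X Y).2‖
        exact pow_eq_zero_iff (two_ne_zero) |>.1 (le_antisymm h1 this)
      exact norm_eq_zero.1 h3
    rw [h2, smul_zero, smul_zero]
  · rw [smul_smul, mul_inv_cancel₀ h0.ne', one_smul]

theorem PA.v1_eq (h : PA μ β C₀ c₀ p X Y) : V1 X Y = hh X Y • ((1 : ℂ), slo X Y 1) := by
  rw [h.v1, h.v1_two, Prod.smul_mk]
  simp

theorem PA.vI_eq (h : PA μ β C₀ c₀ p X Y) : VI X Y = hh X Y • ((I : ℂ), slo X Y I) := by
  rw [h.vI, h.vI_two, Prod.smul_mk]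
  simp [mul_comm]

theorem PA.nonneg (h : PA μ β C₀ c₀ p X Y) : 0 ≤ C₀ := h.h0.trans h.h1

theorem PA.n1' (h : PA μ β C₀ c₀ p X Y) : ‖(V1 X Y).2‖ ≤ C₀ := by
  have h1 : ‖(V1 X Y).2‖ ^ 2 ≤ C₀ ^ 2 := by
    have := mul_le_mul_of_nonneg_left h.h1 h.nonneg
    nlinarith [h.n1]
  exact le_of_sq_le_sq h1 h.nonneg

theorem PA.nI' (h : PA μ β C₀ c₀ p X Y) : ‖(VI X Y).2‖ ≤ C₀ := by
  have h1 : ‖(VI X Y).2‖ ^ 2 ≤ C₀ ^ 2 := by
    have := mul_le_mul_of_nonneg_left h.h1 h.nonneg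
    nlinarith [h.nI]
  exact le_of_sq_le_sq h1 h.nonneg

theorem PA.nV1 (h : PA μ β C₀ c₀ p X Y) : ‖V1 X Y‖ ≤ C₀ := by
  rw [h.v1, Prod.norm_mk]
  refine max_le ?_ h.n1'
  rw [Complex.norm_real, Real.norm_of_nonneg h.h0]
  exact h.h1

theorem PA.nVI (h : PA μ β C₀ c₀ p X Y) : ‖VI X Y‖ ≤ C₀ := by
  rw [h.vI, Prod.norm_mk]
  refine max_le ?_ h.nI'
  rw [norm_mul, Complex.norm_I, one_mul, Complex.norm_real, Real.norm_of_nonneg h.h0]
  exact h.h1

theorem PA.en' (h : PA μ β C₀ c₀ p X Y) : ‖slo X Y‖ ^ 2 * hh X Y ≤ C₀ := by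
  rcases h.h0.eq_or_lt with h0 | h0
  · rw [← h0, mul_zero]
    exact h.nonneg
  · exact h.en h0

/-! ### measurability -/

variable {Xf Yf : CC → CC}

theorem measurable_hh (hX : Measurable Xf) (hY : Measurable Yf) :
    Measurable fun p => hh (Xf p) (Yf p) := by
  have h : Continuous fun q : CC × CC => hh q.1 q.2 := by
    unfold hh
    fun_prop
  exact h.measurable.comp (hX.prodMk hY)

theorem measurable_kk (hX : Measurable Xf) (hY : Measurable Yf) :
    Measurable fun p => kk (Xf p) (Yf p) := by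
  have h : Continuous fun q : CC × CC => kk q.1 q.2 := by
    unfold kk
    fun_prop
  exact h.measurable.comp (hX.prodMk hY)

theorem measurable_V1 (hX : Measurable Xf) (hY : Measurable Yf) :
    Measurable fun p => V1 (Xf p) (Yf p) := by
  have h : Continuous fun q : CC × CC => V1 q.1 q.2 := by
    unfold V1
    fun_prop
  exact h.measurable.comp (hX.prodMk hY)

theorem measurable_VI (hX : Measurable Xf) (hY : Measurable Yf) :
    Measurable fun p => VI (Xf p) (Yf p) := by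
  have h : Continuous fun q : CC × CC => VI q.1 q.2 := by
    unfold VI
    fun_prop
  exact h.measurable.comp (hX.prodMk hY)

theorem measurable_slo (hX : Measurable Xf) (hY : Measurable Yf) :
    Measurable fun p => slo (Xf p) (Yf p) := by
  have h3 : Measurable fun v : ℂ => (reCLM.smulRight v : ℂ →L[ℝ] ℂ) :=
    (ContinuousLinearMap.smulRightL ℝ ℂ ℂ reCLM).continuous.measurable
  have h4 : Measurable fun v : ℂ => (imCLM.smulRight v : ℂ →L[ℝ] ℂ) :=
    (ContinuousLinearMap.smulRightL ℝ ℂ ℂ imCLM).continuous.measurable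
  have h5 : Measurable fun p => (V1 (Xf p) (Yf p)).2 := (measurable_V1 hX hY).snd
  have h6 : Measurable fun p => (VI (Xf p) (Yf p)).2 := (measurable_VI hX hY).snd
  have h7 : Measurable fun p => (reCLM.smulRight (V1 (Xf p) (Yf p)).2 : ℂ →L[ℝ] ℂ) :=
    h3.comp h5
  have h8 : Measurable fun p => (imCLM.smulRight (VI (Xf p) (Yf p)).2 : ℂ →L[ℝ] ℂ) :=
    h4.comp h6
  have h9 : Measurable fun p => (hh (Xf p) (Yf p))⁻¹ := (measurable_hh hX hY).inv
  have h10 : Measurable fun p => (reCLM.smulRight (V1 (Xf p) (Yf p)).2 +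
      imCLM.smulRight (VI (Xf p) (Yf p)).2 : ℂ →L[ℝ] ℂ) := h7.add h8
  exact h9.smul h10

/-! ### support and fibres -/

theorem isClosed_supp (m : Measure CC) : IsClosed {p | InSupp m p} := by
  rw [← isOpen_compl_iff, Metric.isOpen_iff]
  intro p hp
  have hp' : ∃ r > 0, m (ball p r) = 0 := by
    by_contra hn
    refine hp fun r hr => ?_
    by_contra h0
    exact hn ⟨r, hr, nonpos_iff_eq_zero.1 (not_lt.1 h0)⟩
  obtain ⟨r, hr, h0⟩ := hp'
  refine ⟨r / 2, half_pos hr, fun q hq hq' => ?_⟩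
  have h1 := hq' (r / 2) (half_pos hr)
  have h2 : ball q (r / 2) ⊆ ball p r := by
    intro x hx
    rw [mem_ball] at *
    calc dist x p ≤ dist x q + dist q p := dist_triangle _ _ _
      _ < r / 2 + r / 2 := add_lt_add hx hq
      _ = r := by ring
  exact absurd (measure_mono_null h2 h0) h1.ne'

/-- enumeration data. -/
structure En (m : Measure CC) (Xf Yf : CC → CC) (c : ℂ) (R ρ : ℝ) (k : ℕ) (s : ℂ → Fin k → ℂ) :
    Prop where
  meas : ∀ i, Measurable fun z => s z i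
  good : ∀ᵐ z ∂(volume.restrict (ball c R)), (fib m z).Finite ∧ Function.Injective (s z) ∧
    (∀ w, w ∈ fib m z ↔ ∃ i, s z i = w) ∧ ∀ i, 0 < hh (Xf (z, s z i)) (Yf (z, s z i))
  bdd : ∀ z i, ‖s z i‖ ≤ max ρ 0

/-- existence of the enumeration. -/
theorem exists_en {κ L K : ℝ} (hg : GOODZ) (hs : SPLIT) (hbx : SBox μ β κ L) {c : ℂ} {R ρ : ℝ}
    {m : Measure CC} (hb : BoxCur μ β c R ρ K m Xf Yf) (hR : 0 < R) :
    ∃ (k : ℕ) (s : ℂ → Fin k → ℂ), En m Xf Yf c R ρ k s := by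
  obtain ⟨k, hk⟩ := hs μ β κ L hbx c R ρ K m Xf Yf hb hR
  have h1 := hg μ β κ L hbx c R ρ K m Xf Yf hb
  obtain ⟨G, hG, hGm, hGp⟩ := (hk.and h1).exists_measurable_mem
  obtain ⟨s, hsm, hsg, hsn⟩ := WKEn_348.exists_enum (isClosed_supp m)
    (hGm.inter (measurableSet_ball (x := c) (ε := R))) k
    (fun z hz => ⟨((hGp z hz.1).1 hz.2).2.1, ((hGp z hz.1).1 hz.2).1⟩)
  refine ⟨k, s, hsm, ?_, ?_⟩
  · rw [ae_restrict_iff' measurableSet_ball]
    filter_upwards [hG] with z hz hzb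
    have h2 := (hGp z hz).2 hzb
    have h3 := hsg z ⟨hz, hzb⟩
    exact ⟨h2.1, h3.1, h3.2, fun i => (h2.2 _ ((h3.2 _).2 ⟨i, rfl⟩)).2.2⟩
  · intro z i
    by_cases hz : z ∈ G ∩ ball c R
    · have h2 := (hGp z hz.1).2 hz.2
      exact (h2.2 _ (((hsg z hz).2 _).2 ⟨i, rfl⟩)).1.trans (le_max_left _ _)
    · rw [hsn z hz i, norm_zero]
      exact le_max_right _ _

theorem FS_eq {m : Measure CC} {k : ℕ} {s : ℂ → Fin k → ℂ} {z : ℂ}
    (hi : Function.Injective (s z)) (hf : ∀ w, w ∈ fib m z ↔ ∃ i, s z i = w) (Φ : CC → ℝ) :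
    FS m Φ z = ∑ i, Φ (z, s z i) := by
  have h : fib m z = Set.range (s z) := Set.ext fun w => hf w
  rw [FS, h, finsum_mem_range hi, finsum_eq_sum_of_fintype]

/-- disintegration of the horizontal measure along the enumeration. -/
theorem disi {κ L K : ℝ} (hd : DISI) (hbx : SBox μ β κ L) {c : ℂ} {R ρ : ℝ}
    {m : Measure CC} (hb : BoxCur μ β c R ρ K m Xf Yf) {k : ℕ} {s : ℂ → Fin k → ℂ}
    (hs : En m Xf Yf c R ρ k s) {Φ : CC → ℝ} (hΦ : Measurable Φ)
    (hi : Integrable (fun p => Φ p * hh (Xf p) (Yf p)) m) :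
    IntegrableOn (fun z => ∑ i, Φ (z, s z i)) (ball c R) ∧
    ∫ p, Φ p * hh (Xf p) (Yf p) ∂m = ∫ z in ball c R, ∑ i, Φ (z, s z i) := by
  have h := hd μ β κ L hbx c R ρ K m Xf Yf hb Φ hΦ hi
  have h1 : FS m Φ =ᵐ[volume.restrict (ball c R)] fun z => ∑ i, Φ (z, s z i) := by
    filter_upwards [hs.good] with z hz
    exact FS_eq hz.2.1 hz.2.2.1 Φ
  exact ⟨h.1.congr h1, h.2.trans (integral_congr_ae h1)⟩

/-! ### the calibrated mass -/

/-- density of the calibrated mass. -/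
def dd (C₀ : ℝ) (Xf Yf : CC → CC) (p : CC) : ℝ := kk (Xf p) (Yf p) + C₀ * hh (Xf p) (Yf p)

/-- the calibrated mass pushed to the base. -/
def maM (C₀ : ℝ) (m : Measure CC) (Xf Yf : CC → CC) : Measure ℂ :=
  Measure.map Prod.fst (m.withDensity fun p => ENNReal.ofReal (dd C₀ Xf Yf p))

theorem measurable_dd (hX : Measurable Xf) (hY : Measurable Yf) : Measurable (dd C₀ Xf Yf) :=
  (measurable_kk hX hY).add (measurable_const.mul (measurable_hh hX hY))

theorem maM_integral {m : Measure CC} (hX : Measurable Xf) (hY : Measurable Yf)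
    (h0 : ∀ p, 0 ≤ dd C₀ Xf Yf p) {g : ℂ → ℝ} (hg : Measurable g) :
    ∫ t, g t ∂(maM C₀ m Xf Yf) = ∫ p, g p.1 * dd C₀ Xf Yf p ∂m := by
  rw [maM, integral_map measurable_fst.aemeasurable hg.aestronglyMeasurable,
    integral_withDensity_eq_integral_toReal_smul (measurable_dd hX hY).ennreal_ofReal
      (Eventually.of_forall fun p => ENNReal.ofReal_lt_top)]
  refine integral_congr_ae (Eventually.of_forall fun p => ?_)
  simp only [ENNReal.toReal_ofReal (h0 p), smul_eq_mul]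
  ring

theorem maM_real {m : Measure CC} (hX : Measurable Xf) (hY : Measurable Yf)
    (h0 : ∀ p, 0 ≤ dd C₀ Xf Yf p) {V : Set ℂ} (hV : MeasurableSet V) :
    (maM C₀ m Xf Yf V).toReal = ∫ p in V ×ˢ univ, dd C₀ Xf Yf p ∂m := by
  have h1 := maM_integral (C₀ := C₀) (m := m) hX hY h0 (g := V.indicator fun _ => 1)
    (measurable_const.indicator hV)
  rw [integral_indicator_const (1 : ℝ) hV, smul_eq_mul, mul_one] at h1
  have h2 : (maM C₀ m Xf Yf V).toReal = (maM C₀ m Xf Yf).real V := rfl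
  rw [h2, h1, ← integral_indicator (hV.prod MeasurableSet.univ)]
  refine integral_congr_ae (Eventually.of_forall fun p => ?_)
  by_cases hp : p.1 ∈ V
  · simp [hp, indicator]
  · simp [hp, indicator]

theorem maM_finite {m : Measure CC} [IsFiniteMeasure m] {D : ℝ}
    (hD : ∀ p, dd C₀ Xf Yf p ≤ D) : IsFiniteMeasure (maM C₀ m Xf Yf) := by
  have h1 : IsFiniteMeasure (m.withDensity fun p => ENNReal.ofReal (dd C₀ Xf Yf p)) := by
    refine isFiniteMeasure_withDensity ?_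
    refine (lt_of_le_of_lt (lintegral_mono fun p => ENNReal.ofReal_le_ofReal (hD p)) ?_).ne
    rw [lintegral_const]
    exact ENNReal.mul_lt_top ENNReal.ofReal_lt_top (measure_lt_top _ _)
  unfold maM
  infer_instance

end

end Crest.Agent.R235.WKBoxA_348
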