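import Crest.Agent.R235.WKBoxA_348

/-!
Row 235 (S0364), PACKAGE REG, leaf BOXW, part 3 (helper348): energy, weak derivatives and the
lower bound of the calibrated mass.
-/

set_option autoImplicit false

open MeasureTheory Metric Set Filter Complex
open scoped ContDiff Topology ComplexConjugate

namespace Crest.Agent.R235.WKBoxB_348

open Crest.Agent.R235.Loc Crest.Agent.R235.Cyl Crest.Agent.R235.WKG_460
open Crest.Agent.R235.WKBoxA_348

noncomputable section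

/-- context. -/
structure Cx (μ β : CC → ℂ) (κ L : ℝ) (c : ℂ) (R ρ K : ℝ) (m : Measure CC) (X Y : CC → CC)
    (C₀ c₀ : ℝ) (k : ℕ) (s : ℂ → Fin k → ℂ) : Prop where
  bx : SBox μ β κ L
  cur : BoxCur μ β c R ρ K m X Y
  c0 : 0 < c₀
  C0 : 0 < C₀
  pa : ∀ p, PA μ β C₀ c₀ p (X p) (Y p)
  en : En m X Y c R ρ k s
  dis : ∀ Φ : CC → ℝ, Measurable Φ → Integrable (fun p => Φ p * hh (X p) (Y p)) m →
    IntegrableOn (fun z => ∑ i, Φ (z, s z i)) (ball c R) ∧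
    ∫ p, Φ p * hh (X p) (Y p) ∂m = ∫ z in ball c R, ∑ i, Φ (z, s z i)

/-- bounded on the box. -/
def Bd (c : ℂ) (R ρ : ℝ) (f : CC → ℝ) : Prop :=
  ∃ M, 0 ≤ M ∧ ∀ p : CC, p.1 ∈ ball c R → ‖p.2‖ ≤ ρ → |f p| ≤ M

section bd

variable {c : ℂ} {R ρ : ℝ} {f g : CC → ℝ}

theorem Bd.mul (hf : Bd c R ρ f) (hg : Bd c R ρ g) : Bd c R ρ fun p => f p * g p := by
  obtain ⟨M, hM, h1⟩ := hf
  obtain ⟨N, hN, h2⟩ := hg
  refine ⟨M * N, mul_nonneg hM hN, fun p h3 h4 => ?_⟩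
  rw [abs_mul]
  exact mul_le_mul (h1 p h3 h4) (h2 p h3 h4) (abs_nonneg _) hM

theorem Bd.add (hf : Bd c R ρ f) (hg : Bd c R ρ g) : Bd c R ρ fun p => f p + g p := by
  obtain ⟨M, hM, h1⟩ := hf
  obtain ⟨N, hN, h2⟩ := hg
  exact ⟨M + N, add_nonneg hM hN, fun p h3 h4 =>
    (abs_add_le _ _).trans (add_le_add (h1 p h3 h4) (h2 p h3 h4))⟩

theorem Bd.sub (hf : Bd c R ρ f) (hg : Bd c R ρ g) : Bd c R ρ fun p => f p - g p := by
  obtain ⟨M, hM, h1⟩ := hf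
  obtain ⟨N, hN, h2⟩ := hg
  exact ⟨M + N, add_nonneg hM hN, fun p h3 h4 =>
    (abs_sub _ _).trans (add_le_add (h1 p h3 h4) (h2 p h3 h4))⟩

theorem Bd.of_le {M : ℝ} (h : ∀ p : CC, |f p| ≤ M) : Bd c R ρ f :=
  ⟨max M 0, le_max_right _ _, fun p _ _ => (h p).trans (le_max_left _ _)⟩

theorem Bd.re : Bd c R ρ fun p => p.2.re :=
  ⟨max ρ 0, le_max_right _ _, fun _ _ h => ((Complex.abs_re_le_norm _).trans h).trans
    (le_max_left _ _)⟩

theorem Bd.im : Bd c R ρ fun p => p.2.im :=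
  ⟨max ρ 0, le_max_right _ _, fun _ _ h => ((Complex.abs_im_le_norm _).trans h).trans
    (le_max_left _ _)⟩

end bd

/-- derivative bounds of a test function on the box. -/
theorem exists_bound {Φ : CC → ℝ} (hΦ : ContDiff ℝ 1 Φ) {T : Set ℂ} (hT : IsCompact T)
    (h0 : ∀ p : CC, p.1 ∉ T → Φ p = 0) (ρ : ℝ) :
    ∃ M, 0 ≤ M ∧ ∀ p : CC, ‖p.2‖ ≤ ρ → ‖fderiv ℝ Φ p‖ ≤ M := by
  obtain ⟨M, hM⟩ := (hT.prod (isCompact_closedBall (0 : ℂ) ρ)).exists_bound_of_continuousOn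
    (hΦ.continuous_fderiv one_ne_zero).continuousOn
  refine ⟨max M 0, le_max_right _ _, fun p hp => ?_⟩
  by_cases h1 : p.1 ∈ T
  · exact (hM p ⟨h1, by simpa using hp⟩).trans (le_max_left _ _)
  · have h2 : IsOpen {q : CC | q.1 ∉ T} := (hT.isClosed.preimage continuous_fst).isOpen_compl
    have h3 : Φ =ᶠ[𝓝 p] fun _ => 0 := by
      filter_upwards [h2.mem_nhds h1] with q hq
      exact h0 q hq
    rw [h3.fderiv_eq]
    simp

variable {μ β : CC → ℂ} {κ L K : ℝ} {c : ℂ} {R ρ : ℝ} {m : Measure CC} {X Y : CC → CC}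
  {C₀ c₀ : ℝ} {k : ℕ} {s : ℂ → Fin k → ℂ}

theorem Cx.integ (h : Cx μ β κ L c R ρ K m X Y C₀ c₀ k s) {f : CC → ℝ} (hf : Measurable f)
    (hB : Bd c R ρ f) : Integrable f m := by
  obtain ⟨M, -, hM⟩ := hB
  have := h.cur.fin
  refine Integrable.of_bound hf.aestronglyMeasurable M ?_
  filter_upwards [h.cur.supp] with p hp
  exact hM p hp.1 hp.2

theorem Cx.mslo (h : Cx μ β κ L c R ρ K m X Y C₀ c₀ k s) :
    Measurable fun p => slo (X p) (Y p) := measurable_slo h.cur.mX h.cur.mY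

theorem Cx.mhh (h : Cx μ β κ L c R ρ K m X Y C₀ c₀ k s) :
    Measurable fun p => hh (X p) (Y p) := measurable_hh h.cur.mX h.cur.mY

theorem Cx.mslo1 (h : Cx μ β κ L c R ρ K m X Y C₀ c₀ k s) (u : ℂ) :
    Measurable fun p => slo (X p) (Y p) u :=
  ((ContinuousLinearMap.apply ℝ ℂ u).continuous.measurable).comp h.mslo

theorem Cx.bhh (h : Cx μ β κ L c R ρ K m X Y C₀ c₀ k s) :
    Bd c R ρ fun p => hh (X p) (Y p) :=
  Bd.of_le (M := C₀) fun p => by rw [abs_of_nonneg (h.pa p).h0]; exact (h.pa p).h1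

theorem Cx.bkk (h : Cx μ β κ L c R ρ K m X Y C₀ c₀ k s) :
    Bd c R ρ fun p => kk (X p) (Y p) := Bd.of_le (M := C₀) fun p => (h.pa p).k1

theorem Cx.ebd (h : Cx μ β κ L c R ρ K m X Y C₀ c₀ k s) :
    Bd c R ρ fun p => ‖slo (X p) (Y p)‖ ^ 2 * hh (X p) (Y p) :=
  Bd.of_le (M := C₀) fun p => by
    rw [abs_of_nonneg (mul_nonneg (sq_nonneg _) (h.pa p).h0)]; exact (h.pa p).en'

theorem Cx.eint (h : Cx μ β κ L c R ρ K m X Y C₀ c₀ k s) :
    IntegrableOn (fun t => ∑ i, ‖slo (X (t, s t i)) (Y (t, s t i))‖ ^ 2) (ball c R) :=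
  (h.dis (fun p => ‖slo (X p) (Y p)‖ ^ 2) (h.mslo.norm.pow_const 2)
    (h.integ ((h.mslo.norm.pow_const 2).mul h.mhh) h.ebd)).1

theorem Cx.weak (h : Cx μ β κ L c R ρ K m X Y C₀ c₀ k s) (hc : CLO) (Φ : ℂ × ℂ → ℝ)
    (hΦ : Test (ball c R) Φ) (u : ℂ) (hu : u = 1 ∨ u = I) :
    ∫ t in ball c R, ∑ i, fderiv ℝ Φ (t, s t i) (u, slo (X (t, s t i)) (Y (t, s t i)) u) = 0 := by
  obtain ⟨T, hTb, hT, h0⟩ := hΦ.supp
  have h0' : ∀ p : CC, p.1 ∉ T → Φ p = 0 := fun p hp => h0 p.1 hp p.2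
  have hΦ1 : ContDiff ℝ 1 Φ := hΦ.smooth.of_le (by exact_mod_cast le_top)
  obtain ⟨M, hM0, hM⟩ := exists_bound hΦ1 hT h0' ρ
  have hcl := hc μ β κ L h.bx c R ρ K m X Y h.cur Φ hΦ1 ⟨T, hTb, hT, h0'⟩
  have happ : Continuous fun q : (CC →L[ℝ] ℝ) × CC => q.1 q.2 :=
    isBoundedBilinearMap_apply.continuous
  have hme : Measurable fun p => fderiv ℝ Φ p (u, slo (X p) (Y p) u) :=
    happ.measurable.comp ((hΦ1.continuous_fderiv one_ne_zero).measurable.prodMk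
      (measurable_const.prodMk (h.mslo1 u)))
  have key : ∀ V : CC → CC, Measurable V → (∀ p, V p = hh (X p) (Y p) • (u, slo (X p) (Y p) u)) →
      (∀ p, ‖V p‖ ≤ C₀) → ∫ p, fderiv ℝ Φ p (V p) ∂m = 0 →
      ∫ t in ball c R, ∑ i, fderiv ℝ Φ (t, s t i) (u, slo (X (t, s t i)) (Y (t, s t i)) u) = 0 := by
    intro V hV hVe hVn hV0
    have h1 : ∀ p, fderiv ℝ Φ p (V p) =
        fderiv ℝ Φ p (u, slo (X p) (Y p) u) * hh (X p) (Y p) := by
      intro p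
      rw [hVe, map_smul, smul_eq_mul, mul_comm]
    have h2 : Integrable (fun p => fderiv ℝ Φ p (u, slo (X p) (Y p) u) * hh (X p) (Y p)) m := by
      refine h.integ (hme.mul h.mhh) ⟨M * C₀, mul_nonneg hM0 h.C0.le, fun p _ hp => ?_⟩
      beta_reduce
      rw [← h1]
      exact ((fderiv ℝ Φ p).le_opNorm (V p)).trans
        (mul_le_mul (hM p hp) (hVn p) (norm_nonneg _) hM0)
    have h3 := (h.dis _ hme h2).2
    rw [← h3, ← hV0]
    exact integral_congr_ae (Eventually.of_forall fun p => (h1 p).symm)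
  rcases hu with rfl | rfl
  · exact key _ (measurable_V1 h.cur.mX h.cur.mY) (fun p => (h.pa p).v1_eq)
      (fun p => (h.pa p).nV1) hcl.1
  · exact key _ (measurable_VI h.cur.mX h.cur.mY) (fun p => (h.pa p).vI_eq)
      (fun p => (h.pa p).nVI) hcl.2.1

/-! ### the mass -/

theorem Cx.ddn (h : Cx μ β κ L c R ρ K m X Y C₀ c₀ k s) (p : CC) : c₀ ≤ dd C₀ X Y p :=
  (h.pa p).low

theorem Cx.dd0 (h : Cx μ β κ L c R ρ K m X Y C₀ c₀ k s) (p : CC) : 0 ≤ dd C₀ X Y p :=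
  h.c0.le.trans (h.ddn p)

theorem Cx.ddm (h : Cx μ β κ L c R ρ K m X Y C₀ c₀ k s) : Measurable (dd C₀ X Y) :=
  measurable_dd h.cur.mX h.cur.mY

theorem Cx.bdd (h : Cx μ β κ L c R ρ K m X Y C₀ c₀ k s) : Bd c R ρ (dd C₀ X Y) :=
  h.bkk.add ((Bd.of_le (f := fun _ => C₀) (M := |C₀|) fun _ => le_rfl).mul h.bhh)

theorem Cx.ddle (h : Cx μ β κ L c R ρ K m X Y C₀ c₀ k s) (p : CC) :
    dd C₀ X Y p ≤ C₀ + C₀ * C₀ :=
  add_le_add ((le_abs_self _).trans (h.pa p).k1) (mul_le_mul_of_nonneg_left (h.pa p).h1 h.C0.le)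

theorem Cx.mafin (h : Cx μ β κ L c R ρ K m X Y C₀ c₀ k s) : IsFiniteMeasure (maM C₀ m X Y) := by
  have := h.cur.fin
  exact maM_finite h.ddle

theorem Cx.low (h : Cx μ β κ L c R ρ K m X Y C₀ c₀ k s) {V : Set ℂ} (hV : MeasurableSet V) :
    c₀ * m.real (V ×ˢ univ) ≤ (maM C₀ m X Y V).toReal := by
  have := h.cur.fin
  rw [maM_real h.cur.mX h.cur.mY h.dd0 hV]
  have h1 : c₀ * m.real (V ×ˢ univ) = ∫ _p in V ×ˢ univ, c₀ ∂m := by
    rw [setIntegral_const, smul_eq_mul, mul_comm]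
  rw [h1]
  exact setIntegral_mono (integrable_const _).integrableOn (h.integ h.ddm h.bdd).integrableOn h.ddn

theorem Cx.e1 (h : Cx μ β κ L c R ρ K m X Y C₀ c₀ k s) (hk : 0 < k) {V : Set ℂ}
    (hVb : V ⊆ ball c R) (hV : MeasurableSet V) :
    c₀ / (2 * C₀) * ∫ t in V, (1 + ∑ i, ‖slo (X (t, s t i)) (Y (t, s t i))‖ ^ 2) ≤
      (maM C₀ m X Y V).toReal := by
  have hfin := h.cur.fin
  have hC := h.C0
  set Φ : CC → ℝ := fun p => V.indicator (fun _ => (1 : ℝ)) p.1 * (1 + ‖slo (X p) (Y p)‖ ^ 2)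
    with hΦ
  have hind : Measurable fun p : CC => V.indicator (fun _ => (1 : ℝ)) p.1 :=
    (measurable_const.indicator hV).comp measurable_fst
  have hind1 : ∀ t, |V.indicator (fun _ => (1 : ℝ)) t| ≤ 1 := by
    intro t
    by_cases ht : t ∈ V <;> simp [ht]
  have hΦm : Measurable Φ := hind.mul (measurable_const.add (h.mslo.norm.pow_const 2))
  have hΦb : Bd c R ρ fun p => Φ p * hh (X p) (Y p) := by
    have h1 : (fun p => Φ p * hh (X p) (Y p)) = fun p => V.indicator (fun _ => (1 : ℝ)) p.1 *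
        (hh (X p) (Y p) + ‖slo (X p) (Y p)‖ ^ 2 * hh (X p) (Y p)) := by
      funext p
      rw [hΦ]
      ring
    rw [h1]
    exact (Bd.of_le (M := 1) fun p => hind1 p.1).mul (h.bhh.add h.ebd)
  have hΦi : Integrable (fun p => Φ p * hh (X p) (Y p)) m := h.integ (hΦm.mul h.mhh) hΦb
  have h1 := h.dis Φ hΦm hΦi
  have h2 : ∫ t in V, (1 + ∑ i, ‖slo (X (t, s t i)) (Y (t, s t i))‖ ^ 2) ≤
      ∫ z in ball c R, ∑ i, Φ (z, s z i) := by
    have h3 : (fun z => ∑ i, Φ (z, s z i)) =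
        V.indicator fun z => ∑ i, (1 + ‖slo (X (z, s z i)) (Y (z, s z i))‖ ^ 2) := by
      funext z
      by_cases hz : z ∈ V <;> simp [hz, hΦ]
    have h4 : ∫ z in ball c R, ∑ i, Φ (z, s z i) =
        ∫ z in V, ∑ i, (1 + ‖slo (X (z, s z i)) (Y (z, s z i))‖ ^ 2) := by
      rw [h3, setIntegral_indicator hV, inter_eq_self_of_subset_right hVb]
    have h5 : IntegrableOn (fun z => ∑ i, ‖slo (X (z, s z i)) (Y (z, s z i))‖ ^ 2) V :=
      h.eint.mono_set hVb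
    have h6 : volume V ≠ ⊤ := ((measure_mono hVb).trans_lt measure_ball_lt_top).ne
    have h6' : IntegrableOn (fun _ : ℂ => (1 : ℝ)) V := integrableOn_const h6
    have h7 : IntegrableOn (fun z => ∑ i, Φ (z, s z i)) V := h1.1.mono_set hVb
    rw [h4]
    refine setIntegral_mono_on (h6'.add h5) ?_ hV fun t _ => ?_
    · refine h7.congr_fun (fun z hz => ?_) hV
      simp [hz, hΦ]
    · rw [Finset.sum_add_distrib]
      have h8 : (1 : ℝ) ≤ ∑ _i : Fin k, (1 : ℝ) := by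
        simp only [Finset.sum_const, Finset.card_univ, Fintype.card_fin, nsmul_eq_mul, mul_one]
        exact_mod_cast hk
      exact add_le_add h8 le_rfl
  have h9 : ∫ p, Φ p * hh (X p) (Y p) ∂m ≤ 2 * C₀ * m.real (V ×ˢ univ) := by
    have h10 : 2 * C₀ * m.real (V ×ˢ univ) =
        ∫ p, V.indicator (fun _ => (1 : ℝ)) p.1 * (2 * C₀) ∂m := by
      rw [integral_mul_const]
      have h11 : (fun p : CC => V.indicator (fun _ => (1 : ℝ)) p.1) =
          (V ×ˢ univ : Set CC).indicator fun _ => (1 : ℝ) := by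
        funext p
        by_cases hp : p.1 ∈ V <;> simp [hp, indicator]
      rw [h11, integral_indicator_const (1 : ℝ) (hV.prod MeasurableSet.univ), smul_eq_mul, mul_one,
        mul_comm]
    rw [h10]
    refine integral_mono hΦi (h.integ (hind.mul measurable_const)
      ((Bd.of_le (M := 1) fun p => hind1 p.1).mul
        (Bd.of_le (f := fun _ => 2 * C₀) (M := |2 * C₀|) fun _ => le_rfl))) fun p => ?_
    have h12 : 0 ≤ V.indicator (fun _ => (1 : ℝ)) p.1 :=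
      indicator_nonneg (fun _ _ => zero_le_one) _
    have h13 : (1 + ‖slo (X p) (Y p)‖ ^ 2) * hh (X p) (Y p) ≤ 2 * C₀ := by
      have := (h.pa p).en'
      have := (h.pa p).h1
      nlinarith
    calc Φ p * hh (X p) (Y p) =
        V.indicator (fun _ => (1 : ℝ)) p.1 * ((1 + ‖slo (X p) (Y p)‖ ^ 2) * hh (X p) (Y p)) := by
          rw [hΦ]
          ring
      _ ≤ _ := mul_le_mul_of_nonneg_left h13 h12
  have h14 : ∫ t in V, (1 + ∑ i, ‖slo (X (t, s t i)) (Y (t, s t i))‖ ^ 2) ≤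
      2 * C₀ * m.real (V ×ˢ univ) := (h2.trans h1.2.ge).trans h9
  calc c₀ / (2 * C₀) * ∫ t in V, (1 + ∑ i, ‖slo (X (t, s t i)) (Y (t, s t i))‖ ^ 2) ≤
      c₀ / (2 * C₀) * (2 * C₀ * m.real (V ×ˢ univ)) :=
        mul_le_mul_of_nonneg_left h14 (div_nonneg h.c0.le (by positivity))
    _ = c₀ * m.real (V ×ˢ univ) := by
      field_simp
    _ ≤ _ := h.low hV

end

end Crest.Agent.R235.WKBoxB_348
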