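import Crest.Agent.R235.WKBoxB_348

/-!
Row 235 (S0364), PACKAGE REG, leaf BOXW (helper348): a box current gives a weak `k`-valued graph.
`CylW_460.BOXW` is false for `k = 0` (`m = 0`: `WKG` is unsatisfiable), so this is `BOXW'`.
-/

set_option autoImplicit false

open MeasureTheory Metric Set Filter Complex
open scoped ContDiff Topology ComplexConjugate

namespace Crest.Agent.R235.WKBox_348

open Crest.Agent.R235.Loc Crest.Agent.R235.Cyl Crest.Agent.R235.WKG_460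
open Crest.Agent.R235.WKBoxA_348 Crest.Agent.R235.WKBoxB_348

noncomputable section

/-- **BOXW'**: a box current gives a weak k-valued graph (`k ≥ 1`), or it is zero (`k = 0`). -/
def BOXW' : Prop :=
  ∀ (μ β : CC → ℂ) (κ L : ℝ), SBox μ β κ L →
  ∀ (c : ℂ) (R ρ K : ℝ) (m : Measure CC) (X Y : CC → CC), BoxCur μ β c R ρ K m X Y → 0 < R →
  ∃ (k : ℕ) (s : ℂ → Fin k → ℂ) (A : ℂ → Fin k → (ℂ →L[ℝ] ℂ)) (ma : Measure ℂ) (K' c0 Mb C : ℝ),
    (0 < k → WKG μ β c R k s A ma K' c0 Mb) ∧ (k = 0 → m = 0) ∧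
    (∀ᵐ z : ℂ, z ∈ ball c R → (fib m z).Finite ∧ Function.Injective (s z) ∧
      (∀ w, w ∈ fib m z ↔ ∃ i, s z i = w) ∧
      ∀ i, A z i = slo (X (z, s z i)) (Y (z, s z i))) ∧
    (∀ E : Set ℂ, MeasurableSet E → E ⊆ ball c R → m.real (E ×ˢ univ) ≤ C * (ma E).toReal)

variable {μ β : CC → ℂ} {κ L K : ℝ} {c : ℂ} {R ρ : ℝ} {m : Measure CC} {X Y : CC → CC}
  {C₀ c₀ : ℝ} {k : ℕ} {s : ℂ → Fin k → ℂ}

/-- derivative of `χ(z) a(w)`, `a` real linear. -/
theorem fderiv_prod {χ : ℂ → ℝ} (hχ : ContDiff ℝ ∞ χ) (a : ℂ →L[ℝ] ℝ) (p v : CC) :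
    fderiv ℝ (fun q : CC => χ q.1 * a q.2) p v = χ p.1 * a v.2 + fderiv ℝ χ p.1 v.1 * a p.2 := by
  have h1 : HasFDerivAt (fun q : CC => χ q.1)
      ((fderiv ℝ χ p.1).comp (ContinuousLinearMap.fst ℝ ℂ ℂ)) p :=
    ((hχ.differentiable (by simp)) p.1).hasFDerivAt.comp p hasFDerivAt_fst
  have h2 : HasFDerivAt (fun q : CC => a q.2) (a.comp (ContinuousLinearMap.snd ℝ ℂ ℂ)) p :=
    a.hasFDerivAt.comp p hasFDerivAt_snd
  have h3 : HasFDerivAt (fun q : CC => χ q.1 * a q.2)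
      (χ p.1 • a.comp (ContinuousLinearMap.snd ℝ ℂ ℂ) +
        a p.2 • (fderiv ℝ χ p.1).comp (ContinuousLinearMap.fst ℝ ℂ ℂ)) p := h1.mul h2
  rw [h3.fderiv]
  simp
  ring

theorem contDiff_prod {χ : ℂ → ℝ} (hχ : ContDiff ℝ ∞ χ) (a : ℂ →L[ℝ] ℝ) :
    ContDiff ℝ 1 (fun q : CC => χ q.1 * a q.2) := by
  have h1 : ContDiff ℝ 1 χ := hχ.of_le (by exact_mod_cast le_top)
  exact (h1.comp contDiff_fst).mul (a.contDiff.comp contDiff_snd)

/-- the integrand of the calibration identity. -/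
def ig (χ : ℂ → ℝ) (X Y : CC → CC) (p : CC) : ℝ :=
  fderiv ℝ χ p.1 1 * (conj p.2 * slo (X p) (Y p) I).im -
    fderiv ℝ χ p.1 I * (conj p.2 * slo (X p) (Y p) 1).im

theorem _root_.Crest.Agent.R235.WKBoxB_348.Cx.kkf (h : Cx μ β κ L c R ρ K m X Y C₀ c₀ k s)
    (hc : CLO) {χ : ℂ → ℝ} (hχ : ContDiff ℝ ∞ χ) (hχc : HasCompactSupport χ)
    (hχs : tsupport χ ⊆ ball c R) :
    ∫ p, χ p.1 * kk (X p) (Y p) ∂m = - (1 / 2 * ∫ t in ball c R, ∑ i, ig χ X Y (t, s t i)) := by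
  have hχ1 : ContDiff ℝ 1 χ := hχ.of_le (by exact_mod_cast le_top)
  have h0 : ∀ (a : ℂ →L[ℝ] ℝ) (p : CC), p.1 ∉ tsupport χ → χ p.1 * a p.2 = 0 := by
    intro a p hp
    rw [image_eq_zero_of_notMem_tsupport hp, zero_mul]
  have hR := (hc μ β κ L h.bx c R ρ K m X Y h.cur _ (contDiff_prod hχ reCLM)
    ⟨tsupport χ, hχs, hχc, h0 reCLM⟩).2.2.1
  have hI := (hc μ β κ L h.bx c R ρ K m X Y h.cur _ (contDiff_prod hχ imCLM)
    ⟨tsupport χ, hχs, hχc, h0 imCLM⟩).2.2.2
  simp only [fderiv_prod hχ] at hR hI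
  -- bounds
  obtain ⟨M, hM⟩ := hχc.exists_bound_of_continuous hχ.continuous
  obtain ⟨N, hN⟩ := (hχc.fderiv (𝕜 := ℝ)).exists_bound_of_continuous
    (hχ1.continuous_fderiv one_ne_zero)
  have bχ : Bd c R ρ fun p => χ p.1 := Bd.of_le (M := M) fun p => hM p.1
  have bd : ∀ u : ℂ, Bd c R ρ fun p => fderiv ℝ χ p.1 u := fun u =>
    Bd.of_le (M := N * ‖u‖) fun p => ((fderiv ℝ χ p.1).le_opNorm u).trans
      (mul_le_mul_of_nonneg_right (hN p.1) (norm_nonneg _))
  have b1r : Bd c R ρ fun p => (V1 (X p) (Y p)).2.re := Bd.of_le (M := C₀) fun p =>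
    (Complex.abs_re_le_norm _).trans (h.pa p).n1'
  have b1i : Bd c R ρ fun p => (V1 (X p) (Y p)).2.im := Bd.of_le (M := C₀) fun p =>
    (Complex.abs_im_le_norm _).trans (h.pa p).n1'
  have bIr : Bd c R ρ fun p => (VI (X p) (Y p)).2.re := Bd.of_le (M := C₀) fun p =>
    (Complex.abs_re_le_norm _).trans (h.pa p).nI'
  have bIi : Bd c R ρ fun p => (VI (X p) (Y p)).2.im := Bd.of_le (M := C₀) fun p =>
    (Complex.abs_im_le_norm _).trans (h.pa p).nI'
  have mχ : Measurable fun p : CC => χ p.1 := hχ.continuous.measurable.comp measurable_fst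
  have md : ∀ u : ℂ, Measurable fun p : CC => fderiv ℝ χ p.1 u := fun u =>
    ((ContinuousLinearMap.apply ℝ ℝ u).continuous.measurable).comp
      ((hχ1.continuous_fderiv one_ne_zero).measurable.comp measurable_fst)
  have m1 : Measurable fun p => (V1 (X p) (Y p)).2 := (measurable_V1 h.cur.mX h.cur.mY).snd
  have mI : Measurable fun p => (VI (X p) (Y p)).2 := (measurable_VI h.cur.mX h.cur.mY).snd
  have mre : Measurable fun p : CC => p.2.re := Complex.measurable_re.comp measurable_snd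
  have mim : Measurable fun p : CC => p.2.im := Complex.measurable_im.comp measurable_snd
  have mkk : Measurable fun p => kk (X p) (Y p) := measurable_kk h.cur.mX h.cur.mY
  -- the three integrable functions
  have i0 : Integrable (fun p => χ p.1 * kk (X p) (Y p)) m := h.integ (mχ.mul mkk) (bχ.mul h.bkk)
  have i1 : Integrable (fun p => fderiv ℝ χ p.1 1 * p.2.re * (VI (X p) (Y p)).2.im -
      fderiv ℝ χ p.1 I * p.2.re * (V1 (X p) (Y p)).2.im) m :=
    h.integ ((((md 1).mul mre).mul (Complex.measurable_im.comp mI)).sub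
      (((md I).mul mre).mul (Complex.measurable_im.comp m1)))
      ((((bd 1).mul Bd.re).mul bIi).sub (((bd I).mul Bd.re).mul b1i))
  have i2 : Integrable (fun p => fderiv ℝ χ p.1 1 * p.2.im * (VI (X p) (Y p)).2.re -
      fderiv ℝ χ p.1 I * p.2.im * (V1 (X p) (Y p)).2.re) m :=
    h.integ ((((md 1).mul mim).mul (Complex.measurable_re.comp mI)).sub
      (((md I).mul mim).mul (Complex.measurable_re.comp m1)))
      ((((bd 1).mul Bd.im).mul bIr).sub (((bd I).mul Bd.im).mul b1r))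
  have e1 : ∫ p, (fderiv ℝ χ p.1 1 * p.2.re * (VI (X p) (Y p)).2.im -
      fderiv ℝ χ p.1 I * p.2.re * (V1 (X p) (Y p)).2.im) ∂m +
      ∫ p, χ p.1 * kk (X p) (Y p) ∂m = 0 := by
    rw [← integral_add i1 i0, ← hR]
    refine integral_congr_ae (Eventually.of_forall fun p => ?_)
    simp
  have e2 : ∫ p, (fderiv ℝ χ p.1 1 * p.2.im * (VI (X p) (Y p)).2.re -
      fderiv ℝ χ p.1 I * p.2.im * (V1 (X p) (Y p)).2.re) ∂m -
      ∫ p, χ p.1 * kk (X p) (Y p) ∂m = 0 := by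
    rw [← integral_sub i2 i0, ← hI]
    refine integral_congr_ae (Eventually.of_forall fun p => ?_)
    simp
  -- the difference
  have h3 : ∀ p, ig χ X Y p * hh (X p) (Y p) =
      (fderiv ℝ χ p.1 1 * p.2.re * (VI (X p) (Y p)).2.im -
        fderiv ℝ χ p.1 I * p.2.re * (V1 (X p) (Y p)).2.im) -
      (fderiv ℝ χ p.1 1 * p.2.im * (VI (X p) (Y p)).2.re -
        fderiv ℝ χ p.1 I * p.2.im * (V1 (X p) (Y p)).2.re) := by
    intro p
    rw [(h.pa p).vI_two, (h.pa p).v1_two, ig]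
    simp only [Complex.mul_im, Complex.conj_re, Complex.conj_im, Complex.smul_re, Complex.smul_im,
      smul_eq_mul]
    ring
  have h4 : Integrable (fun p => ig χ X Y p * hh (X p) (Y p)) m :=
    (i1.sub i2).congr (Eventually.of_forall fun p => (h3 p).symm)
  have mig : Measurable (ig χ X Y) := by
    have hconj : Measurable fun p : CC => conj p.2 :=
      (Complex.continuous_conj.measurable).comp measurable_snd
    exact ((md 1).mul (Complex.measurable_im.comp (hconj.mul (h.mslo1 I)))).sub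
      ((md I).mul (Complex.measurable_im.comp (hconj.mul (h.mslo1 1))))
  have h5 := (h.dis _ mig h4).2
  have h6 : ∫ p, ig χ X Y p * hh (X p) (Y p) ∂m =
      ∫ p, (fderiv ℝ χ p.1 1 * p.2.re * (VI (X p) (Y p)).2.im -
      fderiv ℝ χ p.1 I * p.2.re * (V1 (X p) (Y p)).2.im) ∂m -
      ∫ p, (fderiv ℝ χ p.1 1 * p.2.im * (VI (X p) (Y p)).2.re -
      fderiv ℝ χ p.1 I * p.2.im * (V1 (X p) (Y p)).2.re) ∂m := by
    rw [← integral_sub i1 i2]
    exact integral_congr_ae (Eventually.of_forall h3)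
  rw [← h5]
  linarith

theorem _root_.Crest.Agent.R235.WKBoxB_348.Cx.hhf (h : Cx μ β κ L c R ρ K m X Y C₀ c₀ k s)
    {χ : ℂ → ℝ} (hχ : ContDiff ℝ ∞ χ) (hχc : HasCompactSupport χ) (hχs : tsupport χ ⊆ ball c R) :
    ∫ p, χ p.1 * hh (X p) (Y p) ∂m = k * ∫ t, χ t := by
  obtain ⟨M, hM⟩ := hχc.exists_bound_of_continuous hχ.continuous
  have bχ : Bd c R ρ fun p => χ p.1 := Bd.of_le (M := M) fun p => hM p.1
  have mχ : Measurable fun p : CC => χ p.1 := hχ.continuous.measurable.comp measurable_fst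
  rw [(h.dis _ mχ (h.integ (mχ.mul h.mhh) (bχ.mul h.bhh))).2]
  simp only [Finset.sum_const, Finset.card_univ, Fintype.card_fin, nsmul_eq_mul]
  rw [integral_const_mul, setIntegral_eq_integral_of_forall_compl_eq_zero]
  intro t ht
  exact image_eq_zero_of_notMem_tsupport fun h1 => ht (hχs h1)

theorem _root_.Crest.Agent.R235.WKBoxB_348.Cx.e2 (h : Cx μ β κ L c R ρ K m X Y C₀ c₀ k s)
    (hc : CLO) {χ : ℂ → ℝ} (hχ : ContDiff ℝ ∞ χ) (hχc : HasCompactSupport χ)
    (hχs : tsupport χ ⊆ ball c R) :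
    ∫ t, χ t ∂(maM C₀ m X Y) = (k * C₀ * ∫ t, χ t) -
      1 / 2 * ∫ t in ball c R, ∑ i, ig χ X Y (t, s t i) := by
  obtain ⟨M, hM⟩ := hχc.exists_bound_of_continuous hχ.continuous
  have bχ : Bd c R ρ fun p => χ p.1 := Bd.of_le (M := M) fun p => hM p.1
  have mχ : Measurable fun p : CC => χ p.1 := hχ.continuous.measurable.comp measurable_fst
  rw [maM_integral h.cur.mX h.cur.mY h.dd0 hχ.continuous.measurable]
  have h1 : ∫ p, χ p.1 * dd C₀ X Y p ∂m = ∫ p, χ p.1 * kk (X p) (Y p) ∂m +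
      C₀ * ∫ p, χ p.1 * hh (X p) (Y p) ∂m := by
    have i1 : Integrable (fun p => χ p.1 * kk (X p) (Y p)) m :=
      h.integ (mχ.mul (measurable_kk h.cur.mX h.cur.mY)) (bχ.mul h.bkk)
    have i2 : Integrable (fun p => χ p.1 * hh (X p) (Y p)) m :=
      h.integ (mχ.mul h.mhh) (bχ.mul h.bhh)
    rw [← integral_const_mul, ← integral_add i1 (i2.const_mul _)]
    refine integral_congr_ae (Eventually.of_forall fun p => ?_)
    simp only [dd]
    ring
  rw [h1, h.kkf hc hχ hχc hχs, h.hhf hχ hχc hχs]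
  ring

theorem _root_.Crest.Agent.R235.WKBoxB_348.Cx.mass (h : Cx μ β κ L c R ρ K m X Y C₀ c₀ k s)
    {E : Set ℂ} (hE : MeasurableSet E) :
    m.real (E ×ˢ univ) ≤ c₀⁻¹ * (maM C₀ m X Y E).toReal := by
  rw [← div_eq_inv_mul, le_div_iff₀ h.c0, mul_comm]
  exact h.low hE

/-- the case `k = 0`. -/
theorem _root_.Crest.Agent.R235.WKBoxB_348.Cx.zero (h : Cx μ β κ L c R ρ K m X Y C₀ c₀ k s)
    (hc : CLO) (hk : k = 0) (hR : 0 < R) : m = 0 := by
  have hfin := h.cur.fin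
  have hmf := h.mafin
  have key : ∀ r : ℝ, 0 < r → r < R → m (closedBall c r ×ˢ univ) = 0 := by
    intro r hr hrR
    let χ : ContDiffBump c := ⟨r, (r + R) / 2, hr, by linarith⟩
    have hχs : tsupport (χ : ℂ → ℝ) ⊆ ball c R := by
      rw [χ.tsupport_eq]
      exact closedBall_subset_ball (by change (r + R) / 2 < R; linarith)
    have h1 := h.e2 hc χ.contDiff χ.hasCompactSupport hχs
    have h2 : ∫ t in ball c R, ∑ i, ig χ X Y (t, s t i) = 0 := by
      subst hk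
      simp
    rw [h2, hk] at h1
    have h3 : ∫ t, χ t ∂(maM C₀ m X Y) = 0 := by rw [h1]; simp
    have h4 : (maM C₀ m X Y).real (closedBall c r) ≤ 0 := by
      rw [← h3]
      have h5 : (maM C₀ m X Y).real (closedBall c r) =
          ∫ t, (closedBall c r).indicator (fun _ => (1 : ℝ)) t ∂(maM C₀ m X Y) := by
        rw [integral_indicator_const (1 : ℝ) measurableSet_closedBall, smul_eq_mul, mul_one]
      rw [h5]
      refine integral_mono ?_ ?_ fun t => ?_
      · exact (integrable_const _).indicator measurableSet_closedBall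
      · refine Integrable.of_bound χ.continuous.aestronglyMeasurable 1 (Eventually.of_forall ?_)
        intro t
        rw [Real.norm_of_nonneg χ.nonneg]
        exact χ.le_one
      · by_cases ht : t ∈ closedBall c r
        · rw [indicator_of_mem ht, χ.one_of_mem_closedBall ht]
        · rw [indicator_of_notMem ht]
          exact χ.nonneg
    have h6 : m.real (closedBall c r ×ˢ univ) ≤ 0 := by
      refine (h.mass measurableSet_closedBall).trans ?_
      exact mul_nonpos_of_nonneg_of_nonpos (inv_nonneg.2 h.c0.le) h4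
    exact (measureReal_eq_zero_iff).1 (le_antisymm h6 measureReal_nonneg)
  have h1 : ∀ n : ℕ, ∀ᵐ p ∂m, p ∉ closedBall c (R - R / (n + 2)) ×ˢ (univ : Set ℂ) := by
    intro n
    have hn : (0 : ℝ) < n + 2 := by positivity
    have h2 : R / (n + 2) < R := by
      rw [div_lt_iff₀ hn]
      nlinarith [(Nat.cast_nonneg n : (0 : ℝ) ≤ n)]
    exact measure_eq_zero_iff_ae_notMem.1 (key _ (by linarith) (by
      have : 0 < R / (n + 2) := div_pos hR hn
      linarith))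
  rw [← ae_all_iff] at h1
  have h2 : ∀ᵐ _p ∂m, False := by
    filter_upwards [h1, h.cur.supp] with p h3 h4
    have h5 : 0 < R - dist p.1 c := sub_pos.2 (mem_ball.1 h4.1)
    obtain ⟨n, hn⟩ := exists_nat_gt (R / (R - dist p.1 c))
    refine h3 n ⟨?_, mem_univ _⟩
    rw [mem_closedBall]
    have h6 : R / (n + 2) ≤ R - dist p.1 c := by
      rw [div_le_iff₀ (by positivity)]
      rw [div_lt_iff₀ h5] at hn
      nlinarith
    linarith
  exact ae_eq_bot.1 (eventually_false_iff_eq_bot.1 h2)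

/-- **BOXW'.** -/
theorem boxw' (h0 : ALG0) (hc : CLO) (hg : GOODZ) (hs : SPLIT) (hd : DISI) : BOXW' := by
  intro μ β κ L hbx c R ρ K m X Y hb hR
  obtain ⟨C₀, c₀, hc0, hC0, halg⟩ := h0 κ L K hbx.box.κ0 hbx.box.κ1 hbx.box.L0
  have hpa : ∀ p, PA μ β C₀ c₀ p (X p) (Y p) := by
    intro p
    have h1 := halg μ β hbx p (X p) (Y p) (hb.nX p) (hb.nY p) (hb.jz p) (hb.jw p)
    exact ⟨h1.1, h1.2.1, h1.2.2.1, h1.2.2.2.1, h1.2.2.2.2.1, h1.2.2.2.2.2.1, h1.2.2.2.2.2.2.1,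
      h1.2.2.2.2.2.2.2.1, fun h2 => (h1.2.2.2.2.2.2.2.2.2.2 h2).1,
      fun h2 => (h1.2.2.2.2.2.2.2.2.2.2 h2).2⟩
  obtain ⟨k, s, hen⟩ := exists_en hg hs hbx hb hR
  have h : Cx μ β κ L c R ρ K m X Y C₀ c₀ k s :=
    ⟨hbx, hb, hc0, hC0, hpa, hen, fun Φ h1 h2 => disi hd hbx hb hen h1 h2⟩
  have hmf := h.mafin
  refine ⟨k, s, fun t i => slo (X (t, s t i)) (Y (t, s t i)), maM C₀ m X Y, C₀, c₀ / (2 * C₀),
    max ρ 0, c₀⁻¹, fun hk => ?_, fun hk => h.zero hc hk hR, ?_, fun E hE _ => h.mass hE⟩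
  · exact
    { K0 := hC0.le
      c0pos := by positivity
      smeas := hen.meas
      Ameas := fun i => h.mslo.comp (measurable_id.prodMk (hen.meas i))
      bdd := hen.bdd
      inj := hen.good.mono fun z hz => hz.2.1
      eint := h.eint
      weak := fun Φ hΦ u hu => h.weak hc Φ hΦ u hu
      pde := hen.good.mono fun z hz i => (hpa _).pde (hz.2.2.2 i)
      mfin := measure_ne_top _ _
      e1 := fun V hVb hV => h.e1 hk hVb hV
      e2 := fun χ h1 h2 h3 => h.e2 hc h1 h2 h3 }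
  · have h1 := hen.good
    rw [ae_restrict_iff' measurableSet_ball] at h1
    filter_upwards [h1] with z hz hzb
    exact ⟨(hz hzb).1, (hz hzb).2.1, (hz hzb).2.2.1, fun i => rfl⟩

end

end Crest.Agent.R235.WKBox_348
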