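import Crest.Agent.R235.KGL4_355

/-! # REG-CYL-2: polar coordinates on annuli -/

set_option autoImplicit false

open MeasureTheory Metric Set Filter Complex
open scoped Topology

namespace Crest.Agent.R235.WKTool_460

open Crest.Agent.R235.KGL4_355

noncomputable section

/-- open annulus -/
def ann (p : ℂ) (r1 r2 : ℝ) : Set ℂ := {z | r1 < ‖z - p‖ ∧ ‖z - p‖ < r2}

theorem isOpen_ann (p : ℂ) (r1 r2 : ℝ) : IsOpen (ann p r1 r2) :=
  (isOpen_lt continuous_const (continuous_id.sub continuous_const).norm).inter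
    (isOpen_lt (continuous_id.sub continuous_const).norm continuous_const)

theorem polar_ann {W : ℂ → ℝ} {p : ℂ} {r1 r2 : ℝ} (hr1 : 0 ≤ r1)
    (hW : IntegrableOn W (ann p r1 r2)) :
    IntegrableOn (fun q : ℝ × ℝ => q.1 * W (p + q.1 * exp (q.2 * I)))
      (Ioo r1 r2 ×ˢ Ioo (-Real.pi) Real.pi) ∧
    IntegrableOn (fun r : ℝ => r * ∫ φ in (-Real.pi)..Real.pi, W (p + r * exp (φ * I)))
      (Ioo r1 r2) ∧
    (∀ᵐ r : ℝ ∂(volume.restrict (Ioo r1 r2)),
      IntegrableOn (fun φ : ℝ => W (p + r * exp (φ * I))) (Ioo (-Real.pi) Real.pi)) ∧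
    ∫ z in ann p r1 r2, W z =
      ∫ r in Ioo r1 r2, r * ∫ φ in (-Real.pi)..Real.pi, W (p + r * exp (φ * I)) := by
  have hm : MeasurableSet (ann p r1 r2) := (isOpen_ann p r1 r2).measurableSet
  set f : ℂ → ℝ := fun u => (ann p r1 r2).indicator W (u + p) with hf
  have hfi : Integrable f := ((integrable_indicator_iff hm).2 hW).comp_add_right p
  have hmeas : AEStronglyMeasurable (fun q : ℝ × ℝ => q.1 * f (pm q)) (volume.restrict St) := by
    refine AEStronglyMeasurable.mul continuous_fst.aestronglyMeasurable ?_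
    exact hfi.aestronglyMeasurable.comp_quasiMeasurePreserving qmp
  have hint : IntegrableOn (fun q : ℝ × ℝ => q.1 * f (pm q)) St := by
    refine ⟨hmeas, ?_⟩
    unfold HasFiniteIntegral
    have h1 : ∫⁻ q in St, ‖q.1 * f (pm q)‖ₑ = ∫⁻ z, ‖f z‖ₑ := by
      rw [← polar (fun z => ‖f z‖ₑ)]
      refine setLIntegral_congr_fun meas_St fun q hq => ?_
      rw [enorm_mul]
      congr 1
      rw [← Real.enorm_of_nonneg (le_of_lt (show (0 : ℝ) < q.1 from hq.1))]
    rw [h1]
    exact hfi.hasFiniteIntegral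
  have hval : ∫ q in St, q.1 * f (pm q) = ∫ z in ann p r1 r2, W z := by
    have h1 := Complex.integral_comp_polarCoord_symm f
    have h2 : ∫ z, f z = ∫ z in ann p r1 r2, W z := by
      rw [hf, integral_add_right_eq_self (fun u => (ann p r1 r2).indicator W u) p,
        integral_indicator hm]
    rw [← h2, ← h1]
    have h3 : St = polarCoord.target := rfl
    rw [h3]
    refine integral_congr_ae (Eventually.of_forall fun q => ?_)
    simp only [pm_eq, smul_eq_mul]
  have hsub : Ioo r1 r2 ×ˢ Ioo (-Real.pi) Real.pi ⊆ St := Rc_sub (r2 := r2) hr1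
  have hRm : MeasurableSet (Ioo r1 r2 ×ˢ Ioo (-Real.pi) Real.pi) :=
    measurableSet_Ioo.prod measurableSet_Ioo
  have hEq : ∀ q ∈ Ioo r1 r2 ×ˢ Ioo (-Real.pi) Real.pi,
      q.1 * f (pm q) = q.1 * W (p + q.1 * exp (q.2 * I)) := by
    intro q hq
    have hq0 : 0 < q.1 := lt_of_le_of_lt hr1 hq.1.1
    have hmem : pm q + p ∈ ann p r1 r2 := by
      show r1 < ‖pm q + p - p‖ ∧ ‖pm q + p - p‖ < r2
      rw [add_sub_cancel_right, norm_pm hq0]
      exact hq.1
    simp only [hf]
    rw [indicator_of_mem hmem, add_comm]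
    rfl
  have h0 : ∀ q ∈ St \ (Ioo r1 r2 ×ˢ Ioo (-Real.pi) Real.pi), q.1 * f (pm q) = 0 := by
    intro q hq
    have hq0 : 0 < q.1 := hq.1.1
    have hmem : pm q + p ∉ ann p r1 r2 := by
      intro h
      have h' : r1 < ‖pm q + p - p‖ ∧ ‖pm q + p - p‖ < r2 := h
      rw [add_sub_cancel_right, norm_pm hq0] at h'
      exact hq.2 ⟨h', hq.1.2⟩
    simp only [hf, indicator_of_notMem hmem, mul_zero]
  have hR : IntegrableOn (fun q : ℝ × ℝ => q.1 * W (p + q.1 * exp (q.2 * I)))
      (Ioo r1 r2 ×ˢ Ioo (-Real.pi) Real.pi) :=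
    (integrableOn_congr_fun hEq hRm).1 (hint.mono_set hsub)
  have hval2 : ∫ q in Ioo r1 r2 ×ˢ Ioo (-Real.pi) Real.pi,
      q.1 * W (p + q.1 * exp (q.2 * I)) = ∫ z in ann p r1 r2, W z := by
    rw [← hval, ← setIntegral_congr_fun hRm hEq]
    exact (setIntegral_eq_of_subset_of_forall_sdiff_eq_zero meas_St hsub h0).symm
  have hprod : (volume : Measure (ℝ × ℝ)).restrict (Ioo r1 r2 ×ˢ Ioo (-Real.pi) Real.pi) =
      (volume.restrict (Ioo r1 r2)).prod (volume.restrict (Ioo (-Real.pi) Real.pi)) := by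
    rw [Measure.prod_restrict]; rfl
  have hR' : Integrable (fun q : ℝ × ℝ => q.1 * W (p + q.1 * exp (q.2 * I)))
      ((volume.restrict (Ioo r1 r2)).prod (volume.restrict (Ioo (-Real.pi) Real.pi))) := by
    rw [← hprod]; exact hR
  have hin : ∀ r : ℝ, ∫ φ in Ioo (-Real.pi) Real.pi, r * W (p + r * exp (φ * I)) =
      r * ∫ φ in (-Real.pi)..Real.pi, W (p + r * exp (φ * I)) := by
    intro r
    rw [intJ, integral_const_mul]
  refine ⟨hR, ?_, ?_, ?_⟩
  · have := hR'.integral_prod_left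
    refine this.congr (Eventually.of_forall fun r => ?_)
    exact hin r
  · filter_upwards [hR'.prod_right_ae, ae_restrict_mem measurableSet_Ioo] with r hr hr2
    have hr0 : r ≠ 0 := (lt_of_le_of_lt hr1 hr2.1).ne'
    have := hr.const_mul r⁻¹
    refine this.congr (Eventually.of_forall fun φ => ?_)
    show r⁻¹ * (r * W (p + r * exp (φ * I))) = _
    rw [← mul_assoc, inv_mul_cancel₀ hr0, one_mul]
  · rw [← hval2, hprod, integral_prod _ hR']
    exact integral_congr_ae (Eventually.of_forall fun r => hin r)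

end

end Crest.Agent.R235.WKTool_460
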