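import Crest.Agent.R235.WKG_460
import Crest.Agent.R235.WKTool_460
import Crest.Agent.R235.CylDec_734

/-! # REG-CYL-2: DEC, uniform Morrey decay (hole filling) -/

set_option autoImplicit false

open MeasureTheory Metric Set Filter Complex
open scoped Topology ContDiff ComplexConjugate

namespace Crest.Agent.R235.WKDec_460

open Crest.Agent.R235.WKG_460 Crest.Agent.R235.WKTool_460 Crest.Agent.R235.CylDec_734
open Crest.Agent.R235.KGL4_355 (intJ)

noncomputable section

/-- Cauchy-Schwarz on the circle. -/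
theorem cs_circle {h e : ℝ → ℝ} {κ : ℝ} (hh : IntegrableOn h (Ioo (-Real.pi) Real.pi))
    (he : IntegrableOn e (Ioo (-Real.pi) Real.pi)) (hle : ∀ φ, h φ ^ 2 ≤ κ * e φ) :
    (∫ φ in (-Real.pi)..Real.pi, h φ) ^ 2 ≤ 2 * Real.pi * (κ * ∫ φ in (-Real.pi)..Real.pi, e φ) := by
  rw [intJ, intJ]
  have hpi := Real.pi_pos
  set m : ℝ := (∫ φ in Ioo (-Real.pi) Real.pi, h φ) / (2 * Real.pi) with hm
  have hsq : IntegrableOn (fun φ => h φ ^ 2) (Ioo (-Real.pi) Real.pi) := by
    refine Integrable.mono' (he.const_mul κ) (hh.aestronglyMeasurable.pow 2) ?_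
    refine Eventually.of_forall fun φ => ?_
    rw [Real.norm_eq_abs, abs_of_nonneg (sq_nonneg _)]
    exact hle φ
  have hvol : (volume (Ioo (-Real.pi) Real.pi)).toReal = 2 * Real.pi := by
    rw [Real.volume_Ioo, ENNReal.toReal_ofReal (by linarith)]; ring
  have hconst : IntegrableOn (fun _ : ℝ => m ^ 2) (Ioo (-Real.pi) Real.pi) :=
    integrableOn_const (by simp) (by simp)
  have h0 : 0 ≤ ∫ φ in Ioo (-Real.pi) Real.pi, (h φ - m) ^ 2 :=
    integral_nonneg fun φ => sq_nonneg _
  have h1 : ∫ φ in Ioo (-Real.pi) Real.pi, (h φ - m) ^ 2 =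
      (∫ φ in Ioo (-Real.pi) Real.pi, h φ ^ 2) - 2 * m * (∫ φ in Ioo (-Real.pi) Real.pi, h φ) +
        m ^ 2 * (2 * Real.pi) := by
    have e1 : (fun φ => (h φ - m) ^ 2) = fun φ => (h φ ^ 2 - 2 * m * h φ) + m ^ 2 := by
      funext φ; ring
    have hsub : IntegrableOn (fun φ => h φ ^ 2 - 2 * m * h φ) (Ioo (-Real.pi) Real.pi) :=
      hsq.sub (hh.const_mul (2 * m))
    rw [e1, integral_add hsub hconst,
      integral_sub hsq (hh.const_mul (2 * m)), integral_const_mul, setIntegral_const,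
      Measure.real, hvol, smul_eq_mul]
    ring
  have h2 : ∫ φ in Ioo (-Real.pi) Real.pi, h φ ^ 2 ≤ κ * ∫ φ in Ioo (-Real.pi) Real.pi, e φ := by
    rw [← integral_const_mul]
    exact integral_mono hsq (he.const_mul κ) hle
  have h3 : (∫ φ in Ioo (-Real.pi) Real.pi, h φ) = 2 * Real.pi * m := by
    rw [hm]; field_simp
  rw [h1, h3] at h0
  rw [h3]
  nlinarith

section
variable {μ β : ℂ × ℂ → ℂ} {c : ℂ} {R : ℝ} {k : ℕ} {s : ℂ → Fin k → ℂ}
    {A : ℂ → Fin k → (ℂ →L[ℝ] ℂ)} {ma : Measure ℂ} {K c0 Mb : ℝ}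

/-- the slice inequality. -/
theorem slice_ineq (hI : ISOP) (hB : BALL μ β c R k s A ma K c0 Mb)
    (hS : SLICE μ β c R k s A ma K c0 Mb) (hW : WKG μ β c R k s A ma K c0 Mb) :
    ∃ C : ℝ, 0 ≤ C ∧ ∀ (p : ℂ) (r1 : ℝ), ball p r1 ⊆ ball c R →
      ∀ᵐ r : ℝ, 0 < r → r < r1 → (ma (ball p r)).toReal ≤
        C * (r * (c0 * (|r| * ∫ φ in (-Real.pi)..Real.pi,
          ∑ i, ‖A (p + r * exp (φ * I)) i‖ ^ 2)) + r ^ 2) := by
  obtain ⟨CI, hCI0, hCI⟩ := hI k
  have hc0 := hW.c0pos
  have hpi := Real.pi_pos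
  have hK0 := hW.K0
  refine ⟨k * K * Real.pi + 1 / 2 * CI * (2 * Real.pi * k) / c0, by positivity, ?_⟩
  intro p r1 hsub
  have heint : IntegrableOn (fun z => ∑ i, ‖A z i‖ ^ 2) (ann p 0 r1) := by
    refine hW.eint.mono_set fun z hz => hsub ?_
    rw [mem_ball, dist_eq_norm]; exact hz.2
  obtain ⟨-, -, hsl, -⟩ := polar_ann le_rfl heint
  have h1 := hB hW p r1 hsub
  have h2 := hS hW p r1 hsub
  rw [ae_restrict_iff' measurableSet_Ioo] at h1 h2 hsl
  filter_upwards [h1, h2, hsl] with r k1 k2 k3 hr hr1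
  have hrI : r ∈ Ioo 0 r1 := ⟨hr, hr1⟩
  replace k1 := k1 hrI
  replace k2 := k2 hrI
  replace k3 := k3 hrI
  have k4 := hCI _ _ k2
  set E : ℝ := ∫ φ in (-Real.pi)..Real.pi, ∑ i, ‖A (p + r * exp (φ * I)) i‖ ^ 2 with hE
  set l : ℝ := ∫ φ in (-Real.pi)..Real.pi,
    ∑ i, ‖A (p + r * exp (φ * I)) i (I * (r * exp (φ * I)))‖ with hl
  -- bound of l
  have hyi : ∀ i, IntegrableOn (fun φ : ℝ => ‖A (p + r * exp (φ * I)) i (I * (r * exp (φ * I)))‖)
      (Ioo (-Real.pi) Real.pi) := fun i => (k2.yint i).mono_set Ioo_subset_Ioc_self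
  have hhi : IntegrableOn (fun φ : ℝ =>
      ∑ i, ‖A (p + r * exp (φ * I)) i (I * (r * exp (φ * I)))‖) (Ioo (-Real.pi) Real.pi) :=
    integrable_finsetSum _ fun i _ => hyi i
  have hle : ∀ φ : ℝ, (∑ i, ‖A (p + r * exp (φ * I)) i (I * (r * exp (φ * I)))‖) ^ 2 ≤
      (k * r ^ 2) * ∑ i, ‖A (p + r * exp (φ * I)) i‖ ^ 2 := by
    intro φ
    have hn : ‖(I * (r * exp (φ * I)) : ℂ)‖ = r := by
      rw [norm_mul, norm_mul, norm_I, norm_exp_ofReal_mul_I]
      simp [abs_of_pos hr]
    have h5 : (∑ i, ‖A (p + r * exp (φ * I)) i (I * (r * exp (φ * I)))‖) ^ 2 ≤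
        (Finset.univ : Finset (Fin k)).card *
          ∑ i, ‖A (p + r * exp (φ * I)) i (I * (r * exp (φ * I)))‖ ^ 2 :=
      sq_sum_le_card_mul_sum_sq
    refine h5.trans ?_
    rw [Finset.card_univ, Fintype.card_fin, mul_assoc]
    refine mul_le_mul_of_nonneg_left ?_ (Nat.cast_nonneg _)
    rw [Finset.mul_sum]
    refine Finset.sum_le_sum fun i _ => ?_
    have h6 := (A (p + r * exp (φ * I)) i).le_opNorm (I * (r * exp (φ * I)))
    rw [hn] at h6
    calc ‖A (p + r * exp (φ * I)) i (I * (r * exp (φ * I)))‖ ^ 2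
        ≤ (‖A (p + r * exp (φ * I)) i‖ * r) ^ 2 := by gcongr
      _ = r ^ 2 * ‖A (p + r * exp (φ * I)) i‖ ^ 2 := by ring
  have hl2 : l ^ 2 ≤ 2 * Real.pi * (k * r ^ 2 * E) := cs_circle hhi k3 hle
  have habs : |r| = r := abs_of_pos hr
  rw [habs]
  have hE0 : 0 ≤ E := by
    rw [hE, intJ]
    exact integral_nonneg fun φ => Finset.sum_nonneg fun i _ => sq_nonneg _
  calc (ma (ball p r)).toReal ≤ k * K * Real.pi * r ^ 2 + 1 / 2 * (CI * l ^ 2) := by
        refine k1.trans ?_
        have := k4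
        gcongr
    _ ≤ k * K * Real.pi * r ^ 2 + 1 / 2 * (CI * (2 * Real.pi * (k * r ^ 2 * E))) := by gcongr
    _ = k * K * Real.pi * r ^ 2 +
        1 / 2 * CI * (2 * Real.pi * k) / c0 * (r * (c0 * (r * E))) := by
        field_simp
    _ ≤ (k * K * Real.pi + 1 / 2 * CI * (2 * Real.pi * k) / c0) *
        (r * (c0 * (r * E)) + r ^ 2) := by
        have h7 : 0 ≤ r * (c0 * (r * E)) := by positivity
        have h8 : 0 ≤ k * K * Real.pi * (r * (c0 * (r * E))) := by positivity
        have h9 : 0 ≤ 1 / 2 * CI * (2 * Real.pi * k) / c0 * r ^ 2 := by positivity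
        nlinarith

theorem dec_of (hI : ISOP) (hB : BALL μ β c R k s A ma K c0 Mb)
    (hS : SLICE μ β c R k s A ma K c0 Mb) : DEC μ β c R k s A ma K c0 Mb := by
  intro hW R' hR'
  obtain ⟨C, hC0, hC⟩ := slice_ineq hI hB hS hW
  have hc0 := hW.c0pos
  set r1 : ℝ := (R - R') / 2 with hr1
  have hr1p : 0 < r1 := by rw [hr1]; linarith
  have hsub : ∀ p ∈ closedBall c R', ball p r1 ⊆ ball c R := by
    intro p hp x hx
    rw [mem_ball] at hx ⊢
    rw [mem_closedBall] at hp
    calc dist x c ≤ dist x p + dist p c := dist_triangle _ _ _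
      _ < r1 + R' := by linarith
      _ ≤ R := by rw [hr1]; linarith
  set Mt : ℝ := (ma (ball c R)).toReal with hMt
  have hfin : ∀ V ⊆ ball c R, ma V ≠ ⊤ := fun V hV =>
    ne_top_of_le_ne_top hW.mfin (measure_mono hV)
  have hMt0 : 0 ≤ Mt := ENNReal.toReal_nonneg
  set e : ℂ → ℝ := fun z => ∑ i, ‖A z i‖ ^ 2 with he
  have he0 : ∀ z, 0 ≤ e z := fun z => Finset.sum_nonneg fun i _ => sq_nonneg _
  have hγ0 := gam_pos hC0
  have hγ1 := gam_le (C := C)
  have main : ∀ p ∈ closedBall c R', ∀ r, 0 < r → r ≤ r1 →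
      (ma (ball p r)).toReal ≤ 2 * (Mt + 2 * r1 ^ 2) * (r / r1) ^ gam C := by
    intro p hp r hr hrr
    have hs := hsub p hp
    have hbs : ∀ t, t ≤ r1 → ball p t ⊆ ball c R := fun t ht => (ball_subset_ball ht).trans hs
    set g : ℝ → ℝ := fun t => c0 * (|t| * ∫ φ in (-Real.pi)..Real.pi, e (p + t * exp (φ * I)))
      with hg
    have hE0 : ∀ t : ℝ, 0 ≤ ∫ φ in (-Real.pi)..Real.pi, e (p + t * exp (φ * I)) := by
      intro t
      rw [intJ]; exact integral_nonneg fun φ => he0 _
    have hannS : ∀ t, 0 < t → 2 * t ≤ r1 → ann p t (2 * t) ⊆ ball c R := by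
      intro t ht h2t z hz
      refine hbs (2 * t) h2t ?_
      rw [mem_ball, dist_eq_norm]; exact hz.2
    have hpol : ∀ t, 0 < t → 2 * t ≤ r1 → _ := fun t ht h2t =>
      polar_ann (W := e) (p := p) (r1 := t) (r2 := 2 * t) ht.le
        (hW.eint.mono_set (hannS t ht h2t))
    have hgeq : ∀ t, 0 < t → ∀ x ∈ Ioo t (2 * t), g x =
        c0 * (x * ∫ φ in (-Real.pi)..Real.pi, e (p + x * exp (φ * I))) := by
      intro t ht x hx
      have hx0 : 0 < x := ht.trans hx.1
      rw [hg]; simp only [abs_of_pos hx0]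
    have hgI : ∀ t, 0 < t → 2 * t ≤ r1 → IntegrableOn g (Ioo t (2 * t)) := by
      intro t ht h2t
      refine (integrableOn_congr_fun (hgeq t ht) measurableSet_Ioo).2 ?_
      exact (hpol t ht h2t).2.1.const_mul c0
    have hdec := decay (a := fun t => (ma (ball p t)).toReal) (g := g) hC0 hr1p
      (fun t _ _ => ENNReal.toReal_nonneg)
      (fun t u ht htu hu => ENNReal.toReal_mono (hfin _ (hbs u hu))
        (measure_mono (ball_subset_ball htu)))
      (fun t => by rw [hg]; have := hE0 t; positivity)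
      (fun t ht h2t => by
        rw [intervalIntegrable_iff_integrableOn_Ioo_of_le (by linarith)]
        exact hgI t ht h2t)
      (fun t ht h2t => by
        rw [intervalIntegral.integral_of_le (by linarith), integral_Ioc_eq_integral_Ioo,
          setIntegral_congr_fun measurableSet_Ioo (hgeq t ht), integral_const_mul,
          ← (hpol t ht h2t).2.2.2]
        have hsA := hannS t ht h2t
        have hAm : MeasurableSet (ann p t (2 * t)) := (isOpen_ann _ _ _).measurableSet
        have hint := hW.eint.mono_set hsA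
        have h1 : ∫ z in ann p t (2 * t), e z ≤ ∫ z in ann p t (2 * t), (1 + e z) := by
          have hv : volume (ann p t (2 * t)) ≠ ⊤ :=
            ne_top_of_le_ne_top (measure_ball_lt_top (x := c) (r := R)).ne (measure_mono hsA)
          have h1i : IntegrableOn (fun _ : ℂ => (1 : ℝ)) (ann p t (2 * t)) :=
            integrableOn_const hv (by simp)
          exact integral_mono hint (h1i.add hint) fun z => by simp
        have h2 := hW.e1 _ hsA hAm
        have h3 : (ma (ann p t (2 * t))).toReal ≤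
            (ma (ball p (2 * t))).toReal - (ma (ball p t)).toReal := by
          have hd : Disjoint (ball p t) (ann p t (2 * t)) := by
            rw [Set.disjoint_left]
            intro z hz hz2
            rw [mem_ball, dist_eq_norm] at hz
            exact absurd hz2.1 (not_lt.2 hz.le)
          have hu : ball p t ∪ ann p t (2 * t) ⊆ ball p (2 * t) := by
            refine union_subset (ball_subset_ball (by linarith)) fun z hz => ?_
            rw [mem_ball, dist_eq_norm]; exact hz.2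
          have h4 := measure_mono (μ := ma) hu
          rw [measure_union hd hAm] at h4
          have hf1 := hfin _ (hbs t (by linarith))
          have hf2 := hfin _ hsA
          have h5 := ENNReal.toReal_mono (hfin _ (hbs (2 * t) h2t)) h4
          rw [ENNReal.toReal_add hf1 hf2] at h5
          linarith
        have h6 : c0 * ∫ z in ann p t (2 * t), e z ≤ c0 * ∫ z in ann p t (2 * t), (1 + e z) := by
          gcongr
        linarith)
      (hC p r1 hs) r hr hrr
    refine hdec.trans ?_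
    have h8 : (ma (ball p r1)).toReal ≤ Mt :=
      ENNReal.toReal_mono hW.mfin (measure_mono hs)
    gcongr
  -- output
  set Cc : ℝ := 2 * (Mt + 2 * r1 ^ 2) * (2 / r1) ^ gam C with hCc
  have hCc0 : 0 ≤ Cc := by positivity
  refine ⟨Cc * (1 + 1 / c0), gam C / 2, r1 / 2, by positivity, by positivity, by linarith,
    by positivity, by rw [hr1]; linarith, ?_⟩
  intro p hp r hr hrr
  have hb2 : 2 * (gam C / 2) = gam C := by ring
  rw [hb2]
  have hm2 := main p hp (2 * r) (by linarith) (by linarith)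
  have he2 : (2 * r / r1) ^ gam C = (2 / r1) ^ gam C * r ^ gam C := by
    rw [← Real.mul_rpow (by positivity) hr.le]
    congr 1; ring
  rw [he2] at hm2
  have hm3 : (ma (ball p (2 * r))).toReal ≤ Cc * r ^ gam C := by
    rw [hCc]; linarith
  have hrg : 0 ≤ r ^ gam C := by positivity
  have hbs : ball p (2 * r) ⊆ ball c R :=
    (ball_subset_ball (by linarith)).trans (hsub p hp)
  have hcb : closedBall p r ⊆ ball p (2 * r) := closedBall_subset_ball (by linarith)
  have hbb : ball p r ⊆ ball p (2 * r) := ball_subset_ball (by linarith)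
  constructor
  · have h1 : (ma (closedBall p r)).toReal ≤ (ma (ball p (2 * r))).toReal :=
      ENNReal.toReal_mono (hfin _ hbs) (measure_mono hcb)
    have h2 : Cc * r ^ gam C ≤ Cc * (1 + 1 / c0) * r ^ gam C := by
      have : 0 ≤ Cc * (1 / c0) * r ^ gam C := by positivity
      nlinarith
    linarith
  · have h1 := hW.e1 (ball p r) (hbb.trans hbs) measurableSet_ball
    have h2 : (ma (ball p r)).toReal ≤ (ma (ball p (2 * r))).toReal :=
      ENNReal.toReal_mono (hfin _ hbs) (measure_mono hbb)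
    have hint := hW.eint.mono_set (hbb.trans hbs)
    have h3 : ∫ z in ball p r, e z ≤ ∫ z in ball p r, (1 + e z) := by
      have h1i : IntegrableOn (fun _ : ℂ => (1 : ℝ)) (ball p r) :=
        integrableOn_const (measure_ball_lt_top).ne (by simp)
      exact integral_mono hint (h1i.add hint) fun z => by simp
    have h4 : c0 * ∫ z in ball p r, e z ≤ Cc * r ^ gam C := by
      have : c0 * ∫ z in ball p r, e z ≤ c0 * ∫ z in ball p r, (1 + e z) := by gcongr
      linarith
    have h5 : ∫ z in ball p r, e z ≤ 1 / c0 * (Cc * r ^ gam C) := by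
      rw [one_div, inv_mul_eq_div, le_div_iff₀ hc0]; linarith
    have h6 : 1 / c0 * (Cc * r ^ gam C) ≤ Cc * (1 + 1 / c0) * r ^ gam C := by
      have : 0 ≤ Cc * r ^ gam C := by positivity
      nlinarith
    exact h5.trans h6

end

end

end Crest.Agent.R235.WKDec_460
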