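import Crest.Agent.R235.WKG_460
import Crest.Agent.R235.CylHall_734

/-!
Row 235 (S0364), REG-CYL-2, leaf C3 (`HALL`), helper235: matching of two `k`-point configurations
from smooth test functions with `‖dΨ‖ ≤ 1` (constant `1`, by mollification and `CylHall_734`).
-/

set_option autoImplicit false

open MeasureTheory Metric Set Filter
open scoped ContDiff Topology Convolution

namespace Crest.Agent.R235.WKHall_235

open Crest.Agent.R235.WKG_460

noncomputable section

/-- a 1-Lipschitz function on `ℂ` is a uniform limit of smooth functions with `‖dΨ‖ ≤ 1`. -/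
theorem exists_smooth (φ : ℂ → ℝ) (hφ : LipschitzWith 1 φ) (δ : ℝ) (hδ : 0 < δ) :
    ∃ Ψ : ℂ → ℝ, ContDiff ℝ ∞ Ψ ∧ (∀ w, ‖fderiv ℝ Ψ w‖ ≤ 1) ∧ ∀ w, |Ψ w - φ w| ≤ δ := by
  set B : ContDiffBump (0 : ℂ) := ⟨δ / 2, δ, by linarith, by linarith⟩ with hB
  have hB1 : B.rOut = δ := rfl
  set Ψ : ℂ → ℝ := (B.normed volume) ⋆[ContinuousLinearMap.lsmul ℝ ℝ, volume] φ with hΨ
  have hcf : HasCompactSupport (B.normed volume) := B.hasCompactSupport_normed
  have hcont : Continuous (B.normed (volume : Measure ℂ)) := B.continuous_normed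
  have hφc : Continuous φ := hφ.continuous
  have hint : ∀ x : ℂ, Integrable (fun t => B.normed volume t * φ (x - t)) volume := by
    intro x
    refine Continuous.integrable_of_hasCompactSupport ?_ ?_
    · exact hcont.mul (hφc.comp (by fun_prop))
    · exact hcf.mul_right
  have hval : ∀ x, Ψ x = ∫ t, B.normed volume t * φ (x - t) := by
    intro x
    rw [hΨ, convolution_def]
    rfl
  have hlip : LipschitzWith 1 Ψ := by
    refine LipschitzWith.of_dist_le_mul fun x y => ?_
    rw [hval, hval, Real.dist_eq, ← integral_sub (hint x) (hint y)]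
    calc |∫ t, (B.normed volume t * φ (x - t) - B.normed volume t * φ (y - t))|
        ≤ ∫ t, |B.normed volume t * φ (x - t) - B.normed volume t * φ (y - t)| :=
          abs_integral_le_integral_abs
      _ ≤ ∫ t, B.normed volume t * dist x y := by
          refine integral_mono ?_ ?_ ?_
          · exact ((hint x).sub (hint y)).abs
          · exact (B.integrable_normed).mul_const _
          · intro t
            have h1 : |φ (x - t) - φ (y - t)| ≤ dist x y := by
              have := hφ.dist_le_mul (x - t) (y - t)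
              rw [Real.dist_eq] at this
              simpa using this
            have h2 : 0 ≤ B.normed volume t := B.nonneg_normed t
            show |B.normed volume t * φ (x - t) - B.normed volume t * φ (y - t)| ≤ _
            rw [← mul_sub, abs_mul, abs_of_nonneg h2]
            exact mul_le_mul_of_nonneg_left h1 h2
      _ = (∫ t, B.normed volume t) * dist x y := integral_mul_const _ _
      _ = ((1 : NNReal) : ℝ) * dist x y := by rw [B.integral_normed]; simp
  refine ⟨Ψ, ?_, ?_, ?_⟩
  · exact hcf.contDiff_convolution_left _ B.contDiff_normed hφc.locallyIntegrable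
  · intro w
    have := norm_fderiv_le_of_lipschitz ℝ (x₀ := w) hlip
    simpa using this
  · intro w
    have := B.dist_normed_convolution_le (μ := (volume : Measure ℂ)) (g := φ) (x₀ := w) (ε := δ)
      hφc.aestronglyMeasurable (fun x hx => by
        have h1 := hφ.dist_le_mul x w
        have h2 : dist x w < δ := by rw [← hB1]; exact mem_ball.1 hx
        simp only [NNReal.coe_one, one_mul] at h1
        exact h1.trans h2.le)
    rw [Real.dist_eq] at this
    exact this

theorem hall : HALL := by
  intro k
  refine ⟨1, one_pos, ?_⟩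
  intro a b ε hε h
  have key : ∀ φ : ℂ → ℝ, LipschitzWith 1 φ → |∑ i, φ (a i) - ∑ i, φ (b i)| ≤ ε := by
    intro φ hφ
    refine le_of_forall_pos_le_add fun η hη => ?_
    obtain ⟨Ψ, h1, h2, h3⟩ := exists_smooth φ hφ (η / (2 * (k + 1))) (by positivity)
    have h4 := h Ψ h1 h2
    have h5 : ∀ c : Fin k → ℂ, |∑ i, φ (c i) - ∑ i, Ψ (c i)| ≤ k * (η / (2 * (k + 1))) := by
      intro c
      rw [← Finset.sum_sub_distrib]
      refine (Finset.abs_sum_le_sum_abs _ _).trans ?_
      calc ∑ i, |φ (c i) - Ψ (c i)| ≤ ∑ _i : Fin k, η / (2 * (k + 1)) :=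
            Finset.sum_le_sum fun i _ => by rw [abs_sub_comm]; exact h3 _
        _ = k * (η / (2 * (k + 1))) := by simp
    have h6 : (k : ℝ) * (η / (2 * (k + 1))) ≤ η / 2 := by
      have hk : (0 : ℝ) < k + 1 := by positivity
      rw [mul_div_assoc', div_le_div_iff₀ (by positivity) (by norm_num)]
      nlinarith
    have h7 := h5 a
    have h8 := h5 b
    rw [abs_le] at h4 h7 h8 ⊢
    constructor <;> linarith [h4.1, h4.2, h7.1, h7.2, h8.1, h8.2]
  obtain ⟨σ, hσ⟩ := CylHall_734.hall_fin hε.le key
  refine ⟨σ, fun i => ?_⟩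
  have := hσ i
  rw [dist_eq_norm] at this
  linarith

end

end Crest.Agent.R235.WKHall_235

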