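import Crest.Agent.R235.WKG_460
import Crest.Agent.R235.CylExt_463

/-! # REG-CYL-2: HREP, the Hoelder representative -/

set_option autoImplicit false

open MeasureTheory Metric Set Filter Complex
open scoped Topology ContDiff ComplexConjugate

namespace Crest.Agent.R235.WKHrep_460

open Crest.Agent.R235.Loc Crest.Agent.R235.WKG_460 Crest.Agent.R235.CylExt_463

noncomputable section

section
variable {μ β : ℂ × ℂ → ℂ} {c : ℂ} {R : ℝ} {k : ℕ} {s : ℂ → Fin k → ℂ}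
    {A : ℂ → Fin k → (ℂ →L[ℝ] ℂ)} {ma : Measure ℂ} {K c0 Mb : ℝ}

/-- the fibre sum -/
def FF (s : ℂ → Fin k → ℂ) (Ψ : ℂ → ℝ) (t : ℂ) : ℝ := ∑ i, Ψ (s t i)

/-- its gradient -/
def GG (s : ℂ → Fin k → ℂ) (A : ℂ → Fin k → (ℂ →L[ℝ] ℂ)) (Ψ : ℂ → ℝ) (t : ℂ) : ℂ →L[ℝ] ℝ :=
  ∑ i, (fderiv ℝ Ψ (s t i)).comp (A t i)

theorem FF_meas (hW : WKG μ β c R k s A ma K c0 Mb) {Ψ : ℂ → ℝ} (hΨ : Continuous Ψ) :
    Measurable (FF s Ψ) :=
  Finset.measurable_fun_sum _ fun i _ => hΨ.measurable.comp (hW.smeas i)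

theorem GG_meas (hW : WKG μ β c R k s A ma K c0 Mb) {Ψ : ℂ → ℝ} (hΨ : ContDiff ℝ ∞ Ψ) :
    Measurable (GG s A Ψ) := by
  refine Finset.measurable_fun_sum _ fun i _ => ?_
  have h1 : Continuous (fun q : (ℂ →L[ℝ] ℝ) × (ℂ →L[ℝ] ℂ) => q.1.comp q.2) :=
    continuous_fst.clm_comp continuous_snd
  have h2 : Continuous (fderiv ℝ Ψ) := hΨ.continuous_fderiv (by simp)
  exact h1.measurable.comp ((h2.measurable.comp (hW.smeas i)).prodMk (hW.Ameas i))

theorem FF_bdd (hW : WKG μ β c R k s A ma K c0 Mb) {Ψ : ℂ → ℝ} (hΨ : Continuous Ψ) :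
    ∃ M, ∀ t, |FF s Ψ t| ≤ M := by
  obtain ⟨C, hC⟩ := (isCompact_closedBall (0 : ℂ) Mb).exists_bound_of_continuousOn
    (f := Ψ) hΨ.continuousOn
  refine ⟨k * C, fun t => ?_⟩
  unfold FF
  refine (Finset.abs_sum_le_sum_abs _ _).trans ?_
  calc ∑ i, |Ψ (s t i)| ≤ ∑ _i : Fin k, C := Finset.sum_le_sum fun i _ =>
        hC _ (by simpa using hW.bdd t i)
    _ = k * C := by simp

theorem GG_le (hW : WKG μ β c R k s A ma K c0 Mb) {Ψ : ℂ → ℝ} {L : ℝ} (_hL0 : 0 ≤ L)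
    (hL : ∀ w ∈ closedBall (0 : ℂ) Mb, ‖fderiv ℝ Ψ w‖ ≤ L) (t : ℂ) :
    ‖GG s A Ψ t‖ ^ 2 ≤ L ^ 2 * (k * ∑ i, ‖A t i‖ ^ 2) := by
  have h1 : ‖GG s A Ψ t‖ ≤ ∑ i, L * ‖A t i‖ := by
    unfold GG
    refine (norm_sum_le _ _).trans (Finset.sum_le_sum fun i _ => ?_)
    refine (ContinuousLinearMap.opNorm_comp_le _ _).trans ?_
    have := hL (s t i) (by simpa using hW.bdd t i)
    gcongr
  have h2 : (∑ i, ‖A t i‖) ^ 2 ≤ (Finset.univ : Finset (Fin k)).card * ∑ i, ‖A t i‖ ^ 2 :=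
    sq_sum_le_card_mul_sum_sq
  rw [Finset.card_univ, Fintype.card_fin] at h2
  rw [← Finset.mul_sum] at h1
  calc ‖GG s A Ψ t‖ ^ 2 ≤ (L * ∑ i, ‖A t i‖) ^ 2 := by gcongr
    _ = L ^ 2 * (∑ i, ‖A t i‖) ^ 2 := by ring
    _ ≤ L ^ 2 * (k * ∑ i, ‖A t i‖ ^ 2) := by gcongr

theorem GG_sq_int (hW : WKG μ β c R k s A ma K c0 Mb) {Ψ : ℂ → ℝ} (hΨ : ContDiff ℝ ∞ Ψ) :
    IntegrableOn (fun t => ‖GG s A Ψ t‖ ^ 2) (ball c R) := by
  have h2 : Continuous (fderiv ℝ Ψ) := hΨ.continuous_fderiv (by simp)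
  obtain ⟨C, hC⟩ := (isCompact_closedBall (0 : ℂ) Mb).exists_bound_of_continuousOn
    (f := fderiv ℝ Ψ) h2.continuousOn
  have h3 := (hW.eint.const_mul (k : ℝ)).const_mul ((max C 0) ^ 2)
  refine Integrable.mono' h3 ((GG_meas hW hΨ).norm.pow_const 2).aestronglyMeasurable ?_
  refine Eventually.of_forall fun t => ?_
  rw [Real.norm_eq_abs, abs_of_nonneg (sq_nonneg _)]
  exact GG_le hW (le_max_right _ _) (fun w hw => (hC w hw).trans (le_max_left _ _)) t

theorem GG_int (hW : WKG μ β c R k s A ma K c0 Mb) {Ψ : ℂ → ℝ} (hΨ : ContDiff ℝ ∞ Ψ) :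
    IntegrableOn (fun t => ‖GG s A Ψ t‖) (ball c R) := by
  have h1 : IntegrableOn (fun _ : ℂ => (1 : ℝ)) (ball c R) :=
    integrableOn_const (measure_ball_lt_top).ne (by simp)
  refine Integrable.mono' (h1.add (GG_sq_int hW hΨ))
    (GG_meas hW hΨ).norm.aestronglyMeasurable ?_
  refine Eventually.of_forall fun t => ?_
  rw [Real.norm_eq_abs, abs_of_nonneg (norm_nonneg _)]
  show ‖GG s A Ψ t‖ ≤ 1 + ‖GG s A Ψ t‖ ^ 2
  nlinarith [sq_nonneg (‖GG s A Ψ t‖ - 1)]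

theorem weak1_of (hW : WKG μ β c R k s A ma K c0 Mb) {Ψ : ℂ → ℝ} (hΨ : ContDiff ℝ ∞ Ψ) :
    Weak1 (ball c R) (FF s Ψ) (GG s A Ψ) := by
  intro f hf hfc hfs u hu
  have hT : Test (ball c R) (fun q : ℂ × ℂ => f q.1 * Ψ q.2) := by
    refine ⟨(hf.comp contDiff_fst).mul (hΨ.comp contDiff_snd), tsupport f, hfs, hfc, ?_⟩
    intro t ht w
    simp [image_eq_zero_of_notMem_tsupport ht]
  have h1 := hW.weak _ hT u hu
  have hfd : Differentiable ℝ f := hf.differentiable (by simp)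
  have hΨd : Differentiable ℝ Ψ := hΨ.differentiable (by simp)
  have h2 : ∀ t, ∑ i, fderiv ℝ (fun q : ℂ × ℂ => f q.1 * Ψ q.2) (t, s t i) (u, A t i u) =
      fderiv ℝ f t u * FF s Ψ t + f t * GG s A Ψ t u := by
    intro t
    have h3 : ∀ i, fderiv ℝ (fun q : ℂ × ℂ => f q.1 * Ψ q.2) (t, s t i) (u, A t i u) =
        fderiv ℝ f t u * Ψ (s t i) + f t * fderiv ℝ Ψ (s t i) (A t i u) := by
      intro i
      have e1 : HasFDerivAt (fun q : ℂ × ℂ => f q.1)
          ((fderiv ℝ f t).comp (ContinuousLinearMap.fst ℝ ℂ ℂ)) (t, s t i) :=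
        (hfd t).hasFDerivAt.comp (t, s t i) hasFDerivAt_fst
      have e2 : HasFDerivAt (fun q : ℂ × ℂ => Ψ q.2)
          ((fderiv ℝ Ψ (s t i)).comp (ContinuousLinearMap.snd ℝ ℂ ℂ)) (t, s t i) :=
        (hΨd (s t i)).hasFDerivAt.comp (t, s t i) hasFDerivAt_snd
      have e3 := (e1.mul e2).fderiv
      have e4 : fderiv ℝ (fun q : ℂ × ℂ => f q.1 * Ψ q.2) (t, s t i) = _ := e3
      rw [e4]
      simp only [_root_.add_apply, _root_.smul_apply, ContinuousLinearMap.comp_apply,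
        ContinuousLinearMap.coe_fst', ContinuousLinearMap.coe_snd', smul_eq_mul]
      ring
    rw [Finset.sum_congr rfl fun i _ => h3 i, Finset.sum_add_distrib, ← Finset.mul_sum,
      ← Finset.mul_sum]
    congr 1
    simp only [GG, _root_.sum_apply, ContinuousLinearMap.comp_apply]
  simp only [h2] at h1
  have hfu : Continuous (fun t => fderiv ℝ f t u) :=
    (hf.continuous_fderiv (by simp)).clm_apply continuous_const
  obtain ⟨Cf, hCf⟩ := hf.continuous.bounded_above_of_compact_support hfc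
  obtain ⟨Cu, hCu⟩ : ∃ C, ∀ t, ‖fderiv ℝ f t‖ ≤ C :=
    (hf.continuous_fderiv (by simp)).bounded_above_of_compact_support (hfc.fderiv (𝕜 := ℝ))
  obtain ⟨M, hM⟩ := FF_bdd hW hΨ.continuous
  have i1 : IntegrableOn (fun t => fderiv ℝ f t u * FF s Ψ t) (ball c R) := by
    have h3 : IntegrableOn (fun _ : ℂ => Cu * ‖u‖ * M) (ball c R) :=
      integrableOn_const (measure_ball_lt_top).ne enorm_ne_top
    refine Integrable.mono' h3
      ((hfu.measurable.mul (FF_meas hW hΨ.continuous)).aestronglyMeasurable)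
      (Eventually.of_forall fun t => ?_)
    rw [norm_mul]
    have e1 : ‖fderiv ℝ f t u‖ ≤ Cu * ‖u‖ :=
      ((fderiv ℝ f t).le_opNorm u).trans (by have := hCu t; gcongr)
    have e2 : ‖FF s Ψ t‖ ≤ M := hM t
    have : 0 ≤ Cu * ‖u‖ := (norm_nonneg _).trans e1
    exact mul_le_mul e1 e2 (norm_nonneg _) this
  have hGu : Measurable (fun t => GG s A Ψ t u) :=
    (ContinuousLinearMap.apply ℝ ℝ u).continuous.measurable.comp (GG_meas hW hΨ)
  have i2 : IntegrableOn (fun t => f t * GG s A Ψ t u) (ball c R) := by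
    refine Integrable.mono' ((GG_int hW hΨ).const_mul (Cf * ‖u‖))
      ((hf.continuous.measurable.mul hGu).aestronglyMeasurable)
      (Eventually.of_forall fun t => ?_)
    rw [norm_mul]
    have e1 : ‖GG s A Ψ t u‖ ≤ ‖GG s A Ψ t‖ * ‖u‖ := (GG s A Ψ t).le_opNorm u
    have e2 := hCf t
    have e3 : 0 ≤ Cf := (norm_nonneg _).trans e2
    calc ‖f t‖ * ‖GG s A Ψ t u‖ ≤ Cf * (‖GG s A Ψ t‖ * ‖u‖) := by gcongr
      _ = Cf * ‖u‖ * ‖GG s A Ψ t‖ := by ring
  rw [integral_add i1 i2] at h1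
  linarith

/-- the Kantorovich bound at almost every pair, for all test functions. -/
theorem kanto (hSep : SEP) (hM : MORREY) (hW : WKG μ β c R k s A ma K c0 Mb) {R' r0 b C : ℝ}
    (hR' : 0 < R') (hr0 : 0 < r0) (hRr : R' + r0 ≤ R) (hb : 0 < b) (hb1 : b < 1) (hC : 0 ≤ C)
    (hdec : ∀ p ∈ ball c R', ∀ r : ℝ, 0 < r → r ≤ r0 →
      ∫ z in ball p r, ∑ i, ‖A z i‖ ^ 2 ≤ C * r ^ (2 * b)) :
    ∃ C' : ℝ, 0 < C' ∧ ∀ᵐ x : ℂ ∂(volume.restrict (ball c R')),
      ∀ᵐ y : ℂ ∂(volume.restrict (ball c R')), dist x y < r0 / 4 →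
      ∀ Ψ : ℂ → ℝ, ContDiff ℝ ∞ Ψ → (∀ w, ‖fderiv ℝ Ψ w‖ ≤ 1) →
        |∑ i, Ψ (s x i) - ∑ i, Ψ (s y i)| ≤ C' * dist x y ^ b := by
  obtain ⟨CM, hCM0, hCM⟩ := hM b hb hb1
  obtain ⟨Ψ, hΨs, hΨd⟩ := hSep Mb
  set D0 : ℝ := CM * Real.sqrt (k * C) with hD0
  have hD00 : 0 ≤ D0 := by positivity
  refine ⟨D0 + 1, by linarith, ?_⟩
  -- countable statement
  have hcount : ∀ (n : ℕ) (q : ℚ), (∀ w ∈ closedBall (0 : ℂ) Mb, ‖fderiv ℝ (Ψ n) w‖ ≤ (q : ℝ)) →
      0 ≤ (q : ℝ) → ∀ᵐ x : ℂ ∂(volume.restrict (ball c R')),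
        ∀ᵐ y : ℂ ∂(volume.restrict (ball c R')), dist x y < r0 / 4 →
          |FF s (Ψ n) x - FF s (Ψ n) y| ≤ CM * (q * Real.sqrt (k * C)) * dist x y ^ b := by
    intro n q hq hq0
    obtain ⟨Mf, hMf⟩ := FF_bdd hW (hΨs n).continuous
    refine hCM c R R' r0 (q * Real.sqrt (k * C)) Mf _ (GG s A (Ψ n)) hR' hr0 hRr (by positivity)
      (FF_meas hW (hΨs n).continuous) (GG_meas hW (hΨs n)) hMf (GG_sq_int hW (hΨs n))
      (weak1_of hW (hΨs n)) ?_
    intro p hp r hr hrr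
    have hsub : ball p r ⊆ ball c R := by
      intro x hx
      rw [mem_ball] at hx hp ⊢
      calc dist x c ≤ dist x p + dist p c := dist_triangle _ _ _
        _ < R := by linarith
    have e1 : ∫ z in ball p r, ‖GG s A (Ψ n) z‖ ^ 2 ≤
        ∫ z in ball p r, (q : ℝ) ^ 2 * (k * ∑ i, ‖A z i‖ ^ 2) := by
      refine integral_mono ((GG_sq_int hW (hΨs n)).mono_set hsub)
        (((hW.eint.mono_set hsub).const_mul (k : ℝ)).const_mul _) fun z => ?_
      exact GG_le hW hq0 hq z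
    rw [integral_const_mul, integral_const_mul] at e1
    have e2 := hdec p hp r hr hrr
    have e3 : 0 ≤ k * C := by positivity
    calc ∫ z in ball p r, ‖GG s A (Ψ n) z‖ ^ 2
        ≤ (q : ℝ) ^ 2 * (k * ∫ z in ball p r, ∑ i, ‖A z i‖ ^ 2) := e1
      _ ≤ (q : ℝ) ^ 2 * (k * (C * r ^ (2 * b))) := by gcongr
      _ = (q * Real.sqrt (k * C)) ^ 2 * r ^ (2 * b) := by
          rw [mul_pow, Real.sq_sqrt e3]; ring
  have hall : ∀ᵐ x : ℂ ∂(volume.restrict (ball c R')),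
      ∀ᵐ y : ℂ ∂(volume.restrict (ball c R')), ∀ (n : ℕ) (q : ℚ),
        (∀ w ∈ closedBall (0 : ℂ) Mb, ‖fderiv ℝ (Ψ n) w‖ ≤ (q : ℝ)) → 0 ≤ (q : ℝ) →
        dist x y < r0 / 4 →
          |FF s (Ψ n) x - FF s (Ψ n) y| ≤ CM * (q * Real.sqrt (k * C)) * dist x y ^ b := by
    have h1 : ∀ᵐ x : ℂ ∂(volume.restrict (ball c R')), ∀ (n : ℕ) (q : ℚ),
        (∀ w ∈ closedBall (0 : ℂ) Mb, ‖fderiv ℝ (Ψ n) w‖ ≤ (q : ℝ)) → 0 ≤ (q : ℝ) →
        ∀ᵐ y : ℂ ∂(volume.restrict (ball c R')), dist x y < r0 / 4 →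
          |FF s (Ψ n) x - FF s (Ψ n) y| ≤ CM * (q * Real.sqrt (k * C)) * dist x y ^ b := by
      rw [ae_all_iff]; intro n
      rw [ae_all_iff]; intro q
      by_cases h : (∀ w ∈ closedBall (0 : ℂ) Mb, ‖fderiv ℝ (Ψ n) w‖ ≤ (q : ℝ)) ∧ 0 ≤ (q : ℝ)
      · filter_upwards [hcount n q h.1 h.2] with x hx _ _
        exact hx
      · exact Eventually.of_forall fun x h1 h2 => absurd ⟨h1, h2⟩ h
    filter_upwards [h1] with x hx
    rw [ae_all_iff]; intro n
    rw [ae_all_iff]; intro q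
    by_cases h : (∀ w ∈ closedBall (0 : ℂ) Mb, ‖fderiv ℝ (Ψ n) w‖ ≤ (q : ℝ)) ∧ 0 ≤ (q : ℝ)
    · filter_upwards [hx n q h.1 h.2] with y hy _ _
      exact hy
    · exact Eventually.of_forall fun x h1 h2 => absurd ⟨h1, h2⟩ h
  filter_upwards [hall] with x hx
  filter_upwards [hx] with y hy hxy Φ hΦ hΦ1
  have hd0 : 0 ≤ dist x y ^ b := by positivity
  -- approximation
  have happ : ∀ ε : ℝ, 0 < ε → |∑ i, Φ (s x i) - ∑ i, Φ (s y i)| ≤
      D0 * dist x y ^ b + ε * (2 * k + 2 * D0 * dist x y ^ b) := by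
    intro ε hε
    obtain ⟨n, hn⟩ := hΨd Φ hΦ ε hε
    obtain ⟨q, hq1, hq2⟩ := exists_rat_btwn (show 1 + ε < 1 + 2 * ε by linarith)
    have h1 : ∀ w ∈ closedBall (0 : ℂ) Mb, ‖fderiv ℝ (Ψ n) w‖ ≤ (q : ℝ) := by
      intro w hw
      have h2 := (hn w hw).2
      have h3 : ‖fderiv ℝ (Ψ n) w‖ ≤ ‖fderiv ℝ Φ w‖ + ‖fderiv ℝ Φ w - fderiv ℝ (Ψ n) w‖ := by
        have := norm_sub_norm_le (fderiv ℝ (Ψ n) w) (fderiv ℝ Φ w)
        rw [norm_sub_rev] at this
        linarith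
      have := hΦ1 w
      linarith
    have h4 := hy n q h1 (by linarith) hxy
    have h5 : ∀ t, |∑ i, Φ (s t i) - FF s (Ψ n) t| ≤ k * ε := by
      intro t
      unfold FF
      rw [← Finset.sum_sub_distrib]
      refine (Finset.abs_sum_le_sum_abs _ _).trans ?_
      calc ∑ i, |Φ (s t i) - Ψ n (s t i)| ≤ ∑ _i : Fin k, ε := Finset.sum_le_sum fun i _ =>
            (hn _ (by simpa using hW.bdd t i)).1
        _ = k * ε := by simp
    have h6 : |∑ i, Φ (s x i) - ∑ i, Φ (s y i)| ≤ |∑ i, Φ (s x i) - FF s (Ψ n) x| +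
        |FF s (Ψ n) x - FF s (Ψ n) y| + |∑ i, Φ (s y i) - FF s (Ψ n) y| := by
      have e1 : ∑ i, Φ (s x i) - ∑ i, Φ (s y i) = (∑ i, Φ (s x i) - FF s (Ψ n) x) +
        (FF s (Ψ n) x - FF s (Ψ n) y) - (∑ i, Φ (s y i) - FF s (Ψ n) y) := by ring
      rw [e1]
      exact (abs_sub _ _).trans (add_le_add (abs_add_le _ _) le_rfl)
    have h7 : CM * (q * Real.sqrt (k * C)) * dist x y ^ b ≤ (1 + 2 * ε) * D0 * dist x y ^ b := by
      rw [hD0]
      have : CM * (q * Real.sqrt (k * C)) = q * (CM * Real.sqrt (k * C)) := by ring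
      rw [this]
      have e2 : (0 : ℝ) ≤ CM * Real.sqrt (k * C) := hD00
      gcongr
    have := h5 x
    have := h5 y
    nlinarith
  have hlim : |∑ i, Φ (s x i) - ∑ i, Φ (s y i)| ≤ D0 * dist x y ^ b := by
    refine le_of_forall_pos_le_add fun δ hδ => ?_
    set B : ℝ := 2 * k + 2 * D0 * dist x y ^ b with hB
    have hB0 : 0 ≤ B := by positivity
    have h1 := happ (δ / (B + 1)) (by positivity)
    have h2 : δ / (B + 1) * B ≤ δ := by
      rw [div_mul_eq_mul_div, div_le_iff₀ (by linarith)]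
      nlinarith
    linarith
  refine hlim.trans ?_
  have : D0 ≤ D0 + 1 := by linarith
  gcongr

/-- HREP from SEP, HALL, MORREY and the decay. -/
theorem hrep_of (hSep : SEP) (hH : HALL) (hM : MORREY) (hdec : DEC μ β c R k s A ma K c0 Mb) :
    HREP μ β c R k s A ma K c0 Mb := by
  intro hW R' hR'
  by_cases hR'0 : R' ≤ 0
  · refine ⟨0, 1 / 2, 1, s, le_rfl, by norm_num, by norm_num, by norm_num, ?_, ?_⟩
    · rw [ball_eq_empty.2 hR'0]; simp
    · rw [ball_eq_empty.2 hR'0]; simp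
  push Not at hR'0
  set R2 : ℝ := (R + R') / 2 with hR2
  have hR2R : R2 < R := by rw [hR2]; linarith
  have hR'2 : R' < R2 := by rw [hR2]; linarith
  obtain ⟨C, b, r0, hC, hb, hb1, hr0, hRr, hd⟩ := hdec hW R2 hR2R
  obtain ⟨C', hC', hk⟩ := kanto hSep hM hW (R' := R2) (by linarith) hr0 hRr.le hb hb1 hC
    (fun p hp r hr hrr => (hd p (ball_subset_closedBall hp) r hr hrr).2)
  obtain ⟨Ck, hCk, hHk⟩ := hH k
  set W : ℂ → Multiset ℂ := fun x => Multiset.map (s x) Finset.univ.val with hWd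
  have hWcard : ∀ x, (W x).card = k := fun x => by simp [hWd]
  set H : ℝ := Ck * C' with hHdef
  have hH0 : 0 ≤ H := by positivity
  -- good pairs
  have hgood : ∀ᵐ x : ℂ ∂(volume.restrict (ball c R2)), ∀ᵐ y : ℂ ∂(volume.restrict (ball c R2)),
      dist x y < r0 / 4 → Close (H * dist x y ^ b) (W x) (W y) := by
    filter_upwards [hk] with x hx
    filter_upwards [hx] with y hy hxy
    by_cases hxy0 : dist x y = 0
    · have : x = y := dist_eq_zero.1 hxy0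
      rw [this]
      exact close_refl (by positivity) _
    · have hpos : 0 < dist x y := lt_of_le_of_ne dist_nonneg (Ne.symm hxy0)
      have hε : 0 < C' * dist x y ^ b := by positivity
      obtain ⟨τ, hτ⟩ := hHk (s x) (s y) _ hε (hy hxy)
      rw [hWd]
      refine close_iff_perm.2 ⟨τ, fun i => ?_⟩
      rw [dist_eq_norm]
      exact (hτ i).trans (by rw [hHdef]; linarith)
  set G : Set ℂ := {x | x ∈ ball c R2 ∧ ∀ᵐ y : ℂ ∂(volume.restrict (ball c R2)),
      dist x y < r0 / 4 → Close (H * dist x y ^ b) (W x) (W y)} with hG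
  have hGnull : volume (ball c R2 \ G) = 0 := by
    rw [ae_restrict_iff' measurableSet_ball] at hgood
    rw [measure_eq_zero_iff_ae_notMem]
    filter_upwards [hgood] with x hx hxm
    exact hxm.2 ⟨hxm.1, hx hxm.1⟩
  have hGG : ∀ x ∈ G, ∀ y ∈ G, dist x y < r0 / 8 → Close (H * dist x y ^ b) (W x) (W y) := by
    intro x hx y hy hxy
    refine close_of_forall_gt fun δ hδ => ?_
    -- choose z near y
    have hcont : Tendsto (fun z : ℂ => H * dist x z ^ b + H * dist y z ^ b) (𝓝 y)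
        (𝓝 (H * dist x y ^ b)) := by
      have h1 : Continuous (fun z : ℂ => H * dist x z ^ b + H * dist y z ^ b) := by
        have hr : Continuous (fun t : ℝ => t ^ b) := Real.continuous_rpow_const hb.le
        exact (continuous_const.mul (hr.comp (continuous_const.dist continuous_id))).add
          (continuous_const.mul (hr.comp (continuous_const.dist continuous_id)))
      have h2 := h1.tendsto y
      simpa [Real.zero_rpow hb.ne'] using h2
    have hev : ∀ᶠ z in 𝓝 y, H * dist x z ^ b + H * dist y z ^ b < δ ∧ z ∈ ball c R2 ∧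
        z ∈ ball y (r0 / 8) :=
      (hcont.eventually_lt_const hδ).and (Filter.Eventually.and (isOpen_ball.mem_nhds hy.1)
        (ball_mem_nhds y (by linarith)))
    obtain ⟨η, hη, hball⟩ := Metric.eventually_nhds_iff_ball.1 hev
    have hx2 := hx.2
    have hy2 := hy.2
    have hboth := hx2.and hy2
    rw [ae_restrict_iff' measurableSet_ball] at hboth
    have hpos : 0 < volume (ball y η) := measure_ball_pos _ _ hη
    obtain ⟨z, hz1, hz2⟩ : ∃ z ∈ ball y η, z ∈ ball c R2 →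
        (dist x z < r0 / 4 → Close (H * dist x z ^ b) (W x) (W z)) ∧
        (dist y z < r0 / 4 → Close (H * dist y z ^ b) (W y) (W z)) := by
      by_contra hcon
      push Not at hcon
      have : volume (ball y η) = 0 := by
        rw [measure_eq_zero_iff_ae_notMem]
        filter_upwards [hboth] with z hz hzm
        obtain ⟨h1, h2⟩ := hcon z hzm
        obtain ⟨h3, h4⟩ := hz h1
        exact absurd (h2 h3) (by
          intro h5
          exact h5.2 (h4 h5.1))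
      exact hpos.ne' this
    have hz3 := hball z hz1
    have hzy : dist y z < r0 / 8 := by rw [dist_comm]; exact hz3.2.2
    have hxz : dist x z < r0 / 4 := by
      calc dist x z ≤ dist x y + dist y z := dist_triangle _ _ _
        _ < r0 / 4 := by linarith
    obtain ⟨k1, k2⟩ := hz2 hz3.2.1
    have k3 := close_trans (k1 hxz) (close_symm (k2 (by linarith)))
    exact close_mono k3 hz3.1.le
  obtain ⟨S, hS1, hS2, -, -, hS5⟩ := c14 (c := c) (R := R2) (k := k) (G := G) W hGnull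
    (fun x _ => hWcard x) (fun p hp => ⟨H, b, r0 / 16, hH0, hb, by linarith, fun x hx hxp y hy hyp =>
      hGG x hx y hy (by
        calc dist x y ≤ dist x p + dist p y := dist_triangle _ _ _
          _ < r0 / 8 := by rw [dist_comm p y]; linarith)⟩)
  -- labels
  have hlab : ∀ x ∈ ball c R2, ∃ f : Fin k → ℂ, S x = Multiset.map f Finset.univ.val := by
    intro x hx
    obtain ⟨f, hf⟩ := exists_labels (S x)
    have hc := hS2 x hx
    subst hc
    exact ⟨f, hf⟩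
  classical
  choose! s' hs' using hlab
  set r1 : ℝ := min (r0 / 16) (R2 - R') with hr1
  have hr1p : 0 < r1 := lt_min (by linarith) (by linarith)
  have hsub : ball c R' ⊆ ball c R2 := ball_subset_ball hR'2.le
  refine ⟨H, b, r1, s', hH0, hb, hb1, hr1p, ?_, ?_⟩
  · have h1 : ∀ᵐ x : ℂ, x ∉ ball c R2 \ G := measure_eq_zero_iff_ae_notMem.1 hGnull
    rw [ae_restrict_iff' measurableSet_ball]
    filter_upwards [h1] with x hx hx2
    have hxG : x ∈ G := by
      by_contra h; exact hx ⟨hsub hx2, h⟩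
    have h2 := hS1 x (hsub hx2) hxG
    rw [hs' x (hsub hx2), hWd] at h2
    obtain ⟨σ, hσ⟩ := exists_perm h2.symm
    exact ⟨σ, fun i => (hσ i).symm⟩
  · intro x hx y hy hxy
    have h1 : ball x r1 ⊆ ball c R2 := by
      intro z hz
      rw [mem_ball] at hz hx ⊢
      have : r1 ≤ R2 - R' := min_le_right _ _
      calc dist z c ≤ dist z x + dist x c := dist_triangle _ _ _
        _ < R2 := by linarith
    have h2 := hS5 x r1 H b hb h1 (fun z hz hzx w hw hwx => hGG z hz w hw (by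
      have : r1 ≤ r0 / 16 := min_le_left _ _
      calc dist z w ≤ dist z x + dist x w := dist_triangle _ _ _
        _ < r0 / 8 := by rw [dist_comm x w]; linarith)) x (mem_ball_self hr1p) y
        (by rw [mem_ball, dist_comm]; exact hxy)
    rw [hs' x (hsub hx), hs' y (hsub hy)] at h2
    obtain ⟨τ, hτ⟩ := close_iff_perm.1 h2
    exact ⟨τ, fun i => by rw [← dist_eq_norm]; exact hτ i⟩

end

end

end Crest.Agent.R235.WKHrep_460
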