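import Crest.Agent.R235.WKG_460

/-! # REG-CYL-2: ISOP, isoperimetric inequality for weak closed k-valued curves -/

set_option autoImplicit false

open MeasureTheory Metric Set Filter Complex
open scoped Topology ContDiff ComplexConjugate

namespace Crest.Agent.R235.WKIsop_460

open Crest.Agent.R235.WKG_460

noncomputable section

/-- a scale without distances. -/
theorem pigeon {k : ℕ} (w : Fin k → ℂ) {d : ℝ} (hd : 0 < d) :
    ∃ m ≤ k ^ 2, ∀ i j, ‖w i - w j‖ ≤ d * 5 ^ m ∨ 5 * (d * 5 ^ m) < ‖w i - w j‖ := by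
  by_contra hcon
  push Not at hcon
  have h1 : ∀ m : Fin (k ^ 2 + 1), ∃ q : Fin k × Fin k,
      d * 5 ^ (m : ℕ) < ‖w q.1 - w q.2‖ ∧ ‖w q.1 - w q.2‖ ≤ 5 * (d * 5 ^ (m : ℕ)) := by
    intro m
    obtain ⟨i, j, h⟩ := hcon m (Nat.lt_succ_iff.1 m.2)
    exact ⟨(i, j), h⟩
  choose f hf1 hf2 using h1
  have hinj : Function.Injective f := by
    have key : ∀ m m' : Fin (k ^ 2 + 1), m < m' → f m ≠ f m' := by
      intro m m' hmm h
      have e1 := hf2 m
      have e2 := hf1 m'
      rw [← h] at e2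
      have h3 : (5 : ℝ) ^ ((m : ℕ) + 1) ≤ 5 ^ (m' : ℕ) :=
        pow_le_pow_right₀ (by norm_num) (by exact_mod_cast Nat.succ_le_of_lt hmm)
      have h4 : 5 * (d * 5 ^ (m : ℕ)) = d * 5 ^ ((m : ℕ) + 1) := by ring
      have h5 : d * 5 ^ ((m : ℕ) + 1) ≤ d * 5 ^ (m' : ℕ) := by gcongr
      linarith
    intro m m' h
    rcases lt_trichotomy m m' with h1 | h1 | h1
    · exact absurd h (key m m' h1)
    · exact h1
    · exact absurd h.symm (key m' m h1)
  have hcard := Fintype.card_le_of_injective f hinj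
  simp only [Fintype.card_fin, Fintype.card_prod] at hcard
  nlinarith

/-- locally constant centres, and a smooth function which is linear near the clusters. -/
theorem cluster {k : ℕ} (w : Fin k → ℂ) {d : ℝ} (hd : 0 < d) :
    ∃ (cc : Fin k → ℂ) (Ψ : ℂ → ℝ), ContDiff ℝ ∞ Ψ ∧ (∀ i, ‖w i - cc i‖ ≤ 5 ^ (k ^ 2) * d) ∧
      ∀ i, ∀ z ∈ closedBall (w i) d, ∀ v, fderiv ℝ Ψ z v = (conj (cc i) * v).im := by
  classical
  obtain ⟨m, hm, hpg⟩ := pigeon w hd
  set D : ℝ := d * 5 ^ m with hD
  have h5m : (1 : ℝ) ≤ 5 ^ m := one_le_pow₀ (by norm_num)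
  have hDd : d ≤ D := by rw [hD]; nlinarith
  have hD0 : 0 < D := lt_of_lt_of_le hd hDd
  have hself : ∀ i, (Finset.univ.filter fun j => ‖w i - w j‖ ≤ D).Nonempty := fun i =>
    ⟨i, by simp [hD0.le]⟩
  set rep : Fin k → Fin k := fun i => (Finset.univ.filter fun j => ‖w i - w j‖ ≤ D).min' (hself i)
    with hrep
  have hrepD : ∀ i, ‖w i - w (rep i)‖ ≤ D := by
    intro i
    have := Finset.min'_mem _ (hself i)
    exact (Finset.mem_filter.1 this).2
  have hrep_eq : ∀ i i', ‖w i - w i'‖ ≤ D → rep i = rep i' := by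
    intro i i' h
    have hset : (Finset.univ.filter fun j => ‖w i - w j‖ ≤ D) =
        (Finset.univ.filter fun j => ‖w i' - w j‖ ≤ D) := by
      ext j
      simp only [Finset.mem_filter, Finset.mem_univ, true_and]
      constructor
      · intro hj
        have h2 : ‖w i' - w j‖ ≤ 2 * D := by
          calc ‖w i' - w j‖ = ‖(w i - w j) - (w i - w i')‖ := by congr 1; ring
            _ ≤ ‖w i - w j‖ + ‖w i - w i'‖ := norm_sub_le _ _
            _ ≤ 2 * D := by linarith
        rcases hpg i' j with h3 | h3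
        · exact h3
        · exfalso; linarith
      · intro hj
        have h2 : ‖w i - w j‖ ≤ 2 * D := by
          calc ‖w i - w j‖ = ‖(w i' - w j) + (w i - w i')‖ := by congr 1; ring
            _ ≤ ‖w i' - w j‖ + ‖w i - w i'‖ := norm_add_le _ _
            _ ≤ 2 * D := by linarith
        rcases hpg i j with h3 | h3
        · exact h3
        · exfalso; linarith
    simp only [hrep, hset]
  let b : ∀ i, ContDiffBump (w i) := fun i => ⟨3 * D / 2, 2 * D, by positivity, by linarith⟩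
  set χ : Fin k → ℂ → ℝ := fun r z =>
    1 - ∏ i ∈ Finset.univ.filter (fun i => rep i = r), (1 - b i z) with hχ
  set Ψ : ℂ → ℝ := fun z => ∑ r, χ r z * (conj (w r) * z).im with hΨ
  have hlin : ∀ a : ℂ, ContDiff ℝ ∞ (fun z : ℂ => (conj a * z).im) := fun a =>
    imCLM.contDiff.comp (contDiff_const.mul contDiff_id)
  refine ⟨fun i => w (rep i), Ψ, ?_, ?_, ?_⟩
  · rw [hΨ]
    refine ContDiff.sum fun r _ => ?_
    refine ContDiff.mul ?_ (hlin _)
    refine contDiff_const.sub ?_
    refine contDiff_prod fun i _ => ?_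
    exact contDiff_const.sub (b i).contDiff
  · intro i
    refine (hrepD i).trans ?_
    rw [hD, mul_comm]
    have : (5 : ℝ) ^ m ≤ 5 ^ (k ^ 2) := pow_le_pow_right₀ (by norm_num) hm
    gcongr
  · intro i z hz v
    have hloc : Ψ =ᶠ[𝓝 z] fun z' => (conj (w (rep i)) * z').im := by
      have hD2 : 0 < D / 2 := by positivity
      filter_upwards [ball_mem_nhds z hD2] with z' hz'
      have hzi : dist z' (w i) ≤ 3 * D / 2 := by
        have h1 : dist z (w i) ≤ d := hz
        have h2 : dist z' z < D / 2 := hz'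
        calc dist z' (w i) ≤ dist z' z + dist z (w i) := dist_triangle _ _ _
          _ ≤ 3 * D / 2 := by linarith
      have hone : χ (rep i) z' = 1 := by
        have h3 : (b i) z' = 1 := (b i).one_of_mem_closedBall hzi
        have h4 : ∏ i' ∈ Finset.univ.filter (fun i' => rep i' = rep i), (1 - b i' z') = 0 := by
          refine Finset.prod_eq_zero (i := i) (by simp) ?_
          rw [h3]; ring
        simp only [hχ, h4, sub_zero]
      have hzero : ∀ r, r ≠ rep i → χ r z' = 0 := by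
        intro r hr
        have h4 : ∏ i' ∈ Finset.univ.filter (fun i' => rep i' = r), (1 - b i' z') = 1 := by
          refine Finset.prod_eq_one fun i' hi' => ?_
          have hi'' : rep i' = r := (Finset.mem_filter.1 hi').2
          have h5 : ¬ ‖w i - w i'‖ ≤ D := by
            intro h
            exact hr (by rw [← hi'', ← hrep_eq i i' h])
          have h6 : 5 * D < ‖w i - w i'‖ := by
            rcases hpg i i' with h | h
            · exact absurd h h5
            · exact h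
          have h7 : 2 * D ≤ dist z' (w i') := by
            have h8 : dist (w i) (w i') ≤ dist z' (w i) + dist z' (w i') := by
              rw [dist_comm z' (w i)]; exact dist_triangle _ _ _
            rw [dist_eq_norm (w i) (w i')] at h8
            linarith
          have h9 : (b i') z' = 0 := (b i').zero_of_le_dist h7
          rw [h9, sub_zero]
        simp only [hχ, h4, sub_self]
      simp only [hΨ]
      rw [Finset.sum_eq_single (rep i)]
      · rw [hone, one_mul]
      · intro r _ hr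
        rw [hzero r hr, zero_mul]
      · intro h; exact absurd (Finset.mem_univ _) h
    rw [hloc.fderiv_eq]
    have hd1 : HasFDerivAt (fun z' : ℂ => (conj (w (rep i)) * z').im)
        (imCLM.comp ((conj (w (rep i))) • (ContinuousLinearMap.id ℝ ℂ))) z := by
      have h1 : HasFDerivAt (fun z' : ℂ => conj (w (rep i)) * z')
          ((conj (w (rep i))) • (ContinuousLinearMap.id ℝ ℂ)) z :=
        (hasFDerivAt_id z).const_mul (conj (w (rep i)))
      exact imCLM.hasFDerivAt.comp z h1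
    rw [hd1.fderiv]
    simp

theorem isop_of (hH : HALL) : ISOP := by
  intro k
  obtain ⟨Ck, hCk, hHk⟩ := hH k
  refine ⟨Ck * (1 + 5 ^ (k ^ 2)), by positivity, ?_⟩
  intro x y hxy
  have hpi := Real.pi_pos
  have hle : -Real.pi ≤ Real.pi := by linarith
  obtain ⟨M, hM⟩ := hxy.xbdd
  set l : ℝ := ∫ φ in (-Real.pi)..Real.pi, ∑ i, ‖y φ i‖ with hl
  have hyi : IntegrableOn (fun φ => ∑ i, ‖y φ i‖) (Ioc (-Real.pi) Real.pi) :=
    integrable_finsetSum _ fun i _ => hxy.yint i
  have hyI : IntervalIntegrable (fun φ => ∑ i, ‖y φ i‖) volume (-Real.pi) Real.pi :=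
    (intervalIntegrable_iff_integrableOn_Ioc_of_le hle).2 hyi
  have hy0 : ∀ φ, 0 ≤ ∑ i, ‖y φ i‖ := fun φ => Finset.sum_nonneg fun i _ => norm_nonneg _
  have hl0 : 0 ≤ l := intervalIntegral.integral_nonneg hle fun φ _ => hy0 φ
  -- bound of an interval integral by l
  have hsub : ∀ φ₁ ∈ Ioc (-Real.pi) Real.pi, ∀ φ₂ ∈ Ioc (-Real.pi) Real.pi,
      |∫ φ in φ₁..φ₂, ∑ i, ‖y φ i‖| ≤ l := by
    intro φ₁ h1 φ₂ h2
    have hs : Set.uIoc φ₁ φ₂ ⊆ Ioc (-Real.pi) Real.pi := by
      intro t ht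
      rw [Set.uIoc, mem_Ioc] at ht
      exact ⟨lt_of_le_of_lt (le_min h1.1.le h2.1.le) ht.1, ht.2.trans (max_le h1.2 h2.2)⟩
    have e1 := intervalIntegral.abs_integral_eq_abs_integral_uIoc (a := φ₁) (b := φ₂)
      (f := fun φ => ∑ i, ‖y φ i‖) (μ := volume)
    rw [e1, abs_of_nonneg (integral_nonneg hy0), hl, intervalIntegral.integral_of_le hle]
    exact setIntegral_mono_set hyi (Eventually.of_forall hy0) (LE.le.eventuallyLE hs)
  -- the bilinear integrand
  have hxym : ∀ i, IntegrableOn (fun φ => (conj (x φ i) * y φ i).im) (Ioc (-Real.pi) Real.pi) := by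
    intro i
    refine Integrable.mono' ((hxy.yint i).const_mul M) ?_ (Eventually.of_forall fun φ => ?_)
    · exact (measurable_im.comp ((continuous_conj.measurable.comp (hxy.xmeas i)).mul
        (hxy.ymeas i))).aestronglyMeasurable
    · calc ‖(conj (x φ i) * y φ i).im‖ ≤ ‖conj (x φ i) * y φ i‖ := abs_im_le_norm _
        _ = ‖x φ i‖ * ‖y φ i‖ := by rw [norm_mul, RCLike.norm_conj]
        _ ≤ M * ‖y φ i‖ := by gcongr; exact hM φ i
  have hB : IntegrableOn (fun φ => ∑ i, (conj (x φ i) * y φ i).im) (Ioc (-Real.pi) Real.pi) :=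
    integrable_finsetSum _ fun i _ => hxym i
  rcases eq_or_lt_of_le hl0 with hl1 | hl1
  · -- length zero
    have h1 : ∫ φ in Ioc (-Real.pi) Real.pi, ∑ i, ‖y φ i‖ = 0 := by
      rw [← intervalIntegral.integral_of_le hle, ← hl, ← hl1]
    rw [setIntegral_eq_zero_iff_of_nonneg_ae (Eventually.of_forall hy0) hyi] at h1
    have h2 : ∫ φ in (-Real.pi)..Real.pi, ∑ i, (conj (x φ i) * y φ i).im = 0 := by
      rw [intervalIntegral.integral_of_le hle]
      refine integral_eq_zero_of_ae ?_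
      filter_upwards [h1] with φ hφ
      have h3 : ∀ i, y φ i = 0 := by
        intro i
        have h4 : ∑ i, ‖y φ i‖ = 0 := hφ
        rw [Finset.sum_eq_zero_iff_of_nonneg (fun i _ => norm_nonneg _)] at h4
        exact norm_eq_zero.1 (h4 i (Finset.mem_univ i))
      simp [h3]
    rw [h2, abs_zero]; positivity
  · -- positive length
    have hne : (volume.restrict (Ioc (-Real.pi) Real.pi)) ≠ 0 := by
      rw [Ne, Measure.restrict_eq_zero, Real.volume_Ioc, ENNReal.ofReal_eq_zero]
      linarith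
    have : (ae (volume.restrict (Ioc (-Real.pi) Real.pi))).NeBot := ae_neBot.2 hne
    obtain ⟨φ₁, h1, h1m⟩ := (hxy.ac.and (ae_restrict_mem measurableSet_Ioc)).exists
    set d : ℝ := Ck * l with hd
    have hdpos : 0 < d := by positivity
    have hmatch : ∀ᵐ φ ∂(volume.restrict (Ioc (-Real.pi) Real.pi)), ∀ j, ∃ i,
        ‖x φ₁ i - x φ j‖ ≤ d := by
      filter_upwards [h1, ae_restrict_mem measurableSet_Ioc] with φ hφ hφm j
      obtain ⟨τ, hτ⟩ := hHk (x φ₁) (x φ) l hl1 (by
        intro Ψ hΨ hΨ1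
        rw [abs_sub_comm, hφ Ψ hΨ, ← Real.norm_eq_abs]
        have hI : IntervalIntegrable (fun φ => ∑ i, ‖y φ i‖) volume φ₁ φ := by
          refine hyI.mono_set ?_
          rw [uIcc_of_le hle]
          exact uIcc_subset_Icc ⟨h1m.1.le, h1m.2⟩ ⟨hφm.1.le, hφm.2⟩
        refine (intervalIntegral.norm_integral_le_abs_of_norm_le
          (Eventually.of_forall fun t => ?_) hI).trans (hsub φ₁ h1m φ hφm)
        refine (norm_sum_le _ _).trans (Finset.sum_le_sum fun i _ => ?_)
        calc ‖fderiv ℝ Ψ (x t i) (y t i)‖ ≤ ‖fderiv ℝ Ψ (x t i)‖ * ‖y t i‖ :=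
              ContinuousLinearMap.le_opNorm _ _
          _ ≤ 1 * ‖y t i‖ := by gcongr; exact hΨ1 _
          _ = ‖y t i‖ := one_mul _)
      refine ⟨τ.symm j, ?_⟩
      have := hτ (τ.symm j)
      rwa [Equiv.apply_symm_apply] at this
    obtain ⟨cc, Ψ, hΨ, hcc, hΨd⟩ := cluster (x φ₁) hdpos
    have hper := hxy.per Ψ hΨ
    have hcD : Continuous (fderiv ℝ Ψ) := hΨ.continuous_fderiv (by simp)
    obtain ⟨N, hN⟩ := (isCompact_closedBall (0 : ℂ) M).exists_bound_of_continuousOn
      hcD.continuousOn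
    have hDi : ∀ i, IntegrableOn (fun φ => fderiv ℝ Ψ (x φ i) (y φ i))
        (Ioc (-Real.pi) Real.pi) := by
      intro i
      refine Integrable.mono' ((hxy.yint i).const_mul N) ?_ (Eventually.of_forall fun φ => ?_)
      · have h3 : Continuous (fun q : ℂ × ℂ => fderiv ℝ Ψ q.1 q.2) :=
          (hcD.comp continuous_fst).clm_apply continuous_snd
        exact (h3.measurable.comp ((hxy.xmeas i).prodMk (hxy.ymeas i))).aestronglyMeasurable
      · calc ‖fderiv ℝ Ψ (x φ i) (y φ i)‖ ≤ ‖fderiv ℝ Ψ (x φ i)‖ * ‖y φ i‖ :=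
              ContinuousLinearMap.le_opNorm _ _
          _ ≤ N * ‖y φ i‖ := by
              gcongr
              exact hN _ (by simpa using hM φ i)
    have hD : IntegrableOn (fun φ => ∑ i, fderiv ℝ Ψ (x φ i) (y φ i))
        (Ioc (-Real.pi) Real.pi) := integrable_finsetSum _ fun i _ => hDi i
    have e0 : ∫ φ in (-Real.pi)..Real.pi, ∑ i, (conj (x φ i) * y φ i).im =
        ∫ φ in (-Real.pi)..Real.pi, (∑ i, (conj (x φ i) * y φ i).im -
          ∑ i, fderiv ℝ Ψ (x φ i) (y φ i)) := by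
      rw [intervalIntegral.integral_sub
        ((intervalIntegrable_iff_integrableOn_Ioc_of_le hle).2 hB)
        ((intervalIntegrable_iff_integrableOn_Ioc_of_le hle).2 hD), hper, sub_zero]
    rw [e0, ← Real.norm_eq_abs]
    have e1 : ‖∫ φ in (-Real.pi)..Real.pi, (∑ i, (conj (x φ i) * y φ i).im -
          ∑ i, fderiv ℝ Ψ (x φ i) (y φ i))‖ ≤
        ∫ φ in (-Real.pi)..Real.pi, (1 + 5 ^ (k ^ 2)) * d * ∑ i, ‖y φ i‖ := by
      refine intervalIntegral.norm_integral_le_of_norm_le hle ?_ (hyI.const_mul _)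
      have h4 := (ae_restrict_iff' measurableSet_Ioc).1 hmatch
      filter_upwards [h4] with φ hφ hφm
      rw [← Finset.sum_sub_distrib, Finset.mul_sum]
      refine (norm_sum_le _ _).trans (Finset.sum_le_sum fun j _ => ?_)
      obtain ⟨i, hi⟩ := hφ hφm j
      have h5 : x φ j ∈ closedBall (x φ₁ i) d := by
        rw [mem_closedBall, dist_eq_norm, norm_sub_rev]; exact hi
      rw [hΨd i _ h5, ← sub_im, ← sub_mul, ← map_sub]
      have h6 : ‖x φ j - cc i‖ ≤ (1 + 5 ^ (k ^ 2)) * d := by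
        calc ‖x φ j - cc i‖ = ‖(x φ₁ i - cc i) - (x φ₁ i - x φ j)‖ := by congr 1; ring
          _ ≤ ‖x φ₁ i - cc i‖ + ‖x φ₁ i - x φ j‖ := norm_sub_le _ _
          _ ≤ (1 + 5 ^ (k ^ 2)) * d := by linarith [hcc i]
      calc ‖(conj (x φ j - cc i) * y φ j).im‖ ≤ ‖conj (x φ j - cc i) * y φ j‖ :=
            abs_im_le_norm _
        _ = ‖x φ j - cc i‖ * ‖y φ j‖ := by rw [norm_mul, RCLike.norm_conj]
        _ ≤ (1 + 5 ^ (k ^ 2)) * d * ‖y φ j‖ := by gcongr
    refine e1.trans ?_
    rw [intervalIntegral.integral_const_mul, ← hl, hd]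
    exact le_of_eq (by ring)

end

end Crest.Agent.R235.WKIsop_460
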