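import Crest.Agent.R235.WKG_460
import Crest.Agent.R235.CylMor_734

/-!
Row 235 (S0364), REG-CYL-2 (helper734): the Prop `WKG_460.MORREY`.
-/

set_option autoImplicit false

open MeasureTheory Metric Set Filter Complex
open scoped ContDiff Topology ComplexConjugate Real

namespace Crest.Agent.R235.WKMor_734

open Crest.Agent.R235.CylMor_734

noncomputable section

/-- `Weak1` gives the form used by `CylMor_734`. -/
lemma wb_of_weak1 {c : ℂ} {R : ℝ} {F : ℂ → ℝ} {G : ℂ → (ℂ →L[ℝ] ℝ)}
    (hG : IntegrableOn (fun t => ‖G t‖) (ball c R)) (hw : WKG_460.Weak1 (ball c R) F G) :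
    WB c R F (fun t => ‖G t‖) := by
  intro η hs hc hsup e he
  have h1 := hw η hs hc hsup e he
  have e1 : ∫ y in ball c R, F y * fderiv ℝ η y e = ∫ t in ball c R, fderiv ℝ η t e * F t := by
    congr 1
    ext y
    ring
  rw [e1, h1, abs_neg, ← Real.norm_eq_abs]
  obtain ⟨M, hM⟩ := hc.exists_bound_of_continuous hs.continuous
  have hint : IntegrableOn (fun y => |η y| * ‖G y‖) (ball c R) := by
    refine Integrable.bdd_mul (c := M) hG hs.continuous.abs.aestronglyMeasurable
      (ae_of_all _ fun y => ?_)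
    rw [Real.norm_eq_abs, abs_abs]
    exact hM y
  refine norm_integral_le_of_norm_le hint (ae_of_all _ fun y => ?_)
  rw [norm_mul, Real.norm_eq_abs]
  refine mul_le_mul_of_nonneg_left ?_ (abs_nonneg _)
  refine (ContinuousLinearMap.le_opNorm _ _).trans ?_
  have : ‖e‖ = 1 := by
    rcases he with rfl | rfl <;> simp
  rw [this, mul_one]

/-- C6 of REG-CYL-2: Morrey's lemma. -/
theorem morrey : WKG_460.MORREY := by
  intro b hb0 hb1
  refine ⟨16 / b, by positivity, ?_⟩
  intro c R R' r0 M Mf F G hR' hr0 hR hM hFm hGm hF hG2 hw dec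
  have hfin : (volume : Measure ℂ) (ball c R) ≠ ⊤ := measure_ball_lt_top.ne
  have hFi : IntegrableOn F (ball c R) :=
    Integrable.mono' (integrableOn_const hfin (C := Mf)) hFm.aestronglyMeasurable
      (ae_of_all _ fun t => hF t)
  have hGn : AEStronglyMeasurable (fun t => ‖G t‖) (volume.restrict (ball c R)) :=
    hGm.norm.aestronglyMeasurable
  have hGi : IntegrableOn (fun t => ‖G t‖) (ball c R) := by
    have hc : IntegrableOn (fun _ : ℂ => (1 : ℝ)) (ball c R) := integrableOn_const hfin
    refine Integrable.mono' (hc.add hG2) hGn (ae_of_all _ fun z => ?_)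
    rw [norm_norm]
    simp only [Pi.add_apply]
    nlinarith [sq_nonneg (‖G z‖ - 1), norm_nonneg (G z)]
  obtain ⟨T, hT, h⟩ := morrey_energy hr0 hR hb0 hM hFi hGn hG2 (fun z => norm_nonneg _)
    (wb_of_weak1 hGi hw) dec
  have hT' : ∀ᵐ x : ℂ ∂(volume.restrict (ball c R')), x ∈ T ∧ x ∈ ball c R' := by
    rw [ae_restrict_iff' measurableSet_ball]
    filter_upwards [hT] with x hx hxb using ⟨hx hxb, hxb⟩
  filter_upwards [hT'] with x hx
  filter_upwards [hT'] with y hy hd
  exact h x hx.1 y hy.1 hx.2 hy.2 (by linarith)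

end

end Crest.Agent.R235.WKMor_734
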