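import Crest.Agent.R235.WKG_460
import Crest.Agent.R235.CylDec_734

/-!
Row 235 (S0364), REG-CYL-2 (helper734): the Prop `WKG_460.ODEL` (hole filling in polar coordinates).
-/

set_option autoImplicit false

open MeasureTheory Metric Set Filter Complex
open scoped ContDiff Topology ComplexConjugate Real

namespace Crest.Agent.R235.WKOdel_734

noncomputable section

/-- integrability in polar coordinates. -/
lemma polar_integrable (p : ℂ) {f : ℂ → ℝ} (hf : Integrable f) :
    IntegrableOn (fun q : ℝ × ℝ => q.1 * f (p + q.1 * exp (q.2 * I)))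
      (Ioi (0 : ℝ) ×ˢ Ioo (-π) π) := by
  have h1 : Integrable (fun q : ℝ × ℝ => f (p + Complex.measurableEquivRealProd.symm q)) := by
    have h2 : Integrable (fun z : ℂ => f (p + z)) := hf.comp_add_left p
    exact (Complex.volume_preserving_equiv_real_prod.symm _).integrable_comp_emb
      (Complex.measurableEquivRealProd.symm.measurableEmbedding) |>.2 h2
  have h3 := (integrableOn_image_iff_integrableOn_abs_det_fderiv_smul
    (volume : Measure (ℝ × ℝ)) (s := polarCoord.target)
    (measurableSet_Ioi.prod measurableSet_Ioo)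
    (fun x _ => (hasFDerivAt_polarCoord_symm x).hasFDerivWithinAt)
    (by
      have := polarCoord.symm.injOn
      exact this)
    (fun q : ℝ × ℝ => f (p + Complex.measurableEquivRealProd.symm q))).1 h1.integrableOn
  have e : polarCoord.target = Ioi (0 : ℝ) ×ˢ Ioo (-π) π := rfl
  rw [e] at h3
  refine h3.congr_fun ?_ (measurableSet_Ioi.prod measurableSet_Ioo)
  rintro ⟨s, φ⟩ hq
  have hs : 0 < s := hq.1
  simp only [det_fderivPolarCoordSymm, smul_eq_mul, abs_of_pos hs]
  congr 2
  congr 1
  rw [measurableEquivRealProd_symm_polarCoord_symm_apply, exp_mul_I, Complex.polarCoord_symm_apply,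
    ← ofReal_cos, ← ofReal_sin]

/-- integral over a ball in polar coordinates. -/
lemma polar_ball {p : ℂ} {r0 : ℝ} {e : ℂ → ℝ} (he : IntegrableOn e (ball p r0)) :
    IntegrableOn (fun s : ℝ => s * ∫ φ in (-π)..π, (ball p r0).indicator e (p + s * exp (φ * I)))
      (Ioi 0) ∧
    ∀ r : ℝ, r ≤ r0 → ∫ z in ball p r, e z = ∫ s in Ioo 0 r,
      s * ∫ φ in (-π)..π, (ball p r0).indicator e (p + s * exp (φ * I)) := by
  have hpi : -π ≤ π := by linarith [Real.pi_pos]
  have hi : Integrable ((ball p r0).indicator e) := (integrable_indicator_iff measurableSet_ball).2 he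
  have h1 := polar_integrable p hi
  have e1 : (volume : Measure (ℝ × ℝ)).restrict (Ioi (0 : ℝ) ×ˢ Ioo (-π) π) =
      (volume.restrict (Ioi (0 : ℝ))).prod (volume.restrict (Ioo (-π) π)) := by
    rw [Measure.volume_eq_prod, ← Measure.prod_restrict]
  unfold IntegrableOn at h1
  rw [e1] at h1
  have e2 : ∀ s : ℝ, ∫ φ in Ioo (-π) π, s * (ball p r0).indicator e (p + s * exp (φ * I)) =
      s * ∫ φ in (-π)..π, (ball p r0).indicator e (p + s * exp (φ * I)) := by
    intro s
    rw [integral_const_mul, intervalIntegral.integral_of_le hpi, integral_Ioc_eq_integral_Ioo]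
  constructor
  · have h2 := h1.integral_prod_left
    unfold IntegrableOn
    refine h2.congr (ae_of_all _ fun s => ?_)
    exact e2 s
  intro r hr
  have hr1 : Integrable ((ball p r).indicator e) :=
    (integrable_indicator_iff measurableSet_ball).2 (he.mono_set (ball_subset_ball hr))
  have h3 := polar_integrable p hr1
  unfold IntegrableOn at h3
  rw [e1] at h3
  have e3 : ∫ z in ball p r, e z =
      ∫ q in (Ioi (0 : ℝ) ×ˢ Ioo (-π) π), q.1 * (ball p r).indicator e (p + q.1 * exp (q.2 * I)) := by
    rw [← integral_indicator measurableSet_ball]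
    have h4 := Complex.integral_comp_polarCoord_symm (fun z => (ball p r).indicator e (p + z))
    rw [integral_add_left_eq_self (fun z => (ball p r).indicator e z) p] at h4
    rw [← h4]
    refine setIntegral_congr_fun (measurableSet_Ioi.prod measurableSet_Ioo) fun q _ => ?_
    simp only [Complex.polarCoord_symm_apply, smul_eq_mul]
    rw [exp_mul_I, ← ofReal_cos, ← ofReal_sin]
  rw [e3, e1, integral_prod _ h3]
  rw [← integral_indicator measurableSet_Ioo, ← integral_indicator measurableSet_Ioi]
  congr 1
  ext s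
  by_cases hs : s ∈ Ioi (0 : ℝ)
  · rw [indicator_of_mem hs]
    have hs0 : 0 < s := hs
    have hd : ∀ φ : ℝ, dist (p + s * exp (φ * I)) p = s := by
      intro φ
      rw [dist_eq_norm, add_sub_cancel_left, norm_mul, norm_exp_ofReal_mul_I, mul_one,
        Complex.norm_real, Real.norm_eq_abs, abs_of_pos hs0]
    by_cases hsr : s < r
    · rw [indicator_of_mem (show s ∈ Ioo 0 r from ⟨hs0, hsr⟩), ← e2 s]
      refine integral_congr_ae (ae_of_all _ fun φ => ?_)
      have m1 : p + s * exp (φ * I) ∈ ball p r := by rw [mem_ball, hd]; exact hsr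
      have m2 : p + s * exp (φ * I) ∈ ball p r0 := ball_subset_ball hr m1
      simp only
      rw [indicator_of_mem m1, indicator_of_mem m2]
    · rw [indicator_of_notMem (show s ∉ Ioo 0 r from fun h => hsr h.2)]
      have : ∀ φ : ℝ, s * (ball p r).indicator e (p + s * exp (φ * I)) = 0 := by
        intro φ
        have m1 : p + s * exp (φ * I) ∉ ball p r := by rw [mem_ball, hd]; exact hsr
        rw [indicator_of_notMem m1, mul_zero]
      simp only [this, integral_zero]
  · rw [indicator_of_notMem hs, indicator_of_notMem (fun h => hs h.1)]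

/-- C5 of REG-CYL-2: hole filling. -/
theorem odel : WKG_460.ODEL := by
  intro c0 C1 C2 hc0 hC1 hC2
  set C : ℝ := (C1 + C2) / c0 with hCdef
  have hC : 0 ≤ C := by positivity
  refine ⟨CylDec_734.gam C / 2, 4, by have := CylDec_734.gam_pos hC; positivity, ?_, by norm_num, ?_⟩
  · have := CylDec_734.gam_le (C := C)
    linarith
  intro p r0 e hr0 hr01 e0 he hineq
  obtain ⟨hk, ha⟩ := polar_ball he
  set k : ℝ → ℝ := fun s => s * ∫ φ in (-π)..π, (ball p r0).indicator e (p + s * exp (φ * I))
    with hkdef
  have hpi : -π ≤ π := by linarith [Real.pi_pos]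
  have hI0 : ∀ s : ℝ, 0 ≤ ∫ φ in (-π)..π, (ball p r0).indicator e (p + s * exp (φ * I)) := fun s =>
    intervalIntegral.integral_nonneg hpi fun φ _ => indicator_nonneg (fun _ _ => e0 _) _
  set g : ℝ → ℝ := fun s => |s| * ∫ φ in (-π)..π, (ball p r0).indicator e (p + s * exp (φ * I))
    with hgdef
  have hkg : ∀ s, 0 < s → k s = g s := fun s hs => by simp only [hkdef, hgdef, abs_of_pos hs]
  set a : ℝ → ℝ := fun r => ∫ z in ball p r, e z with hadef
  have hgi : ∀ r s : ℝ, 0 < r → r ≤ s → IntervalIntegrable g volume r s := by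
    intro r s hr hrs
    rw [intervalIntegrable_iff_integrableOn_Ioc_of_le hrs]
    refine (hk.mono_set (fun x hx => hr.trans hx.1)).congr_fun ?_ measurableSet_Ioc
    intro x hx
    exact hkg x (hr.trans hx.1)
  have hmain : ∀ r s : ℝ, 0 < r → r ≤ s → s ≤ r0 → a s = a r + ∫ t in r..s, g t := by
    intro r s hr hrs hs
    simp only [hadef]
    rw [ha s hs, ha r (hrs.trans hs)]
    have e1 : Ioo 0 s = Ioo 0 r ∪ Ico r s := (Ioo_union_Ico_eq_Ioo hr hrs).symm
    rw [e1, setIntegral_union]
    · congr 1
      rw [intervalIntegral.integral_of_le hrs, integral_Ico_eq_integral_Ioo,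
        ← integral_Ioc_eq_integral_Ioo]
      exact setIntegral_congr_fun measurableSet_Ioc fun x hx => hkg x (hr.trans hx.1)
    · rw [disjoint_left]
      intro x hx hx'
      exact absurd hx.2 (not_lt.2 hx'.1)
    · exact measurableSet_Ico
    · exact hk.mono_set fun x hx => hx.1
    · exact hk.mono_set fun x hx => hr.trans_le hx.1
  have key := CylDec_734.decay (a := a) (g := g) (C := C) (r₀ := r0) hC hr0
    (fun r _ _ => setIntegral_nonneg measurableSet_ball fun z _ => e0 z)
    (fun r s hr hrs hs => by
      rw [hmain r s hr hrs hs]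
      have : 0 ≤ ∫ t in r..s, g t := intervalIntegral.integral_nonneg hrs fun t _ =>
        mul_nonneg (abs_nonneg _) (hI0 t)
      linarith)
    (fun s => mul_nonneg (abs_nonneg _) (hI0 s))
    (fun r hr _ => hgi r (2 * r) hr (by linarith))
    (fun r hr h2 => by rw [hmain r (2 * r) hr (by linarith) h2]; linarith)
    (by
      have h := (ae_restrict_iff' measurableSet_Ioo).1 hineq
      filter_upwards [h] with s hs h0 h1
      have h2 := hs ⟨h0, h1⟩
      have e1 : s * ∫ φ in (-π)..π, e (p + s * exp (φ * I)) = g s := by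
        simp only [hgdef, abs_of_pos h0]
        congr 1
        refine intervalIntegral.integral_congr fun φ _ => ?_
        have m : p + s * exp (φ * I) ∈ ball p r0 := by
          rw [mem_ball, dist_eq_norm, add_sub_cancel_left, norm_mul, norm_exp_ofReal_mul_I, mul_one,
            Complex.norm_real, Real.norm_eq_abs, abs_of_pos h0]
          exact h1
        rw [indicator_of_mem m]
      rw [e1] at h2
      have hg0 : 0 ≤ g s := mul_nonneg (abs_nonneg _) (hI0 s)
      have h3 : c0 * a s ≤ (C1 + C2) * (s * g s + s ^ 2) := by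
        have h4 : 0 ≤ s * g s := mul_nonneg h0.le hg0
        nlinarith [sq_nonneg s, mul_nonneg hC1 h4, mul_nonneg hC2.le (sq_nonneg s)]
      rw [hCdef, div_mul_eq_mul_div, le_div_iff₀ hc0]
      linarith)
  intro r hr hrr
  have h1 := key r hr hrr
  have e1 : 2 * (CylDec_734.gam C / 2) = CylDec_734.gam C := by ring
  rw [e1]
  have h2 : 0 < (r / r0) ^ CylDec_734.gam C := Real.rpow_pos_of_pos (by positivity) _
  have h3 : 0 ≤ a r0 := setIntegral_nonneg measurableSet_ball fun z _ => e0 z
  have h4 : 2 * (a r0 + 2 * r0 ^ 2) ≤ 4 * (a r0 + r0) := by nlinarith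
  calc a r ≤ 2 * (a r0 + 2 * r0 ^ 2) * (r / r0) ^ CylDec_734.gam C := h1
    _ ≤ 4 * (a r0 + r0) * (r / r0) ^ CylDec_734.gam C := mul_le_mul_of_nonneg_right h4 h2.le
    _ = 4 * (r / r0) ^ CylDec_734.gam C * (a r0 + r0) := by ring

end

end Crest.Agent.R235.WKOdel_734
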