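import Crest.Agent.R235.CylW_460
import Crest.Agent.R235.CylExt_463

/-!
# Row 235, REG-CYL-2, EXPORT part 2 (helper355)

`sheets_core`: the enumeration of the fibres by a weak `k`-valued graph (`BOXW`) and the planar
leaf `WKG_460.SHEETS` give `Cyl.SHEETS` of `CylDef_607`.
-/

set_option autoImplicit false

open MeasureTheory Metric Set Filter Complex
open scoped ContDiff Topology ComplexConjugate

namespace Crest.Agent.R235.WKOut2_355

open Crest.Agent.R235.Loc Crest.Agent.R235.Cyl Crest.Agent.R235.WKG_460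
  Crest.Agent.R235.CylExt_463

/-- a nodup multiset with the same members as an injective family. -/
lemma eq_map {k : ℕ} {S : Multiset ℂ} {f : Fin k → ℂ} (hS : S.Nodup)
    (hf : Function.Injective f) (h : ∀ w, w ∈ S ↔ ∃ i, f i = w) :
    S = Multiset.map f Finset.univ.val := by
  have h2 : (Multiset.map f Finset.univ.val).Nodup := Finset.univ.nodup.map hf
  refine (Multiset.Nodup.ext hS h2).2 fun w => ?_
  rw [h]
  simp

theorem sheets_core
    (hS : ∀ (μ β : ℂ × ℂ → ℂ) (c : ℂ) (R : ℝ) (k : ℕ) (s : ℂ → Fin k → ℂ)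
      (A : ℂ → Fin k → (ℂ →L[ℝ] ℂ)) (ma : Measure ℂ) (K c0 Mb : ℝ),
      WKG_460.SHEETS μ β c R k s A ma K c0 Mb)
    {μ β : CC → ℂ} {κ L : ℝ} (hbox : SBox μ β κ L) {c : ℂ} {R : ℝ} {m : Measure CC}
    {X Y : CC → CC} (hR : 0 < R) {k' : ℕ} {s : ℂ → Fin k' → ℂ}
    {A : ℂ → Fin k' → (ℂ →L[ℝ] ℂ)} {ma : Measure ℂ} {K' c0 Mb : ℝ}
    (hW : 0 < k' → WKG μ β c R k' s A ma K' c0 Mb)
    (hen : ∀ᵐ z : ℂ, z ∈ ball c R → (fib m z).Finite ∧ Function.Injective (s z) ∧
      (∀ w, w ∈ fib m z ↔ ∃ i, s z i = w) ∧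
      ∀ i, A z i = slo (X (z, s z i)) (Y (z, s z i)))
    {k : ℕ} {S : ℂ → Multiset ℂ} (hcard : ∀ z ∈ ball c R, (S z).card = k)
    (hhol : ∀ R' < R, ∃ C b : ℝ, 0 ≤ C ∧ 0 < b ∧ ∀ z ∈ ball c R', ∀ z' ∈ ball c R',
      Close (C * dist z z' ^ b) (S z) (S z'))
    (hae : ∀ᵐ z : ℂ, z ∈ ball c R → (S z).Nodup ∧ ∀ w, w ∈ S z ↔ w ∈ fib m z)
    {V : Set ℂ} {w : ℂ → ℂ} (hV : V ⊆ ball c R) (hsh : Sheet S V w) :
    ContDiffOn ℝ ∞ w V ∧
      (∀ z ∈ V, lzb (fderiv ℝ w z) = μ (z, w z) * lz (fderiv ℝ w z) - β (z, w z)) ∧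
      ∀ᵐ z : ℂ, z ∈ V → fderiv ℝ w z = slo (X (z, w z)) (Y (z, w z)) := by
  classical
  -- equality of the multisets almost everywhere
  have hmap : ∀ᵐ z : ℂ, z ∈ ball c R → S z = Multiset.map (s z) Finset.univ.val := by
    filter_upwards [hen, hae] with z h1 h2 hz
    obtain ⟨_, h3, h4, _⟩ := h1 hz
    obtain ⟨h5, h6⟩ := h2 hz
    exact eq_map h5 h3 fun w => (h6 w).trans (h4 w)
  have hk : k = k' := by
    have hne : ∃ z ∈ ball c R, S z = Multiset.map (s z) Finset.univ.val := by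
      by_contra hcon
      push Not at hcon
      have h0 : volume (ball c R) = 0 := by
        refine measure_mono_null (fun z hz => ?_) (ae_iff.1 hmap)
        exact fun h => hcon z hz (h hz)
      exact (measure_ball_pos volume c hR).ne' h0
    obtain ⟨z, hz, h1⟩ := hne
    have h2 := hcard z hz
    rw [h1] at h2
    simpa using h2.symm
  subst hk
  rcases Nat.eq_zero_or_pos k with hk0 | hkpos
  · have hVe : V = ∅ := by
      refine eq_empty_of_forall_notMem fun z hz => ?_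
      have h1 := hsh.simple z hz
      have h2 : S z = 0 := by
        rw [← Multiset.card_eq_zero, hcard z (hV hz), hk0]
      rw [h2] at h1
      simp at h1
    subst hVe
    exact ⟨contDiffOn_empty, fun z hz => absurd hz (notMem_empty z),
      Eventually.of_forall fun z hz => absurd hz (notMem_empty z)⟩
  have hWK := hW hkpos
  have hμ1 : ∀ p, ‖μ p‖ < 1 := fun p => (hbox.box.bμ p).trans_lt hbox.box.κ1
  -- a labelling of `S`
  have hlab : ∀ z, ∃ f : Fin k → ℂ, z ∈ ball c R → S z = Multiset.map f Finset.univ.val := by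
    intro z
    by_cases hz : z ∈ ball c R
    · obtain ⟨f, hf⟩ := exists_labels (S z)
      have h1 := hcard z hz
      subst h1
      exact ⟨f, fun _ => hf⟩
    · exact ⟨fun _ => 0, fun h => absurd h hz⟩
  choose s' hs' using hlab
  -- the statement on a smaller ball
  have main : ∀ R' < R,
      ContDiffOn ℝ ∞ w (V ∩ ball c R') ∧
      (∀ z ∈ V ∩ ball c R', lzb (fderiv ℝ w z) = μ (z, w z) * lz (fderiv ℝ w z) - β (z, w z)) ∧
      ∀ᵐ z ∂(volume.restrict (V ∩ ball c R')), ∃ i, s z i = w z ∧ A z i = fderiv ℝ w z := by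
    intro R' hR'
    have hsub : ball c R' ⊆ ball c R := ball_subset_ball hR'.le
    obtain ⟨C, b, hC, hb, hcl⟩ := hhol R' hR'
    refine hS μ β c R k s A ma K' c0 Mb hWK hbox.smμ hbox.smβ hμ1 R' C (min b (1 / 2)) 1 s' hR' hC
      (lt_min hb (by norm_num)) ((min_le_right _ _).trans_lt (by norm_num)) one_pos ?_ ?_
      (V ∩ ball c R') w inter_subset_right ?_
    · rw [ae_restrict_iff' measurableSet_ball]
      filter_upwards [hmap] with x hx hxR
      have h1 := hx (hsub hxR)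
      rw [hs' x (hsub hxR)] at h1
      obtain ⟨σ, hσ⟩ := exists_perm h1
      exact ⟨σ.symm, fun i => by rw [← hσ]; simp⟩
    · intro x hx y hy hxy
      have h1 := hcl x hx y hy
      rw [hs' x (hsub hx), hs' y (hsub hy), close_iff_perm] at h1
      obtain ⟨σ, hσ⟩ := h1
      refine ⟨σ, fun i => ?_⟩
      have h2 := hσ i
      rw [dist_eq_norm] at h2
      refine h2.trans (mul_le_mul_of_nonneg_left ?_ hC)
      rcases (dist_nonneg (x := x) (y := y)).eq_or_lt with h0 | h0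
      · rw [← h0, Real.zero_rpow hb.ne', Real.zero_rpow (lt_min hb (by norm_num)).ne']
      · exact Real.rpow_le_rpow_of_exponent_ge h0 hxy.le (min_le_left _ _)
    · refine ⟨hsh.isOpen.inter isOpen_ball, hsh.cont.mono inter_subset_left, fun z hz => ?_⟩
      show Multiset.count (w z) (Multiset.map (s' z) Finset.univ.val) = 1
      rw [← hs' z (hV hz.1)]
      exact hsh.simple z hz.1
  -- exhaustion
  have hex : ∀ z ∈ ball c R, ∃ R' < R, z ∈ ball c R' := by
    intro z hz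
    obtain ⟨R', h1, h2⟩ := exists_between (mem_ball.1 hz)
    exact ⟨R', h2, mem_ball.2 h1⟩
  refine ⟨fun z hz => ?_, fun z hz => ?_, ?_⟩
  · obtain ⟨R', h1, h2⟩ := hex z (hV hz)
    have h3 := (main R' h1).1 z ⟨hz, h2⟩
    exact ((h3.contDiffAt ((hsh.isOpen.inter isOpen_ball).mem_nhds ⟨hz, h2⟩))).contDiffWithinAt
  · obtain ⟨R', h1, h2⟩ := hex z (hV hz)
    exact (main R' h1).2.1 z ⟨hz, h2⟩
  · have h1 : ∀ n : ℕ, ∀ᵐ z : ℂ, z ∈ V ∩ ball c (R - 1 / ((n : ℝ) + 1)) →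
        ∃ i, s z i = w z ∧ A z i = fderiv ℝ w z := by
      intro n
      have h2 := (main (R - 1 / ((n : ℝ) + 1)) (by
        have : (0 : ℝ) < 1 / ((n : ℝ) + 1) := by positivity
        linarith)).2.2
      rwa [ae_restrict_iff' (hsh.isOpen.inter isOpen_ball).measurableSet] at h2
    rw [← ae_all_iff] at h1
    filter_upwards [h1, hen] with z hz1 hz2 hzV
    obtain ⟨R', h3, h4⟩ := hex z (hV hzV)
    obtain ⟨n, hn⟩ := exists_nat_one_div_lt (sub_pos.2 h3)
    obtain ⟨i, h5, h6⟩ := hz1 n ⟨hzV, ball_subset_ball (by linarith) h4⟩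
    have h7 := (hz2 (hV hzV)).2.2.2 i
    rw [h6, h5] at h7
    exact h7

/-- **C16 from the weak graph.**  The first hypothesis is the unfolded `BOXW'` of `WKBox_348`. -/
theorem sheets_of
    (hB : ∀ (μ β : CC → ℂ) (κ L : ℝ), SBox μ β κ L →
      ∀ (c : ℂ) (R ρ K : ℝ) (m : Measure CC) (X Y : CC → CC), BoxCur μ β c R ρ K m X Y → 0 < R →
      ∃ (k : ℕ) (s : ℂ → Fin k → ℂ) (A : ℂ → Fin k → (ℂ →L[ℝ] ℂ)) (ma : Measure ℂ)
        (K' c0 Mb C : ℝ),
        (0 < k → WKG μ β c R k s A ma K' c0 Mb) ∧ (k = 0 → m = 0) ∧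
        (∀ᵐ z : ℂ, z ∈ ball c R → (fib m z).Finite ∧ Function.Injective (s z) ∧
          (∀ w, w ∈ fib m z ↔ ∃ i, s z i = w) ∧
          ∀ i, A z i = slo (X (z, s z i)) (Y (z, s z i))) ∧
        (∀ E : Set ℂ, MeasurableSet E → E ⊆ ball c R → m.real (E ×ˢ univ) ≤ C * (ma E).toReal))
    (hS : ∀ (μ β : ℂ × ℂ → ℂ) (c : ℂ) (R : ℝ) (k : ℕ) (s : ℂ → Fin k → ℂ)
      (A : ℂ → Fin k → (ℂ →L[ℝ] ℂ)) (ma : Measure ℂ) (K c0 Mb : ℝ),
      WKG_460.SHEETS μ β c R k s A ma K c0 Mb) : Cyl.SHEETS := by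
  intro μ β κ L hbox c R ρ K m X Y hcur hR k S hcard hhol hae V w hV hsh
  obtain ⟨k', s, A, ma, K', c0, Mb, C, hW, -, hen, -⟩ := hB μ β κ L hbox c R ρ K m X Y hcur hR
  exact sheets_core hS hbox hR hW hen hcard hhol hae hV hsh

end Crest.Agent.R235.WKOut2_355
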