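import Crest.Agent.R235.WKG_460
import Crest.Agent.R235.KGL2_52

/-!
Row 235 (S0364), REG-CYL-2, leaves POLAR and POLAR0 (task 301, helper347):
`W^{1,2}` functions are absolutely continuous on almost every circle.
-/

set_option autoImplicit false

open MeasureTheory Metric Set Filter Complex
open scoped ContDiff Topology ComplexConjugate

namespace Crest.Agent.R235.WKPol_347

open Crest.Agent.R235.WKG_460

noncomputable section

/-- rotation about `p`. -/
def rot (p : ℂ) (θ : ℝ) (z : ℂ) : ℂ := p + exp (θ * I) * (z - p)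

lemma rot_zero (p z : ℂ) : rot p 0 z = z := by simp [rot]

lemma rot_rot (p : ℂ) (a b : ℝ) (z : ℂ) : rot p a (rot p b z) = rot p (a + b) z := by
  unfold rot
  have : exp (((a + b : ℝ) : ℂ) * I) = exp (a * I) * exp (b * I) := by
    rw [← Complex.exp_add]
    congr 1
    push_cast
    ring
  rw [this]
  ring

lemma rot_neg_rot (p : ℂ) (a : ℝ) (z : ℂ) : rot p (-a) (rot p a z) = z := by
  rw [rot_rot, neg_add_cancel, rot_zero]

lemma rot_rot_neg (p : ℂ) (a : ℝ) (z : ℂ) : rot p a (rot p (-a) z) = z := by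
  rw [rot_rot, add_neg_cancel, rot_zero]

lemma rot_sub (p : ℂ) (a : ℝ) (z : ℂ) : rot p a z - p = exp (a * I) * (z - p) := by
  unfold rot
  ring

lemma rot_pt (p : ℂ) (r φ θ : ℝ) : rot p θ (KGL2_52.pt p r φ) = KGL2_52.pt p r (φ + θ) := by
  unfold rot KGL2_52.pt
  have : exp (((φ + θ : ℝ) : ℂ) * I) = exp (θ * I) * exp (φ * I) := by
    rw [← Complex.exp_add]
    congr 1
    push_cast
    ring
  rw [this]
  ring

lemma dist_rot (p : ℂ) (a : ℝ) (z : ℂ) : dist (rot p a z) p = dist z p := by
  rw [dist_eq_norm, dist_eq_norm, rot_sub, norm_mul, norm_exp_ofReal_mul_I, one_mul]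

lemma rot_mem_ball {p : ℂ} {R : ℝ} (a : ℝ) {z : ℂ} : rot p a z ∈ ball p R ↔ z ∈ ball p R := by
  rw [mem_ball, mem_ball, dist_rot]

lemma continuous_rot2 (p : ℂ) : Continuous (fun q : ℝ × ℂ => rot p q.1 q.2) := by
  unfold rot
  fun_prop

lemma continuous_rot (p : ℂ) (a : ℝ) : Continuous (rot p a) := by
  unfold rot
  fun_prop

lemma contDiff_rot (p : ℂ) (a : ℝ) : ContDiff ℝ ∞ (rot p a) := by
  unfold rot
  fun_prop

/-- the rotation as a homeomorphism. -/
def rotH (p : ℂ) (a : ℝ) : ℂ ≃ₜ ℂ where
  toFun := rot p a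
  invFun := rot p (-a)
  left_inv := rot_neg_rot p a
  right_inv := rot_rot_neg p a
  continuous_toFun := continuous_rot p a
  continuous_invFun := continuous_rot p (-a)

lemma mp_rot (p : ℂ) (a : ℝ) : MeasurePreserving (rot p a) volume volume := by
  have h1 : MeasurePreserving (fun z : ℂ => z - p) volume volume :=
    measurePreserving_sub_right volume p
  have h2 : MeasurePreserving (rotation (Circle.exp a)) volume volume :=
    (rotation (Circle.exp a)).measurePreserving
  have h3 : MeasurePreserving (fun z : ℂ => p + z) volume volume :=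
    measurePreserving_add_left volume p
  have h := h3.comp (h2.comp h1)
  have e : rot p a = (fun z : ℂ => p + z) ∘ (rotation (Circle.exp a)) ∘ fun z => z - p := by
    funext z
    simp [rot, rotation_apply, Circle.coe_exp]
  rw [e]
  exact h

lemma hasFDerivAt_rot (p : ℂ) (a : ℝ) (z : ℂ) :
    HasFDerivAt (rot p a) ((ContinuousLinearMap.mul ℝ ℂ (exp (a * I)))) z := by
  have h1 : HasFDerivAt (fun z : ℂ => z - p) (ContinuousLinearMap.id ℝ ℂ) z :=
    (hasFDerivAt_id z).sub_const p
  have h2 := ((ContinuousLinearMap.mul ℝ ℂ (exp (a * I))).hasFDerivAt (x := z - p)).comp z h1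
  have h3 : HasFDerivAt (rot p a) ((ContinuousLinearMap.mul ℝ ℂ (exp (a * I))).comp
      (ContinuousLinearMap.id ℝ ℂ)) z := h2.const_add p
  simpa using h3

lemma hasDerivAt_rot (p z : ℂ) (s : ℝ) :
    HasDerivAt (fun t : ℝ => rot p t z) (I * (rot p s z - p)) s := by
  have h1 : HasDerivAt (fun t : ℝ => exp ((t : ℂ) * I)) (exp (s * I) * I) s := by
    have h := ((hasDerivAt_id (s : ℂ)).mul_const I).cexp.comp_ofReal
    simpa using h
  have h2 : HasDerivAt (fun t : ℝ => rot p t z) (exp (s * I) * I * (z - p)) s :=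
    (h1.mul_const (z - p)).const_add p
  rw [rot_sub]
  convert h2 using 1
  ring

/-! ### the angular derivative -/

/-- integration by parts for the angular vector field. -/
lemma angular {p : ℂ} {R M : ℝ} {F : ℂ → ℝ} {G : ℂ → (ℂ →L[ℝ] ℝ)}
    (hF : Measurable F) (hM : ∀ t, |F t| ≤ M)
    (hG : IntegrableOn G (ball p R)) (hW : Weak1 (ball p R) F G)
    {f : ℂ → ℝ} (hf : ContDiff ℝ ∞ f) (hc : HasCompactSupport f) (hs : tsupport f ⊆ ball p R) :
    ∫ z in ball p R, F z * fderiv ℝ f z (I * (z - p)) =
      - ∫ z in ball p R, f z * G z (I * (z - p)) := by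
  set f₁ : ℂ → ℝ := fun z => -(z - p).im * f z with hf₁
  set f₂ : ℂ → ℝ := fun z => (z - p).re * f z with hf₂
  have hre : ContDiff ℝ ∞ (fun z : ℂ => (z - p).re) :=
    Complex.reCLM.contDiff.comp (contDiff_id.sub contDiff_const)
  have him : ContDiff ℝ ∞ (fun z : ℂ => -(z - p).im) :=
    (Complex.imCLM.contDiff.comp (contDiff_id.sub contDiff_const)).neg
  have hf₁s : ContDiff ℝ ∞ f₁ := him.mul hf
  have hf₂s : ContDiff ℝ ∞ f₂ := hre.mul hf
  have hf₁c : HasCompactSupport f₁ := hc.mul_left
  have hf₂c : HasCompactSupport f₂ := hc.mul_left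
  have hf₁t : tsupport f₁ ⊆ ball p R := (tsupport_mul_subset_right).trans hs
  have hf₂t : tsupport f₂ ⊆ ball p R := (tsupport_mul_subset_right).trans hs
  have w1 := hW f₁ hf₁s hf₁c hf₁t 1 (Or.inl rfl)
  have w2 := hW f₂ hf₂s hf₂c hf₂t I (Or.inr rfl)
  have d1 : ∀ z, fderiv ℝ f₁ z 1 = -(z - p).im * fderiv ℝ f z 1 := by
    intro z
    have hfd : HasFDerivAt f (fderiv ℝ f z) z :=
      (hf.differentiable (by simp) z).hasFDerivAt
    have hl : HasFDerivAt (fun z : ℂ => -(z - p).im) (-Complex.imCLM) z := by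
      have h := (Complex.imCLM.hasFDerivAt (x := z - p)).comp z
        ((hasFDerivAt_id z).sub_const p)
      have h3 : HasFDerivAt (fun z : ℂ => -(z - p).im)
        (-(Complex.imCLM.comp (ContinuousLinearMap.id ℝ ℂ))) z := h.neg
      rwa [ContinuousLinearMap.comp_id] at h3
    have h4 : HasFDerivAt f₁ _ z := hl.mul hfd
    rw [h4.fderiv]
    simp
  have d2 : ∀ z, fderiv ℝ f₂ z I = (z - p).re * fderiv ℝ f z I := by
    intro z
    have hfd : HasFDerivAt f (fderiv ℝ f z) z :=
      (hf.differentiable (by simp) z).hasFDerivAt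
    have hl : HasFDerivAt (fun z : ℂ => (z - p).re) (Complex.reCLM) z := by
      have h := (Complex.reCLM.hasFDerivAt (x := z - p)).comp z
        ((hasFDerivAt_id z).sub_const p)
      have h3 : HasFDerivAt (fun z : ℂ => (z - p).re)
        (Complex.reCLM.comp (ContinuousLinearMap.id ℝ ℂ)) z := h
      rwa [ContinuousLinearMap.comp_id] at h3
    have h4 : HasFDerivAt f₂ _ z := hl.mul hfd
    rw [h4.fderiv]
    simp
  have lin : ∀ (A : ℂ →L[ℝ] ℝ) (z : ℂ),
      A (I * (z - p)) = -(z - p).im * A 1 + (z - p).re * A I := by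
    intro A z
    have e : I * (z - p) = (-(z - p).im : ℝ) • (1 : ℂ) + ((z - p).re : ℝ) • I := by
      apply Complex.ext <;> simp
    rw [e, map_add, map_smul, map_smul, smul_eq_mul, smul_eq_mul]
  -- integrability
  have i1 : ∀ (h : ℂ → ℝ) (_ : ContDiff ℝ ∞ h) (_ : HasCompactSupport h) (u : ℂ),
      IntegrableOn (fun t => fderiv ℝ h t u * F t) (ball p R) := by
    intro h hh hhc u
    have hcont : Continuous (fun t => fderiv ℝ h t u) :=
      (hh.continuous_fderiv (by simp)).clm_apply continuous_const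
    have hcomp : HasCompactSupport (fun t => fderiv ℝ h t u) :=
      (hhc.fderiv (𝕜 := ℝ)).comp_left (g := fun A : ℂ →L[ℝ] ℝ => A u) (by simp)
    have hi : Integrable (fun t => fderiv ℝ h t u) := hcont.integrable_of_hasCompactSupport hcomp
    exact (hi.mul_bdd hF.aestronglyMeasurable (c := M)
      (Eventually.of_forall fun t => by simpa using hM t)).integrableOn
  have i2 : ∀ (h : ℂ → ℝ) (_ : ContDiff ℝ ∞ h) (_ : HasCompactSupport h) (u : ℂ),
      IntegrableOn (fun t => h t * G t u) (ball p R) := by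
    intro h hh hhc u
    obtain ⟨C, hC⟩ := hhc.exists_bound_of_continuous hh.continuous
    have hGu : IntegrableOn (fun t => G t u) (ball p R) :=
      (ContinuousLinearMap.apply ℝ ℝ u).integrable_comp hG
    exact hGu.bdd_mul hh.continuous.aestronglyMeasurable (c := C)
      (Eventually.of_forall hC)
  have e1 : ∫ z in ball p R, F z * fderiv ℝ f z (I * (z - p)) =
      (∫ z in ball p R, fderiv ℝ f₁ z 1 * F z) + ∫ z in ball p R, fderiv ℝ f₂ z I * F z := by
    rw [← integral_add (i1 f₁ hf₁s hf₁c 1) (i1 f₂ hf₂s hf₂c I)]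
    refine integral_congr_ae (Eventually.of_forall fun z => ?_)
    simp only [lin, d1, d2]
    ring
  have e2 : ∫ z in ball p R, f z * G z (I * (z - p)) =
      (∫ z in ball p R, f₁ z * G z 1) + ∫ z in ball p R, f₂ z * G z I := by
    rw [← integral_add (i2 f₁ hf₁s hf₁c 1) (i2 f₂ hf₂s hf₂c I)]
    refine integral_congr_ae (Eventually.of_forall fun z => ?_)
    simp only [lin, hf₁, hf₂]
    ring
  rw [e1, e2, w1, w2]
  ring

/-- change of variables under the rotation. -/
lemma integral_ball_rot (p : ℂ) (R : ℝ) (a : ℝ) (h : ℂ → ℝ) :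
    ∫ z in ball p R, h (rot p a z) = ∫ z in ball p R, h z := by
  have hme : MeasurableEmbedding (rot p a) := (rotH p a).measurableEmbedding
  have h1 := (mp_rot p a).setIntegral_preimage_emb hme h (ball p R)
  have e : rot p a ⁻¹' ball p R = ball p R := by
    ext z
    exact rot_mem_ball a
  rw [e] at h1
  exact h1

lemma integrable_ball_rot {p : ℂ} {R : ℝ} (a : ℝ) {h : ℂ → ℝ} (hh : IntegrableOn h (ball p R)) :
    IntegrableOn (fun z => h (rot p a z)) (ball p R) := by
  have hme : MeasurableEmbedding (rot p a) := (rotH p a).measurableEmbedding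
  have h1 := ((mp_rot p a).integrableOn_comp_preimage hme (f := h) (s := ball p R)).mpr hh
  have e : rot p a ⁻¹' ball p R = ball p R := by
    ext z
    exact rot_mem_ball a
  rw [e] at h1
  exact h1

/-- the angular component of the weak gradient. -/
def ang (p : ℂ) (G : ℂ → (ℂ →L[ℝ] ℝ)) (z : ℂ) : ℝ := G z (I * (z - p))

lemma measurable_ang (p : ℂ) {G : ℂ → (ℂ →L[ℝ] ℝ)} (hG : Measurable G) :
    Measurable (ang p G) := by
  unfold ang
  have h1 : Measurable (fun z : ℂ => (I * (z - p))) := by fun_prop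
  exact (continuous_fst.clm_apply continuous_snd : Continuous
    fun q : (ℂ →L[ℝ] ℝ) × ℂ => q.1 q.2).measurable.comp (hG.prodMk h1)

lemma abs_ang_le {p : ℂ} {R : ℝ} (G : ℂ → (ℂ →L[ℝ] ℝ)) {z : ℂ} (hz : z ∈ ball p R) :
    |ang p G z| ≤ R * ‖G z‖ := by
  unfold ang
  rw [← Real.norm_eq_abs]
  refine (ContinuousLinearMap.le_opNorm _ _).trans ?_
  rw [norm_mul, norm_I, one_mul, ← dist_eq_norm, mul_comm]
  exact mul_le_mul_of_nonneg_right (mem_ball.mp hz).le (norm_nonneg _)

lemma integrable_ang {p : ℂ} {R : ℝ} {G : ℂ → (ℂ →L[ℝ] ℝ)} (hGm : Measurable G)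
    (hG : IntegrableOn G (ball p R)) : IntegrableOn (ang p G) (ball p R) := by
  refine Integrable.mono' (hG.norm.const_mul R) (measurable_ang p hGm).aestronglyMeasurable ?_
  filter_upwards [ae_restrict_mem measurableSet_ball] with z hz
  exact abs_ang_le G hz

/-- swapping an interval integral and an integral over the ball. -/
lemma swap (p : ℂ) (R θ : ℝ) (h : ℝ → ℂ → ℝ)
    (hi : Integrable (Function.uncurry fun (z : ℂ) (s : ℝ) => h s z)
      ((volume.restrict (ball p R)).prod (volume.restrict (Set.uIoc 0 θ)))) :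
    ∫ z in ball p R, ∫ s in (0:ℝ)..θ, h s z = ∫ s in (0:ℝ)..θ, ∫ z in ball p R, h s z := by
  simp only [intervalIntegral.intervalIntegral_eq_integral_uIoc]
  rw [integral_smul, integral_integral_swap hi]

/-- the increment of `F` under a rotation. -/
lemma increment {p : ℂ} {R M : ℝ} {F : ℂ → ℝ} {G : ℂ → (ℂ →L[ℝ] ℝ)}
    (hF : Measurable F) (hM : ∀ t, |F t| ≤ M) (hGm : Measurable G)
    (hG : IntegrableOn G (ball p R)) (hW : Weak1 (ball p R) F G) (θ : ℝ) :
    ∀ᵐ z : ℂ, z ∈ ball p R →
      F (rot p θ z) - F z = ∫ s in (0:ℝ)..θ, ang p G (rot p s z) := by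
  have hang := integrable_ang hGm hG
  have hangm := measurable_ang p hGm
  have hfin : IsFiniteMeasure (volume.restrict (ball p R)) :=
    ⟨by rw [Measure.restrict_apply_univ]; exact measure_ball_lt_top⟩
  have hfin2 : IsFiniteMeasure ((volume : Measure ℝ).restrict (Set.uIoc 0 θ)) :=
    ⟨by
      rw [Measure.restrict_apply_univ, Set.uIoc]
      exact measure_Ioc_lt_top⟩
  -- joint integrability
  have hjm : Measurable (Function.uncurry fun (z : ℂ) (s : ℝ) => ang p G (rot p s z)) :=
    hangm.comp ((continuous_rot2 p).comp continuous_swap).measurable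
  have hji : Integrable (Function.uncurry fun (z : ℂ) (s : ℝ) => ang p G (rot p s z))
      ((volume.restrict (ball p R)).prod (volume.restrict (Set.uIoc 0 θ))) := by
    rw [integrable_prod_iff' hjm.aestronglyMeasurable]
    refine ⟨Eventually.of_forall fun s => integrable_ball_rot s hang, ?_⟩
    have e : (fun s : ℝ => ∫ z in ball p R,
        ‖Function.uncurry (fun (z : ℂ) (s : ℝ) => ang p G (rot p s z)) (z, s)‖) =
        fun _ => ∫ z in ball p R, ‖ang p G z‖ := by
      funext s
      exact integral_ball_rot p R s (fun z => ‖ang p G z‖)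
    rw [e]
    exact integrable_const _
  set H : ℂ → ℝ := fun z => ∫ s in (0:ℝ)..θ, ang p G (rot p s z) with hH
  have hHi : IntegrableOn H (ball p R) := by
    have h1 := hji.integral_prod_left
    rw [hH]
    simp only [intervalIntegral.intervalIntegral_eq_integral_uIoc]
    exact h1.smul (if (0:ℝ) ≤ θ then (1:ℝ) else -1)
  have hFi : ∀ a : ℝ, IntegrableOn (fun z => F (rot p a z)) (ball p R) := by
    intro a
    refine Integrable.mono' (integrable_const M)
      (hF.comp (continuous_rot p a).measurable).aestronglyMeasurable ?_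
    exact Eventually.of_forall fun z => by simpa using hM _
  have hFi0 : IntegrableOn F (ball p R) := by
    simpa [rot_zero] using hFi 0
  have hdi : IntegrableOn (fun z => F (rot p θ z) - F z - H z) (ball p R) :=
    ((hFi θ).sub hFi0).sub hHi
  have key : ∀ f : ℂ → ℝ, ContDiff ℝ ∞ f → HasCompactSupport f → tsupport f ⊆ ball p R →
      ∫ z, f z • (F (rot p θ z) - F z - H z) = 0 := by
    intro f hf hc hs
    obtain ⟨C, hC⟩ := hc.exists_bound_of_continuous hf.continuous
    set Xf : ℂ → ℝ := fun z => fderiv ℝ f z (I * (z - p)) with hXf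
    have hXc : Continuous Xf :=
      (hf.continuous_fderiv (by simp)).clm_apply (by fun_prop)
    have hXcc : HasCompactSupport Xf := by
      apply HasCompactSupport.intro (hc.fderiv (𝕜 := ℝ)).isCompact
      intro z hz
      have : fderiv ℝ f z = 0 := image_eq_zero_of_notMem_tsupport hz
      rw [hXf]
      simp [this]
    obtain ⟨C', hC'⟩ := hXcc.exists_bound_of_continuous hXc
    -- the whole integral lives on the ball
    have e0 : ∫ z, f z • (F (rot p θ z) - F z - H z) =
        ∫ z in ball p R, f z * (F (rot p θ z) - F z - H z) := by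
      rw [setIntegral_eq_integral_of_forall_compl_eq_zero]
      · simp only [smul_eq_mul]
      · intro z hz
        have : f z = 0 := by
          by_contra h
          exact hz (hs (subset_tsupport f h))
        rw [this, zero_mul]
    rw [e0]
    have hbm : ∀ (h : ℂ → ℝ), IntegrableOn h (ball p R) →
        IntegrableOn (fun z => f z * h z) (ball p R) := fun h hh =>
      hh.bdd_mul hf.continuous.aestronglyMeasurable (c := C) (Eventually.of_forall hC)
    have e1 : ∫ z in ball p R, f z * (F (rot p θ z) - F z - H z) =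
        (∫ z in ball p R, f z * F (rot p θ z)) - (∫ z in ball p R, f z * F z) -
          ∫ z in ball p R, f z * H z := by
      rw [← integral_sub (hbm _ (hFi θ)) (hbm _ hFi0), ← integral_sub]
      · refine integral_congr_ae (Eventually.of_forall fun z => ?_)
        simp only
        ring
      · exact (hbm _ (hFi θ)).sub (hbm _ hFi0)
      · exact hbm _ hHi
    -- rotate the first integral
    have e2 : ∫ z in ball p R, f z * F (rot p θ z) =
        ∫ z in ball p R, f (rot p (-θ) z) * F z := by
      rw [← integral_ball_rot p R θ (fun z => f (rot p (-θ) z) * F z)]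
      simp only [rot_neg_rot]
    -- the increment of `f`
    have e3 : ∀ z, f (rot p (-θ) z) - f z = ∫ s in (0:ℝ)..θ, -Xf (rot p (-s) z) := by
      intro z
      have hd : ∀ s ∈ Set.uIcc (0:ℝ) θ, HasDerivAt (fun s => f (rot p (-s) z))
          (-Xf (rot p (-s) z)) s := by
        intro s _
        have h1 : HasDerivAt (fun t : ℝ => rot p t z) (I * (rot p (-s) z - p)) (-s) :=
          hasDerivAt_rot p z (-s)
        have h2 : HasDerivAt (fun s : ℝ => rot p (-s) z) (-(I * (rot p (-s) z - p))) s := by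
          have := h1.scomp s (hasDerivAt_neg s)
          simpa [Function.comp_def] using this
        have h3 : HasFDerivAt f (fderiv ℝ f (rot p (-s) z)) (rot p (-s) z) :=
          (hf.differentiable (by simp) _).hasFDerivAt
        have h4 := h3.comp_hasDerivAt s h2
        rw [map_neg] at h4
        exact h4
      have hcont : Continuous fun s : ℝ => -Xf (rot p (-s) z) := by
        refine (hXc.comp ?_).neg
        exact (continuous_rot2 p).comp (continuous_neg.prodMk continuous_const)
      have := intervalIntegral.integral_eq_sub_of_hasDerivAt hd (hcont.intervalIntegrable _ _)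
      rw [this]
      simp [rot_zero]
    -- assemble
    have e4 : (∫ z in ball p R, f (rot p (-θ) z) * F z) - ∫ z in ball p R, f z * F z =
        ∫ z in ball p R, ∫ s in (0:ℝ)..θ, F z * (-Xf (rot p (-s) z)) := by
      rw [← integral_sub]
      · refine integral_congr_ae (Eventually.of_forall fun z => ?_)
        simp only
        rw [intervalIntegral.integral_const_mul, ← e3]
        ring
      · refine Integrable.bdd_mul hFi0 ?_ (c := C) (Eventually.of_forall fun z => hC _)
        exact (hf.continuous.comp (continuous_rot p (-θ))).aestronglyMeasurable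
      · exact hbm _ hFi0
    have e5 : ∫ z in ball p R, ∫ s in (0:ℝ)..θ, F z * (-Xf (rot p (-s) z)) =
        ∫ s in (0:ℝ)..θ, ∫ z in ball p R, F z * (-Xf (rot p (-s) z)) := by
      apply swap
      have hm : Measurable (Function.uncurry fun (z : ℂ) (s : ℝ) => F z * (-Xf (rot p (-s) z))) := by
        refine (hF.comp measurable_fst).mul ?_
        refine (hXc.comp ?_).measurable.neg
        exact (continuous_rot2 p).comp (continuous_snd.neg.prodMk continuous_fst)
      refine Integrable.mono' (integrable_const (M * C')) hm.aestronglyMeasurable ?_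
      refine Eventually.of_forall fun q => ?_
      simp only [Function.uncurry]
      rw [norm_mul, norm_neg]
      exact mul_le_mul (by simpa using hM _) (hC' _) (norm_nonneg _)
        ((abs_nonneg _).trans (hM 0))
    have e6 : ∀ s : ℝ, ∫ z in ball p R, F z * (-Xf (rot p (-s) z)) =
        ∫ z in ball p R, f z * ang p G (rot p s z) := by
      intro s
      have hcs : HasCompactSupport (fun z => f (rot p (-s) z)) :=
        hc.comp_isClosedEmbedding (rotH p (-s)).isClosedEmbedding
      have hts : tsupport (fun z => f (rot p (-s) z)) ⊆ ball p R := by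
        have h1 : tsupport (fun z => f (rot p (-s) z)) ⊆ rot p (-s) ⁻¹' tsupport f :=
          tsupport_comp_subset_preimage f (continuous_rot p (-s))
        intro z hz
        exact (rot_mem_ball (-s)).mp (hs (h1 hz))
      have h1 := angular hF hM hG hW (hf.comp (contDiff_rot p (-s))) hcs hts
      have h2 : ∀ z, fderiv ℝ (fun z => f (rot p (-s) z)) z (I * (z - p)) =
          Xf (rot p (-s) z) := by
        intro z
        have h3 : HasFDerivAt f (fderiv ℝ f (rot p (-s) z)) (rot p (-s) z) :=
          (hf.differentiable (by simp) _).hasFDerivAt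
        have h4 := (h3.comp z (hasFDerivAt_rot p (-s) z)).fderiv
        have h5 : fderiv ℝ (fun z => f (rot p (-s) z)) z =
          (fderiv ℝ f (rot p (-s) z)).comp ((ContinuousLinearMap.mul ℝ ℂ (exp ((-s : ℝ) * I)))) :=
          h4
        rw [h5, hXf]
        simp only [ContinuousLinearMap.comp_apply, ContinuousLinearMap.mul_apply', rot_sub]
        congr 1
        ring
      have h3 : ∫ z in ball p R, F z * (-Xf (rot p (-s) z)) =
          - ∫ z in ball p R, F z * fderiv ℝ (fun z => f (rot p (-s) z)) z (I * (z - p)) := by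
        rw [← integral_neg]
        refine integral_congr_ae (Eventually.of_forall fun z => ?_)
        simp only [h2]
        ring
      rw [h3]
      have h4 : ∫ z in ball p R, F z * fderiv ℝ (fun z => f (rot p (-s) z)) z (I * (z - p)) =
          - ∫ z in ball p R, f (rot p (-s) z) * G z (I * (z - p)) := h1
      rw [h4, neg_neg]
      rw [← integral_ball_rot p R s (fun z => f (rot p (-s) z) * G z (I * (z - p)))]
      simp only [rot_neg_rot, ang]
    have e7 : ∫ z in ball p R, f z * H z =
        ∫ s in (0:ℝ)..θ, ∫ z in ball p R, f z * ang p G (rot p s z) := by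
      rw [← swap]
      · refine integral_congr_ae (Eventually.of_forall fun z => ?_)
        simp only [hH]
        rw [intervalIntegral.integral_const_mul]
      · refine Integrable.bdd_mul hji ?_ (c := C) (Eventually.of_forall fun q => hC _)
        exact (hf.continuous.comp continuous_fst).aestronglyMeasurable
    rw [e1, e2, e4, e5, e7]
    simp only [e6]
    ring
  have := isOpen_ball.ae_eq_zero_of_integral_contDiff_smul_eq_zero
    (μ := volume) (f := fun z => F (rot p θ z) - F z - H z) hdi.locallyIntegrableOn key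
  filter_upwards [this] with z hz hzb
  have := hz hzb
  linarith

/-! ### polar coordinates -/

open KGL2_52 in
/-- joint measurability of the angular primitive. -/
lemma measurable_prim (p : ℂ) {G : ℂ → (ℂ →L[ℝ] ℝ)} (hGm : Measurable G) :
    Measurable (fun x : ℝ × ℂ => ∫ s in (0:ℝ)..x.1, ang p G (rot p s x.2)) := by
  have hangm := measurable_ang p hGm
  have hg : Measurable (fun y : (ℝ × ℂ) × ℝ => ang p G (rot p y.2 y.1.2)) := by
    refine hangm.comp ?_
    exact ((continuous_rot2 p).comp (continuous_snd.prodMk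
      (continuous_snd.comp continuous_fst))).measurable
  have h1 : Measurable (fun x : ℝ × ℂ => ∫ s in Ioc (0:ℝ) x.1, ang p G (rot p s x.2)) := by
    have hm : Measurable (fun y : (ℝ × ℂ) × ℝ =>
        {y : (ℝ × ℂ) × ℝ | 0 < y.2 ∧ y.2 ≤ y.1.1}.indicator
          (fun y => ang p G (rot p y.2 y.1.2)) y) := by
      apply hg.indicator
      exact (measurableSet_lt measurable_const measurable_snd).inter
        (measurableSet_le measurable_snd (measurable_fst.comp measurable_fst))
    have h2 := (hm.stronglyMeasurable.integral_prod_right' (ν := (volume : Measure ℝ))).measurable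
    convert h2 using 2 with x
    rw [← integral_indicator measurableSet_Ioc]
    refine integral_congr_ae (Eventually.of_forall fun s => ?_)
    simp only [indicator, mem_Ioc, mem_ofPred_eq]
  have h2 : Measurable (fun x : ℝ × ℂ => ∫ s in Ioc x.1 (0:ℝ), ang p G (rot p s x.2)) := by
    have hm : Measurable (fun y : (ℝ × ℂ) × ℝ =>
        {y : (ℝ × ℂ) × ℝ | y.1.1 < y.2 ∧ y.2 ≤ 0}.indicator
          (fun y => ang p G (rot p y.2 y.1.2)) y) := by
      apply hg.indicator
      exact (measurableSet_lt (measurable_fst.comp measurable_fst) measurable_snd).inter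
        (measurableSet_le measurable_snd measurable_const)
    have h2 := (hm.stronglyMeasurable.integral_prod_right' (ν := (volume : Measure ℝ))).measurable
    convert h2 using 2 with x
    rw [← integral_indicator measurableSet_Ioc]
    refine integral_congr_ae (Eventually.of_forall fun s => ?_)
    simp only [indicator, mem_Ioc, mem_ofPred_eq]
  exact h1.sub h2

/-- the angular component at a polar point. -/
lemma ang_pt (p : ℂ) (G : ℂ → (ℂ →L[ℝ] ℝ)) (r φ : ℝ) :
    ang p G (KGL2_52.pt p r φ) = G (p + r * exp (φ * I)) (I * (r * exp (φ * I))) := by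
  unfold ang
  rw [KGL2_52.pt_sub]
  rfl

lemma prim_pt (p : ℂ) (G : ℂ → (ℂ →L[ℝ] ℝ)) (r φ θ : ℝ) :
    ∫ s in (0:ℝ)..θ, ang p G (rot p s (KGL2_52.pt p r φ)) =
      ∫ s in φ..(φ + θ), G (p + r * exp (s * I)) (I * (r * exp (s * I))) := by
  have h : ∀ s : ℝ, ang p G (rot p s (KGL2_52.pt p r φ)) =
      (fun s : ℝ => G (p + r * exp (s * I)) (I * (r * exp (s * I)))) (φ + s) := by
    intro s
    rw [rot_pt, ang_pt]
  simp only [h]
  rw [intervalIntegral.integral_comp_add_left
    (fun s : ℝ => G (p + r * exp (s * I)) (I * (r * exp (s * I))))]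
  simp

lemma integrableOn_of_sq {p : ℂ} {R : ℝ} {G : ℂ → (ℂ →L[ℝ] ℝ)} (hG : Measurable G)
    (h : IntegrableOn (fun t => ‖G t‖ ^ 2) (ball p R)) : IntegrableOn G (ball p R) := by
  have hfin : IsFiniteMeasure (volume.restrict (ball p R)) :=
    ⟨by rw [Measure.restrict_apply_univ]; exact measure_ball_lt_top⟩
  refine Integrable.mono' ((integrable_const (1:ℝ)).add h) hG.aestronglyMeasurable ?_
  refine Eventually.of_forall fun z => ?_
  simp only [Pi.add_apply]
  nlinarith [sq_nonneg (‖G z‖ - 1), norm_nonneg (G z)]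

/-- almost every circle: all angles at once. -/
lemma ae_circle {p : ℂ} {R M : ℝ} {F : ℂ → ℝ} {G : ℂ → (ℂ →L[ℝ] ℝ)}
    (hF : Measurable F) (hM : ∀ t, |F t| ≤ M) (hGm : Measurable G)
    (hG : IntegrableOn G (ball p R)) (hW : Weak1 (ball p R) F G) :
    ∀ᵐ r ∂KGL2_52.m1, ∀ᵐ φ ∂KGL2_52.m2, ∀ᵐ θ : ℝ, r < R →
      F (KGL2_52.pt p r (φ + θ)) - F (KGL2_52.pt p r φ) =
        ∫ s in (0:ℝ)..θ, ang p G (rot p s (KGL2_52.pt p r φ)) := by
  have h1 : ∀ θ : ℝ, ∀ᵐ q ∂(KGL2_52.m1.prod KGL2_52.m2), q.1 < R →
      F (KGL2_52.pt p q.1 (q.2 + θ)) - F (KGL2_52.pt p q.1 q.2) =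
        ∫ s in (0:ℝ)..θ, ang p G (rot p s (KGL2_52.pt p q.1 q.2)) := by
    intro θ
    have h2 := increment hF hM hGm hG hW θ
    have h3 := KGL2_52.null_prod (ae_iff.mp h2) p
    have h4 : ∀ᵐ q ∂(KGL2_52.m1.prod KGL2_52.m2), (0:ℝ) < q.1 := by
      rw [← KGL2_52.prod_eq]
      filter_upwards [ae_restrict_mem (measurableSet_Ioi.prod measurableSet_Ioo)] with q hq
      exact hq.1
    filter_upwards [h3, h4] with q hq hq0 hqR
    have h5 : KGL2_52.pt p q.1 q.2 ∈ ball p R := by
      rw [mem_ball, dist_eq_norm, KGL2_52.norm_pt_sub p hq0.le]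
      exact hqR
    have h6 : (KGL2_52.pt p q.1 q.2 ∈ ball p R →
      F (rot p θ (KGL2_52.pt p q.1 q.2)) - F (KGL2_52.pt p q.1 q.2) =
        ∫ s in (0:ℝ)..θ, ang p G (rot p s (KGL2_52.pt p q.1 q.2))) := by
      by_contra hcon
      exact hq hcon
    have h7 := h6 h5
    rw [rot_pt] at h7
    exact h7
  have hmeas : MeasurableSet {x : ℝ × (ℝ × ℝ) | x.2.1 < R →
      F (KGL2_52.pt p x.2.1 (x.2.2 + x.1)) - F (KGL2_52.pt p x.2.1 x.2.2) =
        ∫ s in (0:ℝ)..x.1, ang p G (rot p s (KGL2_52.pt p x.2.1 x.2.2))} := by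
    have e : {x : ℝ × (ℝ × ℝ) | x.2.1 < R →
      F (KGL2_52.pt p x.2.1 (x.2.2 + x.1)) - F (KGL2_52.pt p x.2.1 x.2.2) =
        ∫ s in (0:ℝ)..x.1, ang p G (rot p s (KGL2_52.pt p x.2.1 x.2.2))} =
      {x : ℝ × (ℝ × ℝ) | x.2.1 < R}ᶜ ∪ {x : ℝ × (ℝ × ℝ) |
      F (KGL2_52.pt p x.2.1 (x.2.2 + x.1)) - F (KGL2_52.pt p x.2.1 x.2.2) =
        ∫ s in (0:ℝ)..x.1, ang p G (rot p s (KGL2_52.pt p x.2.1 x.2.2))} := by
      ext x
      simp only [mem_ofPred_eq, mem_union, mem_compl_iff]
      tauto
    rw [e]
    have hc := KGL2_52.continuous_pt2 p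
    refine MeasurableSet.union ?_ ?_
    · exact (measurableSet_lt (measurable_fst.comp measurable_snd) measurable_const).compl
    · refine measurableSet_eq_fun ?_ ?_
      · refine Measurable.sub ?_ ?_
        · refine hF.comp ?_
          exact (hc.comp ((continuous_fst.comp continuous_snd).prodMk
            ((continuous_snd.comp continuous_snd).add continuous_fst))).measurable
        · refine hF.comp ?_
          exact (hc.comp ((continuous_fst.comp continuous_snd).prodMk
            (continuous_snd.comp continuous_snd))).measurable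
      · exact (measurable_prim p hGm).comp (measurable_fst.prodMk
          (hc.comp ((continuous_fst.comp continuous_snd).prodMk
            (continuous_snd.comp continuous_snd))).measurable)
  have h2 := (Measure.ae_ae_comm (μ := (volume : Measure ℝ))
    (ν := KGL2_52.m1.prod KGL2_52.m2) hmeas).mp (Eventually.of_forall h1)
  exact Measure.ae_ae_of_ae_prod h2

theorem polar : POLAR := by
  intro p R M F G hR hF hG hM hG2 hW
  have hGi := integrableOn_of_sq hG hG2
  have h1 := ae_circle hF hM hG hGi hW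
  -- integrability on the circles
  set N : ℂ → ENNReal := (ball p R).indicator fun z => ENNReal.ofReal ‖G z‖ with hN
  have hNm : Measurable N := (hG.norm.ennreal_ofReal).indicator measurableSet_ball
  have hNf : ∫⁻ z, N z ≠ ⊤ := by
    rw [hN, lintegral_indicator measurableSet_ball]
    have := hGi.norm.lintegral_lt_top
    exact this.ne
  have h2 := (KGL2_52.fin_prod hNm hNf p).1
  have hle : (volume.restrict (Ioo 0 R) : Measure ℝ) ≤ KGL2_52.m1 :=
    Measure.restrict_mono Ioo_subset_Ioi_self le_rfl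
  have h1' := ae_mono hle h1
  have h2' := ae_mono hle h2
  filter_upwards [h1', h2', ae_restrict_mem measurableSet_Ioo] with r hr1 hr2 hr
  have hr0 : 0 < r := hr.1
  have hmem : ∀ φ : ℝ, KGL2_52.pt p r φ ∈ ball p R := by
    intro φ
    rw [mem_ball, dist_eq_norm, KGL2_52.norm_pt_sub p hr0.le]
    exact hr.2
  have hIoc : (volume.restrict (Ioc (-Real.pi) Real.pi) : Measure ℝ) = KGL2_52.m2 :=
    (Measure.restrict_congr_set Ioo_ae_eq_Ioc).symm
  constructor
  · have hm : Measurable (fun φ : ℝ => ‖G (KGL2_52.pt p r φ)‖) :=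
      (hG.comp ((KGL2_52.continuous_pt2 p).comp
        (continuous_const.prodMk continuous_id)).measurable).norm
    have h3 : ∫⁻ φ, ENNReal.ofReal r * N (KGL2_52.pt p r φ) ∂KGL2_52.m2 =
        ENNReal.ofReal r * ∫⁻ φ, ENNReal.ofReal ‖G (KGL2_52.pt p r φ)‖ ∂KGL2_52.m2 := by
      rw [← lintegral_const_mul' _ _ ENNReal.ofReal_ne_top]
      refine lintegral_congr fun φ => ?_
      rw [hN, indicator_of_mem (hmem φ)]
    rw [h3] at hr2
    have h4 : ∫⁻ φ, ENNReal.ofReal ‖G (KGL2_52.pt p r φ)‖ ∂KGL2_52.m2 < ⊤ := by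
      by_contra hcon
      rw [not_lt, top_le_iff] at hcon
      rw [hcon, ENNReal.mul_top] at hr2
      · exact lt_irrefl _ hr2
      · simpa using hr0
    have h5 : Integrable (fun φ : ℝ => ‖G (KGL2_52.pt p r φ)‖) KGL2_52.m2 := by
      refine ⟨hm.aestronglyMeasurable, ?_⟩
      rw [hasFiniteIntegral_iff_ofReal (Eventually.of_forall fun _ => norm_nonneg _)]
      exact h4
    unfold IntegrableOn
    rw [hIoc]
    exact h5
  · rw [hIoc]
    filter_upwards [hr1] with φ₁ hφ
    apply ae_mono (Measure.restrict_le_self : KGL2_52.m2 ≤ volume)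
    have h3 : ∀ᵐ φ₂ : ℝ, r < R →
        F (KGL2_52.pt p r (φ₁ + (φ₂ - φ₁))) - F (KGL2_52.pt p r φ₁) =
        ∫ s in (0:ℝ)..(φ₂ - φ₁), ang p G (rot p s (KGL2_52.pt p r φ₁)) :=
      (measurePreserving_sub_right volume φ₁).quasiMeasurePreserving.ae hφ
    filter_upwards [h3] with φ₂ h4
    have h5 := h4 hr.2
    rw [prim_pt, add_sub_cancel] at h5
    exact h5

theorem polar0 : POLAR0 := by
  intro p R M F G hR hF hG hM hG2 hW
  have hGi := integrableOn_of_sq hG hG2
  have h2 := increment hF hM hG hGi hW (2 * Real.pi)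
  have h3 := Measure.ae_ae_of_ae_prod (KGL2_52.null_prod (ae_iff.mp h2) p)
  have hle : (volume.restrict (Ioo 0 R) : Measure ℝ) ≤ KGL2_52.m1 :=
    Measure.restrict_mono Ioo_subset_Ioi_self le_rfl
  filter_upwards [ae_mono hle h3, ae_restrict_mem measurableSet_Ioo] with r hr1 hr
  have hne : (KGL2_52.m2 : Measure ℝ) ≠ 0 := by
    intro h
    have h4 : (KGL2_52.m2 : Measure ℝ) univ = 0 := by rw [h]; simp
    rw [Measure.restrict_apply_univ, Real.volume_Ioo] at h4
    have : 0 < Real.pi - -Real.pi := by linarith [Real.pi_pos]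
    simp only [ENNReal.ofReal_eq_zero] at h4
    linarith
  have : NeBot (ae (KGL2_52.m2 : Measure ℝ)) := ae_neBot.mpr hne
  obtain ⟨φ, hφ⟩ := hr1.exists
  have hmem : KGL2_52.pt p r φ ∈ ball p R := by
    rw [mem_ball, dist_eq_norm, KGL2_52.norm_pt_sub p hr.1.le]
    exact hr.2
  have h6 : (KGL2_52.pt p r φ ∈ ball p R →
      F (rot p (2 * Real.pi) (KGL2_52.pt p r φ)) - F (KGL2_52.pt p r φ) =
        ∫ s in (0:ℝ)..(2 * Real.pi), ang p G (rot p s (KGL2_52.pt p r φ))) := by
    by_contra hcon
    exact hφ hcon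
  have h7 := h6 hmem
  have hper : ∀ s : ℝ, exp (((s + 2 * Real.pi : ℝ) : ℂ) * I) = exp (s * I) := by
    intro s
    have : (((s + 2 * Real.pi : ℝ) : ℂ) * I) = s * I + 2 * Real.pi * I := by
      push_cast
      ring
    rw [this, Complex.exp_periodic]
  have h8 : rot p (2 * Real.pi) (KGL2_52.pt p r φ) = KGL2_52.pt p r φ := by
    rw [rot_pt]
    unfold KGL2_52.pt
    rw [hper]
  rw [h8, sub_self, prim_pt] at h7
  have hfper : Function.Periodic
      (fun s : ℝ => G (p + r * exp (s * I)) (I * (r * exp (s * I)))) (2 * Real.pi) := by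
    intro s
    simp only [hper]
  have h9 := hfper.intervalIntegral_add_eq φ (-Real.pi)
  rw [← h7] at h9
  have e : (-Real.pi + 2 * Real.pi) = Real.pi := by ring
  rw [e] at h9
  exact h9.symm

end

end Crest.Agent.R235.WKPol_347
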