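import Crest.Agent.R235.WKG_460

/-!
# Row 235, REG-CYL-2: SEP (task 300)
-/

set_option autoImplicit false

open Metric Set
open scoped ContDiff Topology

namespace Crest.Agent.R235.WKSep_387

open Crest.Agent.R235.WKG_460

theorem sep : SEP := by
  intro Mb
  classical
  let K : Set ℂ := closedBall (0 : ℂ) Mb
  have : CompactSpace K := isCompact_iff_compactSpace.mp (isCompact_closedBall (0 : ℂ) Mb)
  let J : {Φ : ℂ → ℝ // ContDiff ℝ ∞ Φ} → C(K, ℝ × (ℂ →L[ℝ] ℝ)) := fun Φ =>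
    ⟨fun w => (Φ.1 w, fderiv ℝ Φ.1 w), by
      have h1 : Continuous Φ.1 := Φ.2.continuous
      have h2 : Continuous (fderiv ℝ Φ.1) := Φ.2.continuous_fderiv (by simp)
      exact (h1.comp continuous_subtype_val).prodMk (h2.comp continuous_subtype_val)⟩
  have : Nonempty (range J) := ⟨⟨J ⟨fun _ => 0, contDiff_const⟩, mem_range_self _⟩⟩
  have : SecondCountableTopology C(K, ℝ × (ℂ →L[ℝ] ℝ)) := inferInstance
  have : TopologicalSpace.SeparableSpace (range J) := inferInstance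
  let u : ℕ → range J := TopologicalSpace.denseSeq (range J)
  have hu : DenseRange u := TopologicalSpace.denseRange_denseSeq (range J)
  choose Ψ hΨ using fun n => (u n).2
  refine ⟨fun n => (Ψ n).1, fun n => (Ψ n).2, ?_⟩
  intro Φ hΦ ε hε
  have hmem : J ⟨Φ, hΦ⟩ ∈ range J := mem_range_self _
  obtain ⟨n, hn⟩ : ∃ n, dist (⟨J ⟨Φ, hΦ⟩, hmem⟩ : range J) (u n) < ε :=
    DenseRange.exists_dist_lt hu _ hε
  refine ⟨n, fun w hw => ?_⟩
  have h1 : dist (J ⟨Φ, hΦ⟩) (J (Ψ n)) < ε := by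
    have := hn
    rw [Subtype.dist_eq, ← hΨ n] at this
    exact this
  have h2 : dist ((J ⟨Φ, hΦ⟩) ⟨w, hw⟩) ((J (Ψ n)) ⟨w, hw⟩) ≤ ε :=
    (ContinuousMap.dist_apply_le_dist (f := J ⟨Φ, hΦ⟩) (g := J (Ψ n)) ⟨w, hw⟩).trans h1.le
  rw [Prod.dist_eq] at h2
  have h3 := (max_le_iff.mp h2)
  exact ⟨by simpa [J, Real.dist_eq] using h3.1, by simpa [J, dist_eq_norm] using h3.2⟩

end Crest.Agent.R235.WKSep_387
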