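import Crest.Agent.R235.WKG_460

/-!
# Row 235, REG-CYL-2, leaf C7 (SHEETS): simple sheets of the Hoelder representative are smooth
solutions whose differential is the slope almost everywhere (helper527)

The hypotheses `Reg1Stmt`, `Reg2Stmt` are arguments.
-/

set_option autoImplicit false

open MeasureTheory Metric Set Filter Complex
open scoped ContDiff Topology ComplexConjugate

namespace Crest.Agent.R235.WKSheet_527

open Crest.Agent.R235.Loc Crest.Agent.R235.WKG_460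

noncomputable section

/-! ### integrability with compactly supported factors -/

/-- a function which is continuous on an open set, multiplied by a continuous function with compact
support inside. -/
lemma integrable_of_cont {U : Set ℂ} {f : ℂ → ℝ} {F : ℂ → ℂ} (hf : Continuous f)
    (hc : HasCompactSupport f) (hs : tsupport f ⊆ U) (hF : ContinuousOn F U) :
    Integrable (fun t => f t • F t) := by
  have h1 : IntegrableOn (fun t => f t • F t) (tsupport f) :=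
    (hf.continuousOn.smul (hF.mono hs)).integrableOn_compact hc
  refine (integrableOn_iff_integrable_of_support_subset ?_).1 h1
  intro t ht
  by_contra h
  exact ht (by simp [image_eq_zero_of_notMem_tsupport h])

lemma integrable_of_loc {U : Set ℂ} {f : ℂ → ℝ} {F : ℂ → ℂ} (hf : Continuous f)
    (hc : HasCompactSupport f) (hs : tsupport f ⊆ U) (hF : LocallyIntegrableOn F U) :
    Integrable (fun t => f t • F t) := by
  have h0 : IntegrableOn F (tsupport f) := hF.integrableOn_compact_subset hs hc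
  have h1 : IntegrableOn (fun t => f t • F t) (tsupport f) :=
    h0.continuousOn_smul hf.continuousOn hc
  refine (integrableOn_iff_integrable_of_support_subset ?_).1 h1
  intro t ht
  by_contra h
  exact ht (by simp [image_eq_zero_of_notMem_tsupport h])

/-- classical derivative = weak derivative almost everywhere. -/
lemma uniq {U : Set ℂ} (hU : IsOpen U) {w : ℂ → ℂ} (hw : ContDiffOn ℝ 1 w U) {G : ℂ → ℂ} (u : ℂ)
    (hG : LocallyIntegrableOn G U)
    (h : ∀ f : ℂ → ℝ, ContDiff ℝ ∞ f → HasCompactSupport f → tsupport f ⊆ U →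
      ∫ t, fderiv ℝ f t u • w t = - ∫ t, f t • G t) :
    ∀ᵐ t, t ∈ U → fderiv ℝ w t u = G t := by
  have hc : ContinuousOn (fun t => fderiv ℝ w t u) U :=
    (hw.continuousOn_fderiv_of_isOpen hU le_rfl).clm_apply continuousOn_const
  have key := hU.ae_eq_zero_of_integral_contDiff_smul_eq_zero
    (f := fun t => fderiv ℝ w t u - G t) (μ := volume)
    ((hc.locallyIntegrableOn hU.measurableSet).sub hG) (by
      intro f hf hfc hfs
      have i1 : Integrable (fun t => f t • fderiv ℝ w t u) :=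
        integrable_of_cont hf.continuous hfc hfs hc
      have i2 : Integrable (fun t => f t • G t) := integrable_of_loc hf.continuous hfc hfs hG
      have hd : Continuous (fun t => fderiv ℝ f t u) :=
        (hf.continuous_fderiv (by simp)).clm_apply continuous_const
      have hdc : HasCompactSupport (fun t => fderiv ℝ f t u) := hfc.fderiv_apply ℝ u
      have hds : tsupport (fun t => fderiv ℝ f t u) ⊆ U :=
        (closure_minimal (fun t ht => by
          by_contra hn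
          apply ht
          have : fderiv ℝ f t = 0 := by
            have := tsupport_fderiv_subset ℝ (f := f)
            by_contra h3
            exact hn (this (subset_tsupport _ h3))
          simp [this]) (isClosed_tsupport f)).trans hfs
      have i3 : Integrable (fun t => fderiv ℝ f t u • w t) :=
        integrable_of_cont hd hdc hds hw.continuousOn
      have i4 : Integrable (fun t => f t • w t) :=
        integrable_of_cont hf.continuous hfc hfs hw.continuousOn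
      have hibp := integral_smul_fderiv_eq_neg_fderiv_smul_of_integrable (μ := volume)
        (f := f) (g := w) (v := u) i3 i1 i4
        (fun x _ => hf.differentiable (by simp) x)
        (fun x hx => (hw.differentiableOn (by simp)).differentiableAt (hU.mem_nhds (hfs hx)))
      have : ∫ t, f t • (fderiv ℝ w t u - G t) = ∫ t, (f t • fderiv ℝ w t u - f t • G t) := by
        congr 1
        funext t
        rw [smul_sub]
      rw [this, integral_sub i1 i2, hibp, h f hf hfc hfs]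
      ring)
  filter_upwards [key] with t ht htU
  exact sub_eq_zero.1 (ht htU)

/-! ### affine changes of the base variable -/

/-- `ζ ↦ z₀ + e ζ`. -/
def aff (z0 : ℂ) (e : ℂ ≃L[ℝ] ℂ) : ℂ ≃ₜ ℂ := e.toHomeomorph.trans (Homeomorph.addLeft z0)

lemma aff_apply (z0 : ℂ) (e : ℂ ≃L[ℝ] ℂ) (ζ : ℂ) : aff z0 e ζ = z0 + e ζ := rfl

lemma aff_symm_apply (z0 : ℂ) (e : ℂ ≃L[ℝ] ℂ) (z : ℂ) : (aff z0 e).symm z = e.symm (-z0 + z) :=
  rfl

lemma hasFDerivAt_aff (z0 : ℂ) (e : ℂ ≃L[ℝ] ℂ) (ζ : ℂ) :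
    HasFDerivAt (aff z0 e) (e : ℂ →L[ℝ] ℂ) ζ := by
  have := (e : ℂ →L[ℝ] ℂ).hasFDerivAt (x := ζ)
  exact this.const_add z0

lemma hasFDerivAt_aff_symm (z0 : ℂ) (e : ℂ ≃L[ℝ] ℂ) (z : ℂ) :
    HasFDerivAt (aff z0 e).symm (e.symm : ℂ →L[ℝ] ℂ) z := by
  have h1 : HasFDerivAt (fun z : ℂ => -z0 + z) (ContinuousLinearMap.id ℝ ℂ) z :=
    (hasFDerivAt_id z).const_add (-z0)
  have h2 := (e.symm : ℂ →L[ℝ] ℂ).hasFDerivAt (x := -z0 + z)
  have h3 := h2.comp z h1
  rw [ContinuousLinearMap.comp_id] at h3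
  exact h3

lemma contDiff_aff (z0 : ℂ) (e : ℂ ≃L[ℝ] ℂ) : ContDiff ℝ ∞ (aff z0 e) :=
  contDiff_const.add e.contDiff

lemma contDiff_aff_symm (z0 : ℂ) (e : ℂ ≃L[ℝ] ℂ) : ContDiff ℝ ∞ (aff z0 e).symm :=
  e.symm.contDiff.comp (contDiff_const.add contDiff_id)

lemma map_aff (z0 : ℂ) (e : ℂ ≃L[ℝ] ℂ) : ∃ c : ENNReal, c ≠ ⊤ ∧ c ≠ 0 ∧
    Measure.map (aff z0 e) (volume : Measure ℂ) = c • (volume : Measure ℂ) := by
  have hdet : LinearMap.det ((e : ℂ →L[ℝ] ℂ) : ℂ →ₗ[ℝ] ℂ) ≠ 0 := by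
    have := e.toLinearEquiv.isUnit_det'
    exact this.ne_zero
  have h1 := Measure.map_linearMap_addHaar_eq_smul_addHaar (volume : Measure ℂ) hdet
  refine ⟨ENNReal.ofReal |(LinearMap.det ((e : ℂ →L[ℝ] ℂ) : ℂ →ₗ[ℝ] ℂ))⁻¹|, ENNReal.ofReal_ne_top,
    ?_, ?_⟩
  · rw [Ne, ENNReal.ofReal_eq_zero, not_le]
    exact abs_pos.2 (inv_ne_zero hdet)
  · have h2 : (aff z0 e : ℂ → ℂ) = (fun z => z0 + z) ∘ (((e : ℂ →L[ℝ] ℂ) : ℂ →ₗ[ℝ] ℂ) : ℂ → ℂ) := by
      funext ζ
      rfl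
    have h3 : Measurable (((e : ℂ →L[ℝ] ℂ) : ℂ →ₗ[ℝ] ℂ) : ℂ → ℂ) := e.continuous.measurable
    rw [h2, ← Measure.map_map (g := fun z => z0 + z) (by fun_prop) h3]
    rw [h1, Measure.map_smul, map_add_left_eq_self]

lemma ae_aff (z0 : ℂ) (e : ℂ ≃L[ℝ] ℂ) {P : ℂ → Prop} (h : ∀ᵐ z, P z) :
    ∀ᵐ ζ, P (aff z0 e ζ) := by
  obtain ⟨c, hc, hc0, hm⟩ := map_aff z0 e
  have : Measure.QuasiMeasurePreserving (aff z0 e) (volume : Measure ℂ) (volume : Measure ℂ) :=
    ⟨(aff z0 e).continuous.measurable, by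
      rw [hm]
      exact Measure.smul_absolutelyContinuous⟩
  exact this.ae h

lemma ae_aff_symm (z0 : ℂ) (e : ℂ ≃L[ℝ] ℂ) {P : ℂ → Prop} (h : ∀ᵐ ζ, P (aff z0 e ζ)) :
    ∀ᵐ z, P z := by
  have h1 := ae_aff (e.symm (-z0)) e.symm h
  filter_upwards [h1] with z hz
  have : aff z0 e (aff (e.symm (-z0)) e.symm z) = z := by
    simp [aff_apply]
  rwa [this] at hz

lemma integral_aff (z0 : ℂ) (e : ℂ ≃L[ℝ] ℂ) : ∃ c : ℝ, c ≠ 0 ∧ ∀ F : ℂ → ℂ,
    ∫ ζ, F (aff z0 e ζ) = c • ∫ z, F z := by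
  obtain ⟨c, hc, hc0, hm⟩ := map_aff z0 e
  refine ⟨c.toReal, (ENNReal.toReal_pos hc0 hc).ne', fun F => ?_⟩
  rw [← integral_smul_measure, ← hm]
  exact ((aff z0 e).measurableEmbedding.integral_map F).symm

/-- weak gradient on an open set (real test functions, complex values). -/
structure WG (U : Set ℂ) (w : ℂ → ℂ) (g : ℂ → (ℂ →L[ℝ] ℂ)) : Prop where
  isOpen : IsOpen U
  cont : ContinuousOn w U
  mem : MemLp g 2 (volume.restrict U)
  weak : ∀ f : ℂ → ℝ, ContDiff ℝ ∞ f → HasCompactSupport f → tsupport f ⊆ U → ∀ u : ℂ,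
    ∫ t, fderiv ℝ f t u • w t = - ∫ t, f t • g t u

lemma WG.mono {U V : Set ℂ} {w : ℂ → ℂ} {g : ℂ → (ℂ →L[ℝ] ℂ)} (h : WG U w g) (hV : IsOpen V)
    (hVU : V ⊆ U) : WG V w g :=
  ⟨hV, h.cont.mono hVU, h.mem.mono_measure (Measure.restrict_mono hVU le_rfl),
    fun f h1 h2 h3 u => h.weak f h1 h2 (h3.trans hVU) u⟩

lemma WG.loc {U : Set ℂ} {w : ℂ → ℂ} {g : ℂ → (ℂ →L[ℝ] ℂ)} (h : WG U w g) (u : ℂ) :
    LocallyIntegrableOn (fun t => g t u) U := by
  have h1 : MemLp (fun t => g t u) 2 (volume.restrict U) :=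
    (ContinuousLinearMap.apply ℝ ℂ u).comp_memLp' h.mem
  have h2 : LocallyIntegrable (fun t => g t u) (volume.restrict U) :=
    h1.locallyIntegrable (by norm_num)
  exact locallyIntegrableOn_of_locallyIntegrable_restrict h2

lemma clm_eq {A B : ℂ →L[ℝ] ℂ} (h1 : A 1 = B 1) (hI : A I = B I) : A = B := by
  ext v
  have hv : v = v.re • (1 : ℂ) + v.im • I := by
    simp
  rw [hv]
  simp only [map_add, map_smul, h1, hI]

lemma WG.uniq {U : Set ℂ} {w : ℂ → ℂ} {g : ℂ → (ℂ →L[ℝ] ℂ)} (h : WG U w g)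
    (hw : ContDiffOn ℝ 1 w U) : ∀ᵐ t, t ∈ U → fderiv ℝ w t = g t := by
  have h1 := WKSheet_527.uniq h.isOpen hw 1 (h.loc 1) fun f a b c => h.weak f a b c 1
  have h2 := WKSheet_527.uniq h.isOpen hw I (h.loc I) fun f a b c => h.weak f a b c I
  filter_upwards [h1, h2] with t e1 e2 ht
  exact clm_eq (e1 ht) (e2 ht)

lemma tsupport_fderiv_apply {f : ℂ → ℝ} {U : Set ℂ} (hfs : tsupport f ⊆ U) (u : ℂ) :
    tsupport (fun t => fderiv ℝ f t u) ⊆ U := by
  refine (closure_minimal (fun t ht => ?_) (isClosed_tsupport f)).trans hfs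
  by_contra hn
  apply ht
  have : fderiv ℝ f t = 0 := by
    by_contra h3
    exact hn (tsupport_fderiv_subset ℝ (f := f) (subset_tsupport _ h3))
  simp [this]

lemma WG.comp_aff {U : Set ℂ} {w : ℂ → ℂ} {g : ℂ → (ℂ →L[ℝ] ℂ)} (h : WG U w g) (z0 : ℂ)
    (e : ℂ ≃L[ℝ] ℂ) :
    WG ((aff z0 e) ⁻¹' U) (fun ζ => w (aff z0 e ζ))
      (fun ζ => (g (aff z0 e ζ)).comp (e : ℂ →L[ℝ] ℂ)) := by
  refine ⟨h.isOpen.preimage (aff z0 e).continuous,
    h.cont.comp (aff z0 e).continuous.continuousOn (fun _ hζ => hζ), ?_, ?_⟩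
  · obtain ⟨c, hc, hc0, hm⟩ := map_aff z0 e
    have h1 : Measure.map (aff z0 e) ((volume : Measure ℂ).restrict ((aff z0 e) ⁻¹' U)) =
        c • (volume : Measure ℂ).restrict U := by
      rw [← (aff z0 e).measurableEmbedding.restrict_map, hm, Measure.restrict_smul]
    have h2 : MemLp g 2 (Measure.map (aff z0 e)
        ((volume : Measure ℂ).restrict ((aff z0 e) ⁻¹' U))) := by
      rw [h1]
      exact h.mem.smul_measure hc
    have h3 := h2.comp_of_map (aff z0 e).continuous.measurable.aemeasurable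
    exact ((ContinuousLinearMap.compL ℝ ℂ ℂ ℂ).flip (e : ℂ →L[ℝ] ℂ)).comp_memLp' h3
  · intro f hf hfc hfs u
    obtain ⟨c, hc, hF⟩ := integral_aff z0 e
    have k1 : ContDiff ℝ ∞ (f ∘ (aff z0 e).symm) := hf.comp (contDiff_aff_symm z0 e)
    have k2 : HasCompactSupport (f ∘ (aff z0 e).symm) :=
      hfc.comp_isClosedEmbedding (aff z0 e).symm.isClosedEmbedding
    have k3 : tsupport (f ∘ (aff z0 e).symm) ⊆ U := by
      rw [tsupport_comp_eq_preimage]
      intro z hz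
      have := hfs hz
      simpa using this
    have key := h.weak _ k1 k2 k3 (e u)
    have hd : ∀ z, fderiv ℝ (f ∘ (aff z0 e).symm) z (e u) = fderiv ℝ f ((aff z0 e).symm z) u := by
      intro z
      have := ((hf.differentiable (by simp) ((aff z0 e).symm z)).hasFDerivAt).comp z
        (hasFDerivAt_aff_symm z0 e z)
      rw [this.fderiv]
      simp
    have e1 := hF (fun z => fderiv ℝ f ((aff z0 e).symm z) u • w z)
    have e2 := hF (fun z => f ((aff z0 e).symm z) • g z (e u))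
    simp only [Homeomorph.symm_apply_apply] at e1 e2
    simp only [hd, Function.comp_apply] at key
    have e3 : ∫ ζ, f ζ • ((g (aff z0 e ζ)).comp (e : ℂ →L[ℝ] ℂ)) u =
        ∫ ζ, f ζ • g (aff z0 e ζ) (e u) := rfl
    rw [e3, e1, e2, key, smul_neg]

/-- complex test functions -/
lemma WG.complex {U : Set ℂ} {w : ℂ → ℂ} {g : ℂ → (ℂ →L[ℝ] ℂ)} (h : WG U w g) {φ : ℂ → ℂ}
    (hφ : ContDiff ℝ ∞ φ) (hc : HasCompactSupport φ) (hs : tsupport φ ⊆ U) (u : ℂ) :
    (Integrable fun t => fderiv ℝ φ t u * w t) ∧ (Integrable fun t => φ t * g t u) ∧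
    ∫ t, fderiv ℝ φ t u * w t = - ∫ t, φ t * g t u := by
  have r1 : ContDiff ℝ ∞ (fun t => (φ t).re) := reCLM.contDiff.comp hφ
  have i1 : ContDiff ℝ ∞ (fun t => (φ t).im) := imCLM.contDiff.comp hφ
  have r2 : HasCompactSupport (fun t => (φ t).re) := hc.comp_left (g := Complex.re) rfl
  have i2 : HasCompactSupport (fun t => (φ t).im) := hc.comp_left (g := Complex.im) rfl
  have r3 : tsupport (fun t => (φ t).re) ⊆ U :=
    (tsupport_comp_subset (g := Complex.re) rfl φ).trans hs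
  have i3 : tsupport (fun t => (φ t).im) ⊆ U :=
    (tsupport_comp_subset (g := Complex.im) rfl φ).trans hs
  have rd : ∀ t, fderiv ℝ (fun t => (φ t).re) t u = (fderiv ℝ φ t u).re := by
    intro t
    have := (reCLM.hasFDerivAt (x := φ t)).comp t (hφ.differentiable (by simp) t).hasFDerivAt
    have h2 : HasFDerivAt (fun t => (φ t).re) (reCLM.comp (fderiv ℝ φ t)) t := this
    rw [h2.fderiv]
    rfl
  have id : ∀ t, fderiv ℝ (fun t => (φ t).im) t u = (fderiv ℝ φ t u).im := by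
    intro t
    have := (imCLM.hasFDerivAt (x := φ t)).comp t (hφ.differentiable (by simp) t).hasFDerivAt
    have h2 : HasFDerivAt (fun t => (φ t).im) (imCLM.comp (fderiv ℝ φ t)) t := this
    rw [h2.fderiv]
    rfl
  have kr := h.weak _ r1 r2 r3 u
  have ki := h.weak _ i1 i2 i3 u
  have hdr : Continuous (fun t => fderiv ℝ (fun t => (φ t).re) t u) :=
    (r1.continuous_fderiv (by simp)).clm_apply continuous_const
  have hdi : Continuous (fun t => fderiv ℝ (fun t => (φ t).im) t u) :=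
    (i1.continuous_fderiv (by simp)).clm_apply continuous_const
  have a1 : Integrable (fun t => fderiv ℝ (fun t => (φ t).re) t u • w t) :=
    integrable_of_cont hdr (r2.fderiv_apply ℝ u) (tsupport_fderiv_apply r3 u) h.cont
  have a2 : Integrable (fun t => fderiv ℝ (fun t => (φ t).im) t u • w t) :=
    integrable_of_cont hdi (i2.fderiv_apply ℝ u) (tsupport_fderiv_apply i3 u) h.cont
  have b1 : Integrable (fun t => (φ t).re • g t u) :=
    integrable_of_loc r1.continuous r2 r3 (h.loc u)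
  have b2 : Integrable (fun t => (φ t).im • g t u) :=
    integrable_of_loc i1.continuous i2 i3 (h.loc u)
  have e1 : (fun t => fderiv ℝ φ t u * w t) = fun t =>
      fderiv ℝ (fun t => (φ t).re) t u • w t + I * (fderiv ℝ (fun t => (φ t).im) t u • w t) := by
    funext t
    rw [rd, id]
    simp only [real_smul]
    rw [← mul_assoc, ← add_mul]
    congr 1
    rw [mul_comm I, re_add_im]
  have e2 : (fun t => φ t * g t u) = fun t => (φ t).re • g t u + I * ((φ t).im • g t u) := by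
    funext t
    simp only [real_smul]
    rw [← mul_assoc, ← add_mul]
    congr 1
    rw [mul_comm I, re_add_im]
  refine ⟨?_, ?_, ?_⟩
  · rw [e1]
    exact a1.add (a2.const_mul I)
  · rw [e2]
    exact b1.add (b2.const_mul I)
  · rw [e1, e2, integral_add a1 (a2.const_mul I), integral_add b1 (b2.const_mul I),
      integral_const_mul, integral_const_mul, kr, ki]
    ring

/-- `WG` on a ball gives the structure `WD` of `NWIface_334`. -/
lemma WG.wd {w : ℂ → ℂ} {g : ℂ → (ℂ →L[ℝ] ℂ)} {r : ℝ} (h : WG (ball 0 r) w g) :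
    NWIface_334.WD w (fun t => NWDefs_334.dl (g t)) (fun t => NWDefs_334.dbl (g t)) r := by
  have l1 : MemLp (fun t => g t 1) 2 (volume.restrict (ball (0 : ℂ) r)) :=
    (ContinuousLinearMap.apply ℝ ℂ (1 : ℂ)).comp_memLp' h.mem
  have l2 : MemLp (fun t => g t I) 2 (volume.restrict (ball (0 : ℂ) r)) :=
    (ContinuousLinearMap.apply ℝ ℂ (I : ℂ)).comp_memLp' h.mem
  refine ⟨h.cont, ?_, ?_, fun φ h1 h2 h3 => ?_⟩
  · exact (l1.sub (l2.const_mul I)).const_mul ((2 : ℂ)⁻¹)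
  · exact (l1.add (l2.const_mul I)).const_mul ((2 : ℂ)⁻¹)
  · obtain ⟨p1, q1, k1⟩ := h.complex h1 h2 h3 1
    obtain ⟨p2, q2, k2⟩ := h.complex h1 h2 h3 I
    constructor
    · have e1 : (fun z => NWDefs_334.dz φ z • w z) = fun z =>
          (2 : ℂ)⁻¹ * (fderiv ℝ φ z 1 * w z - I * (fderiv ℝ φ z I * w z)) := by
        funext z
        simp only [NWDefs_334.dz, NWDefs_334.dl, smul_eq_mul]
        ring
      have e2 : (fun z => φ z • NWDefs_334.dl (g z)) = fun z =>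
          (2 : ℂ)⁻¹ * (φ z * g z 1 - I * (φ z * g z I)) := by
        funext z
        simp only [NWDefs_334.dl, smul_eq_mul]
        ring
      rw [e1, e2, integral_const_mul, integral_const_mul, integral_sub p1 (p2.const_mul I),
        integral_sub q1 (q2.const_mul I), integral_const_mul, integral_const_mul, k1, k2]
      ring
    · have e1 : (fun z => NWDefs_334.dzb φ z • w z) = fun z =>
          (2 : ℂ)⁻¹ * (fderiv ℝ φ z 1 * w z + I * (fderiv ℝ φ z I * w z)) := by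
        funext z
        simp only [NWDefs_334.dzb, NWDefs_334.dbl, smul_eq_mul]
        ring
      have e2 : (fun z => φ z • NWDefs_334.dbl (g z)) = fun z =>
          (2 : ℂ)⁻¹ * (φ z * g z 1 + I * (φ z * g z I)) := by
        funext z
        simp only [NWDefs_334.dbl, smul_eq_mul]
        ring
      rw [e1, e2, integral_const_mul, integral_const_mul, integral_add p1 (p2.const_mul I),
        integral_add q1 (q2.const_mul I), integral_const_mul, integral_const_mul, k1, k2]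
      ring

/-! ### the linear change of variables `ζ ↦ ζ + m ζ̄` -/

lemma apply_eq (A : ℂ →L[ℝ] ℂ) (v : ℂ) : A v = lz A * v + lzb A * conj v := by
  have hv : v = v.re • (1 : ℂ) + v.im • I := by
    simp
  have h1 : A v = v.re * A 1 + v.im * A I := by
    conv_lhs => rw [hv, map_add, map_smul, map_smul]
    simp only [real_smul]
  rw [h1, lz, lzb]
  apply Complex.ext <;> simp <;> ring

lemma exists_ell (m : ℂ) (hm : ‖m‖ < 1) : ∃ e : ℂ ≃L[ℝ] ℂ, ∀ ζ, e ζ = ζ + m * conj ζ := by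
  have hmm : m * conj m = ((‖m‖ ^ 2 : ℝ) : ℂ) := by
    rw [mul_conj, normSq_eq_norm_sq]
  have hpos : (0 : ℝ) < 1 - ‖m‖ ^ 2 := by nlinarith [norm_nonneg m]
  have hne : (1 : ℂ) - ((‖m‖ ^ 2 : ℝ) : ℂ) ≠ 0 := by
    rw [← ofReal_one, ← ofReal_sub]
    exact ofReal_ne_zero.2 hpos.ne'
  let f1 : ℂ →L[ℝ] ℂ := ContinuousLinearMap.id ℝ ℂ + m • (conjCLE : ℂ →L[ℝ] ℂ)
  let f2 : ℂ →L[ℝ] ℂ := ((1 : ℂ) - ((‖m‖ ^ 2 : ℝ) : ℂ))⁻¹ •
    (ContinuousLinearMap.id ℝ ℂ - m • (conjCLE : ℂ →L[ℝ] ℂ))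
  have e1 : ∀ ζ, f1 ζ = ζ + m * conj ζ := fun ζ => rfl
  have e2 : ∀ ζ, f2 ζ = ((1 : ℂ) - ((‖m‖ ^ 2 : ℝ) : ℂ))⁻¹ * (ζ - m * conj ζ) := fun ζ => rfl
  refine ⟨ContinuousLinearEquiv.equivOfInverse f1 f2 (fun ζ => ?_) (fun ζ => ?_), fun ζ => rfl⟩
  · rw [e1, e2]
    simp only [map_add, map_mul, conj_conj]
    rw [inv_mul_eq_iff_eq_mul₀ hne, ← hmm]
    ring
  · rw [e2, e1]
    simp only [map_sub, map_mul, conj_conj, map_inv₀, map_one, conj_ofReal]
    field_simp
    rw [← hmm]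
    ring

lemma dl_comp (A : ℂ →L[ℝ] ℂ) (m : ℂ) (e : ℂ ≃L[ℝ] ℂ) (he : ∀ ζ, e ζ = ζ + m * conj ζ) :
    NWDefs_334.dl (A.comp (e : ℂ →L[ℝ] ℂ)) = lz A + conj m * lzb A := by
  have h1 : (A.comp (e : ℂ →L[ℝ] ℂ)) 1 = lz A * (1 + m) + lzb A * (1 + conj m) := by
    change A (e 1) = _
    rw [he, apply_eq A]
    simp
  have h2 : (A.comp (e : ℂ →L[ℝ] ℂ)) I = lz A * (I - m * I) + lzb A * (-I + conj m * I) := by
    change A (e I) = _
    rw [he, apply_eq A]
    simp only [map_add, map_mul, map_neg, conj_I, neg_neg]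
    ring
  rw [NWDefs_334.dl, h1, h2]
  simp only [smul_eq_mul]
  have hI : I * I = -1 := I_mul_I
  linear_combination (-1 / 2 : ℂ) * (lz A * (1 - m) + lzb A * (-1 + conj m)) * hI

lemma dbl_comp (A : ℂ →L[ℝ] ℂ) (m : ℂ) (e : ℂ ≃L[ℝ] ℂ) (he : ∀ ζ, e ζ = ζ + m * conj ζ) :
    NWDefs_334.dbl (A.comp (e : ℂ →L[ℝ] ℂ)) = lzb A + m * lz A := by
  have h1 : (A.comp (e : ℂ →L[ℝ] ℂ)) 1 = lz A * (1 + m) + lzb A * (1 + conj m) := by
    change A (e 1) = _
    rw [he, apply_eq A]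
    simp
  have h2 : (A.comp (e : ℂ →L[ℝ] ℂ)) I = lz A * (I - m * I) + lzb A * (-I + conj m * I) := by
    change A (e I) = _
    rw [he, apply_eq A]
    simp only [map_add, map_mul, map_neg, conj_I, neg_neg]
    ring
  rw [NWDefs_334.dbl, h1, h2]
  simp only [smul_eq_mul]
  have hI : I * I = -1 := I_mul_I
  linear_combination (1 / 2 : ℂ) * (lz A * (1 - m) + lzb A * (-1 + conj m)) * hI

lemma one_add_ne {m x : ℂ} (hm : ‖m‖ < 1) (hx : ‖x‖ < 1) : 1 + conj m * x ≠ 0 := by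
  intro h
  have h1 : conj m * x = -1 := by linear_combination h
  have h2 : ‖conj m * x‖ = 1 := by rw [h1]; simp
  rw [norm_mul, RCLike.norm_conj] at h2
  nlinarith [norm_nonneg m, norm_nonneg x]

/-- **local regularity**: a Hoelder weak solution is smooth. -/
theorem locreg (hR1 : NWIface_334.Reg1Stmt) (hR2 : NWIface_334.Reg2Stmt) {μ β : ℂ × ℂ → ℂ}
    (hμ : ContDiff ℝ ∞ μ) (hβ : ContDiff ℝ ∞ β) (hμ1 : ∀ p, ‖μ p‖ < 1) {w : ℂ → ℂ}
    {g : ℂ → (ℂ →L[ℝ] ℂ)} {z0 : ℂ} {ρ C b : ℝ} (hρ : 0 < ρ) (hb0 : 0 < b) (hb1 : b < 1)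
    (hC : 0 ≤ C) (hw : WG (ball z0 ρ) w g)
    (hH : ∀ x ∈ ball z0 ρ, ∀ y ∈ ball z0 ρ, ‖w x - w y‖ ≤ C * dist x y ^ b)
    (hpde : ∀ᵐ t, t ∈ ball z0 ρ → lzb (g t) = μ (t, w t) * lz (g t) - β (t, w t)) :
    ∃ r > 0, r ≤ ρ ∧ ContDiffOn ℝ ∞ w (ball z0 r) := by
  obtain ⟨m, hmdef⟩ : ∃ m : ℂ, m = -μ (z0, w z0) := ⟨_, rfl⟩
  have hm : ‖m‖ < 1 := by rw [hmdef, norm_neg]; exact hμ1 _
  obtain ⟨e, he⟩ := exists_ell m hm
  have hlip : ∀ ζ, ‖e ζ‖ ≤ 2 * ‖ζ‖ := by
    intro ζ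
    rw [he]
    calc ‖ζ + m * conj ζ‖ ≤ ‖ζ‖ + ‖m * conj ζ‖ := norm_add_le _ _
      _ ≤ ‖ζ‖ + 1 * ‖ζ‖ := by
        gcongr
        rw [norm_mul, RCLike.norm_conj]
        gcongr
      _ = 2 * ‖ζ‖ := by ring
  set T := aff z0 e with hT
  have hTd : ∀ x y, dist (T x) (T y) ≤ 2 * dist x y := by
    intro x y
    rw [hT, aff_apply, aff_apply, dist_add_left, dist_eq_norm, ← map_sub, dist_eq_norm]
    exact hlip _
  have hT0 : T 0 = z0 := by rw [hT, aff_apply, map_zero, add_zero]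
  have hr : (0 : ℝ) < ρ / 2 := by positivity
  have hTb : ∀ ζ ∈ ball (0 : ℂ) (ρ / 2), T ζ ∈ ball z0 ρ := by
    intro ζ hζ
    rw [mem_ball] at hζ ⊢
    have := hTd ζ 0
    rw [hT0] at this
    linarith
  have hWG : WG (ball 0 (ρ / 2)) (fun ζ => w (T ζ)) (fun ζ => (g (T ζ)).comp (e : ℂ →L[ℝ] ℂ)) :=
    (hw.comp_aff z0 e).mono isOpen_ball hTb
  have hTs : ContDiff ℝ ∞ T := contDiff_aff z0 e
  -- the coefficients
  have hTμ : ContDiff ℝ ∞ (fun p : ℂ × ℂ => μ (T p.1, p.2)) :=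
    hμ.comp ((hTs.comp contDiff_fst).prodMk contDiff_snd)
  have hTβ : ContDiff ℝ ∞ (fun p : ℂ × ℂ => β (T p.1, p.2)) :=
    hβ.comp ((hTs.comp contDiff_fst).prodMk contDiff_snd)
  have hden : ∀ p : ℂ × ℂ, 1 + conj m * μ (T p.1, p.2) ≠ 0 := fun p => one_add_ne hm (hμ1 _)
  obtain ⟨k, hk⟩ : ∃ k : ℂ × ℂ → ℂ, k = fun p =>
    (μ (T p.1, p.2) + m) * (1 + conj m * μ (T p.1, p.2))⁻¹ := ⟨_, rfl⟩
  have hks : ContDiff ℝ ∞ k := by
    rw [hk]
    exact (hTμ.add contDiff_const).mul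
      ((contDiff_const.add (contDiff_const.mul hTμ)).inv hden)
  obtain ⟨B, hB⟩ : ∃ B : ℂ × ℂ → ℂ →L[ℝ] ℂ, B = fun p => k p • ContinuousLinearMap.id ℝ ℂ :=
    ⟨_, rfl⟩
  have hBs : ContDiff ℝ ∞ B := by
    rw [hB]
    exact hks.smul contDiff_const
  obtain ⟨b', hb'⟩ : ∃ b' : ℂ × ℂ → ℂ, b' = fun p =>
    k p * (conj m * β (T p.1, p.2)) - β (T p.1, p.2) := ⟨_, rfl⟩
  have hbs : ContDiff ℝ ∞ b' := by
    rw [hb']
    exact (hks.mul (contDiff_const.mul hTβ)).sub hTβ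
  have hB0 : B (0, w (T 0)) = 0 := by
    rw [hB, hk]
    simp only [hT0]
    rw [hmdef, add_neg_cancel, zero_mul]
    ext v
    simp
  -- the equation
  have halg : ∀ (A : ℂ →L[ℝ] ℂ) (ζ : ℂ), lzb A = μ (T ζ, w (T ζ)) * lz A - β (T ζ, w (T ζ)) →
      NWDefs_334.dbl (A.comp (e : ℂ →L[ℝ] ℂ)) =
        B (ζ, w (T ζ)) (NWDefs_334.dl (A.comp (e : ℂ →L[ℝ] ℂ))) + b' (ζ, w (T ζ)) := by
    intro A ζ hA
    rw [dl_comp A m e he, dbl_comp A m e he]
    have hkD : k (ζ, w (T ζ)) * (1 + conj m * μ (T ζ, w (T ζ))) = μ (T ζ, w (T ζ)) + m := by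
      rw [hk]
      exact inv_mul_cancel_right₀ (hden (ζ, w (T ζ))) _
    have hBv : ∀ v : ℂ, B (ζ, w (T ζ)) v = k (ζ, w (T ζ)) * v := by
      intro v
      rw [hB]
      rfl
    have hbv : b' (ζ, w (T ζ)) = k (ζ, w (T ζ)) * (conj m * β (T ζ, w (T ζ))) -
        β (T ζ, w (T ζ)) := by
      rw [hb']
    rw [hBv, hbv, hA]
    linear_combination (-lz A) * hkD
  have heq : ∀ᵐ ζ, ζ ∈ ball (0 : ℂ) (ρ / 2) →
      NWDefs_334.dbl ((g (T ζ)).comp (e : ℂ →L[ℝ] ℂ)) =
        B (ζ, w (T ζ)) (NWDefs_334.dl ((g (T ζ)).comp (e : ℂ →L[ℝ] ℂ))) + b' (ζ, w (T ζ)) := by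
    have := ae_aff z0 e hpde
    filter_upwards [this] with ζ h1 h2
    exact halg _ ζ (h1 (hTb ζ h2))
  have hhol : ∀ x ∈ ball (0 : ℂ) (ρ / 2), ∀ y ∈ ball (0 : ℂ) (ρ / 2),
      ‖w (T x) - w (T y)‖ ≤ (C * 2 ^ b) * dist x y ^ b := by
    intro x hx y hy
    refine (hH _ (hTb x hx) _ (hTb y hy)).trans ?_
    have : dist (T x) (T y) ^ b ≤ (2 * dist x y) ^ b :=
      Real.rpow_le_rpow dist_nonneg (hTd x y) hb0.le
    rw [Real.mul_rpow (by norm_num) dist_nonneg] at this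
    calc C * dist (T x) (T y) ^ b ≤ C * (2 ^ b * dist x y ^ b) := by gcongr
      _ = (C * 2 ^ b) * dist x y ^ b := by ring
  obtain ⟨r', hr', F, hF⟩ := hR1 ℂ b hb0 hb1 B b' (hBs.of_le (by simp)) (hbs.of_le (by simp))
    (fun ζ => w (T ζ)) _ _ (ρ / 2) (C * 2 ^ b) hr hWG.wd hhol heq hB0
  have hFd : ∀ x, HasFDerivAt (NWIface_334.C1f F) (NWIface_334.C1d F x) x := F.2
  have hFc : Continuous (NWIface_334.C1d F) := F.1.2.1.1.continuous
  have hF1 : ContDiff ℝ 1 (NWIface_334.C1f F) := by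
    rw [contDiff_one_iff_fderiv]
    refine ⟨fun x => (hFd x).differentiableAt, ?_⟩
    have : fderiv ℝ (NWIface_334.C1f F) = NWIface_334.C1d F := by
      funext x
      exact (hFd x).fderiv
    rw [this]
    exact hFc
  set r1 := min (ρ / 2) r' with hr1
  have hr1p : 0 < r1 := lt_min hr hr'
  have hFeq : ∀ ζ ∈ ball (0 : ℂ) r1, NWIface_334.C1f F ζ = w (T ζ) := fun ζ hζ =>
    hF ζ (ball_subset_ball (min_le_right _ _) hζ)
  have hfC1 : ContDiffOn ℝ 1 (fun ζ => w (T ζ)) (ball (0 : ℂ) r1) :=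
    hF1.contDiffOn.congr fun ζ hζ => (hFeq ζ hζ).symm
  have hWG1 : WG (ball 0 r1) (fun ζ => w (T ζ)) (fun ζ => (g (T ζ)).comp (e : ℂ →L[ℝ] ℂ)) :=
    hWG.mono isOpen_ball (ball_subset_ball (min_le_left _ _))
  have huni := hWG1.uniq hfC1
  have hder : ∀ ζ ∈ ball (0 : ℂ) r1, fderiv ℝ (fun ζ => w (T ζ)) ζ = NWIface_334.C1d F ζ := by
    intro ζ hζ
    have h1 : (fun ζ => w (T ζ)) =ᶠ[𝓝 ζ] NWIface_334.C1f F := by
      filter_upwards [isOpen_ball.mem_nhds hζ] with x hx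
      exact (hFeq x hx).symm
    rw [h1.fderiv_eq, (hFd ζ).fderiv]
  have hae : ∀ᵐ ζ, ζ ∈ ball (0 : ℂ) r1 → NWDefs_334.dbl (NWIface_334.C1d F ζ) =
      B (ζ, NWIface_334.C1f F ζ) (NWDefs_334.dl (NWIface_334.C1d F ζ)) +
        b' (ζ, NWIface_334.C1f F ζ) := by
    filter_upwards [huni, heq] with ζ h1 h2 h3
    have h4 := h2 (ball_subset_ball (min_le_left _ _) h3)
    rw [← h1 h3, hder ζ h3] at h4
    rw [hFeq ζ h3]
    exact h4
  have cdl : Continuous (fun L : ℂ →L[ℝ] ℂ => NWDefs_334.dl L) := by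
    unfold NWDefs_334.dl
    fun_prop
  have cdbl : Continuous (fun L : ℂ →L[ℝ] ℂ => NWDefs_334.dbl L) := by
    unfold NWDefs_334.dbl
    fun_prop
  have hev : ∀ ζ ∈ ball (0 : ℂ) r1, NWDefs_334.dbl (NWIface_334.C1d F ζ) =
      B (ζ, NWIface_334.C1f F ζ) (NWDefs_334.dl (NWIface_334.C1d F ζ)) +
        b' (ζ, NWIface_334.C1f F ζ) := by
    have hFcont : Continuous (NWIface_334.C1f F) := hF1.continuous
    have h1 : Continuous fun ζ => NWDefs_334.dbl (NWIface_334.C1d F ζ) := cdbl.comp hFc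
    have h2 : Continuous fun ζ => B (ζ, NWIface_334.C1f F ζ)
        (NWDefs_334.dl (NWIface_334.C1d F ζ)) + b' (ζ, NWIface_334.C1f F ζ) :=
      ((hBs.continuous.comp (continuous_id.prodMk hFcont)).clm_apply (cdl.comp hFc)).add
        (hbs.continuous.comp (continuous_id.prodMk hFcont))
    exact Measure.eqOn_open_of_ae_eq (μ := volume)
      ((ae_restrict_iff' measurableSet_ball).2 hae) isOpen_ball h1.continuousOn h2.continuousOn
  have hB0' : B (0, NWIface_334.C1f F 0) = 0 := by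
    rw [hFeq 0 (mem_ball_self hr1p)]
    exact hB0
  obtain ⟨r2, hr2, hsm⟩ := hR2 ℂ b hb0 hb1 B b' hBs hbs F r1 hr1p hev hB0'
  -- back to the base
  have hsymm0 : T.symm z0 = 0 := by
    rw [← hT0]
    exact T.symm_apply_apply 0
  have hnh : T.symm ⁻¹' (ball (0 : ℂ) (min r1 r2)) ∈ 𝓝 z0 := by
    apply T.symm.continuous.continuousAt.preimage_mem_nhds
    rw [hsymm0]
    exact ball_mem_nhds _ (lt_min hr1p hr2)
  obtain ⟨r3, hr3, hball⟩ := Metric.mem_nhds_iff.1 hnh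
  refine ⟨min r3 ρ, lt_min hr3 hρ, min_le_right _ _, ?_⟩
  have h1 : ContDiffOn ℝ ∞ (fun z => NWIface_334.C1f F (T.symm z)) (ball z0 (min r3 ρ)) := by
    refine hsm.comp (contDiff_aff_symm z0 e).contDiffOn fun z hz => ?_
    exact ball_subset_ball (min_le_right _ _) (hball (ball_subset_ball (min_le_left _ _) hz))
  refine h1.congr fun z hz => ?_
  have h2 : T.symm z ∈ ball (0 : ℂ) (min r1 r2) :=
    hball (ball_subset_ball (min_le_left _ _) hz)
  rw [hFeq _ (ball_subset_ball (min_le_left _ _) h2)]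
  simp

/-! ### combinatorics near a simple point -/

lemma exists_of_count {k : ℕ} {a : Fin k → ℂ} {x : ℂ}
    (h : (Multiset.map a Finset.univ.val).count x = 1) : ∃ j, ∀ i, a i = x ↔ i = j := by
  classical
  rw [Multiset.count_map] at h
  have h1 : (Finset.univ.filter (fun i => x = a i)).card = 1 := by
    rw [← h]
    rfl
  obtain ⟨j, hj⟩ := Finset.card_eq_one.1 h1
  refine ⟨j, fun i => ?_⟩
  have h2 : i ∈ Finset.univ.filter (fun i => x = a i) ↔ i = j := by rw [hj, Finset.mem_singleton]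
  rw [Finset.mem_filter] at h2
  constructor
  · intro h3
    exact h2.1 ⟨Finset.mem_univ _, h3.symm⟩
  · intro h3
    exact (h2.2 h3).2.symm

/-- near a simple point the sheet is separated from the others. -/
lemma near_simple {k : ℕ} {s' : ℂ → Fin k → ℂ} {c : ℂ} {R' C b r0 : ℝ} (hC : 0 ≤ C) (hb : 0 < b)
    (hr0 : 0 < r0)
    (hold : ∀ x ∈ ball c R', ∀ y ∈ ball c R', dist x y < r0 →
      ∃ τ : Equiv.Perm (Fin k), ∀ i, ‖s' x i - s' y (τ i)‖ ≤ C * dist x y ^ b)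
    {V : Set ℂ} {w : ℂ → ℂ} (hV : V ⊆ ball c R')
    (hS : Sheet (fun t => Multiset.map (s' t) Finset.univ.val) V w) {z0 : ℂ} (hz0 : z0 ∈ V) :
    ∃ d ρ : ℝ, 0 < d ∧ 0 < ρ ∧ ball z0 ρ ⊆ V ∧
      (∀ z ∈ ball z0 ρ, ‖w z - w z0‖ < d ∧
        ∃ j, s' z j = w z ∧ ∀ i, i ≠ j → 4 * d < ‖s' z i - w z0‖) ∧
      ∀ x ∈ ball z0 ρ, ∀ y ∈ ball z0 ρ, ‖w x - w y‖ ≤ C * dist x y ^ b := by
  obtain ⟨j0, hj0⟩ := exists_of_count (hS.simple z0 hz0)
  -- the gap
  have hd : ∃ d > 0, ∀ i, i ≠ j0 → 5 * d < ‖s' z0 i - w z0‖ := by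
    have h1 : ∀ᶠ d : ℝ in 𝓝[>] 0, ∀ i, i ≠ j0 → 5 * d < ‖s' z0 i - w z0‖ := by
      rw [Filter.eventually_all]
      intro i
      by_cases hi : i = j0
      · exact Filter.Eventually.of_forall fun d h => absurd hi h
      · have hpos : 0 < ‖s' z0 i - w z0‖ := by
          rw [norm_pos_iff, sub_ne_zero]
          exact fun h => hi ((hj0 i).1 h)
        have ht : Tendsto (fun d : ℝ => 5 * d) (𝓝[>] 0) (𝓝 0) := by
          have : Tendsto (fun d : ℝ => 5 * d) (𝓝 0) (𝓝 (5 * 0)) :=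
            (continuous_const.mul continuous_id).tendsto 0
          rw [mul_zero] at this
          exact this.mono_left nhdsWithin_le_nhds
        filter_upwards [ht.eventually (gt_mem_nhds hpos)] with d h _
        exact h
    obtain ⟨d, h1, h2⟩ := (h1.and self_mem_nhdsWithin).exists
    exact ⟨d, h2, h1⟩
  obtain ⟨d, hdp, hd⟩ := hd
  -- the radius
  have hU : {z | z ∈ V ∧ ‖w z - w z0‖ < d} ∈ 𝓝 z0 := by
    have h1 : V ∈ 𝓝 z0 := hS.isOpen.mem_nhds hz0
    have h2 : ContinuousAt w z0 := hS.cont.continuousAt h1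
    have h3 : ∀ᶠ z in 𝓝 z0, ‖w z - w z0‖ < d := by
      have : Tendsto (fun z => ‖w z - w z0‖) (𝓝 z0) (𝓝 0) := by
        have h4 := (h2.sub (continuousAt_const (y := w z0))).norm
        simpa [ContinuousAt] using h4
      exact this.eventually (gt_mem_nhds hdp)
    filter_upwards [h1, h3] with z a b
    exact ⟨a, b⟩
  obtain ⟨ρ1, hρ1, hball⟩ := Metric.mem_nhds_iff.1 hU
  have hρ : ∃ ρ > 0, ρ ≤ ρ1 ∧ 2 * ρ ≤ r0 ∧ C * (2 * ρ) ^ b < d := by
    have h1 : ∀ᶠ ρ : ℝ in 𝓝[>] 0, C * (2 * ρ) ^ b < d := by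
      have h2 : Tendsto (fun ρ : ℝ => C * (2 * ρ) ^ b) (𝓝[>] 0) (𝓝 0) := by
        have h3 : Tendsto (fun ρ : ℝ => C * (2 * ρ) ^ b) (𝓝 0) (𝓝 (C * (2 * 0) ^ b)) := by
          have : Continuous fun ρ : ℝ => C * (2 * ρ) ^ b := by
            exact continuous_const.mul
              ((continuous_const.mul continuous_id).rpow_const fun _ => Or.inr hb.le)
          exact this.tendsto 0
        rw [mul_zero, Real.zero_rpow hb.ne', mul_zero] at h3
        exact h3.mono_left nhdsWithin_le_nhds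
      exact h2.eventually (gt_mem_nhds hdp)
    have h2 : ∀ᶠ ρ : ℝ in 𝓝[>] 0, ρ ≤ ρ1 :=
      nhdsWithin_le_nhds (Iic_mem_nhds hρ1)
    have h3 : ∀ᶠ ρ : ℝ in 𝓝[>] 0, ρ ≤ r0 / 2 :=
      nhdsWithin_le_nhds (Iic_mem_nhds (by positivity))
    obtain ⟨ρ, h4, h5, h6, h7⟩ := (h1.and (h2.and (h3.and self_mem_nhdsWithin))).exists
    exact ⟨ρ, h7, h5, by linarith, h4⟩
  obtain ⟨ρ, hρp, hρ1', hρr, hρC⟩ := hρ
  have hbV : ball z0 ρ ⊆ V := fun z hz => (hball (ball_subset_ball hρ1' hz)).1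
  have hwd : ∀ z ∈ ball z0 ρ, ‖w z - w z0‖ < d := fun z hz =>
    (hball (ball_subset_ball hρ1' hz)).2
  have hCd : ∀ x ∈ ball z0 ρ, ∀ y ∈ ball z0 ρ, dist x y < r0 ∧ C * dist x y ^ b < d := by
    intro x hx y hy
    have h1 : dist x y < 2 * ρ := by
      rw [mem_ball] at hx hy
      have := dist_triangle_right x y z0
      linarith
    refine ⟨by linarith, lt_of_le_of_lt ?_ hρC⟩
    gcongr
  have hsep : ∀ z ∈ ball z0 ρ, ∃ j, s' z j = w z ∧ ∀ i, i ≠ j → 4 * d < ‖s' z i - w z0‖ := by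
    intro z hz
    have hz0b : z0 ∈ ball z0 ρ := mem_ball_self hρp
    obtain ⟨h1, h2⟩ := hCd z0 hz0b z hz
    obtain ⟨τ, hτ⟩ := hold z0 (hV hz0) z (hV (hbV hz)) h1
    obtain ⟨j, hj⟩ := exists_of_count (hS.simple z (hbV hz))
    have hfar : ∀ i, i ≠ τ j0 → 4 * d < ‖s' z i - w z0‖ := by
      intro i hi
      have h3 : τ.symm i ≠ j0 := by
        intro h
        apply hi
        rw [← h, Equiv.apply_symm_apply]
      have h4 := hd _ h3
      have h5 := hτ (τ.symm i)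
      rw [Equiv.apply_symm_apply] at h5
      have h6 : ‖s' z0 (τ.symm i) - w z0‖ ≤ ‖s' z0 (τ.symm i) - s' z i‖ + ‖s' z i - w z0‖ :=
        norm_sub_le_norm_sub_add_norm_sub _ _ _
      linarith
    have hjj : j = τ j0 := by
      by_contra hne
      have h3 := hfar j hne
      rw [(hj j).2 rfl] at h3
      have h4 := hwd z hz
      linarith
    refine ⟨j, (hj j).2 rfl, fun i hi => hfar i ?_⟩
    rwa [← hjj]
  refine ⟨d, ρ, hdp, hρp, hbV, fun z hz => ⟨hwd z hz, hsep z hz⟩, fun x hx y hy => ?_⟩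
  obtain ⟨h1, h2⟩ := hCd x hx y hy
  obtain ⟨τ, hτ⟩ := hold x (hV (hbV hx)) y (hV (hbV hy)) h1
  obtain ⟨j, hj, -⟩ := hsep x hx
  obtain ⟨j', hj', hf⟩ := hsep y hy
  have h3 := hτ j
  rw [hj] at h3
  have h4 : τ j = j' := by
    by_contra hne
    have h5 := hf _ hne
    have h6 : ‖s' y (τ j) - w z0‖ ≤ ‖s' y (τ j) - w x‖ + ‖w x - w z0‖ :=
      norm_sub_le_norm_sub_add_norm_sub _ _ _
    have h7 := hwd x hx
    rw [norm_sub_rev] at h3
    linarith
  rw [h4, hj'] at h3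
  exact h3

/-! ### the weak gradient of a simple sheet -/

section
variable {μ β : ℂ × ℂ → ℂ} {c : ℂ} {R : ℝ} {k : ℕ} {s : ℂ → Fin k → ℂ}
    {A : ℂ → Fin k → (ℂ →L[ℝ] ℂ)} {ma : Measure ℂ} {K c0 Mb : ℝ}

/-- the fibre derivative of a product test function. -/
lemma fderiv_test {f : ℂ → ℝ} {X : ℂ → ℝ} {l : ℂ →L[ℝ] ℝ} (hf : Differentiable ℝ f)
    (hX : Differentiable ℝ X) (t x u v : ℂ) :
    fderiv ℝ (fun p : ℂ × ℂ => f p.1 * (X p.2 * l p.2)) (t, x) (u, v) =
      fderiv ℝ f t u * (X x * l x) + f t * (fderiv ℝ X x v * l x + X x * l v) := by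
  have h1 : HasFDerivAt (fun p : ℂ × ℂ => f p.1) ((fderiv ℝ f t).comp
      (ContinuousLinearMap.fst ℝ ℂ ℂ)) (t, x) :=
    HasFDerivAt.comp (g := f) (t, x) (hf t).hasFDerivAt hasFDerivAt_fst
  have h2 : HasFDerivAt (fun p : ℂ × ℂ => X p.2) ((fderiv ℝ X x).comp
      (ContinuousLinearMap.snd ℝ ℂ ℂ)) (t, x) :=
    HasFDerivAt.comp (g := X) (t, x) (hX x).hasFDerivAt hasFDerivAt_snd
  have h3 : HasFDerivAt (fun p : ℂ × ℂ => l p.2) (l.comp
      (ContinuousLinearMap.snd ℝ ℂ ℂ)) (t, x) :=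
    HasFDerivAt.comp (g := l) (t, x) l.hasFDerivAt hasFDerivAt_snd
  have h4 : HasFDerivAt (fun p : ℂ × ℂ => f p.1 * (X p.2 * l p.2)) _ (t, x) :=
    h1.mul (h2.mul h3)
  rw [h4.fderiv]
  simp
  ring

/-- the cut-off slope. -/
def gsl (s : ℂ → Fin k → ℂ) (A : ℂ → Fin k → (ℂ →L[ℝ] ℂ)) (X : ℂ → ℝ) (t : ℂ) : ℂ →L[ℝ] ℂ :=
  ∑ i, X (s t i) • A t i

lemma wg_of_wkg (h : WKG μ β c R k s A ma K c0 Mb) {z0 a : ℂ} {ρ d : ℝ} (hd : 0 < d)
    (hρR : ball z0 ρ ⊆ ball c R) {w : ℂ → ℂ} (hwc : ContinuousOn w (ball z0 ρ))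
    (hwa : ∀ t ∈ ball z0 ρ, ‖w t - a‖ < d) (X : ContDiffBump a) (hXin : X.rIn = 2 * d)
    (hXout : X.rOut = 3 * d)
    (hs : ∀ᵐ t, t ∈ ball z0 ρ → ∃ j, s t j = w t ∧ ∀ i, i ≠ j → 4 * d < ‖s t i - a‖) :
    WG (ball z0 ρ) w (gsl s A X) ∧
      ∀ᵐ t, t ∈ ball z0 ρ → ∃ j, s t j = w t ∧ A t j = gsl s A X t := by
  -- the cut-off
  have X1 : ∀ x, ‖x - a‖ < 2 * d → X x = 1 := by
    intro x hx
    apply X.one_of_mem_closedBall
    rw [mem_closedBall, dist_eq_norm, hXin]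
    exact hx.le
  have X0 : ∀ x, 3 * d ≤ ‖x - a‖ → X x = 0 := by
    intro x hx
    apply X.zero_of_le_dist
    rw [dist_eq_norm, hXout]
    exact hx
  have DX1 : ∀ x, ‖x - a‖ < 2 * d → fderiv ℝ X x = 0 := by
    intro x hx
    have : X =ᶠ[𝓝 x] fun _ => (1 : ℝ) := by
      have ho : {y : ℂ | ‖y - a‖ < 2 * d} ∈ 𝓝 x :=
        (isOpen_lt (by fun_prop) continuous_const).mem_nhds hx
      filter_upwards [ho] with y hy
      exact X1 y hy
    rw [this.fderiv_eq]
    simp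
  have DX0 : ∀ x, 3 * d < ‖x - a‖ → fderiv ℝ X x = 0 := by
    intro x hx
    have : X =ᶠ[𝓝 x] fun _ => (0 : ℝ) := by
      have ho : {y : ℂ | 3 * d < ‖y - a‖} ∈ 𝓝 x :=
        (isOpen_lt continuous_const (by fun_prop)).mem_nhds hx
      filter_upwards [ho] with y hy
      exact X0 y hy.le
    rw [this.fderiv_eq]
    simp
  have hXs : ContDiff ℝ ∞ X := X.contDiff
  -- the slope
  have hg : ∀ t j, s t j = w t → t ∈ ball z0 ρ → (∀ i, i ≠ j → 4 * d < ‖s t i - a‖) →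
      gsl s A X t = A t j := by
    intro t j hj ht hi
    unfold gsl
    rw [Finset.sum_eq_single j]
    · rw [hj, X1 _ (by linarith [hwa t ht]), one_smul]
    · intro i _ hij
      rw [X0 _ (by linarith [hi i hij])]
      ext v
      simp
    · intro hn
      exact absurd (Finset.mem_univ _) hn
  have hgae : ∀ᵐ t, t ∈ ball z0 ρ → ∃ j, s t j = w t ∧ A t j = gsl s A X t := by
    filter_upwards [hs] with t ht htb
    obtain ⟨j, hj, hi⟩ := ht htb
    exact ⟨j, hj, (hg t j hj htb hi).symm⟩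
  have hmeas : AEStronglyMeasurable (gsl s A X) (volume.restrict (ball z0 ρ)) := by
    unfold gsl
    refine Finset.aestronglyMeasurable_fun_sum _ fun i _ => ?_
    exact ((X.continuous.measurable.comp (h.smeas i)).aestronglyMeasurable).smul
      (h.Ameas i).aestronglyMeasurable
  have hmem : MemLp (gsl s A X) 2 (volume.restrict (ball z0 ρ)) := by
    rw [memLp_two_iff_integrable_sq_norm hmeas]
    have h1 : IntegrableOn (fun t => ∑ i, ‖A t i‖ ^ 2) (ball z0 ρ) := h.eint.mono_set hρR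
    refine Integrable.mono' h1 (hmeas.norm.pow 2) ?_
    rw [ae_restrict_iff' measurableSet_ball]
    filter_upwards [hgae] with t ht htb
    obtain ⟨j, -, hj⟩ := ht htb
    rw [← hj, Real.norm_eq_abs, abs_of_nonneg (by positivity)]
    exact Finset.single_le_sum (f := fun i => ‖A t i‖ ^ 2) (fun i _ => by positivity)
      (Finset.mem_univ j)
  have hloc : ∀ u : ℂ, LocallyIntegrableOn (fun t => gsl s A X t u) (ball z0 ρ) := by
    intro u
    have h1 : MemLp (fun t => gsl s A X t u) 2 (volume.restrict (ball z0 ρ)) :=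
      (ContinuousLinearMap.apply ℝ ℂ u).comp_memLp' hmem
    have h2 : LocallyIntegrable (fun t => gsl s A X t u) (volume.restrict (ball z0 ρ)) :=
      h1.locallyIntegrable (by norm_num)
    exact locallyIntegrableOn_of_locallyIntegrable_restrict h2
  -- the scalar identity
  have hscal : ∀ (l : ℂ →L[ℝ] ℝ) (f : ℂ → ℝ), ContDiff ℝ ∞ f → HasCompactSupport f →
      tsupport f ⊆ ball z0 ρ → ∀ u : ℂ, (u = 1 ∨ u = I) →
      ∫ t, l (fderiv ℝ f t u • w t + f t • gsl s A X t u) = 0 := by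
    intro l f hf hfc hfs u hu
    have hΦ : Test (ball c R) (fun p : ℂ × ℂ => f p.1 * (X p.2 * l p.2)) := by
      refine ⟨?_, tsupport f, hfs.trans hρR, hfc, fun t ht x => ?_⟩
      · exact (hf.comp contDiff_fst).mul ((hXs.comp contDiff_snd).mul
          (l.contDiff.comp contDiff_snd))
      · simp [image_eq_zero_of_notMem_tsupport ht]
    have h1 := h.weak _ hΦ u hu
    have hDf : ∀ t, t ∉ ball z0 ρ → fderiv ℝ f t u = 0 := by
      intro t ht
      have : t ∉ tsupport (fun t => fderiv ℝ f t u) := fun h2 =>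
        ht (tsupport_fderiv_apply hfs u h2)
      exact image_eq_zero_of_notMem_tsupport (f := fun t => fderiv ℝ f t u) this
    have hf0 : ∀ t, t ∉ ball z0 ρ → f t = 0 := fun t ht =>
      image_eq_zero_of_notMem_tsupport fun h2 => ht (hfs h2)
    have hF0 : ∀ t, t ∉ ball z0 ρ → l (fderiv ℝ f t u • w t + f t • gsl s A X t u) = 0 := by
      intro t ht
      rw [hDf t ht, hf0 t ht]
      simp
    rw [← h1, ← setIntegral_eq_integral_of_forall_compl_eq_zero
      (s := ball c R) (fun t ht => hF0 t fun h2 => ht (hρR h2))]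
    refine setIntegral_congr_ae measurableSet_ball ?_
    filter_upwards [hs] with t ht _
    by_cases htb : t ∈ ball z0 ρ
    · obtain ⟨j, hj, hi⟩ := ht htb
      rw [hg t j hj htb hi, Finset.sum_eq_single j]
      · rw [fderiv_test (hf.differentiable (by simp)) (hXs.differentiable (by simp)), hj,
          X1 _ (by linarith [hwa t htb]), DX1 _ (by linarith [hwa t htb]), map_add, map_smul,
          map_smul]
        simp
      · intro i _ hij
        rw [fderiv_test (hf.differentiable (by simp)) (hXs.differentiable (by simp)),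
          X0 _ (by linarith [hi i hij]), DX0 _ (by linarith [hi i hij])]
        simp
      · intro hn
        exact absurd (Finset.mem_univ _) hn
    · rw [hF0 t htb]
      symm
      refine Finset.sum_eq_zero fun i _ => ?_
      rw [fderiv_test (hf.differentiable (by simp)) (hXs.differentiable (by simp)), hDf t htb,
        hf0 t htb]
      simp
  have hweak1 : ∀ (f : ℂ → ℝ), ContDiff ℝ ∞ f → HasCompactSupport f →
      tsupport f ⊆ ball z0 ρ → ∀ u : ℂ, (u = 1 ∨ u = I) →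
      (∫ t, fderiv ℝ f t u • w t) = - ∫ t, f t • gsl s A X t u := by
    intro f hf hfc hfs u hu
    have hd : Continuous (fun t => fderiv ℝ f t u) :=
      (hf.continuous_fderiv (by simp)).clm_apply continuous_const
    have i1 : Integrable (fun t => fderiv ℝ f t u • w t) :=
      integrable_of_cont hd (hfc.fderiv_apply ℝ u) (tsupport_fderiv_apply hfs u) hwc
    have i2 : Integrable (fun t => f t • gsl s A X t u) :=
      integrable_of_loc hf.continuous hfc hfs (hloc u)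
    have i12 : Integrable (fun t => fderiv ℝ f t u • w t + f t • gsl s A X t u) := i1.add i2
    have hz : ∫ t, (fderiv ℝ f t u • w t + f t • gsl s A X t u) = 0 := by
      apply Complex.ext
      · have h1 := hscal reCLM f hf hfc hfs u hu
        exact (reCLM.integral_comp_comm i12).symm.trans h1
      · have h1 := hscal imCLM f hf hfc hfs u hu
        exact (imCLM.integral_comp_comm i12).symm.trans h1
    rw [integral_add i1 i2] at hz
    exact eq_neg_of_add_eq_zero_left hz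
  refine ⟨⟨isOpen_ball, hwc, hmem, fun f hf hfc hfs u => ?_⟩, hgae⟩
  have hd : ∀ v : ℂ, Continuous (fun t => fderiv ℝ f t v) := fun v =>
    (hf.continuous_fderiv (by simp)).clm_apply continuous_const
  have i1 : ∀ v : ℂ, Integrable (fun t => fderiv ℝ f t v • w t) := fun v =>
    integrable_of_cont (hd v) (hfc.fderiv_apply ℝ v) (tsupport_fderiv_apply hfs v) hwc
  have i2 : ∀ v : ℂ, Integrable (fun t => f t • gsl s A X t v) := fun v =>
    integrable_of_loc hf.continuous hfc hfs (hloc v)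
  have hu : u = u.re • (1 : ℂ) + u.im • I := by simp
  have e1 : (fun t => fderiv ℝ f t u • w t) = fun t =>
      u.re • (fderiv ℝ f t 1 • w t) + u.im • (fderiv ℝ f t I • w t) := by
    funext t
    conv_lhs => rw [hu, map_add, map_smul, map_smul]
    simp only [smul_eq_mul, add_smul, mul_smul]
  have e2 : (fun t => f t • gsl s A X t u) = fun t =>
      u.re • (f t • gsl s A X t 1) + u.im • (f t • gsl s A X t I) := by
    funext t
    conv_lhs => rw [hu, map_add, map_smul, map_smul]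
    rw [smul_add, smul_comm (f t), smul_comm (f t)]
  have j1 : ∀ (r : ℝ) (v : ℂ), Integrable (fun t => r • (fderiv ℝ f t v • w t)) :=
    fun r v => (i1 v).smul r
  have j2 : ∀ (r : ℝ) (v : ℂ), Integrable (fun t => r • (f t • gsl s A X t v)) :=
    fun r v => (i2 v).smul r
  rw [e1, e2, integral_add (j1 _ _) (j1 _ _), integral_add (j2 _ _) (j2 _ _), integral_smul,
    integral_smul, integral_smul, integral_smul, hweak1 f hf hfc hfs 1 (Or.inl rfl),
    hweak1 f hf hfc hfs I (Or.inr rfl), smul_neg, smul_neg]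
  abel

end

/-- **LEAF C7 (SHEETS).** -/
theorem sheets (hR1 : NWIface_334.Reg1Stmt) (hR2 : NWIface_334.Reg2Stmt)
    (μ β : ℂ × ℂ → ℂ) (c : ℂ) (R : ℝ) (k : ℕ) (s : ℂ → Fin k → ℂ)
    (A : ℂ → Fin k → (ℂ →L[ℝ] ℂ)) (ma : Measure ℂ) (K c0 Mb : ℝ) :
    SHEETS μ β c R k s A ma K c0 Mb := by
  intro h hμ hβ hμ1 R' C b r0 s' hR' hC hb0 hb1 hr0 hae hold V w hV hS
  have hpdeA := (ae_restrict_iff' measurableSet_ball).1 h.pde
  have hVR : V ⊆ ball c R := hV.trans (ball_subset_ball hR'.le)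
  -- local statement
  have hloc : ∀ z0 ∈ V, ∃ r > 0, ContDiffOn ℝ ∞ w (ball z0 r) ∧
      ∀ᵐ t, t ∈ ball z0 r → ∃ i, s t i = w t ∧ A t i = fderiv ℝ w t := by
    intro z0 hz0
    obtain ⟨d, ρ, hd, hρ, hbV, hsep, hhol⟩ := near_simple hC hb0 hr0 hold hV hS hz0
    let X : ContDiffBump (w z0) := ⟨2 * d, 3 * d, by positivity, by linarith⟩
    have hs : ∀ᵐ t, t ∈ ball z0 ρ → ∃ j, s t j = w t ∧
        ∀ i, i ≠ j → 4 * d < ‖s t i - w z0‖ := by
      have := (ae_restrict_iff' measurableSet_ball).1 hae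
      filter_upwards [this] with t ht htb
      obtain ⟨τ, hτ⟩ := ht (hV (hbV htb))
      obtain ⟨-, j, hj, hf⟩ := hsep t htb
      refine ⟨τ j, by rw [← hτ, hj], fun i hi => ?_⟩
      have h1 := hf (τ.symm i) (fun h2 => hi (by rw [← h2, Equiv.apply_symm_apply]))
      rw [hτ, Equiv.apply_symm_apply] at h1
      exact h1
    obtain ⟨hWG, hgae⟩ := wg_of_wkg h hd (hbV.trans hVR) (hS.cont.mono hbV)
      (fun t ht => (hsep t ht).1) X rfl rfl hs
    have hpde : ∀ᵐ t, t ∈ ball z0 ρ →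
        lzb (gsl s A X t) = μ (t, w t) * lz (gsl s A X t) - β (t, w t) := by
      filter_upwards [hpdeA, hgae] with t h1 h2 h3
      obtain ⟨j, hj, hA⟩ := h2 h3
      have h4 := h1 (hVR (hbV h3)) j
      rw [hj, hA] at h4
      exact h4
    obtain ⟨r, hr, hrρ, hsm⟩ := locreg hR1 hR2 hμ hβ hμ1 hρ hb0 hb1 hC hWG hhol hpde
    refine ⟨r, hr, hsm, ?_⟩
    have hu := (hWG.mono isOpen_ball (ball_subset_ball hrρ)).uniq (hsm.of_le (by simp))
    filter_upwards [hu, hgae] with t h1 h2 h3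
    obtain ⟨j, hj, hA⟩ := h2 (ball_subset_ball hrρ h3)
    exact ⟨j, hj, by rw [hA, h1 h3]⟩
  have hsm : ContDiffOn ℝ ∞ w V := by
    intro z hz
    obtain ⟨r, hr, h1, -⟩ := hloc z hz
    exact (h1.contDiffAt (ball_mem_nhds z hr)).contDiffWithinAt
  have hthird : ∀ᵐ z, z ∈ V → ∃ i, s z i = w z ∧ A z i = fderiv ℝ w z := by
    rw [ae_iff]
    refine measure_null_of_locally_null _ fun z hz => ?_
    have hzV : z ∈ V := by
      by_contra hn
      exact hz fun h1 => absurd h1 hn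
    obtain ⟨r, hr, -, h1⟩ := hloc z hzV
    refine ⟨{a | ¬(a ∈ V → ∃ i, s a i = w a ∧ A a i = fderiv ℝ w a)} ∩ ball z r,
      inter_mem_nhdsWithin _ (ball_mem_nhds z hr), ?_⟩
    rw [ae_iff] at h1
    refine measure_mono_null ?_ h1
    rintro t ⟨ht, htb⟩ h2
    exact ht fun _ => h2 htb
  refine ⟨hsm, ?_, (ae_restrict_iff' hS.isOpen.measurableSet).2 hthird⟩
  have hfc : ContinuousOn (fderiv ℝ w) V := hsm.continuousOn_fderiv_of_isOpen hS.isOpen (by simp)
  have clz : Continuous (fun L : ℂ →L[ℝ] ℂ => lz L) := by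
    unfold lz
    fun_prop
  have clzb : Continuous (fun L : ℂ →L[ℝ] ℂ => lzb L) := by
    unfold lzb
    fun_prop
  have hid : ContinuousOn (fun z => (z, w z)) V := continuousOn_id.prodMk hS.cont
  have k1 : ContinuousOn (fun z => lzb (fderiv ℝ w z)) V := clzb.comp_continuousOn hfc
  have k2 : ContinuousOn (fun z => μ (z, w z) * lz (fderiv ℝ w z) - β (z, w z)) V :=
    ((hμ.continuous.comp_continuousOn hid).mul (clz.comp_continuousOn hfc)).sub
      (hβ.continuous.comp_continuousOn hid)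
  refine Measure.eqOn_open_of_ae_eq (μ := volume) ?_ hS.isOpen k1 k2
  refine (ae_restrict_iff' hS.isOpen.measurableSet).2 ?_
  filter_upwards [hthird, hpdeA] with z h1 h2 h3
  obtain ⟨j, hj, hA⟩ := h1 h3
  have h4 := h2 (hVR h3) j
  rw [hj, hA] at h4
  exact h4

end

end Crest.Agent.R235.WKSheet_527
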