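import Crest.Agent.R235.WKG_460
import Crest.Agent.R235.KGL2_52

/-!
Row 235, REG-CYL-2 (helper460), leaf SLICE: almost every circle carries a weak closed k-valued
curve.
-/

set_option autoImplicit false

open MeasureTheory Metric Set Filter Complex
open scoped ContDiff Topology ComplexConjugate ENNReal

namespace Crest.Agent.R235.WKSlice_659

open Crest.Agent.R235.Loc Crest.Agent.R235.WKG_460

noncomputable section

variable {μ β : ℂ × ℂ → ℂ} {c : ℂ} {R : ℝ} {k : ℕ} {s : ℂ → Fin k → ℂ}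
    {A : ℂ → Fin k → (ℂ →L[ℝ] ℂ)} {ma : Measure ℂ} {K c0 Mb : ℝ}

/-- symmetric function of the sheets -/
def FF (s : ℂ → Fin k → ℂ) (Ψ : ℂ → ℝ) (t : ℂ) : ℝ := ∑ i, Ψ (s t i)

/-- its weak gradient -/
def GG (s : ℂ → Fin k → ℂ) (A : ℂ → Fin k → (ℂ →L[ℝ] ℂ)) (Ψ : ℂ → ℝ) (t : ℂ) : ℂ →L[ℝ] ℝ :=
  ∑ i, (fderiv ℝ Ψ (s t i)).comp (A t i)

theorem GG_apply (Ψ : ℂ → ℝ) (t u : ℂ) :
    GG s A Ψ t u = ∑ i, fderiv ℝ Ψ (s t i) (A t i u) := by
  unfold GG
  rw [_root_.sum_apply]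
  rfl

theorem FF_meas (hs : ∀ i, Measurable fun t => s t i) {Ψ : ℂ → ℝ} (hΨ : Continuous Ψ) :
    Measurable (FF s Ψ) := by
  unfold FF
  exact Finset.measurable_sum _ fun i _ => hΨ.measurable.comp (hs i)

theorem GG_meas (hs : ∀ i, Measurable fun t => s t i) (hA : ∀ i, Measurable fun t => A t i)
    {Ψ : ℂ → ℝ} (hΨ : ContDiff ℝ ∞ Ψ) : Measurable (GG s A Ψ) := by
  unfold GG
  refine Finset.measurable_sum _ fun i _ => ?_
  have h1 : Measurable fun t => fderiv ℝ Ψ (s t i) :=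
    (hΨ.continuous_fderiv (by norm_num)).measurable.comp (hs i)
  have h2 : Continuous fun q : (ℂ →L[ℝ] ℝ) × (ℂ →L[ℝ] ℂ) => q.1.comp q.2 := by fun_prop
  exact h2.measurable.comp (h1.prodMk (hA i))

/-- bounds on the disc of values -/
theorem exists_bd (Mb : ℝ) {Ψ : ℂ → ℝ} (hΨ : ContDiff ℝ ∞ Ψ) :
    ∃ C : ℝ, 0 ≤ C ∧ ∀ w ∈ closedBall (0 : ℂ) Mb, |Ψ w| ≤ C ∧ ‖fderiv ℝ Ψ w‖ ≤ C := by
  obtain ⟨C1, h1⟩ := (isCompact_closedBall (0 : ℂ) Mb).exists_bound_of_continuousOn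
    hΨ.continuous.continuousOn
  obtain ⟨C2, h2⟩ := (isCompact_closedBall (0 : ℂ) Mb).exists_bound_of_continuousOn
    (hΨ.continuous_fderiv (by norm_num)).continuousOn
  refine ⟨max (max C1 C2) 0, le_max_right _ _, fun w hw => ⟨?_, ?_⟩⟩
  · exact (h1 w hw).trans ((le_max_left _ _).trans (le_max_left _ _))
  · exact (h2 w hw).trans ((le_max_right _ _).trans (le_max_left _ _))

theorem FF_le (hb : ∀ t i, ‖s t i‖ ≤ Mb) {Ψ : ℂ → ℝ} {C : ℝ}
    (hC : ∀ w ∈ closedBall (0 : ℂ) Mb, |Ψ w| ≤ C) (t : ℂ) : |FF s Ψ t| ≤ k * C := by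
  unfold FF
  refine (Finset.abs_sum_le_sum_abs _ _).trans ?_
  refine (Finset.sum_le_sum fun i _ => hC _ (mem_closedBall_zero_iff.2 (hb t i))).trans ?_
  simp

theorem GG_le (hb : ∀ t i, ‖s t i‖ ≤ Mb) {Ψ : ℂ → ℝ} {C : ℝ}
    (hC : ∀ w ∈ closedBall (0 : ℂ) Mb, ‖fderiv ℝ Ψ w‖ ≤ C) (t : ℂ) :
    ‖GG s A Ψ t‖ ≤ C * ∑ i, ‖A t i‖ := by
  unfold GG
  rw [Finset.mul_sum]
  refine (norm_sum_le _ _).trans (Finset.sum_le_sum fun i _ => ?_)
  exact (ContinuousLinearMap.opNorm_comp_le _ _).trans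
    (mul_le_mul_of_nonneg_right (hC _ (mem_closedBall_zero_iff.2 (hb t i))) (norm_nonneg _))

theorem sum_sq_le (t : ℂ) : (∑ i, ‖A t i‖) ^ 2 ≤ k * ∑ i, ‖A t i‖ ^ 2 := by
  have := sq_sum_le_card_mul_sum_sq (s := (Finset.univ : Finset (Fin k))) (f := fun i => ‖A t i‖)
  simpa using this

theorem sumA_meas (hA : ∀ i, Measurable fun t => A t i) :
    Measurable fun t => ∑ i, ‖A t i‖ := Finset.measurable_sum _ fun i _ => (hA i).norm

theorem sumA_int (hA : ∀ i, Measurable fun t => A t i)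
    (hint : IntegrableOn (fun t => ∑ i, ‖A t i‖ ^ 2) (ball c R)) :
    IntegrableOn (fun t => ∑ i, ‖A t i‖) (ball c R) := by
  have h1 : IntegrableOn (fun t => 1 + k * ∑ i, ‖A t i‖ ^ 2) (ball c R) :=
    (integrableOn_const measure_ball_lt_top.ne).add
      (hint.const_mul _)
  refine Integrable.mono' h1 (sumA_meas hA).aestronglyMeasurable (Eventually.of_forall fun t => ?_)
  have h2 := sum_sq_le (A := A) t
  have h3 : 0 ≤ ∑ i, ‖A t i‖ := Finset.sum_nonneg fun i _ => norm_nonneg _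
  rw [Real.norm_of_nonneg h3]
  nlinarith [sq_nonneg ((∑ i, ‖A t i‖) - 1)]

theorem GG_sq_int (hb : ∀ t i, ‖s t i‖ ≤ Mb) (hs : ∀ i, Measurable fun t => s t i)
    (hA : ∀ i, Measurable fun t => A t i)
    (hint : IntegrableOn (fun t => ∑ i, ‖A t i‖ ^ 2) (ball c R)) {Ψ : ℂ → ℝ}
    (hΨ : ContDiff ℝ ∞ Ψ) : IntegrableOn (fun t => ‖GG s A Ψ t‖ ^ 2) (ball c R) := by
  obtain ⟨C, hC0, hC⟩ := exists_bd Mb hΨ
  refine Integrable.mono' (hint.const_mul (C ^ 2 * k))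
    ((GG_meas hs hA hΨ).norm.pow_const 2).aestronglyMeasurable (Eventually.of_forall fun t => ?_)
  rw [Real.norm_of_nonneg (sq_nonneg _)]
  have h1 := GG_le (A := A) hb (fun w hw => (hC w hw).2) t
  have h2 := sum_sq_le (A := A) t
  calc ‖GG s A Ψ t‖ ^ 2 ≤ (C * ∑ i, ‖A t i‖) ^ 2 := by gcongr
    _ = C ^ 2 * (∑ i, ‖A t i‖) ^ 2 := by ring
    _ ≤ C ^ 2 * (k * ∑ i, ‖A t i‖ ^ 2) := by gcongr
    _ = C ^ 2 * k * ∑ i, ‖A t i‖ ^ 2 := by ring

theorem weak1 (hw : WKG μ β c R k s A ma K c0 Mb) {p : ℂ} {r0 : ℝ}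
    (hsub : ball p r0 ⊆ ball c R) {Ψ : ℂ → ℝ} (hΨ : ContDiff ℝ ∞ Ψ) :
    Weak1 (ball p r0) (FF s Ψ) (GG s A Ψ) := by
  intro f hf hfc hfs u hu
  have key := hw.weak (fun q => f q.1 * Ψ q.2)
    ⟨(hf.comp contDiff_fst).mul (hΨ.comp contDiff_snd), tsupport f, hfs.trans hsub, hfc,
      fun t ht w => by simp [image_eq_zero_of_notMem_tsupport ht]⟩ u hu
  have hfd : fderiv ℝ (fun q : ℂ × ℂ => f q.1 * Ψ q.2) = fun q =>
      f q.1 • (fderiv ℝ Ψ q.2).comp (ContinuousLinearMap.snd ℝ ℂ ℂ) +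
        Ψ q.2 • (fderiv ℝ f q.1).comp (ContinuousLinearMap.fst ℝ ℂ ℂ) := by
    funext q
    have h1 : HasFDerivAt (fun q : ℂ × ℂ => f q.1)
        ((fderiv ℝ f q.1).comp (ContinuousLinearMap.fst ℝ ℂ ℂ)) q :=
      ((hf.differentiable (by norm_num)) q.1).hasFDerivAt.comp q hasFDerivAt_fst
    have h2 : HasFDerivAt (fun q : ℂ × ℂ => Ψ q.2)
        ((fderiv ℝ Ψ q.2).comp (ContinuousLinearMap.snd ℝ ℂ ℂ)) q :=
      ((hΨ.differentiable (by norm_num)) q.2).hasFDerivAt.comp q hasFDerivAt_snd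
    exact (h1.mul h2).fderiv
  have hpt : ∀ t, ∑ i, fderiv ℝ (fun q : ℂ × ℂ => f q.1 * Ψ q.2) (t, s t i) (u, A t i u) =
      f t * GG s A Ψ t u + fderiv ℝ f t u * FF s Ψ t := by
    intro t
    rw [GG_apply, FF, Finset.mul_sum, Finset.mul_sum, ← Finset.sum_add_distrib]
    refine Finset.sum_congr rfl fun i _ => ?_
    rw [hfd]
    simp only [_root_.add_apply, _root_.smul_apply,
      ContinuousLinearMap.comp_apply, ContinuousLinearMap.coe_snd', ContinuousLinearMap.coe_fst',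
      smul_eq_mul]
    ring
  simp_rw [hpt] at key
  have hz1 : ∀ t ∉ tsupport f, f t = 0 := fun t ht => image_eq_zero_of_notMem_tsupport ht
  have hz2 : ∀ t ∉ tsupport f, fderiv ℝ f t u = 0 := by
    intro t ht
    have h1 : t ∉ tsupport (fderiv ℝ f) := fun h => ht (tsupport_fderiv_subset ℝ h)
    rw [image_eq_zero_of_notMem_tsupport h1]
    rfl
  obtain ⟨C, hC0, hC⟩ := exists_bd Mb hΨ
  -- integrability
  have hI1 : Integrable (fun t => fderiv ℝ f t u * FF s Ψ t) := by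
    have h1 : Continuous fun t => fderiv ℝ f t u :=
      (hf.continuous_fderiv (by norm_num)).clm_apply continuous_const
    have h2 : HasCompactSupport fun t => fderiv ℝ f t u := hfc.fderiv_apply (𝕜 := ℝ) u
    have h3 := (h1.integrable_of_hasCompactSupport h2 (μ := volume)).norm.mul_const (k * C)
    refine Integrable.mono' h3
      (h1.measurable.mul (FF_meas hw.smeas hΨ.continuous)).aestronglyMeasurable
      (Eventually.of_forall fun t => ?_)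
    rw [norm_mul]
    exact mul_le_mul_of_nonneg_left (FF_le hw.bdd (fun w hw => (hC w hw).1) t) (norm_nonneg _)
  obtain ⟨Cf, hCf⟩ := hfc.exists_bound_of_continuous hf.continuous
  have hI2 : Integrable (fun t => f t * GG s A Ψ t u) := by
    have h0 : IntegrableOn (fun t => f t * GG s A Ψ t u) (ball c R) := by
      have h1 := (sumA_int hw.Ameas hw.eint).const_mul (Cf * (C * ‖u‖))
      refine Integrable.mono' h1 ?_ (Eventually.of_forall fun t => ?_)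
      · refine (hf.continuous.measurable.mul ?_).aestronglyMeasurable
        exact (ContinuousLinearMap.apply ℝ ℝ u).continuous.measurable.comp
          (GG_meas hw.smeas hw.Ameas hΨ)
      · rw [norm_mul]
        have h2 := (GG s A Ψ t).le_opNorm u
        have h3 := GG_le (A := A) hw.bdd (fun w hw => (hC w hw).2) t
        calc ‖f t‖ * ‖GG s A Ψ t u‖ ≤ Cf * ((C * ∑ i, ‖A t i‖) * ‖u‖) := by
              refine mul_le_mul (hCf t) (h2.trans ?_) (norm_nonneg _)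
                ((norm_nonneg _).trans (hCf t))
              exact mul_le_mul_of_nonneg_right h3 (norm_nonneg _)
          _ = Cf * (C * ‖u‖) * ∑ i, ‖A t i‖ := by ring
    rwa [integrableOn_iff_integrable_of_support_subset] at h0
    intro t ht
    by_contra hcon
    have : t ∉ tsupport f := fun h => hcon (hsub (hfs h))
    exact ht (by simp [hz1 t this])
  rw [setIntegral_eq_integral_of_forall_compl_eq_zero] at key
  · rw [integral_add hI2 hI1] at key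
    rw [setIntegral_eq_integral_of_forall_compl_eq_zero,
      setIntegral_eq_integral_of_forall_compl_eq_zero]
    · linarith
    · intro t ht
      rw [hz1 t fun h => ht (hfs h), zero_mul]
    · intro t ht
      rw [hz2 t fun h => ht (hfs h), zero_mul]
  · intro t ht
    have h1 : t ∉ tsupport f := fun h => ht (hsub (hfs h))
    rw [hz1 t h1, hz2 t h1]
    ring

theorem y_int {x y : ℝ → Fin k → ℂ} (hx : ∀ i, Measurable fun φ => x φ i)
    (hy : ∀ i, Measurable fun φ => y φ i) (hb : ∀ φ i, ‖x φ i‖ ≤ Mb)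
    (hyi : IntegrableOn (fun φ => ∑ i, ‖y φ i‖) (Ioc (-Real.pi) Real.pi)) {Ψ : ℂ → ℝ}
    (hΨ : ContDiff ℝ ∞ Ψ) :
    IntegrableOn (fun φ => ∑ i, fderiv ℝ Ψ (x φ i) (y φ i)) (Ioc (-Real.pi) Real.pi) := by
  obtain ⟨C, hC0, hC⟩ := exists_bd Mb hΨ
  refine Integrable.mono' (hyi.const_mul C) ?_ (Eventually.of_forall fun φ => ?_)
  · refine (Finset.measurable_sum _ fun i _ => ?_).aestronglyMeasurable
    have h1 : Measurable fun φ => fderiv ℝ Ψ (x φ i) :=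
      (hΨ.continuous_fderiv (by norm_num)).measurable.comp (hx i)
    have h2 : Continuous fun q : (ℂ →L[ℝ] ℝ) × ℂ => q.1 q.2 := by fun_prop
    exact h2.measurable.comp (h1.prodMk (hy i))
  · rw [Finset.mul_sum]
    refine (norm_sum_le _ _).trans (Finset.sum_le_sum fun i _ => ?_)
    exact ((fderiv ℝ Ψ (x φ i)).le_opNorm _).trans (mul_le_mul_of_nonneg_right
      (hC _ (mem_closedBall_zero_iff.2 (hb φ i))).2 (norm_nonneg _))

theorem est {x y : ℝ → Fin k → ℂ} (hx : ∀ i, Measurable fun φ => x φ i)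
    (hy : ∀ i, Measurable fun φ => y φ i) (hb : ∀ φ i, ‖x φ i‖ ≤ Mb)
    (hyi : IntegrableOn (fun φ => ∑ i, ‖y φ i‖) (Ioc (-Real.pi) Real.pi)) {Ψ Ψ' : ℂ → ℝ}
    (hΨ : ContDiff ℝ ∞ Ψ) (hΨ' : ContDiff ℝ ∞ Ψ') {ε : ℝ} (hε : 0 < ε)
    (h : ∀ w ∈ closedBall (0 : ℂ) Mb, ‖fderiv ℝ Ψ w - fderiv ℝ Ψ' w‖ ≤ ε) {a b : ℝ}
    (ha : a ∈ Icc (-Real.pi) Real.pi) (hb' : b ∈ Icc (-Real.pi) Real.pi) :
    |(∫ φ in a..b, ∑ i, fderiv ℝ Ψ (x φ i) (y φ i)) -
      ∫ φ in a..b, ∑ i, fderiv ℝ Ψ' (x φ i) (y φ i)| ≤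
      ε * ∫ φ in Ioc (-Real.pi) Real.pi, ∑ i, ‖y φ i‖ := by
  have hsub : uIoc a b ⊆ Ioc (-Real.pi) Real.pi := by
    intro t ht
    rw [uIoc, mem_Ioc] at ht
    exact ⟨(le_inf ha.1 hb'.1).trans_lt ht.1, ht.2.trans (sup_le ha.2 hb'.2)⟩
  have hI : ∀ {Φ : ℂ → ℝ}, ContDiff ℝ ∞ Φ →
      IntervalIntegrable (fun φ => ∑ i, fderiv ℝ Φ (x φ i) (y φ i)) volume a b := fun hΦ =>
    intervalIntegrable_iff.2 ((y_int hx hy hb hyi hΦ).mono_set hsub)
  rw [← intervalIntegral.integral_sub (hI hΨ) (hI hΨ'), ← Real.norm_eq_abs,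
    ← integral_const_mul]
  refine intervalIntegral.norm_integral_le_integral_norm_uIoc.trans ?_
  have h1 : ∀ φ, ‖(∑ i, fderiv ℝ Ψ (x φ i) (y φ i)) - ∑ i, fderiv ℝ Ψ' (x φ i) (y φ i)‖ ≤
      ε * ∑ i, ‖y φ i‖ := by
    intro φ
    rw [← Finset.sum_sub_distrib, Finset.mul_sum]
    refine (norm_sum_le _ _).trans (Finset.sum_le_sum fun i _ => ?_)
    rw [← _root_.sub_apply]
    exact ((fderiv ℝ Ψ (x φ i) - fderiv ℝ Ψ' (x φ i)).le_opNorm _).trans
      (mul_le_mul_of_nonneg_right (h _ (mem_closedBall_zero_iff.2 (hb φ i))) (norm_nonneg _))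
  have h2 : IntegrableOn (fun φ => ε * ∑ i, ‖y φ i‖) (Ioc (-Real.pi) Real.pi) :=
    hyi.const_mul ε
  calc ∫ φ in uIoc a b, ‖(∑ i, fderiv ℝ Ψ (x φ i) (y φ i)) -
        ∑ i, fderiv ℝ Ψ' (x φ i) (y φ i)‖
      ≤ ∫ φ in uIoc a b, ε * ∑ i, ‖y φ i‖ :=
        integral_mono_of_nonneg (Eventually.of_forall fun φ => norm_nonneg _)
          (h2.mono_set hsub) (Eventually.of_forall h1)
    _ ≤ ∫ φ in Ioc (-Real.pi) Real.pi, ε * ∑ i, ‖y φ i‖ := by
        refine setIntegral_mono_set h2 (Eventually.of_forall fun φ => ?_) hsub.eventuallyLE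
        exact mul_nonneg hε.le (Finset.sum_nonneg fun i _ => norm_nonneg _)

theorem wcur_of {x y : ℝ → Fin k → ℂ} (hx : ∀ i, Measurable fun φ => x φ i)
    (hy : ∀ i, Measurable fun φ => y φ i) (hb : ∀ φ i, ‖x φ i‖ ≤ Mb)
    (hyi : IntegrableOn (fun φ => ∑ i, ‖y φ i‖) (Ioc (-Real.pi) Real.pi)) (Ψ : ℕ → ℂ → ℝ)
    (hΨ : ∀ n, ContDiff ℝ ∞ (Ψ n))
    (hd : ∀ Φ : ℂ → ℝ, ContDiff ℝ ∞ Φ → ∀ ε > 0, ∃ n, ∀ w ∈ closedBall (0 : ℂ) Mb,
      |Φ w - Ψ n w| ≤ ε ∧ ‖fderiv ℝ Φ w - fderiv ℝ (Ψ n) w‖ ≤ ε)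
    (hac : ∀ n, ∀ᵐ φ₁ : ℝ ∂(volume.restrict (Ioc (-Real.pi) Real.pi)),
      ∀ᵐ φ₂ : ℝ ∂(volume.restrict (Ioc (-Real.pi) Real.pi)),
      ∑ i, Ψ n (x φ₂ i) - ∑ i, Ψ n (x φ₁ i) =
        ∫ φ in φ₁..φ₂, ∑ i, fderiv ℝ (Ψ n) (x φ i) (y φ i))
    (hper : ∀ n, ∫ φ in (-Real.pi)..Real.pi, ∑ i, fderiv ℝ (Ψ n) (x φ i) (y φ i) = 0) :
    WCur k x y := by
  have hpi : -Real.pi ≤ Real.pi := by linarith [Real.pi_pos]
  set Y := ∫ φ in Ioc (-Real.pi) Real.pi, ∑ i, ‖y φ i‖ with hY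
  have hY0 : 0 ≤ Y := integral_nonneg fun φ => Finset.sum_nonneg fun i _ => norm_nonneg _
  have hfin : ∀ d : ℝ, (∀ ε > 0, |d| ≤ ε * (2 * k + Y)) → d = 0 := by
    intro d hd
    by_contra hne
    have h1 : 0 < |d| := abs_pos.2 hne
    have h2 : 0 < 2 * (k : ℝ) + Y + 1 := by positivity
    have h3 := hd (|d| / (2 * k + Y + 1)) (by positivity)
    have h4 : |d| / (2 * k + Y + 1) * (2 * k + Y) < |d| := by
      rw [div_mul_eq_mul_div, div_lt_iff₀ h2]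
      nlinarith
    linarith
  refine ⟨hx, hy, ⟨Mb, hb⟩, fun i => ?_, ?_, ?_⟩
  · refine Integrable.mono' hyi (hy i).norm.aestronglyMeasurable (Eventually.of_forall fun φ => ?_)
    rw [norm_norm]
    exact Finset.single_le_sum (f := fun i => ‖y φ i‖) (fun i _ => norm_nonneg _)
      (Finset.mem_univ i)
  · filter_upwards [ae_all_iff.2 hac, ae_restrict_mem measurableSet_Ioc] with φ₁ h1 hφ₁
    filter_upwards [ae_all_iff.2 h1, ae_restrict_mem measurableSet_Ioc] with φ₂ h2 hφ₂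
    intro Φ hΦ
    rw [← sub_eq_zero]
    refine hfin _ fun ε hε => ?_
    obtain ⟨n, hn⟩ := hd Φ hΦ ε hε
    have h3 := est hx hy hb hyi hΦ (hΨ n) hε (fun w hw => (hn w hw).2)
      (Ioc_subset_Icc_self hφ₁) (Ioc_subset_Icc_self hφ₂)
    have h4 : ∀ φ, |∑ i, Φ (x φ i) - ∑ i, Ψ n (x φ i)| ≤ k * ε := by
      intro φ
      rw [← Finset.sum_sub_distrib]
      refine (Finset.abs_sum_le_sum_abs _ _).trans ?_
      refine (Finset.sum_le_sum fun i _ => (hn _ (mem_closedBall_zero_iff.2 (hb φ i))).1).trans ?_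
      simp
    have h5 := h4 φ₁
    have h6 := h4 φ₂
    have h7 := h2 n
    rw [abs_le] at h3 h5 h6 ⊢
    constructor <;> nlinarith [h3.1, h3.2, h5.1, h5.2, h6.1, h6.2]
  · intro Φ hΦ
    refine hfin _ fun ε hε => ?_
    obtain ⟨n, hn⟩ := hd Φ hΦ ε hε
    have h3 := est hx hy hb hyi hΦ (hΨ n) hε (fun w hw => (hn w hw).2)
      (left_mem_Icc.2 hpi) (right_mem_Icc.2 hpi)
    rw [hper n, sub_zero] at h3
    refine h3.trans ?_
    have : (0 : ℝ) ≤ ε * (2 * k) := by positivity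
    nlinarith

/-- **Leaf SLICE.** -/
theorem slice_of (hS : SEP) (hP : POLAR) (hP0 : POLAR0) (μ β : ℂ × ℂ → ℂ) (c : ℂ) (R : ℝ) (k : ℕ)
    (s : ℂ → Fin k → ℂ) (A : ℂ → Fin k → (ℂ →L[ℝ] ℂ)) (ma : Measure ℂ) (K c0 Mb : ℝ) :
    SLICE μ β c R k s A ma K c0 Mb := by
  intro hw p r0 hsub
  by_cases hr0 : 0 < r0
  swap
  · rw [Ioo_eq_empty (by simpa using hr0), Measure.restrict_empty]
    exact ae_zero.symm ▸ trivial
  obtain ⟨Ψ, hΨ, hdense⟩ := hS Mb
  have hbd : ∀ n, ∃ M, ∀ t, |FF s (Ψ n) t| ≤ M := fun n => by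
    obtain ⟨C, hC0, hC⟩ := exists_bd Mb (hΨ n)
    exact ⟨_, FF_le hw.bdd (fun w hw => (hC w hw).1)⟩
  choose M hM using hbd
  have hn := fun n => hP p r0 (M n) (FF s (Ψ n)) (GG s A (Ψ n)) hr0
    (FF_meas hw.smeas (hΨ n).continuous) (GG_meas hw.smeas hw.Ameas (hΨ n)) (hM n)
    ((GG_sq_int hw.bdd hw.smeas hw.Ameas hw.eint (hΨ n)).mono_set hsub) (weak1 hw hsub (hΨ n))
  have h0n := fun n => hP0 p r0 (M n) (FF s (Ψ n)) (GG s A (Ψ n)) hr0
    (FF_meas hw.smeas (hΨ n).continuous) (GG_meas hw.smeas hw.Ameas (hΨ n)) (hM n)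
    ((GG_sq_int hw.bdd hw.smeas hw.Ameas hw.eint (hΨ n)).mono_set hsub) (weak1 hw hsub (hΨ n))
  have hA : ∀ᵐ r : ℝ ∂(volume.restrict (Ioo 0 r0)),
      IntegrableOn (fun φ : ℝ => ∑ i, ‖A (p + r * exp (φ * I)) i‖) (Ioc (-Real.pi) Real.pi) := by
    set F : ℂ → ℝ≥0∞ := (ball p r0).indicator fun t => ENNReal.ofReal (∑ i, ‖A t i‖) with hF
    have hFm : Measurable F :=
      ((sumA_meas hw.Ameas).ennreal_ofReal).indicator measurableSet_ball
    have hFi : ∫⁻ z, F z ≠ ⊤ := by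
      rw [hF, lintegral_indicator measurableSet_ball]
      have h1 := ((sumA_int hw.Ameas hw.eint).mono_set hsub).2
      have h2 : ∫⁻ t in ball p r0, ‖(∑ i, ‖A t i‖ : ℝ)‖ₑ =
          ∫⁻ t in ball p r0, ENNReal.ofReal (∑ i, ‖A t i‖) := by
        refine lintegral_congr fun t => ?_
        rw [← ofReal_norm, Real.norm_of_nonneg
          (Finset.sum_nonneg fun i _ => norm_nonneg _)]
      rw [← h2]
      exact (hasFiniteIntegral_iff_enorm.1 h1).ne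
    have h1 := ae_restrict_of_ae_restrict_of_subset (s := Ioo 0 r0) Ioo_subset_Ioi_self
      (KGL2_52.fin_prod hFm hFi p).1
    filter_upwards [h1, ae_restrict_mem measurableSet_Ioo] with r h2 hr
    rw [integrableOn_Ioc_iff_integrableOn_Ioo]
    have hmeas : Measurable fun φ : ℝ => ∑ i, ‖A (p + r * exp (φ * I)) i‖ :=
      (sumA_meas hw.Ameas).comp (by fun_prop)
    refine ⟨hmeas.aestronglyMeasurable, ?_⟩
    rw [hasFiniteIntegral_iff_enorm]
    have h3 : ∀ φ : ℝ, ENNReal.ofReal r * F (KGL2_52.pt p r φ) =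
        ENNReal.ofReal r * ‖(∑ i, ‖A (p + r * exp (φ * I)) i‖ : ℝ)‖ₑ := by
      intro φ
      have h4 : KGL2_52.pt p r φ ∈ ball p r0 := by
        rw [mem_ball, dist_eq_norm, KGL2_52.norm_pt_sub p hr.1.le]
        exact hr.2
      rw [hF, indicator_of_mem h4, ← ofReal_norm, Real.norm_of_nonneg
        (Finset.sum_nonneg fun i _ => norm_nonneg _)]
      rfl
    simp_rw [h3] at h2
    rw [lintegral_const_mul _ hmeas.enorm] at h2
    by_contra hcon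
    rw [not_lt, top_le_iff] at hcon
    rw [hcon, ENNReal.mul_top (ENNReal.ofReal_pos.2 hr.1).ne'] at h2
    exact lt_irrefl _ h2
  filter_upwards [ae_all_iff.2 hn, ae_all_iff.2 h0n, hA, ae_restrict_mem measurableSet_Ioo]
    with r h1 h2 h3 hr
  have hγ : Measurable fun φ : ℝ => p + (r : ℂ) * exp (φ * I) := by fun_prop
  have hy : ∀ i, Measurable fun φ : ℝ => A (p + r * exp (φ * I)) i (I * (r * exp (φ * I))) := by
    intro i
    have h4 : Continuous fun q : (ℂ →L[ℝ] ℂ) × ℂ => q.1 q.2 := by fun_prop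
    exact h4.measurable.comp (((hw.Ameas i).comp hγ).prodMk (by fun_prop))
  have hyi : IntegrableOn (fun φ : ℝ => ∑ i, ‖A (p + r * exp (φ * I)) i (I * (r * exp (φ * I)))‖)
      (Ioc (-Real.pi) Real.pi) := by
    refine Integrable.mono' (h3.mul_const r)
      (Finset.measurable_sum _ fun i _ => (hy i).norm).aestronglyMeasurable
      (Eventually.of_forall fun φ => ?_)
    rw [Real.norm_of_nonneg (Finset.sum_nonneg fun i _ => norm_nonneg _), Finset.sum_mul]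
    refine Finset.sum_le_sum fun i _ => ?_
    refine ((A (p + r * exp (φ * I)) i).le_opNorm _).trans_eq ?_
    rw [norm_mul, norm_I, one_mul, norm_mul, norm_exp_ofReal_mul_I, mul_one, Complex.norm_real,
      Real.norm_of_nonneg hr.1.le]
  refine wcur_of (Mb := Mb) (fun i => (hw.smeas i).comp hγ) hy (fun φ i => hw.bdd _ i) hyi Ψ hΨ
    hdense (fun n => ?_) (fun n => ?_)
  · filter_upwards [(h1 n).2] with φ₁ h4
    filter_upwards [h4] with φ₂ h5
    simpa only [FF, GG_apply] using h5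
  · simpa only [GG_apply] using h2 n

end

end Crest.Agent.R235.WKSlice_659
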