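import Crest.Agent.R249.HKEnd_286

/-!
# Row 235, block FAM, leaf WEYL (helper820), part 1: LEADING TERM of the local heat trace.

* `lead_sys`   : for a Parseval system `S` on a ball, `t² ∑ₖ e^{-2tμₖ} |uₖ(0)|² → |κ| / (64 π²)`, with
                 `∑ₖ … ≤ C / t²` on `(0, 1]`;
* `lead_chart` : the same for a system `CSys` on an open set, at every point, locally uniform bound.
-/

set_option autoImplicit false
set_option linter.unusedSectionVars false
open scoped ContDiff Topology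
open MeasureTheory Set Metric Filter

namespace Crest.Agent.R235.Weyl_820
open Crest.Agent.R249.HK286 Crest.Agent.R249.HKLim_274 Crest.Agent.R249.HK9_714
  Crest.Agent.R249.HK8_286

section
variable {ι : Type*} {M : Met ι} {κ : Type} [Fintype κ] [DecidableEq κ] {R : ℝ}
  {c : Cut R} {D : Con M κ}

/-- diagonal part of the kernel -/
noncomputable def dg (M : Met ι) (c : Cut R) (i : ι) (t : ℝ) (x : E4) (p q : κ) : ℝ :=
  if p = q then M.HH c 1 i t x 0 else 0

theorem vb_dg (hC : Cal M) (hM : InpM M c) (p q : κ) :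
    VB 0 (fun i t x => dg M c i t x p q) := by
  have := hC.vb_smul 0 (if p = q then 1 else 0) _ (hM.h0 1)
  have h2 : (fun i t x => dg M c i t x p q) = fun i t x => (if p = q then 1 else 0) * M.HH c 1 i t x 0 := by
    funext i t x
    unfold dg
    split_ifs <;> ring
  rw [h2]; exact this

theorem vb_rem (hC : Cal M) (hM : InpM M c) (hD : InpD c D) (p q : κ) :
    VB 1 (fun i t x => D.kk c i t x p q - dg M c i t x p q) := by
  have a1 := hC.star_vb 0 (sc (M.HH c 2)) (D.f1 c) le_rfl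
    (fun p r => by
      by_cases h : p = r
      · simpa [sc, h] using kw_HH hC hM 2
      · simpa [sc, h] using (kw_zero : KW (fun (_ : ι) (_ : ℝ) (_ _ : E4) => (0 : ℝ))))
    (vb_f1 hC hM hD) p q
  have a2 := hC.star_vb 0 (sc (M.HH c 3)) (D.f2 c) le_rfl
    (fun p r => by
      by_cases h : p = r
      · simpa [sc, h] using kw_HH hC hM 3
      · simpa [sc, h] using (kw_zero : KW (fun (_ : ι) (_ : ℝ) (_ _ : E4) => (0 : ℝ))))
    (fun r q => vb10 hC hM hD (vb_f2 hC hM hD r q)) p q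
  have b1 := hC.vb_smul (0 + 1) (-1) _ a1
  have := hC.vb_add (0 + 1) _ _ b1 a2
  rw [zero_add] at this
  have h2 : (fun i t x => D.kk c i t x p q - dg M c i t x p q) = fun i t x =>
      -1 * M.star (sc (M.HH c 2)) (D.f1 c) i t x p q + M.star (sc (M.HH c 3)) (D.f2 c) i t x p q := by
    funext i t x
    simp only [Con.kk, dg]
    ring
  rw [h2]; exact this

/-- `t² ∫ |H₁|² w → 1/(64π²)` -/
theorem lim_HH (c : Cut R) (i : ι) :
    Tendsto (fun t : ℝ => t ^ 2 * ∫ x, M.HH c 1 i t x 0 * M.HH c 1 i t x 0 * M.w i x) (𝓝[>] 0)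
      (𝓝 (1 / (64 * Real.pi ^ 2))) := by
  have h0 := SF_HH (M := M) c 1
  have hS : SF 1 (fun i t x => t * M.HH c 1 i t x 0) (fun i σ ξ => σ * gam M i σ ξ) := by
    obtain ⟨C, c', hC, hc', hb⟩ := h0.bd
    refine ⟨fun i => measurable_fst.mul (h0.meas i), ⟨C, c', hC, hc', fun i t ht x => ?_⟩,
      fun i σ hσ ξ => ?_⟩
    · rw [abs_mul, abs_of_pos ht.1]
      have := hb i t ht x
      rw [pow_zero, mul_one] at this
      calc t * |M.HH c 1 i t x 0| ≤ t * (C * Gam c' t x) := by
            exact mul_le_mul_of_nonneg_left this ht.1.le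
        _ = _ := by ring
    · have h1 := (h0.lim i σ hσ ξ).const_mul σ
      refine h1.congr' ?_
      filter_upwards [self_mem_nhdsWithin] with t ht
      have ht0 : (0:ℝ) < t := ht
      rw [pow_zero, inv_one, mul_one, pow_one]
      field_simp
  have h1 := (pairing M hS hS rfl).2 i
  have h2 : (∫ x, (1 * gam M i 1 x) * (1 * gam M i 1 x) * M.w i 0) = 1 / (64 * Real.pi ^ 2) := by
    have h3 := sq_value (M := M) i 1
    rw [mul_one] at h3
    rw [← h3]
    refine integral_congr_ae (Eventually.of_forall fun x => ?_)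
    ring
  rw [h2] at h1
  refine h1.congr' ?_
  filter_upwards [self_mem_nhdsWithin] with t ht
  rw [← integral_const_mul]
  refine integral_congr_ae (Eventually.of_forall fun x => ?_)
  ring

/-- the leading term of `∫ |k_t|² w` -/
theorem lead_kk (hC : Cal M) (hM : InpM M c) (hD : InpD c D) (i : ι) :
    Tendsto (fun t : ℝ => t ^ 2 * ∫ x, (∑ p, ∑ q, D.kk c i t x p q ^ 2) * M.w i x) (𝓝[>] 0)
      (𝓝 (Fintype.card κ / (64 * Real.pi ^ 2))) := by
  have hr := vb_rem hC hM hD
  have hd := fun p q : κ => vb_dg (κ := κ) hC hM p q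
  have hk := vb_kk hC hM hD
  have hs : ∀ p q, VB 0 (fun i t x => D.kk c i t x p q + dg M c i t x p q) := fun p q =>
    hC.vb_add 0 _ _ (hk p q) (hd p q)
  -- error
  choose C hCb using fun p q => (hC.int_mul 1 0 _ _ zero_le_one le_rfl (hr p q) (hs p q)).2
  have i1 := fun p q => (hC.int_mul 1 0 _ _ zero_le_one le_rfl (hr p q) (hs p q)).1 i
  have i2 := fun p q => (hC.int_mul 0 0 _ _ le_rfl le_rfl (hd p q) (hd p q)).1 i
  have e1 : ∀ t ∈ Ioc (0:ℝ) 1, (∫ x, (∑ p, ∑ q, D.kk c i t x p q ^ 2) * M.w i x) =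
      (∑ p, ∑ q, ∫ x, (D.kk c i t x p q - dg M c i t x p q) *
        (D.kk c i t x p q + dg M c i t x p q) * M.w i x) +
      Fintype.card κ * ∫ x, M.HH c 1 i t x 0 * M.HH c 1 i t x 0 * M.w i x := by
    intro t ht
    have a1 : ∀ x, (∑ p, ∑ q, D.kk c i t x p q ^ 2) * M.w i x =
        ∑ p, ∑ q, ((D.kk c i t x p q - dg M c i t x p q) *
        (D.kk c i t x p q + dg M c i t x p q) * M.w i x +
          dg M c i t x p q * dg M c i t x p q * M.w i x) := by
      intro x
      rw [Finset.sum_mul]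
      refine Finset.sum_congr rfl fun p _ => ?_
      rw [Finset.sum_mul]
      refine Finset.sum_congr rfl fun q _ => ?_
      ring
    simp only [a1]
    have ia : ∀ p q, Integrable (fun x => (D.kk c i t x p q - dg M c i t x p q) *
        (D.kk c i t x p q + dg M c i t x p q) * M.w i x +
          dg M c i t x p q * dg M c i t x p q * M.w i x) := fun p q =>
      (i1 p q t ht).add (i2 p q t ht)
    rw [integral_finsetSum _ fun p _ => integrable_finsetSum _ fun q _ => ia p q]
    have a2 : ∀ p, (∫ x, ∑ q, ((D.kk c i t x p q - dg M c i t x p q) *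
        (D.kk c i t x p q + dg M c i t x p q) * M.w i x +
          dg M c i t x p q * dg M c i t x p q * M.w i x)) =
        (∑ q, ∫ x, (D.kk c i t x p q - dg M c i t x p q) *
        (D.kk c i t x p q + dg M c i t x p q) * M.w i x) +
        ∑ q, ∫ x, dg M c i t x p q * dg M c i t x p q * M.w i x := by
      intro p
      rw [integral_finsetSum _ fun q _ => ia p q, ← Finset.sum_add_distrib]
      exact Finset.sum_congr rfl fun q _ => integral_add (i1 p q t ht) (i2 p q t ht)
    simp only [a2]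
    rw [Finset.sum_add_distrib]
    congr 1
    have a3 : ∀ p : κ, (∑ q : κ, ∫ x, dg M c i t x p q * dg M c i t x p q * M.w i x) =
        ∫ x, M.HH c 1 i t x 0 * M.HH c 1 i t x 0 * M.w i x := by
      intro p
      rw [Finset.sum_eq_single p]
      · simp [dg]
      · intro q _ hq
        simp [dg, hq.symm]
      · intro h; exact absurd (Finset.mem_univ p) h
    simp only [a3]
    rw [Finset.sum_const, Finset.card_univ, nsmul_eq_mul]
  have l1 : Tendsto (fun t : ℝ => t ^ 2 * ∑ p, ∑ q, ∫ x, (D.kk c i t x p q - dg M c i t x p q) *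
        (D.kk c i t x p q + dg M c i t x p q) * M.w i x) (𝓝[>] 0) (𝓝 0) := by
    have hz : Tendsto (fun t : ℝ => t * ∑ p, ∑ q, |C p q|) (𝓝[>] 0) (𝓝 0) := by
      have : Tendsto (fun t : ℝ => t * ∑ p, ∑ q, |C p q|) (𝓝 0) (𝓝 (0 * ∑ p, ∑ q, |C p q|)) :=
        (continuous_id.mul continuous_const).tendsto 0
      rw [zero_mul] at this
      exact this.mono_left nhdsWithin_le_nhds
    refine squeeze_zero_norm' ?_ hz
    filter_upwards [ev_Ioc] with t ht
    rw [Real.norm_eq_abs, abs_mul, abs_of_nonneg (sq_nonneg t)]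
    have b1 : |∑ p, ∑ q, ∫ x, (D.kk c i t x p q - dg M c i t x p q) *
        (D.kk c i t x p q + dg M c i t x p q) * M.w i x| ≤ (∑ p, ∑ q, |C p q|) * t⁻¹ := by
      rw [Finset.sum_mul]
      refine (Finset.abs_sum_le_sum_abs _ _).trans (Finset.sum_le_sum fun p _ => ?_)
      rw [Finset.sum_mul]
      refine (Finset.abs_sum_le_sum_abs _ _).trans (Finset.sum_le_sum fun q _ => ?_)
      have b2 := hCb p q i t ht
      have b3 : t ^ ((1:ℝ) + 0 - 2) = t⁻¹ := by
        rw [show (1:ℝ) + 0 - 2 = -1 by norm_num, Real.rpow_neg_one]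
      rw [b3] at b2
      exact b2.trans (mul_le_mul_of_nonneg_right (le_abs_self _) (inv_nonneg.2 ht.1.le))
    calc t ^ 2 * |_| ≤ t ^ 2 * ((∑ p, ∑ q, |C p q|) * t⁻¹) :=
          mul_le_mul_of_nonneg_left b1 (sq_nonneg t)
      _ = t * ∑ p, ∑ q, |C p q| := by
          have := ht.1.ne'
          field_simp
  have l2 := (lim_HH (M := M) c i).const_mul (Fintype.card κ : ℝ)
  have l3 := l1.add l2
  rw [zero_add, mul_one_div] at l3
  refine l3.congr' ?_
  filter_upwards [ev_Ioc] with t ht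
  rw [e1 t ht]
  ring

end

/-- **leading term**, systems on a ball -/
theorem lead_sys {ι : Type} {M : Met ι} {κ : Type} [Fintype κ] [DecidableEq κ] {D : Con M κ} {R : ℝ}
    (hR : 0 < R) {K : Type} [Countable K] (S : Sys D R K) :
    (∃ C : ℝ, ∀ i, ∀ t ∈ Ioc (0 : ℝ) 1,
      Summable (fun k => Real.exp (-(2 * t * S.mu i k)) * ∑ p, S.u i k 0 p ^ 2) ∧
      S.diag i t ≤ C / t ^ 2) ∧
    ∀ i, Tendsto (fun t => t ^ 2 * S.diag i t) (𝓝[>] 0) (𝓝 (Fintype.card κ / (64 * Real.pi ^ 2))) := by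
  obtain ⟨c⟩ := exists_cut hR
  have hC := Crest.Agent.R249.HK1_654.cal M
  have hM : InpM M c := Crest.Agent.R249.HK352.inpM c
  have hD : InpD c D := Crest.Agent.R249.HK352.inpD c D hM
  have hcore : CoreStmt c D := Crest.Agent.R249.HK5_905.core hC hM hD hR
      (fun i z _ hf hB hc => Crest.Agent.R249.HK4_654.hk4 M i z hf hB hc)
  obtain ⟨C1, h1⟩ := hcore K S
  obtain ⟨C3, h3⟩ := kk_bd hC hM hD
  refine ⟨⟨|C1| + |C3|, fun i t ht => ⟨(h1 i t ht).1, ?_⟩⟩, fun i => ?_⟩
  · have ht2 : (0:ℝ) < t ^ 2 := by have := ht.1; positivity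
    have ht1 : t ≤ 1 / t ^ 2 := by
      rw [le_div_iff₀ ht2]
      calc t * t ^ 2 = t ^ 3 := by ring
        _ ≤ 1 := pow_le_one₀ ht.1.le ht.2
    have e1 := (abs_le.1 (h1 i t ht).2).2
    have e3 := h3 i t ht
    have a1 : C1 * t ≤ |C1| * (1 / t ^ 2) :=
      (mul_le_mul_of_nonneg_right (le_abs_self C1) ht.1.le).trans
        (mul_le_mul_of_nonneg_left ht1 (abs_nonneg _))
    have a3 : C3 / t ^ 2 ≤ |C3| * (1 / t ^ 2) := by
      rw [mul_one_div]; exact div_le_div_of_nonneg_right (le_abs_self C3) ht2.le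
    calc S.diag i t ≤ C1 * t + C3 / t ^ 2 := by linarith
      _ ≤ (|C1| + |C3|) * (1 / t ^ 2) := by linarith
      _ = _ := by rw [mul_one_div]
  · have l1 := lead_kk hC hM hD i
    have l2 : Tendsto (fun t : ℝ => t ^ 2 * (S.diag i t -
        ∫ x, (∑ p, ∑ q, D.kk c i t x p q ^ 2) * M.w i x)) (𝓝[>] 0) (𝓝 0) := by
      have hz : Tendsto (fun t : ℝ => |C1| * t) (𝓝[>] 0) (𝓝 0) := by
        have : Tendsto (fun t : ℝ => |C1| * t) (𝓝 0) (𝓝 (|C1| * 0)) :=
          (continuous_const.mul continuous_id).tendsto 0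
        rw [mul_zero] at this
        exact this.mono_left nhdsWithin_le_nhds
      refine squeeze_zero_norm' ?_ hz
      filter_upwards [ev_Ioc] with t ht
      rw [Real.norm_eq_abs, abs_mul, abs_of_nonneg (sq_nonneg t)]
      have e1 := (h1 i t ht).2
      have e2 : t ^ 2 ≤ 1 := pow_le_one₀ ht.1.le ht.2
      calc t ^ 2 * |_| ≤ 1 * (C1 * t) := by
            refine mul_le_mul e2 e1 (abs_nonneg _) zero_le_one
        _ ≤ |C1| * t := by
            rw [one_mul]
            exact mul_le_mul_of_nonneg_right (le_abs_self _) ht.1.le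
    have l3 := l2.add l1
    rw [zero_add] at l3
    refine l3.congr' (Eventually.of_forall fun t => ?_)
    ring

/-- **leading term**, systems on an open set -/
theorem lead_chart {V : Set E4} (hV : IsOpen V) (m : CMet V) {κ : Type} [Fintype κ]
    (A : CCon V κ) {K : Type} [Countable K] (S : CSys m A K) :
    (∀ C : Set E4, IsCompact C → C ⊆ V → ∃ B : ℝ, ∀ x ∈ C, ∀ t ∈ Ioc (0 : ℝ) 1,
      Summable (fun k => Real.exp (-(2 * t * S.mu k)) * ∑ p, S.u k x p ^ 2) ∧
      S.diag t x ≤ B / t ^ 2) ∧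
    ∀ x ∈ V, Tendsto (fun t => t ^ 2 * S.diag t x) (𝓝[>] 0)
      (𝓝 (Fintype.card κ / (64 * Real.pi ^ 2))) := by
  classical
  have key : ∀ C : Set E4, IsCompact C → C ⊆ V →
      (∃ B : ℝ, ∀ x ∈ C, ∀ t ∈ Ioc (0 : ℝ) 1,
        Summable (fun k => Real.exp (-(2 * t * S.mu k)) * ∑ p, S.u k x p ^ 2) ∧
        S.diag t x ≤ B / t ^ 2) ∧
      ∀ x ∈ C, Tendsto (fun t => t ^ 2 * S.diag t x) (𝓝[>] 0)
        (𝓝 (Fintype.card κ / (64 * Real.pi ^ 2))) := by
    intro C hC hCV
    obtain ⟨R, G⟩ := exists_geo hV hC hCV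
    obtain ⟨⟨B, hB⟩, hlim⟩ := lead_sys G.pos (mkS G m A S)
    refine ⟨⟨B, fun x hx t ht => ?_⟩, fun x hx => ?_⟩
    · have h := hB ⟨x, hx⟩ t ht
      rw [mkS_diag] at h
      simp only [mkS_zero] at h
      exact h
    · have h := hlim ⟨x, hx⟩
      simp only [mkS_diag] at h
      exact h
  refine ⟨fun C hC hCV => (key C hC hCV).1, fun x hx => ?_⟩
  exact (key {x} isCompact_singleton (singleton_subset_iff.2 hx)).2 x rfl

end Crest.Agent.R235.Weyl_820
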