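import Crest.Agent.R235.Wind2_688

/-!
# Row 235 (S0364), package ADJ, leaf W1, third part (helper688): integral formulas.

* `IsWL.integral`  : `∫_0^{2π} g'/g = 2πi n`
* `IsW.integral`   : the same on circles
* `jac χ F z`      : `dχ ∧ dF` evaluated on `(1, i)`
* `weak_closed`    : `∫ dχ ∧ dF/F = 0`
* `cut`            : `∫ dχ ∧ dF/F = -2πi ∑ χ(p) n(p)`
-/

set_option autoImplicit false

open Complex Set Filter Topology Metric MeasureTheory
open scoped Real

namespace Crest.Agent.R235.Wind_688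

noncomputable section

theorem hasDerivAt_lift {L g : ℝ → ℂ} {g' : ℂ} {t : ℝ} (hL : ContinuousAt L t)
    (he : ∀ s, exp (L s) = g s) (hg : HasDerivAt g g' t) : HasDerivAt L (g' / g t) t := by
  have h0 : g t ≠ 0 := by rw [← he t]; exact exp_ne_zero _
  have h1 : ∀ᶠ s in 𝓝 t, |(L s - L t).im| < π := by
    have e : Tendsto (fun s => |(L s - L t).im|) (𝓝 t) (𝓝 |(L t - L t).im|) := by
      have := (Complex.continuous_im.continuousAt (x := L t - L t)).comp
        (f := fun s => L s - L t) (x := t) (hL.sub continuousAt_const)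
      exact (continuous_abs.continuousAt).comp this
    rw [sub_self, zero_im, abs_zero] at e
    exact e.eventually (Iio_mem_nhds Real.pi_pos)
  have h2 : L =ᶠ[𝓝 t] fun s => L t + Complex.log (g s / g t) := by
    filter_upwards [h1] with s hs
    have e : g s / g t = exp (L s - L t) := by rw [exp_sub, he, he]
    rw [e, Complex.log_exp (by have := (abs_lt.1 hs).1; simpa using this)
      (by have := (abs_lt.1 hs).2; simpa using this.le)]
    ring
  refine HasDerivAt.congr_of_eventuallyEq ?_ h2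
  have h3 : HasDerivAt (fun s => g s / g t) (g' / g t) t := hg.div_const _
  have h4 : g t / g t ∈ slitPlane := by
    rw [div_self h0]; exact one_mem_slitPlane
  have h5 := (h3.clog_real h4).const_add (L t)
  convert h5 using 1
  rw [div_self h0, div_one]

theorem IsWL.integral {g g' : ℝ → ℂ} {n : ℤ} (h : IsWL g n) (hg : ∀ t, HasDerivAt g (g' t) t)
    (hc : Continuous g') : ∫ t in (0 : ℝ)..2 * π, g' t / g t = n * (2 * π * I) := by
  obtain ⟨L, hL, he, hp⟩ := h
  have h0 : ∀ t, g t ≠ 0 := fun t => by rw [← he t]; exact exp_ne_zero _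
  have hgc : Continuous g := continuous_iff_continuousAt.2 fun t => (hg t).continuousAt
  rw [intervalIntegral.integral_eq_sub_of_hasDerivAt
    (fun t _ => hasDerivAt_lift hL.continuousAt he (hg t))
    ((hc.div hgc h0).intervalIntegrable _ _)]
  have := hp 0
  rw [zero_add] at this
  rw [this]; ring

theorem IsW.integral {F : ℂ → ℂ} {p : ℂ} {r : ℝ} {n : ℤ} (hr : 0 ≤ r) (h : IsW F p r n)
    (hd : ∀ z ∈ sphere p r, DifferentiableAt ℝ F z)
    (hc : ContinuousOn (fderiv ℝ F) (sphere p r)) :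
    ∫ t in (0 : ℝ)..2 * π, fderiv ℝ F (circleMap p r t) (circleMap 0 r t * I) /
      F (circleMap p r t) = n * (2 * π * I) := by
  refine IsWL.integral (g := fun t => F (circleMap p r t)) h (fun t => ?_) ?_
  · have h1 := (hd _ (cm_mem p hr t)).hasFDerivAt
    have h2 : HasDerivAt (circleMap p r) (circleMap 0 r t * I) t := hasDerivAt_circleMap p r t
    exact h1.comp_hasDerivAt t h2
  · have h1 : Continuous fun t => fderiv ℝ F (circleMap p r t) :=
      hc.comp_continuous (continuous_circleMap p r) fun t => cm_mem p hr t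
    exact h1.clm_apply ((continuous_circleMap 0 r).mul continuous_const)

/-- `dχ ∧ dF (1, i)` -/
def jac (χ : ℂ → ℝ) (F : ℂ → ℂ) (z : ℂ) : ℂ :=
  (fderiv ℝ χ z 1 : ℂ) * fderiv ℝ F z I - (fderiv ℝ χ z I : ℂ) * fderiv ℝ F z 1

/-- the `2`-form on a rotated frame -/
theorem jac_rot (A : ℂ →L[ℝ] ℝ) (B : ℂ →L[ℝ] ℂ) (e : ℂ) (he : ‖e‖ = 1) :
    (A 1 : ℂ) * B I - (A I : ℂ) * B 1 = (A e : ℂ) * B (e * I) - (A (e * I) : ℂ) * B e := by
  have h1 : e = e.re • (1 : ℂ) + e.im • I := by
    apply Complex.ext <;> simp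
  have h2 : e * I = (-e.im) • (1 : ℂ) + e.re • I := by
    apply Complex.ext <;> simp
  have h3 : (e.re : ℂ) ^ 2 + (e.im : ℂ) ^ 2 = 1 := by
    have : e.re ^ 2 + e.im ^ 2 = 1 := by
      have := Complex.sq_norm e
      rw [he, one_pow, Complex.normSq_apply] at this
      nlinarith
    exact_mod_cast this
  have a1 : A e = e.re * A 1 + e.im * A I := by
    conv_lhs => rw [h1]
    simp only [map_add, map_smul, smul_eq_mul]
  have a2 : A (e * I) = -e.im * A 1 + e.re * A I := by
    rw [h2]; simp only [map_add, map_smul, smul_eq_mul]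
  have b1 : B e = (e.re : ℂ) * B 1 + (e.im : ℂ) * B I := by
    conv_lhs => rw [h1]
    rw [map_add, map_smul, map_smul, Complex.real_smul, Complex.real_smul]
  have b2 : B (e * I) = (-e.im : ℂ) * B 1 + (e.re : ℂ) * B I := by
    rw [h2, map_add, map_smul, map_smul, Complex.real_smul, Complex.real_smul]; push_cast; ring
  rw [a1, a2, b1, b2]
  push_cast
  linear_combination (-((A 1 : ℂ) * B I) + (A I : ℂ) * B 1) * h3

/-! ### compactly supported forms -/

/-- the integral of a derivative of a compactly supported `C¹` function vanishes -/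
theorem integral_fderiv_zero {f : ℂ → ℂ} (hf : ContDiff ℝ 1 f) (hs : HasCompactSupport f) (v : ℂ) :
    ∫ z, fderiv ℝ f z v = 0 := by
  have hc : Continuous fun z => fderiv ℝ f z v :=
    (hf.continuous_fderiv one_ne_zero).clm_apply continuous_const
  have hcs : HasCompactSupport fun z => fderiv ℝ f z v := by
    have h1 := hs.fderiv (𝕜 := ℝ)
    refine h1.mono ?_
    intro z hz
    rw [Function.mem_support] at hz ⊢
    intro h0; exact hz (by rw [h0]; rfl)
  have h := integral_mul_fderiv_eq_neg_fderiv_mul_of_integrable (μ := (volume : Measure ℂ))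
    (𝕜 := ℂ) (f := fun _ : ℂ => (1 : ℂ)) (g := f) (v := v) (by simp)
    (by simpa using hc.integrable_of_hasCompactSupport hcs)
    (by simpa using hf.continuous.integrable_of_hasCompactSupport hs)
    (fun x _ => differentiableAt_const _) (fun x _ => (hf.differentiable one_ne_zero) x)
  simpa using h

/-- `χ/F · dF(v)` extended by zero -/
theorem contDiff_ext {U : Set ℂ} (hU : IsOpen U) {χ : ℂ → ℝ} {G : ℂ → ℂ} (hχ : ContDiff ℝ 1 χ)
    (hsub : tsupport χ ⊆ U) (hG : ContDiffOn ℝ 1 G U) : ContDiff ℝ 1 fun z => (χ z : ℂ) * G z := by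
  have h1 : ContDiff ℝ 1 fun z => (χ z : ℂ) := Complex.ofRealCLM.contDiff.comp hχ
  rw [contDiff_iff_contDiffAt]
  intro z
  by_cases hz : z ∈ tsupport χ
  · exact h1.contDiffAt.mul (hG.contDiffAt (hU.mem_nhds (hsub hz)))
  · have : (fun z => (χ z : ℂ) * G z) =ᶠ[𝓝 z] fun _ => 0 := by
      have := (isClosed_tsupport χ).isOpen_compl.mem_nhds hz
      filter_upwards [this] with y hy
      rw [image_eq_zero_of_notMem_tsupport hy]; simp
    exact contDiffAt_const.congr_of_eventuallyEq this

theorem jac_supp {χ : ℂ → ℝ} {F : ℂ → ℂ} {z : ℂ} (hz : z ∉ tsupport χ) : jac χ F z = 0 := by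
  have h1 : fderiv ℝ χ z = 0 := by
    have : χ =ᶠ[𝓝 z] fun _ => 0 := by
      have := (isClosed_tsupport χ).isOpen_compl.mem_nhds hz
      filter_upwards [this] with y hy
      exact image_eq_zero_of_notMem_tsupport hy
    rw [this.fderiv_eq]; simp
  simp [jac, h1]

/-- weak closedness of `dF/F` -/
theorem weak_closed {U : Set ℂ} (hU : IsOpen U) {F : ℂ → ℂ} (hF : ContDiffOn ℝ 2 F U)
    (h0 : ∀ z ∈ U, F z ≠ 0) {χ : ℂ → ℝ} (hχ : ContDiff ℝ 1 χ) (hs : HasCompactSupport χ)
    (hsub : tsupport χ ⊆ U) :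
    Integrable (fun z => jac χ F z / F z) ∧ ∫ z, jac χ F z / F z = 0 := by
  have hF1 : ContDiffOn ℝ 1 (fun z => fderiv ℝ F z) U :=
    hF.fderiv_of_isOpen hU (by norm_num)
  have hG : ∀ v : ℂ, ContDiffOn ℝ 1 (fun z => fderiv ℝ F z v / F z) U := fun v => by
    have h1 : ContDiffOn ℝ 1 (fun z => fderiv ℝ F z v) U := hF1.clm_apply contDiffOn_const
    simp only [div_eq_mul_inv]
    exact h1.mul ((hF.of_le one_le_two).inv h0)
  have hβ : ∀ v : ℂ, ContDiff ℝ 1 fun z => (χ z : ℂ) * (fderiv ℝ F z v / F z) := fun v =>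
    contDiff_ext hU hχ hsub (hG v)
  have hβs : ∀ v : ℂ, HasCompactSupport fun z => (χ z : ℂ) * (fderiv ℝ F z v / F z) := fun v => by
    refine hs.mono ?_
    intro z hz
    rw [Function.mem_support] at hz ⊢
    intro h1; exact hz (by rw [h1]; simp)
  have key : ∀ z, jac χ F z / F z =
      fderiv ℝ (fun z => (χ z : ℂ) * (fderiv ℝ F z I / F z)) z 1 -
      fderiv ℝ (fun z => (χ z : ℂ) * (fderiv ℝ F z 1 / F z)) z I := by
    intro z
    by_cases hz : z ∈ tsupport χ
    · have hzU := hsub hz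
      have hUn := hU.mem_nhds hzU
      have hFz := h0 z hzU
      have hd : DifferentiableAt ℝ F z :=
        (hF.contDiffAt hUn).differentiableAt (by norm_num)
      have hd2 : DifferentiableAt ℝ (fderiv ℝ F) z :=
        (hF1.contDiffAt hUn).differentiableAt (by norm_num)
      have hsym : ∀ v w : ℂ, fderiv ℝ (fderiv ℝ F) z v w = fderiv ℝ (fderiv ℝ F) z w v := by
        have := (hF.contDiffAt hUn).isSymmSndFDerivAt (by simp)
        exact this
      have hχd : HasFDerivAt (fun z => (χ z : ℂ)) (Complex.ofRealCLM.comp (fderiv ℝ χ z)) z :=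
        Complex.ofRealCLM.hasFDerivAt.comp z
          ((hχ.differentiable one_ne_zero) z).hasFDerivAt
      have hev : ∀ v : ℂ, HasFDerivAt (fun z => fderiv ℝ F z v)
          ((ContinuousLinearMap.apply ℝ ℂ v).comp (fderiv ℝ (fderiv ℝ F) z)) z := fun v =>
        (ContinuousLinearMap.apply ℝ ℂ v).hasFDerivAt.comp z hd2.hasFDerivAt
      have hinv : HasFDerivAt (fun z => (F z)⁻¹) _ z :=
        (hasFDerivAt_inv' (𝕜 := ℝ) hFz).comp z hd.hasFDerivAt
      have hq : ∀ v : ℂ, HasFDerivAt (fun z => (χ z : ℂ) * (fderiv ℝ F z v * (F z)⁻¹)) _ z :=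
        fun v => hχd.mul ((hev v).mul hinv)
      simp only [div_eq_mul_inv]
      rw [(hq I).fderiv, (hq 1).fderiv]
      simp only [jac, _root_.add_apply, _root_.smul_apply,
        ContinuousLinearMap.comp_apply, _root_.neg_apply, smul_eq_mul,
        Complex.ofRealCLM_apply, ContinuousLinearMap.apply_apply,
        ContinuousLinearMap.mulLeftRight_apply]
      rw [hsym 1 I]
      ring
    · rw [jac_supp hz, zero_div]
      have h1 : ∀ v w : ℂ, fderiv ℝ (fun z => (χ z : ℂ) * (fderiv ℝ F z v / F z)) z w = 0 := by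
        intro v w
        have : (fun z => (χ z : ℂ) * (fderiv ℝ F z v / F z)) =ᶠ[𝓝 z] fun _ => 0 := by
          have := (isClosed_tsupport χ).isOpen_compl.mem_nhds hz
          filter_upwards [this] with y hy
          rw [image_eq_zero_of_notMem_tsupport hy]; simp
        rw [this.fderiv_eq]; simp
      rw [h1, h1, sub_zero]
  have hI : ∀ v w : ℂ, Integrable fun z =>
      fderiv ℝ (fun z => (χ z : ℂ) * (fderiv ℝ F z v / F z)) z w := fun v w => by
    have hc : Continuous fun z =>
        fderiv ℝ (fun z => (χ z : ℂ) * (fderiv ℝ F z v / F z)) z w :=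
      ((hβ v).continuous_fderiv one_ne_zero).clm_apply continuous_const
    refine hc.integrable_of_hasCompactSupport ?_
    have h1 := (hβs v).fderiv (𝕜 := ℝ)
    refine h1.mono ?_
    intro z hz
    rw [Function.mem_support] at hz ⊢
    intro h0; exact hz (by rw [h0]; rfl)
  have hfun : (fun z => jac χ F z / F z) = fun z =>
      fderiv ℝ (fun z => (χ z : ℂ) * (fderiv ℝ F z I / F z)) z 1 -
      fderiv ℝ (fun z => (χ z : ℂ) * (fderiv ℝ F z 1 / F z)) z I := funext key
  rw [hfun]
  refine ⟨(hI I 1).sub (hI 1 I), ?_⟩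
  rw [integral_sub (hI I 1) (hI 1 I), integral_fderiv_zero (hβ I) (hβs I),
    integral_fderiv_zero (hβ 1) (hβs 1), sub_zero]

end

end Crest.Agent.R235.Wind_688
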