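import Mathlib

/-!
# Row 235 (helper464): winding numbers of loops in `ℂ ∖ 0` (continuous version)

A loop is a `2π`-periodic continuous map `g : ℝ → ℂ` without zeros.  `IsWind g n` says that it has
a continuous logarithm `L` with `L (t + 2π) = L t + 2π n i`.

Main results: existence and uniqueness of `n`, products, inverses, powers, conjugates, homotopy
invariance, Rouché, the integral formula for `C¹` loops, circles in an annulus, `z ^ m * exp S`.
-/

set_option autoImplicit false

open Set Function Filter Topology MeasureTheory Complex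
open scoped Real Topology

noncomputable section

namespace Crest.Agent.R235.Wind_464

/-- `g` is a loop of winding number `n`. -/
def IsWind (g : ℝ → ℂ) (n : ℤ) : Prop :=
  ∃ L : ℝ → ℂ, Continuous L ∧ (∀ t, exp (L t) = g t) ∧
    ∀ t, L (t + 2 * π) = L t + 2 * π * n * I

/-- a continuous function with values in `2πiℤ` on a connected space is constant. -/
theorem const_of_int {X : Type*} [TopologicalSpace X] [PreconnectedSpace X] (f : X → ℂ)
    (hf : Continuous f) (h : ∀ x, ∃ n : ℤ, f x = n * (2 * π * I)) (x y : X) : f x = f y := by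
  have h1 : ∀ x, ∃ n : ℤ, (f x / (2 * π * I)).re = n := by
    intro x
    obtain ⟨n, hn⟩ := h x
    refine ⟨n, ?_⟩
    have : (2 * π * I : ℂ) ≠ 0 := by simp [Real.pi_ne_zero]
    rw [hn, mul_div_assoc, div_self this, mul_one]
    simp
  choose m hm using h1
  have hc : Continuous fun x => (f x / (2 * π * I)).re :=
    continuous_re.comp (hf.div_const _)
  have hmc : Continuous m := by
    have h2 : Continuous fun x => ((m x : ℤ) : ℝ) := by
      have : (fun x => ((m x : ℤ) : ℝ)) = fun x => (f x / (2 * π * I)).re := by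
        funext x; rw [hm]
      rw [this]; exact hc
    exact Int.isClosedEmbedding_coe_real.isEmbedding.continuous_iff.2 h2
  have h3 : m x = m y := PreconnectedSpace.constant (by infer_instance) hmc
  obtain ⟨n, hn⟩ := h x
  obtain ⟨k, hk⟩ := h y
  have hne : (2 * π * I : ℂ) ≠ 0 := by simp [Real.pi_ne_zero]
  have e1 : m x = n := by
    have := hm x
    rw [hn, mul_div_assoc, div_self hne, mul_one] at this
    simpa using this.symm
  have e2 : m y = k := by
    have := hm y
    rw [hk, mul_div_assoc, div_self hne, mul_one] at this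
    simpa using this.symm
  rw [hn, hk, ← e1, ← e2, h3]

theorem exp_eq_iff {a b : ℂ} : exp a = exp b ↔ ∃ n : ℤ, a = b + n * (2 * π * I) :=
  Complex.exp_eq_exp_iff_exists_int

/-- every loop without zeros has a winding number. -/
theorem exists_isWind {g : ℝ → ℂ} (hg : Continuous g) (h0 : ∀ t, g t ≠ 0)
    (hp : ∀ t, g (t + 2 * π) = g t) : ∃ n : ℤ, IsWind g n := by
  obtain ⟨L, hL, hL2⟩ := Complex.exists_continuousOn_eqOn_exp_comp (U := (univ : Set ℝ))
    (g := g) (by
      have : ContractibleSpace (univ : Set ℝ) :=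
        (convex_univ (𝕜 := ℝ) (E := ℝ)).contractibleSpace ⟨0, mem_univ _⟩
      exact SimplyConnectedSpace.ofContractible _) isOpen_univ hg.continuousOn (by
      rintro ⟨t, -, ht⟩
      exact h0 t ht)
  have hLc : Continuous L := continuousOn_univ.1 hL
  have he : ∀ t, exp (L t) = g t := fun t => hL2 (mem_univ t)
  have hd : ∀ t, ∃ n : ℤ, L (t + 2 * π) - L t = n * (2 * π * I) := by
    intro t
    have : exp (L (t + 2 * π)) = exp (L t) := by rw [he, he, hp]
    obtain ⟨n, hn⟩ := exp_eq_iff.1 this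
    exact ⟨n, by rw [hn]; ring⟩
  have hconst := const_of_int (fun t => L (t + 2 * π) - L t)
    ((hLc.comp (by fun_prop)).sub hLc) hd
  obtain ⟨n, hn⟩ := hd 0
  refine ⟨n, L, hLc, he, fun t => ?_⟩
  have h1 : L (t + 2 * π) - L t = L (0 + 2 * π) - L 0 := hconst t 0
  rw [hn] at h1
  linear_combination h1

namespace IsWind

variable {g f : ℝ → ℂ} {n m : ℤ}

theorem continuous (h : IsWind g n) : Continuous g := by
  obtain ⟨L, hL, he, -⟩ := h
  have : g = fun t => exp (L t) := by funext t; rw [he]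
  rw [this]
  exact hL.cexp

theorem ne_zero (h : IsWind g n) (t : ℝ) : g t ≠ 0 := by
  obtain ⟨L, hL, he, -⟩ := h
  rw [← he]
  exact exp_ne_zero _

theorem periodic (h : IsWind g n) (t : ℝ) : g (t + 2 * π) = g t := by
  obtain ⟨L, hL, he, hn⟩ := h
  rw [← he, ← he, hn]
  exact exp_eq_iff.2 ⟨n, by ring⟩

theorem unique (h : IsWind g n) (h' : IsWind g m) : n = m := by
  obtain ⟨L, hL, he, hn⟩ := h
  obtain ⟨L', hL', he', hm⟩ := h'
  have hd : ∀ t, ∃ k : ℤ, L t - L' t = k * (2 * π * I) := by
    intro t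
    have : exp (L t) = exp (L' t) := by rw [he, he']
    obtain ⟨k, hk⟩ := exp_eq_iff.1 this
    exact ⟨k, by rw [hk]; ring⟩
  have h1 : L (0 + 2 * π) - L' (0 + 2 * π) = L 0 - L' 0 :=
    const_of_int (fun t => L t - L' t) (hL.sub hL') hd (0 + 2 * π) 0
  rw [hn, hm] at h1
  have hne : (2 * π * I : ℂ) ≠ 0 := by simp [Real.pi_ne_zero]
  have h2 : (n : ℂ) * (2 * π * I) = m * (2 * π * I) := by linear_combination h1
  exact_mod_cast mul_right_cancel₀ hne h2

theorem mul (h : IsWind g n) (h' : IsWind f m) : IsWind (fun t => g t * f t) (n + m) := by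
  obtain ⟨L, hL, he, hn⟩ := h
  obtain ⟨L', hL', he', hm⟩ := h'
  refine ⟨fun t => L t + L' t, hL.add hL', fun t => by rw [exp_add, he, he'], fun t => ?_⟩
  beta_reduce
  rw [hn, hm]
  push_cast
  ring

theorem inv (h : IsWind g n) : IsWind (fun t => (g t)⁻¹) (-n) := by
  obtain ⟨L, hL, he, hn⟩ := h
  refine ⟨fun t => - L t, hL.neg, fun t => by rw [exp_neg, he], fun t => ?_⟩
  beta_reduce
  rw [hn]
  push_cast
  ring

theorem div (h : IsWind g n) (h' : IsWind f m) : IsWind (fun t => g t / f t) (n - m) := by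
  have := h.mul h'.inv
  simpa [div_eq_mul_inv, sub_eq_add_neg] using this

theorem conj (h : IsWind g n) : IsWind (fun t => (starRingEnd ℂ) (g t)) (-n) := by
  obtain ⟨L, hL, he, hn⟩ := h
  refine ⟨fun t => (starRingEnd ℂ) (L t), continuous_conj.comp hL,
    fun t => by rw [Complex.exp_conj, he], fun t => ?_⟩
  beta_reduce
  rw [hn]
  simp only [map_add, map_mul, conj_I, map_ofNat, conj_ofReal, map_intCast]
  push_cast
  ring

theorem const {c : ℂ} (hc : c ≠ 0) : IsWind (fun _ => c) 0 :=
  ⟨fun _ => log c, continuous_const, fun _ => exp_log hc, fun t => by simp⟩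

theorem exp_periodic {S : ℝ → ℂ} (hS : Continuous S) (hp : ∀ t, S (t + 2 * π) = S t) :
    IsWind (fun t => exp (S t)) 0 :=
  ⟨S, hS, fun _ => rfl, fun t => by rw [hp]; simp⟩

theorem circle (n : ℤ) : IsWind (fun t => exp (n * t * I)) n :=
  ⟨fun t => n * t * I, by fun_prop, fun _ => rfl, fun t => by push_cast; ring⟩

theorem pow (h : IsWind g n) (k : ℕ) : IsWind (fun t => g t ^ k) (k * n) := by
  obtain ⟨L, hL, he, hn⟩ := h
  refine ⟨fun t => k * L t, continuous_const.mul hL, fun t => ?_, fun t => ?_⟩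
  · beta_reduce
    rw [← he, ← exp_nat_mul]
  · beta_reduce
    rw [hn]
    push_cast
    ring

theorem prod {ι : Type*} (s : Finset ι) (g : ι → ℝ → ℂ) (n : ι → ℤ)
    (h : ∀ i ∈ s, IsWind (g i) (n i)) : IsWind (fun t => ∏ i ∈ s, g i t) (∑ i ∈ s, n i) := by
  classical
  induction s using Finset.induction_on with
  | empty => simpa using const one_ne_zero
  | insert a s ha ih =>
    have h1 := (h a (Finset.mem_insert_self a s)).mul
      (ih fun i hi => h i (Finset.mem_insert_of_mem hi))
    simpa [Finset.prod_insert ha, Finset.sum_insert ha] using h1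

theorem congr (h : IsWind g n) (hfg : ∀ t, f t = g t) : IsWind f n := by
  have : f = g := funext hfg
  rwa [this]

/-- a loop in the slit plane (in particular in the right half plane) has winding number `0`. -/
theorem of_slit (hg : Continuous g) (hp : ∀ t, g (t + 2 * π) = g t)
    (h : ∀ t, g t ∈ slitPlane) : IsWind g 0 := by
  refine ⟨fun t => log (g t), hg.clog h, fun t => exp_log (slitPlane_ne_zero (h t)), fun t => ?_⟩
  beta_reduce
  rw [hp]
  simp

/-- Rouché. -/
theorem of_close (h : IsWind g n) (hf : Continuous f) (hp : ∀ t, f (t + 2 * π) = f t)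
    (hc : ∀ t, ‖f t - g t‖ < ‖g t‖) : IsWind f n := by
  have hq : IsWind (fun t => f t / g t) 0 := by
    refine of_slit (hf.div h.continuous h.ne_zero) (fun t => by rw [hp, h.periodic]) fun t => ?_
    refine Or.inl ?_
    have h0 := h.ne_zero t
    have h1 : ‖f t / g t - 1‖ < 1 := by
      rw [div_sub_one h0, norm_div, div_lt_one (norm_pos_iff.2 h0)]
      exact hc t
    have h2 : |(f t / g t - 1).re| < 1 := (abs_re_le_norm _).trans_lt h1
    have h3 := (abs_lt.1 h2).1
    simp only [sub_re, one_re] at h3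
    linarith
  have h1 := hq.mul h
  rw [zero_add] at h1
  exact h1.congr fun t => by rw [div_mul_cancel₀ _ (h.ne_zero t)]

/-- shifting the parameter. -/
theorem shift (h : IsWind g n) (a : ℝ) : IsWind (fun t => g (t + a)) n := by
  obtain ⟨L, hL, he, hn⟩ := h
  refine ⟨fun t => L (t + a), hL.comp (by fun_prop), fun t => he _, fun t => ?_⟩
  beta_reduce
  rw [show t + 2 * π + a = t + a + 2 * π by ring, hn]

/-- reversing the parameter. -/
theorem rev (h : IsWind g n) : IsWind (fun t => g (-t)) (-n) := by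
  obtain ⟨L, hL, he, hn⟩ := h
  refine ⟨fun t => L (-t), hL.comp (by fun_prop), fun t => he _, fun t => ?_⟩
  have := hn (-(t + 2 * π))
  rw [show -(t + 2 * π) + 2 * π = -t by ring] at this
  beta_reduce
  rw [this]
  push_cast
  ring

/-- `k`-fold traversal. -/
theorem comp_mul (h : IsWind g n) (k : ℕ) : IsWind (fun t => g (k * t)) (k * n) := by
  obtain ⟨L, hL, he, hn⟩ := h
  refine ⟨fun t => L (k * t), hL.comp (by fun_prop), fun t => he _, fun t => ?_⟩
  have key : ∀ j : ℕ, L (k * t + j * (2 * π)) = L (k * t) + 2 * π * (j * n) * I := by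
    intro j
    induction j with
    | zero => simp
    | succ j ih =>
      rw [show (k : ℝ) * t + ((j + 1 : ℕ) : ℝ) * (2 * π) = (k * t + j * (2 * π)) + 2 * π by
        push_cast; ring, hn, ih]
      push_cast
      ring
  have := key k
  beta_reduce
  rw [show (k : ℝ) * (t + 2 * π) = k * t + k * (2 * π) by ring, this]
  push_cast
  ring

end IsWind

/-- homotopy invariance: `s ∈ S` preconnected parameter set. -/
theorem isWind_homotopy {S : Set ℝ} (hS : IsPreconnected S) {H : ℝ × ℝ → ℂ}
    (hH : ContinuousOn H (univ ×ˢ S)) (h0 : ∀ t, ∀ s ∈ S, H (t, s) ≠ 0)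
    (hp : ∀ t, ∀ s ∈ S, H (t + 2 * π, s) = H (t, s)) {a b : ℝ} (ha : a ∈ S) (hb : b ∈ S) {n : ℤ}
    (h : IsWind (fun t => H (t, a)) n) : IsWind (fun t => H (t, b)) n := by
  -- the winding number is a locally constant function of `s`
  have hex : ∀ s : S, ∃ m : ℤ, IsWind (fun t => H (t, s)) m := fun s =>
    exists_isWind (by
      have := hH.comp (f := fun t : ℝ => (t, (s : ℝ))) (s := univ) (by fun_prop)
        (fun t _ => ⟨mem_univ _, s.2⟩)
      exact continuousOn_univ.1 this) (fun t => h0 t s s.2) (fun t => hp t s s.2)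
  choose w hw using hex
  have hcont : Continuous w := by
    refine continuous_iff_continuousAt.2 fun s => ?_
    -- uniform closeness on the compact circle
    have hloc : ∀ᶠ r : S in 𝓝 s, ∀ t ∈ Icc (0 : ℝ) (2 * π),
        ‖H (t, r) - H (t, s)‖ < ‖H (t, s)‖ := by
      have hF : Continuous fun p : S × ℝ => ‖H (p.2, s)‖ - ‖H (p.2, p.1) - H (p.2, s)‖ := by
        have c1 : Continuous fun p : S × ℝ => H (p.2, (p.1 : ℝ)) := by
          have := hH.comp (f := fun p : S × ℝ => (p.2, (p.1 : ℝ))) (s := univ) (by fun_prop)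
            (fun p _ => ⟨mem_univ _, p.1.2⟩)
          exact continuousOn_univ.1 this
        have c2 : Continuous fun p : S × ℝ => H (p.2, (s : ℝ)) := by
          have := hH.comp (f := fun p : S × ℝ => (p.2, (s : ℝ))) (s := univ) (by fun_prop)
            (fun p _ => ⟨mem_univ _, s.2⟩)
          exact continuousOn_univ.1 this
        exact c2.norm.sub (c1.sub c2).norm
      have hK : IsCompact (Icc (0 : ℝ) (2 * π)) := isCompact_Icc
      have hev : ∀ t ∈ Icc (0 : ℝ) (2 * π), ∀ᶠ p : S × ℝ in 𝓝 (s, t),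
          ‖H (p.2, p.1) - H (p.2, s)‖ < ‖H (p.2, s)‖ := by
        intro t _
        have : 0 < ‖H (t, s)‖ - ‖H (t, s) - H (t, s)‖ := by
          simpa using h0 t s s.2
        have h1 := (hF.continuousAt (x := (s, t))).eventually (lt_mem_nhds this)
        filter_upwards [h1] with p hp
        linarith [hp]
      have := hK.eventually_forall_of_forall_eventually (x₀ := s)
        (P := fun (r : S) (t : ℝ) => ‖H (t, r) - H (t, s)‖ < ‖H (t, s)‖) hev
      exact this
    refine ContinuousAt.congr (f := fun _ => w s) continuousAt_const ?_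
    filter_upwards [hloc] with r hr
    have hcl : ∀ t, ‖H (t, r) - H (t, s)‖ < ‖H (t, s)‖ := by
      intro t
      have hpos : (0 : ℝ) < 2 * π := by positivity
      obtain ⟨u, hu, k, hk⟩ : ∃ u ∈ Icc (0 : ℝ) (2 * π), ∃ k : ℤ, t = u + k * (2 * π) := by
        refine ⟨toIcoMod hpos 0 t, ?_, toIcoDiv hpos 0 t, ?_⟩
        · have := toIcoMod_mem_Ico' hpos t
          exact ⟨this.1, this.2.le⟩
        · have := toIcoMod_add_toIcoDiv_zsmul hpos 0 t
          rw [zsmul_eq_mul] at this
          exact this.symm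
      have hper : ∀ (r : S) (k : ℤ), H (u + k * (2 * π), r) = H (u, r) := by
        intro r k
        have hP : Function.Periodic (fun t => H (t, r)) (2 * π) := fun t => hp t r r.2
        have := hP.int_mul k u
        simpa using this
      rw [hk, hper, hper]
      exact hr u hu
    exact ((hw s).of_close (hw r).continuous (hw r).periodic hcl).unique (hw r)
  have : PreconnectedSpace S := isPreconnected_iff_preconnectedSpace.1 hS
  have h1 : w ⟨a, ha⟩ = w ⟨b, hb⟩ := PreconnectedSpace.constant (by infer_instance) hcont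
  have h2 : w ⟨a, ha⟩ = n := (hw ⟨a, ha⟩).unique h
  have h3 := hw ⟨b, hb⟩
  rw [← h1, h2] at h3
  exact h3

/-! ### circles -/

/-- the loop of `F` over the circle of radius `r` around `c`. -/
def cir (F : ℂ → ℂ) (c : ℂ) (r : ℝ) (t : ℝ) : ℂ := F (c + r * exp (t * I))

theorem cir_periodic (F : ℂ → ℂ) (c : ℂ) (r t : ℝ) : cir F c r (t + 2 * π) = cir F c r t := by
  unfold cir
  congr 3
  exact exp_eq_iff.2 ⟨1, by push_cast; ring⟩

theorem norm_circ (r t : ℝ) : ‖(r * exp (t * I) : ℂ)‖ = |r| := by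
  rw [norm_mul, norm_exp_ofReal_mul_I, mul_one, norm_real, Real.norm_eq_abs]

theorem circ_mem (c : ℂ) {r : ℝ} (hr : 0 ≤ r) (t : ℝ) :
    c + r * exp (t * I) ∈ Metric.sphere c r := by
  simp [norm_circ, abs_of_nonneg hr]

theorem continuous_cir {F : ℂ → ℂ} {c : ℂ} {r : ℝ} (hr : 0 ≤ r)
    (hF : ContinuousOn F (Metric.sphere c r)) : Continuous (cir F c r) := by
  have := hF.comp (f := fun t : ℝ => c + r * exp (t * I)) (s := univ) (by fun_prop)
    (fun t _ => circ_mem c hr t)
  exact continuousOn_univ.1 this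

/-- every non-vanishing continuous function on a circle has a winding number. -/
theorem exists_cir {F : ℂ → ℂ} {c : ℂ} {r : ℝ} (hr : 0 ≤ r)
    (hF : ContinuousOn F (Metric.sphere c r)) (h0 : ∀ z ∈ Metric.sphere c r, F z ≠ 0) :
    ∃ n : ℤ, IsWind (cir F c r) n :=
  exists_isWind (continuous_cir hr hF) (fun t => h0 _ (circ_mem c hr t)) (cir_periodic F c r)

/-- the winding number does not depend on the radius. -/
theorem cir_radius {F : ℂ → ℂ} {c : ℂ} {S : Set ℝ} (hS : IsPreconnected S)
    (hpos : ∀ r ∈ S, 0 ≤ r) (hF : ContinuousOn F {z | ‖z - c‖ ∈ S})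
    (h0 : ∀ z, ‖z - c‖ ∈ S → F z ≠ 0) {a b : ℝ} (ha : a ∈ S) (hb : b ∈ S) {n : ℤ}
    (h : IsWind (cir F c a) n) : IsWind (cir F c b) n := by
  have hmem : ∀ t : ℝ, ∀ s ∈ S, c + s * exp (t * I) ∈ {z | ‖z - c‖ ∈ S} := by
    intro t s hs
    simp only [mem_setOf_eq, add_sub_cancel_left, norm_circ, abs_of_nonneg (hpos s hs)]
    exact hs
  refine isWind_homotopy hS (H := fun p : ℝ × ℝ => F (c + p.2 * exp (p.1 * I))) ?_ ?_ ?_ ha hb h
  · refine hF.comp (by fun_prop) ?_
    rintro ⟨t, s⟩ ⟨-, hs⟩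
    exact hmem t s hs
  · intro t s hs
    exact h0 _ (hmem t s hs)
  · intro t s hs
    exact cir_periodic F c s t

/-- a continuous function without zeros on the closed disc has winding number `0`. -/
theorem cir_disc {F : ℂ → ℂ} {c : ℂ} {r : ℝ} (hr : 0 ≤ r)
    (hF : ContinuousOn F (Metric.closedBall c r)) (h0 : ∀ z ∈ Metric.closedBall c r, F z ≠ 0) :
    IsWind (cir F c r) 0 := by
  have hS : ∀ z, ‖z - c‖ ∈ Icc (0 : ℝ) r ↔ z ∈ Metric.closedBall c r := by
    intro z
    simp [dist_eq_norm]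
  refine cir_radius (S := Icc (0 : ℝ) r) isPreconnected_Icc (fun s hs => hs.1) ?_ ?_
    (a := 0) (b := r) ⟨le_refl _, hr⟩ ⟨hr, le_refl _⟩ ?_
  · refine hF.mono fun z hz => (hS z).1 hz
  · exact fun z hz => h0 z ((hS z).1 hz)
  · refine (IsWind.const (c := F c) (h0 c (by simpa using hr))).congr fun t => ?_
    simp [cir]

theorem cir_sub_center (c : ℂ) {r : ℝ} (hr : r ≠ 0) : IsWind (cir (fun z => z - c) c r) 1 := by
  have h := (IsWind.const (c := (r : ℂ)) (by exact_mod_cast hr)).mul (IsWind.circle 1)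
  rw [zero_add] at h
  refine h.congr fun t => ?_
  simp [cir]

/-- `(z - c) ^ m * E z` with `E` continuous and non-vanishing on the closed disc. -/
theorem cir_pow_mul {F E : ℂ → ℂ} {c : ℂ} {r : ℝ} (hr : 0 < r) (m : ℕ)
    (hE : ContinuousOn E (Metric.closedBall c r)) (h0 : ∀ z ∈ Metric.closedBall c r, E z ≠ 0)
    (hF : ∀ z ∈ Metric.sphere c r, F z = (z - c) ^ m * E z) : IsWind (cir F c r) m := by
  have h1 := ((cir_sub_center c hr.ne').pow m).mul (cir_disc hr.le hE h0)
  rw [mul_one, add_zero] at h1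
  refine h1.congr fun t => ?_
  unfold cir
  rw [hF _ (circ_mem c hr.le t)]

/-- Rouché on a circle. -/
theorem cir_close {F G : ℂ → ℂ} {c : ℂ} {r : ℝ} (hr : 0 ≤ r) {n : ℤ} (h : IsWind (cir F c r) n)
    (hG : ContinuousOn G (Metric.sphere c r))
    (hc : ∀ z ∈ Metric.sphere c r, ‖G z - F z‖ < ‖F z‖) : IsWind (cir G c r) n :=
  h.of_close (continuous_cir hr hG) (cir_periodic G c r) fun t => hc _ (circ_mem c hr t)

theorem cir_congr {F G : ℂ → ℂ} {c : ℂ} {r : ℝ} (hr : 0 ≤ r) {n : ℤ} (h : IsWind (cir F c r) n)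
    (hc : ∀ z ∈ Metric.sphere c r, G z = F z) : IsWind (cir G c r) n :=
  h.congr fun t => hc _ (circ_mem c hr t)

/-- a holomorphic function on a ball, not identically zero there, vanishing to order `≥ m` at the
centre and without other zeros, has winding number `≥ m`. -/
theorem cir_holo {F : ℂ → ℂ} {c : ℂ} {R : ℝ} (hR : 0 < R)
    (hF : DifferentiableOn ℂ F (Metric.ball c R)) (h0 : ∀ z ∈ Metric.ball c R, z ≠ c → F z ≠ 0)
    (m : ℕ) (hm : F =O[𝓝 c] fun z => (z - c) ^ m) {r : ℝ} (hr : 0 < r) (hrR : r < R) :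
    ∃ n : ℕ, m ≤ n ∧ IsWind (cir F c r) n := by
  have hana : AnalyticAt ℂ F c := hF.analyticAt (Metric.isOpen_ball.mem_nhds
    (Metric.mem_ball_self hR))
  have hne : ∃ᶠ z in 𝓝[≠] c, F z ≠ 0 := by
    refine Filter.Eventually.frequently ?_
    filter_upwards [self_mem_nhdsWithin, mem_nhdsWithin_of_mem_nhds
      (Metric.ball_mem_nhds c hR)] with z hz hz2
    exact h0 z hz2 hz
  have hord : analyticOrderAt F c ≠ ⊤ := by
    intro h
    rw [analyticOrderAt_eq_top] at h
    exact hne (h.filter_mono nhdsWithin_le_nhds |>.mono fun z hz h => h hz)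
  obtain ⟨g, hg, hg0, hgF⟩ := (hana.analyticOrderAt_ne_top).1 hord
  set n := analyticOrderNatAt F c with hn
  -- winding number on a small circle
  obtain ⟨e, he, hE⟩ : ∃ e > 0, (∀ z ∈ Metric.closedBall c e, ContinuousAt g z ∧ g z ≠ 0 ∧
      F z = (z - c) ^ n • g z) ∧ e < R := by
    have h1 : ∀ᶠ z in 𝓝 c, ContinuousAt g z ∧ g z ≠ 0 ∧ F z = (z - c) ^ n • g z :=
      (hg.eventually_continuousAt).and ((hg.continuousAt.eventually_ne hg0).and hgF)
    obtain ⟨e, he, h2⟩ := Metric.eventually_nhds_iff_ball.1 h1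
    refine ⟨min (e / 2) (R / 2), by positivity, fun z hz => h2 z ?_, ?_⟩
    · refine Metric.closedBall_subset_ball ?_ hz
      exact (min_le_left _ _).trans_lt (by linarith)
    · exact (min_le_right _ _).trans_lt (by linarith)
  obtain ⟨hE, heR⟩ := hE
  have h1 : IsWind (cir F c e) n := cir_pow_mul he n
    (fun z hz => (hE z hz).1.continuousWithinAt) (fun z hz => (hE z hz).2.1)
    (fun z hz => by rw [(hE z (Metric.sphere_subset_closedBall hz)).2.2, smul_eq_mul])
  refine ⟨n, ?_, ?_⟩
  · -- order comparison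
    by_contra hlt
    push_neg at hlt
    have h3 : (fun z => (z - c) ^ n * g z) =O[𝓝[≠] c] fun z => (z - c) ^ m := by
      refine (hm.mono nhdsWithin_le_nhds).congr' ?_ EventuallyEq.rfl
      filter_upwards [hgF.filter_mono nhdsWithin_le_nhds] with z hz
      rw [hz, smul_eq_mul]
    have h4 : (fun z => g z) =O[𝓝[≠] c] fun z => (z - c) ^ (m - n) := by
      obtain ⟨C, hC⟩ := h3.bound
      refine Asymptotics.IsBigO.of_bound C ?_
      filter_upwards [hC, self_mem_nhdsWithin] with z hz hz2
      have hz3 : 0 < ‖z - c‖ ^ n := by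
        have : z - c ≠ 0 := sub_ne_zero.2 hz2
        positivity
      rw [norm_mul, norm_pow, norm_pow, ← Nat.add_sub_of_le hlt.le, pow_add] at hz
      rw [norm_pow]
      refine le_of_mul_le_mul_left ?_ hz3
      calc ‖z - c‖ ^ n * ‖g z‖ ≤ _ := hz
        _ = _ := by ring
    have h5 : Tendsto (fun z => (z - c) ^ (m - n)) (𝓝[≠] c) (𝓝 0) := by
      have : Tendsto (fun z : ℂ => (z - c) ^ (m - n)) (𝓝 c) (𝓝 ((c - c) ^ (m - n))) := by
        have hc : Continuous fun z : ℂ => (z - c) ^ (m - n) := by fun_prop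
        exact hc.tendsto c
      rw [sub_self, zero_pow (by omega)] at this
      exact this.mono_left nhdsWithin_le_nhds
    have h6 : Tendsto g (𝓝[≠] c) (𝓝 0) := h4.trans_tendsto h5
    have h7 : Tendsto g (𝓝[≠] c) (𝓝 (g c)) := hg.continuousAt.mono_left nhdsWithin_le_nhds
    exact hg0 (tendsto_nhds_unique h7 h6)
  · refine cir_radius (S := Ioo (0 : ℝ) R) isPreconnected_Ioo (fun s hs => hs.1.le) ?_ ?_
      (a := e) (b := r) ⟨he, heR⟩ ⟨hr, hrR⟩ h1
    · refine hF.continuousOn.mono fun z hz => ?_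
      rw [Metric.mem_ball, dist_eq_norm]
      exact hz.2
    · intro z hz
      refine h0 z ?_ ?_
      · rw [Metric.mem_ball, dist_eq_norm]
        exact hz.2
      · rintro rfl
        simp at hz

/-- `F = E * h`, `E` continuous non-vanishing on the ball, `h` holomorphic. -/
theorem cir_sim {F E h : ℂ → ℂ} {c : ℂ} {R : ℝ} (hR : 0 < R)
    (hE : ContinuousOn E (Metric.ball c R)) (hE0 : ∀ z ∈ Metric.ball c R, E z ≠ 0)
    (hh : DifferentiableOn ℂ h (Metric.ball c R))
    (hF : ∀ z ∈ Metric.ball c R, F z = E z * h z)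
    (h0 : ∀ z ∈ Metric.ball c R, z ≠ c → F z ≠ 0)
    (m : ℕ) (hm : F =O[𝓝[≠] c] fun z => (z - c) ^ m) {r : ℝ} (hr : 0 < r) (hrR : r < R) :
    ∃ n : ℕ, m ≤ n ∧ IsWind (cir F c r) n := by
  have hcb : c ∈ Metric.ball c R := Metric.mem_ball_self hR
  -- `h = O((z - c) ^ m)`
  have hcont : ContinuousAt E c := hE.continuousAt (Metric.ball_mem_nhds c hR)
  have hEc : 0 < ‖E c‖ := norm_pos_iff.2 (hE0 c hcb)
  have hbig : h =O[𝓝[≠] c] fun z => (z - c) ^ m := by
    obtain ⟨C, hC⟩ := hm.bound
    refine Asymptotics.IsBigO.of_bound (C * (2 / ‖E c‖)) ?_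
    have h1 : ∀ᶠ z in 𝓝[≠] c, ‖E c‖ / 2 < ‖E z‖ :=
      (hcont.norm.eventually (lt_mem_nhds (by linarith : ‖E c‖ / 2 < ‖E c‖))).filter_mono
        nhdsWithin_le_nhds
    filter_upwards [hC, h1, mem_nhdsWithin_of_mem_nhds (Metric.ball_mem_nhds c hR)]
      with z hz hz1 hz2
    rw [hF z hz2, norm_mul] at hz
    have h3 : 0 ≤ C * ‖(z - c) ^ m‖ := le_trans (by positivity) hz
    have h4 : ‖E c‖ / 2 * ‖h z‖ ≤ C * ‖(z - c) ^ m‖ := by
      refine le_trans ?_ hz
      gcongr
    calc ‖h z‖ = (2 / ‖E c‖) * (‖E c‖ / 2 * ‖h z‖) := by field_simp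
      _ ≤ (2 / ‖E c‖) * (C * ‖(z - c) ^ m‖) := by gcongr
      _ = _ := by ring
  have hbig' : h =O[𝓝 c] fun z => (z - c) ^ m := by
    rcases Nat.eq_zero_or_pos m with rfl | hm0
    · simp only [pow_zero]
      exact (hh.continuousOn.continuousAt (Metric.ball_mem_nhds c hR)).isBigO_one _
    · have hc0 : h c = 0 := by
        have h5 : Tendsto (fun z : ℂ => (z - c) ^ m) (𝓝[≠] c) (𝓝 0) := by
          have : Tendsto (fun z : ℂ => (z - c) ^ m) (𝓝 c) (𝓝 ((c - c) ^ m)) := by
            have hc : Continuous fun z : ℂ => (z - c) ^ m := by fun_prop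
            exact hc.tendsto c
          rw [sub_self, zero_pow hm0.ne'] at this
          exact this.mono_left nhdsWithin_le_nhds
        have h6 := hbig.trans_tendsto h5
        have h7 : Tendsto h (𝓝[≠] c) (𝓝 (h c)) :=
          (hh.continuousOn.continuousAt (Metric.ball_mem_nhds c hR)).mono_left nhdsWithin_le_nhds
        exact tendsto_nhds_unique h7 h6
      obtain ⟨C, hC⟩ := hbig.bound
      refine Asymptotics.IsBigO.of_bound C ?_
      rw [eventually_nhdsWithin_iff] at hC
      filter_upwards [hC] with z hz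
      rcases eq_or_ne z c with rfl | hne
      · rw [hc0]
        simp [zero_pow hm0.ne']
      · exact hz hne
  obtain ⟨n, hn, hw⟩ := cir_holo hR hh (fun z hz hne h0z => h0 z hz hne (by rw [hF z hz, h0z,
    mul_zero])) m hbig' hr hrR
  refine ⟨n, hn, ?_⟩
  have hsub : Metric.closedBall c r ⊆ Metric.ball c R := Metric.closedBall_subset_ball hrR
  have h1 := (cir_disc hr.le (hE.mono hsub) fun z hz => hE0 z (hsub hz)).mul hw
  rw [zero_add] at h1
  refine h1.congr fun t => ?_
  unfold cir
  rw [hF _ (hsub (Metric.sphere_subset_closedBall (circ_mem c hr.le t)))]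

/-! ### the integral formula -/

/-- the integral formula for `C¹` loops. -/
theorem IsWind.integral {g : ℝ → ℂ} {n : ℤ} (h : IsWind g n) (hg : ContDiff ℝ 1 g) (a : ℝ) :
    ∫ t in a..(a + 2 * π), deriv g t / g t = 2 * π * n * I := by
  obtain ⟨L, hL, he, hn⟩ := h
  have h0 : ∀ t, g t ≠ 0 := fun t => by rw [← he]; exact exp_ne_zero _
  have hcont : Continuous fun t => deriv g t / g t :=
    (hg.continuous_deriv le_rfl).div hg.continuous h0
  -- `P t = ∫ g'/g`, `exp (P t) = g t / g a`
  set P : ℝ → ℂ := fun t => ∫ s in a..t, deriv g s / g s with hP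
  have hPd : ∀ t, HasDerivAt P (deriv g t / g t) t := fun t =>
    intervalIntegral.integral_hasDerivAt_right (hcont.intervalIntegrable _ _)
      (hcont.stronglyMeasurableAtFilter _ _) hcont.continuousAt
  have hgd : ∀ t, HasDerivAt g (deriv g t) t := fun t =>
    (hg.differentiable one_ne_zero t).hasDerivAt
  have hq : ∀ t, HasDerivAt (fun t => exp (-P t) * g t) 0 t := by
    intro t
    have h1 := ((hPd t).neg.cexp).mul (hgd t)
    refine h1.congr_deriv ?_
    have h2 : deriv g t / g t * g t = deriv g t := div_mul_cancel₀ _ (h0 t)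
    simp only [Pi.neg_apply]
    linear_combination (-exp (-P t)) * h2
  have hq2 : ∀ t, exp (-P t) * g t = exp (-P a) * g a := by
    intro t
    exact is_const_of_deriv_eq_zero (fun t => (hq t).differentiableAt) (fun t => (hq t).deriv) t a
  have hPa : P a = 0 := by simp [hP]
  have hL2 : ∀ t, ∃ k : ℤ, (P t - L t + L a) = k * (2 * π * I) := by
    intro t
    have h1 := hq2 t
    rw [hPa, neg_zero, exp_zero, one_mul, ← he, ← he, ← exp_add] at h1
    obtain ⟨k, hk⟩ := exp_eq_iff.1 h1
    exact ⟨-k, by push_cast; linear_combination -hk⟩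
  have hPc : Continuous P := continuous_iff_continuousAt.2 fun t => (hPd t).continuousAt
  have h2 : P (a + 2 * π) - L (a + 2 * π) + L a = P a - L a + L a :=
    const_of_int (fun t => P t - L t + L a) ((hPc.sub hL).add continuous_const) hL2 _ _
  rw [hPa, hn] at h2
  have h3 : P (a + 2 * π) = 2 * π * n * I := by linear_combination h2
  exact h3

end Crest.Agent.R235.Wind_464
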