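import Crest.Agent.R235.BoxE_266
import Crest.Agent.R235.AdjBoxW_688

/-!
Row 235 (S0364), PACKAGE ADJ: the node `BoxL2_266.WINDP` (helper688).
-/

set_option autoImplicit false
set_option maxSynthPendingDepth 3

open Set Function Filter MeasureTheory Metric
open scoped Manifold ContDiff Topology

universe u

namespace Crest.Agent.R235.Windp_688

open Crest.Agent.R240 Crest.Agent.R240.Ch Crest.Agent.R240.Int
open Crest.Agent.R235 Crest.Agent.R235.Glob_370 Crest.Agent.R235.Wind_688
open Crest.Agent.R235.Adj Crest.Agent.R235.BoxL2_266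

/-- **WINDP** -/
theorem windp : WINDP.{u} := by
  intro M _ _ _ _ _ _ w J hw hJ c p V B P
  obtain ⟨r0, hr0, -, -, -, mm, h1, h2, h3⟩ := AdjBoxW_688.kappa_wind hw hJ P
  exact ⟨r0, hr0, mm, h1, h2, h3, fun hp v hv hv0 hsep =>
    AdjBoxW_688.other_wind hJ.sq P hp v hv hv0 hsep⟩

end Crest.Agent.R235.Windp_688
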